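import Crest.Agent.R146.Abs_692

/-!
Row 146, PT-CMP (ruling 1155 of helper746), item (ABS), version 2 (helper692): the absorb lemma with the
UNIVERSAL lower band `s P ≥ κ V^{3/2} (1-V)` only, positions derived.

`Prf κ M s V P u`: profile at one time, `s = √chi`; `Lw lam s p Y`: law at one time.
* `u_le`, `w_le`: `u ≤ (2s/κ)(V^{-1/2} - 1)`, `x + u ≤ (2s/κ) V^{1/2}/(1-V)`;
  `u_ge`, `w_ge`: `u ≥ s(1-V)²/(2M)`, `x + u ≥ s V²/(2M)`;
* `pos0`: `v0 ≤ V 0 ≤ 1 - v0`, `v0 = v00 κ M`;  `left_pos`: `(|x|/s) √V ≤ 2/κ` for `x ≤ 0`;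
* `U_le`, `W_le`: `u/s ≤ C0 + x₋/s`, `(x+u)/s ≤ C0 + x₊/s`;
* `absorb_gen`: `∫ p |F| ≤ CG K ∫ p V (1-V)²` for `|F| ≤ CG V` (`x ≤ 0`),
  `|F| ≤ CG (1+x/s)^k (1-V)^e` (`x > 0`);
* `absorb2`: `∫ p (1+|x|/s)^k |F| ≤ CG K ∫ p V (1-V)²` for `|F| ≤ CG V (√V)^k (1-V)^e`.
-/

set_option autoImplicit false

namespace Crest.Agent.R146.Abs2_692

open MeasureTheory Set Filter Topology
open Crest.Agent.R146.Abs_692 (hd_mul_exp hd_lin hd_neg_lin pow_le_exp exp_rpow)

/-- profile at a fixed time with the universal lower band (`s = √chi`) -/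
structure Prf (κ M s : ℝ) (V P u : ℝ → ℝ) : Prop where
  s_pos : 0 < s
  V_x : ∀ x, HasDerivAt V (P x) x
  V_pos : ∀ x, 0 < V x
  V_lt : ∀ x, V x < 1
  P_ge : ∀ x, κ * (V x * Real.sqrt (V x) * (1 - V x)) ≤ s * P x
  P_le : ∀ x, s * P x ≤ M
  u_x : ∀ x, HasDerivAt u (V x - 1) x
  u_pos : ∀ x, 0 < u x
  w_pos : ∀ x, 0 < x + u x
  u_top : Tendsto u atTop (𝓝 0)
  w_bot : Tendsto (fun x => x + u x) atBot (𝓝 0)

/-- law at a fixed time -/
structure Lw (lam s : ℝ) (p Y : ℝ → ℝ) : Prop where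
  p_pos : ∀ x, 0 < p x
  p_x : ∀ x, HasDerivAt p (-(Y x) * p x) x
  Y_ge : ∀ x, -(lam * (1 + max (-x) 0 / s)) ≤ s * Y x
  p_int : Integrable p

section prf

variable {κ M s : ℝ} {V P u : ℝ → ℝ}

theorem Prf.V_cont (h : Prf κ M s V P u) : Continuous V :=
  continuous_iff_continuousAt.2 fun x => (h.V_x x).continuousAt

theorem Prf.P_nonneg (h : Prf κ M s V P u) (hκ : 0 ≤ κ) (x : ℝ) : 0 ≤ P x := by
  have h1 := h.P_ge x
  have h2 : 0 ≤ κ * (V x * Real.sqrt (V x) * (1 - V x)) :=
    mul_nonneg hκ (mul_nonneg (mul_nonneg (h.V_pos x).le (Real.sqrt_nonneg _))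
      (sub_nonneg.2 (h.V_lt x).le))
  by_contra h3
  have h4 := mul_neg_of_pos_of_neg h.s_pos (not_le.1 h3)
  linarith

theorem Prf.V_mono (h : Prf κ M s V P u) (hκ : 0 ≤ κ) : Monotone V :=
  monotone_of_deriv_nonneg (fun x => (h.V_x x).differentiableAt) fun x => by
    rw [(h.V_x x).deriv]; exact h.P_nonneg hκ x

theorem Prf.w_x (h : Prf κ M s V P u) (x : ℝ) : HasDerivAt (fun x => x + u x) (V x) x := by
  have h1 : HasDerivAt (fun x => x + u x) (1 + (V x - 1)) x := (hasDerivAt_id x).add (h.u_x x)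
  have e : (1 : ℝ) + (V x - 1) = V x := by ring
  rwa [e] at h1

theorem Prf.w_mono (h : Prf κ M s V P u) : Monotone fun x => x + u x :=
  monotone_of_deriv_nonneg (fun x => (h.w_x x).differentiableAt) fun x => by
    rw [(h.w_x x).deriv]; exact (h.V_pos x).le

theorem Prf.u_anti (h : Prf κ M s V P u) : Antitone u :=
  antitone_of_deriv_nonpos (fun x => (h.u_x x).differentiableAt) fun x => by
    rw [(h.u_x x).deriv]; linarith [h.V_lt x]

/-- `x + u ≤ (2s/κ) √V/(1-V)` -/
theorem Prf.w_le (h : Prf κ M s V P u) (hκ : 0 < κ) (x : ℝ) :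
    x + u x ≤ 2 * s / κ * (Real.sqrt (V x) / (1 - V x)) := by
  have hs := h.s_pos
  have hd : ∀ y, HasDerivAt (fun y => 2 * s / κ * (Real.sqrt (V y) / (1 - V y)) - (y + u y))
      (2 * s / κ * ((P y / (2 * Real.sqrt (V y)) * (1 - V y) - Real.sqrt (V y) * -P y) /
        (1 - V y) ^ 2) - V y) y := by
    intro y
    have h1 := (h.V_x y).sqrt (h.V_pos y).ne'
    have h2 : HasDerivAt (fun y => 1 - V y) (-P y) y := (h.V_x y).const_sub 1
    have h3 : (1 - V y) ≠ 0 := by linarith [h.V_lt y]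
    exact ((h1.div h2 h3).const_mul (2 * s / κ)).sub (h.w_x y)
  have hm : Monotone fun y => 2 * s / κ * (Real.sqrt (V y) / (1 - V y)) - (y + u y) := by
    refine monotone_of_deriv_nonneg (fun y => (hd y).differentiableAt) fun y => ?_
    rw [(hd y).deriv, sub_nonneg]
    have hV := h.V_pos y
    have hR : 0 < 1 - V y := by linarith [h.V_lt y]
    have hP := h.P_nonneg hκ.le y
    have hr : 0 < Real.sqrt (V y) := Real.sqrt_pos.2 hV
    have hr2 : Real.sqrt (V y) * Real.sqrt (V y) = V y := Real.mul_self_sqrt hV.le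
    have hg := h.P_ge y
    set r := Real.sqrt (V y) with hrdef
    have e1 : 2 * s / κ * ((P y / (2 * r) * (1 - V y) - r * -P y) / (1 - V y) ^ 2) =
        (s * P y) * ((1 - V y) + 2 * (r * r)) / (κ * r * (1 - V y) ^ 2) := by
      field_simp
      ring
    rw [e1, le_div_iff₀ (by positivity), hr2]
    have e2 : V y * (κ * r * (1 - V y) ^ 2) = κ * (V y * r * (1 - V y)) * (1 - V y) := by ring
    rw [e2]
    refine mul_le_mul hg ?_ hR.le (by positivity)
    linarith
  have h5 : Tendsto (fun y => -(y + u y)) atBot (𝓝 0) := by simpa using h.w_bot.neg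
  have h6 : (0 : ℝ) ≤ 2 * s / κ * (Real.sqrt (V x) / (1 - V x)) - (x + u x) := by
    refine le_of_tendsto h5 ?_
    filter_upwards [eventually_le_atBot x] with y hy
    have h7 := hm hy
    simp only at h7
    have hR : 0 < 1 - V y := by linarith [h.V_lt y]
    have h8 : 0 ≤ 2 * s / κ * (Real.sqrt (V y) / (1 - V y)) := by positivity
    linarith
  linarith

/-- `u ≤ (2s/κ) (1/√V - 1)` -/
theorem Prf.u_le (h : Prf κ M s V P u) (hκ : 0 < κ) (x : ℝ) :
    u x ≤ 2 * s / κ * (1 / Real.sqrt (V x) - 1) := by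
  have hs := h.s_pos
  have hd : ∀ y, HasDerivAt (fun y => 2 * s / κ * ((Real.sqrt (V y))⁻¹ - 1) - u y)
      (2 * s / κ * (-(P y / (2 * Real.sqrt (V y))) / Real.sqrt (V y) ^ 2) - (V y - 1)) y := by
    intro y
    have h1 := (h.V_x y).sqrt (h.V_pos y).ne'
    have h3 : Real.sqrt (V y) ≠ 0 := (Real.sqrt_pos.2 (h.V_pos y)).ne'
    exact (((h1.inv h3).sub_const 1).const_mul (2 * s / κ)).sub (h.u_x y)
  have hm : Antitone fun y => 2 * s / κ * ((Real.sqrt (V y))⁻¹ - 1) - u y := by
    refine antitone_of_deriv_nonpos (fun y => (hd y).differentiableAt) fun y => ?_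
    rw [(hd y).deriv]
    have hV := h.V_pos y
    have hR : 0 < 1 - V y := by linarith [h.V_lt y]
    have hr : 0 < Real.sqrt (V y) := Real.sqrt_pos.2 hV
    have hr2 : Real.sqrt (V y) * Real.sqrt (V y) = V y := Real.mul_self_sqrt hV.le
    have hg := h.P_ge y
    set r := Real.sqrt (V y) with hrdef
    have e1 : 2 * s / κ * (-(P y / (2 * r)) / r ^ 2) = -((s * P y) / (κ * (V y * r))) := by
      rw [← hr2]
      field_simp
    have h9 : 1 - V y ≤ (s * P y) / (κ * (V y * r)) := by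
      rw [le_div_iff₀ (by positivity)]
      linarith
    rw [e1]
    linarith
  have h5 : Tendsto (fun y => -u y) atTop (𝓝 0) := by simpa using h.u_top.neg
  have h6 : (0 : ℝ) ≤ 2 * s / κ * ((Real.sqrt (V x))⁻¹ - 1) - u x := by
    refine le_of_tendsto h5 ?_
    filter_upwards [eventually_ge_atTop x] with y hy
    have h7 := hm hy
    simp only at h7
    have hr : 0 < Real.sqrt (V y) := Real.sqrt_pos.2 (h.V_pos y)
    have hr1 : Real.sqrt (V y) ≤ 1 := Real.sqrt_le_one.2 (h.V_lt y).le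
    have h8 : 0 ≤ 2 * s / κ * ((Real.sqrt (V y))⁻¹ - 1) :=
      mul_nonneg (by positivity) (sub_nonneg.2 (one_le_inv_iff₀.2 ⟨hr, hr1⟩))
    linarith
  rw [one_div]
  linarith

/-- a positive function with slope `-g`, `g` Lipschitz from below, is `≥ g²/(2N)` -/
theorem low {f g : ℝ → ℝ} {N : ℝ} (hN : 0 < N) (hf : ∀ y, HasDerivAt f (-(g y)) y)
    (hpos : ∀ y, 0 < f y) (x : ℝ) (hg : ∀ y, x ≤ y → g x - g y ≤ N * (y - x)) (hgx : 0 ≤ g x) :
    g x ^ 2 / (2 * N) ≤ f x := by
  have hd : ∀ y, HasDerivAt (fun y => f y + (g x * (y - x) - N / 2 * (y - x) ^ 2))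
      (-(g y) + (g x * 1 - N / 2 * (((2 : ℕ) : ℝ) * (y - x) ^ (2 - 1) * 1))) y := by
    intro y
    have h1 : HasDerivAt (fun y => y - x) 1 y := (hasDerivAt_id y).sub_const x
    exact (hf y).add ((h1.const_mul (g x)).sub ((h1.pow 2).const_mul (N / 2)))
  have hm : AntitoneOn (fun y => f y + (g x * (y - x) - N / 2 * (y - x) ^ 2)) (Ici x) := by
    refine antitoneOn_of_deriv_nonpos (convex_Ici x)
      (fun y _ => (hd y).continuousAt.continuousWithinAt)
      (fun y _ => (hd y).differentiableAt.differentiableWithinAt) fun y hy => ?_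
    rw [interior_Ici] at hy
    rw [(hd y).deriv]
    have := hg y (le_of_lt hy)
    push_cast
    linarith
  have hL : 0 ≤ g x / N := div_nonneg hgx hN.le
  have h1 := hm (show x ∈ Ici x from le_refl x) (show x + g x / N ∈ Ici x by
    simp only [mem_Ici]; linarith) (by linarith)
  have h2 := hpos (x + g x / N)
  simp only [sub_self, mul_zero, ne_eq, OfNat.ofNat_ne_zero, not_false_eq_true, zero_pow,
    add_zero, add_sub_cancel_left] at h1
  have e : g x * (g x / N) - N / 2 * (g x / N) ^ 2 = g x ^ 2 / (2 * N) := by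
    field_simp
    ring
  linarith

theorem Prf.V_lip (h : Prf κ M s V P u) {x y : ℝ} (hxy : x ≤ y) :
    V y - V x ≤ M / s * (y - x) := by
  have hs := h.s_pos
  exact Convex.image_sub_le_mul_sub_of_deriv_le (f := V) convex_univ h.V_cont.continuousOn
    (fun y _ => (h.V_x y).differentiableAt.differentiableWithinAt) (C := M / s)
    (fun y _ => by
      rw [(h.V_x y).deriv, le_div_iff₀ hs]
      have := h.P_le y
      linarith) x (mem_univ _) y (mem_univ _) hxy

theorem Prf.u_ge (h : Prf κ M s V P u) (hM : 0 < M) (x : ℝ) :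
    s * (1 - V x) ^ 2 / (2 * M) ≤ u x := by
  have hs := h.s_pos
  have h1 := low (f := u) (g := fun y => 1 - V y) (N := M / s) (by positivity)
    (fun y => by
      have := h.u_x y
      simpa only [neg_sub] using this) h.u_pos x
    (fun y hy => by have := h.V_lip hy; linarith) (by linarith [h.V_lt x])
  refine le_trans (le_of_eq ?_) h1
  field_simp

theorem Prf.w_ge (h : Prf κ M s V P u) (hM : 0 < M) (x : ℝ) :
    s * V x ^ 2 / (2 * M) ≤ x + u x := by
  have hs := h.s_pos
  have h1 := low (f := fun y => -y + u (-y)) (g := fun y => V (-y)) (N := M / s) (by positivity)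
    (fun y => by
      have h2 := HasDerivAt.comp y (h.w_x (-y)) (hasDerivAt_neg y)
      have e : V (-y) * -1 = -(V (-y)) := by ring
      rw [e] at h2
      exact h2) (fun y => h.w_pos (-y)) (-x)
    (fun y hy => by
      have := h.V_lip (x := -y) (y := x) (by linarith)
      simp only [neg_neg]
      linarith) (by simpa using (h.V_pos x).le)
  simp only [neg_neg] at h1
  refine le_trans (le_of_eq ?_) h1
  field_simp

/-- the universal position constant -/
noncomputable def v00 (κ M : ℝ) : ℝ := min (1 / 2) (min ((κ / (32 * M)) ^ 2) (κ / (16 * M)))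

theorem v00_pos {κ M : ℝ} (hκ : 0 < κ) (hM : 0 < M) : 0 < v00 κ M := by
  unfold v00
  refine lt_min (by norm_num) (lt_min (by positivity) (by positivity))

theorem Prf.V0_ge (h : Prf κ M s V P u) (hκ : 0 < κ) (hM : 0 < M) : v00 κ M ≤ V 0 := by
  have hs := h.s_pos
  rcases le_or_gt (1 / 2) (V 0) with hq | hq
  · exact (min_le_left _ _).trans hq
  · refine (min_le_right _ _).trans ((min_le_left _ _).trans ?_)
    have h1 := h.u_ge hM 0
    have h2 := h.w_le hκ 0
    rw [zero_add] at h2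
    have hV := h.V_pos 0
    have hr2 : Real.sqrt (V 0) * Real.sqrt (V 0) = V 0 := Real.mul_self_sqrt hV.le
    have hr : 0 < Real.sqrt (V 0) := Real.sqrt_pos.2 hV
    set r := Real.sqrt (V 0) with hrdef
    have h3 := h1.trans h2
    have h4 : (1 / 2 : ℝ) ≤ 1 - V 0 := by linarith
    have h5 : s * (1 / 2) ^ 2 / (2 * M) ≤ s * (1 - V 0) ^ 2 / (2 * M) := by gcongr
    have h6 : 2 * s / κ * (r / (1 - V 0)) ≤ 2 * s / κ * (r / (1 / 2)) := by gcongr
    have h7 := h5.trans (h3.trans h6)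
    have h8 : κ / (32 * M) ≤ r := by
      rw [div_le_iff₀ (by positivity)]
      rw [div_le_iff₀ (by positivity)] at h7
      have e : 2 * s / κ * (r / (1 / 2)) * (2 * M) = s * (8 * r * M / κ) := by
        field_simp
        ring
      rw [e] at h7
      have h9 : (1 / 2 : ℝ) ^ 2 ≤ 8 * r * M / κ := le_of_mul_le_mul_left h7 hs
      rw [le_div_iff₀ hκ] at h9
      linarith
    calc (κ / (32 * M)) ^ 2 ≤ r ^ 2 := pow_le_pow_left₀ (by positivity) h8 2
      _ = V 0 := by rw [sq, hr2]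

theorem Prf.V0_le (h : Prf κ M s V P u) (hκ : 0 < κ) (hM : 0 < M) : V 0 ≤ 1 - v00 κ M := by
  have hs := h.s_pos
  rcases le_or_gt (V 0) (1 / 2) with hq | hq
  · have : v00 κ M ≤ 1 / 2 := min_le_left _ _
    linarith
  · have h10 : κ / (16 * M) ≤ 1 - V 0 := by
      have h1 := h.w_ge hM 0
      have h2 := h.u_le hκ 0
      rw [zero_add] at h1
      have hV := h.V_pos 0
      have hV1 := h.V_lt 0
      have hr2 : Real.sqrt (V 0) * Real.sqrt (V 0) = V 0 := Real.mul_self_sqrt hV.le
      have hr : 0 < Real.sqrt (V 0) := Real.sqrt_pos.2 hV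
      set r := Real.sqrt (V 0) with hrdef
      have h3 := h1.trans h2
      have hr7 : 7 / 10 ≤ r := by
        by_contra hcon
        have := not_le.1 hcon
        nlinarith
      have h4 : 1 / r - 1 ≤ 1 - V 0 := by
        rw [div_sub_one hr.ne', div_le_iff₀ hr, ← hr2]
        have hr1 : r ≤ 1 := by
          by_contra hcon
          have := not_le.1 hcon
          nlinarith
        nlinarith
      have h5 : s * (1 / 2) ^ 2 / (2 * M) ≤ s * V 0 ^ 2 / (2 * M) := by gcongr
      have h6 : 2 * s / κ * (1 / r - 1) ≤ 2 * s / κ * (1 - V 0) := by gcongr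
      have h7 := h5.trans (h3.trans h6)
      rw [div_le_iff₀ (by positivity)]
      rw [div_le_iff₀ (by positivity)] at h7
      have e : 2 * s / κ * (1 - V 0) * (2 * M) = s * (4 * (1 - V 0) * M / κ) := by
        field_simp
        ring
      rw [e] at h7
      have h9 : (1 / 2 : ℝ) ^ 2 ≤ 4 * (1 - V 0) * M / κ := le_of_mul_le_mul_left h7 hs
      rw [le_div_iff₀ hκ] at h9
      linarith
    have : v00 κ M ≤ κ / (16 * M) := (min_le_right _ _).trans (min_le_right _ _)
    linarith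

/-- `|x|/s · √V ≤ 2/κ` on the left -/
theorem Prf.left_pos (h : Prf κ M s V P u) (hκ : 0 < κ) {x : ℝ} (hx : x ≤ 0) :
    |x| / s * Real.sqrt (V x) ≤ 2 / κ := by
  have hs := h.s_pos
  have h1 := h.u_le hκ x
  have h2 := h.w_pos x
  have hr : 0 < Real.sqrt (V x) := Real.sqrt_pos.2 (h.V_pos x)
  rw [abs_of_nonpos hx]
  have h3 : -x ≤ 2 * s / κ * (1 / Real.sqrt (V x)) := by
    have : 0 < 2 * s / κ := by positivity
    nlinarith
  calc -x / s * Real.sqrt (V x) ≤ (2 * s / κ * (1 / Real.sqrt (V x))) / s * Real.sqrt (V x) := by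
        gcongr
    _ = 2 / κ := by field_simp

/-- bound of the positions `u/s`, `(x+u)/s` -/
noncomputable def C00 (κ M : ℝ) : ℝ := 2 / κ * (1 / Real.sqrt (v00 κ M))

theorem C00_pos {κ M : ℝ} (hκ : 0 < κ) (hM : 0 < M) : 0 < C00 κ M := by
  have := Real.sqrt_pos.2 (v00_pos hκ hM)
  unfold C00
  positivity

theorem Prf.u0_le (h : Prf κ M s V P u) (hκ : 0 < κ) (hM : 0 < M) : u 0 / s ≤ C00 κ M := by
  have hs := h.s_pos
  have h1 := h.u_le hκ 0
  have h2 := Real.sqrt_pos.2 (v00_pos hκ hM)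
  have h3 : Real.sqrt (v00 κ M) ≤ Real.sqrt (V 0) := Real.sqrt_le_sqrt (h.V0_ge hκ hM)
  have h4 : 1 / Real.sqrt (V 0) ≤ 1 / Real.sqrt (v00 κ M) := one_div_le_one_div_of_le h2 h3
  unfold C00
  rw [div_le_iff₀ hs]
  refine h1.trans ?_
  calc 2 * s / κ * (1 / Real.sqrt (V 0) - 1) ≤ 2 * s / κ * (1 / Real.sqrt (v00 κ M)) := by
        have : 0 < 2 * s / κ := by positivity
        gcongr
        linarith
    _ = _ := by ring

theorem Prf.U_le (h : Prf κ M s V P u) (hκ : 0 < κ) (hM : 0 < M) (x : ℝ) :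
    u x / s ≤ C00 κ M + max (-x) 0 / s := by
  have hs := h.s_pos
  have h0 := h.u0_le hκ hM
  rcases le_or_gt 0 x with hx | hx
  · have h1 := h.u_anti hx
    have h2 : 0 ≤ max (-x) 0 / s := by positivity
    have h3 : u x / s ≤ u 0 / s := by gcongr
    linarith
  · have h1 := h.w_mono hx.le
    simp only [zero_add] at h1
    rw [max_eq_left (by linarith)]
    have h2 : u x / s ≤ (u 0 + -x) / s := by gcongr; linarith
    rw [add_div] at h2
    linarith

theorem Prf.W_le (h : Prf κ M s V P u) (hκ : 0 < κ) (hM : 0 < M) (x : ℝ) :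
    (x + u x) / s ≤ C00 κ M + max x 0 / s := by
  have hs := h.s_pos
  have h0 := h.u0_le hκ hM
  rcases le_or_gt x 0 with hx | hx
  · have h1 := h.w_mono hx
    simp only [zero_add] at h1
    have h2 : 0 ≤ max x 0 / s := by positivity
    have h3 : (x + u x) / s ≤ u 0 / s := by gcongr
    linarith
  · have h1 := h.u_anti hx.le
    rw [max_eq_left hx.le]
    have h2 : (x + u x) / s ≤ (u 0 + x) / s := by gcongr ?_ / s; linarith
    rw [add_div (u 0) x s] at h2
    linarith

end prf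

/-! ### the absorb lemma, general form -/

/-- hypotheses of the general form: `V` with an exponential lower band on the right side only -/
structure Half3 (c v0 M lam s : ℝ) (V P p Y : ℝ → ℝ) : Prop where
  s_pos : 0 < s
  V_x : ∀ x, HasDerivAt V (P x) x
  V_pos : ∀ x, 0 < V x
  V_lt : ∀ x, V x < 1
  P_nonneg : ∀ x, 0 ≤ P x
  P_ge : ∀ x, 0 ≤ x → c * (V x * (1 - V x)) ≤ s * P x
  P_le : ∀ x, s * P x ≤ M
  V0_ge : v0 ≤ V 0
  V0_le : V 0 ≤ 1 - v0
  p_pos : ∀ x, 0 < p x
  p_x : ∀ x, HasDerivAt p (-(Y x) * p x) x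
  Y_ge : ∀ x, -(lam * (1 + max (-x) 0 / s)) ≤ s * Y x
  p_int : Integrable p

section gen

variable {c v0 M lam s : ℝ} {V P p Y : ℝ → ℝ}

theorem Half3.V_cont (h : Half3 c v0 M lam s V P p Y) : Continuous V :=
  continuous_iff_continuousAt.2 fun x => (h.V_x x).continuousAt

theorem Half3.p_cont (h : Half3 c v0 M lam s V P p Y) : Continuous p :=
  continuous_iff_continuousAt.2 fun x => (h.p_x x).continuousAt

theorem Half3.V_mono (h : Half3 c v0 M lam s V P p Y) : Monotone V :=
  monotone_of_deriv_nonneg (fun x => (h.V_x x).differentiableAt) fun x => by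
    rw [(h.V_x x).deriv]; exact h.P_nonneg x

theorem Half3.R_right (h : Half3 c v0 M lam s V P p Y) (hc : 0 < c) {x : ℝ} (hx : 0 ≤ x) :
    1 - V x ≤ Real.exp (-(c * v0 / s * x)) := by
  have hs := h.s_pos
  have hd : ∀ y, HasDerivAt (fun y => (1 - V y) * Real.exp (c * v0 / s * y))
      (-(P y - c * v0 / s * (1 - V y)) * Real.exp (c * v0 / s * y)) y := by
    intro y
    exact hd_mul_exp ((h.V_x y).const_sub 1) (hd_lin _ y) (by ring)
  have hm : AntitoneOn (fun y => (1 - V y) * Real.exp (c * v0 / s * y)) (Ici 0) := by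
    refine antitoneOn_of_deriv_nonpos (convex_Ici 0)
      (fun y _ => (hd y).continuousAt.continuousWithinAt)
      (fun y _ => (hd y).differentiableAt.differentiableWithinAt) fun y hy => ?_
    rw [interior_Ici] at hy
    rw [(hd y).deriv]
    have h3 := h.P_ge y (le_of_lt hy)
    have h4 : v0 ≤ V y := by
      have := h.V_mono (le_of_lt hy)
      have := h.V0_ge
      linarith
    have h5 : c * (v0 * (1 - V y)) ≤ s * P y :=
      (mul_le_mul_of_nonneg_left (mul_le_mul_of_nonneg_right h4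
        (sub_nonneg.2 (h.V_lt y).le)) hc.le).trans h3
    have h6 : c * v0 / s * (1 - V y) = c * (v0 * (1 - V y)) / s := by ring
    have h7 : 0 ≤ P y - c * v0 / s * (1 - V y) := by
      rw [h6, sub_nonneg, div_le_iff₀ hs]
      linarith
    exact mul_nonpos_of_nonpos_of_nonneg (neg_nonpos.2 h7) (Real.exp_pos _).le
  have h7 := hm (show (0 : ℝ) ∈ Ici 0 from le_refl (0 : ℝ)) hx hx
  simp only [mul_zero, Real.exp_zero, mul_one] at h7
  have h8 : (1 - V x) * Real.exp (c * v0 / s * x) ≤ 1 := h7.trans (by linarith [h.V_pos 0])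
  rw [Real.exp_neg, ← one_div, le_div_iff₀ (Real.exp_pos _)]
  exact h8

theorem Half3.p_right (h : Half3 c v0 M lam s V P p Y) {x : ℝ} (hx : 0 ≤ x) :
    p x ≤ p 0 * Real.exp (lam / s * x) := by
  have hs := h.s_pos
  have hd : ∀ y, HasDerivAt (fun y => p y * Real.exp (-(lam / s * y)))
      (-(Y y + lam / s) * (p y * Real.exp (-(lam / s * y)))) y := by
    intro y
    exact hd_mul_exp (h.p_x y) (hd_neg_lin _ y) (by ring)
  have hm : AntitoneOn (fun y => p y * Real.exp (-(lam / s * y))) (Ici 0) := by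
    refine antitoneOn_of_deriv_nonpos (convex_Ici 0)
      (fun y _ => (hd y).continuousAt.continuousWithinAt)
      (fun y _ => (hd y).differentiableAt.differentiableWithinAt) fun y hy => ?_
    rw [interior_Ici] at hy
    rw [(hd y).deriv]
    have h3 := h.Y_ge y
    rw [max_eq_right (by linarith [mem_Ioi.1 hy]), zero_div, add_zero, mul_one] at h3
    have h4 : 0 ≤ Y y + lam / s := by
      have h5 : Y y + lam / s = (s * Y y + lam) / s := by field_simp
      rw [h5]
      exact div_nonneg (by linarith) hs.le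
    exact mul_nonpos_of_nonpos_of_nonneg (neg_nonpos.2 h4)
      (mul_pos (h.p_pos y) (Real.exp_pos _)).le
  have h7 := hm (show (0 : ℝ) ∈ Ici 0 from le_refl (0 : ℝ)) hx hx
  simp only [mul_zero, neg_zero, Real.exp_zero, mul_one] at h7
  rw [Real.exp_neg, ← div_eq_mul_inv, div_le_iff₀ (Real.exp_pos _)] at h7
  exact h7

theorem Half3.p_left (h : Half3 c v0 M lam s V P p Y) {x : ℝ} (hx : x ≤ 0) :
    p 0 * Real.exp (lam * (x / s - (x / s) ^ 2 / 2)) ≤ p x := by
  have hs := h.s_pos
  have hd : ∀ y, HasDerivAt (fun y => p y * Real.exp (-(lam * (y / s - (y / s) ^ 2 / 2))))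
      (-(Y y + lam / s * (1 - y / s)) *
        (p y * Real.exp (-(lam * (y / s - (y / s) ^ 2 / 2))))) y := by
    intro y
    have h0 : HasDerivAt (fun y => y / s) (1 / s) y := (hasDerivAt_id y).div_const s
    have h1 : HasDerivAt (fun y => -(lam * (y / s - (y / s) ^ 2 / 2)))
        (-(lam * (1 / s - (((2 : ℕ) : ℝ) * (y / s) ^ (2 - 1) * (1 / s)) / 2))) y :=
      ((h0.sub ((h0.pow 2).div_const 2)).const_mul lam).neg
    refine hd_mul_exp (h.p_x y) h1 ?_
    push_cast
    ring
  have hm : AntitoneOn (fun y => p y * Real.exp (-(lam * (y / s - (y / s) ^ 2 / 2)))) (Iic 0) := by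
    refine antitoneOn_of_deriv_nonpos (convex_Iic 0)
      (fun y _ => (hd y).continuousAt.continuousWithinAt)
      (fun y _ => (hd y).differentiableAt.differentiableWithinAt) fun y hy => ?_
    rw [interior_Iic] at hy
    rw [(hd y).deriv]
    have h3 := h.Y_ge y
    rw [max_eq_left (by linarith [mem_Iio.1 hy])] at h3
    have h4 : 0 ≤ Y y + lam / s * (1 - y / s) := by
      have h5 : Y y + lam / s * (1 - y / s) = (s * Y y + lam * (1 + -y / s)) / s := by
        field_simp
        ring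
      rw [h5]
      exact div_nonneg (by linarith) hs.le
    exact mul_nonpos_of_nonpos_of_nonneg (neg_nonpos.2 h4)
      (mul_pos (h.p_pos y) (Real.exp_pos _)).le
  have h7 := hm hx (show (0 : ℝ) ∈ Iic 0 from le_refl (0 : ℝ)) hx
  simp only [zero_div, ne_eq, OfNat.ofNat_ne_zero, not_false_eq_true, zero_pow, sub_zero, mul_zero,
    neg_zero, Real.exp_zero, mul_one] at h7
  rw [Real.exp_neg, ← div_eq_mul_inv, le_div_iff₀ (Real.exp_pos _)] at h7
  exact h7

theorem Half3.D_int (h : Half3 c v0 M lam s V P p Y) :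
    Integrable (fun x => p x * (V x * (1 - V x) ^ 2)) := by
  refine h.p_int.mono ((h.p_cont.mul (h.V_cont.mul ((continuous_const.sub h.V_cont).pow
    2))).aestronglyMeasurable) (Eventually.of_forall fun x => ?_)
  rw [norm_mul]
  refine mul_le_of_le_one_right (norm_nonneg _) ?_
  rw [Real.norm_eq_abs, abs_of_nonneg (mul_nonneg (h.V_pos x).le (sq_nonneg _))]
  have h1 := h.V_pos x
  have h2 := h.V_lt x
  have h3 : (1 - V x) ^ 2 ≤ 1 := pow_le_one₀ (by linarith) (by linarith)
  calc V x * (1 - V x) ^ 2 ≤ 1 * 1 := mul_le_mul h2.le h3 (sq_nonneg _) zero_le_one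
    _ = 1 := one_mul 1

/-- lower bound of the denominator -/
theorem Half3.denom (h : Half3 c v0 M lam s V P p Y) (hv : 0 < v0) (hM : 0 < M)
    (hl : 0 ≤ lam) :
    (v0 / 2 * v0 ^ 2 * Real.exp (-(lam * (v0 / (2 * M) + (v0 / (2 * M)) ^ 2 / 2))) *
      (v0 / (2 * M))) * (s * p 0) ≤ ∫ x, p x * (V x * (1 - V x) ^ 2) := by
  have hs := h.s_pos
  set a := v0 / (2 * M) with ha
  have ha0 : 0 < a := by positivity
  have hint := h.D_int
  have hnn : 0 ≤ᵐ[volume] fun x => p x * (V x * (1 - V x) ^ 2) :=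
    Eventually.of_forall fun x => mul_nonneg (h.p_pos x).le
      (mul_nonneg (h.V_pos x).le (sq_nonneg _))
  have hpt : ∀ x ∈ Icc (-(a * s)) 0, p 0 * Real.exp (-(lam * (a + a ^ 2 / 2))) *
      (v0 / 2 * v0 ^ 2) ≤ p x * (V x * (1 - V x) ^ 2) := by
    intro x hx
    have h1 := h.p_left hx.2
    have h2 : -a ≤ x / s := by
      rw [le_div_iff₀ hs]
      linarith [hx.1]
    have h3 : x / s ≤ 0 := div_nonpos_of_nonpos_of_nonneg hx.2 hs.le
    have h4 : -(lam * (a + a ^ 2 / 2)) ≤ lam * (x / s - (x / s) ^ 2 / 2) := by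
      have h5 : (x / s) ^ 2 ≤ a ^ 2 := by nlinarith
      have h6 : -(a + a ^ 2 / 2) ≤ x / s - (x / s) ^ 2 / 2 := by linarith
      calc -(lam * (a + a ^ 2 / 2)) = lam * -(a + a ^ 2 / 2) := by ring
        _ ≤ _ := mul_le_mul_of_nonneg_left h6 hl
    have h7 : p 0 * Real.exp (-(lam * (a + a ^ 2 / 2))) ≤ p x :=
      (mul_le_mul_of_nonneg_left (Real.exp_le_exp.2 h4) (h.p_pos 0).le).trans h1
    have h8 : v0 ≤ 1 - V x := by
      have := h.V_mono hx.2
      have := h.V0_le
      linarith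
    have h9 : v0 / 2 ≤ V x := by
      have h10 : V 0 - V x ≤ M / s * (0 - x) := by
        have := Convex.image_sub_le_mul_sub_of_deriv_le (f := V) (convex_univ)
          h.V_cont.continuousOn (fun y _ => (h.V_x y).differentiableAt.differentiableWithinAt)
          (C := M / s) (fun y _ => by
            rw [(h.V_x y).deriv, le_div_iff₀ hs]
            have := h.P_le y
            linarith) x (mem_univ _) 0 (mem_univ _) hx.2
        exact this
      have h11 : M / s * (0 - x) ≤ v0 / 2 := by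
        have h12 : M / s * (0 - x) = M * (-(x / s)) := by ring
        rw [h12]
        calc M * (-(x / s)) ≤ M * a := mul_le_mul_of_nonneg_left (by linarith) hM.le
          _ = v0 / 2 := by rw [ha]; field_simp
      have := h.V0_ge
      linarith
    have h13 : v0 / 2 * v0 ^ 2 ≤ V x * (1 - V x) ^ 2 :=
      mul_le_mul h9 (pow_le_pow_left₀ hv.le h8 2) (by positivity) (h.V_pos x).le
    exact mul_le_mul h7 h13 (by positivity) (h.p_pos x).le
  have h1 := setIntegral_ge_of_const_le_real (μ := volume) (s := Icc (-(a * s)) 0)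
    measurableSet_Icc (by simp) hpt hint.integrableOn
  have h2 : volume.real (Icc (-(a * s)) 0) = a * s := by
    rw [Real.volume_real_Icc_of_le (by nlinarith)]
    ring
  rw [h2] at h1
  have h3 := setIntegral_le_integral (s := Icc (-(a * s)) 0) hint hnn
  refine le_trans (le_of_eq ?_) (h1.trans h3)
  ring

end gen

/-- **(ABS)**, general form -/
theorem absorb_gen {c v0 M e : ℝ} {k : ℕ} (hc : 0 < c) (hv : 0 < v0) (hM : 0 < M) (he : 0 < e) :
    ∃ lam0 : ℝ, 0 < lam0 ∧ ∃ K : ℝ, 0 ≤ K ∧ ∀ {lam s : ℝ} {V P p Y F : ℝ → ℝ} {CG : ℝ}, 0 ≤ lam →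
      lam ≤ lam0 → 0 ≤ CG → Half3 c v0 M lam s V P p Y → (∀ x, x ≤ 0 → |F x| ≤ CG * V x) →
      (∀ x, 0 < x → |F x| ≤ CG * ((1 + x / s) ^ k * (1 - V x) ^ e)) →
      (∫ x, p x * |F x| ≤ CG * K * ∫ x, p x * (V x * (1 - V x) ^ 2)) ∧
      (AEStronglyMeasurable F volume → Integrable fun x => p x * F x) := by
  set κ := c * v0 with hκ
  have hκ0 : 0 < κ := mul_pos hc hv
  set α := κ * e / 4 with hα
  have hα0 : 0 < α := by positivity
  set K2 := k.factorial / α ^ k * Real.exp α with hK2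
  have hK20 : 0 ≤ K2 := by positivity
  set β := κ * e / 2 with hβ
  have hβ0 : 0 < β := by positivity
  set K3 := v0 / 2 * v0 ^ 2 * Real.exp (-(α * (v0 / (2 * M) + (v0 / (2 * M)) ^ 2 / 2))) *
      (v0 / (2 * M)) with hK3
  have hK30 : 0 < K3 := by positivity
  refine ⟨α, hα0, 1 / v0 ^ 2 + K2 / (β * K3), by positivity, ?_⟩
  intro lam s V P p Y F CG hl hl2 hCG h hFl hFr
  have hs := h.s_pos
  have hDint := h.D_int
  have hD := h.denom hv hM hl
  set D := ∫ x, p x * (V x * (1 - V x) ^ 2) with hDdef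
  have hDK : K3 * (s * p 0) ≤ D := by
    refine le_trans (mul_le_mul_of_nonneg_right ?_ (mul_pos hs (h.p_pos 0)).le) hD
    rw [hK3]
    have h1 : Real.exp (-(α * (v0 / (2 * M) + (v0 / (2 * M)) ^ 2 / 2))) ≤
        Real.exp (-(lam * (v0 / (2 * M) + (v0 / (2 * M)) ^ 2 / 2))) := by
      refine Real.exp_le_exp.2 (neg_le_neg (mul_le_mul_of_nonneg_right hl2 (by positivity)))
    gcongr
  have hEint : IntegrableOn (fun x => CG * K2 * p 0 * Real.exp (-(β / s) * x)) (Ioi 0) :=
    (integrableOn_exp_mul_Ioi (neg_lt_zero.2 (div_pos hβ0 hs)) 0).const_mul _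
  have hgint : Integrable (fun x => CG / v0 ^ 2 * (p x * (V x * (1 - V x) ^ 2)) +
      (Ioi 0).indicator (fun x => CG * K2 * p 0 * Real.exp (-(β / s) * x)) x) :=
    (hDint.const_mul _).add (hEint.integrable_indicator measurableSet_Ioi)
  have hpt : ∀ x, p x * |F x| ≤ CG / v0 ^ 2 * (p x * (V x * (1 - V x) ^ 2)) +
      (Ioi 0).indicator (fun x => CG * K2 * p 0 * Real.exp (-(β / s) * x)) x := by
    intro x
    have hVp := h.V_pos x
    have hVl := h.V_lt x
    have hRp : 0 < 1 - V x := by linarith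
    have hpp := h.p_pos x
    rcases le_or_gt x 0 with hx | hx
    · have e0 : (Ioi (0 : ℝ)).indicator (fun x => CG * K2 * p 0 * Real.exp (-(β / s) * x)) x = 0 :=
        indicator_of_notMem (by simpa using hx) _
      rw [e0, add_zero]
      have h4 : v0 ^ 2 ≤ (1 - V x) ^ 2 := by
        have := h.V_mono hx
        have := h.V0_le
        exact pow_le_pow_left₀ hv.le (by linarith) 2
      have h5 : 1 ≤ (1 - V x) ^ 2 / v0 ^ 2 := by
        rw [le_div_iff₀ (by positivity), one_mul]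
        exact h4
      calc p x * |F x| ≤ p x * (CG * V x) := by
            have := hFl x hx
            gcongr
        _ = p x * (CG * V x) * 1 := (mul_one _).symm
        _ ≤ p x * (CG * V x) * ((1 - V x) ^ 2 / v0 ^ 2) := by gcongr
        _ = _ := by ring
    · have e0 : (Ioi (0 : ℝ)).indicator (fun x => CG * K2 * p 0 * Real.exp (-(β / s) * x)) x =
          CG * K2 * p 0 * Real.exp (-(β / s) * x) := indicator_of_mem (mem_Ioi.2 hx) _
      rw [e0]
      have h0 : 0 ≤ CG / v0 ^ 2 * (p x * (V x * (1 - V x) ^ 2)) := by positivity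
      refine le_trans ?_ (le_add_of_nonneg_left h0)
      have h1 : (1 - V x) ^ e ≤ Real.exp (-(κ * e / s * x)) := by
        calc (1 - V x) ^ e ≤ Real.exp (-(κ / s * x)) ^ e :=
              Real.rpow_le_rpow hRp.le (h.R_right hc hx.le) he.le
          _ = Real.exp (-(κ * e / s * x)) := by
              rw [exp_rpow]
              congr 1
              ring
      have h3 : (1 + x / s) ^ k ≤ K2 * Real.exp (α * (x / s)) :=
        pow_le_exp hα0 (div_nonneg hx.le hs.le) k
      have h4 : p x ≤ p 0 * Real.exp (α / s * x) := by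
        refine (h.p_right hx.le).trans (mul_le_mul_of_nonneg_left (Real.exp_le_exp.2 ?_)
          (h.p_pos 0).le)
        gcongr
      have h7 : 0 ≤ (1 - V x) ^ e := Real.rpow_nonneg hRp.le _
      calc p x * |F x| ≤ p x * (CG * ((1 + x / s) ^ k * (1 - V x) ^ e)) := by
            have := hFr x hx
            gcongr
        _ ≤ (p 0 * Real.exp (α / s * x)) * (CG * ((K2 * Real.exp (α * (x / s))) *
            Real.exp (-(κ * e / s * x)))) := by
            have := (h.p_pos 0).le
            gcongr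
        _ = CG * K2 * p 0 * (Real.exp (α / s * x) * Real.exp (α * (x / s)) *
            Real.exp (-(κ * e / s * x))) := by ring
        _ = _ := by
            rw [← Real.exp_add, ← Real.exp_add]
            congr 2
            rw [hα, hβ]
            ring
  refine ⟨?_, fun hm => ?_⟩
  · have h1 : ∫ x, p x * |F x| ≤ ∫ x, (CG / v0 ^ 2 * (p x * (V x * (1 - V x) ^ 2)) +
        (Ioi 0).indicator (fun x => CG * K2 * p 0 * Real.exp (-(β / s) * x)) x) :=
      integral_mono_of_nonneg (Eventually.of_forall fun x =>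
        mul_nonneg (h.p_pos x).le (abs_nonneg _)) hgint (Eventually.of_forall hpt)
    refine h1.trans ?_
    rw [integral_add (hDint.const_mul _) (hEint.integrable_indicator measurableSet_Ioi),
      integral_const_mul, integral_indicator measurableSet_Ioi, integral_const_mul,
      integral_exp_mul_Ioi (neg_lt_zero.2 (div_pos hβ0 hs)), mul_zero, Real.exp_zero, mul_add,
      add_mul]
    refine add_le_add (le_of_eq ?_) ?_
    · ring
    have h2 : CG * K2 * p 0 * (-1 / -(β / s)) = CG * K2 / β * (s * p 0) := by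
      field_simp
    rw [h2]
    have h3 : s * p 0 ≤ D / K3 := by
      rw [le_div_iff₀ hK30]
      linarith
    calc CG * K2 / β * (s * p 0) ≤ CG * K2 / β * (D / K3) :=
          mul_le_mul_of_nonneg_left h3 (by positivity)
      _ = _ := by field_simp
  · refine hgint.mono' (h.p_cont.aestronglyMeasurable.mul hm) (Eventually.of_forall fun x => ?_)
    refine le_trans (le_of_eq ?_) (hpt x)
    rw [Real.norm_eq_abs, abs_mul, abs_of_pos (h.p_pos x)]

/-- the data of the general form from the universal band -/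
theorem half3_of {κ M lam s : ℝ} {V P u p Y : ℝ → ℝ} (hκ : 0 < κ) (hM : 0 < M)
    (h : Prf κ M s V P u) (g : Lw lam s p Y) :
    Half3 (κ * Real.sqrt (v00 κ M)) (v00 κ M) M lam s V P p Y where
  s_pos := h.s_pos
  V_x := h.V_x
  V_pos := h.V_pos
  V_lt := h.V_lt
  P_nonneg := h.P_nonneg hκ.le
  P_ge := fun x hx => by
    refine le_trans ?_ (h.P_ge x)
    have h1 : Real.sqrt (v00 κ M) ≤ Real.sqrt (V x) :=
      Real.sqrt_le_sqrt ((h.V0_ge hκ hM).trans (h.V_mono hκ.le hx))
    have hV := h.V_pos x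
    have hR : 0 < 1 - V x := by linarith [h.V_lt x]
    calc κ * Real.sqrt (v00 κ M) * (V x * (1 - V x)) ≤ κ * Real.sqrt (V x) * (V x * (1 - V x)) := by
          gcongr
      _ = _ := by ring
  P_le := h.P_le
  V0_ge := h.V0_ge hκ hM
  V0_le := h.V0_le hκ hM
  p_pos := g.p_pos
  p_x := g.p_x
  Y_ge := g.Y_ge
  p_int := g.p_int

/-- **(ABS)**, universal band: `|F| ≤ CG V (√V)^k (1-V)^e` with the weight `(1+|x|/s)^k` -/
theorem absorb2 {κ M e : ℝ} {k : ℕ} (hκ : 0 < κ) (hM : 0 < M) (he : 0 < e) :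
    ∃ lam0 : ℝ, 0 < lam0 ∧ ∃ K : ℝ, 0 ≤ K ∧ ∀ {lam s : ℝ} {V P u p Y F : ℝ → ℝ} {CG : ℝ},
      0 ≤ lam → lam ≤ lam0 → 0 ≤ CG → Prf κ M s V P u → Lw lam s p Y →
      (∀ x, |F x| ≤ CG * (V x * Real.sqrt (V x) ^ k * (1 - V x) ^ e)) →
      (∫ x, p x * ((1 + |x| / s) ^ k * |F x|) ≤
        CG * K * ∫ x, p x * (V x * (1 - V x) ^ 2)) ∧
      (AEStronglyMeasurable F volume → Integrable fun x => p x * ((1 + |x| / s) ^ k * F x)) := by
  have hv := v00_pos hκ hM
  obtain ⟨lam0, h1, K, h2, h3⟩ := absorb_gen (k := k) (e := e)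
    (mul_pos hκ (Real.sqrt_pos.2 hv)) hv hM he
  refine ⟨lam0, h1, (1 + 2 / κ) ^ k * K, by positivity, ?_⟩
  intro lam s V P u p Y F CG hl hl2 hCG h g hF
  have hs := h.s_pos
  have h4 := h3 (F := fun x => (1 + |x| / s) ^ k * F x) (CG := CG * (1 + 2 / κ) ^ k) hl hl2
    (by positivity) (half3_of hκ hM h g) (fun x hx => ?_) (fun x hx => ?_)
  · refine ⟨?_, fun hm => h4.2 ((Continuous.aestronglyMeasurable (by fun_prop)).mul hm)⟩
    have h5 := h4.1
    simp only [abs_mul, abs_pow] at h5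
    have e1 : ∀ x : ℝ, |1 + |x| / s| = 1 + |x| / s := fun x => abs_of_nonneg (by positivity)
    simp only [e1] at h5
    refine h5.trans (le_of_eq ?_)
    ring
  · have hV := h.V_pos x
    have hR : 0 < 1 - V x := by linarith [h.V_lt x]
    have hr1 : Real.sqrt (V x) ≤ 1 := Real.sqrt_le_one.2 (h.V_lt x).le
    have hr0 := Real.sqrt_nonneg (V x)
    have h5 : (1 + |x| / s) * Real.sqrt (V x) ≤ 1 + 2 / κ := by
      rw [add_mul, one_mul]
      exact add_le_add hr1 (h.left_pos hκ hx)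
    have h6 : (1 - V x) ^ e ≤ 1 := Real.rpow_le_one hR.le (by linarith) he.le
    have h7 : 0 ≤ (1 - V x) ^ e := Real.rpow_nonneg hR.le _
    rw [abs_mul, abs_of_nonneg (show 0 ≤ (1 + |x| / s) ^ k by positivity)]
    calc (1 + |x| / s) ^ k * |F x| ≤ (1 + |x| / s) ^ k *
          (CG * (V x * Real.sqrt (V x) ^ k * (1 - V x) ^ e)) := by
          have := hF x
          gcongr
      _ = CG * V x * ((1 + |x| / s) * Real.sqrt (V x)) ^ k * (1 - V x) ^ e := by
          rw [mul_pow]; ring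
      _ ≤ CG * V x * (1 + 2 / κ) ^ k * 1 := by gcongr
      _ = _ := by ring
  · have hV := h.V_pos x
    have hR : 0 < 1 - V x := by linarith [h.V_lt x]
    have hr1 : Real.sqrt (V x) ≤ 1 := Real.sqrt_le_one.2 (h.V_lt x).le
    have hr0 := Real.sqrt_nonneg (V x)
    have h7 : 0 ≤ (1 - V x) ^ e := Real.rpow_nonneg hR.le _
    rw [abs_mul, abs_of_nonneg (show 0 ≤ (1 + |x| / s) ^ k by positivity), abs_of_pos hx]
    have h8 : V x * Real.sqrt (V x) ^ k ≤ 1 := by
      calc V x * Real.sqrt (V x) ^ k ≤ 1 * 1 :=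
            mul_le_mul (h.V_lt x).le (pow_le_one₀ hr0 hr1) (by positivity) zero_le_one
        _ = 1 := one_mul 1
    have h9 : (1 : ℝ) ≤ (1 + 2 / κ) ^ k := one_le_pow₀ (by
      have : 0 < 2 / κ := by positivity
      linarith)
    calc (1 + x / s) ^ k * |F x| ≤ (1 + x / s) ^ k *
          (CG * (V x * Real.sqrt (V x) ^ k * (1 - V x) ^ e)) := by
          have := hF x
          gcongr
      _ = CG * (V x * Real.sqrt (V x) ^ k) * ((1 + x / s) ^ k * (1 - V x) ^ e) := by ring
      _ ≤ CG * (1 + 2 / κ) ^ k * ((1 + x / s) ^ k * (1 - V x) ^ e) := by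
          have h10 : CG * (V x * Real.sqrt (V x) ^ k) ≤ CG * (1 + 2 / κ) ^ k := by
            gcongr
            exact h8.trans h9
          gcongr

end Crest.Agent.R146.Abs2_692
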