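import Crest.Agent.R146.MaxPCmp_371

/-!
Sub/supersolution comparison for `u`, `V` (backward) and `Y = -(log p)_x` (forward) in `x`-space (row 146, helper371).
The barrier `S` has one-sided time derivative, and is `C¹` with a one-sided second derivative in `x`.
-/

set_option autoImplicit false

open Set Filter Topology

namespace Crest.Agent.R146.MaxPCmp2_371

open MaxP_371 MaxP2_371 MaxPCmp_371

lemma HasSide.neg {f' : ℝ → ℝ} {f'' x : ℝ} (h : HasSide f' f'' x) : HasSide (fun y => -f' y) (-f'') x := by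
  rcases h with h | h
  · exact Or.inl h.neg
  · exact Or.inr h.neg

lemma HasSide.sub_of {f' : ℝ → ℝ} {f'' x : ℝ} (h : HasDerivAt f' f'' x) {g' : ℝ → ℝ} {g'' : ℝ}
    (hg : HasSide g' g'' x) : HasSide (fun y => f' y - g' y) (f'' - g'') x := by
  rcases hg with hg | hg
  · exact Or.inl (h.hasDerivWithinAt.sub hg)
  · exact Or.inr (h.hasDerivWithinAt.sub hg)

/-- A backward barrier on the strip: right time derivative `St`, `C¹` in `x`, one-sided second derivative. -/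
structure Bar (t0 t1 : ℝ) (S St Sx Sxx : ℝ → ℝ → ℝ) : Prop where
  cS : ContinuousOn (fun p : ℝ × ℝ => S p.1 p.2) (strip t0 t1)
  hSt : ∀ t ∈ Ico t0 t1, ∀ x, HasDerivWithinAt (fun s => S s x) (St t x) (Ici t) t
  hSx : ∀ t ∈ Ico t0 t1, ∀ x, HasDerivAt (S t) (Sx t x) x
  hSxx : ∀ t ∈ Ico t0 t1, ∀ x, HasSide (Sx t) (Sxx t x) x

/-- A forward barrier on the strip: left time derivative. -/
structure FBar (t0 t1 : ℝ) (S St Sx Sxx : ℝ → ℝ → ℝ) : Prop where
  cS : ContinuousOn (fun p : ℝ × ℝ => S p.1 p.2) (strip t0 t1)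
  hSt : ∀ t ∈ Ioc t0 t1, ∀ x, HasDerivWithinAt (fun s => S s x) (St t x) (Iic t) t
  hSx : ∀ t ∈ Ioc t0 t1, ∀ x, HasDerivAt (S t) (Sx t x) x
  hSxx : ∀ t ∈ Ioc t0 t1, ∀ x, HasSide (Sx t) (Sxx t x) x

section back

variable {t0 t1 : ℝ} {b : ℝ → ℝ} {u V P Px Pxx : ℝ → ℝ → ℝ} {M : ℝ}
  {S St Sx Sxx : ℝ → ℝ → ℝ} {L : ℝ}

/-- upper barrier for `u`: `S_t + S_xx/2 + b S (1+S_x) ≤ 0`. -/
theorem u_le_bar (h : BSys t0 t1 b u V P Px Pxx M) (hS : Bar t0 t1 S St Sx Sxx)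
    (hS0 : ∀ t ∈ Icc t0 t1, ∀ x, |S t x| ≤ L * (1 + |x|))
    (hineq : ∀ t ∈ Ico t0 t1, ∀ x,
      St t x + Sxx t x / 2 + b t * S t x * (1 + Sx t x) ≤ 0)
    (hterm : ∀ x, u t1 x ≤ S t1 x) :
    ∀ t ∈ Icc t0 t1, ∀ x, u t x ≤ S t x := by
  have key := backward_strip (t0 := t0) (t1 := t1) (w := fun t x => u t x - S t x)
    (h.cu.sub hS.cS) (A := 1) (B := M * L) (C := M) (M := M + L) ?_ ?_ ?_
  · intro t ht x
    have := key t ht x
    linarith
  · intro t ht x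
    have h3 := h.u_le t ht x
    have h4 := (abs_le.1 (hS0 t ht x)).1
    nlinarith
  · intro x; have := hterm x; linarith
  · intro t ht x hpos
    have htI : t ∈ Icc t0 t1 := ⟨ht.1, ht.2.le⟩
    have h1 := h.b_nonneg t htI
    have h5 := h.b_le t htI
    have h6 := h.V_pos t htI x
    have h7 := h.V_lt t htI x
    refine ⟨_, P t x - Sxx t x, 1/2, b t * S t x, b t * V t x,
      fun y => (V t y - 1) - Sx t y, (h.hut t ht x).sub (hS.hSt t ht x),
      Eventually.of_forall fun y => (h.hux t ht y).sub (hS.hSx t ht y), ?_, by norm_num, ?_, ?_, ?_, ?_⟩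
    · exact HasSide.sub_of ((h.hVx t ht x).sub_const 1) (hS.hSxx t ht x)
    · nlinarith [sq_nonneg x]
    · rw [abs_mul, abs_of_nonneg h1, mul_assoc]
      exact mul_le_mul h5 (hS0 t htI x) (abs_nonneg _) (h1.trans h5)
    · nlinarith
    · have h9 := hineq t ht x
      nlinarith

/-- lower barrier for `u`: `S_t + S_xx/2 + b S (1+S_x) ≥ 0`. -/
theorem bar_le_u (h : BSys t0 t1 b u V P Px Pxx M) (hS : Bar t0 t1 S St Sx Sxx)
    (hS0 : ∀ t ∈ Icc t0 t1, ∀ x, |S t x| ≤ L * (1 + |x|))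
    (hineq : ∀ t ∈ Ico t0 t1, ∀ x,
      0 ≤ St t x + Sxx t x / 2 + b t * S t x * (1 + Sx t x))
    (hterm : ∀ x, S t1 x ≤ u t1 x) :
    ∀ t ∈ Icc t0 t1, ∀ x, S t x ≤ u t x := by
  have key := backward_strip (t0 := t0) (t1 := t1) (w := fun t x => -(u t x - S t x))
    (h.cu.sub hS.cS).neg (A := 1) (B := M * L) (C := M) (M := L) ?_ ?_ ?_
  · intro t ht x
    have := key t ht x
    linarith
  · intro t ht x
    have h3 := h.u_nonneg t ht x
    have h4 := (abs_le.1 (hS0 t ht x)).2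
    linarith
  · intro x; have := hterm x; linarith
  · intro t ht x hpos
    have htI : t ∈ Icc t0 t1 := ⟨ht.1, ht.2.le⟩
    have h1 := h.b_nonneg t htI
    have h5 := h.b_le t htI
    have h6 := h.V_pos t htI x
    have h7 := h.V_lt t htI x
    refine ⟨_, -(P t x - Sxx t x), 1/2, b t * S t x, b t * V t x,
      fun y => -((V t y - 1) - Sx t y), ((h.hut t ht x).sub (hS.hSt t ht x)).neg,
      Eventually.of_forall fun y => ((h.hux t ht y).sub (hS.hSx t ht y)).neg, ?_, by norm_num,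
      ?_, ?_, ?_, ?_⟩
    · exact HasSide.neg (HasSide.sub_of ((h.hVx t ht x).sub_const 1) (hS.hSxx t ht x))
    · nlinarith [sq_nonneg x]
    · rw [abs_mul, abs_of_nonneg h1, mul_assoc]
      exact mul_le_mul h5 (hS0 t htI x) (abs_nonneg _) (h1.trans h5)
    · nlinarith
    · have h9 := hineq t ht x
      nlinarith

/-- upper barrier for `V`: `S_t + S_xx/2 + b u S_x - b S (1-S) ≤ 0`, `0 ≤ S`. -/
theorem V_le_bar (h : BSys t0 t1 b u V P Px Pxx M) (hS : Bar t0 t1 S St Sx Sxx)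
    (hS0 : ∀ t ∈ Icc t0 t1, ∀ x, 0 ≤ S t x)
    (hineq : ∀ t ∈ Ico t0 t1, ∀ x,
      St t x + Sxx t x / 2 + b t * u t x * Sx t x - b t * S t x * (1 - S t x) ≤ 0)
    (hterm : ∀ x, V t1 x ≤ S t1 x) :
    ∀ t ∈ Icc t0 t1, ∀ x, V t x ≤ S t x := by
  have key := backward_strip (t0 := t0) (t1 := t1) (w := fun t x => V t x - S t x)
    (h.cV.sub hS.cS) (A := 1) (B := M * M) (C := M) (M := 1) ?_ ?_ ?_
  · intro t ht x
    have := key t ht x
    linarith
  · intro t ht x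
    have h3 := h.V_lt t ht x
    have h4 := hS0 t ht x
    have h5 := abs_nonneg x
    linarith
  · intro x; have := hterm x; linarith
  · intro t ht x hpos
    have htI : t ∈ Icc t0 t1 := ⟨ht.1, ht.2.le⟩
    have h1 := h.b_nonneg t htI
    have h5 := h.b_le t htI
    have h6 := h.V_pos t htI x
    have h7 := h.V_lt t htI x
    have h8 := hS0 t htI x
    refine ⟨_, Px t x - Sxx t x, 1/2, b t * u t x, -(b t * (1 - V t x - S t x)),
      fun y => P t y - Sx t y, (h.hVt t ht x).sub (hS.hSt t ht x),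
      Eventually.of_forall fun y => (h.hVx t ht y).sub (hS.hSx t ht y), ?_, by norm_num, ?_,
      h.drift_le htI x, ?_, ?_⟩
    · exact HasSide.sub_of (h.hPx t ht x) (hS.hSxx t ht x)
    · nlinarith [sq_nonneg x]
    · have h10 : S t x < V t x := by linarith
      have h11 : 0 ≤ b t * (2 - V t x - S t x) := mul_nonneg h1 (by linarith)
      nlinarith
    · have h9 := hineq t ht x
      nlinarith

/-- lower barrier for `V`: `S_t + S_xx/2 + b u S_x - b S (1-S) ≥ 0`, `S ≤ 1`. -/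
theorem bar_le_V (h : BSys t0 t1 b u V P Px Pxx M) (hS : Bar t0 t1 S St Sx Sxx)
    (hS1 : ∀ t ∈ Icc t0 t1, ∀ x, S t x ≤ 1)
    (hineq : ∀ t ∈ Ico t0 t1, ∀ x,
      0 ≤ St t x + Sxx t x / 2 + b t * u t x * Sx t x - b t * S t x * (1 - S t x))
    (hterm : ∀ x, S t1 x ≤ V t1 x) :
    ∀ t ∈ Icc t0 t1, ∀ x, S t x ≤ V t x := by
  have key := backward_strip (t0 := t0) (t1 := t1) (w := fun t x => -(V t x - S t x))
    (h.cV.sub hS.cS).neg (A := 1) (B := M * M) (C := M) (M := 1) ?_ ?_ ?_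
  · intro t ht x
    have := key t ht x
    linarith
  · intro t ht x
    have h3 := h.V_pos t ht x
    have h4 := hS1 t ht x
    have h5 := abs_nonneg x
    linarith
  · intro x; have := hterm x; linarith
  · intro t ht x hpos
    have htI : t ∈ Icc t0 t1 := ⟨ht.1, ht.2.le⟩
    have h1 := h.b_nonneg t htI
    have h5 := h.b_le t htI
    have h6 := h.V_pos t htI x
    have h7 := h.V_lt t htI x
    have h8 := hS1 t htI x
    refine ⟨_, -(Px t x - Sxx t x), 1/2, b t * u t x, -(b t * (1 - V t x - S t x)),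
      fun y => -(P t y - Sx t y), ((h.hVt t ht x).sub (hS.hSt t ht x)).neg,
      Eventually.of_forall fun y => ((h.hVx t ht y).sub (hS.hSx t ht y)).neg, ?_, by norm_num, ?_,
      h.drift_le htI x, ?_, ?_⟩
    · exact HasSide.neg (HasSide.sub_of (h.hPx t ht x) (hS.hSxx t ht x))
    · nlinarith [sq_nonneg x]
    · have h11 : 0 ≤ b t * (2 - V t x - S t x) := mul_nonneg h1 (by linarith)
      nlinarith
    · have h9 := hineq t ht x
      nlinarith

end back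

/-- The forward equation of `Y = -(log p)_x`: `Y_t = Y_xx/2 - (Y + b u) Y_x + b R Y + b P`, `R = 1 - V`. -/
structure YSys (t0 t1 : ℝ) (b : ℝ → ℝ) (u V P Y Yx Yxx : ℝ → ℝ → ℝ) (M : ℝ) : Prop where
  cY : ContinuousOn (fun p : ℝ × ℝ => Y p.1 p.2) (strip t0 t1)
  hYt : ∀ t ∈ Ioc t0 t1, ∀ x, HasDerivWithinAt (fun s => Y s x)
    (Yxx t x / 2 - (Y t x + b t * u t x) * Yx t x + b t * (1 - V t x) * Y t x + b t * P t x) (Iic t) t
  hYx : ∀ t ∈ Ioc t0 t1, ∀ x, HasDerivAt (Y t) (Yx t x) x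
  hYxx : ∀ t ∈ Ioc t0 t1, ∀ x, HasDerivAt (Yx t) (Yxx t x) x
  b_nonneg : ∀ t ∈ Icc t0 t1, 0 ≤ b t
  b_le : ∀ t ∈ Icc t0 t1, b t ≤ M
  V_pos : ∀ t ∈ Icc t0 t1, ∀ x, 0 ≤ V t x
  drift : ∀ t ∈ Icc t0 t1, ∀ x, |Y t x + b t * u t x| ≤ M * (1 + |x|)
  Y_le : ∀ t ∈ Icc t0 t1, ∀ x, |Y t x| ≤ M * (1 + |x|)

section forw

variable {t0 t1 : ℝ} {b : ℝ → ℝ} {u V P Y Yx Yxx : ℝ → ℝ → ℝ} {M : ℝ}
  {S St Sx Sxx : ℝ → ℝ → ℝ} {L : ℝ}

/-- upper barrier for `Y`: `S_t ≥ S_xx/2 - (S+bu) S_x + b R S + b P`. -/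
theorem Y_le_bar (h : YSys t0 t1 b u V P Y Yx Yxx M) (hS : FBar t0 t1 S St Sx Sxx)
    (hS0 : ∀ t ∈ Icc t0 t1, ∀ x, -(L * (1 + |x|)) ≤ S t x)
    (hSx : ∀ t ∈ Ioc t0 t1, ∀ x, -L ≤ Sx t x)
    (hineq : ∀ t ∈ Ioc t0 t1, ∀ x,
      Sxx t x / 2 - (S t x + b t * u t x) * Sx t x + b t * (1 - V t x) * S t x + b t * P t x ≤ St t x)
    (hinit : ∀ x, Y t0 x ≤ S t0 x) :
    ∀ t ∈ Icc t0 t1, ∀ x, Y t x ≤ S t x := by
  have key := forward_strip (t0 := t0) (t1 := t1) (w := fun t x => Y t x - S t x)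
    (h.cY.sub hS.cS) (A := 1) (B := M) (C := M + L) (M := M + L) ?_ ?_ ?_
  · intro t ht x
    have := key t ht x
    linarith
  · intro t ht x
    have h3 := (abs_le.1 (h.Y_le t ht x)).2
    have h4 := hS0 t ht x
    nlinarith
  · intro x; have := hinit x; linarith
  · intro t ht x hpos
    have htI : t ∈ Icc t0 t1 := ⟨ht.1.le, ht.2⟩
    have h1 := h.b_nonneg t htI
    have h5 := h.b_le t htI
    have h6 := h.V_pos t htI x
    have h7 := hSx t ht x
    refine ⟨_, Yxx t x - Sxx t x, 1/2, -(Y t x + b t * u t x), b t * (1 - V t x) - Sx t x,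
      fun y => Yx t y - Sx t y, (h.hYt t ht x).sub (hS.hSt t ht x),
      Eventually.of_forall fun y => (h.hYx t ht y).sub (hS.hSx t ht y), ?_, by norm_num, ?_,
      ?_, ?_, ?_⟩
    · exact HasSide.sub_of (h.hYxx t ht x) (hS.hSxx t ht x)
    · nlinarith [sq_nonneg x]
    · rw [abs_neg]; exact h.drift t htI x
    · have h8 : b t * (1 - V t x) ≤ b t := by nlinarith
      linarith
    · have h9 := hineq t ht x
      nlinarith

/-- lower barrier for `Y`: `S_t ≤ S_xx/2 - (S+bu) S_x + b R S + b P`. -/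
theorem bar_le_Y (h : YSys t0 t1 b u V P Y Yx Yxx M) (hS : FBar t0 t1 S St Sx Sxx)
    (hS0 : ∀ t ∈ Icc t0 t1, ∀ x, S t x ≤ L * (1 + |x|))
    (hSx : ∀ t ∈ Ioc t0 t1, ∀ x, -L ≤ Sx t x)
    (hineq : ∀ t ∈ Ioc t0 t1, ∀ x,
      St t x ≤ Sxx t x / 2 - (S t x + b t * u t x) * Sx t x + b t * (1 - V t x) * S t x + b t * P t x)
    (hinit : ∀ x, S t0 x ≤ Y t0 x) :
    ∀ t ∈ Icc t0 t1, ∀ x, S t x ≤ Y t x := by
  have key := forward_strip (t0 := t0) (t1 := t1) (w := fun t x => -(Y t x - S t x))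
    (h.cY.sub hS.cS).neg (A := 1) (B := M) (C := M + L) (M := M + L) ?_ ?_ ?_
  · intro t ht x
    have := key t ht x
    linarith
  · intro t ht x
    have h3 := (abs_le.1 (h.Y_le t ht x)).1
    have h4 := hS0 t ht x
    nlinarith
  · intro x; have := hinit x; linarith
  · intro t ht x hpos
    have htI : t ∈ Icc t0 t1 := ⟨ht.1.le, ht.2⟩
    have h1 := h.b_nonneg t htI
    have h5 := h.b_le t htI
    have h6 := h.V_pos t htI x
    have h7 := hSx t ht x
    refine ⟨_, -(Yxx t x - Sxx t x), 1/2, -(Y t x + b t * u t x), b t * (1 - V t x) - Sx t x,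
      fun y => -(Yx t y - Sx t y), ((h.hYt t ht x).sub (hS.hSt t ht x)).neg,
      Eventually.of_forall fun y => ((h.hYx t ht y).sub (hS.hSx t ht y)).neg, ?_, by norm_num, ?_,
      ?_, ?_, ?_⟩
    · exact HasSide.neg (HasSide.sub_of (h.hYxx t ht x) (hS.hSxx t ht x))
    · nlinarith [sq_nonneg x]
    · rw [abs_neg]; exact h.drift t htI x
    · have h8 : b t * (1 - V t x) ≤ b t := by nlinarith
      linarith
    · have h9 := hineq t ht x
      nlinarith

end forw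

end Crest.Agent.R146.MaxPCmp2_371
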