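import Crest.Agent.R146.Hg_534

/-!
Row 146 (TIP-REG, helper534): `PG` = continuous functions of polynomial growth; `Sm` = functions all of
whose derivatives exist and have polynomial growth (via `PB n`).
-/

set_option autoImplicit false

namespace Crest.Agent.R146.PB_534

open MeasureTheory ProbabilityTheory Filter Topology Set
open Crest.Agent.R146.Hg_534

noncomputable section

/-- continuous functions of polynomial growth -/
structure PG (φ : ℝ → ℝ) : Prop where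
  cont : Continuous φ
  bd : ∃ (C : ℝ) (n : ℕ), 0 ≤ C ∧ ∀ x, |φ x| ≤ C * (1 + |x|) ^ n

theorem one_le_base (x : ℝ) : 1 ≤ 1 + |x| := by
  have := abs_nonneg x
  linarith

theorem PG.const (c : ℝ) : PG (fun _ => c) :=
  ⟨continuous_const, |c|, 0, abs_nonneg c, fun x => by simp⟩

theorem PG.id : PG (fun x => x) :=
  ⟨continuous_id, 1, 1, zero_le_one, fun x => by
    have := abs_nonneg x
    rw [pow_one, one_mul]
    linarith⟩

theorem PG.of_bdd {φ : ℝ → ℝ} (hc : Continuous φ) {K : ℝ} (hK : ∀ x, |φ x| ≤ K) : PG φ :=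
  ⟨hc, K, 0, (abs_nonneg _).trans (hK 0), fun x => by simpa using hK x⟩

theorem PG.add {φ ψ : ℝ → ℝ} (hφ : PG φ) (hψ : PG ψ) : PG (fun x => φ x + ψ x) := by
  obtain ⟨C, n, hC, h⟩ := hφ.bd
  obtain ⟨C', n', hC', h'⟩ := hψ.bd
  refine ⟨hφ.cont.add hψ.cont, C + C', max n n', by positivity, fun x => ?_⟩
  have h1 : (1 + |x|) ^ n ≤ (1 + |x|) ^ max n n' :=
    pow_le_pow_right₀ (one_le_base x) (le_max_left _ _)
  have h2 : (1 + |x|) ^ n' ≤ (1 + |x|) ^ max n n' :=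
    pow_le_pow_right₀ (one_le_base x) (le_max_right _ _)
  calc |φ x + ψ x| ≤ |φ x| + |ψ x| := abs_add_le _ _
    _ ≤ C * (1 + |x|) ^ n + C' * (1 + |x|) ^ n' := add_le_add (h x) (h' x)
    _ ≤ C * (1 + |x|) ^ max n n' + C' * (1 + |x|) ^ max n n' :=
        add_le_add (mul_le_mul_of_nonneg_left h1 hC) (mul_le_mul_of_nonneg_left h2 hC')
    _ = _ := by ring

theorem PG.mul {φ ψ : ℝ → ℝ} (hφ : PG φ) (hψ : PG ψ) : PG (fun x => φ x * ψ x) := by
  obtain ⟨C, n, hC, h⟩ := hφ.bd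
  obtain ⟨C', n', hC', h'⟩ := hψ.bd
  refine ⟨hφ.cont.mul hψ.cont, C * C', n + n', by positivity, fun x => ?_⟩
  have hx := one_le_base x
  calc |φ x * ψ x| = |φ x| * |ψ x| := abs_mul _ _
    _ ≤ (C * (1 + |x|) ^ n) * (C' * (1 + |x|) ^ n') :=
        mul_le_mul (h x) (h' x) (abs_nonneg _) (by positivity)
    _ = _ := by rw [pow_add]; ring

theorem PG.const_mul {φ : ℝ → ℝ} (hφ : PG φ) (c : ℝ) : PG (fun x => c * φ x) :=
  (PG.const c).mul hφ

theorem PG.neg {φ : ℝ → ℝ} (hφ : PG φ) : PG (fun x => -φ x) := by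
  have := hφ.const_mul (-1)
  simpa using this

theorem PG.sub {φ ψ : ℝ → ℝ} (hφ : PG φ) (hψ : PG ψ) : PG (fun x => φ x - ψ x) := by
  have := hφ.add hψ.neg
  simpa [sub_eq_add_neg] using this

theorem PG.pow {φ : ℝ → ℝ} (hφ : PG φ) (n : ℕ) : PG (fun x => φ x ^ n) := by
  induction n with
  | zero => simpa using PG.const 1
  | succ n ih => simpa [pow_succ] using ih.mul hφ

theorem PG.abs {φ : ℝ → ℝ} (hφ : PG φ) : PG (fun x => |φ x|) := by
  obtain ⟨C, n, hC, h⟩ := hφ.bd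
  exact ⟨hφ.cont.abs, C, n, hC, fun x => by rw [abs_abs]; exact h x⟩

theorem PG.of_abs_le {φ ψ : ℝ → ℝ} (hc : Continuous φ) (hψ : PG ψ) (h : ∀ x, |φ x| ≤ |ψ x|) :
    PG φ := by
  obtain ⟨C, n, hC, h'⟩ := hψ.bd
  exact ⟨hc, C, n, hC, fun x => (h x).trans (h' x)⟩

/-- polynomial growth implies exponential growth -/
theorem PG.eg {φ : ℝ → ℝ} (hφ : PG φ) : EG φ := by
  obtain ⟨C, n, hC, h⟩ := hφ.bd
  refine ⟨hφ.cont, C * Real.exp n, n, by positivity, by positivity, fun x => (h x).trans ?_⟩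
  rw [mul_assoc]
  refine mul_le_mul_of_nonneg_left ?_ hC
  have h1 : 1 + |x| ≤ Real.exp (1 + |x|) := by
    have := Real.add_one_le_exp (1 + |x|)
    linarith
  have h0 : 0 ≤ 1 + |x| := le_trans zero_le_one (one_le_base x)
  calc (1 + |x|) ^ n ≤ (Real.exp (1 + |x|)) ^ n := pow_le_pow_left₀ h0 h1 n
    _ = Real.exp (n * (1 + |x|)) := by rw [← Real.exp_nat_mul]
    _ = Real.exp n * Real.exp (n * |x|) := by rw [← Real.exp_add]; ring_nf

/-- `n` derivatives, all of polynomial growth -/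
def PB : ℕ → (ℝ → ℝ) → Prop
  | 0, φ => PG φ
  | n + 1, φ => PG φ ∧ Differentiable ℝ φ ∧ PB n (deriv φ)

theorem PB.pg : ∀ {n : ℕ} {φ : ℝ → ℝ}, PB n φ → PG φ
  | 0, _, h => h
  | _ + 1, _, h => h.1

theorem PB.pred : ∀ {n : ℕ} {φ : ℝ → ℝ}, PB (n + 1) φ → PB n φ
  | 0, _, h => h.1
  | _ + 1, _, h => ⟨h.1, h.2.1, h.2.2.pred⟩

theorem PB.const : ∀ (n : ℕ) (c : ℝ), PB n (fun _ => c)
  | 0, c => PG.const c
  | n + 1, c => ⟨PG.const c, differentiable_const c, by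
      have e : deriv (fun _ : ℝ => c) = fun _ => (0 : ℝ) := by
        funext x; simp
      rw [e]; exact PB.const n 0⟩

theorem PB.add : ∀ {n : ℕ} {φ ψ : ℝ → ℝ}, PB n φ → PB n ψ → PB n (fun x => φ x + ψ x)
  | 0, _, _, h, h' => PG.add h h'
  | n + 1, φ, ψ, h, h' => ⟨h.1.add h'.1, h.2.1.add h'.2.1, by
      have e : deriv (fun x => φ x + ψ x) = fun x => deriv φ x + deriv ψ x := by
        funext x
        exact deriv_fun_add (h.2.1 x) (h'.2.1 x)
      rw [e]; exact PB.add h.2.2 h'.2.2⟩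

theorem PB.mul : ∀ {n : ℕ} {φ ψ : ℝ → ℝ}, PB n φ → PB n ψ → PB n (fun x => φ x * ψ x)
  | 0, _, _, h, h' => PG.mul h h'
  | n + 1, φ, ψ, h, h' => ⟨h.1.mul h'.1, h.2.1.mul h'.2.1, by
      have e : deriv (fun x => φ x * ψ x) = fun x => deriv φ x * ψ x + φ x * deriv ψ x := by
        funext x
        exact deriv_fun_mul (h.2.1 x) (h'.2.1 x)
      rw [e]; exact PB.add (PB.mul h.2.2 h'.pred) (PB.mul h.pred h'.2.2)⟩

/-- all derivatives of polynomial growth -/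
def Sm (φ : ℝ → ℝ) : Prop := ∀ n, PB n φ

theorem Sm.pg {φ : ℝ → ℝ} (h : Sm φ) : PG φ := (h 0).pg
theorem Sm.diff {φ : ℝ → ℝ} (h : Sm φ) : Differentiable ℝ φ := (h 1).2.1
theorem Sm.deriv {φ : ℝ → ℝ} (h : Sm φ) : Sm (deriv φ) := fun n => (h (n + 1)).2.2
theorem Sm.hd {φ : ℝ → ℝ} (h : Sm φ) (x : ℝ) : HasDerivAt φ (_root_.deriv φ x) x :=
  (h.diff x).hasDerivAt
theorem Sm.const (c : ℝ) : Sm (fun _ => c) := fun n => PB.const n c
theorem Sm.add {φ ψ : ℝ → ℝ} (h : Sm φ) (h' : Sm ψ) : Sm (fun x => φ x + ψ x) :=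
  fun n => (h n).add (h' n)
theorem Sm.mul {φ ψ : ℝ → ℝ} (h : Sm φ) (h' : Sm ψ) : Sm (fun x => φ x * ψ x) :=
  fun n => (h n).mul (h' n)
theorem Sm.const_mul {φ : ℝ → ℝ} (h : Sm φ) (c : ℝ) : Sm (fun x => c * φ x) :=
  (Sm.const c).mul h
theorem Sm.neg {φ : ℝ → ℝ} (h : Sm φ) : Sm (fun x => -φ x) := by
  have := h.const_mul (-1)
  simpa using this
theorem Sm.sub {φ ψ : ℝ → ℝ} (h : Sm φ) (h' : Sm ψ) : Sm (fun x => φ x - ψ x) := by
  have := h.add h'.neg
  simpa [sub_eq_add_neg] using this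
theorem Sm.pow {φ : ℝ → ℝ} (h : Sm φ) (n : ℕ) : Sm (fun x => φ x ^ n) := by
  induction n with
  | zero => simpa using Sm.const 1
  | succ n ih => simpa [pow_succ] using ih.mul h

theorem Sm.id : Sm (fun x : ℝ => x) := by
  intro n
  cases n with
  | zero => exact PG.id
  | succ n =>
    refine ⟨PG.id, differentiable_id, ?_⟩
    have e : _root_.deriv (fun x : ℝ => x) = fun _ => (1 : ℝ) := by
      funext x; simp
    rw [e]; exact PB.const n 1

/-- introduction by an explicit derivative -/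
theorem Sm.of_deriv {φ φ' : ℝ → ℝ} (hp : PG φ) (hd : ∀ x, HasDerivAt φ (φ' x) x) (h : Sm φ') :
    Sm φ := by
  intro n
  cases n with
  | zero => exact hp
  | succ n =>
    refine ⟨hp, fun x => (hd x).differentiableAt, ?_⟩
    have e : _root_.deriv φ = φ' := by
      funext x; exact (hd x).deriv
    rw [e]; exact h n

theorem Sm.cont {φ : ℝ → ℝ} (h : Sm φ) : Continuous φ := h.pg.cont

theorem Sm.add_const {φ : ℝ → ℝ} (h : Sm φ) (c : ℝ) : Sm (fun x => φ x + c) := h.add (Sm.const c)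
theorem Sm.sub_const {φ : ℝ → ℝ} (h : Sm φ) (c : ℝ) : Sm (fun x => φ x - c) := h.sub (Sm.const c)

end

end Crest.Agent.R146.PB_534
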