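import Crest.Agent.R146.VRatio_371
import Crest.Agent.R146.StepDef_791

/-!
Row 146, PT-CMP: `Back A` gives `BSysV` (limits of `V` at `±∞`), and the slope barriers of the step system in the
new clock `r = -log K0`, `Y = m K0 = b χ`, with exponentially small transients.
-/

set_option autoImplicit false

open Set Filter Topology MeasureTheory

namespace Crest.Agent.R146.StepCmp_371

open MaxP_371 MaxP2_371 MaxPCmp_371 VSpace_371 VRatio_371 StepDef_791

/-- a monotone function `V ∈ (0,1)` whose primitive `w` is positive tends to `0` at `-∞` -/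
lemma lim_bot_of {V w : ℝ → ℝ} (hV : Monotone V) (hV0 : ∀ x, 0 ≤ V x)
    (hw : ∀ x, HasDerivAt w (V x) x) (hwpos : ∀ x, 0 < w x) : Tendsto V atBot (𝓝 0) := by
  have hbdd : BddBelow (range V) := ⟨0, by rintro _ ⟨x, rfl⟩; exact hV0 x⟩
  have h1 := tendsto_atBot_ciInf hV hbdd
  set ℓ := ⨅ x, V x with hℓ
  have hℓ0 : 0 ≤ ℓ := le_ciInf hV0
  rcases hℓ0.eq_or_lt with h | h
  · rwa [← h] at h1
  · exfalso
    -- V ≥ ℓ > 0 so w(x) ≤ w(0) + ℓ x for x ≤ 0
    have h2 : ∀ x, ℓ ≤ V x := fun x => ciInf_le hbdd x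
    have hmono : Monotone (fun x => w x - ℓ * x) := by
      apply monotone_of_deriv_nonneg
      · intro x; exact ((hw x).sub ((hasDerivAt_id x).const_mul ℓ)).differentiableAt
      · intro x
        have h3 := (hw x).sub ((hasDerivAt_id x).const_mul ℓ)
        have h4 : deriv (fun x => w x - ℓ * x) x = V x - ℓ * 1 := h3.deriv
        rw [h4]; linarith [h2 x]
    set y : ℝ := -(w 0 / ℓ) - 1 with hy
    have hy0 : y ≤ 0 := by
      have : 0 ≤ w 0 / ℓ := div_nonneg (hwpos 0).le h.le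
      linarith
    have h5 := hmono hy0
    simp only [mul_zero, sub_zero] at h5
    have h6 : ℓ * y = -(w 0) - ℓ := by rw [hy]; field_simp
    have h7 := hwpos y
    linarith

/-- a monotone function `V ≤ 1` such that the primitive `u` of `V - 1` is positive tends to `1` at `+∞` -/
lemma lim_top_of {V u : ℝ → ℝ} (hV : Monotone V) (hV1 : ∀ x, V x ≤ 1)
    (hu : ∀ x, HasDerivAt u (V x - 1) x) (hupos : ∀ x, 0 < u x) : Tendsto V atTop (𝓝 1) := by
  have h := lim_bot_of (V := fun x => 1 - V (-x)) (w := fun x => u (-x))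
    (fun x y hxy => by have := hV (neg_le_neg hxy); simp only; linarith)
    (fun x => by have := hV1 (-x); linarith)
    (fun x => by
      have h1 := HasDerivAt.comp x (hu (-x)) (hasDerivAt_neg x)
      have h2 : (V (-x) - 1) * -1 = 1 - V (-x) := by ring
      rw [h2] at h1
      exact h1)
    (fun x => hupos (-x))
  have h2 : Tendsto (fun x => 1 - (1 - V (-(-x)))) atTop (𝓝 (1 - 0)) :=
    ((h.comp tendsto_neg_atTop_atBot).const_sub 1)
  simpa using h2

/-- `Back A` gives the system with inverse function theory. -/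
theorem exists_BSysV {A : SD} (hA : Back A) :
    ∃ M, BSysV 0 A.T A.b A.u A.V A.P A.Px A.Pxx M := by
  obtain ⟨M, h⟩ := hA.bsys
  refine ⟨M, { h with P_pos := ?_, lim_bot := ?_, lim_top := ?_, cPx := ?_ }⟩
  · intro t ht x; exact hA.P_pos t ⟨ht.1, ht.2.le⟩ x
  · intro t ht
    refine lim_bot_of (w := A.w t) (h.mono ht) (fun x => (h.V_pos t ⟨ht.1, ht.2.le⟩ x).le) ?_
      (hA.w_pos t ⟨ht.1, ht.2.le⟩)
    intro x
    have h1 := (hasDerivAt_id x).add (hA.u_x t ⟨ht.1, ht.2.le⟩ x)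
    have h2 : (1:ℝ) + (A.V t x - 1) = A.V t x := by ring
    rw [h2] at h1
    exact h1
  · intro t ht
    exact lim_top_of (u := A.u t) (h.mono ht) (fun x => (h.V_lt t ⟨ht.1, ht.2.le⟩ x).le)
      (hA.u_x t ⟨ht.1, ht.2.le⟩) (hA.u_pos t ⟨ht.1, ht.2.le⟩)
  · exact hA.Px_cont.mono (prod_mono Ico_subset_Icc_self le_rfl)

/-- the normalised clock ratio: `ε(t) = ε₁ (K0 t₁ / K0 t)^κ`, `χ ε' = κ ε`. -/
noncomputable def eps (A : SD) (t1 ε1 κ t : ℝ) : ℝ := ε1 * (A.K0 t1 / A.K0 t) ^ κ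

lemma eps_pos {A : SD} (hC : Clock A) {t1 ε1 κ t : ℝ} (h1 : t1 < 1) (ht : t < 1) (hε : 0 < ε1) :
    0 < eps A t1 ε1 κ t :=
  mul_pos hε (Real.rpow_pos_of_pos (div_pos (hC.K0_pos _ h1) (hC.K0_pos _ ht)) _)

lemma eps_self {A : SD} (hC : Clock A) {t1 ε1 κ : ℝ} (h1 : t1 < 1) : eps A t1 ε1 κ t1 = ε1 := by
  unfold eps
  rw [div_self (hC.K0_pos _ h1).ne', Real.one_rpow, mul_one]

lemma eps_deriv {A : SD} (hC : Clock A) {t1 ε1 κ t : ℝ} (h1 : t1 < 1) (ht : t ∈ Icc 0 A.T) :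
    HasDerivAt (eps A t1 ε1 κ) (κ * eps A t1 ε1 κ t / A.chi t) t := by
  have ht1 : t < 1 := ht.2.trans_lt A.hT1
  have hK : 0 < A.K0 t := hC.K0_pos _ ht1
  have hK1 : 0 < A.K0 t1 := hC.K0_pos _ h1
  have hD := A.D_pos t
  have h2 : HasDerivAt (fun s => A.K0 t1 / A.K0 s) (A.K0 t1 * A.E t / A.K0 t ^ 2) t := by
    have := (hC.K0_t t ht).inv hK.ne'
    have h3 := this.const_mul (A.K0 t1)
    refine (h3.congr_deriv ?_)
    ring
  have h4 := h2.rpow_const (p := κ) (Or.inl (div_pos hK1 hK).ne')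
  have h5 := h4.const_mul ε1
  refine h5.congr_deriv ?_
  unfold eps SD.chi SD.E
  rw [Real.rpow_sub_one (div_pos hK1 hK).ne']
  have hKK : A.K0 t ≠ 0 := hK.ne'
  have hKK1 : A.K0 t1 ≠ 0 := hK1.ne'
  have hDD : A.D t ≠ 0 := hD.ne'
  field_simp

end Crest.Agent.R146.StepCmp_371
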