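import Crest.Agent.R146.StepDef_791

/-!
Row 146, package PT-STEP, task 117 (helper483): the START PROFILE of the step system.

`Phi z = P(g ≤ z)`, `U0 z = E (z+g)₋ = φ(z) - z (1 - Φ(z))`, `U0' = Φ - 1`, `Φ' = φ`; smoothness and
polynomial growth; `startPsi d δ` and its derivatives; the fields of a step datum at `t = T`;
Gaussian lower bound for `P(T, ·)`.
-/

set_option autoImplicit false

namespace Crest.Agent.R146.StepStart_483

open MeasureTheory ProbabilityTheory Filter Topology Set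
open Crest.ProbabilityR.InvariantGlass
open Crest.Agent.R146.Hg_534 Crest.Agent.R146.PB_534 Crest.Agent.R146.StepDef_791

noncomputable section

/-- standard Gaussian density -/
abbrev ph (z : ℝ) : ℝ := gaussianPDFReal 0 1 z

/-- standard Gaussian distribution function -/
def Phi (z : ℝ) : ℝ := (gaussianReal 0 1).real (Iic z)

theorem ph_eq (z : ℝ) : ph z = (√(2 * Real.pi))⁻¹ * Real.exp (-z ^ 2 / 2) := by
  unfold ph gaussianPDFReal
  simp

theorem ph_pos (z : ℝ) : 0 < ph z := gaussianPDFReal_pos 0 1 z one_ne_zero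

theorem ph_neg (z : ℝ) : ph (-z) = ph z := by
  rw [ph_eq, ph_eq, neg_sq]

theorem ph_deriv (z : ℝ) : HasDerivAt ph (-z * ph z) z := by
  have h1 : HasDerivAt (fun z : ℝ => -z ^ 2 / 2) (-z) z := by
    have h2 : HasDerivAt (fun z : ℝ => z ^ 2) (2 * z) z := by
      simpa using (hasDerivAt_id' z).fun_pow 2
    have h3 := (h2.fun_neg).div_const 2
    have e : -(2 * z) / 2 = -z := by ring
    rw [e] at h3
    exact h3
  have h4 := h1.exp.const_mul ((√(2 * Real.pi))⁻¹)
  have e1 : ph = fun z => (√(2 * Real.pi))⁻¹ * Real.exp (-z ^ 2 / 2) := funext ph_eq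
  rw [e1]
  exact h4.congr_deriv (by ring)

theorem ph_cont : Continuous ph := by
  have e1 : ph = fun z => (√(2 * Real.pi))⁻¹ * Real.exp (-z ^ 2 / 2) := funext ph_eq
  rw [e1]
  fun_prop

theorem ph_le_one (z : ℝ) : ph z ≤ 1 := by
  rw [ph_eq]
  have h1 : Real.exp (-z ^ 2 / 2) ≤ 1 := by
    rw [Real.exp_le_one_iff]
    have := sq_nonneg z
    linarith
  have h2 : (1 : ℝ) ≤ √(2 * Real.pi) := by
    rw [Real.one_le_sqrt]
    have := Real.pi_gt_three
    linarith
  have h3 : (√(2 * Real.pi))⁻¹ ≤ 1 := inv_le_one_of_one_le₀ h2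
  have h4 : 0 ≤ (√(2 * Real.pi))⁻¹ := by positivity
  calc (√(2 * Real.pi))⁻¹ * Real.exp (-z ^ 2 / 2) ≤ 1 * 1 :=
        mul_le_mul h3 h1 (Real.exp_pos _).le zero_le_one
    _ = 1 := one_mul 1

theorem ph_int : Integrable ph := integrable_gaussianPDFReal 0 1

theorem Phi_eq (z : ℝ) : Phi z = ∫ x in Iic z, ph x := by
  unfold Phi
  rw [Measure.real, gaussianReal_apply_eq_integral 0 one_ne_zero, ENNReal.toReal_ofReal]
  exact integral_nonneg fun x => gaussianPDFReal_nonneg 0 1 x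

theorem Phi_deriv (z : ℝ) : HasDerivAt Phi (ph z) z := by
  have e : Phi = fun z => Phi 0 + ∫ x in (0:ℝ)..z, ph x := by
    funext z
    rw [Phi_eq, Phi_eq, ← intervalIntegral.integral_Iic_sub_Iic ph_int.integrableOn
      ph_int.integrableOn]
    ring
  rw [e]
  have h := intervalIntegral.integral_hasDerivAt_right (a := 0) (b := z) (f := ph)
    (ph_int.intervalIntegrable) (ph_cont.stronglyMeasurableAtFilter _ _) ph_cont.continuousAt
  exact h.const_add _

theorem Phi_cont : Continuous Phi :=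
  continuous_iff_continuousAt.2 fun z => (Phi_deriv z).continuousAt

theorem Phi_strictMono : StrictMono Phi :=
  strictMono_of_deriv_pos fun z => by
    rw [(Phi_deriv z).deriv]
    exact ph_pos z

theorem Phi_nonneg (z : ℝ) : 0 ≤ Phi z := measureReal_nonneg

theorem Phi_le_one (z : ℝ) : Phi z ≤ 1 := measureReal_le_one

theorem Phi_pos (z : ℝ) : 0 < Phi z :=
  (Phi_nonneg (z - 1)).trans_lt (Phi_strictMono (by linarith))

theorem Phi_lt_one (z : ℝ) : Phi z < 1 :=
  (Phi_strictMono (by linarith : z < z + 1)).trans_le (Phi_le_one (z + 1))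

theorem Phi_neg (z : ℝ) : Phi (-z) = 1 - Phi z := by
  unfold Phi
  have h1 : (gaussianReal 0 1).real (Iic (-z)) = (gaussianReal 0 1).real (Ici z) := by
    have h2 : (gaussianReal 0 1).map (fun x : ℝ => -x) = gaussianReal 0 1 := by
      have h3 := gaussianReal_map_neg (μ := 0) (v := 1)
      rw [neg_zero] at h3
      exact h3
    conv_lhs => rw [← h2]
    rw [Measure.real, Measure.real, Measure.map_apply (by fun_prop) measurableSet_Iic]
    congr 2
    ext x
    simp only [mem_preimage, mem_Iic, mem_Ici, neg_le_neg_iff]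
  rw [h1]
  have h4 : (gaussianReal 0 1).real (Ici z) = (gaussianReal 0 1).real (Ioi z) := by
    have := nullSingletonClass_gaussianReal (μ := 0) (v := 1) one_ne_zero
    rw [Measure.real, Measure.real]
    congr 1
    exact measure_congr Ioi_ae_eq_Ici.symm
  rw [h4, ← compl_Iic, probReal_compl_eq_one_sub measurableSet_Iic]

theorem Phi_tendsto_atBot : Tendsto Phi atBot (𝓝 0) := by
  have h := tendsto_cdf_atBot (gaussianReal 0 1)
  refine h.congr fun z => ?_
  rw [cdf_eq_real]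
  rfl

/-- `g Φ(g) → 0` and `φ(g) → 0`: we only need that `F = φ - zΦ → 0` at `-∞` -/
theorem ph_tendsto_atBot : Tendsto ph atBot (𝓝 0) := by
  have e1 : ph = fun z => (√(2 * Real.pi))⁻¹ * Real.exp (-z ^ 2 / 2) := funext ph_eq
  rw [e1]
  have h1 : Tendsto (fun z : ℝ => -z ^ 2 / 2) atBot atBot := by
    have h2 : Tendsto (fun z : ℝ => z ^ 2) atBot atTop := by
      have := tendsto_pow_atTop (α := ℝ) (n := 2) two_ne_zero
      have h3 := this.comp tendsto_neg_atBot_atTop
      refine h3.congr fun z => ?_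
      simp
    have h4 := (tendsto_neg_atTop_atBot.comp h2).atBot_div_const (two_pos : (0:ℝ) < 2)
    exact h4
  have h5 := (Real.tendsto_exp_atBot.comp h1).const_mul ((√(2 * Real.pi))⁻¹)
  simpa using h5

/-- **explicit formula** -/
theorem U0_eq (z : ℝ) : U0 z = ph z - z * (1 - Phi z) := by
  have hF : ∀ x : ℝ, HasDerivAt (fun x => ph x - z * Phi x) ((-z - x) * ph x) x := by
    intro x
    have h := (ph_deriv x).fun_sub ((Phi_deriv x).const_mul z)
    exact h.congr_deriv (by ring)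
  have hint : IntegrableOn (fun x => (-z - x) * ph x) (Iic (-z)) := by
    have h1 : Integrable (fun x : ℝ => x * ph x) := by
      have h2 : Integrable (fun x : ℝ => x) (gaussianReal 0 1) :=
        (memLp_id_gaussianReal 1).integrable le_rfl
      rw [gaussianReal_of_var_ne_zero 0 one_ne_zero] at h2
      rw [integrable_withDensity_iff (measurable_gaussianPDF 0 1)
        (Eventually.of_forall fun x => gaussianPDF_lt_top)] at h2
      simpa [toReal_gaussianPDF] using h2
    have h3 := (ph_int.const_mul (-z)).sub h1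
    refine (h3.congr (Eventually.of_forall fun x => ?_)).integrableOn
    simp only [Pi.sub_apply]
    ring
  have hlim : Tendsto (fun x => ph x - z * Phi x) atBot (𝓝 0) := by
    have h := ph_tendsto_atBot.sub (Phi_tendsto_atBot.const_mul z)
    simpa using h
  have h1 := integral_Iic_of_hasDerivAt_of_tendsto' (a := -z) (fun x _ => hF x) hint hlim
  unfold U0 H
  rw [integral_gaussianReal_eq_integral_smul one_ne_zero]
  have h2 : (fun x : ℝ => gaussianPDFReal 0 1 x • max (-(z + 1 * x)) 0) =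
      (Iic (-z)).indicator (fun x => (-z - x) * ph x) := by
    funext x
    by_cases hx : x ≤ -z
    · rw [indicator_of_mem (mem_Iic.2 hx), max_eq_left (by linarith), smul_eq_mul]
      ring
    · rw [indicator_of_notMem (by simpa using hx), max_eq_right (by linarith), smul_zero]
  rw [h2, integral_indicator measurableSet_Iic, h1, ph_neg, Phi_neg]
  ring

theorem U0_deriv (z : ℝ) : HasDerivAt U0 (Phi z - 1) z := by
  have e : U0 = fun z => ph z - z * (1 - Phi z) := funext U0_eq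
  rw [e]
  have h := (ph_deriv z).fun_sub ((hasDerivAt_id' z).fun_mul ((Phi_deriv z).const_sub 1))
  exact h.congr_deriv (by ring)

theorem EG_neg_part : EG (fun y : ℝ => max (-y) 0) :=
  (PG.of_abs_le (by fun_prop) PG.id fun x => by
    rw [abs_of_nonneg (le_max_right _ _)]
    exact max_le (neg_le_abs x) (abs_nonneg x)).eg

theorem U0_nonneg (z : ℝ) : 0 ≤ U0 z := integral_nonneg fun _ => le_max_right _ _

theorem U0_strictAnti : StrictAnti U0 :=
  strictAnti_of_deriv_neg fun z => by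
    rw [(U0_deriv z).deriv]
    linarith [Phi_lt_one z]

theorem U0_pos (z : ℝ) : 0 < U0 z :=
  (U0_nonneg (z + 1)).trans_lt (U0_strictAnti (by linarith))

/-- `z + U0 z = U0 (-z)` -/
theorem add_U0 (z : ℝ) : z + U0 z = U0 (-z) := by
  rw [U0_eq, U0_eq, ph_neg, Phi_neg]
  ring

theorem add_U0_pos (z : ℝ) : 0 < z + U0 z := by
  rw [add_U0]
  exact U0_pos _

theorem U0_le (z : ℝ) : U0 z ≤ 1 + |z| := by
  rw [U0_eq]
  have h1 := ph_le_one z
  have h2 : -(z * (1 - Phi z)) ≤ |z| := by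
    have h3 : |z * (1 - Phi z)| ≤ |z| * 1 := by
      rw [abs_mul]
      refine mul_le_mul_of_nonneg_left ?_ (abs_nonneg z)
      rw [abs_of_nonneg (by linarith [Phi_le_one z])]
      linarith [Phi_nonneg z]
    have h4 := neg_abs_le (z * (1 - Phi z))
    linarith
  linarith

theorem abs_U0_le (z : ℝ) : |U0 z| ≤ 1 + |z| := by
  rw [abs_of_pos (U0_pos z)]
  exact U0_le z

/-! ### Smoothness -/

theorem PB_mul_ph : ∀ (n : ℕ) (p : ℝ → ℝ), Sm p → PB n (fun z => p z * ph z)
  | 0, p, hp => hp.pg.mul (PG.of_bdd ph_cont (K := 1) fun z => by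
      rw [abs_of_pos (ph_pos z)]; exact ph_le_one z)
  | n + 1, p, hp => by
      have hd : ∀ z, HasDerivAt (fun z => p z * ph z) ((deriv p z - z * p z) * ph z) z := by
        intro z
        have h := (hp.hd z).fun_mul (ph_deriv z)
        exact h.congr_deriv (by ring)
      refine ⟨(PB_mul_ph 0 p hp).pg, fun z => (hd z).differentiableAt, ?_⟩
      have e : deriv (fun z => p z * ph z) = fun z => (deriv p z - z * p z) * ph z := by
        funext z; exact (hd z).deriv
      rw [e]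
      exact PB_mul_ph n _ (hp.deriv.sub (Sm.id.mul hp))

theorem Sm_ph : Sm (fun z => gaussianPDFReal 0 1 z) := by
  intro n
  have h := PB_mul_ph n _ (Sm.const 1)
  simpa using h

theorem Sm_Phi : Sm Phi :=
  Sm.of_deriv (PG.of_bdd Phi_cont (K := 1) fun z => by
    rw [abs_of_nonneg (Phi_nonneg z)]; exact Phi_le_one z) Phi_deriv Sm_ph

theorem Sm_U0 : Sm U0 :=
  Sm.of_deriv ⟨continuous_iff_continuousAt.2 fun z => (U0_deriv z).continuousAt, 1, 1, zero_le_one,
    fun z => by rw [pow_one, one_mul]; exact abs_U0_le z⟩ U0_deriv (Sm_Phi.sub_const 1)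

/-- polynomial growth of `x ↦ φ (x / c)` -/
theorem PG_div {φ : ℝ → ℝ} (h : PG φ) (c : ℝ) : PG (fun x => φ (x / c)) := by
  obtain ⟨C, n, hC, hb⟩ := h.bd
  have hc := h.cont
  refine ⟨by fun_prop, C * (1 + |c⁻¹|) ^ n, n, by positivity, fun x => (hb _).trans ?_⟩
  rw [mul_assoc, ← mul_pow]
  refine mul_le_mul_of_nonneg_left (pow_le_pow_left₀ (by positivity) ?_ n) hC
  rw [div_eq_mul_inv, abs_mul]
  have h1 := abs_nonneg x
  have h2 := abs_nonneg c⁻¹
  nlinarith

theorem PB_div (c : ℝ) : ∀ {n : ℕ} {φ : ℝ → ℝ}, PB n φ → PB n (fun x => φ (x / c))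
  | 0, _, h => PG_div h c
  | n + 1, φ, h => by
      have hd : ∀ x, HasDerivAt (fun x => φ (x / c)) (c⁻¹ * deriv φ (x / c)) x := by
        intro x
        have h1 : HasDerivAt (fun x : ℝ => x / c) c⁻¹ x := by
          have := (hasDerivAt_id' x).div_const c
          rwa [one_div] at this
        have h2 := ((h.2.1 (x / c)).hasDerivAt).comp x h1
        rw [mul_comm] at h2
        exact h2
      refine ⟨PG_div h.1 c, fun x => (hd x).differentiableAt, ?_⟩
      have e : deriv (fun x => φ (x / c)) = fun x => c⁻¹ * deriv φ (x / c) := by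
        funext x; exact (hd x).deriv
      rw [e]
      exact PB.mul (PB.const n c⁻¹) (PB_div c h.2.2)

theorem Sm_div {φ : ℝ → ℝ} (h : Sm φ) (c : ℝ) : Sm (fun x => φ (x / c)) := fun n => PB_div c (h n)

/-! ### The start profile -/

section start
variable (d δ : ℝ)

theorem negsq_deriv (y : ℝ) :
    HasDerivAt (fun y : ℝ => (max (-y) 0) ^ 2) (-(2 * max (-y) 0)) y := by
  rcases lt_trichotomy y 0 with hy | hy | hy
  · have h1 : (fun y : ℝ => (max (-y) 0) ^ 2) =ᶠ[𝓝 y] fun y => y ^ 2 := by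
      filter_upwards [Iio_mem_nhds hy] with w hw
      rw [max_eq_left (by linarith [mem_Iio.1 hw]), neg_sq]
    have h2 : HasDerivAt (fun y : ℝ => y ^ 2) (2 * y) y := by
      simpa using (hasDerivAt_id' y).fun_pow 2
    have h3 := h2.congr_of_eventuallyEq h1
    rw [max_eq_left (by linarith)]
    exact h3.congr_deriv (by ring)
  · subst hy
    rw [neg_zero, max_self, mul_zero, neg_zero]
    rw [hasDerivAt_iff_isLittleO]
    have h4 : (fun x' : ℝ => (max (-x') 0) ^ 2 - (max (-0) 0) ^ 2 - (x' - 0) • (0 : ℝ)) =O[𝓝 0]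
        fun x' : ℝ => (x' - 0) ^ 2 := by
      refine Asymptotics.IsBigO.of_bound 1 (Eventually.of_forall fun x' => ?_)
      rw [neg_zero, max_self, zero_pow two_ne_zero, smul_zero, sub_zero, sub_zero, sub_zero, one_mul,
        Real.norm_eq_abs, Real.norm_eq_abs, abs_pow, abs_pow]
      refine pow_le_pow_left₀ (abs_nonneg _) ?_ 2
      rw [abs_of_nonneg (le_max_right _ _)]
      exact max_le (neg_le_abs x') (abs_nonneg x')
    refine h4.trans_isLittleO ?_
    have h5 := Asymptotics.isLittleO_pow_sub_sub (0 : ℝ) (m := 2) (by norm_num)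
    simpa using h5
  · have h1 : (fun y : ℝ => (max (-y) 0) ^ 2) =ᶠ[𝓝 y] fun _ => (0 : ℝ) := by
      filter_upwards [Ioi_mem_nhds hy] with w hw
      rw [max_eq_right (by linarith [mem_Ioi.1 hw]), zero_pow two_ne_zero]
    have h3 := (hasDerivAt_const y (0 : ℝ)).congr_of_eventuallyEq h1
    rw [max_eq_right (by linarith)]
    exact h3.congr_deriv (by ring)

theorem EG_negsq : EG (fun y : ℝ => (max (-y) 0) ^ 2) := EG_neg_part.pow 2

/-- scaling -/
theorem H_neg_part {c : ℝ} (hc : 0 < c) (x : ℝ) :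
    H c (fun y => max (-y) 0) x = c * U0 (x / c) := by
  unfold U0 H
  rw [← integral_const_mul]
  congr 1
  funext g
  rw [mul_max_of_nonneg _ _ hc.le, mul_zero]
  field_simp

variable {d δ}

theorem startPsi_deriv (hδ : 0 < δ) (x : ℝ) :
    HasDerivAt (startPsi d δ) (Real.sqrt δ * U0 (x / Real.sqrt δ) / d) x := by
  have hs : 0 < Real.sqrt δ := Real.sqrt_pos.2 hδ
  have h := (H_deriv_x EG_negsq ((EG_neg_part.const_mul 2).neg) negsq_deriv (Real.sqrt δ) x).const_mul
    (-(1 / (2 * d)))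
  have e : -(1 / (2 * d)) * H (Real.sqrt δ) (fun y => -(2 * max (-y) 0)) x =
      Real.sqrt δ * U0 (x / Real.sqrt δ) / d := by
    have e2 : H (Real.sqrt δ) (fun y => -(2 * max (-y) 0)) x =
        -2 * H (Real.sqrt δ) (fun y => max (-y) 0) x := by
      rw [← H_const_mul]
      congr 1
      funext y
      ring
    rw [e2, H_neg_part hs]
    rcases eq_or_ne d 0 with hd | hd
    · subst hd; simp
    · field_simp
  rw [e] at h
  exact h

theorem startPsi_deriv_eq (hδ : 0 < δ) :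
    deriv (startPsi d δ) = fun x => Real.sqrt δ * U0 (x / Real.sqrt δ) / d :=
  funext fun x => (startPsi_deriv hδ x).deriv

theorem startPsi_deriv_pos (hd : 0 < d) (hδ : 0 < δ) (x : ℝ) : 0 < deriv (startPsi d δ) x := by
  rw [startPsi_deriv_eq hδ]
  have := U0_pos (x / Real.sqrt δ)
  have := Real.sqrt_pos.2 hδ
  positivity

theorem scaled_U0_deriv (hδ : 0 < δ) (x : ℝ) :
    HasDerivAt (fun x => Real.sqrt δ * U0 (x / Real.sqrt δ)) (Phi (x / Real.sqrt δ) - 1) x := by
  have hs : 0 < Real.sqrt δ := Real.sqrt_pos.2 hδ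
  have h1 : HasDerivAt (fun x : ℝ => x / Real.sqrt δ) (1 / Real.sqrt δ) x :=
    (hasDerivAt_id' x).div_const _
  have h2 := ((U0_deriv (x / Real.sqrt δ)).comp x h1).const_mul (Real.sqrt δ)
  have e : Real.sqrt δ * ((Phi (x / Real.sqrt δ) - 1) * (1 / Real.sqrt δ)) =
      Phi (x / Real.sqrt δ) - 1 := by
    field_simp
  rw [e] at h2
  exact h2

theorem scaled_Phi_deriv (x : ℝ) :
    HasDerivAt (fun x => Phi (x / Real.sqrt δ)) (ph (x / Real.sqrt δ) / Real.sqrt δ) x := by
  have h1 : HasDerivAt (fun x : ℝ => x / Real.sqrt δ) (1 / Real.sqrt δ) x :=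
    (hasDerivAt_id' x).div_const _
  have h2 := (Phi_deriv (x / Real.sqrt δ)).comp x h1
  have e : ph (x / Real.sqrt δ) * (1 / Real.sqrt δ) = ph (x / Real.sqrt δ) / Real.sqrt δ := by
    rw [mul_one_div]
  rw [e] at h2
  exact h2

/-- second derivative -/
theorem startPsi_deriv2 (hδ : 0 < δ) (x : ℝ) :
    HasDerivAt (deriv (startPsi d δ)) (-(1 - Phi (x / Real.sqrt δ)) / d) x := by
  rw [startPsi_deriv_eq hδ]
  have h := (scaled_U0_deriv hδ x).div_const d
  exact h.congr_deriv (by ring)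

theorem startPsi_deriv2_eq (hδ : 0 < δ) :
    deriv (deriv (startPsi d δ)) = fun x => -(1 - Phi (x / Real.sqrt δ)) / d :=
  funext fun x => (startPsi_deriv2 hδ x).deriv

theorem startPsi_deriv2_neg (hd : 0 < d) (hδ : 0 < δ) (x : ℝ) :
    deriv (deriv (startPsi d δ)) x < 0 := by
  rw [startPsi_deriv2_eq hδ]
  have := Phi_lt_one (x / Real.sqrt δ)
  exact div_neg_of_neg_of_pos (by linarith) hd

theorem startPsi_deriv2_gt (hd : 0 < d) (hδ : 0 < δ) (x : ℝ) :
    -(1 / d) < deriv (deriv (startPsi d δ)) x := by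
  rw [startPsi_deriv2_eq hδ]
  have h1 := Phi_pos (x / Real.sqrt δ)
  have h2 : (1 - Phi (x / Real.sqrt δ)) / d < 1 / d := div_lt_div_of_pos_right (by linarith) hd
  show -(1 / d) < -(1 - Phi (x / Real.sqrt δ)) / d
  rw [neg_div]
  linarith

/-- third derivative -/
theorem startPsi_deriv3 (hδ : 0 < δ) (x : ℝ) :
    HasDerivAt (deriv (deriv (startPsi d δ)))
      (gaussianPDFReal 0 1 (x / Real.sqrt δ) / (Real.sqrt δ * d)) x := by
  rw [startPsi_deriv2_eq hδ]
  have h := (((scaled_Phi_deriv (δ := δ) x).const_sub 1).fun_neg).div_const d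
  exact h.congr_deriv (by rw [neg_neg, div_div])

theorem startPsi_deriv3_eq (hδ : 0 < δ) :
    deriv (deriv (deriv (startPsi d δ))) =
      fun x => gaussianPDFReal 0 1 (x / Real.sqrt δ) / (Real.sqrt δ * d) :=
  funext fun x => (startPsi_deriv3 hδ x).deriv

theorem startPsi_deriv3_pos (hd : 0 < d) (hδ : 0 < δ) (x : ℝ) :
    0 < deriv (deriv (deriv (startPsi d δ))) x := by
  rw [startPsi_deriv3_eq hδ]
  have := ph_pos (x / Real.sqrt δ)
  have := Real.sqrt_pos.2 hδ
  positivity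

theorem startPsi_nonpos (hd : 0 < d) (x : ℝ) : startPsi d δ x ≤ 0 := by
  unfold startPsi
  have h1 : 0 ≤ H (Real.sqrt δ) (fun y => (max (-y) 0) ^ 2) x :=
    integral_nonneg fun _ => sq_nonneg _
  have h2 : 0 ≤ 1 / (2 * d) := by positivity
  have := mul_nonneg h2 h1
  linarith

theorem int_sq_shift (c x : ℝ) :
    ∫ g, (x + c * g) ^ 2 ∂gaussianReal 0 1 = x ^ 2 + c ^ 2 := by
  have h2 : Integrable (fun g : ℝ => g ^ 2) (gaussianReal 0 1) :=
    (memLp_id_gaussianReal 2).integrable_sq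
  have h1 : Integrable (fun g : ℝ => g) (gaussianReal 0 1) :=
    (memLp_id_gaussianReal 1).integrable le_rfl
  have e : (fun g : ℝ => (x + c * g) ^ 2) = fun g => x ^ 2 + (2 * x * c) * g + c ^ 2 * g ^ 2 := by
    funext g; ring
  have hv : ∫ g : ℝ, g ^ 2 ∂gaussianReal 0 1 = 1 := by
    have h3 := variance_id_gaussianReal (μ := 0) (v := 1)
    rw [variance_eq_sub (memLp_id_gaussianReal 2)] at h3
    simpa using h3
  have e1 : ∫ g : ℝ, (x ^ 2 + (2 * x * c) * g + c ^ 2 * g ^ 2) ∂gaussianReal 0 1 =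
      ∫ g : ℝ, (x ^ 2 + (2 * x * c) * g) ∂gaussianReal 0 1 + ∫ g : ℝ, c ^ 2 * g ^ 2 ∂gaussianReal 0 1 :=
    integral_add ((integrable_const _).add (h1.const_mul _)) (h2.const_mul _)
  have e2 : ∫ g : ℝ, (x ^ 2 + (2 * x * c) * g) ∂gaussianReal 0 1 =
      ∫ _ : ℝ, x ^ 2 ∂gaussianReal 0 1 + ∫ g : ℝ, (2 * x * c) * g ∂gaussianReal 0 1 :=
    integral_add (integrable_const _) (h1.const_mul _)
  rw [e, e1, e2, integral_const_mul, integral_const_mul, hv]
  simp

/-- quadratic lower bound -/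
theorem startPsi_ge (hd : 0 < d) (hδ : 0 ≤ δ) (x : ℝ) :
    -(1 / (2 * d) * (x ^ 2 + δ)) ≤ startPsi d δ x := by
  unfold startPsi
  have h1 : H (Real.sqrt δ) (fun y => (max (-y) 0) ^ 2) x ≤ H (Real.sqrt δ) (fun y => y ^ 2) x := by
    refine H_mono EG_negsq (PG.id.pow 2).eg (fun y => ?_) _ _
    have h3 : max (-y) 0 ≤ |y| := max_le (neg_le_abs y) (abs_nonneg y)
    calc (max (-y) 0) ^ 2 ≤ |y| ^ 2 := pow_le_pow_left₀ (le_max_right _ _) h3 2
      _ = y ^ 2 := sq_abs y
  have h2 : H (Real.sqrt δ) (fun y => y ^ 2) x = x ^ 2 + δ := by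
    unfold H
    rw [int_sq_shift, Real.sq_sqrt hδ]
  rw [h2] at h1
  have h4 : 0 ≤ 1 / (2 * d) := by positivity
  have := mul_le_mul_of_nonneg_left h1 h4
  linarith

theorem startPsi_lower (hd : 0 < d) (hδ : 0 ≤ δ) :
    ∃ C : ℝ, 0 ≤ C ∧ ∀ x, -(C * (1 + x ^ 2)) ≤ startPsi d δ x := by
  refine ⟨1 / (2 * d) * (1 + δ), by positivity, fun x => ?_⟩
  refine le_trans (neg_le_neg ?_) (startPsi_ge hd hδ x)
  rw [mul_assoc]
  refine mul_le_mul_of_nonneg_left ?_ (by positivity)
  have := sq_nonneg x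
  nlinarith [mul_nonneg hδ this]

theorem startPsi_abs_le (hd : 0 < d) (hδ : 0 ≤ δ) (x : ℝ) :
    |startPsi d δ x| ≤ 1 / (2 * d) * (x ^ 2 + δ) := by
  rw [abs_of_nonpos (startPsi_nonpos hd x)]
  linarith [startPsi_ge hd hδ x]

theorem Sm_startPsi (hd : 0 < d) (hδ : 0 < δ) : Sm (startPsi d δ) := by
  refine Sm.of_deriv ?_ (startPsi_deriv hδ) ?_
  · refine PG.of_abs_le (ψ := fun x => 1 / (2 * d) * (x ^ 2 + δ)) ?_ ?_ fun x => ?_
    · exact continuous_iff_continuousAt.2 fun x => (startPsi_deriv hδ x).continuousAt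
    · exact ((PG.id.pow 2).add (PG.const δ)).const_mul _
    · refine (startPsi_abs_le hd hδ.le x).trans (le_abs_self _)
  · have h := (Sm_div Sm_U0 (Real.sqrt δ)).const_mul (Real.sqrt δ / d)
    have e : (fun x => Real.sqrt δ * U0 (x / Real.sqrt δ) / d) =
        fun x => Real.sqrt δ / d * U0 (x / Real.sqrt δ) := by
      funext x; ring
    rw [e]
    exact h

end start

/-! ### The fields of a step datum at `t = T` -/

theorem gaussOp_zero_var {z : ℝ} (hz : z ≠ 0) (f : ℝ → ℝ) : gaussOp z 0 f = f := by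
  funext x
  unfold gaussOp
  rw [if_neg hz]
  simp [hz]

theorem psi_T (A : SD) : A.psi A.T = startPsi A.d A.dl := by
  funext x
  unfold SD.psi
  have hv := A.hv
  cases hcs : A.cs with
  | nil => rfl
  | cons c cs =>
    rw [hcs] at hv
    unfold Psc
    rw [if_pos hv.1.le, sub_self, gaussOp_zero_var hv.2.1.ne']

theorem D_T (A : SD) : A.D A.T = A.d := by
  unfold SD.D
  rw [if_pos le_rfl]
  have hv := A.hv
  cases hcs : A.cs with
  | nil => rfl
  | cons c cs =>
    rw [hcs] at hv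
    unfold Dc
    rw [if_pos hv.1.le, sub_self, mul_zero, add_zero]

theorem u_T_fun (A : SD) : A.u A.T = fun x => Real.sqrt A.dl * U0 (x / Real.sqrt A.dl) := by
  funext x
  unfold SD.u
  rw [psi_T, D_T, startPsi_deriv_eq A.dl_pos]
  have := A.hd.ne'
  field_simp

theorem u_T (A : SD) (x : ℝ) : A.u A.T x = Real.sqrt A.dl * U0 (x / Real.sqrt A.dl) := by
  rw [u_T_fun]

theorem V_T_fun (A : SD) : A.V A.T = fun x => Phi (x / Real.sqrt A.dl) := by
  funext x
  unfold SD.V
  rw [u_T_fun, (scaled_U0_deriv A.dl_pos x).deriv]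
  ring

theorem V_T (A : SD) (x : ℝ) :
    A.V A.T x = (gaussianReal 0 1).real (Iic (x / Real.sqrt A.dl)) := by
  rw [V_T_fun]
  rfl

theorem P_T_fun (A : SD) :
    A.P A.T = fun x => gaussianPDFReal 0 1 (x / Real.sqrt A.dl) / Real.sqrt A.dl := by
  funext x
  unfold SD.P
  rw [V_T_fun, (scaled_Phi_deriv x).deriv]

theorem P_T (A : SD) (x : ℝ) :
    A.P A.T x = gaussianPDFReal 0 1 (x / Real.sqrt A.dl) / Real.sqrt A.dl := by
  rw [P_T_fun]

theorem u_T_deriv (A : SD) (x : ℝ) : HasDerivAt (A.u A.T) (A.V A.T x - 1) x := by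
  rw [V_T_fun, u_T_fun]
  exact scaled_U0_deriv A.dl_pos x

theorem V_T_deriv (A : SD) (x : ℝ) : HasDerivAt (A.V A.T) (A.P A.T x) x := by
  rw [P_T_fun, V_T_fun]
  exact scaled_Phi_deriv x

theorem u_T_pos (A : SD) (x : ℝ) : 0 < A.u A.T x := by
  rw [u_T]
  exact mul_pos (Real.sqrt_pos.2 A.dl_pos) (U0_pos _)

theorem w_T_pos (A : SD) (x : ℝ) : 0 < A.w A.T x := by
  have hs : 0 < Real.sqrt A.dl := Real.sqrt_pos.2 A.dl_pos
  unfold SD.w
  rw [u_T]
  have h := mul_pos hs (add_U0_pos (x / Real.sqrt A.dl))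
  have e : Real.sqrt A.dl * (x / Real.sqrt A.dl + U0 (x / Real.sqrt A.dl)) =
      x + Real.sqrt A.dl * U0 (x / Real.sqrt A.dl) := by
    field_simp
  rwa [e] at h

theorem P_T_pos (A : SD) (x : ℝ) : 0 < A.P A.T x := by
  rw [P_T]
  exact div_pos (ph_pos _) (Real.sqrt_pos.2 A.dl_pos)

theorem Sm_psi_T (A : SD) : Sm (A.psi A.T) := by
  rw [psi_T]
  exact Sm_startPsi A.hd A.dl_pos

theorem Sm_u_T (A : SD) : Sm (A.u A.T) := by
  rw [u_T_fun]
  exact (Sm_div Sm_U0 _).const_mul _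

theorem Sm_V_T (A : SD) : Sm (A.V A.T) := by
  rw [V_T_fun]
  exact Sm_div Sm_Phi _

theorem Sm_P_T (A : SD) : Sm (A.P A.T) := by
  rw [P_T_fun]
  have h := (Sm_div Sm_ph (Real.sqrt A.dl)).const_mul (Real.sqrt A.dl)⁻¹
  have e : (fun x => gaussianPDFReal 0 1 (x / Real.sqrt A.dl) / Real.sqrt A.dl) =
      fun x => (Real.sqrt A.dl)⁻¹ * gaussianPDFReal 0 1 (x / Real.sqrt A.dl) := by
    funext x; ring
  rw [e]
  exact h

/-- Gaussian lower bound for a Gaussian density -/
theorem ph_scaled_lower {δ : ℝ} (hδ : 0 < δ) :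
    ∃ α : ℝ, 0 < α ∧ ∀ x : ℝ, Real.exp (-(α * (1 + x ^ 2))) ≤
      gaussianPDFReal 0 1 (x / Real.sqrt δ) / Real.sqrt δ := by
  have hs : 0 < Real.sqrt δ := Real.sqrt_pos.2 hδ
  have hp : 0 < √(2 * Real.pi) := Real.sqrt_pos.2 (by positivity)
  set c : ℝ := (√(2 * Real.pi))⁻¹ / Real.sqrt δ with hc
  have hcp : 0 < c := by positivity
  refine ⟨|Real.log c| + 1 / (2 * δ), by positivity, fun x => ?_⟩
  have e : gaussianPDFReal 0 1 (x / Real.sqrt δ) / Real.sqrt δ =
      Real.exp (Real.log c + -(x ^ 2 / (2 * δ))) := by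
    have e0 := ph_eq (x / Real.sqrt δ)
    unfold ph at e0
    rw [Real.exp_add, Real.exp_log hcp, e0, hc, div_pow, Real.sq_sqrt hδ.le]
    have e2 : -(x ^ 2 / δ) / 2 = -(x ^ 2 / (2 * δ)) := by field_simp
    rw [e2]
    ring
  rw [e]
  refine Real.exp_le_exp.2 ?_
  have h1 := neg_abs_le (Real.log c)
  have h2 := sq_nonneg x
  have h3 : 0 ≤ |Real.log c| * x ^ 2 := mul_nonneg (abs_nonneg _) h2
  have h4 : 0 < 1 / (2 * δ) := by positivity
  have h5 : x ^ 2 / (2 * δ) = 1 / (2 * δ) * x ^ 2 := by ring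
  rw [h5]
  nlinarith

/-- **(6)** Gaussian lower bound of `P(T, ·)` -/
theorem P_T_lower (A : SD) : ∃ α : ℝ, 0 < α ∧ ∀ x, Real.exp (-(α * (1 + x ^ 2))) ≤ A.P A.T x := by
  obtain ⟨α, hα, h⟩ := ph_scaled_lower A.dl_pos
  exact ⟨α, hα, fun x => by rw [P_T]; exact h x⟩

end

end Crest.Agent.R146.StepStart_483
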