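import Crest.Agent.R146.Pos_371
import Crest.Agent.R146.StepCmp_371
import Crest.Agent.R146.StepStart_483

/-!
Row 146, PT-CMP (helper692): limits of the positions for a step datum.
For `A : SD` with `Back A`, at every `t ∈ [0,T]`: `u(t,x) → 0` as `x → +∞`, `w(t,x) = x + u(t,x) → 0` as
`x → -∞`, with rates; `w = ∫_{(0,V)} v/I`, `u = ∫_{(V,1)} (1-v)/I` for `t ∈ [0,T)` (`Pos_371`).
-/

set_option autoImplicit false

namespace Crest.Agent.R146.StepLim_692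

open Set Filter Topology MeasureTheory
open Crest.Agent.R146.StepDef_791 Crest.Agent.R146.StepStart_483
open Crest.Agent.R146.Pos_371 Crest.Agent.R146.MaxPCmp_371 Crest.Agent.R146.VSpace_371

variable {A : SD}

theorem U0_le_sg (z : ℝ) : U0 z ≤ 3 * sg (-z) := by
  have hq := sqrt_sq' z
  have hq0 := sqrt_pos' z
  have h1 := one_le_sqrt z
  have e : sg (-z) = Real.sqrt (1 + z ^ 2) - z := by
    unfold sg
    rw [neg_sq]
    ring
  rw [e]
  rcases le_or_gt z 0 with hz | hz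
  · have h2 := U0_le z
    rw [abs_of_nonpos hz] at h2
    linarith
  · have h2 : U0 z ≤ ph z := by
      rw [U0_eq]
      have := mul_nonneg hz.le (sub_nonneg.2 (Phi_le_one z))
      linarith
    have h3 : ph z ≤ 1 / (1 + z ^ 2 / 2) := by
      rw [ph_eq]
      have h4 : (√(2 * Real.pi))⁻¹ ≤ 1 := by
        refine inv_le_one_of_one_le₀ ?_
        rw [Real.one_le_sqrt]
        have := Real.pi_gt_three
        linarith
      have h5 : Real.exp (-z ^ 2 / 2) ≤ 1 / (1 + z ^ 2 / 2) := by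
        rw [show -z ^ 2 / 2 = -(z ^ 2 / 2) by ring, Real.exp_neg, ← one_div]
        refine one_div_le_one_div_of_le (by positivity) ?_
        have := Real.add_one_le_exp (z ^ 2 / 2)
        linarith
      calc (√(2 * Real.pi))⁻¹ * Real.exp (-z ^ 2 / 2) ≤ 1 * (1 / (1 + z ^ 2 / 2)) :=
            mul_le_mul h4 h5 (Real.exp_pos _).le zero_le_one
        _ = _ := one_mul _
    have h6 : Real.sqrt (1 + z ^ 2) - z = 1 / (Real.sqrt (1 + z ^ 2) + z) := by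
      rw [eq_div_iff (by positivity)]
      nlinarith
    have h7 : Real.sqrt (1 + z ^ 2) + z ≤ 1 + 2 * z := by
      have := sqrt_le z
      rw [abs_of_pos hz] at this
      linarith
    have h8 : 1 / (1 + z ^ 2 / 2) ≤ 3 * (1 / (Real.sqrt (1 + z ^ 2) + z)) := by
      have h9 : (3 : ℝ) * (1 / (Real.sqrt (1 + z ^ 2) + z)) = 3 / (Real.sqrt (1 + z ^ 2) + z) := by
        ring
      rw [h9, div_le_div_iff₀ (by positivity) (by positivity)]
      nlinarith [sq_nonneg (z - 1)]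
    rw [h6]
    exact (h2.trans h3).trans h8

theorem sqrt_mul_sg {δ : ℝ} (hδ : 0 < δ) (hδ1 : δ ≤ 1) (x : ℝ) :
    Real.sqrt δ * sg (x / Real.sqrt δ) ≤ sg x := by
  have hs : 0 < Real.sqrt δ := Real.sqrt_pos.2 hδ
  unfold sg
  have h1 : Real.sqrt δ * Real.sqrt (1 + (x / Real.sqrt δ) ^ 2) = Real.sqrt (δ + x ^ 2) := by
    rw [← Real.sqrt_mul hδ.le]
    congr 1
    rw [div_pow, Real.sq_sqrt hδ.le]
    field_simp
  have h2 : Real.sqrt δ * (x / Real.sqrt δ) = x := by field_simp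
  rw [mul_add, h1, h2]
  have h3 : Real.sqrt (δ + x ^ 2) ≤ Real.sqrt (1 + x ^ 2) := Real.sqrt_le_sqrt (by linarith)
  linarith

theorem dl_le_one (A : SD) : A.dl ≤ 1 := by
  unfold SD.dl
  linarith [A.hT0]

theorem u_T_le (hB : Back A) (x : ℝ) : A.u A.T x ≤ 3 * sg (-x) := by
  have hs : 0 < Real.sqrt A.dl := Real.sqrt_pos.2 A.dl_pos
  rw [hB.u_T]
  have h1 := U0_le_sg (x / Real.sqrt A.dl)
  have h2 := sqrt_mul_sg A.dl_pos (dl_le_one A) (-x)
  rw [neg_div] at h2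
  calc Real.sqrt A.dl * U0 (x / Real.sqrt A.dl) ≤ Real.sqrt A.dl * (3 * sg (-(x / Real.sqrt A.dl))) :=
        mul_le_mul_of_nonneg_left h1 hs.le
    _ = 3 * (Real.sqrt A.dl * sg (-(x / Real.sqrt A.dl))) := by ring
    _ ≤ _ := mul_le_mul_of_nonneg_left h2 (by norm_num)

theorem w_T_le (hB : Back A) (x : ℝ) : x + A.u A.T x ≤ 3 * sg x := by
  have hs : 0 < Real.sqrt A.dl := Real.sqrt_pos.2 A.dl_pos
  rw [hB.u_T]
  have h0 : x + Real.sqrt A.dl * U0 (x / Real.sqrt A.dl) =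
      Real.sqrt A.dl * U0 (-(x / Real.sqrt A.dl)) := by
    rw [← add_U0, mul_add]
    congr 1
    field_simp
  have h1 := U0_le_sg (-(x / Real.sqrt A.dl))
  rw [neg_neg] at h1
  have h2 := sqrt_mul_sg A.dl_pos (dl_le_one A) x
  rw [h0]
  calc Real.sqrt A.dl * U0 (-(x / Real.sqrt A.dl)) ≤ Real.sqrt A.dl * (3 * sg (x / Real.sqrt A.dl)) :=
        mul_le_mul_of_nonneg_left h1 hs.le
    _ = 3 * (Real.sqrt A.dl * sg (x / Real.sqrt A.dl)) := by ring
    _ ≤ _ := mul_le_mul_of_nonneg_left h2 (by norm_num)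

/-- uniform decay of `u` at `+∞` and of `w` at `-∞` -/
theorem decay (hB : Back A) : ∃ C : ℝ, 0 ≤ C ∧ ∀ t ∈ Icc 0 A.T, ∀ x,
    A.u t x ≤ C * sg (-x) ∧ A.w t x ≤ C * sg x := by
  obtain ⟨M, h⟩ := hB.bsys
  have h1 := u_le_sg h (C := 3) (by norm_num) (u_T_le hB)
  have h2 := w_le h (C := 3) (by norm_num) (w_T_le hB)
  have hM : 0 ≤ M := by
    have := (h.P_nonneg 0 ⟨le_rfl, A.hT0.le⟩ 0).trans (h.P_le 0 ⟨le_rfl, A.hT0.le⟩ 0)
    exact this
  refine ⟨3 * Real.exp ((1 + M) * A.T) + 3 * Real.exp ((1 + 2 * M ^ 2) * A.T), by positivity,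
    fun t ht x => ⟨?_, ?_⟩⟩
  · have h3 : Real.exp ((1 + M) * (A.T - t)) ≤ Real.exp ((1 + M) * A.T) :=
      Real.exp_le_exp.2 (mul_le_mul_of_nonneg_left (by linarith [ht.1]) (by linarith))
    refine (h1 t ht x).trans (mul_le_mul_of_nonneg_right ?_ (sg_pos _).le)
    have := (Real.exp_pos ((1 + 2 * M ^ 2) * A.T)).le
    linarith
  · have h3 : Real.exp ((1 + 2 * M ^ 2) * (A.T - t)) ≤ Real.exp ((1 + 2 * M ^ 2) * A.T) :=
      Real.exp_le_exp.2 (mul_le_mul_of_nonneg_left (by linarith [ht.1]) (by positivity))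
    refine (h2 t ht x).trans (mul_le_mul_of_nonneg_right ?_ (sg_pos _).le)
    have := (Real.exp_pos ((1 + M) * A.T)).le
    linarith

theorem u_top (hB : Back A) {t : ℝ} (ht : t ∈ Icc 0 A.T) : Tendsto (A.u t) atTop (𝓝 0) := by
  obtain ⟨C, hC, h⟩ := decay hB
  have h1 : Tendsto (fun x : ℝ => C * sg (-x)) atTop (𝓝 (C * 0)) :=
    (tendsto_sg_bot.comp tendsto_neg_atTop_atBot).const_mul C
  rw [mul_zero] at h1
  exact tendsto_of_tendsto_of_tendsto_of_le_of_le tendsto_const_nhds h1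
    (fun x => (hB.u_pos t ht x).le) (fun x => (h t ht x).1)

theorem w_bot (hB : Back A) {t : ℝ} (ht : t ∈ Icc 0 A.T) : Tendsto (A.w t) atBot (𝓝 0) := by
  obtain ⟨C, hC, h⟩ := decay hB
  have h1 : Tendsto (fun x : ℝ => C * sg x) atBot (𝓝 (C * 0)) := tendsto_sg_bot.const_mul C
  rw [mul_zero] at h1
  exact tendsto_of_tendsto_of_tendsto_of_le_of_le tendsto_const_nhds h1
    (fun x => (hB.w_pos t ht x).le) (fun x => (h t ht x).2)

theorem w_x (hB : Back A) {t : ℝ} (ht : t ∈ Icc 0 A.T) (x : ℝ) :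
    HasDerivAt (A.w t) (A.V t x) x := by
  have h1 := (hasDerivAt_id x).add (hB.u_x t ht x)
  have h2 : (1 : ℝ) + (A.V t x - 1) = A.V t x := by ring
  rw [h2] at h1
  exact h1

theorem V_mem (hB : Back A) {t : ℝ} (ht : t ∈ Icc 0 A.T) (x : ℝ) : 0 < A.V t x ∧ A.V t x < 1 := by
  obtain ⟨M, h⟩ := hB.bsys
  exact ⟨h.V_pos t ht x, h.V_lt t ht x⟩

theorem V_strictMono (hB : Back A) {t : ℝ} (ht : t ∈ Icc 0 A.T) : StrictMono (A.V t) := by
  refine strictMono_of_deriv_pos fun x => ?_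
  rw [(hB.V_x t ht x).deriv]
  exact hB.P_pos t ht x

theorem V_bot (hB : Back A) {t : ℝ} (ht : t ∈ Icc 0 A.T) : Tendsto (A.V t) atBot (𝓝 0) :=
  StepCmp_371.lim_bot_of (V_strictMono hB ht).monotone (fun x => (V_mem hB ht x).1.le) (w_x hB ht)
    (hB.w_pos t ht)

theorem V_top (hB : Back A) {t : ℝ} (ht : t ∈ Icc 0 A.T) : Tendsto (A.V t) atTop (𝓝 1) :=
  StepCmp_371.lim_top_of (V_strictMono hB ht).monotone (fun x => (V_mem hB ht x).2.le) (hB.u_x t ht)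
    (hB.u_pos t ht)

/-- `w = ∫_{(0,V)} v/I dv` -/
theorem w_eq' (hB : Back A) {t : ℝ} (ht : t ∈ Ico 0 A.T) (x : ℝ) :
    IntegrableOn (fun v => v / BSysV.I A.V A.P t v) (Ioo 0 (A.V t x)) ∧
    A.w t x = ∫ v in Ioo 0 (A.V t x), v / BSysV.I A.V A.P t v := by
  obtain ⟨M, h⟩ := StepCmp_371.exists_BSysV hB
  exact w_eq h ht (w_bot hB ⟨ht.1, ht.2.le⟩) x

/-- `u = ∫_{(V,1)} (1-v)/I dv` -/
theorem u_eq' (hB : Back A) {t : ℝ} (ht : t ∈ Ico 0 A.T) (x : ℝ) :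
    IntegrableOn (fun v => (1 - v) / BSysV.I A.V A.P t v) (Ioo (A.V t x) 1) ∧
    A.u t x = ∫ v in Ioo (A.V t x) 1, (1 - v) / BSysV.I A.V A.P t v := by
  obtain ⟨M, h⟩ := StepCmp_371.exists_BSysV hB
  exact u_eq h ht (u_top hB ⟨ht.1, ht.2.le⟩) x

end Crest.Agent.R146.StepLim_692
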