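import Crest.Agent.R146.StepDef_791

/-!
Row 146, package PT-STEP: small calculus of test functions for the step system (helper692).

* `mrc_right`, `mlc_left`, `m_right`, `ml_left`, `b_right`, `bl_left`, `b_t`: the weights are locally
  constant from the right / left, `b' = b²` (right derivative).
* `PG`: polynomial growth on `[0,T] × ℝ` and its algebra.
* `Test.const`, `Test.time`, `Test.add`, `Test.cmul`, `Test.mul`, `Test.pow_two`: algebra of `Test`.
* `test_V`, `test_u`, `test_P`, `test_x`: instances from `Back` and `Clock`.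
* `Adm`, `Adm.integrable`, `ex_add`, `ex_sub`, `ex_cmul`, `ex_congr`: linearity of `ex`.
-/

set_option autoImplicit false

namespace Crest.Agent.R146.StepTest_692

open MeasureTheory ProbabilityTheory Set Filter Topology
open Crest.Agent.R146.StepDef_791
open Crest.Agent.R146.MaxPCmp_371 (BSys)

/-! ### weights are locally constant -/

theorem mrc_right : ∀ {cs : Cells} {T t : ℝ}, Valid T cs → 0 ≤ t → t < T →
    ∃ t', t < t' ∧ t' ≤ T ∧ ∀ s ∈ Ico t t', mrc T cs s = mrc T cs t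
  | [], T, t, h, h0, h1 => by
      exfalso
      have h2 : T = 0 := h
      linarith
  | c :: cs, T, t, h, h0, h1 => by
      by_cases hc : c.1 ≤ t
      · refine ⟨T, h1, le_rfl, fun s hs => ?_⟩
        simp only [mrc]
        rw [if_pos (hc.trans hs.1), if_pos hs.2, if_pos hc, if_pos h1]
      · obtain ⟨t', h2, h3, h4⟩ := mrc_right h.2.2 h0 (not_le.1 hc)
        refine ⟨t', h2, h3.trans h.1.le, fun s hs => ?_⟩
        simp only [mrc]
        rw [if_neg (not_le.2 (hs.2.trans_le h3)), if_neg hc]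
        exact h4 s hs

theorem mlc_left : ∀ {cs : Cells} {T t : ℝ}, Valid T cs → 0 < t → t ≤ T →
    ∃ t', t' < t ∧ 0 ≤ t' ∧ ∀ s ∈ Ioc t' t, mlc T cs s = mlc T cs t
  | [], T, t, h, h0, h1 => by
      exfalso
      have h2 : T = 0 := h
      linarith
  | c :: cs, T, t, h, h0, h1 => by
      by_cases hc : c.1 < t
      · refine ⟨c.1, hc, h.2.2.nonneg, fun s hs => ?_⟩
        simp only [mlc]
        rw [if_pos hs.1, if_pos (hs.2.trans h1), if_pos hc, if_pos h1]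
      · obtain ⟨t', h2, h3, h4⟩ := mlc_left h.2.2 h0 (not_lt.1 hc)
        refine ⟨t', h2, h3, fun s hs => ?_⟩
        simp only [mlc]
        rw [if_neg (not_lt.2 (hs.2.trans (not_lt.1 hc))), if_neg hc]
        exact h4 s hs

/-- right of `t` the left weight is the right weight at `t` -/
theorem mlc_right : ∀ {cs : Cells} {T t : ℝ}, Valid T cs → 0 ≤ t → t < T →
    ∃ t', t < t' ∧ t' ≤ T ∧ ∀ s ∈ Ioc t t', mlc T cs s = mrc T cs t
  | [], T, t, h, h0, h1 => by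
      exfalso
      have h2 : T = 0 := h
      linarith
  | c :: cs, T, t, h, h0, h1 => by
      by_cases hc : c.1 ≤ t
      · refine ⟨T, h1, le_rfl, fun s hs => ?_⟩
        simp only [mlc, mrc]
        rw [if_pos (hc.trans_lt hs.1), if_pos hs.2, if_pos hc, if_pos h1]
      · obtain ⟨t', h2, h3, h4⟩ := mlc_right h.2.2 h0 (not_le.1 hc)
        refine ⟨t', h2, h3.trans h.1.le, fun s hs => ?_⟩
        simp only [mlc, mrc]
        rw [if_neg (not_lt.2 (hs.2.trans h3)), if_neg hc]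
        exact h4 s hs

theorem mc_le : ∀ (cs : Cells), ∃ M : ℝ, 0 ≤ M ∧ ∀ T t, mrc T cs t ≤ M ∧ mlc T cs t ≤ M
  | [] => ⟨0, le_rfl, fun _ _ => ⟨le_rfl, le_rfl⟩⟩
  | c :: cs => by
      obtain ⟨M, hM, h⟩ := mc_le cs
      refine ⟨M + |c.2|, by positivity, fun T t => ⟨?_, ?_⟩⟩
      · simp only [mrc]
        split_ifs
        · linarith [le_abs_self c.2]
        · positivity
        · linarith [(h c.1 t).1, abs_nonneg c.2]
      · simp only [mlc]
        split_ifs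
        · linarith [le_abs_self c.2]
        · positivity
        · linarith [(h c.1 t).2, abs_nonneg c.2]

variable {A : SD}

theorem m_right {t : ℝ} (ht : t ∈ Ico 0 A.T) :
    ∃ t', t < t' ∧ t' ≤ A.T ∧ ∀ s ∈ Ico t t', A.m s = A.m t := mrc_right A.hv ht.1 ht.2

theorem ml_left {t : ℝ} (ht : t ∈ Ioc 0 A.T) :
    ∃ t', t' < t ∧ 0 ≤ t' ∧ ∀ s ∈ Ioc t' t, A.ml s = A.ml t := mlc_left A.hv ht.1 ht.2

theorem ml_right {t : ℝ} (ht : t ∈ Ico 0 A.T) :
    ∃ t', t < t' ∧ t' ≤ A.T ∧ ∀ s ∈ Ioc t t', A.ml s = A.m t := mlc_right A.hv ht.1 ht.2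

theorem m_bdd (A : SD) : ∃ M : ℝ, 0 ≤ M ∧ ∀ t, A.m t ≤ M ∧ A.ml t ≤ M := by
  obtain ⟨M, hM, h⟩ := mc_le A.cs
  exact ⟨M, hM, fun t => h A.T t⟩

theorem b_bdd (A : SD) : ∃ M : ℝ, 0 ≤ M ∧ ∀ t, A.b t ≤ M ∧ A.bl t ≤ M := by
  obtain ⟨M, hM, h⟩ := m_bdd A
  refine ⟨M / A.d, div_nonneg hM A.hd.le, fun t => ⟨?_, ?_⟩⟩
  · exact div_le_div₀ hM (h t).1 A.hd (A.d_le_D t)
  · exact div_le_div₀ hM (h t).2 A.hd (A.d_le_D t)

theorem m_right_ev {t : ℝ} (ht : t ∈ Ico 0 A.T) : ∀ᶠ s in 𝓝[≥] t, A.m s = A.m t := by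
  obtain ⟨t', h1, _, h3⟩ := m_right ht
  filter_upwards [Ico_mem_nhdsGE h1] with s hs
  exact h3 s hs

theorem ml_left_ev {t : ℝ} (ht : t ∈ Ioc 0 A.T) : ∀ᶠ s in 𝓝[≤] t, A.ml s = A.ml t := by
  obtain ⟨t', h1, _, h3⟩ := ml_left ht
  filter_upwards [Ioc_mem_nhdsLE h1] with s hs
  exact h3 s hs

/-- `b' = b²` (right derivative) -/
theorem b_t (hC : Clock A) {t : ℝ} (ht : t ∈ Ico 0 A.T) :
    HasDerivWithinAt A.b (A.b t ^ 2) (Ici t) t := by
  have h1 : HasDerivWithinAt (fun s => A.m t / A.D s) (A.b t ^ 2) (Ici t) t := by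
    have h2 := ((hC.D_t t ht).inv (A.D_pos t).ne').const_mul (A.m t)
    have h3 : A.m t * (-(-A.m t) / A.D t ^ 2) = A.b t ^ 2 := by
      unfold SD.b
      have := (A.D_pos t).ne'
      field_simp
    rw [h3] at h2
    simpa only [div_eq_mul_inv, Pi.inv_apply] using h2
  refine h1.congr_of_eventuallyEq ?_ rfl
  filter_upwards [m_right_ev ht] with s hs
  unfold SD.b
  rw [hs]

theorem b_right (hC : Clock A) {t : ℝ} (ht : t ∈ Ico 0 A.T) : ContinuousWithinAt A.b (Ici t) t :=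
  (b_t hC ht).continuousWithinAt

theorem bl_left (hC : Clock A) {t : ℝ} (ht : t ∈ Ioc 0 A.T) :
    ContinuousWithinAt A.bl (Iic t) t := by
  have h1 : ContinuousWithinAt (fun s => A.ml t / A.D s) (Iic t) t :=
    (continuous_const.div hC.D_cont fun s => (A.D_pos s).ne').continuousWithinAt
  refine h1.congr_of_eventuallyEq ?_ rfl
  filter_upwards [ml_left_ev ht] with s hs
  unfold SD.bl
  rw [hs]

/-! ### joint one-sided continuity -/

theorem cwr {f : ℝ × ℝ → ℝ} (hf : ContinuousOn f (Icc 0 A.T ×ˢ univ)) {t : ℝ} (ht : t ∈ Ico 0 A.T)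
    (x : ℝ) : ContinuousWithinAt f (Ici t ×ˢ univ) (t, x) := by
  have h1 : ContinuousWithinAt f (Icc 0 A.T ×ˢ univ) (t, x) := hf (t, x) ⟨⟨ht.1, ht.2.le⟩, mem_univ _⟩
  refine h1.mono_of_mem_nhdsWithin ?_
  rw [nhdsWithin_prod_eq]
  exact prod_mem_prod (mem_of_superset (Icc_mem_nhdsGE ht.2) (Icc_subset_Icc_left ht.1)) (by simp)

theorem cwl {f : ℝ × ℝ → ℝ} (hf : ContinuousOn f (Icc 0 A.T ×ˢ univ)) {t : ℝ} (ht : t ∈ Ioc 0 A.T)
    (x : ℝ) : ContinuousWithinAt f (Iic t ×ˢ univ) (t, x) := by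
  have h1 : ContinuousWithinAt f (Icc 0 A.T ×ˢ univ) (t, x) := hf (t, x) ⟨⟨ht.1.le, ht.2⟩, mem_univ _⟩
  refine h1.mono_of_mem_nhdsWithin ?_
  rw [nhdsWithin_prod_eq]
  exact prod_mem_prod (mem_of_superset (Icc_mem_nhdsLE ht.1) (Icc_subset_Icc_right ht.2)) (by simp)

theorem ctr {g : ℝ → ℝ} {t : ℝ} (hg : ContinuousWithinAt g (Ici t) t) (x : ℝ) :
    ContinuousWithinAt (fun q : ℝ × ℝ => g q.1) (Ici t ×ˢ univ) (t, x) :=
  ContinuousWithinAt.comp (t := Ici t) (f := Prod.fst) (x := (t, x)) hg continuousWithinAt_fst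
    (fun _ hq => hq.1)

theorem ctl {g : ℝ → ℝ} {t : ℝ} (hg : ContinuousWithinAt g (Iic t) t) (x : ℝ) :
    ContinuousWithinAt (fun q : ℝ × ℝ => g q.1) (Iic t ×ˢ univ) (t, x) :=
  ContinuousWithinAt.comp (t := Iic t) (f := Prod.fst) (x := (t, x)) hg continuousWithinAt_fst
    (fun _ hq => hq.1)

/-! ### polynomial growth -/

/-- polynomial growth, uniformly for `t ∈ [0,T]` -/
def PG (A : SD) (F : ℝ → ℝ → ℝ) : Prop :=
  ∃ C : ℝ, ∃ n : ℕ, 0 ≤ C ∧ ∀ t ∈ Icc 0 A.T, ∀ x, |F t x| ≤ C * (1 + |x|) ^ n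

theorem one_le_w (x : ℝ) : 1 ≤ 1 + |x| := by linarith [abs_nonneg x]

theorem PG.of_le {F G : ℝ → ℝ → ℝ} (hG : PG A G) (h : ∀ t ∈ Icc 0 A.T, ∀ x, |F t x| ≤ |G t x|) :
    PG A F := by
  obtain ⟨C, n, hC, h1⟩ := hG
  exact ⟨C, n, hC, fun t ht x => (h t ht x).trans (h1 t ht x)⟩

theorem PG.add {F G : ℝ → ℝ → ℝ} (hF : PG A F) (hG : PG A G) : PG A (fun t x => F t x + G t x) := by
  obtain ⟨C, n, hC, h1⟩ := hF
  obtain ⟨C', n', hC', h2⟩ := hG
  refine ⟨C + C', max n n', add_nonneg hC hC', fun t ht x => (abs_add_le _ _).trans ?_⟩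
  have h3 := pow_le_pow_right₀ (one_le_w x) (le_max_left n n')
  have h4 := pow_le_pow_right₀ (one_le_w x) (le_max_right n n')
  calc |F t x| + |G t x| ≤ C * (1 + |x|) ^ n + C' * (1 + |x|) ^ n' := add_le_add (h1 t ht x) (h2 t ht x)
    _ ≤ C * (1 + |x|) ^ max n n' + C' * (1 + |x|) ^ max n n' :=
        add_le_add (mul_le_mul_of_nonneg_left h3 hC) (mul_le_mul_of_nonneg_left h4 hC')
    _ = _ := by ring

theorem PG.mul {F G : ℝ → ℝ → ℝ} (hF : PG A F) (hG : PG A G) : PG A (fun t x => F t x * G t x) := by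
  obtain ⟨C, n, hC, h1⟩ := hF
  obtain ⟨C', n', hC', h2⟩ := hG
  refine ⟨C * C', n + n', mul_nonneg hC hC', fun t ht x => ?_⟩
  rw [abs_mul]
  calc |F t x| * |G t x| ≤ (C * (1 + |x|) ^ n) * (C' * (1 + |x|) ^ n') :=
        mul_le_mul (h1 t ht x) (h2 t ht x) (abs_nonneg _) (by positivity)
    _ = _ := by rw [pow_add]; ring

theorem PG.neg {F : ℝ → ℝ → ℝ} (hF : PG A F) : PG A (fun t x => -F t x) :=
  hF.of_le fun t _ x => by rw [abs_neg]

theorem PG.sub {F G : ℝ → ℝ → ℝ} (hF : PG A F) (hG : PG A G) : PG A (fun t x => F t x - G t x) := by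
  simpa only [sub_eq_add_neg] using hF.add hG.neg

theorem PG.const (c : ℝ) : PG A (fun _ _ => c) :=
  ⟨|c|, 0, abs_nonneg _, fun _ _ _ => by simp⟩

theorem PG.cmul {F : ℝ → ℝ → ℝ} (c : ℝ) (hF : PG A F) : PG A (fun t x => c * F t x) :=
  (PG.const c).mul hF

theorem PG.time {g : ℝ → ℝ} {M : ℝ} (hM : ∀ t ∈ Icc 0 A.T, |g t| ≤ M) : PG A (fun t _ => g t) :=
  ⟨|M|, 0, abs_nonneg _, fun t ht _ => by simpa using (hM t ht).trans (le_abs_self M)⟩

theorem PG.id : PG A (fun _ x => x) :=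
  ⟨1, 1, zero_le_one, fun _ _ x => by simp⟩

/-- the growth field of `Test` from five `PG`s -/
theorem growth5 {F Fr Fl Fx Fxx : ℝ → ℝ → ℝ} (h1 : PG A F) (h2 : PG A Fr) (h3 : PG A Fl)
    (h4 : PG A Fx) (h5 : PG A Fxx) : ∃ C : ℝ, ∃ n : ℕ, 0 ≤ C ∧ ∀ t ∈ Icc 0 A.T, ∀ x,
    |F t x| ≤ C * (1 + |x|) ^ n ∧
    |Fr t x| ≤ C * (1 + |x|) ^ n ∧ |Fl t x| ≤ C * (1 + |x|) ^ n ∧
    |Fx t x| ≤ C * (1 + |x|) ^ n ∧ |Fxx t x| ≤ C * (1 + |x|) ^ n := by
  have key : ∀ {G : ℝ → ℝ → ℝ}, PG A G → ∀ {G' : ℝ → ℝ → ℝ}, PG A G' →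
      PG A (fun t x => |G t x| + |G' t x|) := by
    intro G hG G' hG'
    exact (hG.of_le (F := fun t x => |G t x|) fun t _ x => by rw [abs_abs]).add
      (hG'.of_le (F := fun t x => |G' t x|) fun t _ x => by rw [abs_abs])
  obtain ⟨C, n, hC, h⟩ := key h1 (key h2 (key h3 (key h4 h5)))
  refine ⟨C, n, hC, fun t ht x => ?_⟩
  have h6 : |(|F t x| + |(|Fr t x| + |(|Fl t x| + |(|Fx t x| + |Fxx t x|)|)|)|)| ≤
      C * (1 + |x|) ^ n := h t ht x
  have a1 := abs_nonneg (F t x)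
  have a2 := abs_nonneg (Fr t x)
  have a3 := abs_nonneg (Fl t x)
  have a4 := abs_nonneg (Fx t x)
  have a5 := abs_nonneg (Fxx t x)
  have e5 : |(|Fx t x| + |Fxx t x|)| = |Fx t x| + |Fxx t x| := abs_of_nonneg (by positivity)
  have e4 : |(|Fl t x| + |(|Fx t x| + |Fxx t x|)|)| = |Fl t x| + (|Fx t x| + |Fxx t x|) := by
    rw [e5, abs_of_nonneg (by positivity)]
  have e3 : |(|Fr t x| + |(|Fl t x| + |(|Fx t x| + |Fxx t x|)|)|)| =
      |Fr t x| + (|Fl t x| + (|Fx t x| + |Fxx t x|)) := by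
    rw [e4, abs_of_nonneg (by positivity)]
  rw [e3, abs_of_nonneg (by positivity)] at h6
  refine ⟨?_, ?_, ?_, ?_, ?_⟩ <;> linarith

theorem Test.pg {F Fr Fl Fx Fxx : ℝ → ℝ → ℝ} (h : Test A F Fr Fl Fx Fxx) :
    PG A F ∧ PG A Fr ∧ PG A Fl ∧ PG A Fx ∧ PG A Fxx := by
  obtain ⟨C, n, hC, h1⟩ := h.growth
  exact ⟨⟨C, n, hC, fun t ht x => (h1 t ht x).1⟩, ⟨C, n, hC, fun t ht x => (h1 t ht x).2.1⟩,
    ⟨C, n, hC, fun t ht x => (h1 t ht x).2.2.1⟩, ⟨C, n, hC, fun t ht x => (h1 t ht x).2.2.2.1⟩,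
    ⟨C, n, hC, fun t ht x => (h1 t ht x).2.2.2.2⟩⟩

/-! ### algebra of test functions -/

section algebra

variable {F Fr Fl Fx Fxx G Gr Gl Gx Gxx : ℝ → ℝ → ℝ}

theorem Test.mul (h : Test A F Fr Fl Fx Fxx) (k : Test A G Gr Gl Gx Gxx) :
    Test A (fun t x => F t x * G t x) (fun t x => Fr t x * G t x + F t x * Gr t x)
      (fun t x => Fl t x * G t x + F t x * Gl t x) (fun t x => Fx t x * G t x + F t x * Gx t x)
      (fun t x => (Fxx t x * G t x + Fx t x * Gx t x) + (Fx t x * Gx t x + F t x * Gxx t x)) where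
  cF := h.cF.mul k.cF
  hx := fun t ht x => (h.hx t ht x).mul (k.hx t ht x)
  hxx := fun t ht x => ((h.hxx t ht x).mul (k.hx t ht x)).add ((h.hx t ht x).mul (k.hxx t ht x))
  hr := fun t ht x => (h.hr t ht x).mul (k.hr t ht x)
  hl := fun t ht x => (h.hl t ht x).mul (k.hl t ht x)
  cr := fun t ht x => ((h.cr t ht x).mul (cwr k.cF ht x)).add ((cwr h.cF ht x).mul (k.cr t ht x))
  cl := fun t ht x => ((h.cl t ht x).mul (cwl k.cF ht x)).add ((cwl h.cF ht x).mul (k.cl t ht x))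
  cx := (h.cx.mul k.cF).add (h.cF.mul k.cx)
  cxx := ((h.cxx.mul k.cF).add (h.cx.mul k.cx)).add ((h.cx.mul k.cx).add (h.cF.mul k.cxx))
  growth := by
    obtain ⟨p1, p2, p3, p4, p5⟩ := Test.pg h
    obtain ⟨q1, q2, q3, q4, q5⟩ := Test.pg k
    exact growth5 (p1.mul q1) ((p2.mul q1).add (p1.mul q2)) ((p3.mul q1).add (p1.mul q3))
      ((p4.mul q1).add (p1.mul q4)) (((p5.mul q1).add (p4.mul q4)).add ((p4.mul q4).add (p1.mul q5)))

theorem Test.add (h : Test A F Fr Fl Fx Fxx) (k : Test A G Gr Gl Gx Gxx) :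
    Test A (fun t x => F t x + G t x) (fun t x => Fr t x + Gr t x)
      (fun t x => Fl t x + Gl t x) (fun t x => Fx t x + Gx t x)
      (fun t x => Fxx t x + Gxx t x) where
  cF := h.cF.add k.cF
  hx := fun t ht x => (h.hx t ht x).add (k.hx t ht x)
  hxx := fun t ht x => (h.hxx t ht x).add (k.hxx t ht x)
  hr := fun t ht x => (h.hr t ht x).add (k.hr t ht x)
  hl := fun t ht x => (h.hl t ht x).add (k.hl t ht x)
  cr := fun t ht x => (h.cr t ht x).add (k.cr t ht x)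
  cl := fun t ht x => (h.cl t ht x).add (k.cl t ht x)
  cx := h.cx.add k.cx
  cxx := h.cxx.add k.cxx
  growth := by
    obtain ⟨p1, p2, p3, p4, p5⟩ := Test.pg h
    obtain ⟨q1, q2, q3, q4, q5⟩ := Test.pg k
    exact growth5 (p1.add q1) (p2.add q2) (p3.add q3) (p4.add q4) (p5.add q5)

/-- a function of time, as a test function -/
theorem Test.time {g gr gl : ℝ → ℝ} (hg : ContinuousOn g (Icc 0 A.T))
    (hr : ∀ t ∈ Ico 0 A.T, HasDerivWithinAt g (gr t) (Ici t) t)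
    (hl : ∀ t ∈ Ioc 0 A.T, HasDerivWithinAt g (gl t) (Iic t) t)
    (cr : ∀ t ∈ Ico 0 A.T, ContinuousWithinAt gr (Ici t) t)
    (cl : ∀ t ∈ Ioc 0 A.T, ContinuousWithinAt gl (Iic t) t)
    {M : ℝ} (hM : ∀ t ∈ Icc 0 A.T, |g t| ≤ M ∧ |gr t| ≤ M ∧ |gl t| ≤ M) :
    Test A (fun t _ => g t) (fun t _ => gr t) (fun t _ => gl t) (fun _ _ => 0) (fun _ _ => 0) where
  cF := hg.comp continuousOn_fst fun _ hq => hq.1
  hx := fun t _ x => hasDerivAt_const x (g t)
  hxx := fun _ _ x => hasDerivAt_const x 0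
  hr := fun t ht _ => hr t ht
  hl := fun t ht _ => hl t ht
  cr := fun t ht x => ctr (cr t ht) x
  cl := fun t ht x => ctl (cl t ht) x
  cx := continuousOn_const
  cxx := continuousOn_const
  growth := growth5 (PG.time fun t ht => (hM t ht).1) (PG.time fun t ht => (hM t ht).2.1)
    (PG.time fun t ht => (hM t ht).2.2) (PG.const 0) (PG.const 0)

theorem Test.const (A : SD) (c : ℝ) : Test A (fun _ _ => c) (fun _ _ => 0) (fun _ _ => 0)
    (fun _ _ => 0) (fun _ _ => 0) :=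
  Test.time (g := fun _ => c) (gr := fun _ => 0) (gl := fun _ => 0) continuousOn_const
    (fun t _ => hasDerivWithinAt_const t _ c) (fun t _ => hasDerivWithinAt_const t _ c)
    (fun _ _ => continuousWithinAt_const) (fun _ _ => continuousWithinAt_const) (M := |c|)
    (fun _ _ => ⟨le_rfl, by simp, by simp⟩)

theorem Test.cmul (c : ℝ) (h : Test A F Fr Fl Fx Fxx) :
    Test A (fun t x => c * F t x) (fun t x => c * Fr t x) (fun t x => c * Fl t x)
      (fun t x => c * Fx t x) (fun t x => c * Fxx t x) where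
  cF := continuousOn_const.mul h.cF
  hx := fun t ht x => (h.hx t ht x).const_mul c
  hxx := fun t ht x => (h.hxx t ht x).const_mul c
  hr := fun t ht x => (h.hr t ht x).const_mul c
  hl := fun t ht x => (h.hl t ht x).const_mul c
  cr := fun t ht x => continuousWithinAt_const.mul (h.cr t ht x)
  cl := fun t ht x => continuousWithinAt_const.mul (h.cl t ht x)
  cx := continuousOn_const.mul h.cx
  cxx := continuousOn_const.mul h.cxx
  growth := by
    obtain ⟨p1, p2, p3, p4, p5⟩ := Test.pg h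
    exact growth5 (p1.cmul c) (p2.cmul c) (p3.cmul c) (p4.cmul c) (p5.cmul c)

/-- replace the five functions by equal ones on `[0,T]` -/
theorem Test.congr {F' Fr' Fl' Fx' Fxx' : ℝ → ℝ → ℝ} (h : Test A F Fr Fl Fx Fxx)
    (e1 : F' = F) (e2 : Fr' = Fr) (e3 : Fl' = Fl) (e4 : Fx' = Fx) (e5 : Fxx' = Fxx) :
    Test A F' Fr' Fl' Fx' Fxx' := by
  subst e1; subst e2; subst e3; subst e4; subst e5; exact h

end algebra

/-! ### instances -/

theorem bu_pg (hB : Back A) : PG A (fun t x => A.b t * A.u t x) := by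
  obtain ⟨M, h⟩ := hB.bsys
  refine ⟨M * M, 1, mul_self_nonneg M, fun t ht x => ?_⟩
  simpa using h.drift_le ht x

theorem b_pg (A : SD) : PG A (fun t _ => A.b t) := by
  obtain ⟨M, _, h⟩ := b_bdd A
  exact PG.time (M := M) fun t _ => by rw [abs_of_nonneg (A.b_nonneg t)]; exact (h t).1

theorem bl_pg (A : SD) : PG A (fun t _ => A.bl t) := by
  obtain ⟨M, _, h⟩ := b_bdd A
  exact PG.time (M := M) fun t _ => by rw [abs_of_nonneg (A.bl_nonneg t)]; exact (h t).2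

theorem u_pg (hB : Back A) : PG A A.u := by
  obtain ⟨M, h⟩ := hB.bsys
  refine ⟨|M|, 1, abs_nonneg _, fun t ht x => ?_⟩
  rw [abs_of_nonneg (h.u_nonneg t ht x), pow_one]
  exact (h.u_le t ht x).trans (mul_le_mul_of_nonneg_right (le_abs_self M) (by positivity))

theorem V_pg (hB : Back A) : PG A A.V := by
  obtain ⟨M, h⟩ := hB.bsys
  refine ⟨1, 0, zero_le_one, fun t ht x => ?_⟩
  rw [abs_of_nonneg (h.V_pos t ht x).le]
  simpa using (h.V_lt t ht x).le

theorem P_pg (hB : Back A) : PG A A.P := by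
  obtain ⟨M, h⟩ := hB.bsys
  refine ⟨|M|, 0, abs_nonneg _, fun t ht x => ?_⟩
  rw [abs_of_nonneg (h.P_nonneg t ht x)]
  simpa using (h.P_le t ht x).trans (le_abs_self M)

theorem Px_pg (hB : Back A) : PG A A.Px := by
  obtain ⟨C, n, hC, h⟩ := hB.growth
  exact ⟨C, n, hC, fun t ht x => (h t ht x).2.1⟩

theorem Pxx_pg (hB : Back A) : PG A A.Pxx := by
  obtain ⟨C, n, hC, h⟩ := hB.growth
  exact ⟨C, n, hC, fun t ht x => (h t ht x).2.2⟩

theorem u_cont (hB : Back A) : ContinuousOn (fun q : ℝ × ℝ => A.u q.1 q.2) (Icc 0 A.T ×ˢ univ) := by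
  obtain ⟨M, h⟩ := hB.bsys
  exact h.cu

theorem V_cont (hB : Back A) : ContinuousOn (fun q : ℝ × ℝ => A.V q.1 q.2) (Icc 0 A.T ×ˢ univ) := by
  obtain ⟨M, h⟩ := hB.bsys
  exact h.cV

theorem P_cont (hB : Back A) : ContinuousOn (fun q : ℝ × ℝ => A.P q.1 q.2) (Icc 0 A.T ×ˢ univ) := by
  obtain ⟨M, h⟩ := hB.bsys
  exact h.cP

theorem test_x (A : SD) : Test A (fun _ x => x) (fun _ _ => 0) (fun _ _ => 0) (fun _ _ => 1)
    (fun _ _ => 0) where
  cF := continuousOn_snd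
  hx := fun _ _ x => hasDerivAt_id x
  hxx := fun _ _ x => hasDerivAt_const x 1
  hr := fun t _ x => hasDerivWithinAt_const t _ x
  hl := fun t _ x => hasDerivWithinAt_const t _ x
  cr := fun _ _ _ => continuousWithinAt_const
  cl := fun _ _ _ => continuousWithinAt_const
  cx := continuousOn_const
  cxx := continuousOn_const
  growth := growth5 PG.id (PG.const 0) (PG.const 0) (PG.const 1) (PG.const 0)

theorem test_u (hB : Back A) (hC : Clock A) : Test A A.u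
    (fun t x => -(A.P t x / 2 + A.b t * A.u t x * A.V t x))
    (fun t x => -(A.P t x / 2 + A.bl t * A.u t x * A.V t x))
    (fun t x => A.V t x - 1) A.P where
  cF := u_cont hB
  hx := hB.u_x
  hxx := fun t ht x => (hB.V_x t ht x).sub_const 1
  hr := by obtain ⟨M, h⟩ := hB.bsys; exact h.hut
  hl := hB.u_tl
  cr := fun t ht x => (((cwr (P_cont hB) ht x).div_const 2).add
    (((ctr (b_right hC ht) x).mul (cwr (u_cont hB) ht x)).mul (cwr (V_cont hB) ht x))).neg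
  cl := fun t ht x => (((cwl (P_cont hB) ht x).div_const 2).add
    (((ctl (bl_left hC ht) x).mul (cwl (u_cont hB) ht x)).mul (cwl (V_cont hB) ht x))).neg
  cx := (V_cont hB).sub continuousOn_const
  cxx := P_cont hB
  growth := by
    have h2 : PG A (fun t x => A.P t x / 2) := by
      simpa only [div_eq_mul_inv] using (P_pg hB).mul (PG.const (2 : ℝ)⁻¹)
    exact growth5 (u_pg hB) (h2.add (((b_pg A).mul (u_pg hB)).mul (V_pg hB))).neg
      (h2.add (((bl_pg A).mul (u_pg hB)).mul (V_pg hB))).neg ((V_pg hB).sub (PG.const 1)) (P_pg hB)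

theorem test_V (hB : Back A) (hC : Clock A) : Test A A.V
    (fun t x => -(A.Px t x / 2 + A.b t * A.u t x * A.P t x) + A.b t * A.V t x * (1 - A.V t x))
    (fun t x => -(A.Px t x / 2 + A.bl t * A.u t x * A.P t x) + A.bl t * A.V t x * (1 - A.V t x))
    A.P A.Px where
  cF := V_cont hB
  hx := hB.V_x
  hxx := hB.P_x
  hr := by obtain ⟨M, h⟩ := hB.bsys; exact h.hVt
  hl := hB.V_tl
  cr := fun t ht x => ((((cwr hB.Px_cont ht x).div_const 2).add
    (((ctr (b_right hC ht) x).mul (cwr (u_cont hB) ht x)).mul (cwr (P_cont hB) ht x))).neg).add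
    (((ctr (b_right hC ht) x).mul (cwr (V_cont hB) ht x)).mul
      (continuousWithinAt_const.sub (cwr (V_cont hB) ht x)))
  cl := fun t ht x => ((((cwl hB.Px_cont ht x).div_const 2).add
    (((ctl (bl_left hC ht) x).mul (cwl (u_cont hB) ht x)).mul (cwl (P_cont hB) ht x))).neg).add
    (((ctl (bl_left hC ht) x).mul (cwl (V_cont hB) ht x)).mul
      (continuousWithinAt_const.sub (cwl (V_cont hB) ht x)))
  cx := P_cont hB
  cxx := hB.Px_cont
  growth := by
    have h2 : PG A (fun t x => A.Px t x / 2) := by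
      simpa only [div_eq_mul_inv] using (Px_pg hB).mul (PG.const (2 : ℝ)⁻¹)
    exact growth5 (V_pg hB)
      ((h2.add (((b_pg A).mul (u_pg hB)).mul (P_pg hB))).neg.add
        (((b_pg A).mul (V_pg hB)).mul ((PG.const 1).sub (V_pg hB))))
      ((h2.add (((bl_pg A).mul (u_pg hB)).mul (P_pg hB))).neg.add
        (((bl_pg A).mul (V_pg hB)).mul ((PG.const 1).sub (V_pg hB)))) (P_pg hB) (Px_pg hB)

theorem test_P (hB : Back A) (hC : Clock A) : Test A A.P
    (fun t x => -(A.Pxx t x / 2 + A.b t * A.u t x * A.Px t x) +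
      A.b t * (2 - 3 * A.V t x) * A.P t x)
    (fun t x => -(A.Pxx t x / 2 + A.bl t * A.u t x * A.Px t x) +
      A.bl t * (2 - 3 * A.V t x) * A.P t x)
    A.Px A.Pxx where
  cF := P_cont hB
  hx := hB.P_x
  hxx := hB.Px_x
  hr := by obtain ⟨M, h⟩ := hB.bsys; exact h.hPt
  hl := hB.P_tl
  cr := fun t ht x => ((((cwr hB.Pxx_cont ht x).div_const 2).add
    (((ctr (b_right hC ht) x).mul (cwr (u_cont hB) ht x)).mul (cwr hB.Px_cont ht x))).neg).add
    (((ctr (b_right hC ht) x).mul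
      (continuousWithinAt_const.sub (continuousWithinAt_const.mul (cwr (V_cont hB) ht x)))).mul
      (cwr (P_cont hB) ht x))
  cl := fun t ht x => ((((cwl hB.Pxx_cont ht x).div_const 2).add
    (((ctl (bl_left hC ht) x).mul (cwl (u_cont hB) ht x)).mul (cwl hB.Px_cont ht x))).neg).add
    (((ctl (bl_left hC ht) x).mul
      (continuousWithinAt_const.sub (continuousWithinAt_const.mul (cwl (V_cont hB) ht x)))).mul
      (cwl (P_cont hB) ht x))
  cx := hB.Px_cont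
  cxx := hB.Pxx_cont
  growth := by
    have h2 : PG A (fun t x => A.Pxx t x / 2) := by
      simpa only [div_eq_mul_inv] using (Pxx_pg hB).mul (PG.const (2 : ℝ)⁻¹)
    exact growth5 (P_pg hB)
      ((h2.add (((b_pg A).mul (u_pg hB)).mul (Px_pg hB))).neg.add
        (((b_pg A).mul ((PG.const 2).sub ((V_pg hB).cmul 3))).mul (P_pg hB)))
      ((h2.add (((bl_pg A).mul (u_pg hB)).mul (Px_pg hB))).neg.add
        (((bl_pg A).mul ((PG.const 2).sub ((V_pg hB).cmul 3))).mul (P_pg hB))) (Px_pg hB) (Pxx_pg hB)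

/-! ### linearity of `ex` -/

/-- continuous with polynomial growth -/
def Adm (f : ℝ → ℝ) : Prop := Continuous f ∧ ∃ C : ℝ, ∃ n : ℕ, 0 ≤ C ∧ ∀ x, |f x| ≤ C * (1 + |x|) ^ n

theorem adm_of {F : ℝ → ℝ → ℝ} (hc : ContinuousOn (fun q : ℝ × ℝ => F q.1 q.2) (Icc 0 A.T ×ˢ univ))
    (hg : PG A F) {t : ℝ} (ht : t ∈ Icc 0 A.T) : Adm (F t) := by
  refine ⟨?_, ?_⟩
  · rw [← continuousOn_univ]
    exact hc.comp (f := fun x => (t, x)) (by fun_prop) fun x _ => ⟨ht, mem_univ _⟩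
  · obtain ⟨C, n, hC, h⟩ := hg
    exact ⟨C, n, hC, fun x => h t ht x⟩

theorem Adm.add {f g : ℝ → ℝ} (hf : Adm f) (hg : Adm g) : Adm (fun x => f x + g x) := by
  refine ⟨hf.1.add hg.1, ?_⟩
  obtain ⟨C, n, hC, h1⟩ := hf.2
  obtain ⟨C', n', hC', h2⟩ := hg.2
  refine ⟨C + C', max n n', add_nonneg hC hC', fun x => (abs_add_le _ _).trans ?_⟩
  have h3 := pow_le_pow_right₀ (one_le_w x) (le_max_left n n')
  have h4 := pow_le_pow_right₀ (one_le_w x) (le_max_right n n')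
  calc |f x| + |g x| ≤ C * (1 + |x|) ^ n + C' * (1 + |x|) ^ n' := add_le_add (h1 x) (h2 x)
    _ ≤ C * (1 + |x|) ^ max n n' + C' * (1 + |x|) ^ max n n' :=
        add_le_add (mul_le_mul_of_nonneg_left h3 hC) (mul_le_mul_of_nonneg_left h4 hC')
    _ = _ := by ring

theorem Adm.mul {f g : ℝ → ℝ} (hf : Adm f) (hg : Adm g) : Adm (fun x => f x * g x) := by
  refine ⟨hf.1.mul hg.1, ?_⟩
  obtain ⟨C, n, hC, h1⟩ := hf.2
  obtain ⟨C', n', hC', h2⟩ := hg.2
  refine ⟨C * C', n + n', mul_nonneg hC hC', fun x => ?_⟩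
  rw [abs_mul]
  calc |f x| * |g x| ≤ (C * (1 + |x|) ^ n) * (C' * (1 + |x|) ^ n') :=
        mul_le_mul (h1 x) (h2 x) (abs_nonneg _) (by positivity)
    _ = _ := by rw [pow_add]; ring

theorem Adm.const (c : ℝ) : Adm (fun _ => c) :=
  ⟨continuous_const, |c|, 0, abs_nonneg _, fun _ => by simp⟩

theorem Adm.cmul {f : ℝ → ℝ} (c : ℝ) (hf : Adm f) : Adm (fun x => c * f x) := (Adm.const c).mul hf

theorem Adm.neg {f : ℝ → ℝ} (hf : Adm f) : Adm (fun x => -f x) := by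
  simpa using hf.cmul (-1)

theorem Adm.sub {f g : ℝ → ℝ} (hf : Adm f) (hg : Adm g) : Adm (fun x => f x - g x) := by
  simpa only [sub_eq_add_neg] using hf.add hg.neg

theorem Adm.pow {f : ℝ → ℝ} (hf : Adm f) : ∀ n : ℕ, Adm (fun x => f x ^ n)
  | 0 => by simpa using Adm.const 1
  | n + 1 => by simpa only [pow_succ] using (hf.pow n).mul hf

section expect

variable {x0 : ℝ} {p Y Yx Yxx : ℝ → ℝ → ℝ}

theorem p_cont_x (hL : Law A x0 p Y Yx Yxx) {t : ℝ} (ht : t ∈ Ioc 0 A.T) : Continuous (p t) := by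
  rw [← continuousOn_univ]
  exact hL.p_cont.comp (f := fun x => (t, x)) (by fun_prop) fun x _ => ⟨ht, mem_univ _⟩

theorem Adm.integrable (hL : Law A x0 p Y Yx Yxx) {t : ℝ} (ht : t ∈ Ioc 0 A.T) {f : ℝ → ℝ}
    (hf : Adm f) : Integrable (fun x => p t x * f x) := by
  obtain ⟨C, n, hC, h⟩ := hf.2
  obtain ⟨C', h'⟩ := hL.mom n
  refine ((h' t ht).1.const_mul C).mono' ((p_cont_x hL ht).mul hf.1).aestronglyMeasurable
    (Eventually.of_forall fun x => ?_)
  rw [Real.norm_eq_abs, abs_mul, abs_of_pos (hL.p_pos t ht x)]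
  calc p t x * |f x| ≤ p t x * (C * (1 + |x|) ^ n) :=
        mul_le_mul_of_nonneg_left (h x) (hL.p_pos t ht x).le
    _ = _ := by ring

theorem ex_add (hL : Law A x0 p Y Yx Yxx) {t : ℝ} (ht : t ∈ Icc 0 A.T) {f g : ℝ → ℝ} (hf : Adm f)
    (hg : Adm g) : ex x0 p t (fun x => f x + g x) = ex x0 p t f + ex x0 p t g := by
  unfold ex
  split_ifs with h
  · rfl
  · have ht' : t ∈ Ioc 0 A.T := ⟨not_le.1 h, ht.2⟩
    rw [← integral_add (hf.integrable hL ht') (hg.integrable hL ht')]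
    exact integral_congr_ae (Eventually.of_forall fun x => by ring)

theorem ex_cmul (t c : ℝ) (f : ℝ → ℝ) : ex x0 p t (fun x => c * f x) = c * ex x0 p t f := by
  unfold ex
  split_ifs with h
  · rfl
  · rw [← integral_const_mul]
    exact integral_congr_ae (Eventually.of_forall fun x => by ring)

theorem ex_neg (t : ℝ) (f : ℝ → ℝ) : ex x0 p t (fun x => -f x) = -ex x0 p t f := by
  have := ex_cmul (x0 := x0) (p := p) t (-1) f
  simpa using this

theorem ex_sub (hL : Law A x0 p Y Yx Yxx) {t : ℝ} (ht : t ∈ Icc 0 A.T) {f g : ℝ → ℝ} (hf : Adm f)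
    (hg : Adm g) : ex x0 p t (fun x => f x - g x) = ex x0 p t f - ex x0 p t g := by
  rw [sub_eq_add_neg, ← ex_neg, ← ex_add hL ht hf hg.neg]
  rfl

theorem ex_congr (t : ℝ) {f g : ℝ → ℝ} (h : ∀ x, f x = g x) : ex x0 p t f = ex x0 p t g := by
  have : f = g := funext h
  rw [this]

theorem ex_const (hL : Law A x0 p Y Yx Yxx) {t : ℝ} (ht : t ∈ Icc 0 A.T) (c : ℝ) :
    ex x0 p t (fun _ => c) = c := by
  unfold ex
  split_ifs with h
  · rfl
  · rw [integral_mul_const, hL.mass t ⟨not_le.1 h, ht.2⟩, one_mul]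

theorem ex_mono (hL : Law A x0 p Y Yx Yxx) {t : ℝ} (ht : t ∈ Icc 0 A.T) {f g : ℝ → ℝ} (hf : Adm f)
    (hg : Adm g) (h : ∀ x, f x ≤ g x) : ex x0 p t f ≤ ex x0 p t g := by
  unfold ex
  split_ifs with h0
  · exact h x0
  · have ht' : t ∈ Ioc 0 A.T := ⟨not_le.1 h0, ht.2⟩
    exact integral_mono (hf.integrable hL ht') (hg.integrable hL ht') fun x =>
      mul_le_mul_of_nonneg_left (h x) (hL.p_pos t ht' x).le

end expect

end Crest.Agent.R146.StepTest_692
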