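import Crest.Agent.R146.Abs2_692
import Crest.Agent.R146.StepLim_692
import Crest.Agent.R146.StepTest_692

/-!
Row 146, PT-CMP, item (ABS), version 2, bridge to the step system (helper692).
`prf_of`: `Back A` + universal band + upper bound at time `t` give `Prf`; `lw_of`: `Law` + bound of `Y` give
`Lw`; `lw_of_tr`: the bound `s Y ≥ -th (B + u/s)` (transients) is enough; `absorb_ex2`: the absorb lemma for `ex`.
-/

set_option autoImplicit false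

namespace Crest.Agent.R146.AbsStep2_692

open MeasureTheory Set Filter Topology
open Crest.Agent.R146.StepDef_791
open Crest.Agent.R146.Abs2_692
open Crest.Agent.R146.StepLim_692 (u_top w_bot V_mem)

theorem prf_of {A : SD} (hB : Back A) {t : ℝ} (ht : t ∈ Icc 0 A.T) {κ M s : ℝ} (hs : 0 < s)
    (hI : ∀ x, κ * (A.V t x * Real.sqrt (A.V t x) * (1 - A.V t x)) ≤ s * A.P t x)
    (hM : ∀ x, s * A.P t x ≤ M) : Prf κ M s (A.V t) (A.P t) (A.u t) where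
  s_pos := hs
  V_x := hB.V_x t ht
  V_pos := fun x => (V_mem hB ht x).1
  V_lt := fun x => (V_mem hB ht x).2
  P_ge := hI
  P_le := hM
  u_x := hB.u_x t ht
  u_pos := hB.u_pos t ht
  w_pos := hB.w_pos t ht
  u_top := u_top hB ht
  w_bot := w_bot hB ht

theorem lw_of {A : SD} {x0 : ℝ} {p Y Yx Yxx : ℝ → ℝ → ℝ} (hL : Law A x0 p Y Yx Yxx) {t : ℝ}
    (ht : t ∈ Ioc 0 A.T) {lam s : ℝ} (hY : ∀ x, -(lam * (1 + max (-x) 0 / s)) ≤ s * Y t x) :
    Lw lam s (p t) (Y t) where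
  p_pos := hL.p_pos t ht
  p_x := hL.p_x t ht
  Y_ge := hY
  p_int := by
    obtain ⟨C, hC⟩ := hL.mom 0
    simpa using (hC t ht).1

/-- transients `s Y ≥ -th (B + u/s)` -/
theorem lw_of_tr {A : SD} {x0 : ℝ} {p Y Yx Yxx : ℝ → ℝ → ℝ} (hL : Law A x0 p Y Yx Yxx) {t : ℝ}
    (ht : t ∈ Ioc 0 A.T) {κ M s th B : ℝ} (hκ : 0 < κ) (hM : 0 < M) (hth : 0 ≤ th) (hB0 : 0 ≤ B)
    (h : Prf κ M s (A.V t) (A.P t) (A.u t)) (hY : ∀ x, -(th * (B + A.u t x / s)) ≤ s * Y t x) :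
    Lw (th * (B + C00 κ M + 1)) s (p t) (Y t) := by
  refine lw_of hL ht fun x => ?_
  refine le_trans (neg_le_neg ?_) (hY x)
  have h1 := h.U_le hκ hM x
  have h2 : 0 ≤ max (-x) 0 / s := div_nonneg (le_max_right _ _) h.s_pos.le
  have h3 := C00_pos hκ hM
  rw [mul_assoc]
  refine mul_le_mul_of_nonneg_left ?_ hth
  nlinarith [mul_nonneg hB0 h2, mul_nonneg h3.le h2]

/-- **(ABS)** for `ex`, universal band -/
theorem absorb_ex2 {κ M e : ℝ} {k : ℕ} (hκ : 0 < κ) (hM : 0 < M) (he : 0 < e) :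
    ∃ lam0 : ℝ, 0 < lam0 ∧ ∃ K : ℝ, 0 ≤ K ∧ ∀ {A : SD} {x0 : ℝ} {p Y Yx Yxx : ℝ → ℝ → ℝ}
      {t lam s CG : ℝ} {F : ℝ → ℝ}, Law A x0 p Y Yx Yxx → t ∈ Ioc 0 A.T → 0 ≤ lam → lam ≤ lam0 →
      0 ≤ CG → Prf κ M s (A.V t) (A.P t) (A.u t) → Lw lam s (p t) (Y t) →
      (∀ x, |F x| ≤ CG * (A.V t x * Real.sqrt (A.V t x) ^ k * (1 - A.V t x) ^ e)) →
      ex x0 p t (fun x => (1 + |x| / s) ^ k * |F x|) ≤ CG * K * Zs A x0 p t := by
  obtain ⟨lam0, h1, K, h2, h3⟩ := absorb2 (k := k) hκ hM he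
  refine ⟨lam0, h1, K, h2, ?_⟩
  intro A x0 p Y Yx Yxx t lam s CG F hL ht hl hl2 hCG h g hF
  have h4 := (h3 hl hl2 hCG h g hF).1
  unfold Zs ex
  rw [if_neg (not_le.2 ht.1), if_neg (not_le.2 ht.1)]
  refine h4.trans (le_of_eq ?_)
  congr 1
  exact integral_congr_ae (Eventually.of_forall fun x => by ring)

end Crest.Agent.R146.AbsStep2_692
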