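import Crest.Agent.R146.Abs_692
import Crest.Agent.R146.StepTest_692

/-!
Row 146, PT-SPEC v1 (post 1064), item (ABS), bridge to the step system (helper692):
`half_of` builds `Abs_692.Half` from `Back`, `Law` and the two pointwise facts (I-band, `Y` bound);
`absorb_ex` is the absorb lemma in terms of `ex`.
-/

set_option autoImplicit false

namespace Crest.Agent.R146.AbsStep_692

open MeasureTheory Set Filter Topology
open Crest.Agent.R146.StepDef_791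
open Crest.Agent.R146.Abs_692
open Crest.Agent.R146.StepTest_692

variable {A : SD} {x0 : ℝ} {p Y Yx Yxx : ℝ → ℝ → ℝ}

/-- the data of the absorb lemma at time `t ∈ (0,T]`, `s > 0` any scale (`√chi` or `√(1-t)`) -/
theorem half_of (hB : Back A) (hL : Law A x0 p Y Yx Yxx) {t : ℝ} (ht : t ∈ Ioc 0 A.T)
    {c v0 M lam s : ℝ} (hs : 0 < s)
    (hI : ∀ x, c * (A.V t x * (1 - A.V t x)) ≤ s * A.P t x) (hM : ∀ x, s * A.P t x ≤ M)
    (h0 : v0 ≤ A.V t 0) (h1 : A.V t 0 ≤ 1 - v0)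
    (hY : ∀ x, -(lam * (1 + max (-x) 0 / s)) ≤ s * Y t x) :
    Half c v0 M lam s (A.V t) (A.P t) (p t) (Y t) := by
  have ht' : t ∈ Icc 0 A.T := ⟨ht.1.le, ht.2⟩
  obtain ⟨M', hS⟩ := hB.bsys
  refine ⟨hs, fun x => hB.V_x t ht' x, fun x => hS.V_pos t ht' x, fun x => hS.V_lt t ht' x, hI, hM,
    h0, h1, fun x => hL.p_pos t ht x, fun x => hL.p_x t ht x, hY, ?_⟩
  obtain ⟨C, hC⟩ := hL.mom 0
  simpa using (hC t ht).1

/-- **(ABS)** in terms of `ex`: `E[(1+|x|/s)^k |F|] ≤ C' E[V R²]` for `|F| ≤ CG V^(1+e1) R^e2` -/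
theorem absorb_ex {c v0 M e1 e2 CG : ℝ} {k : ℕ} (hc : 0 < c) (hv : 0 < v0) (hM : 0 < M)
    (he1 : 0 ≤ e1) (he2 : 0 < e2) (hk : k = 0 ∨ 0 < e1) (hCG : 0 ≤ CG) :
    ∃ lam0 : ℝ, 0 < lam0 ∧ ∃ C' : ℝ, 0 ≤ C' ∧ ∀ {A : SD} {x0 : ℝ} {p Y Yx Yxx : ℝ → ℝ → ℝ}
      {t lam s : ℝ} {F : ℝ → ℝ}, Back A → Law A x0 p Y Yx Yxx → t ∈ Ioc 0 A.T → 0 < s → 0 ≤ lam →
      lam ≤ lam0 →
      (∀ x, c * (A.V t x * (1 - A.V t x)) ≤ s * A.P t x) → (∀ x, s * A.P t x ≤ M) →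
      v0 ≤ A.V t 0 → A.V t 0 ≤ 1 - v0 →
      (∀ x, -(lam * (1 + max (-x) 0 / s)) ≤ s * Y t x) →
      (∀ x, |F x| ≤ CG * (A.V t x * (A.V t x ^ e1 * (1 - A.V t x) ^ e2))) →
      ex x0 p t (fun x => (1 + |x| / s) ^ k * |F x|) ≤ C' * Zs A x0 p t := by
  obtain ⟨lam0, h1, C', h2, h3⟩ := absorb (k := k) hc hv hM he1 he2 hk hCG
  refine ⟨lam0, h1, C', h2, ?_⟩
  intro A x0 p Y Yx Yxx t lam s F hB hL ht hs hl hl2 hI hM' h0 h0' hY hF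
  have h4 := (h3 hl hl2 (half_of hB hL ht hs hI hM' h0 h0' hY) hF).1
  unfold Zs ex
  rw [if_neg (not_le.2 ht.1), if_neg (not_le.2 ht.1)]
  refine h4.trans (le_of_eq ?_)
  congr 1
  exact integral_congr_ae (Eventually.of_forall fun x => by ring)

end Crest.Agent.R146.AbsStep_692
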