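import Crest.Agent.R146.StepCmp_371

/-!
Row 146, PT-CMP (helper423): the ABSORB LEMMA at a fixed time.

`Fix s V P u`: profile at a fixed time (`s = χ^{-1/2}`) with the universal lower slope bound
`P ≥ (3/4) s V^{3/2} (1-V)`.
* positions: `x_h` (`V = 1/2`), `x_a` (`V = 1/4`), `-8 ≤ s x_a ≤ s x_h ≤ 4`;
* `absorb`: `E_p[H] ≤ C' E_p[V R²]` for `H ≤ C V` on the left and `H ≤ C (1+ξ₊) (1-V)^{e}` on the right, if
  `Y = -(log p)_x ≥ -λ s (1 + ξ₋)`, `λ` small.
-/

set_option autoImplicit false

open Set Filter Topology MeasureTheory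

namespace Crest.Agent.R146.Abs_423

open StepCmp_371

/-- profile at a fixed time -/
structure Fix (s : ℝ) (V P u : ℝ → ℝ) : Prop where
  s_pos : 0 < s
  hu : ∀ x, HasDerivAt u (V x - 1) x
  hV : ∀ x, HasDerivAt V (P x) x
  cP : Continuous P
  P_pos : ∀ x, 0 < P x
  V_pos : ∀ x, 0 < V x
  V_lt : ∀ x, V x < 1
  u_pos : ∀ x, 0 < u x
  w_pos : ∀ x, 0 < x + u x
  u_top : Tendsto u atTop (𝓝 0)
  w_bot : Tendsto (fun x => x + u x) atBot (𝓝 0)
  lo : ∀ x, s * (3 / 4) * (V x * Real.sqrt (V x)) * (1 - V x) ≤ P x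

namespace Fix

variable {s : ℝ} {V P u : ℝ → ℝ}

lemma hw (h : Fix s V P u) (x : ℝ) : HasDerivAt (fun x => x + u x) (V x) x := by
  refine ((hasDerivAt_id x).add (h.hu x)).congr_deriv ?_
  ring

lemma cV (h : Fix s V P u) : Continuous V :=
  continuous_iff_continuousAt.2 fun x => (h.hV x).continuousAt

lemma cu (h : Fix s V P u) : Continuous u :=
  continuous_iff_continuousAt.2 fun x => (h.hu x).continuousAt

lemma strictMono (h : Fix s V P u) : StrictMono V := by
  apply strictMono_of_deriv_pos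
  intro x; rw [(h.hV x).deriv]; exact h.P_pos x

lemma V_bot (h : Fix s V P u) : Tendsto V atBot (𝓝 0) :=
  lim_bot_of h.strictMono.monotone (fun x => (h.V_pos x).le) h.hw h.w_pos

lemma V_top (h : Fix s V P u) : Tendsto V atTop (𝓝 1) :=
  lim_top_of h.strictMono.monotone (fun x => (h.V_lt x).le) h.hu h.u_pos

lemma surj (h : Fix s V P u) {v : ℝ} (hv : v ∈ Ioo (0:ℝ) 1) : ∃ x, V x = v := by
  have h1 : ∀ᶠ x in atBot, V x < v := h.V_bot.eventually (gt_mem_nhds hv.1)
  have h2 : ∀ᶠ x in atTop, v < V x := h.V_top.eventually (lt_mem_nhds hv.2)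
  obtain ⟨a, ha⟩ := h1.exists
  obtain ⟨c, hc⟩ := h2.exists
  have hac : a ≤ c := by
    by_contra hcon
    push Not at hcon
    exact absurd (h.strictMono.lt_iff_lt.2 hcon) (not_lt.2 (ha.le.trans hc.le))
  obtain ⟨x, _, hx⟩ := intermediate_value_Icc hac h.cV.continuousOn ⟨ha.le, hc.le⟩
  exact ⟨x, hx⟩

/-- `u ≤ 8/s` where `V ≥ 1/4`. -/
lemma u_le (h : Fix s V P u) {x : ℝ} (hx : 1 / 4 ≤ V x) : s * u x ≤ 8 := by
  have hs := h.s_pos
  have hmono : MonotoneOn (fun y => u y + 32 / (3 * s) * V y) (Ici x) := by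
    apply monotoneOn_of_deriv_nonneg (convex_Ici x)
    · exact (h.cu.add (continuous_const.mul h.cV)).continuousOn
    · intro y _
      exact ((h.hu y).add ((h.hV y).const_mul _)).differentiableAt.differentiableWithinAt
    · intro y hy
      rw [interior_Ici] at hy
      have hd : HasDerivAt (fun y => u y + 32 / (3 * s) * V y)
        ((V y - 1) + 32 / (3 * s) * P y) y := (h.hu y).add ((h.hV y).const_mul _)
      rw [hd.deriv]
      have h1 : 1 / 4 ≤ V y := hx.trans (h.strictMono.monotone (le_of_lt hy))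
      have h2 : (1:ℝ) / 2 ≤ Real.sqrt (V y) := by
        rw [show (1:ℝ) / 2 = Real.sqrt (1 / 4) by
          rw [show (1:ℝ) / 4 = (1 / 2) ^ 2 by norm_num, Real.sqrt_sq (by norm_num)]]
        exact Real.sqrt_le_sqrt h1
      have h3 : (1:ℝ) / 8 ≤ V y * Real.sqrt (V y) := by nlinarith
      have h4 := h.lo y
      have h5 : 0 ≤ 1 - V y := by linarith [h.V_lt y]
      have h6 : s * (3 / 32) * (1 - V y) ≤ P y := by
        refine le_trans ?_ h4
        have : s * (3 / 4) * (1 / 8) * (1 - V y) ≤
            s * (3 / 4) * (V y * Real.sqrt (V y)) * (1 - V y) := by gcongr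
        linarith
      have h7 : 32 / (3 * s) * (s * (3 / 32) * (1 - V y)) ≤ 32 / (3 * s) * P y := by gcongr
      have h8 : 32 / (3 * s) * (s * (3 / 32) * (1 - V y)) = 1 - V y := by field_simp
      linarith
  have hlim : Tendsto (fun y => u y + 32 / (3 * s) * V y) atTop (𝓝 (0 + 32 / (3 * s) * 1)) :=
    h.u_top.add (h.V_top.const_mul _)
  have hle : u x + 32 / (3 * s) * V x ≤ 0 + 32 / (3 * s) * 1 := by
    refine ge_of_tendsto hlim ?_
    filter_upwards [eventually_ge_atTop x] with y hy
    exact hmono (mem_Ici.2 le_rfl) (mem_Ici.2 hy) hy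
  have h9 : s * (u x + 32 / (3 * s) * V x) ≤ s * (0 + 32 / (3 * s) * 1) := by gcongr
  have h10 : s * (u x + 32 / (3 * s) * V x) = s * u x + 32 / 3 * V x := by field_simp
  have h11 : s * (0 + 32 / (3 * s) * 1) = 32 / 3 := by field_simp; ring
  rw [h10, h11] at h9
  linarith

/-- `w ≤ 4/s` where `V ≤ 1/2`. -/
lemma w_le (h : Fix s V P u) {x : ℝ} (hx : V x ≤ 1 / 2) : s * (x + u x) ≤ 4 := by
  have hs := h.s_pos
  have hsq : ∀ y, HasDerivAt (fun y => Real.sqrt (V y)) (P y / (2 * Real.sqrt (V y))) y :=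
    fun y => (h.hV y).sqrt (h.V_pos y).ne'
  have hanti : AntitoneOn (fun y => (y + u y) - 16 / (3 * s) * Real.sqrt (V y)) (Iic x) := by
    apply antitoneOn_of_deriv_nonpos (convex_Iic x)
    · refine ((continuous_id.add h.cu).sub (continuous_const.mul ?_)).continuousOn
      exact Real.continuous_sqrt.comp h.cV
    · intro y _
      exact ((h.hw y).sub ((hsq y).const_mul _)).differentiableAt.differentiableWithinAt
    · intro y hy
      rw [interior_Iic] at hy
      have hd : HasDerivAt (fun y => (y + u y) - 16 / (3 * s) * Real.sqrt (V y))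
        (V y - 16 / (3 * s) * (P y / (2 * Real.sqrt (V y)))) y :=
        (h.hw y).sub ((hsq y).const_mul _)
      rw [hd.deriv]
      have h1 : V y ≤ 1 / 2 := (h.strictMono.monotone (le_of_lt hy)).trans hx
      have hq : 0 < Real.sqrt (V y) := Real.sqrt_pos.2 (h.V_pos y)
      have hV0 := h.V_pos y
      have h4 := h.lo y
      have h5 : s * (3 / 8) * (V y * Real.sqrt (V y)) ≤ P y := by
        refine le_trans ?_ h4
        have h6 : 1 / 2 ≤ 1 - V y := by linarith
        have h7 : 0 ≤ s * (3 / 4) * (V y * Real.sqrt (V y)) := by positivity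
        nlinarith
      have h8 : 16 / (3 * s) * (s * (3 / 8) * (V y * Real.sqrt (V y)) / (2 * Real.sqrt (V y))) ≤
          16 / (3 * s) * (P y / (2 * Real.sqrt (V y))) := by gcongr
      have h9 : 16 / (3 * s) * (s * (3 / 8) * (V y * Real.sqrt (V y)) / (2 * Real.sqrt (V y))) =
          V y := by field_simp; ring
      linarith
  have hlim : Tendsto (fun y => (y + u y) - 16 / (3 * s) * Real.sqrt (V y)) atBot
      (𝓝 (0 - 16 / (3 * s) * Real.sqrt 0)) :=
    h.w_bot.sub (((Real.continuous_sqrt.tendsto 0).comp h.V_bot).const_mul _)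
  have hle : (x + u x) - 16 / (3 * s) * Real.sqrt (V x) ≤ 0 - 16 / (3 * s) * Real.sqrt 0 := by
    refine ge_of_tendsto hlim ?_
    filter_upwards [eventually_le_atBot x] with y hy
    exact hanti (mem_Iic.2 hy) (mem_Iic.2 le_rfl) hy
  rw [Real.sqrt_zero] at hle
  have h3 : Real.sqrt (V x) ≤ 3 / 4 := by
    rw [show (3:ℝ) / 4 = Real.sqrt ((3 / 4) ^ 2) by rw [Real.sqrt_sq (by norm_num)]]
    exact Real.sqrt_le_sqrt (by norm_num; linarith)
  have h9 : s * ((x + u x) - 16 / (3 * s) * Real.sqrt (V x)) ≤ s * (0 - 16 / (3 * s) * 0) := by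
    gcongr
  have h10 : s * ((x + u x) - 16 / (3 * s) * Real.sqrt (V x)) =
      s * (x + u x) - 16 / 3 * Real.sqrt (V x) := by field_simp
  rw [h10] at h9
  linarith

/-- position of the level `≥ 1/4`: `ξ₋ ≤ 8`. -/
lemma pos_lo (h : Fix s V P u) {x : ℝ} (hx : 1 / 4 ≤ V x) : -8 ≤ s * x := by
  have h1 := h.u_le hx
  have h2 := mul_pos h.s_pos (h.w_pos x)
  linarith

/-- position of the level `≤ 1/2`: `ξ₊ ≤ 4`. -/
lemma pos_hi (h : Fix s V P u) {x : ℝ} (hx : V x ≤ 1 / 2) : s * x ≤ 4 := by
  have h1 := h.w_le hx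
  have h2 := mul_pos h.s_pos (h.u_pos x)
  linarith

/-- on the left `|ξ| √V ≤ 14`: precisely `(1 + ξ₋) √V ≤ 15`. -/
lemma left_decay (h : Fix s V P u) {x : ℝ} (hx : V x ≤ 1 / 2) :
    (1 + s * max (-x) 0) * Real.sqrt (V x) ≤ 15 := by
  have hs := h.s_pos
  obtain ⟨xh, hxh⟩ := h.surj (v := 1 / 2) ⟨by norm_num, by norm_num⟩
  have hle : x ≤ xh := by
    by_contra hcon
    push Not at hcon
    have := h.strictMono hcon
    linarith
  -- `1/√V` decreases at least at rate `(3/16) s`
  have hanti : AntitoneOn (fun y => (Real.sqrt (V y))⁻¹ + 3 / 16 * s * y) (Iic xh) := by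
    have hd : ∀ y, HasDerivAt (fun y => (Real.sqrt (V y))⁻¹ + 3 / 16 * s * y)
        (-(P y / (2 * Real.sqrt (V y))) / Real.sqrt (V y) ^ 2 + 3 / 16 * s * 1) y := by
      intro y
      have hq : 0 < Real.sqrt (V y) := Real.sqrt_pos.2 (h.V_pos y)
      exact (((h.hV y).sqrt (h.V_pos y).ne').inv hq.ne').add
        ((hasDerivAt_id y).const_mul (3 / 16 * s))
    apply antitoneOn_of_deriv_nonpos (convex_Iic xh)
    · exact (continuous_iff_continuousAt.2 fun y => (hd y).continuousAt).continuousOn
    · intro y _; exact (hd y).differentiableAt.differentiableWithinAt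
    · intro y hy
      rw [interior_Iic] at hy
      rw [(hd y).deriv]
      have h1 : V y ≤ 1 / 2 := (h.strictMono.monotone (le_of_lt hy)).trans hxh.le
      have hq : 0 < Real.sqrt (V y) := Real.sqrt_pos.2 (h.V_pos y)
      have hV0 := h.V_pos y
      have hsq : Real.sqrt (V y) ^ 2 = V y := Real.sq_sqrt hV0.le
      have h4 := h.lo y
      have h5 : s * (3 / 8) * (V y * Real.sqrt (V y)) ≤ P y := by
        refine le_trans ?_ h4
        have h6 : 1 / 2 ≤ 1 - V y := by linarith
        have h7 : 0 ≤ s * (3 / 4) * (V y * Real.sqrt (V y)) := by positivity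
        nlinarith
      have h8 : s * (3 / 8) * (V y * Real.sqrt (V y)) / (2 * Real.sqrt (V y)) / V y ≤
          P y / (2 * Real.sqrt (V y)) / V y := by gcongr
      have h9 : s * (3 / 8) * (V y * Real.sqrt (V y)) / (2 * Real.sqrt (V y)) / V y =
          3 / 16 * s := by field_simp; ring
      rw [hsq, neg_div]
      linarith
  have h1 := hanti (mem_Iic.2 hle) (mem_Iic.2 le_rfl) hle
  simp only at h1
  have hq : 0 < Real.sqrt (V x) := Real.sqrt_pos.2 (h.V_pos x)
  have hqh : 0 < (Real.sqrt (V xh))⁻¹ := inv_pos.2 (Real.sqrt_pos.2 (h.V_pos xh))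
  have h2 : 3 / 16 * s * (xh - x) ≤ (Real.sqrt (V x))⁻¹ := by linarith
  have h3 : 3 / 16 * s * (xh - x) * Real.sqrt (V x) ≤ 1 := by
    have := mul_le_mul_of_nonneg_right h2 hq.le
    rwa [inv_mul_cancel₀ hq.ne'] at this
  have h4 : Real.sqrt (V x) ≤ 1 := by
    rw [show (1:ℝ) = Real.sqrt 1 by simp]
    exact Real.sqrt_le_sqrt (h.V_lt x).le
  have h5 : -8 ≤ s * xh := h.pos_lo (by rw [hxh]; norm_num)
  have h6 : s * max (-x) 0 ≤ 8 + s * (xh - x) := by
    rcases le_total (-x) 0 with h7 | h7
    · rw [max_eq_right h7]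
      have : 0 ≤ s * (xh - x) := mul_nonneg hs.le (by linarith)
      linarith
    · rw [max_eq_left h7]; linarith
  have h7 : (1 + s * max (-x) 0) * Real.sqrt (V x) ≤ (1 + (8 + s * (xh - x))) * Real.sqrt (V x) := by
    gcongr
  nlinarith

/-- exponential decay of `1 - V` to the right of the level `1/2`. -/
lemma right_decay (h : Fix s V P u) {xh x : ℝ} (hxh : V xh = 1 / 2) (hx : xh ≤ x) :
    1 - V x ≤ Real.exp (-(s * (x - xh) / 4)) := by
  have hs := h.s_pos
  have hd : ∀ y, HasDerivAt (fun y => Real.log (1 - V y) + s / 4 * y)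
      (-P y / (1 - V y) + s / 4 * 1) y := by
    intro y
    have h1 : HasDerivAt (fun y => 1 - V y) (-P y) y := by
      simpa using (h.hV y).const_sub 1
    exact (h1.log (by linarith [h.V_lt y])).add ((hasDerivAt_id y).const_mul (s / 4))
  have hanti : AntitoneOn (fun y => Real.log (1 - V y) + s / 4 * y) (Ici xh) := by
    apply antitoneOn_of_deriv_nonpos (convex_Ici xh)
    · exact (continuous_iff_continuousAt.2 fun y => (hd y).continuousAt).continuousOn
    · intro y _; exact (hd y).differentiableAt.differentiableWithinAt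
    · intro y hy
      rw [interior_Ici] at hy
      rw [(hd y).deriv]
      have h1 : 1 / 2 ≤ V y := by
        have := h.strictMono.monotone (le_of_lt hy); linarith
      have h2 : (7:ℝ) / 10 ≤ Real.sqrt (V y) := by
        rw [show (7:ℝ) / 10 = Real.sqrt ((7 / 10) ^ 2) by rw [Real.sqrt_sq (by norm_num)]]
        exact Real.sqrt_le_sqrt (by norm_num; linarith)
      have h3 : (7:ℝ) / 20 ≤ V y * Real.sqrt (V y) := by nlinarith
      have h4 := h.lo y
      have h5 : 0 < 1 - V y := by linarith [h.V_lt y]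
      have h6 : s * (1 / 4) * (1 - V y) ≤ P y := by
        refine le_trans ?_ h4
        have : s * (3 / 4) * (7 / 20) * (1 - V y) ≤
            s * (3 / 4) * (V y * Real.sqrt (V y)) * (1 - V y) := by gcongr
        nlinarith
      have h7 : s * (1 / 4) ≤ P y / (1 - V y) := by rwa [le_div_iff₀ h5]
      rw [neg_div]; linarith
  have h1 := hanti (mem_Ici.2 le_rfl) (mem_Ici.2 hx) hx
  simp only at h1
  have h2 : Real.log (1 - V xh) ≤ 0 :=
    Real.log_nonpos (by linarith [h.V_lt xh]) (by linarith [h.V_pos xh])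
  have h3 : 0 < 1 - V x := by linarith [h.V_lt x]
  rw [← Real.log_le_iff_le_exp h3]
  linarith

/-- the interval between the levels `1/4` and `1/2`: `1/(4 C) ≤ s (x_h - x_a) ≤ 16/3`. -/
lemma mid_len (h : Fix s V P u) {CK : ℝ} (hCK : ∀ x, P x ≤ CK * s) {xa xh : ℝ}
    (hxa : V xa = 1 / 4) (hxh : V xh = 1 / 2) :
    xa < xh ∧ 1 ≤ 4 * CK * (s * (xh - xa)) ∧ s * (xh - xa) ≤ 16 / 3 := by
  have hs := h.s_pos
  have hlt : xa < xh := h.strictMono.lt_iff_lt.1 (by rw [hxa, hxh]; norm_num)
  refine ⟨hlt, ?_, ?_⟩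
  · have hmono : Monotone (fun y => CK * s * y - V y) := by
      apply monotone_of_deriv_nonneg
      · intro y; exact (((hasDerivAt_id y).const_mul (CK * s)).sub (h.hV y)).differentiableAt
      · intro y
        have hd : HasDerivAt (fun y => CK * s * y - V y) (CK * s * 1 - P y) y :=
          ((hasDerivAt_id y).const_mul (CK * s)).sub (h.hV y)
        rw [hd.deriv]; linarith [hCK y]
    have := hmono hlt.le
    simp only at this
    rw [hxa, hxh] at this
    nlinarith
  · have hmono : MonotoneOn (fun y => V y - 3 / 64 * s * y) (Icc xa xh) := by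
      have hd : ∀ y, HasDerivAt (fun y => V y - 3 / 64 * s * y) (P y - 3 / 64 * s * 1) y :=
        fun y => (h.hV y).sub ((hasDerivAt_id y).const_mul (3 / 64 * s))
      apply monotoneOn_of_deriv_nonneg (convex_Icc xa xh)
      · exact (continuous_iff_continuousAt.2 fun y => (hd y).continuousAt).continuousOn
      · intro y _; exact (hd y).differentiableAt.differentiableWithinAt
      · intro y hy
        rw [interior_Icc] at hy
        rw [(hd y).deriv]
        have h1 : 1 / 4 ≤ V y := by
          have := h.strictMono.monotone hy.1.le; linarith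
        have h1' : V y ≤ 1 / 2 := by
          have := h.strictMono.monotone hy.2.le; linarith
        have h2 : (1:ℝ) / 2 ≤ Real.sqrt (V y) := by
          rw [show (1:ℝ) / 2 = Real.sqrt (1 / 4) by
            rw [show (1:ℝ) / 4 = (1 / 2) ^ 2 by norm_num, Real.sqrt_sq (by norm_num)]]
          exact Real.sqrt_le_sqrt h1
        have h3 : (1:ℝ) / 8 ≤ V y * Real.sqrt (V y) := by nlinarith
        have h4 := h.lo y
        have h5 : (1:ℝ) / 2 ≤ 1 - V y := by linarith
        have h6 : s * (3 / 4) * (1 / 8) * (1 / 2) ≤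
            s * (3 / 4) * (V y * Real.sqrt (V y)) * (1 - V y) := by gcongr
        linarith
    have := hmono (left_mem_Icc.2 hlt.le) (right_mem_Icc.2 hlt.le) hlt.le
    simp only at this
    rw [hxa, hxh] at this
    nlinarith

/-- `p` is almost nonincreasing to the right of the level `1/4`. -/
lemma p_le (h : Fix s V P u) {p Y : ℝ → ℝ} (hp : ∀ x, 0 < p x)
    (hpx : ∀ x, HasDerivAt p (-Y x * p x) x) {lam : ℝ} (hlam : 0 ≤ lam)
    (hY : ∀ x, -(lam * s * (1 + s * max (-x) 0)) ≤ Y x) {y x : ℝ} (hy : 1 / 4 ≤ V y)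
    (hyx : y ≤ x) : p x ≤ p y * Real.exp (9 * lam * s * (x - y)) := by
  have hs := h.s_pos
  have hd : ∀ z, HasDerivAt (fun z => Real.log (p z) - 9 * lam * s * z)
      (-Y z * p z / p z - 9 * lam * s * 1) z := fun z =>
    ((hpx z).log (hp z).ne').sub ((hasDerivAt_id z).const_mul (9 * lam * s))
  have hanti : AntitoneOn (fun z => Real.log (p z) - 9 * lam * s * z) (Ici y) := by
    apply antitoneOn_of_deriv_nonpos (convex_Ici y)
    · exact (continuous_iff_continuousAt.2 fun y => (hd y).continuousAt).continuousOn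
    · intro z _; exact (hd z).differentiableAt.differentiableWithinAt
    · intro z hz
      rw [interior_Ici] at hz
      rw [(hd z).deriv, mul_div_assoc, div_self (hp z).ne']
      have h1 : 1 / 4 ≤ V z := hy.trans (h.strictMono.monotone (le_of_lt hz))
      have h2 := h.pos_lo h1
      have h3 : s * max (-z) 0 ≤ 8 := by
        rcases le_total (-z) 0 with h4 | h4
        · rw [max_eq_right h4]; simp
        · rw [max_eq_left h4]; linarith
      have h4 : lam * s * (1 + s * max (-z) 0) ≤ lam * s * (1 + 8) := by gcongr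
      have := hY z
      linarith
  have h1 := hanti (mem_Ici.2 le_rfl) (mem_Ici.2 hyx) hyx
  simp only at h1
  have h2 : Real.log (p x) ≤ Real.log (p y * Real.exp (9 * lam * s * (x - y))) := by
    rw [Real.log_mul (hp y).ne' (Real.exp_pos _).ne', Real.log_exp]
    linarith
  exact (Real.log_le_log_iff (hp x) (mul_pos (hp y) (Real.exp_pos _))).1 h2

/-- the constant of the absorb lemma -/
noncomputable def KA (CK e : ℝ) : ℝ := 4 + 64 * CK * (Real.exp e * (5 + 16 / e) * (16 / e))

lemma KA_nonneg {CK e : ℝ} (hCK : 0 ≤ CK) (he : 0 < e) : 0 ≤ KA CK e := by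
  unfold KA; positivity

/-- the pointwise bound of the right part -/
lemma exp_aux {e z : ℝ} (he : 0 < e) (hz : 0 ≤ z) :
    (5 + z) * Real.exp (-(e * z / 8)) ≤ (5 + 16 / e) * Real.exp (-(e * z / 16)) := by
  have h1 : Real.exp (-(e * z / 8)) = Real.exp (-(e * z / 16)) * Real.exp (-(e * z / 16)) := by
    rw [← Real.exp_add]; ring_nf
  have h2 : 0 ≤ e * z / 16 := by positivity
  have h3 : Real.exp (-(e * z / 16)) ≤ 1 := Real.exp_le_one_iff.2 (by linarith)
  have h4 : e * z / 16 * Real.exp (-(e * z / 16)) ≤ 1 := by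
    have h5 : e * z / 16 ≤ Real.exp (e * z / 16) := by
      have := Real.add_one_le_exp (e * z / 16); linarith
    rw [Real.exp_neg, ← div_eq_mul_inv]
    exact (div_le_one (Real.exp_pos _)).2 h5
  have h5 : z * Real.exp (-(e * z / 16)) ≤ 16 / e := by
    have h6 : z * Real.exp (-(e * z / 16)) = 16 / e * (e * z / 16 * Real.exp (-(e * z / 16))) := by
      field_simp
    rw [h6]
    calc 16 / e * (e * z / 16 * Real.exp (-(e * z / 16))) ≤ 16 / e * 1 := by gcongr
      _ = 16 / e := mul_one _
  have h6 := Real.exp_pos (-(e * z / 16))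
  rw [h1, ← mul_assoc]
  refine mul_le_mul_of_nonneg_right ?_ h6.le
  nlinarith

/-- **ABSORB LEMMA.** -/
theorem absorb (h : Fix s V P u) {CK e C lam : ℝ} (hCK0 : 0 ≤ CK) (hCK : ∀ x, P x ≤ CK * s)
    (he : 0 < e) (hC : 0 ≤ C) (hlam0 : 0 ≤ lam) (hlam : 72 * lam ≤ e) {p Y H : ℝ → ℝ}
    (hp : ∀ x, 0 < p x) (hpx : ∀ x, HasDerivAt p (-Y x * p x) x)
    (hY : ∀ x, -(lam * s * (1 + s * max (-x) 0)) ≤ Y x)
    (intp : Integrable p) (intH : Integrable (fun x => p x * H x))
    (left : ∀ x, V x ≤ 1 / 2 → H x ≤ C * V x)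
    (right : ∀ x, 1 / 2 ≤ V x → H x ≤ C * (1 + s * max x 0) * (1 - V x) ^ e) :
    ∫ x, p x * H x ≤ C * KA CK e * ∫ x, p x * (V x * (1 - V x) ^ 2) := by
  have hs := h.s_pos
  obtain ⟨xa, hxa⟩ := h.surj (v := 1 / 4) ⟨by norm_num, by norm_num⟩
  obtain ⟨xh, hxh⟩ := h.surj (v := 1 / 2) ⟨by norm_num, by norm_num⟩
  obtain ⟨hlt, hl1, hl2⟩ := h.mid_len hCK hxa hxh
  have cp : Continuous p := continuous_iff_continuousAt.2 fun x => (hpx x).continuousAt
  have cV := h.cV
  -- the reference integrand
  have hG0 : ∀ x, 0 ≤ p x * (V x * (1 - V x) ^ 2) := fun x =>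
    mul_nonneg (hp x).le (mul_nonneg (h.V_pos x).le (sq_nonneg _))
  have intG : Integrable (fun x => p x * (V x * (1 - V x) ^ 2)) := by
    refine intp.mono (cp.mul (cV.mul ((continuous_const.sub cV).pow 2))).aestronglyMeasurable
      (Eventually.of_forall fun x => ?_)
    rw [Real.norm_of_nonneg (hG0 x), Real.norm_of_nonneg (hp x).le]
    have h1 := (h.V_pos x).le
    have h2 := (h.V_lt x).le
    have h3 : V x * (1 - V x) ^ 2 ≤ 1 := by
      have : (1 - V x) ^ 2 ≤ 1 := by nlinarith
      nlinarith [sq_nonneg (1 - V x)]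
    calc p x * (V x * (1 - V x) ^ 2) ≤ p x * 1 := mul_le_mul_of_nonneg_left h3 (hp x).le
      _ = p x := mul_one _
  set E := ∫ x, p x * (V x * (1 - V x) ^ 2) with hE
  have hE0 : 0 ≤ E := integral_nonneg hG0
  -- left part
  have hleft : ∫ x in Iic xh, p x * H x ≤ 4 * C * E := by
    have h1 : ∫ x in Iic xh, p x * H x ≤ ∫ x in Iic xh, 4 * C * (p x * (V x * (1 - V x) ^ 2)) := by
      refine setIntegral_mono_on intH.integrableOn (intG.const_mul _).integrableOn
        measurableSet_Iic fun x hx => ?_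
      have h2 : V x ≤ 1 / 2 := (h.strictMono.monotone hx).trans hxh.le
      have h3 := left x h2
      have h4 := (h.V_pos x).le
      have h5 : (1:ℝ) / 4 ≤ (1 - V x) ^ 2 := by nlinarith
      have h6 : C * V x ≤ 4 * C * (V x * (1 - V x) ^ 2) := by
        have h7 : 0 ≤ C * V x := mul_nonneg hC h4
        nlinarith
      calc p x * H x ≤ p x * (4 * C * (V x * (1 - V x) ^ 2)) :=
            mul_le_mul_of_nonneg_left (h3.trans h6) (hp x).le
        _ = 4 * C * (p x * (V x * (1 - V x) ^ 2)) := by ring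
    have h2 : ∫ x in Iic xh, 4 * C * (p x * (V x * (1 - V x) ^ 2)) ≤
        ∫ x, 4 * C * (p x * (V x * (1 - V x) ^ 2)) :=
      setIntegral_le_integral (intG.const_mul _) (Eventually.of_forall fun x =>
        mul_nonneg (by positivity) (hG0 x))
    have h3 : ∫ x, 4 * C * (p x * (V x * (1 - V x) ^ 2)) = 4 * C * E := integral_const_mul _ _
    exact h1.trans (h2.trans h3.le)
  -- right part
  set K1 := Real.exp e * (5 + 16 / e) * (16 / e) with hK1
  have hK10 : 0 ≤ K1 := by positivity
  set IR := ∫ x in Ioi xh, p x * H x with hIR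
  have hy : ∀ y ∈ Icc xa xh, IR ≤ p y * (C * K1 / s) := by
    intro y hy
    have hVy : 1 / 4 ≤ V y := by
      have := h.strictMono.monotone hy.1; linarith
    have hz : ∀ x ∈ Ioi xh, p x * H x ≤
        p y * (C * (Real.exp e * (5 + 16 / e))) * Real.exp (-(e * s / 16) * (x - xh)) := by
      intro x hx
      have hxh' : xh < x := hx
      have hVx : 1 / 2 ≤ V x := by
        have := h.strictMono.monotone hxh'.le; linarith
      have h1 := h.p_le hp hpx hlam0 hY hVy (hy.2.trans hxh'.le)
      have h2 := right x hVx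
      have h3 := h.right_decay hxh hxh'.le
      have h4 : 0 < 1 - V x := by linarith [h.V_lt x]
      have h5 : (1 - V x) ^ e ≤ Real.exp (-(s * (x - xh) / 4)) ^ e :=
        Real.rpow_le_rpow h4.le h3 he.le
      rw [← Real.exp_mul] at h5
      have h6 : s * max x 0 ≤ 4 + s * (x - xh) := by
        have h7 := h.pos_hi hxh.le
        have h8 : 0 ≤ s * (x - xh) := mul_nonneg hs.le (by linarith)
        rcases le_total x 0 with h9 | h9
        · rw [max_eq_right h9]; linarith [mul_zero s]
        · rw [max_eq_left h9]; linarith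
      have hsx : 0 ≤ s * max x 0 := mul_nonneg hs.le (le_max_right _ _)
      have hzz : 0 ≤ s * (x - xh) := mul_nonneg hs.le (by linarith)
      have h7 : H x ≤ C * (5 + s * (x - xh)) * Real.exp (-(s * (x - xh) / 4) * e) := by
        refine h2.trans ?_
        have h8 : C * (1 + s * max x 0) ≤ C * (5 + s * (x - xh)) :=
          mul_le_mul_of_nonneg_left (by linarith) hC
        exact mul_le_mul h8 h5 (Real.rpow_nonneg h4.le _) (by positivity)
      have h8 : p x ≤ p y * (Real.exp e * Real.exp (e / 8 * (s * (x - xh)))) := by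
        refine h1.trans (mul_le_mul_of_nonneg_left ?_ (hp y).le)
        rw [← Real.exp_add]
        apply Real.exp_le_exp.2
        have h9 : s * (xh - y) ≤ 16 / 3 := by
          have : s * (xh - y) ≤ s * (xh - xa) := by
            apply mul_le_mul_of_nonneg_left _ hs.le; linarith [hy.1]
          linarith
        have h10 : 9 * lam * s * (x - y) = 9 * lam * (s * (xh - y)) + 9 * lam * (s * (x - xh)) := by
          ring
        rw [h10]
        have h11 : 9 * lam * (s * (xh - y)) ≤ 9 * lam * (16 / 3) := by gcongr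
        have h12 : 9 * lam * (s * (x - xh)) ≤ e / 8 * (s * (x - xh)) := by
          apply mul_le_mul_of_nonneg_right _ hzz; linarith
        linarith
      have h9 : 0 ≤ C * (5 + s * (x - xh)) * Real.exp (-(s * (x - xh) / 4) * e) := by positivity
      calc p x * H x ≤ p x * (C * (5 + s * (x - xh)) * Real.exp (-(s * (x - xh) / 4) * e)) :=
            mul_le_mul_of_nonneg_left h7 (hp x).le
        _ ≤ p y * (Real.exp e * Real.exp (e / 8 * (s * (x - xh)))) *
            (C * (5 + s * (x - xh)) * Real.exp (-(s * (x - xh) / 4) * e)) :=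
            mul_le_mul_of_nonneg_right h8 h9
        _ = p y * (C * Real.exp e) * ((5 + s * (x - xh)) *
            (Real.exp (e / 8 * (s * (x - xh))) * Real.exp (-(s * (x - xh) / 4) * e))) := by ring
        _ = p y * (C * Real.exp e) * ((5 + s * (x - xh)) *
            Real.exp (-(e * (s * (x - xh)) / 8))) := by
            rw [← Real.exp_add]; ring_nf
        _ ≤ p y * (C * Real.exp e) * ((5 + 16 / e) *
            Real.exp (-(e * (s * (x - xh)) / 16))) := by
            have := exp_aux he hzz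
            have h10 : 0 ≤ p y * (C * Real.exp e) :=
              mul_nonneg (hp y).le (mul_nonneg hC (Real.exp_pos _).le)
            exact mul_le_mul_of_nonneg_left this h10
        _ = p y * (C * (Real.exp e * (5 + 16 / e))) * Real.exp (-(e * s / 16) * (x - xh)) := by
            ring_nf
    have ha : -(e * s / 16) < 0 := by
      have : 0 < e * s := mul_pos he hs
      linarith
    have hexp : ∀ x : ℝ, Real.exp (-(e * s / 16) * (x - xh)) =
        Real.exp (e * s / 16 * xh) * Real.exp (-(e * s / 16) * x) := by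
      intro x; rw [← Real.exp_add]; ring_nf
    have hint : IntegrableOn (fun x => Real.exp (-(e * s / 16) * (x - xh))) (Ioi xh) := by
      simp only [hexp]
      exact (integrableOn_exp_mul_Ioi ha xh).const_mul _
    have hval : ∫ x in Ioi xh, Real.exp (-(e * s / 16) * (x - xh)) = 16 / (e * s) := by
      simp only [hexp]
      rw [integral_const_mul, integral_exp_mul_Ioi ha]
      have h1 : Real.exp (e * s / 16 * xh) * Real.exp (-(e * s / 16) * xh) = 1 := by
        rw [← Real.exp_add]; simp
      have h2 : Real.exp (e * s / 16 * xh) * (-Real.exp (-(e * s / 16) * xh) / -(e * s / 16)) =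
          (Real.exp (e * s / 16 * xh) * Real.exp (-(e * s / 16) * xh)) / (e * s / 16) := by
        field_simp
      rw [h2, h1]; field_simp
    calc IR ≤ ∫ x in Ioi xh, p y * (C * (Real.exp e * (5 + 16 / e))) *
          Real.exp (-(e * s / 16) * (x - xh)) :=
          setIntegral_mono_on intH.integrableOn (hint.const_mul _) measurableSet_Ioi hz
      _ = p y * (C * (Real.exp e * (5 + 16 / e))) * (16 / (e * s)) := by
          rw [integral_const_mul, hval]
      _ = p y * (C * K1 / s) := by rw [hK1]; field_simp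
  have hmid : IR * (xh - xa) ≤ C * K1 / s * (16 * E) := by
    have h1 : ∫ _ in Icc xa xh, IR ≤ ∫ y in Icc xa xh, p y * (C * K1 / s) := by
      refine setIntegral_mono_on ?_ (intp.mul_const _).integrableOn measurableSet_Icc hy
      exact (continuous_const.continuousOn).integrableOn_Icc
    have h2 : ∫ _ in Icc xa xh, IR = IR * (xh - xa) := by
      rw [setIntegral_const, smul_eq_mul, Measure.real, Real.volume_Icc,
        ENNReal.toReal_ofReal (by linarith)]
      ring
    rw [h2] at h1
    refine h1.trans ?_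
    have h3 : ∫ y in Icc xa xh, p y * (C * K1 / s) =
        C * K1 / s * ∫ y in Icc xa xh, p y := by
      rw [← integral_const_mul]; congr 1; funext y; ring
    rw [h3]
    refine mul_le_mul_of_nonneg_left ?_ (by positivity)
    have h4 : ∫ y in Icc xa xh, p y ≤ ∫ y in Icc xa xh, 16 * (p y * (V y * (1 - V y) ^ 2)) := by
      refine setIntegral_mono_on intp.integrableOn (intG.const_mul _).integrableOn
        measurableSet_Icc fun y hy => ?_
      have h5 : 1 / 4 ≤ V y := by
        have := h.strictMono.monotone hy.1; linarith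
      have h6 : V y ≤ 1 / 2 := by
        have := h.strictMono.monotone hy.2; linarith
      have h7 : (1:ℝ) / 4 ≤ (1 - V y) ^ 2 := by nlinarith
      have h8 : (1:ℝ) / 16 ≤ V y * (1 - V y) ^ 2 := by nlinarith
      have := mul_le_mul_of_nonneg_left h8 (hp y).le
      linarith
    refine h4.trans ?_
    have h5 : ∫ y in Icc xa xh, 16 * (p y * (V y * (1 - V y) ^ 2)) ≤
        ∫ y, 16 * (p y * (V y * (1 - V y) ^ 2)) :=
      setIntegral_le_integral (intG.const_mul _) (Eventually.of_forall fun x =>
        mul_nonneg (by norm_num) (hG0 x))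
    have h6 : ∫ y, 16 * (p y * (V y * (1 - V y) ^ 2)) = 16 * E := integral_const_mul _ _
    exact h5.trans h6.le
  have hR : IR ≤ 64 * CK * K1 * C * E := by
    rcases le_total IR 0 with h0 | h0
    · exact h0.trans (by positivity)
    · have h1 : IR ≤ 4 * CK * (s * (xh - xa)) * IR := by nlinarith
      have h2 : 4 * CK * (s * (xh - xa)) * IR = 4 * CK * s * (IR * (xh - xa)) := by ring
      have h3 : 4 * CK * s * (IR * (xh - xa)) ≤ 4 * CK * s * (C * K1 / s * (16 * E)) :=
        mul_le_mul_of_nonneg_left hmid (by positivity)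
      have h4 : 4 * CK * s * (C * K1 / s * (16 * E)) = 64 * CK * K1 * C * E := by
        field_simp; ring
      linarith
  have hsplit : ∫ x, p x * H x = (∫ x in Iic xh, p x * H x) + IR := by
    have h1 := integral_add_compl (measurableSet_Iic (a := xh)) intH
    rw [compl_Iic] at h1
    exact h1.symm
  rw [hsplit]
  have : C * KA CK e * E = 4 * C * E + 64 * CK * K1 * C * E := by
    unfold KA; rw [← hK1]; ring
  rw [this]
  exact add_le_add hleft hR

end Fix

end Crest.Agent.R146.Abs_423
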