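import Mathlib

/-!
Row 146, PT-SPEC v1 (post 1064), item (ABS): the absorb lemma (helper692).

At a fixed time, `s = √chi > 0`, `V` the profile (`V' = P`, `s P ≥ c V(1-V)`, `s P ≤ M`,
`v0 ≤ V 0 ≤ 1 - v0`), `p > 0` the density, `p' = -Y p`, `s Y(x) ≥ -lam (1 + (x/s)₋)`, `lam` small.
Then for every `F` with `|F x| ≤ CG V^(1+e1) (1-V)^e2` (`e2 > 0`, and `e1 > 0` or `k = 0`):
`∫ p (1+|x|/s)^k |F| ≤ C' ∫ p V (1-V)²`, with `C'` depending only on `c, v0, M, e1, e2, k, CG`.
-/

set_option autoImplicit false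

namespace Crest.Agent.R146.Abs_692

open MeasureTheory Set Filter Topology

/-- profile and law at a fixed time (`s = √chi`) -/
structure Half (c v0 M lam s : ℝ) (V P p Y : ℝ → ℝ) : Prop where
  s_pos : 0 < s
  V_x : ∀ x, HasDerivAt V (P x) x
  V_pos : ∀ x, 0 < V x
  V_lt : ∀ x, V x < 1
  P_ge : ∀ x, c * (V x * (1 - V x)) ≤ s * P x
  P_le : ∀ x, s * P x ≤ M
  V0_ge : v0 ≤ V 0
  V0_le : V 0 ≤ 1 - v0
  p_pos : ∀ x, 0 < p x
  p_x : ∀ x, HasDerivAt p (-(Y x) * p x) x
  Y_ge : ∀ x, -(lam * (1 + max (-x) 0 / s)) ≤ s * Y x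
  p_int : Integrable p

variable {c v0 M lam s : ℝ} {V P p Y : ℝ → ℝ}

theorem Half.V_cont (h : Half c v0 M lam s V P p Y) : Continuous V :=
  continuous_iff_continuousAt.2 fun x => (h.V_x x).continuousAt

theorem Half.p_cont (h : Half c v0 M lam s V P p Y) : Continuous p :=
  continuous_iff_continuousAt.2 fun x => (h.p_x x).continuousAt

theorem Half.P_nonneg (h : Half c v0 M lam s V P p Y) (hc : 0 < c) (x : ℝ) : 0 ≤ P x := by
  have h1 := h.P_ge x
  have h2 : 0 ≤ c * (V x * (1 - V x)) :=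
    mul_nonneg hc.le (mul_nonneg (h.V_pos x).le (sub_nonneg.2 (h.V_lt x).le))
  by_contra h3
  have h4 := mul_neg_of_pos_of_neg h.s_pos (not_le.1 h3)
  linarith

theorem Half.V_mono (h : Half c v0 M lam s V P p Y) (hc : 0 < c) : Monotone V :=
  monotone_of_deriv_nonneg (fun x => (h.V_x x).differentiableAt) fun x => by
    rw [(h.V_x x).deriv]; exact h.P_nonneg hc x

/-- derivative of `f e^{g}` -/
theorem hd_mul_exp {f g : ℝ → ℝ} {f' g' D y : ℝ} (hf : HasDerivAt f f' y) (hg : HasDerivAt g g' y)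
    (hD : (f' + f y * g') * Real.exp (g y) = D) :
    HasDerivAt (fun y => f y * Real.exp (g y)) D y := by
  have h2 : HasDerivAt (fun y => f y * Real.exp (g y))
      (f' * Real.exp (g y) + f y * (Real.exp (g y) * g')) y := hf.mul hg.exp
  rw [← hD]
  have e : (f' + f y * g') * Real.exp (g y) =
      f' * Real.exp (g y) + f y * (Real.exp (g y) * g') := by ring
  rw [e]
  exact h2

theorem hd_lin (k y : ℝ) : HasDerivAt (fun y => k * y) k y := by
  simpa using (hasDerivAt_id y).const_mul k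

theorem hd_neg_lin (k y : ℝ) : HasDerivAt (fun y => -(k * y)) (-k) y := (hd_lin k y).neg

/-- exponential decay of `V` on the left -/
theorem Half.V_left (h : Half c v0 M lam s V P p Y) (hc : 0 < c) {x : ℝ} (hx : x ≤ 0) :
    V x ≤ Real.exp (c * v0 / s * x) := by
  have hs := h.s_pos
  have hd : ∀ y, HasDerivAt (fun y => V y * Real.exp (-(c * v0 / s * y)))
      ((P y - c * v0 / s * V y) * Real.exp (-(c * v0 / s * y))) y := by
    intro y
    exact hd_mul_exp (h.V_x y) (hd_neg_lin _ y) (by ring)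
  have hm : MonotoneOn (fun y => V y * Real.exp (-(c * v0 / s * y))) (Iic 0) := by
    refine monotoneOn_of_deriv_nonneg (convex_Iic 0)
      (fun y _ => (hd y).continuousAt.continuousWithinAt)
      (fun y _ => (hd y).differentiableAt.differentiableWithinAt) fun y hy => ?_
    rw [interior_Iic] at hy
    rw [(hd y).deriv]
    refine mul_nonneg ?_ (Real.exp_pos _).le
    have h3 := h.P_ge y
    have h4 : v0 ≤ 1 - V y := by
      have := h.V_mono hc (le_of_lt hy)
      have := h.V0_le
      linarith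
    have h5 : c * (V y * v0) ≤ s * P y :=
      (mul_le_mul_of_nonneg_left (mul_le_mul_of_nonneg_left h4 (h.V_pos y).le) hc.le).trans h3
    have h6 : c * v0 / s * V y = c * (V y * v0) / s := by ring
    rw [h6, sub_nonneg, div_le_iff₀ hs]
    linarith
  have h7 := hm hx (show (0 : ℝ) ∈ Iic 0 from le_refl (0 : ℝ)) hx
  simp only [mul_zero, neg_zero, Real.exp_zero, mul_one] at h7
  have h8 : V x * Real.exp (-(c * v0 / s * x)) ≤ 1 := h7.trans (h.V_lt 0).le
  rw [Real.exp_neg, ← div_eq_mul_inv, div_le_one (Real.exp_pos _)] at h8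
  exact h8

/-- exponential decay of `1 - V` on the right -/
theorem Half.R_right (h : Half c v0 M lam s V P p Y) (hc : 0 < c) {x : ℝ} (hx : 0 ≤ x) :
    1 - V x ≤ Real.exp (-(c * v0 / s * x)) := by
  have hs := h.s_pos
  have hd : ∀ y, HasDerivAt (fun y => (1 - V y) * Real.exp (c * v0 / s * y))
      (-(P y - c * v0 / s * (1 - V y)) * Real.exp (c * v0 / s * y)) y := by
    intro y
    exact hd_mul_exp ((h.V_x y).const_sub 1) (hd_lin _ y) (by ring)
  have hm : AntitoneOn (fun y => (1 - V y) * Real.exp (c * v0 / s * y)) (Ici 0) := by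
    refine antitoneOn_of_deriv_nonpos (convex_Ici 0)
      (fun y _ => (hd y).continuousAt.continuousWithinAt)
      (fun y _ => (hd y).differentiableAt.differentiableWithinAt) fun y hy => ?_
    rw [interior_Ici] at hy
    rw [(hd y).deriv]
    have h3 := h.P_ge y
    have h4 : v0 ≤ V y := by
      have := h.V_mono hc (le_of_lt hy)
      have := h.V0_ge
      linarith
    have h5 : c * (v0 * (1 - V y)) ≤ s * P y :=
      (mul_le_mul_of_nonneg_left (mul_le_mul_of_nonneg_right h4
        (sub_nonneg.2 (h.V_lt y).le)) hc.le).trans h3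
    have h6 : c * v0 / s * (1 - V y) = c * (v0 * (1 - V y)) / s := by ring
    have h7 : 0 ≤ P y - c * v0 / s * (1 - V y) := by
      rw [h6, sub_nonneg, div_le_iff₀ hs]
      linarith
    exact mul_nonpos_of_nonpos_of_nonneg (neg_nonpos.2 h7) (Real.exp_pos _).le
  have h7 := hm (show (0 : ℝ) ∈ Ici 0 from le_refl (0 : ℝ)) hx hx
  simp only [mul_zero, Real.exp_zero, mul_one] at h7
  have h8 : (1 - V x) * Real.exp (c * v0 / s * x) ≤ 1 := h7.trans (by linarith [h.V_pos 0])
  rw [Real.exp_neg, ← one_div, le_div_iff₀ (Real.exp_pos _)]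
  exact h8

/-- `p` almost nonincreasing, right side -/
theorem Half.p_right (h : Half c v0 M lam s V P p Y) {x : ℝ} (hx : 0 ≤ x) :
    p x ≤ p 0 * Real.exp (lam / s * x) := by
  have hs := h.s_pos
  have hd : ∀ y, HasDerivAt (fun y => p y * Real.exp (-(lam / s * y)))
      (-(Y y + lam / s) * (p y * Real.exp (-(lam / s * y)))) y := by
    intro y
    exact hd_mul_exp (h.p_x y) (hd_neg_lin _ y) (by ring)
  have hm : AntitoneOn (fun y => p y * Real.exp (-(lam / s * y))) (Ici 0) := by
    refine antitoneOn_of_deriv_nonpos (convex_Ici 0)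
      (fun y _ => (hd y).continuousAt.continuousWithinAt)
      (fun y _ => (hd y).differentiableAt.differentiableWithinAt) fun y hy => ?_
    rw [interior_Ici] at hy
    rw [(hd y).deriv]
    have h3 := h.Y_ge y
    rw [max_eq_right (by linarith [mem_Ioi.1 hy]), zero_div, add_zero, mul_one] at h3
    have h4 : 0 ≤ Y y + lam / s := by
      have h5 : Y y + lam / s = (s * Y y + lam) / s := by field_simp
      rw [h5]
      exact div_nonneg (by linarith) hs.le
    exact mul_nonpos_of_nonpos_of_nonneg (neg_nonpos.2 h4)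
      (mul_pos (h.p_pos y) (Real.exp_pos _)).le
  have h7 := hm (show (0 : ℝ) ∈ Ici 0 from le_refl (0 : ℝ)) hx hx
  simp only [mul_zero, neg_zero, Real.exp_zero, mul_one] at h7
  rw [Real.exp_neg, ← div_eq_mul_inv, div_le_iff₀ (Real.exp_pos _)] at h7
  exact h7

/-- `p` almost nonincreasing, left side -/
theorem Half.p_left (h : Half c v0 M lam s V P p Y) {x : ℝ} (hx : x ≤ 0) :
    p 0 * Real.exp (lam * (x / s - (x / s) ^ 2 / 2)) ≤ p x := by
  have hs := h.s_pos
  have hd : ∀ y, HasDerivAt (fun y => p y * Real.exp (-(lam * (y / s - (y / s) ^ 2 / 2))))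
      (-(Y y + lam / s * (1 - y / s)) *
        (p y * Real.exp (-(lam * (y / s - (y / s) ^ 2 / 2))))) y := by
    intro y
    have h0 : HasDerivAt (fun y => y / s) (1 / s) y := (hasDerivAt_id y).div_const s
    have h1 : HasDerivAt (fun y => -(lam * (y / s - (y / s) ^ 2 / 2)))
        (-(lam * (1 / s - (((2 : ℕ) : ℝ) * (y / s) ^ (2 - 1) * (1 / s)) / 2))) y :=
      ((h0.sub ((h0.pow 2).div_const 2)).const_mul lam).neg
    refine hd_mul_exp (h.p_x y) h1 ?_
    push_cast
    ring
  have hm : AntitoneOn (fun y => p y * Real.exp (-(lam * (y / s - (y / s) ^ 2 / 2)))) (Iic 0) := by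
    refine antitoneOn_of_deriv_nonpos (convex_Iic 0)
      (fun y _ => (hd y).continuousAt.continuousWithinAt)
      (fun y _ => (hd y).differentiableAt.differentiableWithinAt) fun y hy => ?_
    rw [interior_Iic] at hy
    rw [(hd y).deriv]
    have h3 := h.Y_ge y
    rw [max_eq_left (by linarith [mem_Iio.1 hy])] at h3
    have h4 : 0 ≤ Y y + lam / s * (1 - y / s) := by
      have h5 : Y y + lam / s * (1 - y / s) = (s * Y y + lam * (1 + -y / s)) / s := by
        field_simp
        ring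
      rw [h5]
      exact div_nonneg (by linarith) hs.le
    exact mul_nonpos_of_nonpos_of_nonneg (neg_nonpos.2 h4)
      (mul_pos (h.p_pos y) (Real.exp_pos _)).le
  have h7 := hm hx (show (0 : ℝ) ∈ Iic 0 from le_refl (0 : ℝ)) hx
  simp only [zero_div, ne_eq, OfNat.ofNat_ne_zero, not_false_eq_true, zero_pow, sub_zero, mul_zero,
    neg_zero, Real.exp_zero, mul_one] at h7
  rw [Real.exp_neg, ← div_eq_mul_inv, le_div_iff₀ (Real.exp_pos _)] at h7
  exact h7

/-- lower bound of the denominator -/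
theorem Half.denom (h : Half c v0 M lam s V P p Y) (hc : 0 < c) (hv : 0 < v0) (hM : 0 < M)
    (hl : 0 ≤ lam) :
    (v0 / 2 * v0 ^ 2 * Real.exp (-(lam * (v0 / (2 * M) + (v0 / (2 * M)) ^ 2 / 2))) *
      (v0 / (2 * M))) * (s * p 0) ≤ ∫ x, p x * (V x * (1 - V x) ^ 2) := by
  have hs := h.s_pos
  set a := v0 / (2 * M) with ha
  have ha0 : 0 < a := by positivity
  have hint : Integrable (fun x => p x * (V x * (1 - V x) ^ 2)) := by
    refine h.p_int.mono ((h.p_cont.mul (h.V_cont.mul ((continuous_const.sub h.V_cont).pow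
      2))).aestronglyMeasurable) (Eventually.of_forall fun x => ?_)
    rw [norm_mul]
    refine mul_le_of_le_one_right (norm_nonneg _) ?_
    rw [Real.norm_eq_abs, abs_of_nonneg (mul_nonneg (h.V_pos x).le (sq_nonneg _))]
    have h1 := h.V_pos x
    have h2 := h.V_lt x
    have h3 : (1 - V x) ^ 2 ≤ 1 := pow_le_one₀ (by linarith) (by linarith)
    calc V x * (1 - V x) ^ 2 ≤ 1 * 1 := mul_le_mul h2.le h3 (sq_nonneg _) zero_le_one
      _ = 1 := one_mul 1
  have hnn : 0 ≤ᵐ[volume] fun x => p x * (V x * (1 - V x) ^ 2) :=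
    Eventually.of_forall fun x => mul_nonneg (h.p_pos x).le
      (mul_nonneg (h.V_pos x).le (sq_nonneg _))
  have hpt : ∀ x ∈ Icc (-(a * s)) 0, p 0 * Real.exp (-(lam * (a + a ^ 2 / 2))) *
      (v0 / 2 * v0 ^ 2) ≤ p x * (V x * (1 - V x) ^ 2) := by
    intro x hx
    have h1 := h.p_left hx.2
    have h2 : -a ≤ x / s := by
      rw [le_div_iff₀ hs]
      linarith [hx.1]
    have h3 : x / s ≤ 0 := div_nonpos_of_nonpos_of_nonneg hx.2 hs.le
    have h4 : -(lam * (a + a ^ 2 / 2)) ≤ lam * (x / s - (x / s) ^ 2 / 2) := by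
      have h5 : (x / s) ^ 2 ≤ a ^ 2 := by nlinarith
      have h6 : -(a + a ^ 2 / 2) ≤ x / s - (x / s) ^ 2 / 2 := by linarith
      calc -(lam * (a + a ^ 2 / 2)) = lam * -(a + a ^ 2 / 2) := by ring
        _ ≤ _ := mul_le_mul_of_nonneg_left h6 hl
    have h7 : p 0 * Real.exp (-(lam * (a + a ^ 2 / 2))) ≤ p x :=
      (mul_le_mul_of_nonneg_left (Real.exp_le_exp.2 h4) (h.p_pos 0).le).trans h1
    have h8 : v0 ≤ 1 - V x := by
      have := h.V_mono hc hx.2
      have := h.V0_le
      linarith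
    have h9 : v0 / 2 ≤ V x := by
      have h10 : V 0 - V x ≤ M / s * (0 - x) := by
        have := Convex.image_sub_le_mul_sub_of_deriv_le (f := V) (convex_univ)
          h.V_cont.continuousOn (fun y _ => (h.V_x y).differentiableAt.differentiableWithinAt)
          (C := M / s) (fun y _ => by
            rw [(h.V_x y).deriv, le_div_iff₀ hs]
            have := h.P_le y
            linarith) x (mem_univ _) 0 (mem_univ _) hx.2
        exact this
      have h11 : M / s * (0 - x) ≤ v0 / 2 := by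
        have h12 : M / s * (0 - x) = M * (-(x / s)) := by ring
        rw [h12]
        calc M * (-(x / s)) ≤ M * a := mul_le_mul_of_nonneg_left (by linarith) hM.le
          _ = v0 / 2 := by rw [ha]; field_simp
      have := h.V0_ge
      linarith
    have h13 : v0 / 2 * v0 ^ 2 ≤ V x * (1 - V x) ^ 2 :=
      mul_le_mul h9 (pow_le_pow_left₀ hv.le h8 2) (by positivity) (h.V_pos x).le
    exact mul_le_mul h7 h13 (by positivity) (h.p_pos x).le
  have h1 := setIntegral_ge_of_const_le_real (μ := volume) (s := Icc (-(a * s)) 0)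
    measurableSet_Icc (by simp) hpt hint.integrableOn
  have h2 : volume.real (Icc (-(a * s)) 0) = a * s := by
    rw [Real.volume_real_Icc_of_le (by nlinarith)]
    ring
  rw [h2] at h1
  have h3 := setIntegral_le_integral (s := Icc (-(a * s)) 0) hint hnn
  refine le_trans (le_of_eq ?_) (h1.trans h3)
  ring

theorem pow_le_exp {α y : ℝ} (hα : 0 < α) (hy : 0 ≤ y) (k : ℕ) :
    (1 + y) ^ k ≤ (k.factorial / α ^ k * Real.exp α) * Real.exp (α * y) := by
  have h1 := Real.pow_div_factorial_le_exp (x := α * (1 + y)) (by positivity) k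
  have h2 : (0 : ℝ) < k.factorial := by exact_mod_cast k.factorial_pos
  rw [div_le_iff₀ h2, mul_pow] at h1
  have h3 : Real.exp (α * (1 + y)) = Real.exp α * Real.exp (α * y) := by
    rw [← Real.exp_add]; ring_nf
  rw [h3] at h1
  have h4 : (1 + y) ^ k = α ^ k * (1 + y) ^ k / α ^ k := by
    field_simp
  rw [h4, div_le_iff₀ (by positivity)]
  refine h1.trans (le_of_eq ?_)
  field_simp

theorem exp_rpow (a e : ℝ) : Real.exp a ^ e = Real.exp (a * e) := (Real.exp_mul a e).symm

/-- **(ABS)** the absorb lemma -/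
theorem absorb {c v0 M e1 e2 CG : ℝ} {k : ℕ} (hc : 0 < c) (hv : 0 < v0) (hM : 0 < M)
    (he1 : 0 ≤ e1) (he2 : 0 < e2) (hk : k = 0 ∨ 0 < e1) (hCG : 0 ≤ CG) :
    ∃ lam0 : ℝ, 0 < lam0 ∧ ∃ C' : ℝ, 0 ≤ C' ∧ ∀ {lam s : ℝ} {V P p Y F : ℝ → ℝ}, 0 ≤ lam →
      lam ≤ lam0 → Half c v0 M lam s V P p Y →
      (∀ x, |F x| ≤ CG * (V x * (V x ^ e1 * (1 - V x) ^ e2))) →
      (∫ x, p x * ((1 + |x| / s) ^ k * |F x|) ≤ C' * ∫ x, p x * (V x * (1 - V x) ^ 2)) ∧
      (AEStronglyMeasurable F volume → Integrable fun x => p x * ((1 + |x| / s) ^ k * F x)) := by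
  set κ := c * v0 with hκ
  have hκ0 : 0 < κ := mul_pos hc hv
  set α := κ * e2 / 4 with hα
  have hα0 : 0 < α := by positivity
  set K2 := k.factorial / α ^ k * Real.exp α with hK2
  have hK20 : 0 ≤ K2 := by positivity
  obtain ⟨K1, hK10, hK1⟩ : ∃ K1 : ℝ, 0 ≤ K1 ∧ ∀ y : ℝ, 0 ≤ y →
      (1 + y) ^ k * Real.exp (-(κ * e1 * y)) ≤ K1 := by
    rcases hk with hk | hk
    · refine ⟨1, zero_le_one, fun y hy => ?_⟩
      rw [hk, pow_zero, one_mul]
      exact Real.exp_le_one_iff.2 (by
        have := mul_nonneg (mul_nonneg hκ0.le he1) hy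
        linarith)
    · refine ⟨k.factorial / (κ * e1) ^ k * Real.exp (κ * e1), by positivity, fun y hy => ?_⟩
      have h1 := pow_le_exp (mul_pos hκ0 hk) hy k
      calc (1 + y) ^ k * Real.exp (-(κ * e1 * y)) ≤
          (k.factorial / (κ * e1) ^ k * Real.exp (κ * e1)) * Real.exp (κ * e1 * y) *
            Real.exp (-(κ * e1 * y)) := mul_le_mul_of_nonneg_right h1 (Real.exp_pos _).le
        _ = _ := by
          rw [mul_assoc, ← Real.exp_add]
          simp
  set β := κ * e2 / 2 with hβ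
  have hβ0 : 0 < β := by positivity
  set K3 := v0 / 2 * v0 ^ 2 * Real.exp (-(α * (v0 / (2 * M) + (v0 / (2 * M)) ^ 2 / 2))) *
      (v0 / (2 * M)) with hK3
  have hK30 : 0 < K3 := by positivity
  refine ⟨α, hα0, K1 * CG / v0 ^ 2 + CG * K2 / (β * K3), by positivity, ?_⟩
  intro lam s V P p Y F hl hl2 h hF
  have hs := h.s_pos
  have hDint : Integrable (fun x => p x * (V x * (1 - V x) ^ 2)) := by
    refine h.p_int.mono ((h.p_cont.mul (h.V_cont.mul ((continuous_const.sub h.V_cont).pow
      2))).aestronglyMeasurable) (Eventually.of_forall fun x => ?_)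
    rw [norm_mul]
    refine mul_le_of_le_one_right (norm_nonneg _) ?_
    rw [Real.norm_eq_abs, abs_of_nonneg (mul_nonneg (h.V_pos x).le (sq_nonneg _))]
    have h1 := h.V_pos x
    have h2 := h.V_lt x
    have h3 : (1 - V x) ^ 2 ≤ 1 := pow_le_one₀ (by linarith) (by linarith)
    calc V x * (1 - V x) ^ 2 ≤ 1 * 1 := mul_le_mul h2.le h3 (sq_nonneg _) zero_le_one
      _ = 1 := one_mul 1
  have hD := h.denom hc hv hM hl
  set D := ∫ x, p x * (V x * (1 - V x) ^ 2) with hDdef
  have hDK : K3 * (s * p 0) ≤ D := by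
    refine le_trans (mul_le_mul_of_nonneg_right ?_ (mul_pos hs (h.p_pos 0)).le) hD
    rw [hK3]
    have h1 : Real.exp (-(α * (v0 / (2 * M) + (v0 / (2 * M)) ^ 2 / 2))) ≤
        Real.exp (-(lam * (v0 / (2 * M) + (v0 / (2 * M)) ^ 2 / 2))) := by
      refine Real.exp_le_exp.2 (neg_le_neg (mul_le_mul_of_nonneg_right hl2 (by positivity)))
    gcongr
  -- the majorant
  have hEint : IntegrableOn (fun x => CG * K2 * p 0 * Real.exp (-(β / s) * x)) (Ioi 0) :=
    (integrableOn_exp_mul_Ioi (neg_lt_zero.2 (div_pos hβ0 hs)) 0).const_mul _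
  have hgint : Integrable (fun x => K1 * CG / v0 ^ 2 * (p x * (V x * (1 - V x) ^ 2)) +
      (Ioi 0).indicator (fun x => CG * K2 * p 0 * Real.exp (-(β / s) * x)) x) :=
    (hDint.const_mul _).add (hEint.integrable_indicator measurableSet_Ioi)
  have hpt : ∀ x, p x * ((1 + |x| / s) ^ k * |F x|) ≤
      K1 * CG / v0 ^ 2 * (p x * (V x * (1 - V x) ^ 2)) +
      (Ioi 0).indicator (fun x => CG * K2 * p 0 * Real.exp (-(β / s) * x)) x := by
    intro x
    have hVp := h.V_pos x
    have hVl := h.V_lt x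
    have hRp : 0 < 1 - V x := by linarith
    have hpp := h.p_pos x
    have hw : 0 ≤ (1 + |x| / s) ^ k := by positivity
    rcases le_or_gt x 0 with hx | hx
    · have e0 : (Ioi (0 : ℝ)).indicator (fun x => CG * K2 * p 0 * Real.exp (-(β / s) * x)) x = 0 :=
        indicator_of_notMem (by simpa using hx) _
      rw [e0, add_zero]
      have h1 : V x ^ e1 ≤ Real.exp (-(κ * e1 * (|x| / s))) := by
        calc V x ^ e1 ≤ Real.exp (κ / s * x) ^ e1 :=
              Real.rpow_le_rpow hVp.le (h.V_left hc hx) he1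
          _ = Real.exp (-(κ * e1 * (|x| / s))) := by
              rw [exp_rpow, abs_of_nonpos hx]
              congr 1
              ring
      have h2 : (1 - V x) ^ e2 ≤ 1 := Real.rpow_le_one hRp.le (by linarith) he2.le
      have h3 : (1 + |x| / s) ^ k * V x ^ e1 ≤ K1 :=
        (mul_le_mul_of_nonneg_left h1 hw).trans (hK1 _ (by positivity))
      have h4 : v0 ^ 2 ≤ (1 - V x) ^ 2 := by
        have := h.V_mono hc hx
        have := h.V0_le
        exact pow_le_pow_left₀ hv.le (by linarith) 2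
      have h5 : 1 ≤ (1 - V x) ^ 2 / v0 ^ 2 := by
        rw [le_div_iff₀ (by positivity), one_mul]
        exact h4
      have h6 : 0 ≤ V x ^ e1 := Real.rpow_nonneg hVp.le _
      have h7 : 0 ≤ (1 - V x) ^ e2 := Real.rpow_nonneg hRp.le _
      calc p x * ((1 + |x| / s) ^ k * |F x|) ≤
          p x * ((1 + |x| / s) ^ k * (CG * (V x * (V x ^ e1 * (1 - V x) ^ e2)))) := by
            have := hF x
            gcongr
        _ = p x * (CG * V x) * ((1 + |x| / s) ^ k * V x ^ e1) * (1 - V x) ^ e2 := by ring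
        _ ≤ p x * (CG * V x) * K1 * 1 := by gcongr
        _ ≤ p x * (CG * V x) * K1 * ((1 - V x) ^ 2 / v0 ^ 2) := by gcongr
        _ = _ := by ring
    · have e0 : (Ioi (0 : ℝ)).indicator (fun x => CG * K2 * p 0 * Real.exp (-(β / s) * x)) x =
          CG * K2 * p 0 * Real.exp (-(β / s) * x) := indicator_of_mem (mem_Ioi.2 hx) _
      rw [e0]
      have h0 : 0 ≤ K1 * CG / v0 ^ 2 * (p x * (V x * (1 - V x) ^ 2)) := by positivity
      refine le_trans ?_ (le_add_of_nonneg_left h0)
      have h1 : (1 - V x) ^ e2 ≤ Real.exp (-(κ * e2 / s * x)) := by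
        calc (1 - V x) ^ e2 ≤ Real.exp (-(κ / s * x)) ^ e2 :=
              Real.rpow_le_rpow hRp.le (h.R_right hc hx.le) he2.le
          _ = Real.exp (-(κ * e2 / s * x)) := by
              rw [exp_rpow]
              congr 1
              ring
      have h2 : V x ^ e1 ≤ 1 := Real.rpow_le_one hVp.le hVl.le he1
      have h3 : (1 + |x| / s) ^ k ≤ K2 * Real.exp (α * (x / s)) := by
        rw [abs_of_pos hx]
        exact pow_le_exp hα0 (div_nonneg hx.le hs.le) k
      have h4 : p x ≤ p 0 * Real.exp (α / s * x) := by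
        refine (h.p_right hx.le).trans (mul_le_mul_of_nonneg_left (Real.exp_le_exp.2 ?_)
          (h.p_pos 0).le)
        gcongr
      have h6 : 0 ≤ V x ^ e1 := Real.rpow_nonneg hVp.le _
      have h7 : 0 ≤ (1 - V x) ^ e2 := Real.rpow_nonneg hRp.le _
      calc p x * ((1 + |x| / s) ^ k * |F x|) ≤
          p x * ((1 + |x| / s) ^ k * (CG * (V x * (V x ^ e1 * (1 - V x) ^ e2)))) := by
            have := hF x
            gcongr
        _ ≤ (p 0 * Real.exp (α / s * x)) * ((K2 * Real.exp (α * (x / s))) *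
            (CG * (1 * (1 * Real.exp (-(κ * e2 / s * x)))))) := by
            have := (h.p_pos 0).le
            gcongr
        _ = CG * K2 * p 0 * (Real.exp (α / s * x) * Real.exp (α * (x / s)) *
            Real.exp (-(κ * e2 / s * x))) := by ring
        _ = _ := by
            rw [← Real.exp_add, ← Real.exp_add]
            congr 2
            rw [hα, hβ]
            ring
  refine ⟨?_, fun hm => ?_⟩
  · have h1 : ∫ x, p x * ((1 + |x| / s) ^ k * |F x|) ≤
        ∫ x, (K1 * CG / v0 ^ 2 * (p x * (V x * (1 - V x) ^ 2)) +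
        (Ioi 0).indicator (fun x => CG * K2 * p 0 * Real.exp (-(β / s) * x)) x) :=
      integral_mono_of_nonneg (Eventually.of_forall fun x =>
        mul_nonneg (h.p_pos x).le (by positivity)) hgint (Eventually.of_forall hpt)
    refine h1.trans ?_
    rw [integral_add (hDint.const_mul _) (hEint.integrable_indicator measurableSet_Ioi),
      integral_const_mul, integral_indicator measurableSet_Ioi, integral_const_mul,
      integral_exp_mul_Ioi (neg_lt_zero.2 (div_pos hβ0 hs)), mul_zero, Real.exp_zero, add_mul]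
    refine add_le_add (le_of_eq rfl) ?_
    have h2 : CG * K2 * p 0 * (-1 / -(β / s)) = CG * K2 / β * (s * p 0) := by
      field_simp
    rw [h2]
    have h3 : s * p 0 ≤ D / K3 := by
      rw [le_div_iff₀ hK30]
      linarith
    calc CG * K2 / β * (s * p 0) ≤ CG * K2 / β * (D / K3) :=
          mul_le_mul_of_nonneg_left h3 (by positivity)
      _ = _ := by field_simp
  · refine hgint.mono' (h.p_cont.aestronglyMeasurable.mul
      ((Continuous.aestronglyMeasurable (by fun_prop)).mul hm)) (Eventually.of_forall fun x => ?_)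
    refine le_trans (le_of_eq ?_) (hpt x)
    rw [Real.norm_eq_abs, abs_mul, abs_mul, abs_of_pos (h.p_pos x),
      abs_of_nonneg (show 0 ≤ (1 + |x| / s) ^ k by positivity)]

end Crest.Agent.R146.Abs_692
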