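import Crest.Agent.R146.Pos_371

/-!
Law transients ("forgetting") for row 146 (helper384, LEMMA 146-384-FLAT, post 1008).

`Y = -(log p)_x` solves `YSys` (MaxPCmp2_371). `E = 1/D` is increasing in time, `E' = b E` (left
derivatives). `G(t,x) = C E(t) (c0 + σ(x E(t)))`, `σ(y) = y + √(1+y²)` grows linearly at `+∞` and is
bounded at `-∞`; `Q(t,x) = G(t,-x)`.

* `Y_le_add`: if `S` is an upper barrier then `S + G` is an upper barrier as soon as pointwise
  `0 ≤ b (V g + E w g') + E g' S + g S_x` (`g = c0 + σ(xE)`, `g' = σ(xE)/√(1+(xE)²)`), `1 ≤ C c0`;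
* `add_le_Y`: the same below, `S - Q`.
-/

set_option autoImplicit false

open Set Filter Topology

namespace Crest.Agent.R146.Flat_384

open MaxP_371 MaxP2_371 MaxPCmp_371 MaxPCmp2_371 Pos_371

/-- `σ'(y)` -/
noncomputable def sg1 (y : ℝ) : ℝ := sg y / Real.sqrt (1 + y ^ 2)
/-- `σ''(y)` -/
noncomputable def sg2 (y : ℝ) : ℝ := 1 / Real.sqrt (1 + y ^ 2) ^ 3

lemma sg1_pos (y : ℝ) : 0 < sg1 y := div_pos (sg_pos y) (sqrt_pos' y)

lemma sg2_pos (y : ℝ) : 0 < sg2 y := by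
  have := sqrt_pos' y
  unfold sg2; positivity

lemma sg1_le (y : ℝ) : sg1 y ≤ 2 := by
  unfold sg1
  rw [div_le_iff₀ (sqrt_pos' y)]
  have h1 := abs_lt_sqrt y
  have h2 := le_abs_self y
  unfold sg; linarith

lemma sg2_le (y : ℝ) : sg2 y ≤ 2 * sg1 y := by
  have hs := sqrt_pos' y
  have h1 := one_le_sqrt y
  have h2 := sg_lower y
  unfold sg1 sg2
  set s := Real.sqrt (1 + y ^ 2) with hsd
  have e1 : 2 * (sg y / s) = (2 * sg y * s ^ 2) / s ^ 3 := by field_simp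
  rw [e1]
  apply div_le_div_of_nonneg_right _ (by positivity)
  have h3 := sg_pos y
  nlinarith [mul_pos h3 hs]

lemma continuous_sg1 : Continuous sg1 := by
  unfold sg1
  refine sg_cont.div (by fun_prop) fun y => (sqrt_pos' y).ne'

lemma hasDerivAt_s (y : ℝ) : HasDerivAt sg (sg1 y) y := hasDerivAt_sg y

lemma hasDerivAt_s1 (y : ℝ) : HasDerivAt sg1 (sg2 y) y := hasDerivAt_sg' y

/-- the forgetting function `C E (c0 + σ(x E))` -/
noncomputable def G (C c0 : ℝ) (E : ℝ → ℝ) (t x : ℝ) : ℝ := C * E t * (c0 + sg (x * E t))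

lemma G_x (C c0 : ℝ) (E : ℝ → ℝ) (t x : ℝ) :
    HasDerivAt (G C c0 E t) (C * E t ^ 2 * sg1 (x * E t)) x := by
  have h0 : HasDerivAt (fun y : ℝ => y * E t) (E t) x := by
    simpa using (hasDerivAt_id x).mul_const (E t)
  have h1 : HasDerivAt (fun y : ℝ => sg (y * E t)) (sg1 (x * E t) * E t) x :=
    (show HasDerivAt (sg ∘ fun y => y * E t) (sg1 (x * E t) * E t) x from
      HasDerivAt.comp (h₂ := sg) x (hasDerivAt_s (x * E t)) h0)
  have h2 := (h1.const_add c0).const_mul (C * E t)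
  refine h2.congr_deriv ?_
  ring

lemma G_xx (C : ℝ) (E : ℝ → ℝ) (t x : ℝ) :
    HasDerivAt (fun y => C * E t ^ 2 * sg1 (y * E t)) (C * E t ^ 3 * sg2 (x * E t)) x := by
  have h0 : HasDerivAt (fun y : ℝ => y * E t) (E t) x := by
    simpa using (hasDerivAt_id x).mul_const (E t)
  have h1 : HasDerivAt (fun y : ℝ => sg1 (y * E t)) (sg2 (x * E t) * E t) x :=
    (show HasDerivAt (sg1 ∘ fun y => y * E t) (sg2 (x * E t) * E t) x from
      HasDerivAt.comp (h₂ := sg1) x (hasDerivAt_s1 (x * E t)) h0)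
  have h2 := h1.const_mul (C * E t ^ 2)
  refine h2.congr_deriv ?_
  ring

lemma G_t (C c0 : ℝ) {E : ℝ → ℝ} {t e : ℝ} (hE : HasDerivWithinAt E (e * E t) (Iic t) t) (x : ℝ) :
    HasDerivWithinAt (fun s => G C c0 E s x)
      (C * e * E t * ((c0 + sg (x * E t)) + x * E t * sg1 (x * E t))) (Iic t) t := by
  have h0 : HasDerivWithinAt (fun s : ℝ => x * E s) (x * (e * E t)) (Iic t) t := hE.const_mul x
  have h1 : HasDerivWithinAt (fun s : ℝ => sg (x * E s)) (sg1 (x * E t) * (x * (e * E t))) (Iic t) t :=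
    (show HasDerivWithinAt (sg ∘ fun s => x * E s) (sg1 (x * E t) * (x * (e * E t))) (Iic t) t from
      HasDerivAt.comp_hasDerivWithinAt (h₂ := sg) t (hasDerivAt_s (x * E t)) h0)
  have h2 := (hE.const_mul C).mul (h1.const_add c0)
  refine h2.congr_deriv ?_
  ring

lemma G_cont (C c0 : ℝ) {E : ℝ → ℝ} {t0 t1 : ℝ} (hE : ContinuousOn E (Icc t0 t1)) :
    ContinuousOn (fun p : ℝ × ℝ => G C c0 E p.1 p.2) (strip t0 t1) := by
  have h1 : ContinuousOn (fun p : ℝ × ℝ => E p.1) (strip t0 t1) :=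
    hE.comp continuousOn_fst fun p hp => hp.1
  unfold G
  exact (continuousOn_const.mul h1).mul
    (continuousOn_const.add (sg_cont.comp_continuousOn (continuousOn_snd.mul h1)))

section

variable {t0 t1 : ℝ} {b E : ℝ → ℝ} {u V P Y Yx Yxx : ℝ → ℝ → ℝ} {M : ℝ}
  {S St Sx Sxx : ℝ → ℝ → ℝ} {L C c0 : ℝ}

lemma key_pos {a C c0 : ℝ} (hC : 0 < C) (hc : 1 ≤ C * c0) :
    0 ≤ C * (c0 + sg a) * sg1 a - sg2 a / 2 := by
  have h1 := sg1_pos a
  have h2 := sg_pos a
  have h3 := sg2_le a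
  have h4 : sg1 a ≤ C * (c0 + sg a) * sg1 a := by
    have : 1 ≤ C * (c0 + sg a) := by nlinarith [mul_pos hC h2]
    nlinarith
  linarith

/-- **Forgetting, upper side**: an upper barrier `S` plus `C E (c0 + σ(xE))`. -/
theorem Y_le_add (h : YSys t0 t1 b u V P Y Yx Yxx M) (hS : FBar t0 t1 S St Sx Sxx)
    (hEc : ContinuousOn E (Icc t0 t1)) (hEp : ∀ t ∈ Icc t0 t1, 0 < E t)
    (hEt : ∀ t ∈ Ioc t0 t1, HasDerivWithinAt E (b t * E t) (Iic t) t)
    (hC : 0 < C) (hc : 1 ≤ C * c0)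
    (hS0 : ∀ t ∈ Icc t0 t1, ∀ x, -(L * (1 + |x|)) ≤ S t x)
    (hSx : ∀ t ∈ Ioc t0 t1, ∀ x, -L ≤ Sx t x)
    (hineq : ∀ t ∈ Ioc t0 t1, ∀ x,
      Sxx t x / 2 - (S t x + b t * u t x) * Sx t x + b t * (1 - V t x) * S t x + b t * P t x ≤ St t x)
    (hpt : ∀ t ∈ Ioc t0 t1, ∀ x,
      0 ≤ b t * (V t x * (c0 + sg (x * E t)) + E t * (x + u t x) * sg1 (x * E t)) +
        E t * sg1 (x * E t) * S t x + (c0 + sg (x * E t)) * Sx t x)
    (hinit : ∀ x, Y t0 x ≤ S t0 x + G C c0 E t0 x) :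
    ∀ t ∈ Icc t0 t1, ∀ x, Y t x ≤ S t x + G C c0 E t x := by
  have hc0 : 0 < c0 := by
    by_contra hcon
    have : C * c0 ≤ 0 := mul_nonpos_of_nonneg_of_nonpos hC.le (not_lt.1 hcon)
    linarith
  have hG0 : ∀ t ∈ Icc t0 t1, ∀ x, 0 ≤ G C c0 E t x := fun t ht x => by
    have h1 := hEp t ht
    have h2 := sg_pos (x * E t)
    unfold G; positivity
  have hF : FBar t0 t1 (fun t x => S t x + G C c0 E t x)
      (fun t x => St t x + C * b t * E t * ((c0 + sg (x * E t)) + x * E t * sg1 (x * E t)))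
      (fun t x => Sx t x + C * E t ^ 2 * sg1 (x * E t))
      (fun t x => Sxx t x + C * E t ^ 3 * sg2 (x * E t)) :=
    { cS := hS.cS.add (G_cont C c0 hEc)
      hSt := fun t ht x => (hS.hSt t ht x).add (G_t C c0 (hEt t ht) x)
      hSx := fun t ht x => (hS.hSx t ht x).add (G_x C c0 E t x)
      hSxx := fun t ht x => by
        rcases hS.hSxx t ht x with h1 | h1
        · exact Or.inl (h1.add (G_xx C E t x).hasDerivWithinAt)
        · exact Or.inr (h1.add (G_xx C E t x).hasDerivWithinAt) }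
  refine Y_le_bar h hF (L := L) ?_ ?_ ?_ hinit
  · intro t ht x
    have := hS0 t ht x
    have := hG0 t ht x
    linarith
  · intro t ht x
    have h1 := hSx t ht x
    have h2 : 0 ≤ C * E t ^ 2 * sg1 (x * E t) := by
      have := sg1_pos (x * E t)
      positivity
    linarith
  · intro t ht x
    have htI : t ∈ Icc t0 t1 := ⟨ht.1.le, ht.2⟩
    have h1 := hineq t ht x
    have h2 := hpt t ht x
    have h3 := hEp t htI
    have h4 := key_pos (a := x * E t) hC hc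
    have h5 : 0 ≤ C * E t ^ 3 * (C * (c0 + sg (x * E t)) * sg1 (x * E t) - sg2 (x * E t) / 2) :=
      mul_nonneg (by positivity) h4
    have h6 := mul_nonneg (mul_pos hC h3).le h2
    unfold G
    nlinarith [h1, h5, h6]

/-- the mirror of `G`: `Q(t,x) = C E (c0 + σ(-xE))` -/
noncomputable def Q (C c0 : ℝ) (E : ℝ → ℝ) (t x : ℝ) : ℝ := C * E t * (c0 + sg (-(x * E t)))

lemma Q_eq (C c0 : ℝ) (E : ℝ → ℝ) (t x : ℝ) : Q C c0 E t x = G C c0 E t (-x) := by
  unfold Q G; rw [neg_mul]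

lemma Q_x (C c0 : ℝ) (E : ℝ → ℝ) (t x : ℝ) :
    HasDerivAt (Q C c0 E t) (-(C * E t ^ 2 * sg1 (-(x * E t)))) x := by
  have h1 : HasDerivAt (fun y : ℝ => -y) (-1) x := hasDerivAt_neg x
  have h2 := HasDerivAt.comp x (G_x C c0 E t (-x)) h1
  have h3 : (Q C c0 E t) = (G C c0 E t) ∘ (fun y => -y) := by
    funext y; exact Q_eq C c0 E t y
  rw [h3]
  refine h2.congr_deriv ?_
  rw [neg_mul]; ring

lemma Q_xx (C : ℝ) (E : ℝ → ℝ) (t x : ℝ) :
    HasDerivAt (fun y => -(C * E t ^ 2 * sg1 (-(y * E t)))) (C * E t ^ 3 * sg2 (-(x * E t))) x := by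
  have h1 : HasDerivAt (fun y : ℝ => -y) (-1) x := hasDerivAt_neg x
  have h2 := (HasDerivAt.comp x (G_xx C E t (-x)) h1).neg
  have h3 : (fun y => -(C * E t ^ 2 * sg1 (-(y * E t)))) =
      -((fun y => C * E t ^ 2 * sg1 (y * E t)) ∘ (fun y => -y)) := by
    funext y; simp only [Function.comp_apply, Pi.neg_apply, neg_mul]
  rw [h3]
  refine h2.congr_deriv ?_
  rw [neg_mul]; ring

lemma Q_t (C c0 : ℝ) {E : ℝ → ℝ} {t e : ℝ} (hE : HasDerivWithinAt E (e * E t) (Iic t) t) (x : ℝ) :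
    HasDerivWithinAt (fun s => Q C c0 E s x)
      (C * e * E t * ((c0 + sg (-(x * E t))) - x * E t * sg1 (-(x * E t)))) (Iic t) t := by
  have h1 := G_t C c0 hE (-x)
  have h3 : (fun s => Q C c0 E s x) = (fun s => G C c0 E s (-x)) := by
    funext y; exact Q_eq C c0 E y x
  rw [h3]
  refine h1.congr_deriv ?_
  rw [neg_mul]; ring

lemma Q_cont (C c0 : ℝ) {E : ℝ → ℝ} {t0 t1 : ℝ} (hE : ContinuousOn E (Icc t0 t1)) :
    ContinuousOn (fun p : ℝ × ℝ => Q C c0 E p.1 p.2) (strip t0 t1) := by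
  have h1 : ContinuousOn (fun p : ℝ × ℝ => E p.1) (strip t0 t1) :=
    hE.comp continuousOn_fst fun p hp => hp.1
  unfold Q
  exact (continuousOn_const.mul h1).mul
    (continuousOn_const.add (sg_cont.comp_continuousOn (continuousOn_snd.mul h1).neg))

/-- **Forgetting, lower side**: a lower barrier `S` minus `C E (c0 + σ(-xE))`. -/
theorem add_le_Y (h : YSys t0 t1 b u V P Y Yx Yxx M) (hS : FBar t0 t1 S St Sx Sxx)
    (hEc : ContinuousOn E (Icc t0 t1)) (hEp : ∀ t ∈ Icc t0 t1, 0 < E t)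
    (hEt : ∀ t ∈ Ioc t0 t1, HasDerivWithinAt E (b t * E t) (Iic t) t)
    (hC : 0 < C) (hc : 1 ≤ C * c0)
    (hS0 : ∀ t ∈ Icc t0 t1, ∀ x, S t x ≤ L * (1 + |x|))
    (hSx : ∀ t ∈ Ioc t0 t1, ∀ x, -L ≤ Sx t x)
    (hineq : ∀ t ∈ Ioc t0 t1, ∀ x,
      St t x ≤ Sxx t x / 2 - (S t x + b t * u t x) * Sx t x + b t * (1 - V t x) * S t x + b t * P t x)
    (hpt : ∀ t ∈ Ioc t0 t1, ∀ x,
      0 ≤ b t * (V t x * (c0 + sg (-(x * E t))) - E t * (x + u t x) * sg1 (-(x * E t))) -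
        E t * sg1 (-(x * E t)) * S t x + (c0 + sg (-(x * E t))) * Sx t x)
    (hinit : ∀ x, S t0 x - Q C c0 E t0 x ≤ Y t0 x) :
    ∀ t ∈ Icc t0 t1, ∀ x, S t x - Q C c0 E t x ≤ Y t x := by
  have hc0 : 0 < c0 := by
    by_contra hcon
    have : C * c0 ≤ 0 := mul_nonpos_of_nonneg_of_nonpos hC.le (not_lt.1 hcon)
    linarith
  have hG0 : ∀ t ∈ Icc t0 t1, ∀ x, 0 ≤ Q C c0 E t x := fun t ht x => by
    have h1 := hEp t ht
    have h2 := sg_pos (-(x * E t))
    unfold Q; positivity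
  have hF : FBar t0 t1 (fun t x => S t x - Q C c0 E t x)
      (fun t x => St t x -
        C * b t * E t * ((c0 + sg (-(x * E t))) - x * E t * sg1 (-(x * E t))))
      (fun t x => Sx t x - -(C * E t ^ 2 * sg1 (-(x * E t))))
      (fun t x => Sxx t x - C * E t ^ 3 * sg2 (-(x * E t))) :=
    { cS := hS.cS.sub (Q_cont C c0 hEc)
      hSt := fun t ht x => (hS.hSt t ht x).sub (Q_t C c0 (hEt t ht) x)
      hSx := fun t ht x => (hS.hSx t ht x).sub (Q_x C c0 E t x)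
      hSxx := fun t ht x => by
        rcases hS.hSxx t ht x with h1 | h1
        · exact Or.inl (h1.sub (Q_xx C E t x).hasDerivWithinAt)
        · exact Or.inr (h1.sub (Q_xx C E t x).hasDerivWithinAt) }
  refine bar_le_Y h hF (L := L) ?_ ?_ ?_ hinit
  · intro t ht x
    have := hS0 t ht x
    have := hG0 t ht x
    linarith
  · intro t ht x
    have h1 := hSx t ht x
    have h2 : 0 ≤ C * E t ^ 2 * sg1 (-(x * E t)) := by
      have := sg1_pos (-(x * E t))
      positivity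
    linarith
  · intro t ht x
    have htI : t ∈ Icc t0 t1 := ⟨ht.1.le, ht.2⟩
    have h1 := hineq t ht x
    have h2 := hpt t ht x
    have h3 := hEp t htI
    have h4 := key_pos (a := -(x * E t)) hC hc
    have h5 : 0 ≤ C * E t ^ 3 *
        (C * (c0 + sg (-(x * E t))) * sg1 (-(x * E t)) - sg2 (-(x * E t)) / 2) :=
      mul_nonneg (by positivity) h4
    have h6 := mul_nonneg (mul_pos hC h3).le h2
    unfold Q
    nlinarith [h1, h5, h6]

end

end Crest.Agent.R146.Flat_384
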