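import Crest.Agent.R146.Mills_384
import Crest.Agent.R146.Flat_384

/-!
A priori bounds of the backward system (row 146, helper384), `τ = 1 - t`, hypothesis `b τ ≤ 1` only:

* `u_le_hz`   : `u ≤ √τ hz(x/√τ)`;
* `U0_le_u`   : `√τ U0(x/√τ) ≤ u` (all `b ≥ 0`);
* `u_le_k`    : `u ≤ (√(x²+k) - x)/2` as soon as `k' ≤ -(1 + b k)` (all `b ≥ 0`; `k = χ = D K0` exactly);
* `V_zero_ge` : `V(t,0) ≥ 1/25`;
* `P_le_root` : `V_x ≤ √(V(1-V))/√τ`.
-/

set_option autoImplicit false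

open Set Filter Topology

namespace Crest.Agent.R146.Apri_384

open MaxP_371 MaxP2_371 MaxPCmp_371 MaxPCmp2_371 Pos_371 Mills_384 StepStart_483 StepDef_791

noncomputable section

lemma sqrt_tau_deriv {t : ℝ} (ht : t < 1) :
    HasDerivAt (fun s : ℝ => √(1 - s)) (-(1 / (2 * √(1 - t)))) t := by
  have h1 : HasDerivAt (fun s : ℝ => 1 - s) (-1) t := by
    simpa using (hasDerivAt_id t).const_sub 1
  have h2 := h1.sqrt (by linarith)
  refine h2.congr_deriv ?_
  ring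

lemma sqrt_tau_pos {t : ℝ} (ht : t < 1) : 0 < √(1 - t) := Real.sqrt_pos.2 (by linarith)

/-- scaled barrier `√τ f(x/√τ)` -/
lemma bar_scale {t0 t1 : ℝ} (ht1 : t1 < 1) {f f1 f2 : ℝ → ℝ} (hf : ∀ z, HasDerivAt f (f1 z) z)
    (hf1 : ∀ z, HasDerivAt f1 (f2 z) z) :
    Bar t0 t1 (fun t x => √(1 - t) * f (x / √(1 - t)))
      (fun t x => -((f (x / √(1 - t)) - x / √(1 - t) * f1 (x / √(1 - t))) / (2 * √(1 - t))))
      (fun t x => f1 (x / √(1 - t))) (fun t x => f2 (x / √(1 - t)) / √(1 - t)) := by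
  have hfc : Continuous f := continuous_iff_continuousAt.2 fun z => (hf z).continuousAt
  constructor
  · have h1 : ContinuousOn (fun p : ℝ × ℝ => √(1 - p.1)) (strip t0 t1) := by fun_prop
    have h2 : ContinuousOn (fun p : ℝ × ℝ => p.2 / √(1 - p.1)) (strip t0 t1) :=
      continuousOn_snd.div h1 fun p hp => (sqrt_tau_pos (hp.1.2.trans_lt ht1)).ne'
    exact h1.mul (hfc.comp_continuousOn h2)
  · intro t ht x
    have htl : t < 1 := ht.2.trans ht1
    have hs := sqrt_tau_pos htl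
    have h1 := sqrt_tau_deriv htl
    have h2 : HasDerivAt (fun s : ℝ => x / √(1 - s))
        ((0 * √(1 - t) - x * (-(1 / (2 * √(1 - t))))) / √(1 - t) ^ 2) t :=
      (hasDerivAt_const t x).div h1 hs.ne'
    have h3 : HasDerivAt (f ∘ fun s : ℝ => x / √(1 - s))
        (f1 (x / √(1 - t)) * ((0 * √(1 - t) - x * (-(1 / (2 * √(1 - t))))) / √(1 - t) ^ 2)) t :=
      HasDerivAt.comp (h₂ := f) t (hf _) h2
    have h4 := h1.mul h3
    refine (h4.congr_deriv ?_).hasDerivWithinAt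
    simp only [Function.comp_apply]
    have hs' := hs.ne'
    field_simp
    ring
  · intro t ht x
    have hs := sqrt_tau_pos (ht.2.trans ht1)
    have h2 : HasDerivAt (fun y : ℝ => y / √(1 - t)) (1 / √(1 - t)) x :=
      (hasDerivAt_id x).div_const _
    have h3 : HasDerivAt (f ∘ fun y : ℝ => y / √(1 - t)) (f1 (x / √(1 - t)) * (1 / √(1 - t))) x :=
      HasDerivAt.comp (h₂ := f) x (hf _) h2
    refine (h3.const_mul (√(1 - t))).congr_deriv ?_
    have hs' := hs.ne'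
    field_simp
  · intro t ht x
    have hs := sqrt_tau_pos (ht.2.trans ht1)
    have h2 : HasDerivAt (fun y : ℝ => y / √(1 - t)) (1 / √(1 - t)) x :=
      (hasDerivAt_id x).div_const _
    have h3 : HasDerivAt (f1 ∘ fun y : ℝ => y / √(1 - t)) (f2 (x / √(1 - t)) * (1 / √(1 - t))) x :=
      HasDerivAt.comp (h₂ := f1) x (hf1 _) h2
    exact HasSide.of_hasDerivAt (h3.congr_deriv (by ring))

section

variable {t0 t1 : ℝ} {b : ℝ → ℝ} {u V P Px Pxx : ℝ → ℝ → ℝ} {M : ℝ}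

/-- `u ≤ √τ h(x/√τ)` for `b τ ≤ 1`. -/
theorem u_le_hz (h : BSys t0 t1 b u V P Px Pxx M) (h0 : 0 ≤ t0) (ht1 : t1 < 1)
    (hb : ∀ t ∈ Ico t0 t1, b t * (1 - t) ≤ 1)
    (hterm : ∀ x, u t1 x ≤ √(1 - t1) * hz (x / √(1 - t1))) :
    ∀ t ∈ Icc t0 t1, ∀ x, u t x ≤ √(1 - t) * hz (x / √(1 - t)) := by
  refine u_le_bar h (bar_scale ht1 hz_deriv hz1_deriv) (L := 1) ?_ ?_ hterm
  · intro t ht x
    have hs := sqrt_tau_pos (ht.2.trans_lt ht1)
    have hs1 : √(1 - t) ≤ 1 := by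
      have := Real.sqrt_le_sqrt (show 1 - t ≤ 1 by linarith [ht.1])
      rwa [Real.sqrt_one] at this
    have h1 := hz_pos (x / √(1 - t))
    have h2 := hz_le (x / √(1 - t))
    rw [abs_of_nonneg (by positivity), one_mul]
    calc √(1 - t) * hz (x / √(1 - t)) ≤ √(1 - t) * (1 + |x / √(1 - t)|) :=
          mul_le_mul_of_nonneg_left h2 hs.le
      _ = √(1 - t) + |x| := by
          rw [abs_div, abs_of_pos hs]
          field_simp
      _ ≤ 1 + |x| := by linarith
  · intro t ht x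
    have htl : t < 1 := ht.2.trans ht1
    have hs := sqrt_tau_pos htl
    have hs2 : √(1 - t) ^ 2 = 1 - t := Real.sq_sqrt (by linarith)
    set s := √(1 - t) with hsd
    set z := x / s with hzd
    have h1 := hz_eq z
    have h2 : 0 ≤ hz z * (1 + hz1 z) := mul_nonneg (hz_pos z).le (one_add_hz1 z)
    have h3 : b t * s ≤ 1 / s := by
      rw [le_div_iff₀ hs]
      have := hb t ht
      rw [← hs2] at this
      nlinarith
    have h4 : b t * s * (hz z * (1 + hz1 z)) ≤ 1 / s * (hz z * (1 + hz1 z)) :=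
      mul_le_mul_of_nonneg_right h3 h2
    have e : -((hz z - z * hz1 z) / (2 * s)) + hz2 z / s / 2 + 1 / s * (hz z * (1 + hz1 z)) =
        (-hz z + z * hz1 z + hz2 z + 2 * hz z * (1 + hz1 z)) / (2 * s) := by
      field_simp
      ring
    rw [h1, zero_div] at e
    nlinarith

/-- `√τ U0(x/√τ) ≤ u`, all `b ≥ 0`. -/
theorem U0_le_u (h : BSys t0 t1 b u V P Px Pxx M) (h0 : 0 ≤ t0) (ht1 : t1 < 1)
    (hterm : ∀ x, √(1 - t1) * U0 (x / √(1 - t1)) ≤ u t1 x) :
    ∀ t ∈ Icc t0 t1, ∀ x, √(1 - t) * U0 (x / √(1 - t)) ≤ u t x := by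
  have hd : ∀ z, HasDerivAt (fun z => Phi z - 1) (ph z) z := fun z => (Phi_deriv z).sub_const 1
  refine bar_le_u h (bar_scale ht1 U0_deriv hd) (L := 1) ?_ ?_ hterm
  · intro t ht x
    have hs := sqrt_tau_pos (ht.2.trans_lt ht1)
    have hs1 : √(1 - t) ≤ 1 := by
      have := Real.sqrt_le_sqrt (show 1 - t ≤ 1 by linarith [ht.1])
      rwa [Real.sqrt_one] at this
    have h1 := U0_pos (x / √(1 - t))
    have h2 := U0_le (x / √(1 - t))
    rw [abs_of_nonneg (by positivity), one_mul]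
    calc √(1 - t) * U0 (x / √(1 - t)) ≤ √(1 - t) * (1 + |x / √(1 - t)|) :=
          mul_le_mul_of_nonneg_left h2 hs.le
      _ = √(1 - t) + |x| := by
          rw [abs_div, abs_of_pos hs]
          field_simp
      _ ≤ 1 + |x| := by linarith
  · intro t ht x
    have htl : t < 1 := ht.2.trans ht1
    have hs := sqrt_tau_pos htl
    have hbn := h.b_nonneg t ⟨ht.1, ht.2.le⟩
    have hU := U0_pos (x / √(1 - t))
    have hP := Phi_pos (x / √(1 - t))
    have h2 : 0 ≤ b t * (√(1 - t) * U0 (x / √(1 - t))) * (1 + (Phi (x / √(1 - t)) - 1)) := by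
      have : 1 + (Phi (x / √(1 - t)) - 1) = Phi (x / √(1 - t)) := by ring
      rw [this]; positivity
    have e : -((U0 (x / √(1 - t)) - x / √(1 - t) * (Phi (x / √(1 - t)) - 1)) / (2 * √(1 - t))) +
        ph (x / √(1 - t)) / √(1 - t) / 2 = 0 := by
      rw [U0_eq]
      field_simp
      ring
    linarith

/-- `u ≤ (√(x²+k) - x)/2` as soon as `k > 0`, `k' ≤ -(1 + b k)`; all `b ≥ 0`. -/
theorem u_le_k (h : BSys t0 t1 b u V P Px Pxx M) {k k' : ℝ → ℝ} {L : ℝ}
    (hkc : ContinuousOn k (Icc t0 t1)) (hkp : ∀ t ∈ Icc t0 t1, 0 < k t)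
    (hkL : ∀ t ∈ Icc t0 t1, √(k t) ≤ L) (hL : 1 ≤ L)
    (hk : ∀ t ∈ Ico t0 t1, HasDerivWithinAt k (k' t) (Ici t) t)
    (hk' : ∀ t ∈ Ico t0 t1, k' t ≤ -(1 + b t * k t))
    (hterm : ∀ x, u t1 x ≤ (√(x ^ 2 + k t1) - x) / 2) :
    ∀ t ∈ Icc t0 t1, ∀ x, u t x ≤ (√(x ^ 2 + k t) - x) / 2 := by
  have hsp : ∀ t ∈ Icc t0 t1, ∀ x : ℝ, 0 < √(x ^ 2 + k t) := fun t ht x =>
    Real.sqrt_pos.2 (by have := hkp t ht; positivity)
  have hbar : Bar t0 t1 (fun t x => (√(x ^ 2 + k t) - x) / 2)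
      (fun t x => k' t / (4 * √(x ^ 2 + k t)))
      (fun t x => (x / √(x ^ 2 + k t) - 1) / 2)
      (fun t x => k t / (2 * √(x ^ 2 + k t) ^ 3)) := by
    constructor
    · have h1 : ContinuousOn (fun p : ℝ × ℝ => k p.1) (strip t0 t1) :=
        hkc.comp continuousOn_fst fun p hp => hp.1
      exact (((continuousOn_snd.pow 2).add h1).sqrt.sub continuousOn_snd).div_const 2
    · intro t ht x
      have hp := hsp t ⟨ht.1, ht.2.le⟩ x
      have hkp' := hkp t ⟨ht.1, ht.2.le⟩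
      have h1 := ((hk t ht).const_add (x ^ 2)).sqrt (by positivity)
      refine ((h1.sub_const x).div_const 2).congr_deriv ?_
      field_simp
      norm_num
    · intro t ht x
      have hp := hsp t ⟨ht.1, ht.2.le⟩ x
      have hkp' := hkp t ⟨ht.1, ht.2.le⟩
      have h0 : HasDerivAt (fun y : ℝ => y ^ 2 + k t) (2 * x) x := by
        simpa using (hasDerivAt_pow 2 x).add_const (k t)
      have h1 := h0.sqrt (by positivity)
      refine ((h1.sub (hasDerivAt_id x)).div_const 2).congr_deriv ?_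
      field_simp
    · intro t ht x
      have hp := hsp t ⟨ht.1, ht.2.le⟩ x
      have hkp' := hkp t ⟨ht.1, ht.2.le⟩
      have hsq : √(x ^ 2 + k t) ^ 2 = x ^ 2 + k t := Real.sq_sqrt (by positivity)
      have h0 : HasDerivAt (fun y : ℝ => y ^ 2 + k t) (2 * x) x := by
        simpa using (hasDerivAt_pow 2 x).add_const (k t)
      have h1 := h0.sqrt (by positivity)
      have h2 := (hasDerivAt_id x).div h1 hp.ne'
      refine HasSide.of_hasDerivAt (((h2.sub_const 1).div_const 2).congr_deriv ?_)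
      simp only [id]
      field_simp
      rw [hsq]
      ring
  refine u_le_bar h hbar (L := L) ?_ ?_ hterm
  · intro t ht x
    have hk0 := hkp t ht
    have h1 : |x| ≤ √(x ^ 2 + k t) := by
      rw [← Real.sqrt_sq_eq_abs]
      exact Real.sqrt_le_sqrt (by linarith)
    have h2 : √(x ^ 2 + k t) ≤ |x| + √(k t) := by
      rw [Real.sqrt_le_left (by positivity)]
      have h3 := Real.sq_sqrt hk0.le
      have h4 := mul_nonneg (abs_nonneg x) (Real.sqrt_nonneg (k t))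
      nlinarith [sq_abs x]
    have h3 := le_abs_self x
    have h4 := neg_abs_le x
    have h5 := hkL t ht
    have h6 := abs_nonneg x
    rw [abs_of_nonneg (by linarith)]
    nlinarith
  · intro t ht x
    have htI : t ∈ Icc t0 t1 := ⟨ht.1, ht.2.le⟩
    have hp := hsp t htI x
    have hk0 := hkp t htI
    have hb0 := h.b_nonneg t htI
    have hk1 := hk' t ht
    have hsq : √(x ^ 2 + k t) ^ 2 = x ^ 2 + k t := Real.sq_sqrt (by positivity)
    set s := √(x ^ 2 + k t) with hs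
    have e : k' t / (4 * s) + k t / (2 * s ^ 3) / 2 +
        b t * ((s - x) / 2) * (1 + (x / s - 1) / 2) =
        (k' t + k t / s ^ 2 + b t * (s ^ 2 - x ^ 2)) / (4 * s) := by
      field_simp
      ring
    rw [e]
    apply div_nonpos_of_nonpos_of_nonneg _ (by positivity)
    have h1 : k t / s ^ 2 ≤ 1 := by
      rw [div_le_one (by positivity), hsq]
      nlinarith [sq_nonneg x]
    have h2 : b t * (s ^ 2 - x ^ 2) = b t * k t := by rw [hsq]; ring
    linarith

/-- `w(t,0) - w(t,-a) ≤ a V(t,0)` -/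
lemma w_conv (h : BSys t0 t1 b u V P Px Pxx M) {t : ℝ} (ht : t ∈ Ico t0 t1) {a : ℝ} (ha : 0 ≤ a) :
    u t 0 - (u t (-a) - a) ≤ V t 0 * a := by
  have hd : ∀ x, HasDerivAt (fun x => x + u t x) (V t x) x := fun x => by
    have := (hasDerivAt_id x).add (h.hux t ht x)
    exact this.congr_deriv (by ring)
  have h1 := (convex_Iic (0:ℝ)).image_sub_le_mul_sub_of_deriv_le (f := fun x => x + u t x)
    (C := V t 0) (fun x _ => (hd x).continuousAt.continuousWithinAt)
    (fun x _ => (hd x).differentiableAt.differentiableWithinAt) (fun x hx => by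
      rw [(hd x).deriv]
      rw [interior_Iic] at hx
      exact h.mono ht hx.le) (-a) (show -a ≤ 0 by linarith) 0 (le_refl (0:ℝ)) (by linarith)
  linarith

/-- `V(t,0) ≥ 1/25`, from the two bounds of `u`. -/
theorem V_zero_ge (h : BSys t0 t1 b u V P Px Pxx M) {t : ℝ} (ht : t ∈ Ico t0 t1) (ht1 : t < 1)
    (hup : ∀ x, u t x ≤ √(1 - t) * hz (x / √(1 - t)))
    (hlo : ∀ x, √(1 - t) * U0 (x / √(1 - t)) ≤ u t x) : 1 / 25 ≤ V t 0 := by
  have hs := sqrt_tau_pos ht1
  have h1 := w_conv h ht (a := 5 * √(1 - t)) (by positivity)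
  have h2 := hlo 0
  have h3 := hup (-(5 * √(1 - t)))
  have e1 : -(5 * √(1 - t)) / √(1 - t) = -5 := by field_simp
  have e2 : (0:ℝ) / √(1 - t) = 0 := zero_div _
  rw [e1] at h3
  rw [e2] at h2
  have h4 : U0 0 = ph 0 := by rw [U0_eq]; ring
  have h5 := ph_zero_ge
  have h6 := hz_neg5
  rw [h4] at h2
  have h7 : √(1 - t) * 0.398 ≤ √(1 - t) * ph 0 := mul_le_mul_of_nonneg_left h5 hs.le
  have h8 : √(1 - t) * hz (-5) ≤ √(1 - t) * 5.195 := mul_le_mul_of_nonneg_left h6 hs.le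
  have h9 : √(1 - t) * 0.203 ≤ V t 0 * (5 * √(1 - t)) := by linarith
  have h10 : √(1 - t) * (0.203 - 5 * V t 0) ≤ 0 := by linarith
  have h11 : 0.203 - 5 * V t 0 ≤ 0 := by
    by_contra hcon
    push Not at hcon
    have := mul_pos hs hcon
    linarith
  norm_num at h11 ⊢
  linarith

/-- **`V_x ≤ √(V(1-V))/√τ`** for `b τ ≤ 1`. -/
theorem P_le_root (h : BSys t0 t1 b u V P Px Pxx M) (ht1 : t1 < 1)
    (hb : ∀ t ∈ Ico t0 t1, b t * (1 - t) ≤ 1)
    (hterm : ∀ x, P t1 x ≤ (√(1 - t1))⁻¹ * √(V t1 x * (1 - V t1 x))) :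
    ∀ t ∈ Icc t0 t1, ∀ x, P t x ≤ (√(1 - t))⁻¹ * √(V t x * (1 - V t x)) := by
  have hq : ∀ v ∈ Ioo (0:ℝ) 1, 0 < v * (1 - v) := fun v hv => mul_pos hv.1 (by linarith [hv.2])
  have hKp : ∀ v ∈ Ioo (0:ℝ) 1, 0 < √(v * (1 - v)) := fun v hv => Real.sqrt_pos.2 (hq v hv)
  have hK : ∀ v ∈ Ioo (0:ℝ) 1, HasDerivAt (fun v => √(v * (1 - v)))
      ((1 - 2 * v) / (2 * √(v * (1 - v)))) v := by
    intro v hv
    have h1 : HasDerivAt (fun v : ℝ => v * (1 - v)) (1 - 2 * v) v := by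
      have := (hasDerivAt_id v).mul ((hasDerivAt_id v).const_sub 1)
      refine this.congr_deriv ?_
      simp only [id]; ring
    exact h1.sqrt (hq v hv).ne'
  have hK' : ∀ v ∈ Ioo (0:ℝ) 1, HasDerivAt (fun v => (1 - 2 * v) / (2 * √(v * (1 - v))))
      (-(1 / (4 * √(v * (1 - v)) ^ 3))) v := by
    intro v hv
    have hk := hKp v hv
    have hsq : √(v * (1 - v)) ^ 2 = v * (1 - v) := Real.sq_sqrt (hq v hv).le
    have h1 : HasDerivAt (fun v : ℝ => 1 - 2 * v) (-2) v := by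
      have := ((hasDerivAt_id v).const_mul 2).const_sub 1
      refine this.congr_deriv ?_
      simp
    have h2 := h1.div ((hK v hv).const_mul 2) (by positivity)
    refine h2.congr_deriv ?_
    field_simp
    rw [hsq]
    ring
  refine h.slope_le (g := fun t => (√(1 - t))⁻¹) (g' := fun t => 1 / (2 * √(1 - t) ^ 3)) ?_ ?_ ?_
    (K := fun v => √(v * (1 - v))) (K' := fun v => (1 - 2 * v) / (2 * √(v * (1 - v))))
    (K'' := fun v => -(1 / (4 * √(v * (1 - v)) ^ 3))) ?_ ?_ hK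
    (fun v hv => HasSide.of_hasDerivAt (hK' v hv)) ?_ ?_ hterm
  · intro t ht
    have htl : t < 1 := ht.2.trans ht1
    have hs := sqrt_tau_pos htl
    have h1 := (sqrt_tau_deriv htl).inv hs.ne'
    refine (h1.congr_deriv ?_).hasDerivWithinAt
    field_simp
  · exact ContinuousOn.inv₀ (by fun_prop) fun t ht => (sqrt_tau_pos (ht.2.trans_lt ht1)).ne'
  · intro t ht
    have := sqrt_tau_pos (ht.2.trans_lt ht1)
    positivity
  · fun_prop
  · intro v hv; exact (hKp v hv).le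
  · intro v hv
    have := hKp v hv
    have : 0 ≤ 1 / (4 * √(v * (1 - v)) ^ 3) := by positivity
    linarith
  · intro t ht v hv
    have htl : t < 1 := ht.2.trans ht1
    have hs := sqrt_tau_pos htl
    have hs2 : √(1 - t) ^ 2 = 1 - t := Real.sq_sqrt (by linarith)
    have hk := hKp v hv
    have hsq : √(v * (1 - v)) ^ 2 = v * (1 - v) := Real.sq_sqrt (hq v hv).le
    have hb1 := hb t ht
    have hb0 := h.b_nonneg t ⟨ht.1, ht.2.le⟩
    set s := √(1 - t) with hsd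
    set K := √(v * (1 - v)) with hKd
    set β := b t * (1 - t) with hβ
    have hβ0 : 0 ≤ β := mul_nonneg hb0 (by linarith)
    have hbt : b t = β / s ^ 2 := by
      rw [hβ, hs2]
      have : (1 - t) ≠ 0 := by linarith
      field_simp
    have e : 1 / (2 * s ^ 3) * K + (s⁻¹) ^ 3 * (K ^ 2 * -(1 / (4 * K ^ 3))) / 2
        + b t * s⁻¹ * (v * (1 - v) * ((1 - 2 * v) / (2 * K)) - (2 - 3 * v) * K) =
        (K ^ 2 / 2 - 1 / 8 + β * (v * (1 - v) * (1 - 2 * v) / 2 - (2 - 3 * v) * K ^ 2)) /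
          (s ^ 3 * K) := by
      rw [hbt]
      field_simp
      ring
    rw [e, hsq]
    apply div_nonpos_of_nonpos_of_nonneg _ (by positivity)
    -- affine in β
    have f0 : v * (1 - v) / 2 - 1 / 8 ≤ 0 := by nlinarith [sq_nonneg (v - 1 / 2)]
    have f1 : v * (1 - v) / 2 - 1 / 8 +
        (v * (1 - v) * (1 - 2 * v) / 2 - (2 - 3 * v) * (v * (1 - v))) ≤ 0 := by
      have hv1 := hv.1
      have hv2 := hv.2
      have e2 : v * (1 - v) / 2 - 1 / 8 +
        (v * (1 - v) * (1 - 2 * v) / 2 - (2 - 3 * v) * (v * (1 - v))) =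
        v * (1 - v) * (2 * v - 1) - 1 / 8 := by ring
      rw [e2]
      nlinarith [mul_nonneg hv1.le (sq_nonneg (v - 4 / 5)), sq_nonneg (v - 4 / 5),
        mul_nonneg (sub_nonneg.2 hv2.le) (sq_nonneg (v - 4 / 5))]
    nlinarith

end

end

end Crest.Agent.R146.Apri_384
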