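import Crest.Agent.R146.PressC_663

/-!
# R146, helper663: assembly lemma for S0206, part P

`V` is bounded below, the infimum over profiles is a real number, and the exact conclusion of
S0206 follows from the upper bound for every profile and the lower bound `liminf ≥ inf`.
-/

set_option autoImplicit false

open MeasureTheory ProbabilityTheory Filter Topology
open scoped ENNReal
open Crest.ProbabilityR.Perceptron

namespace Crest.Agent.R146.AsmP_663

variable {Ω : Type*} [MeasurableSpace Ω]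

theorem payoff_le {P : Measure Ω} [IsProbabilityMeasure P] (B : NNReal → Ω → ℝ) {f : ℝ → ℝ}
    {K : ℝ} (hK : ∀ x, |f x| ≤ K) (m : OverlapProfile) (v : NNReal → Ω → ℝ) :
    controlPayoff P B f m v ≤ K := by
  unfold controlPayoff
  have h1 : (∫ ω, f (B 1 ω + ∫ t in (0 : ℝ)..1, m.toFun t * v (Real.toNNReal t) ω) ∂P) ≤ K := by
    refine (le_abs_self _).trans ?_
    rw [← Real.norm_eq_abs]
    have := norm_integral_le_of_norm_le_const (μ := P) (C := K)
      (f := fun ω => f (B 1 ω + ∫ t in (0 : ℝ)..1, m.toFun t * v (Real.toNNReal t) ω))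
      (Eventually.of_forall fun ω => by rw [Real.norm_eq_abs]; exact hK _)
    simpa using this
  have h2 : 0 ≤ (controlCost P m v).toReal / 2 := by positivity
  linarith

theorem bddAbove_payoffs {P : Measure Ω} [IsProbabilityMeasure P] (B : NNReal → Ω → ℝ)
    (hB : ∀ t, Measurable (B t)) {f : ℝ → ℝ} {K : ℝ} (hK : ∀ x, |f x| ≤ K) (m : OverlapProfile) :
    BddAbove {x : ℝ | ∃ v : NNReal → Ω → ℝ, IsAdmissibleControl P B hB m v ∧
      x = controlPayoff P B f m v} := by
  refine ⟨K, ?_⟩
  rintro x ⟨v, _, rfl⟩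
  exact payoff_le B hK m v

theorem zero_admissible {P : Measure Ω} (B : NNReal → Ω → ℝ)
    (hB : ∀ t, Measurable (B t)) (m : OverlapProfile) :
    IsAdmissibleControl P B hB m (fun _ _ => 0) := by
  refine ⟨fun i => measurable_const, ?_⟩
  unfold controlCost
  simp

theorem zero_payoff {P : Measure Ω} (B : NNReal → Ω → ℝ) (f : ℝ → ℝ) (m : OverlapProfile) :
    controlPayoff P B f m (fun _ _ => 0) = ∫ ω, f (B 1 ω) ∂P := by
  unfold controlPayoff controlCost
  simp

theorem controlValue_le {P : Measure Ω} [IsProbabilityMeasure P] (B : NNReal → Ω → ℝ)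
    (hB : ∀ t, Measurable (B t)) {f : ℝ → ℝ} {K : ℝ} (hK : ∀ x, |f x| ≤ K) (m : OverlapProfile) :
    controlValue P B hB f m ≤ K := by
  unfold controlValue
  refine csSup_le ⟨_, _, zero_admissible B hB m, rfl⟩ ?_
  rintro x ⟨v, _, rfl⟩
  exact payoff_le B hK m v

theorem neg_le_controlValue {P : Measure Ω} [IsProbabilityMeasure P] (B : NNReal → Ω → ℝ)
    (hB : ∀ t, Measurable (B t)) {f : ℝ → ℝ} {K : ℝ} (hK : ∀ x, |f x| ≤ K) (m : OverlapProfile) :
    -K ≤ controlValue P B hB f m := by
  unfold controlValue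
  refine le_trans ?_ (le_csSup (bddAbove_payoffs B hB hK m) ⟨_, zero_admissible B hB m, rfl⟩)
  rw [zero_payoff]
  have := norm_integral_le_of_norm_le_const (μ := P) (C := K)
      (f := fun ω => f (B 1 ω)) (Eventually.of_forall fun ω => by rw [Real.norm_eq_abs]; exact hK _)
  rw [Real.norm_eq_abs] at this
  simp only [probReal_univ, mul_one] at this
  exact neg_le_of_abs_le this

/-- the constant profile `1` -/
def oneProf : OverlapProfile where
  toFun := fun _ => 1
  mono := fun _ _ _ => le_rfl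
  nonneg := fun _ _ => zero_le_one
  le_one := fun _ _ => le_rfl

theorem entropy_oneProf : oneProf.entropy = 0 := by
  unfold OverlapProfile.entropy
  have h : ∀ t : ℝ, oneProf.tail t = 1 - t := by
    intro t
    unfold OverlapProfile.tail oneProf
    simp
  simp [h]

/-- real form of the infimum: `p` is the infimum over profiles with finite entropy -/
theorem iInf_eq_coe {V : OverlapProfile → ℝ} {C : ℝ} (hV : ∀ m, -C ≤ V m) :
    ∃ p : ℝ, ⨅ m : OverlapProfile, ((V m : ℝ) : EReal) + (m.entropy : EReal) = (p : EReal) ∧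
      (∀ m : OverlapProfile, m.entropy ≠ ⊤ → p ≤ V m + m.entropy.toReal) ∧
      (∀ ε : ℝ, 0 < ε → ∃ m : OverlapProfile, m.entropy ≠ ⊤ ∧ V m + m.entropy.toReal < p + ε) := by
  set F : OverlapProfile → EReal := fun m => ((V m : ℝ) : EReal) + (m.entropy : EReal) with hF
  have hfin : ∀ m : OverlapProfile, m.entropy ≠ ⊤ →
      F m = ((V m + m.entropy.toReal : ℝ) : EReal) := by
    intro m hm
    have h1 : (m.entropy : EReal) = ((m.entropy.toReal : ℝ) : EReal) := by
      conv_lhs => rw [← ENNReal.ofReal_toReal hm, EReal.coe_ennreal_ofReal,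
        max_eq_left ENNReal.toReal_nonneg]
    simp only [hF]
    rw [h1, EReal.coe_add]
  have htop : ∀ m : OverlapProfile, m.entropy = ⊤ → F m = ⊤ := by
    intro m hm
    simp only [hF, hm]
    rw [EReal.coe_ennreal_top, EReal.coe_add_top]
  set T : Set ℝ := {x | ∃ m : OverlapProfile, m.entropy ≠ ⊤ ∧ x = V m + m.entropy.toReal} with hT
  have hTn : T.Nonempty := ⟨_, oneProf, by rw [entropy_oneProf]; exact ENNReal.zero_ne_top, rfl⟩
  have hTb : BddBelow T := by
    refine ⟨-C, ?_⟩
    rintro x ⟨m, _, rfl⟩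
    have := hV m
    have h2 : 0 ≤ m.entropy.toReal := ENNReal.toReal_nonneg
    linarith
  have hle : ∀ m : OverlapProfile, m.entropy ≠ ⊤ → sInf T ≤ V m + m.entropy.toReal :=
    fun m hm => csInf_le hTb ⟨m, hm, rfl⟩
  have hex : ∀ ε : ℝ, 0 < ε → ∃ m : OverlapProfile, m.entropy ≠ ⊤ ∧
      V m + m.entropy.toReal < sInf T + ε := by
    intro ε hε
    obtain ⟨x, ⟨m, hm, rfl⟩, hx⟩ := exists_lt_of_csInf_lt hTn (lt_add_of_pos_right (sInf T) hε)
    exact ⟨m, hm, hx⟩
  refine ⟨sInf T, ?_, hle, hex⟩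
  apply le_antisymm
  · rw [← EReal.le_of_forall_lt_iff_le]
    intro z hz
    have hz' : sInf T < z := EReal.coe_lt_coe_iff.1 hz
    obtain ⟨m, hm, hx⟩ := hex (z - sInf T) (by linarith)
    refine (iInf_le F m).trans ?_
    rw [hfin m hm]
    exact EReal.coe_le_coe_iff.2 (by linarith)
  · refine le_iInf fun m => ?_
    by_cases hm : m.entropy = ⊤
    · rw [htop m hm]; exact le_top
    · rw [hfin m hm]; exact EReal.coe_le_coe_iff.2 (hle m hm)

/-- **(P)** assembly: upper bound for every profile and lower bound give the exact conclusion of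
S0206 -/
theorem S0206_of_bounds {P : Measure Ω} [IsProbabilityMeasure P]
    (B : NNReal → Ω → ℝ) (hBm : ∀ t, Measurable (B t))
    (α β : ℝ) (hα : 0 < α)
    (φ : ℝ → ℝ) (hφc : Continuous φ) (hφb : ∃ K : ℝ, ∀ x, abs (φ x) ≤ K)
    (hUB : ∀ m : OverlapProfile, m.entropy ≠ ⊤ → ∀ ε : ℝ, 0 < ε → ∀ᶠ N : ℕ in atTop,
      expectedPressure N α β φ ≤
        α * controlValue P B hBm (fun x => β * φ x) m + m.entropy.toReal + ε)
    (hLB : ∀ ε : ℝ, 0 < ε → ∀ᶠ N : ℕ in atTop, ∃ m : OverlapProfile, m.entropy ≠ ⊤ ∧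
      α * controlValue P B hBm (fun x => β * φ x) m + m.entropy.toReal ≤
        expectedPressure N α β φ + ε) :
    ∃ p : ℝ,
      ⨅ m : OverlapProfile, variationalFunctional P B hBm α β φ m = (p : EReal) ∧
      Filter.Tendsto (fun N : ℕ => expectedPressure N α β φ) Filter.atTop (nhds p) ∧
      ∀ ε : ℝ, 0 < ε →
        Filter.Tendsto (fun N : ℕ => pressureTailProb N α β φ p ε) Filter.atTop (nhds 0) := by
  obtain ⟨K, hK⟩ := hφb
  have hK' : ∀ x, |β * φ x| ≤ |β| * K := fun x => PressC_663.abs_mul_le hK x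
  obtain ⟨p, hp, hle, hex⟩ := iInf_eq_coe
    (V := fun m => α * controlValue P B hBm (fun x => β * φ x) m) (C := α * (|β| * K))
    (fun m => by
      have := neg_le_controlValue (P := P) B hBm hK' m
      nlinarith)
  have hT : Tendsto (fun N : ℕ => expectedPressure N α β φ) atTop (𝓝 p) := by
    rw [Metric.tendsto_atTop']
    intro ε hε
    obtain ⟨m, hm, hx⟩ := hex (ε / 2) (by positivity)
    have h1 := hUB m hm (ε / 4) (by positivity)
    have h2 := hLB (ε / 2) (by positivity)
    obtain ⟨n, hn⟩ := (eventually_atTop.1 (h1.and h2))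
    refine ⟨n, fun N hN => ?_⟩
    obtain ⟨h3, m', hm', h4⟩ := hn N hN.le
    have h5 := hle m' hm'
    rw [Real.dist_eq, abs_lt]
    constructor
    · linarith
    · linarith
  exact ⟨p, hp, hT, fun ε hε => PressC_663.tendsto_pressureTailProb hα.le hφc.measurable hK hT hε⟩

end Crest.Agent.R146.AsmP_663
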