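import Mathlib

/-!
Lindeberg replacement for log-partition functions, part A: one variable calculus.
-/

set_option autoImplicit false

namespace Crest.Agent.R146.LindA_846

open MeasureTheory

/-- One integration step for polynomial bounds. -/
theorem step_bound {f f' : ℝ → ℝ} {C : ℝ} {n : ℕ} (hC : 0 ≤ C)
    (h : ∀ x, HasDerivAt f (f' x) x) (h0 : f 0 = 0)
    (hb : ∀ x, |f' x| ≤ C * |x| ^ n) (x : ℝ) : |f x| ≤ C * |x| ^ (n + 1) := by
  have hs : ∀ s ∈ Set.uIcc 0 x, |s| ≤ |x| := by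
    intro s hs
    rcases le_total 0 x with hx | hx
    · rw [Set.uIcc_of_le hx] at hs
      rw [abs_of_nonneg hs.1, abs_of_nonneg hx]; exact hs.2
    · rw [Set.uIcc_of_ge hx] at hs
      rw [abs_of_nonpos hs.2, abs_of_nonpos hx]; linarith [hs.1]
  have key := Convex.norm_image_sub_le_of_norm_hasDerivWithin_le
    (f := f) (f' := f') (s := Set.uIcc 0 x) (x := 0) (y := x) (C := C * |x| ^ n)
    (fun s _ => (h s).hasDerivWithinAt)
    (fun s hs' => by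
      rw [Real.norm_eq_abs]
      exact (hb s).trans (mul_le_mul_of_nonneg_left
        (pow_le_pow_left₀ (abs_nonneg _) (hs s hs') n) hC))
    (convex_uIcc 0 x) Set.left_mem_uIcc Set.right_mem_uIcc
  rw [h0, sub_zero, sub_zero, Real.norm_eq_abs, Real.norm_eq_abs] at key
  calc |f x| ≤ C * |x| ^ n * |x| := key
    _ = C * |x| ^ (n + 1) := by ring

/-- Fourth order Taylor bound (without the factor `1/24`). -/
theorem taylor_four {g g1 g2 g3 g4 : ℝ → ℝ} {C : ℝ} (hC : 0 ≤ C)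
    (h1 : ∀ x, HasDerivAt g (g1 x) x) (h2 : ∀ x, HasDerivAt g1 (g2 x) x)
    (h3 : ∀ x, HasDerivAt g2 (g3 x) x) (h4 : ∀ x, HasDerivAt g3 (g4 x) x)
    (hb : ∀ x, |g4 x| ≤ C) (x : ℝ) :
    |g x - (g 0 + g1 0 * x + g2 0 * x ^ 2 / 2 + g3 0 * x ^ 3 / 6)| ≤ C * |x| ^ 4 := by
  -- third derivative remainder
  have e3 : ∀ x, |g3 x - g3 0| ≤ C * |x| ^ (0 + 1) := by
    refine step_bound (f' := g4) hC (fun x => ?_) (by simp) (fun x => by simpa using hb x)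
    simpa using (h4 x).sub_const (g3 0)
  have e2 : ∀ x, |g2 x - (g2 0 + g3 0 * x)| ≤ C * |x| ^ (0 + 1 + 1) := by
    refine step_bound (f' := fun x => g3 x - g3 0) hC (fun x => ?_) (by simp) e3
    have hp : HasDerivAt (fun x : ℝ => g2 0 + g3 0 * x) (g3 0) x := by
      refine (((hasDerivAt_id x).const_mul (g3 0)).const_add (g2 0)).congr_deriv ?_
      simp
    exact (h3 x).sub hp
  have e1 : ∀ x, |g1 x - (g1 0 + g2 0 * x + g3 0 * x ^ 2 / 2)| ≤ C * |x| ^ (0 + 1 + 1 + 1) := by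
    refine step_bound (f' := fun x => g2 x - (g2 0 + g3 0 * x)) hC (fun x => ?_) (by simp) e2
    have hp : HasDerivAt (fun x : ℝ => g1 0 + g2 0 * x + g3 0 * x ^ 2 / 2) (g2 0 + g3 0 * x) x := by
      have a := ((hasDerivAt_id x).const_mul (g2 0)).const_add (g1 0)
      have b := ((hasDerivAt_pow 2 x).const_mul (g3 0)).div_const 2
      refine (a.add b).congr_deriv ?_
      norm_num; ring
    exact (h2 x).sub hp
  have e0 : ∀ x, |g x - (g 0 + g1 0 * x + g2 0 * x ^ 2 / 2 + g3 0 * x ^ 3 / 6)|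
      ≤ C * |x| ^ (0 + 1 + 1 + 1 + 1) := by
    refine step_bound (f' := fun x => g1 x - (g1 0 + g2 0 * x + g3 0 * x ^ 2 / 2)) hC
      (fun x => ?_) (by simp) e1
    have hp : HasDerivAt (fun x : ℝ => g 0 + g1 0 * x + g2 0 * x ^ 2 / 2 + g3 0 * x ^ 3 / 6)
        (g1 0 + g2 0 * x + g3 0 * x ^ 2 / 2) x := by
      have a := ((hasDerivAt_id x).const_mul (g1 0)).const_add (g 0)
      have b := ((hasDerivAt_pow 2 x).const_mul (g2 0)).div_const 2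
      have c := ((hasDerivAt_pow 3 x).const_mul (g3 0)).div_const 6
      refine ((a.add b).add c).congr_deriv ?_
      norm_num; ring
    exact (h1 x).sub hp
  simpa using e0 x

/-- A potential with four bounded derivatives. -/
structure Pot (K : ℝ) (ψ ψ1 ψ2 ψ3 ψ4 : ℝ → ℝ) : Prop where
  d1 : ∀ x, HasDerivAt ψ (ψ1 x) x
  d2 : ∀ x, HasDerivAt ψ1 (ψ2 x) x
  d3 : ∀ x, HasDerivAt ψ2 (ψ3 x) x
  d4 : ∀ x, HasDerivAt ψ3 (ψ4 x) x
  b1 : ∀ x, |ψ1 x| ≤ K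
  b2 : ∀ x, |ψ2 x| ≤ K
  b3 : ∀ x, |ψ3 x| ≤ K
  b4 : ∀ x, |ψ4 x| ≤ K

/-- `ψ` is a `C^4` potential with derivatives of order `1..4` bounded by `K`. -/
def IsPot (K : ℝ) (ψ : ℝ → ℝ) : Prop :=
  ∃ ψ1 ψ2 ψ3 ψ4 : ℝ → ℝ, Pot K ψ ψ1 ψ2 ψ3 ψ4

theorem IsPot.of_contDiff {K : ℝ} {ψ : ℝ → ℝ} (h : ContDiff ℝ 4 ψ)
    (hb : ∀ k : ℕ, 1 ≤ k → k ≤ 4 → ∀ x, |iteratedDeriv k ψ x| ≤ K) : IsPot K ψ := by
  have hd : ∀ k : ℕ, k < 4 → ∀ x, HasDerivAt (iteratedDeriv k ψ) (iteratedDeriv (k + 1) ψ x) x := by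
    intro k hk x
    have h1 : Differentiable ℝ (iteratedDeriv k ψ) :=
      h.differentiable_iteratedDeriv k (by exact_mod_cast hk)
    rw [iteratedDeriv_succ]
    exact (h1 x).hasDerivAt
  refine ⟨iteratedDeriv 1 ψ, iteratedDeriv 2 ψ, iteratedDeriv 3 ψ, iteratedDeriv 4 ψ, ?_⟩
  constructor
  · intro x; simpa using hd 0 (by norm_num) x
  · exact hd 1 (by norm_num)
  · exact hd 2 (by norm_num)
  · exact hd 3 (by norm_num)
  · exact hb 1 (by norm_num) (by norm_num)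
  · exact hb 2 (by norm_num) (by norm_num)
  · exact hb 3 (by norm_num) (by norm_num)
  · exact hb 4 (by norm_num) (by norm_num)

section pot

variable {K : ℝ} {ψ ψ1 ψ2 ψ3 ψ4 : ℝ → ℝ}

theorem Pot.K_nonneg (h : Pot K ψ ψ1 ψ2 ψ3 ψ4) : 0 ≤ K := (abs_nonneg _).trans (h.b1 0)

/-- Lipschitz bound for a potential. -/
theorem Pot.lip (h : Pot K ψ ψ1 ψ2 ψ3 ψ4) (x y : ℝ) : |ψ x - ψ y| ≤ K * |x - y| := by
  have := Convex.norm_image_sub_le_of_norm_hasDerivWithin_le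
    (f := ψ) (f' := ψ1) (s := Set.univ) (x := y) (y := x) (C := K)
    (fun s _ => (h.d1 s).hasDerivWithinAt) (fun s _ => h.b1 s) convex_univ trivial trivial
  simpa [Real.norm_eq_abs] using this

theorem Pot.continuous (h : Pot K ψ ψ1 ψ2 ψ3 ψ4) : Continuous ψ :=
  continuous_iff_continuousAt.2 fun x => (h.d1 x).continuousAt

/-- the functions `h_k` with `(exp ψ)^{(k)} = h_k exp ψ`. -/
def hk (ψ1 ψ2 ψ3 ψ4 : ℝ → ℝ) : ℕ → ℝ → ℝ
  | 0, _ => 1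
  | 1, u => ψ1 u
  | 2, u => ψ2 u + ψ1 u ^ 2
  | 3, u => ψ3 u + 3 * ψ1 u * ψ2 u + ψ1 u ^ 3
  | 4, u => ψ4 u + 4 * ψ1 u * ψ3 u + 3 * ψ2 u ^ 2 + 6 * ψ1 u ^ 2 * ψ2 u + ψ1 u ^ 4
  | _, _ => 0

theorem Pot.meas1 (h : Pot K ψ ψ1 ψ2 ψ3 ψ4) : Measurable ψ1 :=
  (continuous_iff_continuousAt.2 fun x => (h.d2 x).continuousAt).measurable
theorem Pot.meas2 (h : Pot K ψ ψ1 ψ2 ψ3 ψ4) : Measurable ψ2 :=
  (continuous_iff_continuousAt.2 fun x => (h.d3 x).continuousAt).measurable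
theorem Pot.meas3 (h : Pot K ψ ψ1 ψ2 ψ3 ψ4) : Measurable ψ3 :=
  (continuous_iff_continuousAt.2 fun x => (h.d4 x).continuousAt).measurable
theorem Pot.meas4 (h : Pot K ψ ψ1 ψ2 ψ3 ψ4) : Measurable ψ4 := by
  have : ψ4 = deriv ψ3 := funext fun x => (h.d4 x).deriv.symm
  rw [this]; exact measurable_deriv ψ3

theorem Pot.meas_hk (h : Pot K ψ ψ1 ψ2 ψ3 ψ4) {k : ℕ} (hk4 : k ≤ 4) :
    Measurable (hk ψ1 ψ2 ψ3 ψ4 k) := by
  have m1 := h.meas1
  have m2 := h.meas2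
  have m3 := h.meas3
  have m4 := h.meas4
  interval_cases k
  · exact measurable_const
  · exact m1
  · exact m2.add (m1.pow_const 2)
  · exact (m3.add ((m1.const_mul 3).mul m2)).add (m1.pow_const 3)
  · exact (((m4.add ((m1.const_mul 4).mul m3)).add ((m2.pow_const 2).const_mul 3)).add
      (((m1.pow_const 2).const_mul 6).mul m2)).add (m1.pow_const 4)

/-- the constant bounding all `h_k`. -/
noncomputable def cK (K : ℝ) : ℝ := 15 * (1 + K) ^ 4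

theorem one_le_cK {K : ℝ} (hK : 0 ≤ K) : 1 ≤ cK K := by
  unfold cK
  have : (1 : ℝ) ≤ (1 + K) ^ 4 := one_le_pow₀ (by linarith)
  linarith

theorem Pot.bound_hk (h : Pot K ψ ψ1 ψ2 ψ3 ψ4) {k : ℕ} (hk4 : k ≤ 4) (u : ℝ) :
    |hk ψ1 ψ2 ψ3 ψ4 k u| ≤ cK K := by
  have hK := h.K_nonneg
  have b1 := h.b1 u
  have b2 := h.b2 u
  have b3 := h.b3 u
  have b4 := h.b4 u
  have n1 := abs_nonneg (ψ1 u)
  have n2 := abs_nonneg (ψ2 u)
  have n3 := abs_nonneg (ψ3 u)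
  have hK2 : 0 ≤ K ^ 2 := by positivity
  have hK3 : 0 ≤ K ^ 3 := by positivity
  have hK4 : 0 ≤ K ^ 4 := by positivity
  have hexp : cK K = 15 + 60 * K + 90 * K ^ 2 + 60 * K ^ 3 + 15 * K ^ 4 := by
    unfold cK; ring
  have p12 : |ψ1 u| ^ 2 ≤ K ^ 2 := pow_le_pow_left₀ n1 b1 2
  have p22 : |ψ2 u| ^ 2 ≤ K ^ 2 := pow_le_pow_left₀ n2 b2 2
  have p13 : |ψ1 u| ^ 3 ≤ K ^ 3 := pow_le_pow_left₀ n1 b1 3
  have p14 : |ψ1 u| ^ 4 ≤ K ^ 4 := pow_le_pow_left₀ n1 b1 4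
  have q12 : |ψ1 u| * |ψ2 u| ≤ K * K := mul_le_mul b1 b2 n2 hK
  have q13 : |ψ1 u| * |ψ3 u| ≤ K * K := mul_le_mul b1 b3 n3 hK
  have q112 : |ψ1 u| ^ 2 * |ψ2 u| ≤ K ^ 2 * K := mul_le_mul p12 b2 n2 hK2
  interval_cases k
  · simp only [hk]; rw [abs_one]; rw [hexp]; nlinarith
  · simp only [hk]; rw [hexp]; nlinarith
  · simp only [hk]
    calc |ψ2 u + ψ1 u ^ 2| ≤ |ψ2 u| + |ψ1 u| ^ 2 := by
          refine (abs_add_le _ _).trans ?_; rw [abs_pow]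
      _ ≤ cK K := by rw [hexp]; nlinarith
  · simp only [hk]
    calc |ψ3 u + 3 * ψ1 u * ψ2 u + ψ1 u ^ 3|
        ≤ |ψ3 u| + 3 * (|ψ1 u| * |ψ2 u|) + |ψ1 u| ^ 3 := by
          refine (abs_add_le _ _).trans ?_
          rw [abs_pow]
          refine add_le_add ((abs_add_le _ _).trans ?_) le_rfl
          rw [abs_mul, abs_mul]; norm_num; rw [mul_assoc]
      _ ≤ cK K := by rw [hexp]; nlinarith
  · simp only [hk]
    calc |ψ4 u + 4 * ψ1 u * ψ3 u + 3 * ψ2 u ^ 2 + 6 * ψ1 u ^ 2 * ψ2 u + ψ1 u ^ 4|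
        ≤ |ψ4 u| + 4 * (|ψ1 u| * |ψ3 u|) + 3 * |ψ2 u| ^ 2 + 6 * (|ψ1 u| ^ 2 * |ψ2 u|)
            + |ψ1 u| ^ 4 := by
          refine (abs_add_le _ _).trans ?_
          rw [abs_pow]
          refine add_le_add ((abs_add_le _ _).trans ?_) le_rfl
          refine add_le_add ((abs_add_le _ _).trans ?_) ?_
          · refine add_le_add ((abs_add_le _ _).trans ?_) ?_
            · refine add_le_add le_rfl ?_
              rw [abs_mul, abs_mul]; norm_num; rw [mul_assoc]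
            · rw [abs_mul, abs_pow]; norm_num
          · rw [abs_mul, abs_mul, abs_pow]; norm_num; rw [mul_assoc]
      _ ≤ cK K := by rw [hexp]; nlinarith

/-- `E_k = h_k exp ψ` and its derivative. -/
theorem Pot.hasDerivAt_E (h : Pot K ψ ψ1 ψ2 ψ3 ψ4) {k : ℕ} (hk4 : k < 4) (u : ℝ) :
    HasDerivAt (fun u => hk ψ1 ψ2 ψ3 ψ4 k u * Real.exp (ψ u))
      (hk ψ1 ψ2 ψ3 ψ4 (k + 1) u * Real.exp (ψ u)) u := by
  have he : HasDerivAt (fun u => Real.exp (ψ u)) (Real.exp (ψ u) * ψ1 u) u := (h.d1 u).exp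
  have a1 := h.d2 u
  have a2 := h.d3 u
  have a3 := h.d4 u
  interval_cases k
  · simp only [hk]
    refine ((hasDerivAt_const u (1 : ℝ)).mul he).congr_deriv ?_
    ring
  · simp only [hk]
    refine (a1.mul he).congr_deriv ?_
    ring
  · simp only [hk]
    refine ((a2.add (a1.pow 2)).mul he).congr_deriv ?_
    norm_num; ring
  · simp only [hk]
    have b : HasDerivAt (fun u => ψ3 u + 3 * ψ1 u * ψ2 u + ψ1 u ^ 3)
        (ψ4 u + (3 * ψ2 u * ψ2 u + 3 * ψ1 u * ψ3 u) + 3 * ψ1 u ^ 2 * ψ2 u) u := by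
      refine ((a3.add ((a1.const_mul 3).mul a2)).add (a1.pow 3)).congr_deriv ?_
      norm_num
    refine (b.mul he).congr_deriv ?_
    ring

end pot

end Crest.Agent.R146.LindA_846
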