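import Mathlib
import Crest.Agent.R146.LindA_846

/-!
Lindeberg replacement, part B: the log-partition function as a function of ONE entry.
-/

set_option autoImplicit false

namespace Crest.Agent.R146.LindB_846

open MeasureTheory Crest.Agent.R146.LindA_846

section one

variable {Y : Type*} [MeasurableSpace Y] {μ : Measure Y}
variable {K : ℝ} {ψ ψ1 ψ2 ψ3 ψ4 : ℝ → ℝ}

/-- the integrand of the `k`-th derivative of the partition function. -/
noncomputable def integrand (ψ ψ1 ψ2 ψ3 ψ4 : ℝ → ℝ) (W t r : Y → ℝ) (k : ℕ) (x : ℝ) (y : Y) : ℝ :=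
  t y ^ k * (hk ψ1 ψ2 ψ3 ψ4 k (x * t y + r y) * Real.exp (ψ (x * t y + r y))) * W y

/-- `Z_k (x)`. -/
noncomputable def Z (μ : Measure Y) (ψ ψ1 ψ2 ψ3 ψ4 : ℝ → ℝ) (W t r : Y → ℝ) (k : ℕ) (x : ℝ) : ℝ :=
  ∫ y, integrand ψ ψ1 ψ2 ψ3 ψ4 W t r k x y ∂μ

theorem meas_integrand (h : Pot K ψ ψ1 ψ2 ψ3 ψ4) {W t r : Y → ℝ} (hW : Measurable W)
    (ht : Measurable t) (hr : Measurable r) {k : ℕ} (hk4 : k ≤ 4) (x : ℝ) :
    Measurable (integrand ψ ψ1 ψ2 ψ3 ψ4 W t r k x) := by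
  unfold integrand
  have hu : Measurable fun y => x * t y + r y := (ht.const_mul x).add hr
  exact ((ht.pow_const k).mul (((h.meas_hk hk4).comp hu).mul
    (Real.measurable_exp.comp (h.continuous.measurable.comp hu)))).mul hW

theorem exp_shift_le (h : Pot K ψ ψ1 ψ2 ψ3 ψ4) (u v : ℝ) :
    Real.exp (ψ u) ≤ Real.exp (K * |u - v|) * Real.exp (ψ v) := by
  rw [← Real.exp_add]
  apply Real.exp_le_exp.2
  have := (abs_le.1 (h.lip u v)).2
  linarith

/-- pointwise domination. -/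
theorem abs_integrand_le (h : Pot K ψ ψ1 ψ2 ψ3 ψ4) {W t r : Y → ℝ} (hW0 : ∀ y, 0 ≤ W y)
    {κ : ℝ} (hκ : ∀ y, |t y| ≤ κ) {k : ℕ} (hk4 : k ≤ 4) {x X : ℝ} (hx : |x| ≤ X) (y : Y) :
    |integrand ψ ψ1 ψ2 ψ3 ψ4 W t r k x y|
      ≤ (κ ^ k * cK K * Real.exp (K * (X * κ))) * (Real.exp (ψ (r y)) * W y) := by
  have hK := h.K_nonneg
  have hκ0 : 0 ≤ κ := (abs_nonneg _).trans (hκ y)
  have hX0 : 0 ≤ X := (abs_nonneg _).trans hx
  unfold integrand
  rw [abs_mul, abs_mul, abs_mul, abs_pow, abs_of_nonneg (hW0 y), abs_of_pos (Real.exp_pos _)]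
  have e1 : |t y| ^ k ≤ κ ^ k := pow_le_pow_left₀ (abs_nonneg _) (hκ y) k
  have e2 := h.bound_hk hk4 (x * t y + r y)
  have e3 : Real.exp (ψ (x * t y + r y)) ≤ Real.exp (K * (X * κ)) * Real.exp (ψ (r y)) := by
    refine (exp_shift_le h _ (r y)).trans ?_
    refine mul_le_mul_of_nonneg_right (Real.exp_le_exp.2 ?_) (Real.exp_pos _).le
    refine mul_le_mul_of_nonneg_left ?_ hK
    rw [add_sub_cancel_right, abs_mul]
    exact mul_le_mul hx (hκ y) (abs_nonneg _) hX0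
  have c0 : 0 ≤ cK K := zero_le_one.trans (one_le_cK hK)
  calc |t y| ^ k * (|hk ψ1 ψ2 ψ3 ψ4 k (x * t y + r y)| * Real.exp (ψ (x * t y + r y))) * W y
      ≤ κ ^ k * (cK K * (Real.exp (K * (X * κ)) * Real.exp (ψ (r y)))) * W y := by
        refine mul_le_mul_of_nonneg_right ?_ (hW0 y)
        refine mul_le_mul e1 ?_ (by positivity) (by positivity)
        exact mul_le_mul e2 e3 (Real.exp_pos _).le c0
    _ = _ := by ring

theorem integrable_integrand (h : Pot K ψ ψ1 ψ2 ψ3 ψ4) {W t r : Y → ℝ} (hW : Measurable W)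
    (hW0 : ∀ y, 0 ≤ W y) (ht : Measurable t) (hr : Measurable r)
    {κ : ℝ} (hκ : ∀ y, |t y| ≤ κ)
    (hint : Integrable (fun y => Real.exp (ψ (r y)) * W y) μ) {k : ℕ} (hk4 : k ≤ 4) (x : ℝ) :
    Integrable (integrand ψ ψ1 ψ2 ψ3 ψ4 W t r k x) μ := by
  refine Integrable.mono' (hint.const_mul (κ ^ k * cK K * Real.exp (K * (|x| * κ))))
    (meas_integrand h hW ht hr hk4 x).aestronglyMeasurable (Filter.Eventually.of_forall fun y => ?_)
  rw [Real.norm_eq_abs]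
  exact abs_integrand_le h hW0 hκ hk4 le_rfl y

theorem hasDerivAt_Z (h : Pot K ψ ψ1 ψ2 ψ3 ψ4) {W t r : Y → ℝ} (hW : Measurable W)
    (hW0 : ∀ y, 0 ≤ W y) (ht : Measurable t) (hr : Measurable r)
    {κ : ℝ} (hκ : ∀ y, |t y| ≤ κ)
    (hint : Integrable (fun y => Real.exp (ψ (r y)) * W y) μ) {k : ℕ} (hk4 : k < 4) (x : ℝ) :
    HasDerivAt (Z μ ψ ψ1 ψ2 ψ3 ψ4 W t r k) (Z μ ψ ψ1 ψ2 ψ3 ψ4 W t r (k + 1) x) x := by
  refine (hasDerivAt_integral_of_dominated_loc_of_deriv_le (μ := μ)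
    (F := fun x y => integrand ψ ψ1 ψ2 ψ3 ψ4 W t r k x y)
    (F' := fun x y => integrand ψ ψ1 ψ2 ψ3 ψ4 W t r (k + 1) x y)
    (s := Metric.ball x 1)
    (bound := fun y => (κ ^ (k + 1) * cK K * Real.exp (K * ((|x| + 1) * κ))) *
      (Real.exp (ψ (r y)) * W y)) (Metric.ball_mem_nhds x one_pos) ?_ ?_ ?_ ?_ ?_ ?_).2
  · exact Filter.Eventually.of_forall fun x =>
      (meas_integrand h hW ht hr hk4.le x).aestronglyMeasurable
  · exact integrable_integrand h hW hW0 ht hr hκ hint hk4.le x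
  · exact (meas_integrand h hW ht hr (Nat.succ_le_of_lt hk4) x).aestronglyMeasurable
  · refine Filter.Eventually.of_forall fun y z hz => ?_
    rw [Real.norm_eq_abs]
    refine abs_integrand_le h hW0 hκ (Nat.succ_le_of_lt hk4) ?_ y
    have : |z - x| < 1 := by simpa [Real.dist_eq] using hz
    calc |z| = |(z - x) + x| := by ring_nf
      _ ≤ |z - x| + |x| := abs_add_le _ _
      _ ≤ |x| + 1 := by linarith
  · exact hint.const_mul _
  · refine Filter.Eventually.of_forall fun y z _ => ?_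
    have hu : HasDerivAt (fun z : ℝ => z * t y + r y) (t y) z := by
      simpa using ((hasDerivAt_id z).mul_const (t y)).add_const (r y)
    have hE := (h.hasDerivAt_E hk4 (z * t y + r y)).comp z hu
    have := (hE.const_mul (t y ^ k)).mul_const (W y)
    refine this.congr_deriv ?_
    unfold integrand
    ring

theorem abs_Z_le (h : Pot K ψ ψ1 ψ2 ψ3 ψ4) {W t r : Y → ℝ} (hW : Measurable W)
    (hW0 : ∀ y, 0 ≤ W y) (ht : Measurable t) (hr : Measurable r)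
    {κ : ℝ} (hκ0 : 0 ≤ κ) (hκ : ∀ y, |t y| ≤ κ)
    (hint : Integrable (fun y => Real.exp (ψ (r y)) * W y) μ) {k : ℕ} (hk4 : k ≤ 4) (x : ℝ) :
    |Z μ ψ ψ1 ψ2 ψ3 ψ4 W t r k x| ≤ cK K * κ ^ k * Z μ ψ ψ1 ψ2 ψ3 ψ4 W t r 0 x := by
  unfold Z
  rw [← integral_const_mul]
  refine (abs_integral_le_integral_abs).trans ?_
  refine integral_mono (integrable_integrand h hW hW0 ht hr hκ hint hk4 x).abs
    ((integrable_integrand h hW hW0 ht hr hκ hint (Nat.zero_le _) x).const_mul _) fun y => ?_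
  simp only [integrand, pow_zero, hk, one_mul]
  rw [abs_mul, abs_mul, abs_mul, abs_pow, abs_of_nonneg (hW0 y), abs_of_pos (Real.exp_pos _)]
  have e1 : |t y| ^ k ≤ κ ^ k := pow_le_pow_left₀ (abs_nonneg _) (hκ y) k
  have e2 := h.bound_hk hk4 (x * t y + r y)
  have c0 : 0 ≤ cK K := zero_le_one.trans (one_le_cK h.K_nonneg)
  calc |t y| ^ k * (|hk ψ1 ψ2 ψ3 ψ4 k (x * t y + r y)| * Real.exp (ψ (x * t y + r y))) * W y
      ≤ κ ^ k * (cK K * Real.exp (ψ (x * t y + r y))) * W y := by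
        refine mul_le_mul_of_nonneg_right ?_ (hW0 y)
        refine mul_le_mul e1 ?_ (by positivity) (by positivity)
        exact mul_le_mul_of_nonneg_right e2 (Real.exp_pos _).le
    _ = _ := by ring

theorem Z_zero_pos (h : Pot K ψ ψ1 ψ2 ψ3 ψ4) {W t r : Y → ℝ} (hW : Measurable W)
    (hW0 : ∀ y, 0 ≤ W y) (ht : Measurable t) (hr : Measurable r)
    {κ : ℝ} (hκ0 : 0 ≤ κ) (hκ : ∀ y, |t y| ≤ κ)
    (hint : Integrable (fun y => Real.exp (ψ (r y)) * W y) μ)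
    (hpos : 0 < ∫ y, Real.exp (ψ (r y)) * W y ∂μ) (x : ℝ) :
    0 < Z μ ψ ψ1 ψ2 ψ3 ψ4 W t r 0 x := by
  have hK := h.K_nonneg
  have key : Real.exp (-(K * (|x| * κ))) * ∫ y, Real.exp (ψ (r y)) * W y ∂μ
      ≤ Z μ ψ ψ1 ψ2 ψ3 ψ4 W t r 0 x := by
    unfold Z
    rw [← integral_const_mul]
    refine integral_mono (hint.const_mul _)
      (integrable_integrand h hW hW0 ht hr hκ hint (Nat.zero_le _) x) fun y => ?_
    simp only [integrand, pow_zero, hk, one_mul]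
    rw [← mul_assoc]
    refine mul_le_mul_of_nonneg_right ?_ (hW0 y)
    rw [← Real.exp_add]
    refine Real.exp_le_exp.2 ?_
    have e := (abs_le.1 (h.lip (x * t y + r y) (r y))).1
    have e' : K * |x * t y + r y - r y| ≤ K * (|x| * κ) := by
      refine mul_le_mul_of_nonneg_left ?_ hK
      rw [add_sub_cancel_right, abs_mul]
      exact mul_le_mul_of_nonneg_left (hκ y) (abs_nonneg _)
    linarith
  exact lt_of_lt_of_le (mul_pos (Real.exp_pos _) hpos) key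

/-- The one-variable log-partition function. -/
noncomputable def L (μ : Measure Y) (ψ : ℝ → ℝ) (W t r : Y → ℝ) (x : ℝ) : ℝ :=
  Real.log (∫ y, Real.exp (ψ (x * t y + r y)) * W y ∂μ)

theorem L_eq (ψ1 ψ2 ψ3 ψ4 : ℝ → ℝ) (W t r : Y → ℝ) (x : ℝ) :
    L μ ψ W t r x = Real.log (Z μ ψ ψ1 ψ2 ψ3 ψ4 W t r 0 x) := by
  unfold L Z
  congr 1
  refine integral_congr_ae (Filter.Eventually.of_forall fun y => ?_)
  simp [integrand, hk]

/-- MAIN one-variable estimate. -/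
theorem L_taylor (h : Pot K ψ ψ1 ψ2 ψ3 ψ4) {W t r : Y → ℝ} (hW : Measurable W)
    (hW0 : ∀ y, 0 ≤ W y) (ht : Measurable t) (hr : Measurable r)
    {κ : ℝ} (hκ0 : 0 ≤ κ) (hκ : ∀ y, |t y| ≤ κ)
    (hint : Integrable (fun y => Real.exp (ψ (r y)) * W y) μ)
    (hpos : 0 < ∫ y, Real.exp (ψ (r y)) * W y ∂μ) :
    ∃ a0 a1 a2 a3 : ℝ, ∀ x, |L μ ψ W t r x - (a0 + a1 * x + a2 * x ^ 2 + a3 * x ^ 3)|
      ≤ 26 * cK K ^ 4 * κ ^ 4 * |x| ^ 4 := by
  set Zf : ℕ → ℝ → ℝ := Z μ ψ ψ1 ψ2 ψ3 ψ4 W t r with hZf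
  have zpos : ∀ x, 0 < Zf 0 x := Z_zero_pos h hW hW0 ht hr hκ0 hκ hint hpos
  have zne : ∀ x, Zf 0 x ≠ 0 := fun x => (zpos x).ne'
  have D : ∀ k, k < 4 → ∀ x, HasDerivAt (Zf k) (Zf (k + 1) x) x := fun k hk x =>
    hasDerivAt_Z h hW hW0 ht hr hκ hint hk x
  have B : ∀ k, k ≤ 4 → ∀ x, |Zf k x / Zf 0 x| ≤ cK K * κ ^ k := by
    intro k hk x
    rw [abs_div, abs_of_pos (zpos x), div_le_iff₀ (zpos x)]
    exact abs_Z_le h hW hW0 ht hr hκ0 hκ hint hk x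
  -- normalised derivatives
  have dz : ∀ k, k < 4 → ∀ x, HasDerivAt (fun x => Zf k x / Zf 0 x)
      (Zf (k + 1) x / Zf 0 x - Zf k x / Zf 0 x * (Zf 1 x / Zf 0 x)) x := by
    intro k hk x
    refine ((D k hk x).div (D 0 (by norm_num) x) (zne x)).congr_deriv ?_
    have := zne x
    field_simp
    try ring
  set z1 : ℝ → ℝ := fun x => Zf 1 x / Zf 0 x with hz1
  set z2 : ℝ → ℝ := fun x => Zf 2 x / Zf 0 x with hz2
  set z3 : ℝ → ℝ := fun x => Zf 3 x / Zf 0 x with hz3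
  set z4 : ℝ → ℝ := fun x => Zf 4 x / Zf 0 x with hz4
  have dz1 : ∀ x, HasDerivAt z1 (z2 x - z1 x * z1 x) x := fun x => dz 1 (by norm_num) x
  have dz2 : ∀ x, HasDerivAt z2 (z3 x - z2 x * z1 x) x := fun x => dz 2 (by norm_num) x
  have dz3 : ∀ x, HasDerivAt z3 (z4 x - z3 x * z1 x) x := fun x => dz 3 (by norm_num) x
  have g1 : ∀ x, HasDerivAt (fun x => Real.log (Zf 0 x)) (z1 x) x := fun x =>
    (D 0 (by norm_num) x).log (zne x)
  have g2 : ∀ x, HasDerivAt z1 (z2 x - z1 x ^ 2) x := fun x => by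
    simpa [sq] using dz1 x
  have g3 : ∀ x, HasDerivAt (fun x => z2 x - z1 x ^ 2)
      (z3 x - 3 * z1 x * z2 x + 2 * z1 x ^ 3) x := fun x => by
    refine ((dz2 x).sub ((dz1 x).pow 2)).congr_deriv ?_
    norm_num; ring
  have g4 : ∀ x, HasDerivAt (fun x => z3 x - 3 * z1 x * z2 x + 2 * z1 x ^ 3)
      (z4 x - 4 * z1 x * z3 x - 3 * z2 x ^ 2 + 12 * z1 x ^ 2 * z2 x - 6 * z1 x ^ 4) x := fun x => by
    refine (((dz3 x).sub (((dz1 x).const_mul 3).mul (dz2 x))).add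
      (((dz1 x).pow 3).const_mul 2)).congr_deriv ?_
    norm_num; ring
  set c := cK K with hc
  have c1 : 1 ≤ c := one_le_cK h.K_nonneg
  have bound : ∀ x, |z4 x - 4 * z1 x * z3 x - 3 * z2 x ^ 2 + 12 * z1 x ^ 2 * z2 x - 6 * z1 x ^ 4|
      ≤ 26 * c ^ 4 * κ ^ 4 := by
    intro x
    have b1 : |z1 x| ≤ c * κ ^ 1 := B 1 (by norm_num) x
    have b2 : |z2 x| ≤ c * κ ^ 2 := B 2 (by norm_num) x
    have b3 : |z3 x| ≤ c * κ ^ 3 := B 3 (by norm_num) x
    have b4 : |z4 x| ≤ c * κ ^ 4 := B 4 (by norm_num) x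
    rw [pow_one] at b1
    have n1 := abs_nonneg (z1 x)
    have n2 := abs_nonneg (z2 x)
    have n3 := abs_nonneg (z3 x)
    have ck : 0 ≤ c * κ := by positivity
    have ck2 : 0 ≤ c * κ ^ 2 := by positivity
    have m13 : |z1 x| * |z3 x| ≤ (c * κ) * (c * κ ^ 3) := mul_le_mul b1 b3 n3 ck
    have m22 : |z2 x| ^ 2 ≤ (c * κ ^ 2) ^ 2 := pow_le_pow_left₀ n2 b2 2
    have m11 : |z1 x| ^ 2 ≤ (c * κ) ^ 2 := pow_le_pow_left₀ n1 b1 2
    have m112 : |z1 x| ^ 2 * |z2 x| ≤ (c * κ) ^ 2 * (c * κ ^ 2) :=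
      mul_le_mul m11 b2 n2 (by positivity)
    have m1111 : |z1 x| ^ 4 ≤ (c * κ) ^ 4 := pow_le_pow_left₀ n1 b1 4
    have k4 : 0 ≤ κ ^ 4 := by positivity
    have cc1 : c * κ ^ 4 ≤ c ^ 4 * κ ^ 4 :=
      mul_le_mul_of_nonneg_right (by nlinarith [pow_le_pow_right₀ c1 (show 1 ≤ 4 by norm_num)]) k4
    have cc2 : c ^ 2 * κ ^ 4 ≤ c ^ 4 * κ ^ 4 :=
      mul_le_mul_of_nonneg_right (pow_le_pow_right₀ c1 (by norm_num)) k4
    have cc3 : c ^ 3 * κ ^ 4 ≤ c ^ 4 * κ ^ 4 :=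
      mul_le_mul_of_nonneg_right (pow_le_pow_right₀ c1 (by norm_num)) k4
    calc |z4 x - 4 * z1 x * z3 x - 3 * z2 x ^ 2 + 12 * z1 x ^ 2 * z2 x - 6 * z1 x ^ 4|
        ≤ |z4 x| + 4 * (|z1 x| * |z3 x|) + 3 * |z2 x| ^ 2 + 12 * (|z1 x| ^ 2 * |z2 x|)
            + 6 * |z1 x| ^ 4 := by
          refine (abs_sub _ _).trans ?_
          refine add_le_add ((abs_add_le _ _).trans ?_) ?_
          · refine add_le_add ((abs_sub _ _).trans ?_) ?_
            · refine add_le_add ((abs_sub _ _).trans ?_) ?_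
              · refine add_le_add le_rfl ?_
                rw [abs_mul, abs_mul]; norm_num; rw [mul_assoc]
              · rw [abs_mul, abs_pow]; norm_num
            · rw [abs_mul, abs_mul, abs_pow]; norm_num; rw [mul_assoc]
          · rw [abs_mul, abs_pow]; norm_num
      _ ≤ c * κ ^ 4 + 4 * ((c * κ) * (c * κ ^ 3)) + 3 * (c * κ ^ 2) ^ 2
            + 12 * ((c * κ) ^ 2 * (c * κ ^ 2)) + 6 * (c * κ) ^ 4 := by
          gcongr
      _ = c * κ ^ 4 + 7 * (c ^ 2 * κ ^ 4) + 12 * (c ^ 3 * κ ^ 4) + 6 * (c ^ 4 * κ ^ 4) := by ring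
      _ ≤ 26 * c ^ 4 * κ ^ 4 := by linarith
  refine ⟨Real.log (Zf 0 0), z1 0, (z2 0 - z1 0 ^ 2) / 2,
    (z3 0 - 3 * z1 0 * z2 0 + 2 * z1 0 ^ 3) / 6, fun x => ?_⟩
  have T := taylor_four (by positivity) g1 g2 g3 g4 bound x
  rw [L_eq ψ1 ψ2 ψ3 ψ4]
  refine le_trans (le_of_eq ?_) T
  congr 1
  ring

/-- Lipschitz bound of the one variable function. -/
theorem L_lip (h : Pot K ψ ψ1 ψ2 ψ3 ψ4) {W t r : Y → ℝ} (hW : Measurable W)
    (hW0 : ∀ y, 0 ≤ W y) (ht : Measurable t) (hr : Measurable r)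
    {κ : ℝ} (hκ0 : 0 ≤ κ) (hκ : ∀ y, |t y| ≤ κ)
    (hint : Integrable (fun y => Real.exp (ψ (r y)) * W y) μ)
    (hpos : 0 < ∫ y, Real.exp (ψ (r y)) * W y ∂μ) (x x' : ℝ) :
    |L μ ψ W t r x - L μ ψ W t r x'| ≤ K * κ * |x - x'| := by
  have hI : ∀ x, Integrable (fun y => Real.exp (ψ (x * t y + r y)) * W y) μ := by
    intro x
    refine (integrable_integrand h hW hW0 ht hr hκ hint (Nat.zero_le _) x).congr
      (Filter.Eventually.of_forall fun y => ?_)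
    simp [integrand, hk]
  have hP : ∀ x, 0 < ∫ y, Real.exp (ψ (x * t y + r y)) * W y ∂μ := by
    intro x
    refine lt_of_lt_of_eq (Z_zero_pos h hW hW0 ht hr hκ0 hκ hint hpos x) ?_
    unfold Z
    refine integral_congr_ae (Filter.Eventually.of_forall fun y => ?_)
    simp [integrand, hk]
  have one : ∀ x x', L μ ψ W t r x ≤ L μ ψ W t r x' + K * κ * |x - x'| := by
    intro x x'
    unfold L
    have e : ∫ y, Real.exp (ψ (x * t y + r y)) * W y ∂μ ≤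
        Real.exp (K * κ * |x - x'|) * ∫ y, Real.exp (ψ (x' * t y + r y)) * W y ∂μ := by
      rw [← integral_const_mul]
      refine integral_mono (hI x) ((hI x').const_mul _) fun y => ?_
      show Real.exp (ψ (x * t y + r y)) * W y ≤
        Real.exp (K * κ * |x - x'|) * (Real.exp (ψ (x' * t y + r y)) * W y)
      rw [← mul_assoc]
      refine mul_le_mul_of_nonneg_right ?_ (hW0 y)
      refine (exp_shift_le h _ (x' * t y + r y)).trans ?_
      refine mul_le_mul_of_nonneg_right (Real.exp_le_exp.2 ?_) (Real.exp_pos _).le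
      rw [mul_assoc]
      refine mul_le_mul_of_nonneg_left ?_ h.K_nonneg
      have : x * t y + r y - (x' * t y + r y) = t y * (x - x') := by ring
      rw [this, abs_mul]
      exact mul_le_mul_of_nonneg_right (hκ y) (abs_nonneg _)
    have := Real.log_le_log (hP x) e
    rw [Real.log_mul (Real.exp_pos _).ne' (hP x').ne', Real.log_exp] at this
    linarith
  rw [abs_le]
  constructor
  · have := one x' x
    rw [abs_sub_comm] at this
    linarith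
  · have := one x x'
    linarith

end one

end Crest.Agent.R146.LindB_846
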