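import Mathlib
import Crest.Agent.R146.LindB_846

/-!
Lindeberg replacement, part C: product measures, one coordinate at a time.
-/

set_option autoImplicit false

namespace Crest.Agent.R146.LindC_846

open MeasureTheory Crest.Agent.R146.LindA_846 Crest.Agent.R146.LindB_846

section swap

variable {ι : Type*} [Fintype ι] [DecidableEq ι]

theorem prob_update {ρ : ι → Measure ℝ} (hρ : ∀ i, IsProbabilityMeasure (ρ i)) (i : ι)
    {ν : Measure ℝ} (hν : IsProbabilityMeasure ν) :
    ∀ j, IsProbabilityMeasure (Function.update ρ i ν j) := by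
  intro j
  rcases eq_or_ne j i with rfl | hj
  · rw [Function.update_self]; exact hν
  · rw [Function.update_of_ne hj]; exact hρ j

/-- Replacing one factor of a product of probability measures. -/
theorem map_update {ρ : ι → Measure ℝ} (hρ : ∀ i, IsProbabilityMeasure (ρ i)) (i : ι)
    {ν : Measure ℝ} (hν : IsProbabilityMeasure ν) :
    Measure.map (fun p : (ι → ℝ) × ℝ => Function.update p.1 i p.2) ((Measure.pi ρ).prod ν)
      = Measure.pi (Function.update ρ i ν) := by
  haveI := hρ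
  haveI := hν
  haveI : ∀ j, IsProbabilityMeasure (Function.update ρ i ν j) := prob_update hρ i hν
  symm
  refine Measure.pi_eq fun s hs => ?_
  rw [Measure.map_apply measurable_update' (MeasurableSet.univ_pi hs)]
  have hpre : (fun p : (ι → ℝ) × ℝ => Function.update p.1 i p.2) ⁻¹' (Set.univ.pi s)
      = (Set.univ.pi (Function.update s i Set.univ)) ×ˢ (s i) := by
    ext p
    simp only [Set.mem_preimage, Set.mem_univ_pi, Set.mem_prod]
    constructor
    · intro h
      refine ⟨fun j => ?_, by simpa using h i⟩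
      rcases eq_or_ne j i with rfl | hj
      · simp
      · simpa [Function.update_of_ne hj] using h j
    · rintro ⟨h1, h2⟩ j
      rcases eq_or_ne j i with rfl | hj
      · simpa using h2
      · simpa [Function.update_of_ne hj] using h1 j
  rw [hpre, Measure.prod_prod, Measure.pi_pi]
  have e1 : (∏ j, ρ j (Function.update s i Set.univ j))
      = ∏ j ∈ Finset.univ.erase i, ρ j (s j) := by
    rw [← Finset.mul_prod_erase Finset.univ _ (Finset.mem_univ i)]
    rw [Function.update_self, measure_univ, one_mul]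
    refine Finset.prod_congr rfl fun j hj => ?_
    rw [Function.update_of_ne (Finset.ne_of_mem_erase hj)]
  rw [e1, ← Finset.mul_prod_erase Finset.univ _ (Finset.mem_univ i), Function.update_self,
    mul_comm]
  congr 1
  refine Finset.prod_congr rfl fun j hj => ?_
  rw [Function.update_of_ne (Finset.ne_of_mem_erase hj)]

theorem integrable_abs_eval {ρ : ι → Measure ℝ} (hρ : ∀ i, IsProbabilityMeasure (ρ i))
    (hint : ∀ i, Integrable (fun x : ℝ => x) (ρ i)) (j : ι) :
    Integrable (fun x : ι → ℝ => |x j|) (Measure.pi ρ) := by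
  haveI := hρ
  have h := measurePreserving_eval ρ j
  exact (h.integrable_comp_of_integrable (hint j)).abs

/-- a measurable function with linear growth is integrable. -/
theorem integrable_growth {ρ : ι → Measure ℝ} (hρ : ∀ i, IsProbabilityMeasure (ρ i))
    (hint : ∀ i, Integrable (fun x : ℝ => x) (ρ i)) {F : (ι → ℝ) → ℝ} (hF : Measurable F)
    {C0 C1 : ℝ} (hg : ∀ x, |F x| ≤ C0 + C1 * ∑ j, |x j|) :
    Integrable F (Measure.pi ρ) := by
  haveI := hρ
  refine Integrable.mono' (g := fun x => C0 + C1 * ∑ j, |x j|) ?_ hF.aestronglyMeasurable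
    (Filter.Eventually.of_forall fun x => by rw [Real.norm_eq_abs]; exact hg x)
  exact (integrable_const C0).add
    ((integrable_finsetSum _ fun j _ => integrable_abs_eval hρ hint j).const_mul C1)

/-- integral against an updated product. -/
theorem integral_update {ρ : ι → Measure ℝ} (hρ : ∀ i, IsProbabilityMeasure (ρ i))
    (hint : ∀ i, Integrable (fun x : ℝ => x) (ρ i)) (i : ι)
    {ν : Measure ℝ} (hν : IsProbabilityMeasure ν) (hintν : Integrable (fun x : ℝ => x) ν)
    {F : (ι → ℝ) → ℝ} (hF : Measurable F)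
    {C0 C1 : ℝ} (hg : ∀ x, |F x| ≤ C0 + C1 * ∑ j, |x j|) :
    (∫ x, F x ∂Measure.pi (Function.update ρ i ν)
      = ∫ x, (∫ t, F (Function.update x i t) ∂ν) ∂Measure.pi ρ) ∧
    Integrable (fun x => ∫ t, F (Function.update x i t) ∂ν) (Measure.pi ρ) := by
  haveI := hρ
  haveI := hν
  have hpr := prob_update hρ i hν
  have hi : ∀ j, Integrable (fun x : ℝ => x) (Function.update ρ i ν j) := by
    intro j
    rcases eq_or_ne j i with rfl | hj
    · rw [Function.update_self]; exact hintν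
    · rw [Function.update_of_ne hj]; exact hint j
  have hI : Integrable F (Measure.pi (Function.update ρ i ν)) := integrable_growth hpr hi hF hg
  rw [← map_update hρ i hν] at hI
  have hI2 : Integrable (fun p : (ι → ℝ) × ℝ => F (Function.update p.1 i p.2))
      ((Measure.pi ρ).prod ν) := hI.comp_measurable measurable_update'
  refine ⟨?_, hI2.integral_prod_left⟩
  rw [← map_update hρ i hν, integral_map measurable_update'.aemeasurable hF.aestronglyMeasurable]
  exact integral_prod _ hI2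

/-- HYBRID LEMMA. -/
theorem swap {μ ν : ι → Measure ℝ} (hμ : ∀ i, IsProbabilityMeasure (μ i))
    (hν : ∀ i, IsProbabilityMeasure (ν i))
    (hiμ : ∀ i, Integrable (fun x : ℝ => x) (μ i)) (hiν : ∀ i, Integrable (fun x : ℝ => x) (ν i))
    {F : (ι → ℝ) → ℝ} (hF : Measurable F)
    {C0 C1 : ℝ} (hg : ∀ x, |F x| ≤ C0 + C1 * ∑ j, |x j|) {δ : ι → ℝ}
    (hδ : ∀ i, ∀ x : ι → ℝ, |∫ t, F (Function.update x i t) ∂μ i
      - ∫ t, F (Function.update x i t) ∂ν i| ≤ δ i) :
    |∫ x, F x ∂Measure.pi μ - ∫ x, F x ∂Measure.pi ν| ≤ ∑ i, δ i := by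
  classical
  have key : ∀ s : Finset ι,
      |∫ x, F x ∂Measure.pi (s.piecewise μ ν) - ∫ x, F x ∂Measure.pi ν| ≤ ∑ i ∈ s, δ i := by
    intro s
    induction s using Finset.induction_on with
    | empty => simp
    | insert i s his ih =>
      rw [Finset.sum_insert his]
      have hp : ∀ j, IsProbabilityMeasure (s.piecewise μ ν j) := by
        intro j
        by_cases hj : j ∈ s
        · rw [Finset.piecewise_eq_of_mem _ _ _ hj]; exact hμ j
        · rw [Finset.piecewise_eq_of_notMem _ _ _ hj]; exact hν j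
      have hI : ∀ j, Integrable (fun x : ℝ => x) (s.piecewise μ ν j) := by
        intro j
        by_cases hj : j ∈ s
        · rw [Finset.piecewise_eq_of_mem _ _ _ hj]; exact hiμ j
        · rw [Finset.piecewise_eq_of_notMem _ _ _ hj]; exact hiν j
      have e1 : (insert i s).piecewise μ ν = Function.update (s.piecewise μ ν) i (μ i) :=
        Finset.piecewise_insert _ _ _ _
      have e2 : s.piecewise μ ν = Function.update (s.piecewise μ ν) i (ν i) := by
        have : s.piecewise μ ν i = ν i := Finset.piecewise_eq_of_notMem _ _ _ his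
        rw [← this, Function.update_eq_self]
      obtain ⟨a1, b1⟩ := integral_update hp hI i (hμ i) (hiμ i) hF hg
      obtain ⟨a2, b2⟩ := integral_update hp hI i (hν i) (hiν i) hF hg
      haveI := hp
      have d : |∫ x, F x ∂Measure.pi ((insert i s).piecewise μ ν)
          - ∫ x, F x ∂Measure.pi (s.piecewise μ ν)| ≤ δ i := by
        rw [e1]
        nth_rewrite 2 [e2]
        rw [a1, a2, ← integral_sub b1 b2]
        have : |∫ x, ((∫ t, F (Function.update x i t) ∂μ i)
            - ∫ t, F (Function.update x i t) ∂ν i) ∂Measure.pi (s.piecewise μ ν)|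
            ≤ ∫ _x, δ i ∂Measure.pi (s.piecewise μ ν) := by
          refine (abs_integral_le_integral_abs).trans ?_
          exact integral_mono (b1.sub b2).abs (integrable_const _) fun x => hδ i x
        simpa using this
      calc _ ≤ |∫ x, F x ∂Measure.pi ((insert i s).piecewise μ ν)
              - ∫ x, F x ∂Measure.pi (s.piecewise μ ν)|
            + |∫ x, F x ∂Measure.pi (s.piecewise μ ν) - ∫ x, F x ∂Measure.pi ν| :=
            abs_sub_le _ _ _
        _ ≤ _ := add_le_add d ih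
  have := key Finset.univ
  simpa using this

end swap

/-- Two laws with three matching moments. -/
structure Match3 (ν1 ν2 : Measure ℝ) (m4 : ℝ) : Prop where
  p1 : IsProbabilityMeasure ν1
  p2 : IsProbabilityMeasure ν2
  i1 : ∀ k : ℕ, k ≤ 4 → Integrable (fun x : ℝ => x ^ k) ν1
  i2 : ∀ k : ℕ, k ≤ 4 → Integrable (fun x : ℝ => x ^ k) ν2
  eq : ∀ k : ℕ, k ≤ 3 → ∫ x, x ^ k ∂ν1 = ∫ x, x ^ k ∂ν2
  b1 : ∫ x, x ^ 4 ∂ν1 ≤ m4
  b2 : ∫ x, x ^ 4 ∂ν2 ≤ m4

/-- one variable comparison. -/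
theorem Match3.compare {ν1 ν2 : Measure ℝ} {m4 : ℝ} (h : Match3 ν1 ν2 m4) {g : ℝ → ℝ}
    (hg : Measurable g) {a0 a1 a2 a3 C : ℝ} (hC : 0 ≤ C)
    (ht : ∀ x, |g x - (a0 + a1 * x + a2 * x ^ 2 + a3 * x ^ 3)| ≤ C * |x| ^ 4) :
    |∫ x, g x ∂ν1 - ∫ x, g x ∂ν2| ≤ 2 * C * m4 := by
  haveI := h.p1
  haveI := h.p2
  have poly : ∀ (ν : Measure ℝ) [IsProbabilityMeasure ν],
      (∀ k : ℕ, k ≤ 4 → Integrable (fun x : ℝ => x ^ k) ν) →
      Integrable (fun x : ℝ => a0 + a1 * x + a2 * x ^ 2 + a3 * x ^ 3) ν ∧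
      ∫ x, (a0 + a1 * x + a2 * x ^ 2 + a3 * x ^ 3) ∂ν = a0 + a1 * (∫ x, x ^ 1 ∂ν)
        + a2 * (∫ x, x ^ 2 ∂ν) + a3 * (∫ x, x ^ 3 ∂ν) := by
    intro ν _ hi
    have j1 : Integrable (fun x : ℝ => a1 * x) ν := by
      simpa using (hi 1 (by norm_num)).const_mul a1
    have j2 : Integrable (fun x : ℝ => a2 * x ^ 2) ν := (hi 2 (by norm_num)).const_mul a2
    have j3 : Integrable (fun x : ℝ => a3 * x ^ 3) ν := (hi 3 (by norm_num)).const_mul a3
    refine ⟨(((integrable_const a0).add j1).add j2).add j3, ?_⟩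
    have s3 := integral_add (((integrable_const a0).add j1).add j2) j3
    have s2 := integral_add ((integrable_const a0).add j1) j2
    have s1 := integral_add (integrable_const a0) j1
    simp only [Pi.add_apply] at s1 s2 s3
    rw [s3, s2, s1, integral_const_mul, integral_const_mul, integral_const_mul]
    simp
  have rem : ∀ (ν : Measure ℝ) [IsProbabilityMeasure ν],
      (∀ k : ℕ, k ≤ 4 → Integrable (fun x : ℝ => x ^ k) ν) → ∫ x, x ^ 4 ∂ν ≤ m4 →
      |∫ x, g x ∂ν - (a0 + a1 * (∫ x, x ^ 1 ∂ν)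
        + a2 * (∫ x, x ^ 2 ∂ν) + a3 * (∫ x, x ^ 3 ∂ν))| ≤ C * m4 := by
    intro ν _ hi h4
    obtain ⟨pI, pe⟩ := poly ν hi
    have hR : Integrable (fun x => g x - (a0 + a1 * x + a2 * x ^ 2 + a3 * x ^ 3)) ν := by
      refine Integrable.mono' (g := fun x => C * x ^ 4) ((hi 4 le_rfl).const_mul C)
        (hg.sub (by fun_prop)).aestronglyMeasurable (Filter.Eventually.of_forall fun x => ?_)
      rw [Real.norm_eq_abs]
      refine (ht x).trans (le_of_eq ?_)
      rw [show |x| ^ 4 = x ^ 4 by rw [← abs_pow]; exact abs_of_nonneg (by positivity)]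
    have hgI : Integrable g ν := by
      have := hR.add pI
      refine this.congr (Filter.Eventually.of_forall fun x => ?_)
      simp
    rw [← pe, ← integral_sub hgI pI]
    refine (abs_integral_le_integral_abs).trans ?_
    calc ∫ x, |g x - (a0 + a1 * x + a2 * x ^ 2 + a3 * x ^ 3)| ∂ν
        ≤ ∫ x, C * x ^ 4 ∂ν := by
          refine integral_mono hR.abs ((hi 4 le_rfl).const_mul C) fun x => ?_
          refine (ht x).trans (le_of_eq ?_)
          rw [show |x| ^ 4 = x ^ 4 by rw [← abs_pow]; exact abs_of_nonneg (by positivity)]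
      _ = C * ∫ x, x ^ 4 ∂ν := integral_const_mul _ _
      _ ≤ C * m4 := mul_le_mul_of_nonneg_left h4 hC
  have r1 := rem ν1 h.i1 h.b1
  have r2 := rem ν2 h.i2 h.b2
  rw [h.eq 1 (by norm_num), h.eq 2 (by norm_num), h.eq 3 (by norm_num)] at r1
  have h3 := abs_sub_le (∫ x, g x ∂ν1) (a0 + a1 * (∫ x, x ^ 1 ∂ν2)
        + a2 * (∫ x, x ^ 2 ∂ν2) + a3 * (∫ x, x ^ 3 ∂ν2)) (∫ x, g x ∂ν2)
  have h4 := abs_sub_comm (a0 + a1 * (∫ x, x ^ 1 ∂ν2)
        + a2 * (∫ x, x ^ 2 ∂ν2) + a3 * (∫ x, x ^ 3 ∂ν2)) (∫ x, g x ∂ν2)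
  linarith

/-! ### the general Lindeberg bound -/

section main

variable {Y : Type*} [MeasurableSpace Y] {𝓐 𝓘 : Type*} [Fintype 𝓐] [Fintype 𝓘]

/-- local field of row `a`. -/
def field (r : 𝓐 → Y → ℝ) (t : 𝓘 → Y → ℝ) (A : 𝓐 × 𝓘 → ℝ) (a : 𝓐) (y : Y) : ℝ :=
  r a y + ∑ i, A (a, i) * t i y

/-- log-partition function. -/
noncomputable def logZ (μ : Measure Y) (ψ : 𝓐 → ℝ → ℝ) (r : 𝓐 → Y → ℝ) (t : 𝓘 → Y → ℝ)
    (A : 𝓐 × 𝓘 → ℝ) : ℝ :=
  Real.log (∫ y, Real.exp (∑ a, ψ a (field r t A a y)) ∂μ)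

theorem meas_field {r : 𝓐 → Y → ℝ} {t : 𝓘 → Y → ℝ} (hr : ∀ a, Measurable (r a))
    (ht : ∀ i, Measurable (t i)) (A : 𝓐 × 𝓘 → ℝ) (a : 𝓐) : Measurable (field r t A a) := by
  unfold field
  exact (hr a).add (Finset.measurable_fun_sum _ fun i _ => (ht i).const_mul _)

variable [DecidableEq 𝓐] [DecidableEq 𝓘]

theorem field_update_ne (r : 𝓐 → Y → ℝ) (t : 𝓘 → Y → ℝ) (A : 𝓐 × 𝓘 → ℝ) {a b : 𝓐} (i : 𝓘)
    (hb : b ≠ a) (x : ℝ) (y : Y) :
    field r t (Function.update A (a, i) x) b y = field r t A b y := by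
  unfold field
  congr 1
  refine Finset.sum_congr rfl fun j _ => ?_
  rw [Function.update_of_ne]
  intro h
  exact hb (congrArg Prod.fst h)

theorem field_update_self (r : 𝓐 → Y → ℝ) (t : 𝓘 → Y → ℝ) (A : 𝓐 × 𝓘 → ℝ) (a : 𝓐) (i : 𝓘)
    (x : ℝ) (y : Y) :
    field r t (Function.update A (a, i) x) a y
      = x * t i y + field r t (Function.update A (a, i) 0) a y := by
  unfold field
  have e : ∀ z : ℝ, ∑ j, Function.update A (a, i) z (a, j) * t j y
      = z * t i y + ∑ j ∈ Finset.univ.erase i, A (a, j) * t j y := by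
    intro z
    rw [← Finset.add_sum_erase Finset.univ _ (Finset.mem_univ i), Function.update_self]
    congr 1
    refine Finset.sum_congr rfl fun j hj => ?_
    rw [Function.update_of_ne]
    intro h
    exact (Finset.ne_of_mem_erase hj) (congrArg Prod.snd h)
  rw [e x, e 0]
  ring

/-- as a function of one entry, `logZ` is the function `L` of part B. -/
theorem logZ_update (μ : Measure Y) (ψ : 𝓐 → ℝ → ℝ) (r : 𝓐 → Y → ℝ) (t : 𝓘 → Y → ℝ)
    (A : 𝓐 × 𝓘 → ℝ) (a : 𝓐) (i : 𝓘) (x : ℝ) :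
    logZ μ ψ r t (Function.update A (a, i) x)
      = L μ (ψ a) (fun y => Real.exp (∑ b ∈ Finset.univ.erase a, ψ b (field r t A b y)))
          (t i) (field r t (Function.update A (a, i) 0) a) x := by
  unfold logZ L
  congr 1
  refine integral_congr_ae (Filter.Eventually.of_forall fun y => ?_)
  show Real.exp (∑ b, ψ b (field r t (Function.update A (a, i) x) b y)) = _
  rw [← Finset.add_sum_erase Finset.univ _ (Finset.mem_univ a), Real.exp_add,
    field_update_self]
  congr 2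
  refine Finset.sum_congr rfl fun b hb => ?_
  rw [field_update_ne _ _ _ _ (Finset.ne_of_mem_erase hb)]

/-- hypotheses on the potentials: `C^4` with bounded derivatives and bounded above. -/
structure Setup (μ : Measure Y) (K B κ : ℝ) (ψ : 𝓐 → ℝ → ℝ) (r : 𝓐 → Y → ℝ)
    (t : 𝓘 → Y → ℝ) : Prop where
  fin : IsFiniteMeasure μ
  ne : NeZero μ
  pot : ∀ a, IsPot K (ψ a)
  bdd : ∀ a x, ψ a x ≤ B
  mr : ∀ a, Measurable (r a)
  mt : ∀ i, Measurable (t i)
  κ0 : 0 ≤ κ
  bt : ∀ i y, |t i y| ≤ κ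

section
variable {μ : Measure Y} {K B κ : ℝ} {ψ : 𝓐 → ℝ → ℝ} {r : 𝓐 → Y → ℝ} {t : 𝓘 → Y → ℝ}

omit [DecidableEq 𝓐] [DecidableEq 𝓘] in
theorem Setup.meas_exp (S : Setup μ K B κ ψ r t) (s : Finset 𝓐) (A : 𝓐 × 𝓘 → ℝ) :
    Measurable (fun y => Real.exp (∑ b ∈ s, ψ b (field r t A b y))) := by
  refine Real.measurable_exp.comp (Finset.measurable_fun_sum _ fun b _ => ?_)
  obtain ⟨_, _, _, _, h⟩ := S.pot b
  exact h.continuous.measurable.comp (meas_field S.mr S.mt A b)

omit [DecidableEq 𝓐] [DecidableEq 𝓘] in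
theorem Setup.integrable_exp (S : Setup μ K B κ ψ r t) (A : 𝓐 × 𝓘 → ℝ) :
    Integrable (fun y => Real.exp (∑ b, ψ b (field r t A b y))) μ := by
  haveI := S.fin
  refine Integrable.mono' (g := fun _ => Real.exp (∑ _b : 𝓐, B)) (integrable_const _)
    (S.meas_exp _ A).aestronglyMeasurable (Filter.Eventually.of_forall fun y => ?_)
  rw [Real.norm_eq_abs, abs_of_pos (Real.exp_pos _)]
  exact Real.exp_le_exp.2 (Finset.sum_le_sum fun b _ => S.bdd b _)

theorem Setup.split (S : Setup μ K B κ ψ r t) (A : 𝓐 × 𝓘 → ℝ) (a : 𝓐) (i : 𝓘) :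
    Integrable (fun y => Real.exp (ψ a (field r t (Function.update A (a, i) 0) a y)) *
      Real.exp (∑ b ∈ Finset.univ.erase a, ψ b (field r t A b y))) μ ∧
    0 < ∫ y, Real.exp (ψ a (field r t (Function.update A (a, i) 0) a y)) *
      Real.exp (∑ b ∈ Finset.univ.erase a, ψ b (field r t A b y)) ∂μ := by
  haveI := S.fin
  haveI := S.ne
  have e : (fun y => Real.exp (ψ a (field r t (Function.update A (a, i) 0) a y)) *
      Real.exp (∑ b ∈ Finset.univ.erase a, ψ b (field r t A b y)))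
      = fun y => Real.exp (∑ b, ψ b (field r t (Function.update A (a, i) 0) b y)) := by
    funext y
    rw [← Finset.add_sum_erase Finset.univ _ (Finset.mem_univ a), Real.exp_add]
    congr 2
    refine Finset.sum_congr rfl fun b hb => ?_
    rw [field_update_ne _ _ _ _ (Finset.ne_of_mem_erase hb)]
  rw [e]
  exact ⟨S.integrable_exp _, integral_exp_pos (S.integrable_exp _)⟩

theorem Setup.taylor (S : Setup μ K B κ ψ r t) (A : 𝓐 × 𝓘 → ℝ) (a : 𝓐) (i : 𝓘) :
    ∃ a0 a1 a2 a3 : ℝ, ∀ x, |logZ μ ψ r t (Function.update A (a, i) x)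
      - (a0 + a1 * x + a2 * x ^ 2 + a3 * x ^ 3)| ≤ 26 * cK K ^ 4 * κ ^ 4 * |x| ^ 4 := by
  obtain ⟨_, _, _, _, h⟩ := S.pot a
  obtain ⟨s1, s2⟩ := S.split A a i
  obtain ⟨a0, a1, a2, a3, H⟩ := L_taylor h (S.meas_exp _ A) (fun y => (Real.exp_pos _).le)
    (S.mt i) (meas_field S.mr S.mt _ a) S.κ0 (S.bt i) s1 s2
  refine ⟨a0, a1, a2, a3, fun x => ?_⟩
  rw [logZ_update]
  exact H x

theorem Setup.lip1 (S : Setup μ K B κ ψ r t) (A : 𝓐 × 𝓘 → ℝ) (a : 𝓐) (i : 𝓘) (x x' : ℝ) :
    |logZ μ ψ r t (Function.update A (a, i) x) - logZ μ ψ r t (Function.update A (a, i) x')|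
      ≤ K * κ * |x - x'| := by
  obtain ⟨_, _, _, _, h⟩ := S.pot a
  obtain ⟨s1, s2⟩ := S.split A a i
  rw [logZ_update, logZ_update]
  exact L_lip h (S.meas_exp _ A) (fun y => (Real.exp_pos _).le)
    (S.mt i) (meas_field S.mr S.mt _ a) S.κ0 (S.bt i) s1 s2 x x'

omit [DecidableEq 𝓐] [DecidableEq 𝓘] in
/-- global Lipschitz bound in the entries (ℓ¹ norm). -/
theorem Setup.lip (S : Setup μ K B κ ψ r t) (A A' : 𝓐 × 𝓘 → ℝ) :
    |logZ μ ψ r t A - logZ μ ψ r t A'| ≤ K * κ * ∑ p, |A p - A' p| := by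
  classical
  have key : ∀ s : Finset (𝓐 × 𝓘),
      |logZ μ ψ r t (s.piecewise A A') - logZ μ ψ r t A'| ≤ K * κ * ∑ p ∈ s, |A p - A' p| := by
    intro s
    induction s using Finset.induction_on with
    | empty => simp
    | insert p s hp ih =>
      rw [Finset.sum_insert hp, mul_add]
      have e1 : (insert p s).piecewise A A' = Function.update (s.piecewise A A') p (A p) :=
        Finset.piecewise_insert _ _ _ _
      have e2 : s.piecewise A A' = Function.update (s.piecewise A A') p (A' p) := by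
        have : s.piecewise A A' p = A' p := Finset.piecewise_eq_of_notMem _ _ _ hp
        rw [← this, Function.update_eq_self]
      have d : |logZ μ ψ r t ((insert p s).piecewise A A') - logZ μ ψ r t (s.piecewise A A')|
          ≤ K * κ * |A p - A' p| := by
        rw [e1]
        nth_rewrite 2 [e2]
        exact S.lip1 (s.piecewise A A') p.1 p.2 (A p) (A' p)
      calc _ ≤ _ := abs_sub_le _ (logZ μ ψ r t (s.piecewise A A')) _
        _ ≤ _ := add_le_add d ih
  simpa using key Finset.univ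

omit [DecidableEq 𝓐] [DecidableEq 𝓘] in
theorem Setup.continuous (S : Setup μ K B κ ψ r t) : Continuous (logZ μ ψ r t) := by
  rw [continuous_iff_continuousAt]
  intro A
  rw [ContinuousAt, tendsto_iff_dist_tendsto_zero]
  have h1 : Filter.Tendsto (fun A' : 𝓐 × 𝓘 → ℝ => K * κ * ∑ p, |A' p - A p|) (nhds A)
      (nhds 0) := by
    have : Continuous (fun A' : 𝓐 × 𝓘 → ℝ => K * κ * ∑ p, |A' p - A p|) := by fun_prop
    simpa using this.tendsto A
  refine squeeze_zero (fun _ => dist_nonneg) (fun A' => ?_) h1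
  rw [Real.dist_eq]
  exact S.lip A' A

omit [DecidableEq 𝓐] [DecidableEq 𝓘] in
theorem Setup.growth (S : Setup μ K B κ ψ r t) (A : 𝓐 × 𝓘 → ℝ) :
    |logZ μ ψ r t A| ≤ |logZ μ ψ r t 0| + K * κ * ∑ p, |A p| := by
  have := S.lip A 0
  have h2 : |logZ μ ψ r t A| ≤ |logZ μ ψ r t A - logZ μ ψ r t 0| + |logZ μ ψ r t 0| := by
    calc |logZ μ ψ r t A| = |(logZ μ ψ r t A - logZ μ ψ r t 0) + logZ μ ψ r t 0| := by ring_nf
      _ ≤ _ := abs_add_le _ _
  simp only [Pi.zero_apply, sub_zero] at this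
  linarith

omit [DecidableEq 𝓐] [DecidableEq 𝓘] in
/-- integrability of the log-partition function against products of laws with a first moment. -/
theorem Setup.integrable (S : Setup μ K B κ ψ r t) {ρ : 𝓐 × 𝓘 → Measure ℝ}
    (hρ : ∀ p, IsProbabilityMeasure (ρ p)) (hint : ∀ p, Integrable (fun x : ℝ => x) (ρ p)) :
    Integrable (logZ μ ψ r t) (Measure.pi ρ) := by
  classical
  exact integrable_growth hρ hint S.continuous.measurable S.growth

omit [DecidableEq 𝓐] [DecidableEq 𝓘] in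
/-- **Lindeberg comparison** for log-partition functions with `C^4` potentials. -/
theorem Setup.lindeberg (S : Setup μ K B κ ψ r t) {ν1 ν2 : 𝓐 × 𝓘 → Measure ℝ} {m4 : ℝ}
    (h : ∀ p, Match3 (ν1 p) (ν2 p) m4) :
    |∫ A, logZ μ ψ r t A ∂Measure.pi ν1 - ∫ A, logZ μ ψ r t A ∂Measure.pi ν2|
      ≤ Fintype.card 𝓐 * Fintype.card 𝓘 * (52 * cK K ^ 4 * κ ^ 4 * m4) := by
  classical
  have hc := swap (fun p => (h p).p1) (fun p => (h p).p2)
    (fun p => by simpa using (h p).i1 1 (by norm_num))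
    (fun p => by simpa using (h p).i2 1 (by norm_num))
    S.continuous.measurable S.growth (δ := fun _ => 2 * (26 * cK K ^ 4 * κ ^ 4) * m4) ?_
  · refine hc.trans (le_of_eq ?_)
    rw [Finset.sum_const, Finset.card_univ, Fintype.card_prod, nsmul_eq_mul]
    push_cast
    ring
  · rintro ⟨a, i⟩ A
    obtain ⟨a0, a1, a2, a3, H⟩ := S.taylor A a i
    refine (h (a, i)).compare ?_ (by positivity) H
    exact S.continuous.measurable.comp (measurable_update A)

end

end main

end Crest.Agent.R146.LindC_846
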