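import Mathlib
import Crest.Prelude.Def_Perceptron
import Crest.Agent.R146.LindC_846

/-!
Lindeberg replacement, part D: the scale mixture `mixtureLaw ε` against the standard Gaussian law,
and the comparison under `patternLawMix` and `patternLaw`.
-/

set_option autoImplicit false

namespace Crest.Agent.R146.LindD_846

open MeasureTheory ProbabilityTheory Crest.Agent.R146.LindA_846 Crest.Agent.R146.LindB_846
  Crest.Agent.R146.LindC_846
open Crest.ProbabilityR.Perceptron

/-- all powers are integrable for a centred Gaussian law. -/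
theorem integrable_pow_gaussianReal (v : NNReal) (k : ℕ) :
    Integrable (fun x : ℝ => x ^ k) (gaussianReal 0 v) := by
  have h := memLp_id_gaussianReal (μ := 0) (v := v) (k : NNReal)
  have h2 := h.integrable_norm_pow'
  refine (integrable_norm_iff (by fun_prop)).1 ?_
  simpa using h2

theorem odd_moment_gaussianReal (v : NNReal) {k : ℕ} (hk : Odd k) :
    ∫ x, x ^ k ∂gaussianReal 0 v = 0 := by
  have hmap : (gaussianReal 0 v).map (fun x => -x) = gaussianReal 0 v := by
    rw [gaussianReal_map_neg]; simp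
  have h1 : ∫ x, x ^ k ∂gaussianReal 0 v = ∫ x, (-x) ^ k ∂gaussianReal 0 v := by
    conv_lhs => rw [← hmap]
    rw [integral_map (by fun_prop) (by fun_prop)]
  have h2 : ∫ x, (-x) ^ k ∂gaussianReal 0 v = - ∫ x, x ^ k ∂gaussianReal 0 v := by
    rw [← integral_neg]
    refine integral_congr_ae (Filter.Eventually.of_forall fun x => ?_)
    exact hk.neg_pow x
  linarith

theorem sq_moment_gaussianReal (v : NNReal) :
    ∫ x, x ^ 2 ∂gaussianReal 0 v = v := by
  have h := variance_fun_id_gaussianReal (μ := 0) (v := v)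
  rw [variance_eq_integral (by fun_prop)] at h
  rw [← h]
  refine integral_congr_ae (Filter.Eventually.of_forall fun x => ?_)
  simp [integral_id_gaussianReal]

theorem fourth_moment_le (v : NNReal) :
    ∫ x, x ^ 4 ∂gaussianReal 0 v ≤ 24 * Real.exp (v / 2) := by
  have hc : ∀ x : ℝ, x ^ 4 ≤ 12 * (Real.exp (1 * x) + Real.exp (-1 * x)) := by
    intro x
    have h1 : ∀ y : ℝ, 0 ≤ y → y ^ 4 / 24 ≤ Real.exp y := by
      intro y hy
      have := Real.pow_div_factorial_le_exp y hy 4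
      have h24 : ((Nat.factorial 4 : ℕ) : ℝ) = 24 := by norm_num [Nat.factorial]
      rw [h24] at this
      exact this
    have hcosh : x ^ 4 / 24 ≤ Real.cosh x := by
      have hs : HasSum (fun n : ℕ => x ^ (2 * n) / ((2 * n).factorial : ℝ)) (Real.cosh x) :=
        Real.hasSum_cosh x
      have := hs.summable.sum_le_tsum ({2} : Finset ℕ) (fun n _ => by
        have : 0 ≤ x ^ (2 * n) := by rw [pow_mul]; positivity
        positivity)
      rw [hs.tsum_eq] at this
      have h24 : ((Nat.factorial 4 : ℕ) : ℝ) = 24 := by norm_num [Nat.factorial]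
      simpa [h24] using this
    rw [Real.cosh_eq] at hcosh
    rw [one_mul, neg_one_mul]
    linarith
  have m : ∀ t : ℝ, ∫ x, Real.exp (t * x) ∂gaussianReal 0 v = Real.exp (v * t ^ 2 / 2) := by
    intro t
    have := congrFun (mgf_id_gaussianReal (μ := 0) (v := v)) t
    simpa [mgf] using this
  have i : ∀ t : ℝ, Integrable (fun x => Real.exp (t * x)) (gaussianReal 0 v) := fun t =>
    integrable_exp_mul_gaussianReal t
  calc ∫ x, x ^ 4 ∂gaussianReal 0 v
      ≤ ∫ x, 12 * (Real.exp (1 * x) + Real.exp (-1 * x)) ∂gaussianReal 0 v :=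
        integral_mono (integrable_pow_gaussianReal v 4) (((i 1).add (i (-1))).const_mul 12) hc
    _ = 24 * Real.exp (v / 2) := by
        rw [integral_const_mul, integral_add (i 1) (i (-1)), m 1, m (-1)]
        norm_num; ring

/-- the fourth moment bound used for all `ε ∈ [0,1]`. -/
noncomputable def m4c : ℝ := 24 * Real.exp 1

theorem isProbabilityMeasure_mixtureLaw (ε : ℝ) : IsProbabilityMeasure (mixtureLaw ε) := by
  refine ⟨?_⟩
  unfold mixtureLaw
  rw [Measure.add_apply, Measure.smul_apply, Measure.smul_apply, measure_univ, measure_univ]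
  simp only [smul_eq_mul, mul_one, ENNReal.smul_def]
  rw [← ENNReal.coe_add]
  norm_num

theorem integrable_mixtureLaw {ε : ℝ} {f : ℝ → ℝ}
    (h1 : Integrable f (gaussianReal 0 (Real.toNNReal (1 - ε))))
    (h2 : Integrable f (gaussianReal 0 (Real.toNNReal (1 + ε)))) :
    Integrable f (mixtureLaw ε) := by
  unfold mixtureLaw
  exact (h1.smul_measure_nnreal).add_measure (h2.smul_measure_nnreal)

theorem integral_mixtureLaw {ε : ℝ} {f : ℝ → ℝ}
    (h1 : Integrable f (gaussianReal 0 (Real.toNNReal (1 - ε))))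
    (h2 : Integrable f (gaussianReal 0 (Real.toNNReal (1 + ε)))) :
    ∫ x, f x ∂mixtureLaw ε = 2⁻¹ * (∫ x, f x ∂gaussianReal 0 (Real.toNNReal (1 - ε)))
      + 2⁻¹ * (∫ x, f x ∂gaussianReal 0 (Real.toNNReal (1 + ε))) := by
  unfold mixtureLaw
  rw [integral_add_measure (h1.smul_measure_nnreal) (h2.smul_measure_nnreal),
    integral_smul_nnreal_measure, integral_smul_nnreal_measure]
  simp [NNReal.smul_def]

theorem integrable_pow_mixtureLaw (ε : ℝ) (k : ℕ) :
    Integrable (fun x : ℝ => x ^ k) (mixtureLaw ε) :=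
  integrable_mixtureLaw (integrable_pow_gaussianReal _ k) (integrable_pow_gaussianReal _ k)

/-- MOMENT MATCHING. -/
theorem match3_mixtureLaw {ε : ℝ} (h0 : 0 ≤ ε) (h1 : ε ≤ 1) :
    Match3 (mixtureLaw ε) (gaussianReal 0 1) m4c := by
  have a1 : ((Real.toNNReal (1 - ε) : NNReal) : ℝ) = 1 - ε := Real.coe_toNNReal _ (by linarith)
  have a2 : ((Real.toNNReal (1 + ε) : NNReal) : ℝ) = 1 + ε := Real.coe_toNNReal _ (by linarith)
  refine ⟨isProbabilityMeasure_mixtureLaw ε, inferInstance,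
    fun k _ => integrable_pow_mixtureLaw ε k, fun k _ => integrable_pow_gaussianReal 1 k,
    ?_, ?_, ?_⟩
  · intro k hk
    rw [integral_mixtureLaw (integrable_pow_gaussianReal _ k) (integrable_pow_gaussianReal _ k)]
    interval_cases k
    · simp; norm_num
    · rw [odd_moment_gaussianReal _ (by decide), odd_moment_gaussianReal _ (by decide),
        odd_moment_gaussianReal _ (by decide)]; simp
    · rw [sq_moment_gaussianReal, sq_moment_gaussianReal, sq_moment_gaussianReal, a1, a2]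
      push_cast; ring
    · rw [odd_moment_gaussianReal _ (by decide), odd_moment_gaussianReal _ (by decide),
        odd_moment_gaussianReal _ (by decide)]; simp
  · rw [integral_mixtureLaw (integrable_pow_gaussianReal _ 4) (integrable_pow_gaussianReal _ 4)]
    have b1 := fourth_moment_le (Real.toNNReal (1 - ε))
    have b2 := fourth_moment_le (Real.toNNReal (1 + ε))
    rw [a1] at b1
    rw [a2] at b2
    have e1 : Real.exp ((1 - ε) / 2) ≤ Real.exp 1 := Real.exp_le_exp.2 (by linarith)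
    have e2 : Real.exp ((1 + ε) / 2) ≤ Real.exp 1 := Real.exp_le_exp.2 (by linarith)
    unfold m4c
    linarith
  · have b := fourth_moment_le 1
    have e : Real.exp (((1 : NNReal) : ℝ) / 2) ≤ Real.exp 1 := Real.exp_le_exp.2 (by norm_num)
    unfold m4c
    linarith

section law

variable {Y : Type*} [MeasurableSpace Y] {μ : Measure Y} {K B κ : ℝ}

/-- **Lindeberg comparison, generic index types**: products of `mixtureLaw ε` against products of
`gaussianReal 0 1`. -/
theorem lindeberg_mix {𝓐 𝓘 : Type*} [Fintype 𝓐] [Fintype 𝓘] {ψ : 𝓐 → ℝ → ℝ} {r : 𝓐 → Y → ℝ}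
    {t : 𝓘 → Y → ℝ} (S : Setup μ K B κ ψ r t) {ε : ℝ} (h0 : 0 ≤ ε) (h1 : ε ≤ 1) :
    |∫ A, logZ μ ψ r t A ∂(Measure.pi fun _ : 𝓐 × 𝓘 => mixtureLaw ε)
      - ∫ A, logZ μ ψ r t A ∂(Measure.pi fun _ : 𝓐 × 𝓘 => gaussianReal 0 1)|
      ≤ Fintype.card 𝓐 * Fintype.card 𝓘 * (52 * cK K ^ 4 * κ ^ 4 * m4c) :=
  S.lindeberg fun _ => match3_mixtureLaw h0 h1

/-- the same for the literal pattern laws. -/
theorem lindeberg_patternLaw {N : ℕ} {α : ℝ} {ψ : Fin (numPatterns N α) → ℝ → ℝ}
    {r : Fin (numPatterns N α) → Y → ℝ} {t : Fin N → Y → ℝ} (S : Setup μ K B κ ψ r t)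
    {ε : ℝ} (h0 : 0 ≤ ε) (h1 : ε ≤ 1) :
    |∫ A, logZ μ ψ r t A ∂patternLawMix N α ε - ∫ A, logZ μ ψ r t A ∂patternLaw N α|
      ≤ numPatterns N α * N * (52 * cK K ^ 4 * κ ^ 4 * m4c) := by
  have := lindeberg_mix S h0 h1
  simpa [patternLawMix, patternLaw] using this

/-- the same per coordinate with `κ = 2 N^(-1/2+τ)`: the difference is `O(N^(-1+4τ))`. -/
theorem lindeberg_patternLaw_rate {N : ℕ} (hN : 0 < N) {α τ : ℝ} (hα : 0 ≤ α)
    {ψ : Fin (numPatterns N α) → ℝ → ℝ}
    {r : Fin (numPatterns N α) → Y → ℝ} {t : Fin N → Y → ℝ}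
    (S : Setup μ K B (2 * (N : ℝ) ^ (-(1 / 2 : ℝ) + τ)) ψ r t)
    {ε : ℝ} (h0 : 0 ≤ ε) (h1 : ε ≤ 1) :
    |(∫ A, logZ μ ψ r t A ∂patternLawMix N α ε) / N - (∫ A, logZ μ ψ r t A ∂patternLaw N α) / N|
      ≤ 832 * α * cK K ^ 4 * m4c * (N : ℝ) ^ (-(1 : ℝ) + 4 * τ) := by
  have hN' : (0 : ℝ) < N := by exact_mod_cast hN
  have hM : (numPatterns N α : ℝ) ≤ α * N := Nat.floor_le (by positivity)
  have key := lindeberg_patternLaw S h0 h1
  rw [← sub_div, abs_div, abs_of_pos hN', div_le_iff₀ hN']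
  refine key.trans ?_
  have e : (2 * (N : ℝ) ^ (-(1 / 2 : ℝ) + τ)) ^ 4 = 16 * (N : ℝ) ^ (-(2 : ℝ) + 4 * τ) := by
    rw [mul_pow, ← Real.rpow_natCast ((N : ℝ) ^ (-(1 / 2 : ℝ) + τ)), ← Real.rpow_mul hN'.le]
    norm_num
    ring_nf
  have e2 : (N : ℝ) ^ (-(1 : ℝ) + 4 * τ) = N * (N : ℝ) ^ (-(2 : ℝ) + 4 * τ) := by
    conv_rhs => rw [← Real.rpow_one (N : ℝ)]
    rw [← Real.rpow_mul hN'.le, ← Real.rpow_add hN']
    congr 1; ring
  rw [e, e2]
  have c0 : 0 ≤ cK K ^ 4 := by positivity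
  have m0 : 0 ≤ m4c := by unfold m4c; positivity
  have p0 : 0 ≤ (N : ℝ) ^ (-(2 : ℝ) + 4 * τ) := by positivity
  have := mul_le_mul_of_nonneg_right hM
    (show 0 ≤ (N : ℝ) * (52 * cK K ^ 4 * (16 * (N : ℝ) ^ (-(2 : ℝ) + 4 * τ)) * m4c) by positivity)
  calc _ = (numPatterns N α : ℝ) * ((N : ℝ) * (52 * cK K ^ 4 *
        (16 * (N : ℝ) ^ (-(2 : ℝ) + 4 * τ)) * m4c)) := by ring
    _ ≤ _ := this
    _ = _ := by ring

/-- integrability under the two pattern laws. -/
theorem integrable_patternLawMix {N : ℕ} {α : ℝ} {ψ : Fin (numPatterns N α) → ℝ → ℝ}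
    {r : Fin (numPatterns N α) → Y → ℝ} {t : Fin N → Y → ℝ} (S : Setup μ K B κ ψ r t) (ε : ℝ) :
    Integrable (logZ μ ψ r t) (patternLawMix N α ε) := by
  unfold patternLawMix
  exact S.integrable (fun _ => isProbabilityMeasure_mixtureLaw ε)
    (fun _ => by simpa using integrable_pow_mixtureLaw ε 1)

theorem integrable_patternLaw {N : ℕ} {α : ℝ} {ψ : Fin (numPatterns N α) → ℝ → ℝ}
    {r : Fin (numPatterns N α) → Y → ℝ} {t : Fin N → Y → ℝ} (S : Setup μ K B κ ψ r t) :
    Integrable (logZ μ ψ r t) (patternLaw N α) := by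
  unfold patternLaw
  exact S.integrable (fun _ => inferInstance)
    (fun _ => by simpa using integrable_pow_gaussianReal 1 1)

end law

end Crest.Agent.R146.LindD_846
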