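import Crest.Agent.R146.P34Def_393
import Crest.Agent.R146.LindD_846

/-!
Row 146: assembly of S0203 and S0204 from the Props of `P34Def_393` (helper393).
-/

set_option autoImplicit false

namespace Crest.Agent.R146.Asm34_393

open MeasureTheory ProbabilityTheory Filter Topology
open Crest.ProbabilityR.Perceptron
open Crest.Agent.R146.P34Def_393

noncomputable section

section zero

variable {Ω : Type} [MeasurableSpace Ω] {P : Measure Ω} {B : NNReal → Ω → ℝ}
  {hB : ∀ t, Measurable (B t)}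

theorem Zero.mono_alpha (h1 : VB1 P B hB) {α α' k : ℝ} (h : Zero P B hB α k) (ha : α' ≤ α) :
    Zero P B hB α' k := by
  intro δ hδ
  obtain ⟨b0, hb0, hb⟩ := h δ hδ
  refine ⟨b0, hb0, fun b hbb m hm => (hb b hbb m hm).trans ?_⟩
  have h2 := (h1 b k (hb0.le.trans hbb) m).1
  have h3 : α * controlValue P B hB (qp b k) m ≤ α' * controlValue P B hB (qp b k) m :=
    mul_le_mul_of_nonpos_right ha h2
  unfold FF
  linarith

theorem Zero.mono_margin (h3 : VB3 P B hB) {α k k' : ℝ} (h : Zero P B hB α k') (hα : 0 ≤ α)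
    (hk : k ≤ k') : Zero P B hB α k := by
  intro δ hδ
  obtain ⟨b0, hb0, hb⟩ := h δ hδ
  refine ⟨b0, hb0, fun b hbb m hm => (hb b hbb m hm).trans ?_⟩
  have h2 := h3 b k k' (hb0.le.trans hbb) hk m
  unfold FF
  linarith [mul_le_mul_of_nonneg_left h2 hα]

theorem zero_base (h : KER P B hB) : Zero P B hB 1 0 := by
  intro δ hδ
  have h1 : Tendsto (fun b : ℝ => Real.log b / b) atTop (𝓝 0) := by
    have := Real.isLittleO_log_id_atTop.tendsto_div_nhds_zero
    simpa using this
  have h2 : ∀ᶠ b : ℝ in atTop, Real.log b / b < δ := h1.eventually_lt_const hδ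
  obtain ⟨b1, hb1⟩ := (h2.and (eventually_ge_atTop (1 : ℝ))).exists_forall_of_atTop
  refine ⟨max b1 1, by positivity, fun b hb m hm => ?_⟩
  have hb2 : b1 ≤ b := (le_max_left _ _).trans hb
  have hb3 : (1 : ℝ) ≤ b := (le_max_right _ _).trans hb
  refine le_trans ?_ (h b hb3 m hm)
  obtain ⟨h4, -⟩ := hb1 (1 + b) (by linarith)
  have h5 : Real.log (1 + b) < δ * (1 + b) := by
    rwa [div_lt_iff₀ (by linarith)] at h4
  nlinarith

theorem Zero.segment (h4 : VB4 P B hB) {α1 k1 α2 k2 t : ℝ} (hz1 : Zero P B hB α1 k1)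
    (hz2 : Zero P B hB α2 k2) (h1 : 0 < α1) (h2 : 0 < α2) (ht0 : 0 ≤ t) (ht1 : t ≤ 1) :
    Zero P B hB ((1 - t) * α1 + t * α2)
      (((1 - t) * α1 * k1 + t * α2 * k2) / ((1 - t) * α1 + t * α2)) := by
  set α := (1 - t) * α1 + t * α2 with hα
  have hαp : 0 < α := by
    rcases eq_or_lt_of_le ht0 with h | h
    · rw [hα, ← h]; simpa using h1
    · have : 0 ≤ (1 - t) * α1 := mul_nonneg (by linarith) h1.le
      have : 0 < t * α2 := mul_pos h h2
      linarith
  intro δ hδ
  obtain ⟨b1, hb1, hbb1⟩ := hz1 δ hδ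
  obtain ⟨b2, hb2, hbb2⟩ := hz2 δ hδ
  refine ⟨max b1 b2, by positivity, fun b hb m hm => ?_⟩
  have hb0 : 0 ≤ b := hb1.le.trans ((le_max_left _ _).trans hb)
  have e1 := hbb1 b ((le_max_left _ _).trans hb) m hm
  have e2 := hbb2 b ((le_max_right _ _).trans hb) m hm
  have hc := (h4 b hb0 m).2 (Set.mem_univ k1) (Set.mem_univ k2)
    (show 0 ≤ (1 - t) * α1 / α from div_nonneg (mul_nonneg (by linarith) h1.le) hαp.le)
    (show 0 ≤ t * α2 / α from div_nonneg (mul_nonneg ht0 h2.le) hαp.le)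
    (by rw [← add_div, ← hα, div_self hαp.ne'])
  have hk : ((1 - t) * α1 / α) • k1 + (t * α2 / α) • k2 =
      ((1 - t) * α1 * k1 + t * α2 * k2) / α := by
    simp only [smul_eq_mul]; field_simp
  rw [hk] at hc
  simp only [smul_eq_mul] at hc
  unfold FF at e1 e2 ⊢
  set V1 := controlValue P B hB (qp b k1) m
  set V2 := controlValue P B hB (qp b k2) m
  set V := controlValue P B hB (qp b (((1 - t) * α1 * k1 + t * α2 * k2) / α)) m
  have h5 : (1 - t) * α1 * V1 + t * α2 * V2 ≤ α * V := by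
    have := mul_le_mul_of_nonneg_left hc hαp.le
    have e : α * ((1 - t) * α1 / α * V1 + t * α2 / α * V2) =
        (1 - t) * α1 * V1 + t * α2 * V2 := by field_simp
    rwa [e] at this
  have e3 := mul_le_mul_of_nonneg_left e1 (by linarith : (0:ℝ) ≤ 1 - t)
  have e4 := mul_le_mul_of_nonneg_left e2 ht0
  nlinarith

end zero

/-! ### The lower bound for the mixture pressure -/

theorem lower {Ω : Type} [MeasurableSpace Ω] {P : Measure Ω} {B : NNReal → Ω → ℝ}
    {hB : ∀ t, Measurable (B t)} (hS6 : S6 P B hB) (h2 : VB2 P B hB) (hL : LIND2)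
    {α k ε : ℝ} (hα : 0 < α) (hε0 : 0 ≤ ε) (hε1 : ε < 1) (hz : Zero P B hB α k)
    {h : ℝ → ℝ} (hp : Pen k h) :
    ∀ δ : ℝ, 0 < δ → ∃ b : ℝ, 0 < b ∧ ∀ᶠ N in atTop,
      -δ * b ≤ mixPressure N α b (fun x => -h x) ε := by
  intro δ hδ
  obtain ⟨b, hb, hbb⟩ := hz (δ / 2) (half_pos hδ)
  refine ⟨b, hb, ?_⟩
  have hcont : Continuous (fun x => -h x) := ((hp.smooth 0).continuous).neg
  have hbd : ∃ K : ℝ, ∀ x, abs (-h x) ≤ K :=
    ⟨1, fun x => by rw [abs_neg, abs_of_nonneg (hp.nonneg x)]; exact hp.le_one x⟩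
  obtain ⟨p, hp1, hp2, -⟩ := hS6 α b hα hb (fun x => -h x) hcont hbd
  have hpl : -(δ / 2) * b ≤ p := by
    have : ((-(δ / 2) * b : ℝ) : EReal) ≤ (p : EReal) := by
      rw [← hp1]
      refine le_iInf fun m => ?_
      unfold variationalFunctional
      by_cases hm : m.entropy = ⊤
      · rw [hm, show ((⊤ : ENNReal) : EReal) = ⊤ from rfl, EReal.coe_add_top]
        exact le_top
      · have h3 := hbb b le_rfl m hm
        have h4 : controlValue P B hB (qp b k) m ≤
            controlValue P B hB (fun x => b * -h x) m := by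
          refine h2 b k hb.le (fun x => b * -h x) (continuous_const.mul hcont)
            ⟨b, fun x => ?_⟩ (fun x => ?_) m
          · rw [abs_mul, abs_of_pos hb, abs_neg, abs_of_nonneg (hp.nonneg x)]
            nlinarith [hp.le_one x]
          · have := hp.le_quad x
            unfold qp
            nlinarith
        have h5 : -(δ / 2) * b ≤ α * controlValue P B hB (fun x => b * -h x) m +
            m.entropy.toReal := by
          unfold FF at h3
          nlinarith [mul_le_mul_of_nonneg_left h4 hα.le]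
        have h6 : (m.entropy : EReal) = ((m.entropy.toReal : ℝ) : EReal) := by
          rw [EReal.coe_ennreal_toReal hm]
        rw [h6, ← EReal.coe_add]
        exact_mod_cast h5
    exact_mod_cast this
  have hLN := hL ε hε0 hε1 α b hα hb (fun x => -h x) (fun n => (hp.smooth n).neg) (fun n => ?_) p
    hp2 (δ / 2 * b) (by positivity)
  · filter_upwards [hLN] with N hN
    nlinarith
  · obtain ⟨C, hC⟩ := hp.bdd n
    refine ⟨C, fun x => ?_⟩
    have : iteratedDeriv n (fun x => -h x) x = -iteratedDeriv n h x := by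
      simp
    rw [this, abs_neg]
    exact hC x

/-- SAT side for every `ε < 1`. -/
theorem sat_mix {Ω : Type} [MeasurableSpace Ω] {P : Measure Ω} {B : NNReal → Ω → ℝ}
    {hB : ∀ t, Measurable (B t)} (hS6 : S6 P B hB) (h2 : VB2 P B hB) (hL : LIND2) (hN : NEAR)
    (hPen : PEN) {α η ε : ℝ} (hα : 0 < α) (hη0 : 0 < η) (hη1 : η ≤ 1) (hε0 : 0 ≤ ε) (hε1 : ε < 1)
    (hz : Zero P B hB α (-1 + η)) :
    Tendsto (fun N : ℕ => satProbMix N α ε) atTop (𝓝 1) := by
  obtain ⟨h, hh⟩ := hPen (-1 + η)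
  obtain ⟨τ0, hτ0, H⟩ := RepairFin_840.satProbMix_tendsto_one α hα.le ε hε0 hε1.le η hη0 hη1
  exact H τ0 le_rfl (hN ε hε0 hε1 α hα η hη0 hη1 h hh
    (lower hS6 h2 hL hα hε0 hε1 hz hh) τ0 hτ0)

/-! ### Monotonicity in the density, `ε = 0` -/

theorem mixtureLaw_zero : mixtureLaw 0 = gaussianReal 0 1 := by
  unfold mixtureLaw
  rw [sub_zero, add_zero, Real.toNNReal_one, ← add_smul]
  have : (2⁻¹ + 2⁻¹ : NNReal) = 1 := by
    rw [← two_mul]; exact mul_inv_cancel₀ (by norm_num)
  rw [this, one_smul]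

theorem satProbMix_zero (N : ℕ) (α : ℝ) : satProbMix N α 0 = satProb N α := by
  unfold satProbMix satProb patternLawMix patternLaw
  rw [mixtureLaw_zero]

theorem measurePreserving_comp_inj {I J : Type*} [Fintype I] [Fintype J] {r : J → I}
    (hr : Function.Injective r) {ν : Measure ℝ} [IsProbabilityMeasure ν] :
    MeasurePreserving (fun (A : I → ℝ) (j : J) => A (r j)) (Measure.pi fun _ : I => ν)
      (Measure.pi fun _ : J => ν) := by
  classical
  have hm : Measurable (fun (A : I → ℝ) (j : J) => A (r j)) :=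
    measurable_pi_lambda _ fun j => measurable_pi_apply _
  refine ⟨hm, ?_⟩
  refine (Measure.pi_eq fun s hs => ?_).symm
  rw [Measure.map_apply hm (MeasurableSet.univ_pi hs)]
  have h1 : (fun (A : I → ℝ) (j : J) => A (r j)) ⁻¹' (Set.univ.pi s) =
      Set.univ.pi (fun i : I => if h : ∃ j, r j = i then s h.choose else Set.univ) := by
    ext A
    simp only [Set.mem_preimage, Set.mem_pi, Set.mem_univ, true_implies]
    constructor
    · intro h i
      by_cases hi : ∃ j, r j = i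
      · rw [dif_pos hi]
        have := h hi.choose
        rwa [hi.choose_spec] at this
      · rw [dif_neg hi]; exact Set.mem_univ _
    · intro h j
      have h2 := h (r j)
      have hi : ∃ j', r j' = r j := ⟨j, rfl⟩
      rw [dif_pos hi] at h2
      have h3 : hi.choose = j := hr hi.choose_spec
      rwa [h3] at h2
  rw [h1, Measure.pi_pi]
  have h2 : ∀ i : I, i ∉ Finset.univ.image r →
      ν (if h : ∃ j, r j = i then s h.choose else Set.univ) = 1 := by
    intro i hi
    have : ¬ ∃ j, r j = i := by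
      rintro ⟨j, rfl⟩; exact hi (Finset.mem_image_of_mem _ (Finset.mem_univ j))
    rw [dif_neg this]; exact measure_univ
  rw [← Finset.prod_subset (Finset.subset_univ (Finset.univ.image r)) fun i _ hi => h2 i hi,
    Finset.prod_image fun _ _ _ _ h => hr h]
  refine Finset.prod_congr rfl fun j _ => ?_
  have hi : ∃ j', r j' = r j := ⟨j, rfl⟩
  rw [dif_pos hi]
  have h3 : hi.choose = j := hr hi.choose_spec
  rw [h3]

instance prob_mix (ε : ℝ) : IsProbabilityMeasure (mixtureLaw ε) :=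
  LindD_846.isProbabilityMeasure_mixtureLaw ε

theorem satProbMix_anti (N : ℕ) (ε : ℝ) {α α' : ℝ} (h : α ≤ α') :
    satProbMix N α' ε ≤ satProbMix N α ε := by
  have hM : numPatterns N α ≤ numPatterns N α' := by
    unfold numPatterns
    exact Nat.floor_le_floor (mul_le_mul_of_nonneg_right h (Nat.cast_nonneg N))
  -- restriction of the rows
  let r : Fin (numPatterns N α) × Fin N → Fin (numPatterns N α') × Fin N :=
    fun p => (Fin.castLE hM p.1, p.2)
  have hr : Function.Injective r := by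
    rintro ⟨a, i⟩ ⟨b, j⟩ hab
    have h1 : Fin.castLE hM a = Fin.castLE hM b := congrArg Prod.fst hab
    have h2 : i = j := congrArg Prod.snd hab
    rw [(Fin.castLE_injective hM) h1, h2]
  have hmp : MeasurePreserving (fun (A : Patterns N α') p => A (r p))
      (patternLawMix N α' ε) (patternLawMix N α ε) := by
    unfold patternLawMix
    exact measurePreserving_comp_inj hr
  have hsub : {A : Patterns N α' | IsSat A} ⊆ (fun (A : Patterns N α') p => A (r p)) ⁻¹'
      {A : Patterns N α | IsSat A} := by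
    rintro A ⟨y, hy, hA⟩
    exact ⟨y, hy, fun μ => hA (Fin.castLE hM μ)⟩
  unfold satProbMix
  calc patternLawMix N α' ε {A | IsSat A} ≤ patternLawMix N α' ε
        ((fun (A : Patterns N α') p => A (r p)) ⁻¹' {A : Patterns N α | IsSat A}) :=
        measure_mono hsub
    _ ≤ (patternLawMix N α' ε).map (fun (A : Patterns N α') p => A (r p))
        {A : Patterns N α | IsSat A} := Measure.le_map_apply hmp.measurable.aemeasurable _
    _ = patternLawMix N α ε {A | IsSat A} := by rw [hmp.map_eq]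

/-! ### Main theorem -/

/-- the critical density -/
def alphaC {Ω : Type} [MeasurableSpace Ω] (P : Measure Ω) (B : NNReal → Ω → ℝ)
    (hB : ∀ t, Measurable (B t)) : ℝ := sSup {α : ℝ | Zero P B hB α (-1)}

section main

variable {Ω : Type} [MeasurableSpace Ω] {P : Measure Ω} {B : NNReal → Ω → ℝ}
  {hB : ∀ t, Measurable (B t)}

theorem bddAbove_zero (h1 : VB1 P B hB) (hF : FIN P B hB) :
    BddAbove {α : ℝ | Zero P B hB α (-1)} := by
  obtain ⟨α1, -, hα1⟩ := hF
  refine ⟨α1, fun α hα => ?_⟩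
  by_contra hlt
  push Not at hlt
  exact hα1 (Zero.mono_alpha h1 hα hlt.le)

theorem one_mem (h3 : VB3 P B hB) (hK : KER P B hB) : Zero P B hB 1 (-1) :=
  Zero.mono_margin h3 (zero_base hK) zero_le_one (by norm_num)

theorem one_le_alphaC (h1 : VB1 P B hB) (h3 : VB3 P B hB) (hK : KER P B hB) (hF : FIN P B hB) :
    1 ≤ alphaC P B hB :=
  le_csSup (bddAbove_zero h1 hF) (one_mem h3 hK)

theorem not_zero_of_gt (h1 : VB1 P B hB) (hF : FIN P B hB) {α : ℝ} (h : alphaC P B hB < α) :
    ¬ Zero P B hB α (-1) := fun hz =>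
  absurd (le_csSup (bddAbove_zero h1 hF) hz) (not_le.2 h)

theorem zero_of_lt (h1 : VB1 P B hB) (h3 : VB3 P B hB) (h4 : VB4 P B hB) (hK : KER P B hB)
    {α : ℝ} (hα0 : 0 < α) (h : α < alphaC P B hB) :
    ∃ η : ℝ, 0 < η ∧ η ≤ 1 ∧ Zero P B hB α (-1 + η) := by
  obtain ⟨α', hα', hlt⟩ := exists_lt_of_lt_csSup ⟨1, one_mem h3 hK⟩ h
  have hz' : Zero P B hB α' (-1) := hα'
  set a0 := min 1 α / 2 with ha0
  have ha0p : 0 < a0 := by
    have : 0 < min 1 α := lt_min one_pos hα0
    positivity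
  have ha01 : a0 ≤ 1 := by
    have : min 1 α ≤ 1 := min_le_left _ _
    linarith
  have ha0α : a0 < α := by
    have h5 : min 1 α ≤ α := min_le_right _ _
    have : 0 < min 1 α := lt_min one_pos hα0
    linarith
  have hz0 : Zero P B hB a0 0 := Zero.mono_alpha h1 (zero_base hK) ha01
  have hden : 0 < α' - a0 := by linarith
  set t := (α' - α) / (α' - a0) with ht
  have ht0 : 0 < t := div_pos (by linarith) hden
  have ht1 : t ≤ 1 := by rw [ht, div_le_one hden]; linarith
  have hαt : (1 - t) * α' + t * a0 = α := by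
    have : t * (α' - a0) = α' - α := by rw [ht]; field_simp
    nlinarith
  have hseg := Zero.segment h4 hz' hz0 (by linarith : (0 : ℝ) < α') ha0p ht0.le ht1
  rw [hαt] at hseg
  have hk : ((1 - t) * α' * (-1) + t * a0 * 0) / α = -1 + t * a0 / α := by
    field_simp
    nlinarith
  rw [hk] at hseg
  refine ⟨t * a0 / α, by positivity, ?_, hseg⟩
  rw [div_le_one hα0]
  have h6 : 0 ≤ (1 - t) * α' := mul_nonneg (by linarith) (by linarith)
  linarith

/-- **S0203 and S0204 from the Props.** -/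
theorem main34 (hS6 : S6 P B hB) (h1 : VB1 P B hB) (h2 : VB2 P B hB) (h3 : VB3 P B hB)
    (h4 : VB4 P B hB) (hK : KER P B hB) (hF : FIN P B hB) (hL : LIND2) (hN : NEAR) (hPen : PEN)
    (hU : UNSAT P B hB) :
    ∃ ε0 : ℝ, 0 < ε0 ∧ ε0 < 1 ∧ ∀ ε : ℝ, 0 ≤ ε → ε < ε0 → IsSharpThreshold ε (alphaC P B hB) := by
  have hc1 := one_le_alphaC h1 h3 hK hF
  obtain ⟨ε0, hε0, hε01, H⟩ := hU 1 (alphaC P B hB + 1) one_pos (by linarith)
  refine ⟨ε0, hε0, hε01, fun ε he0 he1 => ⟨fun α hα0 hα => ?_, fun α hα => ?_⟩⟩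
  · obtain ⟨η, hη0, hη1, hz⟩ := zero_of_lt h1 h3 h4 hK hα0 hα
    exact sat_mix hS6 h2 hL hN hPen hα0 hη0 hη1 he0 (he1.trans hε01) hz
  · set α' := min α (alphaC P B hB + 1) with hα'
    have h5 : alphaC P B hB < α' := lt_min hα (by linarith)
    have h6 := H ε he0 he1 α' (by linarith) (min_le_right _ _) (not_zero_of_gt h1 hF h5)
    refine tendsto_of_tendsto_of_tendsto_of_le_of_le tendsto_const_nhds h6
      (fun N => bot_le) (fun N => satProbMix_anti N ε (min_le_left _ _))

/-- literal S0203 -/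
theorem s0203 (hS6 : S6 P B hB) (h1 : VB1 P B hB) (h2 : VB2 P B hB) (h3 : VB3 P B hB)
    (h4 : VB4 P B hB) (hK : KER P B hB) (hF : FIN P B hB) (hL : LIND2) (hN : NEAR) (hPen : PEN)
    (hU : UNSAT P B hB) :
    ∃ αc : ℝ, 0 < αc ∧
      (∀ α : ℝ, 0 < α → α < αc →
        Filter.Tendsto (fun N : ℕ => satProb N α) Filter.atTop (nhds 1)) ∧
      (∀ α : ℝ, αc < α →
        Filter.Tendsto (fun N : ℕ => satProb N α) Filter.atTop (nhds 0)) := by
  obtain ⟨ε0, hε0, -, H⟩ := main34 hS6 h1 h2 h3 h4 hK hF hL hN hPen hU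
  have hc1 := one_le_alphaC h1 h3 hK hF
  obtain ⟨h5, h6⟩ := H 0 le_rfl hε0
  simp only [satProbMix_zero] at h5 h6
  exact ⟨alphaC P B hB, by linarith, h5, h6⟩

/-- literal S0204 -/
theorem s0204 (hS6 : S6 P B hB) (h1 : VB1 P B hB) (h2 : VB2 P B hB) (h3 : VB3 P B hB)
    (h4 : VB4 P B hB) (hK : KER P B hB) (hF : FIN P B hB) (hL : LIND2) (hN : NEAR) (hPen : PEN)
    (hU : UNSAT P B hB) :
    ∃ αc : ℝ, 0 < αc ∧ ∃ ε₀ : ℝ, 0 < ε₀ ∧ ε₀ < 1 ∧
      ∀ ε : ℝ, 0 ≤ ε → ε < ε₀ → IsSharpThreshold ε αc := by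
  obtain ⟨ε0, hε0, hε01, H⟩ := main34 hS6 h1 h2 h3 h4 hK hF hL hN hPen hU
  have hc1 := one_le_alphaC h1 h3 hK hF
  exact ⟨alphaC P B hB, by linarith, ε0, hε0, hε01, H⟩

end main

end

end Crest.Agent.R146.Asm34_393
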