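import Mathlib

/-!
Row 146, package ASSOC, part 0: block resampling of a product law and the one-variable
association (Chebyshev) inequality for ratios of integrals.
-/

set_option autoImplicit false

namespace Crest.Agent.R146.Assoc_323

open MeasureTheory

/-- The array which is `x'` on the block `p` and `x` off it. -/
def mix {ι X : Type*} (p : ι → Prop) [DecidablePred p] (x x' : ι → X) : ι → X :=
  fun i => if p i then x' i else x i

theorem mix_apply_of {ι X : Type*} (p : ι → Prop) [DecidablePred p] (x x' : ι → X) {i : ι}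
    (h : p i) : mix p x x' i = x' i := by simp [mix, h]

theorem mix_apply_of_not {ι X : Type*} (p : ι → Prop) [DecidablePred p] (x x' : ι → X) {i : ι}
    (h : ¬ p i) : mix p x x' i = x i := by simp [mix, h]

/-- Resampling a block leaves the product law invariant. -/
theorem measurePreserving_mix {ι X : Type*} [Fintype ι] [MeasurableSpace X] (ν : ι → Measure X)
    [∀ i, IsProbabilityMeasure (ν i)] (p : ι → Prop) [DecidablePred p] :
    MeasurePreserving (fun z : (ι → X) × (ι → X) => mix p z.1 z.2)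
      ((Measure.pi ν).prod (Measure.pi ν)) (Measure.pi ν) := by
  have h1 := (measurePreserving_arrowProdEquivProdArrow X X ι ν ν).symm
  have h2 : MeasurePreserving
      (fun (a : ι → X × X) (i : ι) => (if p i then Prod.snd else Prod.fst : X × X → X) (a i))
      (Measure.pi fun i => (ν i).prod (ν i)) (Measure.pi ν) := by
    refine measurePreserving_pi (fun i => (ν i).prod (ν i)) ν
      (f := fun i => (if p i then Prod.snd else Prod.fst : X × X → X)) (fun i => ?_)
    by_cases h : p i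
    · simp only [h, if_true]
      exact measurePreserving_snd
    · simp only [h, if_false]
      exact measurePreserving_fst
  have h3 := h2.comp h1
  have e : (fun z : (ι → X) × (ι → X) => mix p z.1 z.2) =
      (fun (a : ι → X × X) (i : ι) => (if p i then Prod.snd else Prod.fst : X × X → X) (a i)) ∘
        (MeasurableEquiv.arrowProdEquivProdArrow X X ι).symm := by
    funext z i
    by_cases h : p i <;>
      simp [mix, h, MeasurableEquiv.arrowProdEquivProdArrow, Equiv.arrowProdEquivProdArrow]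
  rw [e]
  exact h3

/-- `∫⁻` form of block resampling. -/
theorem lintegral_mix {ι X : Type*} [Fintype ι] [MeasurableSpace X] (ν : ι → Measure X)
    [∀ i, IsProbabilityMeasure (ν i)] (p : ι → Prop) [DecidablePred p]
    (F : (ι → X) → ENNReal) (hF : Measurable F) :
    ∫⁻ A, F A ∂(Measure.pi ν) =
      ∫⁻ A, ∫⁻ A', F (mix p A A') ∂(Measure.pi ν) ∂(Measure.pi ν) := by
  have h := measurePreserving_mix ν p
  rw [← h.lintegral_comp hF]
  exact lintegral_prod _ (hF.comp h.measurable).aemeasurable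

section Ratio

variable {Y : Type*} [MeasurableSpace Y]

/-- A measurable function which is bounded is integrable for a finite measure. -/
theorem integrable_bdd (ν : Measure Y) [IsFiniteMeasure ν] {f : Y → ℝ} (hf : Measurable f)
    (B : ℝ) (hB : ∀ ω, |f ω| ≤ B) : Integrable f ν :=
  Integrable.of_bound hf.aestronglyMeasurable B (ae_of_all _ fun ω => by
    simpa [Real.norm_eq_abs] using hB ω)

omit [MeasurableSpace Y] in
/-- A monotone function of a bounded variable is bounded. -/
theorem bdd_of_monotone {f : ℝ → ℝ} (hf : Monotone f) {X : Y → ℝ} {B : ℝ}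
    (hB : ∀ ω, |X ω| ≤ B) (ω : Y) : |f (X ω)| ≤ |f B| + |f (-B)| := by
  have h1 := hf (abs_le.1 (hB ω)).1
  have h2 := hf (abs_le.1 (hB ω)).2
  rw [abs_le]
  constructor
  · have := neg_abs_le (f (-B)); have := abs_nonneg (f B); linarith
  · have := le_abs_self (f B); have := abs_nonneg (f (-B)); linarith

/-- Chebyshev association for one real variable. -/
theorem assoc_mul (ν : Measure Y) [IsFiniteMeasure ν] {X : Y → ℝ} (hX : Measurable X)
    {B : ℝ} (hB : ∀ ω, |X ω| ≤ B) {w χ : ℝ → ℝ} (hw : Monotone w) (hχ : Antitone χ) :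
    (∫ ω, χ (X ω) * w (X ω) ∂ν) * ν.real Set.univ ≤
      (∫ ω, χ (X ω) ∂ν) * ∫ ω, w (X ω) ∂ν := by
  have hχ' : Monotone fun x => -χ x := fun a b h => neg_le_neg (hχ h)
  have hwm : Measurable fun ω => w (X ω) := hw.measurable.comp hX
  have hχm : Measurable fun ω => χ (X ω) := hχ.measurable.comp hX
  have bw : ∀ ω, |w (X ω)| ≤ |w B| + |w (-B)| := bdd_of_monotone hw hB
  have bχ : ∀ ω, |χ (X ω)| ≤ |χ B| + |χ (-B)| := fun ω => by
    have := bdd_of_monotone hχ' hB ω
    simpa using this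
  have iw := integrable_bdd ν hwm _ bw
  have iχ := integrable_bdd ν hχm _ bχ
  have iχw : Integrable (fun ω => χ (X ω) * w (X ω)) ν := by
    refine integrable_bdd ν (hχm.mul hwm) ((|χ B| + |χ (-B)|) * (|w B| + |w (-B)|)) fun ω => ?_
    rw [abs_mul]
    exact mul_le_mul (bχ ω) (bw ω) (abs_nonneg _) (by positivity)
  have key : ∫ ω, (∫ ω', (χ (X ω) - χ (X ω')) * (w (X ω) - w (X ω')) ∂ν) ∂ν ≤ 0 := by
    refine integral_nonpos fun ω => integral_nonpos fun ω' => ?_
    rcases le_total (X ω) (X ω') with h | h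
    · exact mul_nonpos_of_nonneg_of_nonpos (sub_nonneg.2 (hχ h)) (sub_nonpos.2 (hw h))
    · exact mul_nonpos_of_nonpos_of_nonneg (sub_nonpos.2 (hχ h)) (sub_nonneg.2 (hw h))
  have inner : ∀ ω, ∫ ω', (χ (X ω) - χ (X ω')) * (w (X ω) - w (X ω')) ∂ν =
      χ (X ω) * w (X ω) * ν.real Set.univ - χ (X ω) * (∫ ω', w (X ω') ∂ν) -
        w (X ω) * (∫ ω', χ (X ω') ∂ν) + ∫ ω', χ (X ω') * w (X ω') ∂ν := by
    intro ω
    have e : (fun ω' => (χ (X ω) - χ (X ω')) * (w (X ω) - w (X ω'))) = fun ω' =>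
        χ (X ω) * w (X ω) - χ (X ω) * w (X ω') - w (X ω) * χ (X ω') + χ (X ω') * w (X ω') := by
      funext ω'; ring
    rw [e, integral_add _ iχw, integral_sub _ (iχ.const_mul _), integral_sub (integrable_const _)
      (iw.const_mul _), integral_const, integral_const_mul, integral_const_mul, smul_eq_mul]
    · ring
    · exact (integrable_const _).sub (iw.const_mul _)
    · exact ((integrable_const _).sub (iw.const_mul _)).sub (iχ.const_mul _)
  simp_rw [inner] at key
  rw [integral_add _ (integrable_const _), integral_sub _ (iw.mul_const _),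
    integral_sub (iχw.mul_const _) (iχ.mul_const _), integral_mul_const, integral_mul_const,
    integral_mul_const, integral_const, smul_eq_mul] at key
  · nlinarith [key]
  · exact (iχw.mul_const _).sub (iχ.mul_const _)
  · exact ((iχw.mul_const _).sub (iχ.mul_const _)).sub (iw.mul_const _)

/-- The ratio form: the average of a nonnegative nonincreasing function under a weight
comparable (up to the factor `K`) with a nondecreasing one is at most `K` times the plain
average. -/
theorem assoc_ratio (ν : Measure Y) [IsFiniteMeasure ν] (hν : ν ≠ 0) {X : Y → ℝ}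
    (hX : Measurable X) {B : ℝ} (hB : ∀ ω, |X ω| ≤ B) {w w₁ χ : ℝ → ℝ} {K : ℝ}
    (hw₁ : Monotone w₁) (hpos : ∀ x, 0 < w₁ x) (hwm : Measurable w)
    (hlow : ∀ x, w₁ x ≤ w x) (hup : ∀ x, w x ≤ K * w₁ x)
    (hχ : Antitone χ) (hχ0 : ∀ x, 0 ≤ χ x) :
    (∫ ω, χ (X ω) * w (X ω) ∂ν) / (∫ ω, w (X ω) ∂ν) ≤
      K * ((∫ ω, χ (X ω) ∂ν) / ν.real Set.univ) := by
  have hχ' : Monotone fun x => -χ x := fun a b h => neg_le_neg (hχ h)
  have bχ : ∀ ω, |χ (X ω)| ≤ |χ B| + |χ (-B)| := fun ω => by
    have := bdd_of_monotone hχ' hB ω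
    simpa using this
  have bw₁ : ∀ ω, |w₁ (X ω)| ≤ |w₁ B| + |w₁ (-B)| := bdd_of_monotone hw₁ hB
  have hK : 0 ≤ K := by
    by_contra hneg
    have h1 := (hpos 0).trans_le ((hlow 0).trans (hup 0))
    nlinarith [hpos 0]
  have bw : ∀ ω, |w (X ω)| ≤ K * (|w₁ B| + |w₁ (-B)|) := fun ω => by
    rw [abs_of_pos ((hpos _).trans_le (hlow _))]
    refine (hup _).trans (mul_le_mul_of_nonneg_left ?_ hK)
    exact (le_abs_self _).trans (bw₁ ω)
  have hw₁m : Measurable fun ω => w₁ (X ω) := hw₁.measurable.comp hX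
  have hχm : Measurable fun ω => χ (X ω) := hχ.measurable.comp hX
  have iw₁ := integrable_bdd ν hw₁m _ bw₁
  have iw := integrable_bdd ν (hwm.comp hX) _ bw
  have iχ := integrable_bdd ν hχm _ bχ
  have iχw₁ : Integrable (fun ω => χ (X ω) * w₁ (X ω)) ν := by
    refine integrable_bdd ν (hχm.mul hw₁m) ((|χ B| + |χ (-B)|) * (|w₁ B| + |w₁ (-B)|)) fun ω => ?_
    rw [abs_mul]
    exact mul_le_mul (bχ ω) (bw₁ ω) (abs_nonneg _) (by positivity)
  have iχw : Integrable (fun ω => χ (X ω) * w (X ω)) ν := by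
    refine integrable_bdd ν (hχm.mul (hwm.comp hX))
      ((|χ B| + |χ (-B)|) * (K * (|w₁ B| + |w₁ (-B)|))) fun ω => ?_
    rw [abs_mul]
    exact mul_le_mul (bχ ω) (bw ω) (abs_nonneg _) (by positivity)
  have hνpos : 0 < ν.real Set.univ := by
    rw [Measure.real, ENNReal.toReal_pos_iff]
    exact ⟨by rwa [Measure.measure_univ_pos], measure_lt_top _ _⟩
  have w₁pos : 0 < ∫ ω, w₁ (X ω) ∂ν := by
    rw [integral_pos_iff_support_of_nonneg (fun ω => (hpos _).le) iw₁]
    have : Function.support (fun ω => w₁ (X ω)) = Set.univ := by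
      ext ω; simp [(hpos (X ω)).ne']
    rw [this, Measure.measure_univ_pos]
    exact hν
  have h1 : ∫ ω, w₁ (X ω) ∂ν ≤ ∫ ω, w (X ω) ∂ν := integral_mono iw₁ iw fun ω => hlow _
  have h2 : ∫ ω, χ (X ω) * w (X ω) ∂ν ≤ K * ∫ ω, χ (X ω) * w₁ (X ω) ∂ν := by
    rw [← integral_const_mul]
    refine integral_mono iχw (iχw₁.const_mul K) fun ω => ?_
    have := mul_le_mul_of_nonneg_left (hup (X ω)) (hχ0 (X ω))
    calc χ (X ω) * w (X ω) ≤ χ (X ω) * (K * w₁ (X ω)) := this
      _ = K * (χ (X ω) * w₁ (X ω)) := by ring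
  have h3 := assoc_mul ν hX hB hw₁ hχ
  have h4 : 0 ≤ ∫ ω, χ (X ω) * w₁ (X ω) ∂ν :=
    integral_nonneg fun ω => mul_nonneg (hχ0 _) (hpos _).le
  calc (∫ ω, χ (X ω) * w (X ω) ∂ν) / (∫ ω, w (X ω) ∂ν)
      ≤ (K * ∫ ω, χ (X ω) * w₁ (X ω) ∂ν) / (∫ ω, w₁ (X ω) ∂ν) :=
        div_le_div₀ (by positivity) h2 w₁pos h1
    _ = K * ((∫ ω, χ (X ω) * w₁ (X ω) ∂ν) / (∫ ω, w₁ (X ω) ∂ν)) := by ring
    _ ≤ K * ((∫ ω, χ (X ω) ∂ν) / ν.real Set.univ) := by
        refine mul_le_mul_of_nonneg_left ?_ hK
        rw [div_le_div_iff₀ w₁pos hνpos]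
        exact h3

end Ratio

end Crest.Agent.R146.Assoc_323
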