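import Mathlib
import Crest.Agent.R146.Assoc0_323

/-!
Row 146, package ASSOC, part 1: systems with row dependent potentials
`Z ψ A = ∫ exp (∑ a, ψ a (∑ i, A (a, i) * y ω i)) dμ(ω)` over an arbitrary finite measure space,
rows independent with an arbitrary product law. Comparison of the mean log-partition functions of
`ψ ≤ ψ'` by association in the single row variable.
-/

set_option autoImplicit false
set_option linter.unusedSectionVars false

namespace Crest.Agent.R146.Assoc_323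

open MeasureTheory

variable {N M : ℕ} {Y : Type*} [MeasurableSpace Y]

/-- The field of row `a`: `∑ i, A (a, i) * y ω i`. -/
def fld (y : Y → Fin N → ℝ) (A : Fin M × Fin N → ℝ) (a : Fin M) (ω : Y) : ℝ :=
  ∑ i, A (a, i) * y ω i

/-- The Boltzmann weight `exp (∑ a, ψ a (fld a))`. -/
noncomputable def wt (y : Y → Fin N → ℝ) (ψ : Fin M → ℝ → ℝ) (A : Fin M × Fin N → ℝ) (ω : Y) : ℝ :=
  Real.exp (∑ a, ψ a (fld y A a ω))

/-- The partition function. -/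
noncomputable def Zf (μ : Measure Y) (y : Y → Fin N → ℝ) (ψ : Fin M → ℝ → ℝ)
    (A : Fin M × Fin N → ℝ) : ℝ :=
  ∫ ω, wt y ψ A ω ∂μ

/-- The Gibbs average of `G`. -/
noncomputable def gav (μ : Measure Y) (y : Y → Fin N → ℝ) (ψ : Fin M → ℝ → ℝ)
    (A : Fin M × Fin N → ℝ) (G : Y → ℝ) : ℝ :=
  (∫ ω, G ω * wt y ψ A ω ∂μ) / Zf μ y ψ A

theorem measurable_fld {y : Y → Fin N → ℝ} (hy : Measurable y) (a : Fin M) :
    Measurable fun z : (Fin M × Fin N → ℝ) × Y => fld y z.1 a z.2 := by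
  unfold fld
  refine Finset.measurable_sum _ fun i _ => ?_
  exact ((measurable_pi_apply (a, i)).comp measurable_fst).mul
    ((measurable_pi_apply i).comp (hy.comp measurable_snd))

theorem measurable_fld_right {y : Y → Fin N → ℝ} (hy : Measurable y) (A : Fin M × Fin N → ℝ)
    (a : Fin M) : Measurable (fld y A a) :=
  (measurable_fld hy a).comp measurable_prodMk_left

theorem measurable_wt {y : Y → Fin N → ℝ} (hy : Measurable y) {ψ : Fin M → ℝ → ℝ}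
    (hψ : ∀ a, Measurable (ψ a)) :
    Measurable fun z : (Fin M × Fin N → ℝ) × Y => wt y ψ z.1 z.2 := by
  unfold wt
  exact Real.measurable_exp.comp
    (Finset.measurable_sum _ fun a _ => (hψ a).comp (measurable_fld hy a))

theorem measurable_wt_right {y : Y → Fin N → ℝ} (hy : Measurable y) {ψ : Fin M → ℝ → ℝ}
    (hψ : ∀ a, Measurable (ψ a)) (A : Fin M × Fin N → ℝ) : Measurable (wt y ψ A) := by
  unfold wt
  exact Real.measurable_exp.comp
    (Finset.measurable_sum _ fun a _ => (hψ a).comp (measurable_fld_right hy A a))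

theorem wt_pos (y : Y → Fin N → ℝ) (ψ : Fin M → ℝ → ℝ) (A : Fin M × Fin N → ℝ) (ω : Y) :
    0 < wt y ψ A ω := Real.exp_pos _

/-- the euclidean norm square of row `a`. -/
def rsq (A : Fin M × Fin N → ℝ) (a : Fin M) : ℝ := ∑ i, A (a, i) ^ 2

theorem rsq_nonneg (A : Fin M × Fin N → ℝ) (a : Fin M) : 0 ≤ rsq A a :=
  Finset.sum_nonneg fun _ _ => sq_nonneg _

theorem fld_sq_le {y : Y → Fin N → ℝ} (hy1 : ∀ ω, ∑ i, y ω i ^ 2 ≤ 1) (A : Fin M × Fin N → ℝ)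
    (a : Fin M) (ω : Y) : fld y A a ω ^ 2 ≤ rsq A a := by
  have h := Finset.sum_mul_sq_le_sq_mul_sq Finset.univ (fun i => A (a, i)) (fun i => y ω i)
  refine h.trans ?_
  calc (∑ i, A (a, i) ^ 2) * ∑ i, y ω i ^ 2 ≤ (∑ i, A (a, i) ^ 2) * 1 :=
        mul_le_mul_of_nonneg_left (hy1 ω) (rsq_nonneg A a)
    _ = rsq A a := by simp [rsq]

theorem abs_fld_le {y : Y → Fin N → ℝ} (hy1 : ∀ ω, ∑ i, y ω i ^ 2 ≤ 1) (A : Fin M × Fin N → ℝ)
    (a : Fin M) (ω : Y) : |fld y A a ω| ≤ Real.sqrt (rsq A a) :=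
  Real.abs_le_sqrt (fld_sq_le hy1 A a ω)

/-- two-sided quadratic growth of the potentials. -/
def QG (C : ℝ) (ψ : Fin M → ℝ → ℝ) : Prop := ∀ a x, |ψ a x| ≤ C * (1 + x ^ 2)

theorem abs_sum_le {y : Y → Fin N → ℝ} (hy1 : ∀ ω, ∑ i, y ω i ^ 2 ≤ 1) {C : ℝ} (hC : 0 ≤ C)
    {ψ : Fin M → ℝ → ℝ} (hψ : QG C ψ) (A : Fin M × Fin N → ℝ) (ω : Y) :
    |∑ a, ψ a (fld y A a ω)| ≤ C * ∑ a, (1 + rsq A a) := by
  refine (Finset.abs_sum_le_sum_abs _ _).trans ?_
  rw [Finset.mul_sum]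
  refine Finset.sum_le_sum fun a _ => (hψ a _).trans ?_
  exact mul_le_mul_of_nonneg_left (by linarith [fld_sq_le hy1 A a ω]) hC

theorem wt_le {y : Y → Fin N → ℝ} (hy1 : ∀ ω, ∑ i, y ω i ^ 2 ≤ 1) {C : ℝ} (hC : 0 ≤ C)
    {ψ : Fin M → ℝ → ℝ} (hψ : QG C ψ) (A : Fin M × Fin N → ℝ) (ω : Y) :
    wt y ψ A ω ≤ Real.exp (C * ∑ a, (1 + rsq A a)) :=
  Real.exp_le_exp.2 (abs_le.1 (abs_sum_le hy1 hC hψ A ω)).2

theorem le_wt {y : Y → Fin N → ℝ} (hy1 : ∀ ω, ∑ i, y ω i ^ 2 ≤ 1) {C : ℝ} (hC : 0 ≤ C)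
    {ψ : Fin M → ℝ → ℝ} (hψ : QG C ψ) (A : Fin M × Fin N → ℝ) (ω : Y) :
    Real.exp (-(C * ∑ a, (1 + rsq A a))) ≤ wt y ψ A ω :=
  Real.exp_le_exp.2 (abs_le.1 (abs_sum_le hy1 hC hψ A ω)).1

theorem integrable_wt (μ : Measure Y) [IsFiniteMeasure μ] {y : Y → Fin N → ℝ} (hy : Measurable y)
    (hy1 : ∀ ω, ∑ i, y ω i ^ 2 ≤ 1) {C : ℝ} (hC : 0 ≤ C) {ψ : Fin M → ℝ → ℝ}
    (hψm : ∀ a, Measurable (ψ a)) (hψ : QG C ψ) (A : Fin M × Fin N → ℝ) :
    Integrable (wt y ψ A) μ :=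
  integrable_bdd μ (measurable_wt_right hy hψm A) _ fun ω => by
    rw [abs_of_pos (wt_pos _ _ _ _)]
    exact wt_le hy1 hC hψ A ω

theorem real_univ_pos {μ : Measure Y} [IsFiniteMeasure μ] (hμ : μ ≠ 0) :
    0 < μ.real Set.univ := by
  rw [Measure.real, ENNReal.toReal_pos_iff]
  exact ⟨by rwa [Measure.measure_univ_pos], measure_lt_top _ _⟩

theorem le_Zf {μ : Measure Y} [IsFiniteMeasure μ] {y : Y → Fin N → ℝ}
    (hy : Measurable y) (hy1 : ∀ ω, ∑ i, y ω i ^ 2 ≤ 1) {C : ℝ} (hC : 0 ≤ C) {ψ : Fin M → ℝ → ℝ}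
    (hψm : ∀ a, Measurable (ψ a)) (hψ : QG C ψ) (A : Fin M × Fin N → ℝ) :
    μ.real Set.univ * Real.exp (-(C * ∑ a, (1 + rsq A a))) ≤ Zf μ y ψ A := by
  have h : ∫ _ω, Real.exp (-(C * ∑ a, (1 + rsq A a))) ∂μ ≤ Zf μ y ψ A :=
    integral_mono (integrable_const _) (integrable_wt μ hy hy1 hC hψm hψ A)
      fun ω => le_wt hy1 hC hψ A ω
  simpa [integral_const, smul_eq_mul] using h

theorem Zf_le {μ : Measure Y} [IsFiniteMeasure μ] {y : Y → Fin N → ℝ}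
    (hy : Measurable y) (hy1 : ∀ ω, ∑ i, y ω i ^ 2 ≤ 1) {C : ℝ} (hC : 0 ≤ C) {ψ : Fin M → ℝ → ℝ}
    (hψm : ∀ a, Measurable (ψ a)) (hψ : QG C ψ) (A : Fin M × Fin N → ℝ) :
    Zf μ y ψ A ≤ μ.real Set.univ * Real.exp (C * ∑ a, (1 + rsq A a)) := by
  have h : Zf μ y ψ A ≤ ∫ _ω, Real.exp (C * ∑ a, (1 + rsq A a)) ∂μ :=
    integral_mono (integrable_wt μ hy hy1 hC hψm hψ A) (integrable_const _)
      fun ω => wt_le hy1 hC hψ A ω
  simpa [integral_const, smul_eq_mul] using h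

theorem Zf_pos {μ : Measure Y} [IsFiniteMeasure μ] (hμ : μ ≠ 0) {y : Y → Fin N → ℝ}
    (hy : Measurable y) (hy1 : ∀ ω, ∑ i, y ω i ^ 2 ≤ 1) {C : ℝ} (hC : 0 ≤ C) {ψ : Fin M → ℝ → ℝ}
    (hψm : ∀ a, Measurable (ψ a)) (hψ : QG C ψ) (A : Fin M × Fin N → ℝ) : 0 < Zf μ y ψ A :=
  lt_of_lt_of_le (mul_pos (real_univ_pos hμ) (Real.exp_pos _)) (le_Zf hy hy1 hC hψm hψ A)

theorem measurable_Zf (μ : Measure Y) [IsFiniteMeasure μ] {y : Y → Fin N → ℝ} (hy : Measurable y)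
    {ψ : Fin M → ℝ → ℝ} (hψm : ∀ a, Measurable (ψ a)) : Measurable (Zf μ y ψ) := by
  have h : StronglyMeasurable (Function.uncurry fun (A : Fin M × Fin N → ℝ) ω => wt y ψ A ω) :=
    (measurable_wt hy hψm).stronglyMeasurable
  exact (h.integral_prod_right (ν := μ)).measurable

/-- `|log Z| ≤ |log μ(Y)| + C ∑ (1 + |A_a|²)`. -/
theorem abs_log_Zf_le {μ : Measure Y} [IsFiniteMeasure μ] (hμ : μ ≠ 0) {y : Y → Fin N → ℝ}
    (hy : Measurable y) (hy1 : ∀ ω, ∑ i, y ω i ^ 2 ≤ 1) {C : ℝ} (hC : 0 ≤ C) {ψ : Fin M → ℝ → ℝ}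
    (hψm : ∀ a, Measurable (ψ a)) (hψ : QG C ψ) (A : Fin M × Fin N → ℝ) :
    |Real.log (Zf μ y ψ A)| ≤ |Real.log (μ.real Set.univ)| + C * ∑ a, (1 + rsq A a) := by
  have hm := real_univ_pos hμ
  have h1 := Real.log_le_log (mul_pos hm (Real.exp_pos _)) (le_Zf hy hy1 hC hψm hψ A)
  have h2 := Real.log_le_log (Zf_pos hμ hy hy1 hC hψm hψ A) (Zf_le hy hy1 hC hψm hψ A)
  rw [Real.log_mul hm.ne' (Real.exp_pos _).ne', Real.log_exp] at h1 h2
  rw [abs_le]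
  constructor
  · have := neg_abs_le (Real.log (μ.real Set.univ)); linarith
  · have := le_abs_self (Real.log (μ.real Set.univ)); linarith

/-- `log Z` is integrable as soon as the entries are square integrable. -/
theorem integrable_log_Zf (P : Measure (Fin M × Fin N → ℝ)) [IsProbabilityMeasure P]
    (hP : ∀ p, Integrable (fun A : Fin M × Fin N → ℝ => A p ^ 2) P)
    {μ : Measure Y} [IsFiniteMeasure μ] (hμ : μ ≠ 0) {y : Y → Fin N → ℝ}
    (hy : Measurable y) (hy1 : ∀ ω, ∑ i, y ω i ^ 2 ≤ 1) {C : ℝ} (hC : 0 ≤ C) {ψ : Fin M → ℝ → ℝ}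
    (hψm : ∀ a, Measurable (ψ a)) (hψ : QG C ψ) :
    Integrable (fun A => Real.log (Zf μ y ψ A)) P := by
  have hb : Integrable (fun A : Fin M × Fin N → ℝ =>
      |Real.log (μ.real Set.univ)| + C * ∑ a, (1 + rsq A a)) P := by
    refine (integrable_const _).add (Integrable.const_mul ?_ _)
    refine integrable_finsetSum _ fun a _ => (integrable_const _).add ?_
    unfold rsq
    exact integrable_finsetSum _ fun i _ => hP (a, i)
  refine hb.mono' (Real.measurable_log.comp (measurable_Zf μ hy hψm)).aestronglyMeasurable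
    (ae_of_all _ fun A => ?_)
  rw [Real.norm_eq_abs]
  exact abs_log_Zf_le hμ hy hy1 hC hψm hψ A

/-- Jensen: raising the potentials costs at most the Gibbs average of the increase under the
LARGER potentials. -/
theorem log_Zf_sub_le {μ : Measure Y} [IsFiniteMeasure μ] (hμ : μ ≠ 0) {y : Y → Fin N → ℝ}
    (hy : Measurable y) (hy1 : ∀ ω, ∑ i, y ω i ^ 2 ≤ 1) {C : ℝ} (hC : 0 ≤ C)
    {ψ ψ' : Fin M → ℝ → ℝ} (hψm : ∀ a, Measurable (ψ a)) (hψ : QG C ψ)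
    (hψm' : ∀ a, Measurable (ψ' a)) (hψ' : QG C ψ') (A : Fin M × Fin N → ℝ) :
    Real.log (Zf μ y ψ' A) - Real.log (Zf μ y ψ A) ≤
      ∑ a, gav μ y ψ' A (fun ω => ψ' a (fld y A a ω) - ψ a (fld y A a ω)) := by
  set G : Y → ℝ := fun ω => ∑ a, (ψ' a (fld y A a ω) - ψ a (fld y A a ω)) with hG
  have hZ' := Zf_pos hμ hy hy1 hC hψm' hψ' A
  have hZ := Zf_pos hμ hy hy1 hC hψm hψ A
  set c : ℝ := gav μ y ψ' A G with hc
  have iw' := integrable_wt μ hy hy1 hC hψm' hψ' A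
  have iw := integrable_wt μ hy hy1 hC hψm hψ A
  have iGa : ∀ a, Integrable
      (fun ω => (ψ' a (fld y A a ω) - ψ a (fld y A a ω)) * wt y ψ' A ω) μ := by
    intro a
    refine integrable_bdd μ ?_ ((C * (1 + rsq A a) + C * (1 + rsq A a)) *
      Real.exp (C * ∑ a, (1 + rsq A a))) fun ω => ?_
    · exact (((hψm' a).comp (measurable_fld_right hy A a)).sub
        ((hψm a).comp (measurable_fld_right hy A a))).mul (measurable_wt_right hy hψm' A)
    · rw [abs_mul, abs_of_pos (wt_pos _ _ _ _)]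
      refine mul_le_mul ?_ (wt_le hy1 hC hψ' A ω) (wt_pos _ _ _ _).le ?_
      · refine (abs_sub _ _).trans (add_le_add ?_ ?_)
        · exact (hψ' a _).trans
            (mul_le_mul_of_nonneg_left (by linarith [fld_sq_le hy1 A a ω]) hC)
        · exact (hψ a _).trans
            (mul_le_mul_of_nonneg_left (by linarith [fld_sq_le hy1 A a ω]) hC)
      · have := rsq_nonneg A a
        positivity
  have iG : Integrable (fun ω => G ω * wt y ψ' A ω) μ := by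
    have : (fun ω => G ω * wt y ψ' A ω) = fun ω => ∑ a,
        (ψ' a (fld y A a ω) - ψ a (fld y A a ω)) * wt y ψ' A ω := by
      funext ω; rw [hG, Finset.sum_mul]
    rw [this]
    exact integrable_finsetSum _ fun a _ => iGa a
  have hcsum : c = ∑ a, gav μ y ψ' A (fun ω => ψ' a (fld y A a ω) - ψ a (fld y A a ω)) := by
    rw [hc]
    unfold gav
    rw [← Finset.sum_div]
    congr 1
    rw [← integral_finsetSum _ fun a _ => iGa a]
    refine integral_congr_ae (ae_of_all _ fun ω => ?_)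
    simp only [hG, Finset.sum_mul]
  rw [← hcsum]
  have hwt : ∀ ω, wt y ψ A ω = wt y ψ' A ω * Real.exp (-G ω) := by
    intro ω
    unfold wt
    rw [← Real.exp_add]
    congr 1
    simp only [hG, Finset.sum_sub_distrib]
    ring
  have hlow : ∀ ω, Real.exp (-c) * ((1 + c) * wt y ψ' A ω - G ω * wt y ψ' A ω) ≤ wt y ψ A ω := by
    intro ω
    rw [hwt ω]
    have h1 : 1 + (c - G ω) ≤ Real.exp (c - G ω) := by
      have := Real.add_one_le_exp (c - G ω); linarith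
    have h2 : Real.exp (-G ω) = Real.exp (-c) * Real.exp (c - G ω) := by
      rw [← Real.exp_add]; congr 1; ring
    rw [h2]
    have h3 := mul_le_mul_of_nonneg_left h1
      (mul_nonneg (Real.exp_pos (-c)).le (wt_pos y ψ' A ω).le)
    calc Real.exp (-c) * ((1 + c) * wt y ψ' A ω - G ω * wt y ψ' A ω)
        = Real.exp (-c) * wt y ψ' A ω * (1 + (c - G ω)) := by ring
      _ ≤ Real.exp (-c) * wt y ψ' A ω * Real.exp (c - G ω) := h3
      _ = wt y ψ' A ω * (Real.exp (-c) * Real.exp (c - G ω)) := by ring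
  have hint : Real.exp (-c) * Zf μ y ψ' A ≤ Zf μ y ψ A := by
    have h1 : ∫ ω, Real.exp (-c) * ((1 + c) * wt y ψ' A ω - G ω * wt y ψ' A ω) ∂μ ≤ Zf μ y ψ A :=
      integral_mono (((iw'.const_mul _).sub iG).const_mul _) iw hlow
    rw [integral_const_mul, integral_sub (iw'.const_mul _) iG, integral_const_mul] at h1
    have h2 : ∫ ω, G ω * wt y ψ' A ω ∂μ = c * Zf μ y ψ' A := by
      rw [hc]; unfold gav; field_simp
    rw [h2] at h1
    have h3 : ∫ ω, wt y ψ' A ω ∂μ = Zf μ y ψ' A := rfl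
    rw [h3] at h1
    calc Real.exp (-c) * Zf μ y ψ' A
        = Real.exp (-c) * ((1 + c) * Zf μ y ψ' A - c * Zf μ y ψ' A) := by ring
      _ ≤ _ := h1
  have h4 := Real.log_le_log (mul_pos (Real.exp_pos _) hZ') hint
  rw [Real.log_mul (Real.exp_pos _).ne' hZ'.ne', Real.log_exp] at h4
  linarith

/-- monotonicity in the potentials. -/
theorem log_Zf_mono {μ : Measure Y} [IsFiniteMeasure μ] (hμ : μ ≠ 0) {y : Y → Fin N → ℝ}
    (hy : Measurable y) (hy1 : ∀ ω, ∑ i, y ω i ^ 2 ≤ 1) {C : ℝ} (hC : 0 ≤ C)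
    {ψ ψ' : Fin M → ℝ → ℝ} (hψm : ∀ a, Measurable (ψ a)) (hψ : QG C ψ)
    (hψm' : ∀ a, Measurable (ψ' a)) (hψ' : QG C ψ') (hle : ∀ a x, ψ a x ≤ ψ' a x)
    (A : Fin M × Fin N → ℝ) :
    Real.log (Zf μ y ψ A) ≤ Real.log (Zf μ y ψ' A) := by
  refine Real.log_le_log (Zf_pos hμ hy hy1 hC hψm hψ A) ?_
  refine integral_mono (integrable_wt μ hy hy1 hC hψm hψ A)
    (integrable_wt μ hy hy1 hC hψm' hψ' A) fun ω => ?_
  exact Real.exp_le_exp.2 (Finset.sum_le_sum fun a _ => hle a _)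

end Crest.Agent.R146.Assoc_323
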