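import Mathlib
import Crest.Agent.R146.Assoc1_323

/-!
Row 146, package ASSOC, part 2: the association theorem (A) and its consequence (A1).
-/

set_option autoImplicit false
set_option linter.unusedSectionVars false

namespace Crest.Agent.R146.Assoc_323

open MeasureTheory

variable {N M : ℕ} {Y : Type*} [MeasurableSpace Y]

/-- The product law of an array with i.i.d. entries. -/
noncomputable abbrev PL (M N : ℕ) (ρ : Measure ℝ) : Measure (Fin M × Fin N → ℝ) :=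
  Measure.pi fun _ => ρ

theorem fld_mix_self (y : Y → Fin N → ℝ) (A A' : Fin M × Fin N → ℝ) (a : Fin M) (ω : Y) :
    fld y (mix (fun q : Fin M × Fin N => q.1 = a) A A') a ω = fld y A' a ω := by
  unfold fld
  refine Finset.sum_congr rfl fun i _ => ?_
  rw [mix_apply_of _ _ _ (by rfl)]

theorem fld_mix_of_ne (y : Y → Fin N → ℝ) (A A' : Fin M × Fin N → ℝ) {a b : Fin M} (h : b ≠ a)
    (ω : Y) : fld y (mix (fun q : Fin M × Fin N => q.1 = a) A A') b ω = fld y A b ω := by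
  unfold fld
  refine Finset.sum_congr rfl fun i _ => ?_
  rw [mix_apply_of_not _ _ _ (by exact h)]

/-- the weight of the rows different from `a`. -/
noncomputable def wr (y : Y → Fin N → ℝ) (ψ : Fin M → ℝ → ℝ) (a : Fin M) (A : Fin M × Fin N → ℝ)
    (ω : Y) : ℝ :=
  Real.exp (∑ b ∈ Finset.univ.erase a, ψ b (fld y A b ω))

theorem wr_mix (y : Y → Fin N → ℝ) (ψ : Fin M → ℝ → ℝ) (a : Fin M) (A A' : Fin M × Fin N → ℝ)
    (ω : Y) : wr y ψ a (mix (fun q : Fin M × Fin N => q.1 = a) A A') ω = wr y ψ a A ω := by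
  unfold wr
  congr 1
  refine Finset.sum_congr rfl fun b hb => ?_
  rw [fld_mix_of_ne _ _ _ (Finset.ne_of_mem_erase hb)]

theorem wt_eq_wr (y : Y → Fin N → ℝ) (ψ : Fin M → ℝ → ℝ) (a : Fin M) (A : Fin M × Fin N → ℝ)
    (ω : Y) : wt y ψ A ω = Real.exp (ψ a (fld y A a ω)) * wr y ψ a A ω := by
  unfold wt wr
  rw [← Real.exp_add, ← Finset.add_sum_erase Finset.univ (fun b => ψ b (fld y A b ω))
    (Finset.mem_univ a)]

theorem measurable_wr {y : Y → Fin N → ℝ} (hy : Measurable y) {ψ : Fin M → ℝ → ℝ}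
    (hψ : ∀ a, Measurable (ψ a)) (a : Fin M) :
    Measurable fun z : (Fin M × Fin N → ℝ) × Y => wr y ψ a z.1 z.2 := by
  unfold wr
  exact Real.measurable_exp.comp
    (Finset.measurable_sum _ fun b _ => (hψ b).comp (measurable_fld hy b))

theorem measurable_wr_right {y : Y → Fin N → ℝ} (hy : Measurable y) {ψ : Fin M → ℝ → ℝ}
    (hψ : ∀ a, Measurable (ψ a)) (a : Fin M) (A : Fin M × Fin N → ℝ) :
    Measurable (wr y ψ a A) := by
  unfold wr
  exact Real.measurable_exp.comp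
    (Finset.measurable_sum _ fun b _ => (hψ b).comp (measurable_fld_right hy A b))

theorem abs_sum_erase_le {y : Y → Fin N → ℝ} (hy1 : ∀ ω, ∑ i, y ω i ^ 2 ≤ 1) {C : ℝ} (hC : 0 ≤ C)
    {ψ : Fin M → ℝ → ℝ} (hψ : QG C ψ) (a : Fin M) (A : Fin M × Fin N → ℝ) (ω : Y) :
    |∑ b ∈ Finset.univ.erase a, ψ b (fld y A b ω)| ≤ C * ∑ b, (1 + rsq A b) := by
  refine (Finset.abs_sum_le_sum_abs _ _).trans ?_
  rw [Finset.mul_sum]
  refine (Finset.sum_le_sum fun b _ => (?_ : |ψ b (fld y A b ω)| ≤ C * (1 + rsq A b))).trans ?_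
  · exact (hψ b _).trans
      (mul_le_mul_of_nonneg_left (by linarith [fld_sq_le hy1 A b ω]) hC)
  · refine Finset.sum_le_sum_of_subset_of_nonneg (Finset.erase_subset _ _) fun b _ _ => ?_
    have := rsq_nonneg A b
    positivity

theorem wr_le {y : Y → Fin N → ℝ} (hy1 : ∀ ω, ∑ i, y ω i ^ 2 ≤ 1) {C : ℝ} (hC : 0 ≤ C)
    {ψ : Fin M → ℝ → ℝ} (hψ : QG C ψ) (a : Fin M) (A : Fin M × Fin N → ℝ) (ω : Y) :
    wr y ψ a A ω ≤ Real.exp (C * ∑ a, (1 + rsq A a)) :=
  Real.exp_le_exp.2 (abs_le.1 (abs_sum_erase_le hy1 hC hψ a A ω)).2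

/-- the reference measure with the weight of the other rows. -/
noncomputable def nur (μ : Measure Y) (y : Y → Fin N → ℝ) (ψ : Fin M → ℝ → ℝ) (a : Fin M)
    (A : Fin M × Fin N → ℝ) : Measure Y :=
  μ.withDensity fun ω => ENNReal.ofReal (wr y ψ a A ω)

theorem isFiniteMeasure_nur (μ : Measure Y) [IsFiniteMeasure μ] {y : Y → Fin N → ℝ}
    (hy1 : ∀ ω, ∑ i, y ω i ^ 2 ≤ 1) {C : ℝ} (hC : 0 ≤ C)
    {ψ : Fin M → ℝ → ℝ} (hψ : QG C ψ) (a : Fin M) (A : Fin M × Fin N → ℝ) :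
    IsFiniteMeasure (nur μ y ψ a A) := by
  refine isFiniteMeasure_withDensity (ne_of_lt ?_)
  refine lt_of_le_of_lt (lintegral_mono fun ω => ENNReal.ofReal_le_ofReal (wr_le hy1 hC hψ a A ω)) ?_
  rw [lintegral_const]
  exact ENNReal.mul_lt_top ENNReal.ofReal_lt_top (measure_lt_top _ _)

theorem nur_univ_pos {μ : Measure Y} (hμ : μ ≠ 0) {y : Y → Fin N → ℝ} (hy : Measurable y)
    {ψ : Fin M → ℝ → ℝ} (hψm : ∀ a, Measurable (ψ a)) (a : Fin M) (A : Fin M × Fin N → ℝ) :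
    nur μ y ψ a A Set.univ ≠ 0 := by
  unfold nur
  rw [withDensity_apply _ MeasurableSet.univ, Measure.restrict_univ]
  intro h0
  rw [lintegral_eq_zero_iff (measurable_wr_right hy hψm a A).ennreal_ofReal] at h0
  apply hμ
  have : ∀ᵐ ω ∂μ, False := by
    filter_upwards [h0] with ω hω
    have h1 : ENNReal.ofReal (wr y ψ a A ω) = 0 := hω
    rw [ENNReal.ofReal_eq_zero] at h1
    exact absurd (Real.exp_pos _) (not_lt.2 h1)
  have h2 := this
  rw [ae_iff] at h2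
  simpa using h2

theorem integral_nur (μ : Measure Y) {y : Y → Fin N → ℝ} (hy : Measurable y)
    {ψ : Fin M → ℝ → ℝ} (hψm : ∀ a, Measurable (ψ a)) (a : Fin M) (A : Fin M × Fin N → ℝ)
    (g : Y → ℝ) : ∫ ω, g ω ∂(nur μ y ψ a A) = ∫ ω, g ω * wr y ψ a A ω ∂μ := by
  unfold nur
  have hm : Measurable fun ω => Real.toNNReal (wr y ψ a A ω) :=
    (measurable_wr_right hy hψm a A).real_toNNReal
  have h := integral_withDensity_eq_integral_smul (μ := μ) hm g
  have e : (fun ω => ENNReal.ofReal (wr y ψ a A ω)) =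
      fun ω => ((Real.toNNReal (wr y ψ a A ω) : NNReal) : ENNReal) := rfl
  rw [e, h]
  refine integral_congr_ae (ae_of_all _ fun ω => ?_)
  have hpos : 0 ≤ wr y ψ a A ω := (Real.exp_pos _).le
  show (Real.toNNReal (wr y ψ a A ω)) • g ω = g ω * wr y ψ a A ω
  rw [NNReal.smul_def, smul_eq_mul, Real.coe_toNNReal _ hpos, mul_comm]

/-- pointwise bound of a Gibbs average of a nonincreasing observable of one row. -/
theorem gav_le_ratio {μ : Measure Y} [IsFiniteMeasure μ] (hμ : μ ≠ 0) {y : Y → Fin N → ℝ}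
    (hy : Measurable y) (hy1 : ∀ ω, ∑ i, y ω i ^ 2 ≤ 1) {C : ℝ} (hC : 0 ≤ C)
    {ψ : Fin M → ℝ → ℝ} (hψm : ∀ a, Measurable (ψ a)) (hψ : QG C ψ) (a : Fin M)
    {f : ℝ → ℝ} {T : ℝ} (hf : Monotone f) (hfT : ∀ x, |ψ a x - f x| ≤ T)
    {χ : ℝ → ℝ} (hχ : Antitone χ) (hχ0 : ∀ x, 0 ≤ χ x) (A : Fin M × Fin N → ℝ) :
    ENNReal.ofReal (gav μ y ψ A (fun ω => χ (fld y A a ω))) ≤
      ENNReal.ofReal (Real.exp (2 * T)) *
        ((∫⁻ ω, ENNReal.ofReal (χ (fld y A a ω)) ∂(nur μ y ψ a A)) / nur μ y ψ a A Set.univ) := by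
  have := isFiniteMeasure_nur μ hy1 hC hψ a A
  have hν0 : nur μ y ψ a A ≠ 0 := by
    intro h0
    exact nur_univ_pos hμ hy hψm a A (by rw [h0]; simp)
  have e1 : gav μ y ψ A (fun ω => χ (fld y A a ω)) =
      (∫ ω, χ (fld y A a ω) * Real.exp (ψ a (fld y A a ω)) ∂(nur μ y ψ a A)) /
        ∫ ω, Real.exp (ψ a (fld y A a ω)) ∂(nur μ y ψ a A) := by
    rw [integral_nur μ hy hψm, integral_nur μ hy hψm]
    unfold gav Zf
    congr 1
    · refine integral_congr_ae (ae_of_all _ fun ω => ?_)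
      simp only [wt_eq_wr y ψ a A ω]
      ring
    · refine integral_congr_ae (ae_of_all _ fun ω => ?_)
      simp only [wt_eq_wr y ψ a A ω]
  have hX := measurable_fld_right hy A a
  have h := assoc_ratio (nur μ y ψ a A) hν0 hX (abs_fld_le hy1 A a)
    (w := fun x => Real.exp (ψ a x)) (w₁ := fun x => Real.exp (f x - T)) (χ := χ)
    (K := Real.exp (2 * T))
    (fun x z hxz => Real.exp_le_exp.2 (by linarith [hf hxz])) (fun x => Real.exp_pos _)
    (Real.measurable_exp.comp (hψm a))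
    (fun x => Real.exp_le_exp.2 (by have := (abs_le.1 (hfT x)).1; linarith))
    (fun x => by
      show Real.exp (ψ a x) ≤ Real.exp (2 * T) * Real.exp (f x - T)
      rw [← Real.exp_add]
      exact Real.exp_le_exp.2 (by have := (abs_le.1 (hfT x)).2; linarith)) hχ hχ0
  rw [e1]
  refine (ENNReal.ofReal_le_ofReal h).trans ?_
  rw [ENNReal.ofReal_mul (Real.exp_pos _).le]
  refine mul_le_mul_right ?_ _
  have hχ' : Monotone fun x => -χ x := fun a b h => neg_le_neg (hχ h)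
  have iχ : Integrable (fun ω => χ (fld y A a ω)) (nur μ y ψ a A) :=
    integrable_bdd _ (hχ.measurable.comp hX) _ fun ω => by
      have := bdd_of_monotone hχ' (abs_fld_le hy1 A a) ω
      simpa using this
  have hpos : 0 < (nur μ y ψ a A).real Set.univ := real_univ_pos hν0
  rw [ENNReal.ofReal_div_of_pos hpos, ofReal_integral_eq_lintegral_ofReal iχ
    (ae_of_all _ fun ω => hχ0 _), Measure.real, ENNReal.ofReal_toReal (measure_ne_top _ _)]

theorem measurable_gav (μ : Measure Y) [IsFiniteMeasure μ] {y : Y → Fin N → ℝ} (hy : Measurable y)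
    {ψ : Fin M → ℝ → ℝ} (hψm : ∀ a, Measurable (ψ a)) {G : (Fin M × Fin N → ℝ) → Y → ℝ}
    (hG : Measurable (Function.uncurry G)) : Measurable fun A => gav μ y ψ A (G A) := by
  unfold gav
  refine Measurable.div ?_ (measurable_Zf μ hy hψm)
  have h : StronglyMeasurable (Function.uncurry
      fun (A : Fin M × Fin N → ℝ) ω => G A ω * wt y ψ A ω) :=
    (hG.mul (measurable_wt hy hψm)).stronglyMeasurable
  exact (h.integral_prod_right (ν := μ)).measurable

/-- **(A) Association.** Under ANY product law of the entries, the mean Gibbs average of a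
nonnegative nonincreasing observable `χ` of the field of row `a` is at most `e^{2T}` times its
maximal mean over the reference configurations, when the potential of row `a` is within `T` of a
nondecreasing function (the potentials of the other rows are arbitrary). -/
theorem lintegral_gav_le {ρ : Measure ℝ} [IsProbabilityMeasure ρ] {μ : Measure Y}
    [IsFiniteMeasure μ] (hμ : μ ≠ 0) {y : Y → Fin N → ℝ}
    (hy : Measurable y) (hy1 : ∀ ω, ∑ i, y ω i ^ 2 ≤ 1) {C : ℝ} (hC : 0 ≤ C)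
    {ψ : Fin M → ℝ → ℝ} (hψm : ∀ a, Measurable (ψ a)) (hψ : QG C ψ) (a : Fin M)
    {f : ℝ → ℝ} {T : ℝ} (hf : Monotone f) (hfT : ∀ x, |ψ a x - f x| ≤ T)
    {χ : ℝ → ℝ} (hχ : Antitone χ) (hχ0 : ∀ x, 0 ≤ χ x) {c : ENNReal}
    (hc : ∀ ω, ∫⁻ A, ENNReal.ofReal (χ (fld y A a ω)) ∂(PL M N ρ) ≤ c) :
    ∫⁻ A, ENNReal.ofReal (gav μ y ψ A (fun ω => χ (fld y A a ω))) ∂(PL M N ρ) ≤
      ENNReal.ofReal (Real.exp (2 * T)) * c := by
  classical
  have hmeas : Measurable fun A : Fin M × Fin N → ℝ =>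
      ENNReal.ofReal (gav μ y ψ A (fun ω => χ (fld y A a ω))) := by
    refine ENNReal.measurable_ofReal.comp ?_
    exact measurable_gav μ hy hψm (G := fun A ω => χ (fld y A a ω))
      (hχ.measurable.comp (measurable_fld hy a))
  rw [lintegral_mix (fun _ => ρ) (fun q : Fin M × Fin N => q.1 = a) _ hmeas]
  have hbound : ∀ A : Fin M × Fin N → ℝ,
      ∫⁻ A', ENNReal.ofReal (gav μ y ψ (mix (fun q : Fin M × Fin N => q.1 = a) A A')
        (fun ω => χ (fld y (mix (fun q : Fin M × Fin N => q.1 = a) A A') a ω))) ∂(PL M N ρ) ≤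
      ENNReal.ofReal (Real.exp (2 * T)) * c := by
    intro A
    have := isFiniteMeasure_nur μ hy1 hC hψ a A
    have hpw : ∀ A' : Fin M × Fin N → ℝ,
        ENNReal.ofReal (gav μ y ψ (mix (fun q : Fin M × Fin N => q.1 = a) A A')
          (fun ω => χ (fld y (mix (fun q : Fin M × Fin N => q.1 = a) A A') a ω))) ≤
        ENNReal.ofReal (Real.exp (2 * T)) *
          ((∫⁻ ω, ENNReal.ofReal (χ (fld y A' a ω)) ∂(nur μ y ψ a A)) /
            nur μ y ψ a A Set.univ) := by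
      intro A'
      refine (gav_le_ratio hμ hy hy1 hC hψm hψ a hf hfT hχ hχ0 _).trans ?_
      have e : nur μ y ψ a (mix (fun q : Fin M × Fin N => q.1 = a) A A') = nur μ y ψ a A := by
        unfold nur
        congr 1
        funext ω
        rw [wr_mix]
      rw [e]
      simp only [fld_mix_self]
      exact le_rfl
    refine (lintegral_mono hpw).trans ?_
    have hjm : Measurable fun z : (Fin M × Fin N → ℝ) × Y =>
        ENNReal.ofReal (χ (fld y z.1 a z.2)) :=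
      ENNReal.measurable_ofReal.comp (hχ.measurable.comp (measurable_fld hy a))
    have hm1 : Measurable fun A' : Fin M × Fin N → ℝ =>
        ∫⁻ ω, ENNReal.ofReal (χ (fld y A' a ω)) ∂(nur μ y ψ a A) := hjm.lintegral_prod_right'
    rw [lintegral_const_mul _ (hm1.div_const _)]
    refine mul_le_mul_right ?_ _
    simp_rw [div_eq_mul_inv]
    rw [lintegral_mul_const _ hm1, lintegral_lintegral_swap hjm.aemeasurable]
    have h1 : ∫⁻ ω, ∫⁻ A', ENNReal.ofReal (χ (fld y A' a ω)) ∂(PL M N ρ) ∂(nur μ y ψ a A) ≤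
        c * nur μ y ψ a A Set.univ := by
      refine (lintegral_mono hc).trans ?_
      rw [lintegral_const]
    refine (mul_le_mul_left h1 _).trans ?_
    rw [mul_assoc, ENNReal.mul_inv_cancel (nur_univ_pos hμ hy hψm a A) (measure_ne_top _ _),
      mul_one]
  refine (lintegral_mono hbound).trans ?_
  rw [lintegral_const, measure_univ, mul_one]

/-- **(A1).** Raising the potentials `ψ ≤ ψ'` with `ψ' a - ψ a` nonincreasing and `ψ' a` within
`T` of a nondecreasing function raises the mean log-partition function by at most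
`e^{2T} ∑ a, sup_y E (ψ' a - ψ a)(A_a · y)`. -/
theorem integral_log_Zf_sub_le {ρ : Measure ℝ} [IsProbabilityMeasure ρ]
    (hρ2 : Integrable (fun x : ℝ => x ^ 2) ρ) {μ : Measure Y}
    [IsFiniteMeasure μ] (hμ : μ ≠ 0) {y : Y → Fin N → ℝ}
    (hy : Measurable y) (hy1 : ∀ ω, ∑ i, y ω i ^ 2 ≤ 1) {C : ℝ} (hC : 0 ≤ C)
    {ψ ψ' : Fin M → ℝ → ℝ} (hψm : ∀ a, Measurable (ψ a)) (hψ : QG C ψ)
    (hψm' : ∀ a, Measurable (ψ' a)) (hψ' : QG C ψ')
    {f : Fin M → ℝ → ℝ} {T : ℝ} (hf : ∀ a, Monotone (f a)) (hfT : ∀ a x, |ψ' a x - f a x| ≤ T)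
    (hχ : ∀ a, Antitone fun x => ψ' a x - ψ a x) (hχ0 : ∀ a x, ψ a x ≤ ψ' a x)
    {c : Fin M → ℝ} (hc0 : ∀ a, 0 ≤ c a)
    (hc : ∀ a ω, ∫⁻ A, ENNReal.ofReal (ψ' a (fld y A a ω) - ψ a (fld y A a ω)) ∂(PL M N ρ) ≤
      ENNReal.ofReal (c a)) :
    (∫ A, Real.log (Zf μ y ψ A) ∂(PL M N ρ)) ≤ (∫ A, Real.log (Zf μ y ψ' A) ∂(PL M N ρ)) ∧
    (∫ A, Real.log (Zf μ y ψ' A) ∂(PL M N ρ)) - (∫ A, Real.log (Zf μ y ψ A) ∂(PL M N ρ)) ≤
      Real.exp (2 * T) * ∑ a, c a := by
  have hP : ∀ p, Integrable (fun A : Fin M × Fin N → ℝ => A p ^ 2) (PL M N ρ) := fun p =>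
    (measurePreserving_eval (fun _ : Fin M × Fin N => ρ) p).integrable_comp_of_integrable hρ2
  have i1 := integrable_log_Zf (PL M N ρ) hP hμ hy hy1 hC hψm hψ
  have i2 := integrable_log_Zf (PL M N ρ) hP hμ hy hy1 hC hψm' hψ'
  refine ⟨integral_mono i1 i2 fun A => log_Zf_mono hμ hy hy1 hC hψm hψ hψm' hψ' hχ0 A, ?_⟩
  rw [← integral_sub i2 i1]
  have i3 : Integrable (fun A => Real.log (Zf μ y ψ' A) - Real.log (Zf μ y ψ A)) (PL M N ρ) :=
    i2.sub i1
  have hA : ∀ a, ∫⁻ A, ENNReal.ofReal (gav μ y ψ' A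
      (fun ω => ψ' a (fld y A a ω) - ψ a (fld y A a ω))) ∂(PL M N ρ) ≤
      ENNReal.ofReal (Real.exp (2 * T) * c a) := fun a => by
    rw [ENNReal.ofReal_mul (Real.exp_pos _).le]
    exact lintegral_gav_le hμ hy hy1 hC hψm' hψ' a (hf a) (hfT a) (hχ a)
      (fun x => sub_nonneg.2 (hχ0 a x)) (hc a)
  have gm : ∀ a, Measurable fun A : Fin M × Fin N → ℝ => gav μ y ψ' A
      (fun ω => ψ' a (fld y A a ω) - ψ a (fld y A a ω)) := fun a =>
    measurable_gav μ hy hψm' (G := fun A ω => ψ' a (fld y A a ω) - ψ a (fld y A a ω))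
      ((hχ a).measurable.comp (measurable_fld hy a))
  have g0 : ∀ a (A : Fin M × Fin N → ℝ), 0 ≤ gav μ y ψ' A
      (fun ω => ψ' a (fld y A a ω) - ψ a (fld y A a ω)) := fun a A =>
    div_nonneg (integral_nonneg fun ω => mul_nonneg (sub_nonneg.2 (hχ0 a _)) (wt_pos _ _ _ _).le)
      (integral_nonneg fun ω => (wt_pos _ _ _ _).le)
  have hle : ∫⁻ A, ENNReal.ofReal (Real.log (Zf μ y ψ' A) - Real.log (Zf μ y ψ A)) ∂(PL M N ρ) ≤
      ENNReal.ofReal (Real.exp (2 * T) * ∑ a, c a) := by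
    calc ∫⁻ A, ENNReal.ofReal (Real.log (Zf μ y ψ' A) - Real.log (Zf μ y ψ A)) ∂(PL M N ρ)
        ≤ ∫⁻ A, ∑ a, ENNReal.ofReal (gav μ y ψ' A
            (fun ω => ψ' a (fld y A a ω) - ψ a (fld y A a ω))) ∂(PL M N ρ) := by
          refine lintegral_mono fun A => ?_
          rw [← ENNReal.ofReal_sum_of_nonneg fun a _ => g0 a A]
          exact ENNReal.ofReal_le_ofReal (log_Zf_sub_le hμ hy hy1 hC hψm hψ hψm' hψ' A)
      _ = ∑ a, ∫⁻ A, ENNReal.ofReal (gav μ y ψ' A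
            (fun ω => ψ' a (fld y A a ω) - ψ a (fld y A a ω))) ∂(PL M N ρ) :=
          lintegral_finsetSum _ fun a _ => ENNReal.measurable_ofReal.comp (gm a)
      _ ≤ ∑ a, ENNReal.ofReal (Real.exp (2 * T) * c a) := Finset.sum_le_sum fun a _ => hA a
      _ = ENNReal.ofReal (Real.exp (2 * T) * ∑ a, c a) := by
          rw [← ENNReal.ofReal_sum_of_nonneg fun a _ => mul_nonneg (Real.exp_pos _).le (hc0 a),
            Finset.mul_sum]
  rw [integral_eq_lintegral_of_nonneg_ae (ae_of_all _ fun A => ?_)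
    i3.aestronglyMeasurable]
  · refine ENNReal.toReal_le_of_le_ofReal ?_ hle
    exact mul_nonneg (Real.exp_pos _).le (Finset.sum_nonneg fun a _ => hc0 a)
  · exact sub_nonneg.2 (log_Zf_mono hμ hy hy1 hC hψm hψ hψm' hψ' hχ0 A)

end Crest.Agent.R146.Assoc_323
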