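import Crest.Prelude.Def_SphericalPressure
import Crest.Agent.R151.V1
import Crest.Agent.R141.UPi

/-!
# R146, helper663: pressure side of S0206, part C

* `logZ μ y ψ g = log ∫ exp (∑_a ψ_a (∑_i g(a,i) y_i)) dμ`;
* row bounded differences, Efron-Stein, concentration;
* `spherePressure = logZ (normalised sphere law) / N`;
* `expectedPressure → p` implies `pressureTailProb (p, ε) → 0`.
-/

set_option autoImplicit false

open MeasureTheory ProbabilityTheory Filter Topology
open scoped ENNReal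
open Crest.ProbabilityR.Perceptron

namespace Crest.Agent.R146.PressC_663

variable {Y : Type*} [MeasurableSpace Y]

/-- log partition function with row dependent potentials -/
noncomputable def logZ (μ : Measure Y) {N M : ℕ} (y : Y → Fin N → ℝ) (ψ : Fin M → ℝ → ℝ)
    (g : Fin M × Fin N → ℝ) : ℝ :=
  Real.log (∫ u, Real.exp (∑ a, ψ a (∑ i, g (a, i) * y u i)) ∂μ)

section basic

variable {μ : Measure Y} {N M : ℕ} {y : Y → Fin N → ℝ} {ψ : Fin M → ℝ → ℝ} {K : ℝ}

theorem abs_sum_le (hψ : ∀ a x, |ψ a x| ≤ K) (t : Fin M → ℝ) : |∑ a, ψ a (t a)| ≤ M * K := by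
  refine (Finset.abs_sum_le_sum_abs _ _).trans ?_
  refine (Finset.sum_le_sum fun a _ => hψ a (t a)).trans ?_
  simp

theorem measurable_expo (hy : Measurable y) (hψm : ∀ a, Measurable (ψ a)) :
    Measurable (fun z : (Fin M × Fin N → ℝ) × Y =>
      Real.exp (∑ a, ψ a (∑ i, z.1 (a, i) * y z.2 i))) := by
  apply Real.measurable_exp.comp
  apply Finset.measurable_sum
  intro a _
  apply (hψm a).comp
  apply Finset.measurable_sum
  intro i _
  exact ((measurable_pi_apply (a, i)).comp measurable_fst).mul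
    ((measurable_pi_apply i).comp (hy.comp measurable_snd))

theorem integrable_expo [IsFiniteMeasure μ] (hy : Measurable y) (hψm : ∀ a, Measurable (ψ a))
    (hψ : ∀ a x, |ψ a x| ≤ K) (g : Fin M × Fin N → ℝ) :
    Integrable (fun u => Real.exp (∑ a, ψ a (∑ i, g (a, i) * y u i))) μ := by
  refine Integrable.of_bound (C := Real.exp (M * K)) ?_ ?_
  · exact ((measurable_expo hy hψm).comp (measurable_const.prodMk measurable_id)).aestronglyMeasurable
  · refine Eventually.of_forall fun u => ?_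
    rw [Real.norm_eq_abs, abs_of_pos (Real.exp_pos _)]
    exact Real.exp_le_exp.2 ((le_abs_self _).trans (abs_sum_le hψ _))

theorem Z_bounds [IsProbabilityMeasure μ] (hy : Measurable y) (hψm : ∀ a, Measurable (ψ a))
    (hψ : ∀ a x, |ψ a x| ≤ K) (g : Fin M × Fin N → ℝ) :
    Real.exp (-(M * K)) ≤ (∫ u, Real.exp (∑ a, ψ a (∑ i, g (a, i) * y u i)) ∂μ) ∧
      (∫ u, Real.exp (∑ a, ψ a (∑ i, g (a, i) * y u i)) ∂μ) ≤ Real.exp (M * K) := by
  have hi := integrable_expo (μ := μ) hy hψm hψ g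
  constructor
  · have h := integral_mono (μ := μ) (integrable_const (Real.exp (-(M * K)))) hi (fun u =>
      Real.exp_le_exp.2 (neg_le_of_abs_le (abs_sum_le hψ _)))
    simpa using h
  · have h := integral_mono (μ := μ) hi (integrable_const (Real.exp (M * K))) (fun u =>
      Real.exp_le_exp.2 ((le_abs_self _).trans (abs_sum_le hψ _)))
    simpa using h

theorem Z_pos [IsProbabilityMeasure μ] (hy : Measurable y) (hψm : ∀ a, Measurable (ψ a))
    (hψ : ∀ a x, |ψ a x| ≤ K) (g : Fin M × Fin N → ℝ) :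
    0 < ∫ u, Real.exp (∑ a, ψ a (∑ i, g (a, i) * y u i)) ∂μ :=
  (Real.exp_pos _).trans_le (Z_bounds hy hψm hψ g).1

theorem abs_logZ_le [IsProbabilityMeasure μ] (hy : Measurable y) (hψm : ∀ a, Measurable (ψ a))
    (hψ : ∀ a x, |ψ a x| ≤ K) (g : Fin M × Fin N → ℝ) : |logZ μ y ψ g| ≤ M * K := by
  have h := Z_bounds (μ := μ) hy hψm hψ g
  have hp := Z_pos (μ := μ) hy hψm hψ g
  unfold logZ
  rw [abs_le]
  constructor
  · rw [Real.le_log_iff_exp_le hp]; exact h.1
  · rw [Real.log_le_iff_le_exp hp]; exact h.2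

theorem measurable_logZ [SFinite μ] (hy : Measurable y) (hψm : ∀ a, Measurable (ψ a)) :
    Measurable (logZ μ y ψ) := by
  unfold logZ
  apply Real.measurable_log.comp
  exact ((measurable_expo hy hψm).stronglyMeasurable.integral_prod_right'
    (ν := μ)).measurable

/-- changing one row changes the log partition function by at most `2 K` -/
theorem logZ_row_diff [IsProbabilityMeasure μ] (hy : Measurable y) (hψm : ∀ a, Measurable (ψ a))
    (hψ : ∀ a x, |ψ a x| ≤ K) (g g' : Fin M × Fin N → ℝ) (a₀ : Fin M)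
    (h : ∀ a i, a ≠ a₀ → g (a, i) = g' (a, i)) : logZ μ y ψ g ≤ logZ μ y ψ g' + 2 * K := by
  have hp := Z_pos (μ := μ) hy hψm hψ g
  have hp' := Z_pos (μ := μ) hy hψm hψ g'
  unfold logZ
  have e1 : Real.log (∫ u, Real.exp (∑ a, ψ a (∑ i, g' (a, i) * y u i)) ∂μ) + 2 * K =
      Real.log (Real.exp (2 * K) * ∫ u, Real.exp (∑ a, ψ a (∑ i, g' (a, i) * y u i)) ∂μ) := by
    rw [Real.log_mul (Real.exp_pos _).ne' hp'.ne', Real.log_exp]; ring
  rw [e1]
  apply Real.log_le_log hp
  rw [← integral_const_mul]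
  apply integral_mono (integrable_expo hy hψm hψ g)
    ((integrable_expo hy hψm hψ g').const_mul _)
  intro u
  show Real.exp _ ≤ Real.exp _ * Real.exp _
  rw [← Real.exp_add]
  apply Real.exp_le_exp.2
  rw [← Finset.add_sum_erase _ _ (Finset.mem_univ a₀),
    ← Finset.add_sum_erase _ (fun a => ψ a (∑ i, g' (a, i) * y u i)) (Finset.mem_univ a₀)]
  have e2 : ∑ x ∈ Finset.univ.erase a₀, ψ x (∑ i, g (x, i) * y u i) =
      ∑ x ∈ Finset.univ.erase a₀, ψ x (∑ i, g' (x, i) * y u i) := by
    apply Finset.sum_congr rfl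
    intro a ha
    simp only [h a _ (Finset.ne_of_mem_erase ha)]
  rw [e2]
  have h1 := hψ a₀ (∑ i, g (a₀, i) * y u i)
  have h2 := hψ a₀ (∑ i, g' (a₀, i) * y u i)
  rw [abs_le] at h1 h2
  linarith [h1.1, h1.2, h2.1, h2.2]

theorem abs_logZ_row_diff [IsProbabilityMeasure μ] (hy : Measurable y)
    (hψm : ∀ a, Measurable (ψ a))
    (hψ : ∀ a x, |ψ a x| ≤ K) (g g' : Fin M × Fin N → ℝ) (a₀ : Fin M)
    (h : ∀ a i, a ≠ a₀ → g (a, i) = g' (a, i)) : |logZ μ y ψ g - logZ μ y ψ g'| ≤ 2 * K := by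
  rw [abs_le]
  constructor
  · linarith [logZ_row_diff (μ := μ) hy hψm hψ g' g a₀ (fun a i ha => (h a i ha).symm)]
  · linarith [logZ_row_diff (μ := μ) hy hψm hψ g g' a₀ h]

end basic

/-! ### variance -/

section var

variable {Ω : Type*} [MeasurableSpace Ω]

/-- second moment around the mean is at most `dvar` -/
theorem lintegral_sq_sub_mean_le (P : Measure Ω) [IsProbabilityMeasure P] {X : Ω → ℝ}
    (hX : Measurable X) {C : ℝ} (hb : ∀ x, |X x| ≤ C) :
    ∫⁻ x, ENNReal.ofReal ((X x - ∫ z, X z ∂P) ^ 2) ∂P ≤ R151.V.dvar P X := by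
  unfold R151.V.dvar
  refine lintegral_mono fun x => ?_
  set m := ∫ z, X z ∂P with hm
  have hXi : Integrable X P := Integrable.of_bound (C := C) hX.aestronglyMeasurable
    (Eventually.of_forall fun x => by rw [Real.norm_eq_abs]; exact hb x)
  have hmi : Integrable (fun z => m - X z) P := (integrable_const m).sub hXi
  have hmi2 : Integrable (fun z => 2 * (X x - m) * (m - X z)) P := hmi.const_mul _
  have hlin : Integrable (fun z => (X x - m) ^ 2 + 2 * (X x - m) * (m - X z)) P :=
    (integrable_const _).add hmi2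
  have hsq : Integrable (fun z => (X x - X z) ^ 2) P := by
    refine Integrable.of_bound (C := (2 * C) ^ 2)
      ((measurable_const.sub hX).pow_const 2).aestronglyMeasurable
      (Eventually.of_forall fun z => ?_)
    rw [Real.norm_eq_abs, abs_of_nonneg (sq_nonneg _)]
    have h1 := hb x
    have h2 := hb z
    rw [abs_le] at h1 h2
    exact sq_le_sq' (by linarith) (by linarith)
  show ENNReal.ofReal ((X x - m) ^ 2) ≤ ∫⁻ z, ENNReal.ofReal ((X x - X z) ^ 2) ∂P
  rw [← ofReal_integral_eq_lintegral_ofReal hsq (Eventually.of_forall fun z => sq_nonneg _)]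
  apply ENNReal.ofReal_le_ofReal
  have h1 : (X x - m) ^ 2 = ∫ z, ((X x - m) ^ 2 + 2 * (X x - m) * (m - X z)) ∂P := by
    rw [integral_add (integrable_const _) hmi2, integral_const_mul,
      integral_sub (integrable_const m) hXi]
    simp [hm]
  rw [h1]
  apply integral_mono hlin hsq
  intro z
  show (X x - m) ^ 2 + 2 * (X x - m) * (m - X z) ≤ (X x - X z) ^ 2
  nlinarith [sq_nonneg (m - X z)]

/-- Chebyshev around the mean with `dvar` -/
theorem meas_dev_le (P : Measure Ω) [IsProbabilityMeasure P] {X : Ω → ℝ}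
    (hX : Measurable X) {C : ℝ} (hb : ∀ x, |X x| ≤ C) {ε : ℝ} (hε : 0 < ε) :
    P {x | ε < |X x - ∫ z, X z ∂P|} ≤ R151.V.dvar P X / ENNReal.ofReal (ε ^ 2) := by
  rw [ENNReal.le_div_iff_mul_le (Or.inl (by positivity)) (Or.inl ENNReal.ofReal_ne_top)]
  refine le_trans ?_ (lintegral_sq_sub_mean_le P hX hb)
  rw [mul_comm]
  refine le_trans (mul_le_mul_right (measure_mono ?_) _) (mul_meas_ge_le_lintegral
    ((hX.sub measurable_const).pow_const 2).ennreal_ofReal (ENNReal.ofReal (ε ^ 2)))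
  intro x hx
  simp only [Set.mem_ofPred_eq] at hx ⊢
  apply ENNReal.ofReal_le_ofReal
  show ε ^ 2 ≤ (X x - ∫ z, X z ∂P) ^ 2
  rw [← sq_abs (X x - _)]
  exact pow_le_pow_left₀ hε.le hx.le 2

/-- **Efron-Stein for the log partition function**, rows i.i.d. -/
theorem dvar_logZ_le {μ : Measure Y} [IsProbabilityMeasure μ] {N M : ℕ} {y : Y → Fin N → ℝ}
    {ψ : Fin M → ℝ → ℝ} {K : ℝ} (hy : Measurable y) (hψm : ∀ a, Measurable (ψ a))
    (hψ : ∀ a x, |ψ a x| ≤ K) (ν : Measure ℝ) [IsProbabilityMeasure ν] :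
    R151.V.dvar (Measure.pi fun _ : Fin M × Fin N => ν) (logZ μ y ψ) ≤
      ENNReal.ofReal (M * (2 * K) ^ 2) := by
  classical
  have hmp := R141.U.measurePreserving_curry (ι := Fin M) (κ := Fin N) ν
  set f : (Fin M → Fin N → ℝ) → ℝ := fun r => logZ μ y ψ (fun p => r p.1 p.2) with hf
  have hfm : Measurable f := by
    apply (measurable_logZ hy hψm).comp
    apply measurable_pi_lambda
    intro p
    exact (measurable_pi_apply p.2).comp (measurable_pi_apply p.1)
  have e1 : R151.V.dvar (Measure.pi fun _ : Fin M × Fin N => ν) (logZ μ y ψ) =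
      R151.V.dvar (Measure.pi fun _ : Fin M => Measure.pi fun _ : Fin N => ν) f := by
    rw [R151.V.dvar_map hmp hfm]
    rfl
  rw [e1]
  refine (R151.V.dvar_pi_le _ hfm).trans ?_
  have h1 : ∀ a : Fin M, R151.V.infl (Measure.pi fun _ : Fin M => Measure.pi fun _ : Fin N => ν)
      (Measure.pi fun _ : Fin N => ν) f a ≤ ENNReal.ofReal ((2 * K) ^ 2) := by
    intro a
    unfold R151.V.infl
    have h2 : ∀ (x : Fin M → Fin N → ℝ) (t : Fin N → ℝ),
        ENNReal.ofReal ((f x - f (Function.update x a t)) ^ 2) ≤ ENNReal.ofReal ((2 * K) ^ 2) := by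
      intro x t
      apply ENNReal.ofReal_le_ofReal
      rw [← sq_abs (f x - _)]
      apply pow_le_pow_left₀ (abs_nonneg _)
      apply abs_logZ_row_diff hy hψm hψ _ _ a
      intro b i hb
      simp [Function.update_of_ne hb]
    calc _ ≤ ∫⁻ _ : Fin M → Fin N → ℝ, ∫⁻ _ : Fin N → ℝ, ENNReal.ofReal ((2 * K) ^ 2)
            ∂(Measure.pi fun _ : Fin N => ν) ∂(Measure.pi fun _ : Fin M => Measure.pi fun _ => ν) :=
          lintegral_mono fun x => lintegral_mono fun t => h2 x t
      _ = _ := by simp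
  refine (Finset.sum_le_sum fun a _ => h1 a).trans ?_
  rw [Finset.sum_const, Finset.card_univ, Fintype.card_fin, nsmul_eq_mul,
    ENNReal.ofReal_mul (by positivity)]
  simp

/-- **concentration of the log partition function** -/
theorem meas_logZ_dev {μ : Measure Y} [IsProbabilityMeasure μ] {N M : ℕ} {y : Y → Fin N → ℝ}
    {ψ : Fin M → ℝ → ℝ} {K : ℝ} (hy : Measurable y) (hψm : ∀ a, Measurable (ψ a))
    (hψ : ∀ a x, |ψ a x| ≤ K) (ν : Measure ℝ) [IsProbabilityMeasure ν] {t : ℝ} (ht : 0 < t) :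
    (Measure.pi fun _ : Fin M × Fin N => ν) {g | t < |logZ μ y ψ g -
      ∫ g, logZ μ y ψ g ∂(Measure.pi fun _ : Fin M × Fin N => ν)|} ≤
      ENNReal.ofReal (M * (2 * K) ^ 2 / t ^ 2) := by
  refine (meas_dev_le _ (measurable_logZ hy hψm) (abs_logZ_le hy hψm hψ) ht).trans ?_
  rw [ENNReal.ofReal_div_of_pos (by positivity)]
  exact ENNReal.div_le_div_right (dvar_logZ_le hy hψm hψ ν) _

end var

/-! ### the sphere -/

section sphere

/-- the uniform probability law on the unit sphere -/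
noncomputable def uSph (N : ℕ) : Measure (UnitSphere N) :=
  (sphereLaw N Set.univ)⁻¹ • sphereLaw N

/-- coordinates of a point of the sphere -/
noncomputable def crd (N : ℕ) (u : UnitSphere N) : Fin N → ℝ := fun i =>
  (u : EuclideanSpace ℝ (Fin N)) i

theorem measurable_crd (N : ℕ) : Measurable (crd N) := by
  apply measurable_pi_lambda
  intro i
  exact ((EuclideanSpace.proj (𝕜 := ℝ) i).continuous.measurable).comp measurable_subtype_coe

instance (N : ℕ) : IsFiniteMeasure (sphereLaw N) := by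
  unfold sphereLaw; infer_instance

theorem sphereLaw_univ_ne_zero {N : ℕ} (hN : 0 < N) : sphereLaw N Set.univ ≠ 0 := by
  have : Nonempty (Fin N) := ⟨⟨0, hN⟩⟩
  unfold sphereLaw
  rw [Ne, Measure.measure_univ_eq_zero]
  exact Measure.toSphere_ne_zero _

theorem isProb_uSph {N : ℕ} (hN : 0 < N) : IsProbabilityMeasure (uSph N) := by
  constructor
  unfold uSph
  rw [Measure.smul_apply, smul_eq_mul]
  exact ENNReal.inv_mul_cancel (sphereLaw_univ_ne_zero hN) (measure_ne_top _ _)

theorem integral_uSph (N : ℕ) (f : UnitSphere N → ℝ) :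
    ∫ u, f u ∂uSph N = (∫ u, f u ∂sphereLaw N) / (sphereLaw N).real Set.univ := by
  unfold uSph
  rw [integral_smul_measure, ENNReal.toReal_inv, smul_eq_mul, inv_mul_eq_div]
  rfl

theorem spherePressure_eq (N : ℕ) (α β : ℝ) (φ : ℝ → ℝ) (g : Patterns N α) :
    spherePressure N α β φ g = logZ (uSph N) (crd N) (fun _ x => β * φ x) g / N := by
  unfold spherePressure logZ
  rw [integral_uSph]
  congr 3
  apply integral_congr_ae
  refine Eventually.of_forall fun u => ?_
  simp only [potentialSum, crd, Finset.mul_sum]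

theorem measurable_spherePressure (N : ℕ) (α β : ℝ) {φ : ℝ → ℝ} (hφ : Measurable φ) :
    Measurable (spherePressure N α β φ) := by
  have h : spherePressure N α β φ = fun g => logZ (uSph N) (crd N) (fun _ x => β * φ x) g / N := by
    funext g; exact spherePressure_eq N α β φ g
  rw [h]
  have : SFinite (uSph N) := by unfold uSph; infer_instance
  exact (measurable_logZ (measurable_crd N) fun _ => hφ.const_mul β).div_const _

theorem numPatterns_le {N : ℕ} {α : ℝ} (hα : 0 ≤ α) : (numPatterns N α : ℝ) ≤ α * N :=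
  Nat.floor_le (by positivity)

theorem abs_mul_le {β K : ℝ} {φ : ℝ → ℝ} (hK : ∀ x, |φ x| ≤ K) (x : ℝ) :
    |β * φ x| ≤ |β| * K := by
  rw [abs_mul]; exact mul_le_mul_of_nonneg_left (hK x) (abs_nonneg _)

theorem abs_spherePressure_le {N : ℕ} (hN : 0 < N) {α β K : ℝ} (hα : 0 ≤ α) {φ : ℝ → ℝ}
    (hφ : Measurable φ) (hK : ∀ x, |φ x| ≤ K) (g : Patterns N α) :
    |spherePressure N α β φ g| ≤ α * (|β| * K) := by
  have := isProb_uSph hN
  have h0 : (0 : ℝ) < N := by exact_mod_cast hN
  have hK0 : 0 ≤ |β| * K := mul_nonneg (abs_nonneg _) ((abs_nonneg _).trans (hK 0))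
  rw [spherePressure_eq, abs_div, abs_of_pos h0, div_le_iff₀ h0]
  refine (abs_logZ_le (measurable_crd N) (fun _ => hφ.const_mul β)
    (fun _ x => abs_mul_le hK x) g).trans ?_
  nlinarith [numPatterns_le (N := N) hα]

theorem integrable_spherePressure {N : ℕ} (hN : 0 < N) {α β K : ℝ} (hα : 0 ≤ α) {φ : ℝ → ℝ}
    (hφ : Measurable φ) (hK : ∀ x, |φ x| ≤ K) (P : Measure (Patterns N α)) [IsFiniteMeasure P] :
    Integrable (spherePressure N α β φ) P :=
  Integrable.of_bound (C := α * (|β| * K)) (measurable_spherePressure N α β hφ).aestronglyMeasurable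
    (Eventually.of_forall fun g => by
      rw [Real.norm_eq_abs]; exact abs_spherePressure_le hN hα hφ hK g)

/-- **concentration of the pressure** for any i.i.d. entries -/
theorem meas_spherePressure_dev {N : ℕ} (hN : 0 < N) {α β K : ℝ} (hα : 0 ≤ α) {φ : ℝ → ℝ}
    (hφ : Measurable φ) (hK : ∀ x, |φ x| ≤ K) (ν : Measure ℝ) [IsProbabilityMeasure ν]
    {t : ℝ} (ht : 0 < t) :
    (Measure.pi fun _ : Fin (numPatterns N α) × Fin N => ν)
      {g | t < |spherePressure N α β φ g -
        ∫ g, spherePressure N α β φ g ∂(Measure.pi fun _ : Fin (numPatterns N α) × Fin N => ν)|} ≤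
      ENNReal.ofReal (α * (2 * (|β| * K)) ^ 2 / (N * t ^ 2)) := by
  have := isProb_uSph hN
  have h0 : (0 : ℝ) < N := by exact_mod_cast hN
  have h := meas_logZ_dev (μ := uSph N) (M := numPatterns N α) (measurable_crd N)
    (ψ := fun _ x => β * φ x) (fun _ => hφ.const_mul β) (fun _ x => abs_mul_le hK x) ν
    (mul_pos h0 ht)
  have e : {g : Patterns N α | t < |spherePressure N α β φ g -
        ∫ g, spherePressure N α β φ g ∂(Measure.pi fun _ : Fin (numPatterns N α) × Fin N => ν)|} =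
      {g | N * t < |logZ (uSph N) (crd N) (fun _ x => β * φ x) g -
      ∫ g, logZ (uSph N) (crd N) (fun _ x => β * φ x) g
        ∂(Measure.pi fun _ : Fin (numPatterns N α) × Fin N => ν)|} := by
    ext g
    simp only [Set.mem_ofPred_eq]
    have e1 : ∫ g, spherePressure N α β φ g
        ∂(Measure.pi fun _ : Fin (numPatterns N α) × Fin N => ν) =
        (∫ g, logZ (uSph N) (crd N) (fun _ x => β * φ x) g
        ∂(Measure.pi fun _ : Fin (numPatterns N α) × Fin N => ν)) / N := by
      rw [← integral_div]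
      apply integral_congr_ae
      exact Eventually.of_forall fun g => spherePressure_eq N α β φ g
    rw [e1, spherePressure_eq, ← sub_div, abs_div, abs_of_pos h0, lt_div_iff₀ h0, mul_comm t]
  rw [e]
  refine h.trans (ENNReal.ofReal_le_ofReal ?_)
  have h1 := numPatterns_le (N := N) hα
  rw [div_le_div_iff₀ (by positivity) (by positivity)]
  have h2 : (numPatterns N α : ℝ) * (2 * (|β| * K)) ^ 2 * (N * t ^ 2) ≤
      (α * N) * (2 * (|β| * K)) ^ 2 * (N * t ^ 2) := by
    gcongr
  refine h2.trans (le_of_eq ?_)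
  ring

/-- **(C)**: convergence of the means gives convergence in probability, any i.i.d. entries -/
theorem tendsto_dev {α β K : ℝ} (hα : 0 ≤ α) {φ : ℝ → ℝ}
    (hφ : Measurable φ) (hK : ∀ x, |φ x| ≤ K) (ν : Measure ℝ) [IsProbabilityMeasure ν] {p : ℝ}
    (hp : Tendsto (fun N : ℕ => ∫ g, spherePressure N α β φ g
      ∂(Measure.pi fun _ : Fin (numPatterns N α) × Fin N => ν)) atTop (𝓝 p)) {ε : ℝ}
    (hε : 0 < ε) :
    Tendsto (fun N : ℕ => (Measure.pi fun _ : Fin (numPatterns N α) × Fin N => ν)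
      {g | ε < |spherePressure N α β φ g - p|}) atTop (𝓝 0) := by
  have h1 : ∀ᶠ N : ℕ in atTop, |(∫ g, spherePressure N α β φ g
      ∂(Measure.pi fun _ : Fin (numPatterns N α) × Fin N => ν)) - p| < ε / 2 := by
    have := (Metric.tendsto_nhds.1 hp) (ε / 2) (by positivity)
    simpa only [Real.dist_eq] using this
  have h2 : Tendsto (fun N : ℕ => ENNReal.ofReal (α * (2 * (|β| * K)) ^ 2 / (N * (ε / 2) ^ 2)))
      atTop (𝓝 0) := by
    rw [← ENNReal.ofReal_zero]
    apply ENNReal.tendsto_ofReal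
    have h3 : Tendsto (fun N : ℕ => (α * (2 * (|β| * K)) ^ 2 / (ε / 2) ^ 2) * ((N : ℝ))⁻¹) atTop
        (𝓝 ((α * (2 * (|β| * K)) ^ 2 / (ε / 2) ^ 2) * 0)) :=
      tendsto_const_nhds.mul (tendsto_inv_atTop_zero.comp tendsto_natCast_atTop_atTop)
    rw [mul_zero] at h3
    refine h3.congr fun N => ?_
    by_cases hN : (N : ℝ) = 0
    · simp [hN]
    · have : (ε / 2) ≠ 0 := by positivity
      field_simp
  refine tendsto_of_tendsto_of_tendsto_of_le_of_le' tendsto_const_nhds h2
    (Eventually.of_forall fun N => zero_le) ?_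
  filter_upwards [h1, eventually_gt_atTop 0] with N hN hN0
  refine le_trans (measure_mono ?_) (meas_spherePressure_dev hN0 hα hφ hK ν (by positivity))
  intro g hg
  simp only [Set.mem_ofPred_eq] at hg ⊢
  have := abs_sub_le (spherePressure N α β φ g) (∫ g, spherePressure N α β φ g
      ∂(Measure.pi fun _ : Fin (numPatterns N α) × Fin N => ν)) p
  linarith

/-- **(C)** for the frozen definitions -/
theorem tendsto_pressureTailProb {α β K : ℝ} (hα : 0 ≤ α) {φ : ℝ → ℝ}
    (hφ : Measurable φ) (hK : ∀ x, |φ x| ≤ K) {p : ℝ}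
    (hp : Tendsto (fun N : ℕ => expectedPressure N α β φ) atTop (𝓝 p)) {ε : ℝ}
    (hε : 0 < ε) :
    Tendsto (fun N : ℕ => pressureTailProb N α β φ p ε) atTop (𝓝 0) :=
  tendsto_dev hα hφ hK (gaussianReal 0 1) hp hε

end sphere

end Crest.Agent.R146.PressC_663
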