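import Crest.Prelude.Def_Perceptron

/-!
# Row 146, node REPAIR, the coordinate laws and the column moments (helper840)

* `Good ν` : probability law on `ℝ`, sub-Gaussian with proxy `2`, mean `0`, second moment `1`;
* `good_mixtureLaw` : the laws `mixtureLaw ε`, `0 ≤ ε ≤ 1`, are good; `good_gaussian`;
* `lintegral_cols` : independence of the columns of an array with iid entries;
* `measure_ge_le`, `measure_le_le` : the two Chernoff bounds for `∑ j (∑ a, l a * A (a, j))²`.
-/

set_option autoImplicit false

open MeasureTheory ProbabilityTheory Set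
open scoped ENNReal NNReal

namespace Crest.Agent.R146.RepairLaw_840

/-- The coordinate laws for which the repair step works. -/
structure Good (ν : Measure ℝ) : Prop where
  prob : IsProbabilityMeasure ν
  sub : HasSubgaussianMGF (fun x : ℝ => x) 2 ν
  mean : ∫ x, x ∂ν = 0
  var : ∫ x, x ^ 2 ∂ν = 1

lemma gauss_facts (v : ℝ≥0) :
    (∀ t : ℝ, Integrable (fun x : ℝ => Real.exp (t * x)) (gaussianReal 0 v)) ∧
    (∀ t : ℝ, ∫ x, Real.exp (t * x) ∂(gaussianReal 0 v) = Real.exp (v * t ^ 2 / 2)) ∧
    Integrable (fun x : ℝ => x) (gaussianReal 0 v) ∧ ∫ x, x ∂(gaussianReal 0 v) = 0 ∧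
    Integrable (fun x : ℝ => x ^ 2) (gaussianReal 0 v) ∧ ∫ x, x ^ 2 ∂(gaussianReal 0 v) = v := by
  have h2 : MemLp (fun x : ℝ => x) 2 (gaussianReal 0 v) := memLp_id_gaussianReal 2
  refine ⟨fun t => integrable_exp_mul_gaussianReal t, fun t => ?_, ?_, integral_id_gaussianReal, ?_, ?_⟩
  · have := congrFun (mgf_id_gaussianReal (μ := 0) (v := v)) t
    simpa [mgf] using this
  · exact h2.integrable (by norm_num)
  · exact h2.integrable_sq
  · have hv := variance_id_gaussianReal (μ := 0) (v := v)
    have h3 := variance_eq_sub (μ := gaussianReal 0 v) (X := fun x : ℝ => x) h2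
    have h4 : ∫ x, x ∂(gaussianReal 0 v) = 0 := integral_id_gaussianReal
    have h5 : variance (fun x : ℝ => x) (gaussianReal 0 v) = v := hv
    rw [h5, h4] at h3
    simpa using h3.symm

/-- The laws `mixtureLaw ε` are good. -/
theorem good_mixtureLaw (ε : ℝ) (h0 : 0 ≤ ε) (h1 : ε ≤ 1) :
    Good (Crest.ProbabilityR.Perceptron.mixtureLaw ε) := by
  obtain ⟨a1, a2, a3, a4, a5, a6⟩ := gauss_facts (Real.toNNReal (1 - ε))
  obtain ⟨b1, b2, b3, b4, b5, b6⟩ := gauss_facts (Real.toNNReal (1 + ε))
  have hva : ((Real.toNNReal (1 - ε) : ℝ≥0) : ℝ) = 1 - ε := Real.coe_toNNReal _ (by linarith)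
  have hvb : ((Real.toNNReal (1 + ε) : ℝ≥0) : ℝ) = 1 + ε := Real.coe_toNNReal _ (by linarith)
  have key : ∀ f : ℝ → ℝ, Integrable f (gaussianReal 0 (Real.toNNReal (1 - ε))) →
      Integrable f (gaussianReal 0 (Real.toNNReal (1 + ε))) →
      Integrable f (Crest.ProbabilityR.Perceptron.mixtureLaw ε) ∧
      ∫ x, f x ∂(Crest.ProbabilityR.Perceptron.mixtureLaw ε)
        = 2⁻¹ * ∫ x, f x ∂(gaussianReal 0 (Real.toNNReal (1 - ε)))
          + 2⁻¹ * ∫ x, f x ∂(gaussianReal 0 (Real.toNNReal (1 + ε))) := by
    intro f hfa hfb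
    have ha := hfa.smul_measure_nnreal (c := (2⁻¹ : ℝ≥0))
    have hb := hfb.smul_measure_nnreal (c := (2⁻¹ : ℝ≥0))
    refine ⟨ha.add_measure hb, ?_⟩
    rw [Crest.ProbabilityR.Perceptron.mixtureLaw, integral_add_measure ha hb,
      integral_smul_nnreal_measure, integral_smul_nnreal_measure]
    simp [NNReal.smul_def]
  refine ⟨⟨?_⟩, ⟨fun t => (key _ (a1 t) (b1 t)).1, fun t => ?_⟩, ?_, ?_⟩
  · rw [Crest.ProbabilityR.Perceptron.mixtureLaw]
    simp only [Measure.coe_add, Pi.add_apply, Measure.coe_nnreal_smul_apply, measure_univ, mul_one]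
    have : ((2⁻¹ : ℝ≥0) : ℝ≥0∞) = 2⁻¹ := by
      rw [ENNReal.coe_inv (by norm_num)]; norm_num
    rw [this]
    exact ENNReal.inv_two_add_inv_two
  · rw [mgf, (key _ (a1 t) (b1 t)).2, a2, b2, hva, hvb]
    have e1 : Real.exp ((1 - ε) * t ^ 2 / 2) ≤ Real.exp ((2 : ℝ≥0) * t ^ 2 / 2) := by
      apply Real.exp_le_exp.2
      have := sq_nonneg t
      push_cast
      nlinarith
    have e2 : Real.exp ((1 + ε) * t ^ 2 / 2) ≤ Real.exp ((2 : ℝ≥0) * t ^ 2 / 2) := by
      apply Real.exp_le_exp.2
      have := sq_nonneg t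
      push_cast
      nlinarith
    linarith
  · rw [(key _ a3 b3).2, a4, b4]; norm_num
  · rw [(key _ a5 b5).2, a6, b6, hva, hvb]; ring

/-- The standard Gaussian law is good. -/
theorem good_gaussian : Good (gaussianReal 0 1) := by
  obtain ⟨a1, a2, a3, a4, a5, a6⟩ := gauss_facts 1
  refine ⟨inferInstance, ⟨fun t => a1 t, fun t => ?_⟩, a4, by simpa using a6⟩
  rw [mgf, a2]
  apply Real.exp_le_exp.2
  have := sq_nonneg t
  push_cast
  nlinarith

/-- Gaussian linearisation: an upper bound for the exponential moment of the square. -/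
lemma lintegral_exp_sq_le {Ω : Type*} [MeasurableSpace Ω] (P : Measure Ω) [SFinite P] (X : Ω → ℝ)
    (hXm : Measurable X) (hX : HasSubgaussianMGF X 2 P) :
    ∫⁻ ω, ENNReal.ofReal (Real.exp (X ω ^ 2 / 8)) ∂P ≤ ENNReal.ofReal (√2) := by
  -- `exp (u² / 2) = ∫ exp (u z) dγ z`
  have hlin : ∀ u : ℝ, ENNReal.ofReal (Real.exp (u ^ 2 / 8))
      = ∫⁻ z, ENNReal.ofReal (Real.exp ((u / 2) * z)) ∂(gaussianReal 0 1) := by
    intro u
    obtain ⟨a1, a2, -⟩ := gauss_facts 1
    rw [← ofReal_integral_eq_lintegral_ofReal (a1 _)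
      (Filter.Eventually.of_forall fun z => (Real.exp_pos _).le), a2]
    congr 2
    push_cast
    ring
  simp_rw [hlin]
  rw [lintegral_lintegral_swap]
  · calc ∫⁻ z, ∫⁻ ω, ENNReal.ofReal (Real.exp (X ω / 2 * z)) ∂P ∂(gaussianReal 0 1)
        ≤ ∫⁻ z, ENNReal.ofReal (Real.exp (z ^ 2 / 4)) ∂(gaussianReal 0 1) := by
          refine lintegral_mono fun z => ?_
          have e : ∀ ω, X ω / 2 * z = (z / 2) * X ω := fun ω => by ring
          simp_rw [e]
          rw [← ofReal_integral_eq_lintegral_ofReal (hX.integrable_exp_mul _)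
            (Filter.Eventually.of_forall fun z => (Real.exp_pos _).le)]
          refine ENNReal.ofReal_le_ofReal ?_
          have := hX.mgf_le (z / 2)
          rw [mgf] at this
          refine this.trans (le_of_eq ?_)
          congr 1
          push_cast
          ring
      _ = ENNReal.ofReal (√2) := by
          have hpdf : ∀ t : ℝ, gaussianPDFReal 0 1 t * Real.exp (t ^ 2 / 4)
              = (√(2 * Real.pi))⁻¹ * Real.exp (-(1 / 4) * t ^ 2) := by
            intro t
            rw [gaussianPDFReal, mul_assoc, ← Real.exp_add]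
            congr 2
            · simp
            · push_cast
              ring
          have hint : Integrable (fun t : ℝ => gaussianPDFReal 0 1 t * Real.exp (t ^ 2 / 4)) := by
            simp_rw [hpdf]
            exact (integrable_exp_neg_mul_sq (by norm_num)).const_mul _
          have hint2 : Integrable (fun t : ℝ => Real.exp (t ^ 2 / 4)) (gaussianReal 0 1) := by
            rw [gaussianReal_of_var_ne_zero _ one_ne_zero]
            rw [integrable_withDensity_iff_integrable_smul₀' (by fun_prop)
              (Filter.Eventually.of_forall fun x => by simp [gaussianPDF])]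
            refine hint.congr (Filter.Eventually.of_forall fun t => ?_)
            simp [gaussianPDF, gaussianPDFReal_nonneg]
          rw [← ofReal_integral_eq_lintegral_ofReal hint2
            (Filter.Eventually.of_forall fun z => (Real.exp_pos _).le)]
          congr 1
          rw [integral_gaussianReal_eq_integral_smul one_ne_zero]
          simp_rw [smul_eq_mul, hpdf]
          rw [integral_const_mul, integral_gaussian]
          rw [← Real.sqrt_inv, ← Real.sqrt_mul (by positivity)]
          congr 1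
          have hpi := Real.pi_pos
          field_simp
          norm_num
  · refine Measurable.aemeasurable ?_
    exact (Real.measurable_exp.comp (((hXm.comp measurable_fst).div_const 2).mul
      measurable_snd)).ennreal_ofReal

/-! ### columns -/

section cols

variable {κ J : Type*} [Fintype κ] [Fintype J]

/-- The array law is the product over the columns of the column laws. -/
lemma pi_eq_map_cols (ν : Measure ℝ) [SigmaFinite ν] :
    (Measure.pi fun _ : κ × J => ν)
      = (Measure.pi fun _ : J => Measure.pi fun _ : κ => ν).map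
          (fun B : J → κ → ℝ => fun q : κ × J => B q.2 q.1) := by
  have hm : Measurable (fun B : J → κ → ℝ => fun q : κ × J => B q.2 q.1) :=
    measurable_pi_lambda _ fun q => (measurable_pi_apply q.1).comp (measurable_pi_apply q.2)
  refine Measure.pi_eq fun s hs => ?_
  rw [Measure.map_apply hm (MeasurableSet.univ_pi hs)]
  have : (fun B : J → κ → ℝ => fun q : κ × J => B q.2 q.1) ⁻¹' (Set.pi univ s)
      = Set.pi univ fun j : J => Set.pi univ fun a : κ => s (a, j) := by
    ext B
    simp only [Set.mem_preimage, Set.mem_univ_pi]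
    exact ⟨fun h j a => h (a, j), fun h q => h q.2 q.1⟩
  rw [this, Measure.pi_pi]
  simp_rw [Measure.pi_pi]
  rw [Fintype.prod_prod_type_right]

/-- Independence of the columns. -/
theorem lintegral_cols (ν : Measure ℝ) [IsProbabilityMeasure ν] (f : (κ → ℝ) → ℝ≥0∞)
    (hf : Measurable f) :
    ∫⁻ A, ∏ j : J, f (fun a => A (a, j)) ∂(Measure.pi fun _ : κ × J => ν)
      = (∫⁻ x, f x ∂(Measure.pi fun _ : κ => ν)) ^ Fintype.card J := by
  have hm : Measurable (fun B : J → κ → ℝ => fun q : κ × J => B q.2 q.1) :=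
    measurable_pi_lambda _ fun q => (measurable_pi_apply q.1).comp (measurable_pi_apply q.2)
  have hg : Measurable fun A : κ × J → ℝ => ∏ j : J, f (fun a => A (a, j)) := by
    refine Finset.measurable_prod _ fun j _ => hf.comp ?_
    exact measurable_pi_lambda _ fun a => measurable_pi_apply _
  rw [pi_eq_map_cols, lintegral_map hg hm]
  have hind : iIndepFun (fun (j : J) (B : J → κ → ℝ) => f (B j))
      (Measure.pi fun _ : J => Measure.pi fun _ : κ => ν) :=
    iIndepFun_pi fun _ => hf.aemeasurable
  have h := lintegral_prod_eq_prod_lintegral_of_indepFun (Finset.univ : Finset J) _ hind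
    (fun j => hf.comp (measurable_pi_apply j))
  refine h.trans ?_
  rw [← Finset.card_univ, ← Finset.prod_const]
  refine Finset.prod_congr rfl fun j _ => ?_
  exact (measurePreserving_eval (fun _ : J => Measure.pi fun _ : κ => ν) j).lintegral_comp hf

/-- A linear combination of the entries of a column. -/
noncomputable def lin (l : κ → ℝ) (x : κ → ℝ) : ℝ := ∑ a, l a * x a

lemma measurable_lin (l : κ → ℝ) : Measurable (lin l) := by
  have h : ∀ a, Measurable fun x : κ → ℝ => l a * x a := fun a =>
    measurable_const.mul (measurable_pi_apply a)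
  exact Finset.measurable_sum _ fun a _ => h a

variable {ν : Measure ℝ}

lemma subG_lin (h : Good ν) (l : κ → ℝ) (hl : ∑ a, l a ^ 2 ≤ 1) :
    HasSubgaussianMGF (lin l) 2 (Measure.pi fun _ : κ => ν) := by
  have := h.prob
  have hind : iIndepFun (fun (a : κ) (x : κ → ℝ) => l a * x a) (Measure.pi fun _ : κ => ν) :=
    iIndepFun_pi (X := fun (a : κ) (x : ℝ) => l a * x) fun a =>
      (measurable_id.const_mul (l a)).aemeasurable
  have hc : ∀ a ∈ (Finset.univ : Finset κ),
      HasSubgaussianMGF (fun x : κ → ℝ => l a * x a) (Real.toNNReal (l a ^ 2) * 2)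
        (Measure.pi fun _ : κ => ν) := by
    intro a _
    have h1 : HasSubgaussianMGF (fun x : κ → ℝ => x a) 2 (Measure.pi fun _ : κ => ν) := by
      have hmp := measurePreserving_eval (fun _ : κ => ν) a
      have h2 : HasSubgaussianMGF (fun x : ℝ => x) 2
          ((Measure.pi fun _ : κ => ν).map (Function.eval a)) := by
        rw [hmp.map_eq]; exact h.sub
      have h3 : AEMeasurable (Function.eval a : (κ → ℝ) → ℝ) (Measure.pi fun _ : κ => ν) :=
        (measurable_pi_apply a).aemeasurable
      exact HasSubgaussianMGF.of_map h3 h2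
    have h4 := h1.const_mul (l a)
    have h5 : (⟨l a ^ 2, sq_nonneg _⟩ : ℝ≥0) = Real.toNNReal (l a ^ 2) :=
      (Real.toNNReal_of_nonneg (sq_nonneg _)).symm
    rw [← h5]
    exact h4
  have h3 := HasSubgaussianMGF.sum_of_iIndepFun hind (s := Finset.univ)
    (c := fun a => Real.toNNReal (l a ^ 2) * 2) hc
  have hle : (∑ a, Real.toNNReal (l a ^ 2) * 2 : ℝ≥0) ≤ 2 := by
    rw [← Finset.sum_mul]
    have : (∑ a, Real.toNNReal (l a ^ 2) : ℝ≥0) ≤ 1 := by
      rw [← NNReal.coe_le_coe]
      push_cast
      refine le_trans (le_of_eq (Finset.sum_congr rfl fun a _ => ?_)) hl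
      exact max_eq_left (sq_nonneg _)
    calc (∑ a, Real.toNNReal (l a ^ 2)) * 2 ≤ 1 * 2 := by gcongr
      _ = 2 := one_mul _
  refine ⟨fun t => h3.integrable_exp_mul t, fun t => (h3.mgf_le t).trans ?_⟩
  apply Real.exp_le_exp.2
  have h6 : ((∑ a, Real.toNNReal (l a ^ 2) * 2 : ℝ≥0) : ℝ) ≤ ((2 : ℝ≥0) : ℝ) :=
    NNReal.coe_le_coe.2 hle
  have := mul_le_mul_of_nonneg_right h6 (sq_nonneg t)
  exact div_le_div_of_nonneg_right this (by norm_num)

lemma lin_moments (h : Good ν) (l : κ → ℝ) (hl : ∑ a, l a ^ 2 = 1) :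
    Integrable (fun x => lin l x ^ 2) (Measure.pi fun _ : κ => ν) ∧
    ∫ x, lin l x ^ 2 ∂(Measure.pi fun _ : κ => ν) = 1 ∧
    Integrable (fun x => lin l x ^ 4) (Measure.pi fun _ : κ => ν) ∧
    ∫ x, lin l x ^ 4 ∂(Measure.pi fun _ : κ => ν) ≤ 182 := by
  have := h.prob
  have hsub := subG_lin h l hl.le
  have hL2 : MemLp (fun x : ℝ => x) 2 ν := by
    have := h.sub.memLp 2
    simpa using this
  have hmean : ∀ a : κ, ∫ x : κ → ℝ, x a ∂(Measure.pi fun _ : κ => ν) = 0 := by
    intro a
    have hmp := measurePreserving_eval (fun _ : κ => ν) a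
    have h1 : ∫ y, y ∂((Measure.pi fun _ : κ => ν).map (Function.eval a))
        = ∫ x : κ → ℝ, x a ∂(Measure.pi fun _ : κ => ν) :=
      integral_map (measurable_pi_apply a).aemeasurable
        (by exact measurable_id.aestronglyMeasurable)
    rw [← h1, hmp.map_eq]
    exact h.mean
  have hsq : ∀ a : κ, ∫ x : κ → ℝ, x a ^ 2 ∂(Measure.pi fun _ : κ => ν) = 1 := by
    intro a
    have hmp := measurePreserving_eval (fun _ : κ => ν) a
    have h1 : ∫ y, y ^ 2 ∂((Measure.pi fun _ : κ => ν).map (Function.eval a))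
        = ∫ x : κ → ℝ, x a ^ 2 ∂(Measure.pi fun _ : κ => ν) :=
      integral_map (measurable_pi_apply a).aemeasurable
        (by exact (measurable_id.pow_const 2).aestronglyMeasurable)
    rw [← h1, hmp.map_eq]
    exact h.var
  have hLa : ∀ a : κ, MemLp (fun x : κ → ℝ => l a * x a) 2 (Measure.pi fun _ : κ => ν) := by
    intro a
    have hmp := measurePreserving_eval (fun _ : κ => ν) a
    exact (hL2.comp_measurePreserving hmp).const_mul (l a)
  have hind : iIndepFun (fun (a : κ) (x : κ → ℝ) => l a * x a) (Measure.pi fun _ : κ => ν) :=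
    iIndepFun_pi (X := fun (a : κ) (x : ℝ) => l a * x) fun a =>
      (measurable_id.const_mul (l a)).aemeasurable
  have hvar : variance (∑ a, fun x : κ → ℝ => l a * x a) (Measure.pi fun _ : κ => ν)
      = ∑ a, variance (fun x : κ → ℝ => l a * x a) (Measure.pi fun _ : κ => ν) :=
    IndepFun.variance_sum (fun a _ => hLa a) fun a _ b _ hab => hind.indepFun hab
  have hva : ∀ a : κ, variance (fun x : κ → ℝ => l a * x a) (Measure.pi fun _ : κ => ν)
      = l a ^ 2 := by
    intro a
    rw [variance_const_mul]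
    have hmp := measurePreserving_eval (fun _ : κ => ν) a
    have h2 : MemLp (fun x : κ → ℝ => x a) 2 (Measure.pi fun _ : κ => ν) :=
      hL2.comp_measurePreserving hmp
    rw [variance_eq_sub h2]
    have e : ∫ x : κ → ℝ, ((fun x : κ → ℝ => x a) ^ 2) x ∂(Measure.pi fun _ : κ => ν) = 1 := hsq a
    rw [e, hmean]
    norm_num
  have hsum : (∑ a, fun x : κ → ℝ => l a * x a) = lin l := by
    ext x
    simp [lin]
  have hmeanlin : ∫ x, lin l x ∂(Measure.pi fun _ : κ => ν) = 0 := by
    unfold lin
    rw [integral_finsetSum]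
    · refine Finset.sum_eq_zero fun a _ => ?_
      rw [integral_const_mul, hmean, mul_zero]
    · intro a _
      exact (hLa a).integrable (by norm_num)
  have hlin2 : MemLp (lin l) 2 (Measure.pi fun _ : κ => ν) := by
    have := hsub.memLp 2
    simpa using this
  have hlin4 : MemLp (lin l) 4 (Measure.pi fun _ : κ => ν) := by
    have := hsub.memLp 4
    simpa using this
  have hI2 : Integrable (fun x => lin l x ^ 2) (Measure.pi fun _ : κ => ν) := hlin2.integrable_sq
  have hI4 : Integrable (fun x => lin l x ^ 4) (Measure.pi fun _ : κ => ν) := by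
    have := hlin4.integrable_norm_pow (by norm_num : (4 : ℕ) ≠ 0)
    refine this.congr (Filter.Eventually.of_forall fun x => ?_)
    simp only [Real.norm_eq_abs]
    exact Even.pow_abs (by decide) _
  refine ⟨hI2, ?_, hI4, ?_⟩
  · rw [hsum] at hvar
    simp_rw [hva, hl] at hvar
    rw [variance_eq_sub hlin2, hmeanlin] at hvar
    simpa using hvar
  · have hexp := lintegral_exp_sq_le (Measure.pi fun _ : κ => ν) (lin l) (measurable_lin l) hsub
    have h4 : ENNReal.ofReal (∫ x, lin l x ^ 4 ∂(Measure.pi fun _ : κ => ν))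
        ≤ ENNReal.ofReal (128 * √2) := by
      rw [ofReal_integral_eq_lintegral_ofReal hI4
        (Filter.Eventually.of_forall fun z => by positivity)]
      calc ∫⁻ x, ENNReal.ofReal (lin l x ^ 4) ∂(Measure.pi fun _ : κ => ν)
          ≤ ∫⁻ x, ENNReal.ofReal 128 * ENNReal.ofReal (Real.exp (lin l x ^ 2 / 8))
              ∂(Measure.pi fun _ : κ => ν) := by
            refine lintegral_mono fun x => ?_
            rw [← ENNReal.ofReal_mul (by norm_num)]
            refine ENNReal.ofReal_le_ofReal ?_
            have hu : 0 ≤ lin l x ^ 2 / 8 := by positivity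
            have := Real.quadratic_le_exp_of_nonneg hu
            nlinarith
        _ = ENNReal.ofReal 128 * ∫⁻ x, ENNReal.ofReal (Real.exp (lin l x ^ 2 / 8))
              ∂(Measure.pi fun _ : κ => ν) :=
            lintegral_const_mul' _ _ ENNReal.ofReal_ne_top
        _ ≤ ENNReal.ofReal 128 * ENNReal.ofReal (√2) := by gcongr
        _ = ENNReal.ofReal (128 * √2) := by rw [← ENNReal.ofReal_mul (by norm_num)]
    have h5 := (ENNReal.ofReal_le_ofReal_iff (by positivity)).1 h4
    refine h5.trans ?_
    have : √2 ≤ 1.4143 := by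
      rw [Real.sqrt_le_left (by norm_num)]
      norm_num
    linarith

/-- the column sum of squares -/
noncomputable def quad (l : κ → ℝ) (A : κ × J → ℝ) : ℝ := ∑ j, (∑ a, l a * A (a, j)) ^ 2

lemma measurable_quad (l : κ → ℝ) : Measurable (quad (J := J) l) := by
  have h : ∀ (a : κ) (j : J), Measurable fun A : κ × J → ℝ => l a * A (a, j) := fun a j =>
    measurable_const.mul (measurable_pi_apply (a, j))
  refine Finset.measurable_sum _ fun j _ => Measurable.pow_const ?_ 2
  exact Finset.measurable_sum _ fun a _ => h a j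

lemma quad_smul (c : ℝ) (l : κ → ℝ) (A : κ × J → ℝ) :
    quad (fun a => c * l a) A = c ^ 2 * quad l A := by
  unfold quad
  rw [Finset.mul_sum]
  refine Finset.sum_congr rfl fun j _ => ?_
  rw [← mul_pow, Finset.mul_sum]
  congr 1
  exact Finset.sum_congr rfl fun a _ => by ring

/-- upper Chernoff bound -/
theorem measure_quad_ge (h : Good ν) (l : κ → ℝ) (hl : ∑ a, l a ^ 2 ≤ 1) (R : ℝ) :
    (Measure.pi fun _ : κ × J => ν) {A | R ≤ quad l A}
      ≤ ENNReal.ofReal (√2 ^ Fintype.card J * Real.exp (-R / 8)) := by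
  have := h.prob
  set P := (Measure.pi fun _ : κ × J => ν) with hP
  have hcol := lintegral_cols (κ := κ) (J := J) ν
    (fun x => ENNReal.ofReal (Real.exp (lin l x ^ 2 / 8)))
    ((Real.measurable_exp.comp (((measurable_lin l).pow_const 2).div_const 8)).ennreal_ofReal)
  have hle := lintegral_exp_sq_le (Measure.pi fun _ : κ => ν) (lin l) (measurable_lin l)
    (subG_lin h l hl)
  have hprod : ∀ A : κ × J → ℝ,
      ∏ j : J, ENNReal.ofReal (Real.exp (lin l (fun a => A (a, j)) ^ 2 / 8))
        = ENNReal.ofReal (Real.exp (quad l A / 8)) := by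
    intro A
    rw [← ENNReal.ofReal_prod_of_nonneg (fun _ _ => (Real.exp_pos _).le), ← Real.exp_sum]
    congr 2
    rw [quad, Finset.sum_div]
    rfl
  simp_rw [hprod] at hcol
  calc P {A | R ≤ quad l A}
      ≤ ∫⁻ A, ENNReal.ofReal (Real.exp (-R / 8)) * ENNReal.ofReal (Real.exp (quad l A / 8)) ∂P := by
        rw [← lintegral_indicator_one (measurableSet_le measurable_const (measurable_quad l))]
        refine lintegral_mono fun A => ?_
        by_cases hA : R ≤ quad l A
        · rw [Set.indicator_of_mem (by exact hA)]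
          rw [← ENNReal.ofReal_mul (Real.exp_pos _).le, ← Real.exp_add]
          simp only [Pi.one_apply]
          rw [← ENNReal.ofReal_one]
          refine ENNReal.ofReal_le_ofReal (Real.one_le_exp ?_)
          linarith
        · rw [Set.indicator_of_notMem (by exact hA)]
          exact zero_le
    _ = ENNReal.ofReal (Real.exp (-R / 8)) *
          ∫⁻ A, ENNReal.ofReal (Real.exp (quad l A / 8)) ∂P :=
        lintegral_const_mul' _ _ ENNReal.ofReal_ne_top
    _ ≤ ENNReal.ofReal (Real.exp (-R / 8)) * ENNReal.ofReal (√2) ^ Fintype.card J := by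
        rw [hcol]
        gcongr
    _ = ENNReal.ofReal (√2 ^ Fintype.card J * Real.exp (-R / 8)) := by
        rw [← ENNReal.ofReal_pow (Real.sqrt_nonneg _), ← ENNReal.ofReal_mul (Real.exp_pos _).le,
          mul_comm]

/-- lower Chernoff bound -/
theorem measure_quad_le (h : Good ν) (l : κ → ℝ) (hl : ∑ a, l a ^ 2 = 1) :
    (Measure.pi fun _ : κ × J => ν) {A | quad l A ≤ Fintype.card J / 4}
      ≤ ENNReal.ofReal (Real.exp (-(Fintype.card J : ℝ) / 728)) := by
  have := h.prob
  set P := (Measure.pi fun _ : κ × J => ν) with hP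
  have hcol := lintegral_cols (κ := κ) (J := J) ν
    (fun x => ENNReal.ofReal (Real.exp (-(lin l x ^ 2 / 182))))
    ((Real.measurable_exp.comp (((measurable_lin l).pow_const 2).div_const 182).neg).ennreal_ofReal)
  obtain ⟨i2, m2, i4, m4⟩ := lin_moments h l hl
  have hone : ∫⁻ x, ENNReal.ofReal (Real.exp (-(lin l x ^ 2 / 182))) ∂(Measure.pi fun _ : κ => ν)
      ≤ ENNReal.ofReal (Real.exp (-1 / 364)) := by
    have hint : Integrable (fun x => 1 - lin l x ^ 2 / 182 + (lin l x ^ 4) / (2 * 182 ^ 2))
        (Measure.pi fun _ : κ => ν) :=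
      ((integrable_const 1).sub (i2.div_const 182)).add (i4.div_const _)
    calc ∫⁻ x, ENNReal.ofReal (Real.exp (-(lin l x ^ 2 / 182))) ∂(Measure.pi fun _ : κ => ν)
        ≤ ∫⁻ x, ENNReal.ofReal (1 - lin l x ^ 2 / 182 + (lin l x ^ 4) / (2 * 182 ^ 2))
            ∂(Measure.pi fun _ : κ => ν) := by
          refine lintegral_mono fun x => ENNReal.ofReal_le_ofReal ?_
          have hu : 0 ≤ lin l x ^ 2 / 182 := by positivity
          have hq : Real.exp (-(lin l x ^ 2 / 182))
              ≤ 1 - (lin l x ^ 2 / 182) + (lin l x ^ 2 / 182) ^ 2 / 2 := by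
            rw [Real.exp_neg, inv_le_comm₀ (Real.exp_pos _)
              (by nlinarith [sq_nonneg (lin l x ^ 2 / 182 - 1)])]
            refine le_trans ?_ (Real.quadratic_le_exp_of_nonneg hu)
            rw [inv_le_iff_one_le_mul₀ (by nlinarith [sq_nonneg (lin l x ^ 2 / 182 - 1)])]
            nlinarith [pow_nonneg hu 4]
          refine hq.trans (le_of_eq ?_)
          ring
      _ = ENNReal.ofReal (∫ x, (1 - lin l x ^ 2 / 182 + (lin l x ^ 4) / (2 * 182 ^ 2))
            ∂(Measure.pi fun _ : κ => ν)) := by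
          rw [ofReal_integral_eq_lintegral_ofReal hint]
          refine Filter.Eventually.of_forall fun x => ?_
          simp only [Pi.zero_apply]
          nlinarith [sq_nonneg (lin l x ^ 2 / 182 - 1)]
      _ ≤ ENNReal.ofReal (Real.exp (-1 / 364)) := by
          refine ENNReal.ofReal_le_ofReal ?_
          have e : ∫ x, (1 - lin l x ^ 2 / 182 + (lin l x ^ 4) / (2 * 182 ^ 2))
                ∂(Measure.pi fun _ : κ => ν)
              = 1 - 1 / 182 + (∫ x, lin l x ^ 4 ∂(Measure.pi fun _ : κ => ν)) / (2 * 182 ^ 2) := by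
            have j1 : Integrable (fun x => 1 - lin l x ^ 2 / 182) (Measure.pi fun _ : κ => ν) :=
              (integrable_const 1).sub (i2.div_const 182)
            have j2 : Integrable (fun x => lin l x ^ 4 / (2 * 182 ^ 2))
                (Measure.pi fun _ : κ => ν) := i4.div_const _
            rw [integral_add j1 j2, integral_sub (integrable_const 1) (i2.div_const 182),
              integral_div, integral_div, m2]
            simp
          rw [e]
          have h1 := Real.add_one_le_exp (-1 / 364 : ℝ)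
          have h2 : (∫ x, lin l x ^ 4 ∂(Measure.pi fun _ : κ => ν)) / (2 * 182 ^ 2) ≤ 1 / 364 := by
            rw [div_le_iff₀ (by norm_num)]
            refine m4.trans ?_
            norm_num
          linarith
  have hprod : ∀ A : κ × J → ℝ,
      ∏ j : J, ENNReal.ofReal (Real.exp (-(lin l (fun a => A (a, j)) ^ 2 / 182)))
        = ENNReal.ofReal (Real.exp (-(quad l A / 182))) := by
    intro A
    rw [← ENNReal.ofReal_prod_of_nonneg (fun _ _ => (Real.exp_pos _).le), ← Real.exp_sum]
    congr 2
    rw [quad, Finset.sum_neg_distrib, Finset.sum_div]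
    rfl
  simp_rw [hprod] at hcol
  set n : ℝ := (Fintype.card J : ℝ) with hn
  calc P {A | quad l A ≤ n / 4}
      ≤ ∫⁻ A, ENNReal.ofReal (Real.exp (n / 728)) *
          ENNReal.ofReal (Real.exp (-(quad l A / 182))) ∂P := by
        rw [← lintegral_indicator_one (measurableSet_le (measurable_quad l) measurable_const)]
        refine lintegral_mono fun A => ?_
        by_cases hA : quad l A ≤ n / 4
        · rw [Set.indicator_of_mem (by exact hA)]
          rw [← ENNReal.ofReal_mul (Real.exp_pos _).le, ← Real.exp_add]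
          simp only [Pi.one_apply]
          rw [← ENNReal.ofReal_one]
          refine ENNReal.ofReal_le_ofReal (Real.one_le_exp ?_)
          linarith
        · rw [Set.indicator_of_notMem (by exact hA)]
          exact zero_le
    _ = ENNReal.ofReal (Real.exp (n / 728)) *
          ∫⁻ A, ENNReal.ofReal (Real.exp (-(quad l A / 182))) ∂P :=
        lintegral_const_mul' _ _ ENNReal.ofReal_ne_top
    _ ≤ ENNReal.ofReal (Real.exp (n / 728)) *
          ENNReal.ofReal (Real.exp (-1 / 364)) ^ Fintype.card J := by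
        rw [hcol]
        gcongr
    _ = ENNReal.ofReal (Real.exp (-n / 728)) := by
        rw [← ENNReal.ofReal_pow (Real.exp_pos _).le, ← ENNReal.ofReal_mul (Real.exp_pos _).le,
          ← Real.exp_nat_mul, ← Real.exp_add]
        congr 2
        rw [← hn]
        ring

end cols

end Crest.Agent.R146.RepairLaw_840
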