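import Mathlib
import Crest.Agent.R146.Assoc2_323
import Crest.Agent.R146.PressC_663
import Crest.Agent.R146.RepairLaw_840

/-!
Row 146, package ASSOC, part 3: the quadratic penalty potential `qp b k x = -(b/2) (k - x)₊²`, its
truncations, and the truncation error of the mean log-partition function on the sphere, uniformly
in the dimension, for every good coordinate law (`gaussianReal 0 1`, `mixtureLaw ε`).
-/

set_option autoImplicit false
set_option linter.unusedSectionVars false

namespace Crest.Agent.R146.Assoc_323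

open MeasureTheory ProbabilityTheory
open Crest.ProbabilityR.Perceptron
open Crest.Agent.R146.RepairLaw_840 (Good subG_lin lin)
open Crest.Agent.R146.PressC_663 (logZ uSph crd measurable_crd isProb_uSph)

/-! ### The quadratic potential -/

/-- `-(b/2) (k - x)₊²`. -/
noncomputable def qp (b k x : ℝ) : ℝ := -(b / 2) * max (k - x) 0 ^ 2

theorem qp_nonpos {b : ℝ} (hb : 0 ≤ b) (k x : ℝ) : qp b k x ≤ 0 := by
  unfold qp
  have := sq_nonneg (max (k - x) 0)
  nlinarith

theorem continuous_qp (b k : ℝ) : Continuous (qp b k) := by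
  unfold qp; fun_prop

theorem monotone_qp {b : ℝ} (hb : 0 ≤ b) (k : ℝ) : Monotone (qp b k) := by
  intro x z hxz
  unfold qp
  have h1 : max (k - z) 0 ≤ max (k - x) 0 := max_le_max (by linarith) le_rfl
  have h2 : max (k - z) 0 ^ 2 ≤ max (k - x) 0 ^ 2 := by
    have := le_max_right (k - z) 0
    gcongr
  nlinarith

theorem abs_qp_le {b : ℝ} (hb : 0 ≤ b) (k x : ℝ) :
    |qp b k x| ≤ b * (1 + k ^ 2) * (1 + x ^ 2) := by
  have h0 := le_max_right (k - x) 0
  have h1 : max (k - x) 0 ^ 2 ≤ (k - x) ^ 2 := by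
    rcases le_total (k - x) 0 with h | h
    · rw [max_eq_right h]; nlinarith [sq_nonneg (k - x)]
    · rw [max_eq_left h]
  have h2 : (k - x) ^ 2 ≤ 2 * (k ^ 2 + x ^ 2) := by nlinarith [sq_nonneg (k + x)]
  rw [abs_of_nonpos (qp_nonpos hb k x)]
  unfold qp
  have h3 : b / 2 * max (k - x) 0 ^ 2 ≤ b / 2 * (2 * (k ^ 2 + x ^ 2)) :=
    mul_le_mul_of_nonneg_left (h1.trans h2) (by linarith)
  have h4 : k ^ 2 + x ^ 2 ≤ (1 + k ^ 2) * (1 + x ^ 2) := by nlinarith [sq_nonneg (k * x)]
  nlinarith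

/-- the truncation error of the quadratic potential has exponential moments. -/
theorem trunc_qp_le {b : ℝ} (hb : 0 < b) (k : ℝ) {L : ℝ} (hL : 0 ≤ L) (x : ℝ) :
    max (qp b k x) (-L) - qp b k x ≤
      b * Real.exp (2 * |k|) * Real.exp (-Real.sqrt (2 * L / b)) *
        (Real.exp (2 * x) + Real.exp (-(2 * x))) := by
  have hR : 0 ≤ b * Real.exp (2 * |k|) * Real.exp (-Real.sqrt (2 * L / b)) *
        (Real.exp (2 * x) + Real.exp (-(2 * x))) := by positivity
  rcases le_total (-L) (qp b k x) with h | h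
  · rw [max_eq_left h]; linarith
  rw [max_eq_right h]
  set u := max (k - x) 0 with hu
  have hu0 : 0 ≤ u := le_max_right _ _
  have hq : qp b k x = -(b / 2) * u ^ 2 := rfl
  have h1 : L ≤ b / 2 * u ^ 2 := by linarith
  have h2 : Real.sqrt (2 * L / b) ≤ u := by
    rw [Real.sqrt_le_left hu0, div_le_iff₀ hb]
    nlinarith
  have h3 : u ^ 2 ≤ 2 * Real.exp u := by
    have := Real.quadratic_le_exp_of_nonneg hu0
    nlinarith
  have h4 : u ≤ |k| + |x| := by
    refine max_le ?_ (by positivity)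
    have := le_abs_self k
    have := neg_abs_le x
    linarith
  have h5 : Real.exp (2 * |x|) ≤ Real.exp (2 * x) + Real.exp (-(2 * x)) := by
    rcases abs_cases x with ⟨h, _⟩ | ⟨h, _⟩
    · rw [h]; have := Real.exp_pos (-(2 * x)); linarith
    · rw [h, mul_neg]; have := Real.exp_pos (2 * x); linarith
  calc -L - qp b k x = b / 2 * u ^ 2 - L := by rw [hq]; ring
    _ ≤ b / 2 * (2 * Real.exp u) := by
        have := mul_le_mul_of_nonneg_left h3 (by linarith : 0 ≤ b / 2)
        linarith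
    _ = b * Real.exp u := by ring
    _ ≤ b * (Real.exp (2 * u) * Real.exp (-Real.sqrt (2 * L / b))) := by
        refine mul_le_mul_of_nonneg_left ?_ hb.le
        rw [← Real.exp_add]
        exact Real.exp_le_exp.2 (by linarith)
    _ ≤ b * ((Real.exp (2 * |k|) * (Real.exp (2 * x) + Real.exp (-(2 * x)))) *
          Real.exp (-Real.sqrt (2 * L / b))) := by
        refine mul_le_mul_of_nonneg_left ?_ hb.le
        refine mul_le_mul_of_nonneg_right ?_ (Real.exp_pos _).le
        calc Real.exp (2 * u) ≤ Real.exp (2 * |k| + 2 * |x|) :=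
              Real.exp_le_exp.2 (by linarith)
          _ = Real.exp (2 * |k|) * Real.exp (2 * |x|) := Real.exp_add _ _
          _ ≤ _ := mul_le_mul_of_nonneg_left h5 (Real.exp_pos _).le
    _ = _ := by ring

/-! ### Exponential moments of a row field -/

theorem sum_crd_sq {N : ℕ} (u : UnitSphere N) : ∑ i, crd N u i ^ 2 = 1 := by
  have h : ‖(u : EuclideanSpace ℝ (Fin N))‖ = 1 := by
    simp
  have h2 := EuclideanSpace.norm_sq_eq (u : EuclideanSpace ℝ (Fin N))
  rw [h] at h2
  simp only [Real.norm_eq_abs, sq_abs, one_pow] at h2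
  exact h2.symm

theorem sum_crd_sq_le {N : ℕ} (u : UnitSphere N) : ∑ i, crd N u i ^ 2 ≤ 1 := (sum_crd_sq u).le

theorem integral_exp_fld_le {ν : Measure ℝ} (h : Good ν) {N M : ℕ} {Y : Type*}
    {y : Y → Fin N → ℝ} (hy1 : ∀ ω, ∑ i, y ω i ^ 2 ≤ 1) (a : Fin M) (ω : Y) (t : ℝ) :
    Integrable (fun A : Fin M × Fin N → ℝ => Real.exp (t * fld y A a ω)) (PL M N ν) ∧
    ∫ A, Real.exp (t * fld y A a ω) ∂(PL M N ν) ≤ Real.exp (t ^ 2) := by
  classical
  set l : Fin M × Fin N → ℝ := fun q => if q.1 = a then y ω q.2 else 0 with hl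
  have e : ∀ A : Fin M × Fin N → ℝ, lin l A = fld y A a ω := by
    intro A
    unfold lin fld
    rw [Fintype.sum_prod_type]
    simp only [hl]
    rw [Finset.sum_eq_single a]
    · refine Finset.sum_congr rfl fun i _ => ?_
      simp [mul_comm]
    · intro b _ hb
      simp [hb]
    · simp
  have hl2 : ∑ q, l q ^ 2 ≤ 1 := by
    rw [Fintype.sum_prod_type]
    simp only [hl]
    rw [Finset.sum_eq_single a]
    · simpa using hy1 ω
    · intro b _ hb
      simp [hb]
    · simp
  have hs := subG_lin h l hl2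
  have h1 := hs.integrable_exp_mul t
  have h2 := hs.mgf_le t
  simp only [mgf, e] at h1 h2
  refine ⟨h1, h2.trans (Real.exp_le_exp.2 ?_)⟩
  push_cast
  linarith

theorem lintegral_exp_fld_le {ν : Measure ℝ} (h : Good ν) {N M : ℕ} {Y : Type*}
    {y : Y → Fin N → ℝ} (hy1 : ∀ ω, ∑ i, y ω i ^ 2 ≤ 1) (a : Fin M) (ω : Y) {c : ℝ}
    (hc : 0 ≤ c) {g : ℝ → ℝ} (hg : ∀ x, g x ≤ c * (Real.exp (2 * x) + Real.exp (-(2 * x)))) :
    ∫⁻ A, ENNReal.ofReal (g (fld y A a ω)) ∂(PL M N ν) ≤
      ENNReal.ofReal (c * (2 * Real.exp 4)) := by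
  obtain ⟨i1, b1⟩ := integral_exp_fld_le h hy1 a ω 2
  obtain ⟨i2, b2⟩ := integral_exp_fld_le h hy1 a ω (-2)
  refine (lintegral_mono fun A => ENNReal.ofReal_le_ofReal (hg _)).trans ?_
  have e : ∀ A : Fin M × Fin N → ℝ, Real.exp (-(2 * fld y A a ω)) =
      Real.exp (-2 * fld y A a ω) := fun A => by congr 1; ring
  simp only [e]
  have i3 : Integrable (fun A : Fin M × Fin N → ℝ =>
      c * (Real.exp (2 * fld y A a ω) + Real.exp (-2 * fld y A a ω))) (PL M N ν) :=
    (i1.add i2).const_mul c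
  rw [← ofReal_integral_eq_lintegral_ofReal i3 (ae_of_all _ fun A => by
    have := Real.exp_pos (2 * fld y A a ω)
    have := Real.exp_pos (-2 * fld y A a ω)
    positivity)]
  refine ENNReal.ofReal_le_ofReal ?_
  rw [integral_const_mul, integral_add i1 i2]
  refine mul_le_mul_of_nonneg_left ?_ hc
  norm_num at b1 b2 ⊢
  linarith

/-- The general comparison on the sphere: potentials `ψ ≤ ψ'` with `ψ' - ψ` nonincreasing and
controlled by `c a * cosh`. -/
theorem integral_logZ_sub_le {ν : Measure ℝ} (h : Good ν) {N M : ℕ} (hN : 0 < N) {C : ℝ}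
    (hC : 0 ≤ C) {ψ ψ' : Fin M → ℝ → ℝ} (hψm : ∀ a, Measurable (ψ a)) (hψ : QG C ψ)
    (hψm' : ∀ a, Measurable (ψ' a)) (hψ' : QG C ψ')
    {f : Fin M → ℝ → ℝ} {T : ℝ} (hf : ∀ a, Monotone (f a)) (hfT : ∀ a x, |ψ' a x - f a x| ≤ T)
    (hχ : ∀ a, Antitone fun x => ψ' a x - ψ a x) (hχ0 : ∀ a x, ψ a x ≤ ψ' a x)
    {c : Fin M → ℝ} (hc0 : ∀ a, 0 ≤ c a)
    (hc : ∀ a x, ψ' a x - ψ a x ≤ c a * (Real.exp (2 * x) + Real.exp (-(2 * x)))) :
    (∫ A, logZ (uSph N) (crd N) ψ A ∂(PL M N ν)) ≤ (∫ A, logZ (uSph N) (crd N) ψ' A ∂(PL M N ν)) ∧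
    (∫ A, logZ (uSph N) (crd N) ψ' A ∂(PL M N ν)) - (∫ A, logZ (uSph N) (crd N) ψ A ∂(PL M N ν)) ≤
      Real.exp (2 * T) * (2 * Real.exp 4) * ∑ a, c a := by
  have := h.prob
  have := isProb_uSph hN
  have hρ2 : Integrable (fun x : ℝ => x ^ 2) ν := by
    by_contra hni
    have h1 := h.var
    rw [integral_undef hni] at h1
    norm_num at h1
  have hμ : uSph N ≠ 0 := IsProbabilityMeasure.ne_zero _
  have key := integral_log_Zf_sub_le (ρ := ν) hρ2 hμ (measurable_crd N) (fun u => sum_crd_sq_le u)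
    hC hψm hψ hψm' hψ' hf hfT hχ hχ0 (c := fun a => c a * (2 * Real.exp 4))
    (fun a => mul_nonneg (hc0 a) (by positivity))
    (fun a ω => lintegral_exp_fld_le h (fun u => sum_crd_sq_le u) a ω (hc0 a)
      (g := fun x => ψ' a x - ψ a x) (hc a))
  refine ⟨key.1, key.2.trans (le_of_eq ?_)⟩
  rw [← Finset.sum_mul]
  ring

/-- `log Z` is integrable for potentials of quadratic growth under a good law. -/
theorem integrable_logZ {ν : Measure ℝ} (h : Good ν) {N M : ℕ} (hN : 0 < N) {C : ℝ}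
    (hC : 0 ≤ C) {ψ : Fin M → ℝ → ℝ} (hψm : ∀ a, Measurable (ψ a)) (hψ : QG C ψ) :
    Integrable (fun A => logZ (uSph N) (crd N) ψ A) (PL M N ν) := by
  have := h.prob
  have := isProb_uSph hN
  have hρ2 : Integrable (fun x : ℝ => x ^ 2) ν := by
    by_contra hni
    have h1 := h.var
    rw [integral_undef hni] at h1
    norm_num at h1
  have hμ : uSph N ≠ 0 := IsProbabilityMeasure.ne_zero _
  have hP : ∀ p, Integrable (fun A : Fin M × Fin N → ℝ => A p ^ 2) (PL M N ν) := fun p =>
    (measurePreserving_eval (fun _ : Fin M × Fin N => ν) p).integrable_comp_of_integrable hρ2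
  exact integrable_log_Zf (PL M N ν) hP hμ (measurable_crd N) (fun u => sum_crd_sq_le u) hC hψm hψ

/-- **(A1) for the quadratic penalty.** Truncating the potentials `qp b (k a) + θ a` at level `-L`
changes the mean log-partition function by at most
`e^{2T} · 2 e⁴ · ∑ a, b e^{2|k a|} e^{-√(2L/b)}`, for every good coordinate law. -/
theorem trunc_bound {ν : Measure ℝ} (h : Good ν) {N M : ℕ} (hN : 0 < N) {b : ℝ} (hb : 0 < b)
    (k : Fin M → ℝ) {θ : Fin M → ℝ → ℝ} (hθm : ∀ a, Measurable (θ a)) {T : ℝ}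
    (hθ : ∀ a x, |θ a x| ≤ T) {L : ℝ} (hL : 0 ≤ L) :
    (∫ A, logZ (uSph N) (crd N) (fun a x => qp b (k a) x + θ a x) A ∂(PL M N ν)) ≤
      (∫ A, logZ (uSph N) (crd N) (fun a x => max (qp b (k a) x) (-L) + θ a x) A ∂(PL M N ν)) ∧
    (∫ A, logZ (uSph N) (crd N) (fun a x => max (qp b (k a) x) (-L) + θ a x) A ∂(PL M N ν)) -
      (∫ A, logZ (uSph N) (crd N) (fun a x => qp b (k a) x + θ a x) A ∂(PL M N ν)) ≤
      Real.exp (2 * T) * (2 * Real.exp 4) *
        ∑ a, b * Real.exp (2 * |k a|) * Real.exp (-Real.sqrt (2 * L / b)) := by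
  set C : ℝ := ∑ a, b * (1 + k a ^ 2) + |T| + L with hCdef
  have hC0 : 0 ≤ C := by positivity
  have hq : ∀ a x, |qp b (k a) x| ≤ (∑ a, b * (1 + k a ^ 2)) * (1 + x ^ 2) := by
    intro a x
    refine (abs_qp_le hb.le (k a) x).trans ?_
    refine mul_le_mul_of_nonneg_right ?_ (by positivity)
    exact Finset.single_le_sum (f := fun a => b * (1 + k a ^ 2)) (fun i _ => by positivity)
      (Finset.mem_univ a)
  have hT : ∀ a x, |θ a x| ≤ |T| * (1 + x ^ 2) := by
    intro a x
    have h1 := (hθ a x).trans (le_abs_self T)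
    have h2 := abs_nonneg T
    nlinarith [sq_nonneg x, mul_nonneg h2 (sq_nonneg x)]
  have hS0 : 0 ≤ ∑ a, b * (1 + k a ^ 2) := Finset.sum_nonneg fun i _ => by positivity
  refine integral_logZ_sub_le h hN (C := C) hC0 (ψ := fun a x => qp b (k a) x + θ a x)
    (ψ' := fun a x => max (qp b (k a) x) (-L) + θ a x)
    (fun a => ((continuous_qp b (k a)).measurable).add (hθm a)) ?_
    (fun a => (((continuous_qp b (k a)).measurable).max measurable_const).add (hθm a)) ?_
    (f := fun a x => max (qp b (k a) x) (-L)) (T := T)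
    (fun a x z hxz => max_le_max (monotone_qp hb.le (k a) hxz) le_rfl)
    (fun a x => by simpa using hθ a x) ?_ ?_ (fun a => by positivity) ?_
  · intro a x
    refine (abs_add_le _ _).trans ?_
    have h1 := hq a x
    have h2 := hT a x
    have h3 : 0 ≤ L * (1 + x ^ 2) := by positivity
    rw [hCdef]
    nlinarith
  · intro a x
    refine (abs_add_le _ _).trans ?_
    have h1 := hq a x
    have h2 := hT a x
    have h3 : |max (qp b (k a) x) (-L)| ≤ |qp b (k a) x| := by
      have h4 := qp_nonpos hb.le (k a) x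
      rw [abs_of_nonpos h4, abs_of_nonpos (max_le h4 (by linarith))]
      exact neg_le_neg (le_max_left _ _)
    have h5 : 0 ≤ L * (1 + x ^ 2) := by positivity
    rw [hCdef]
    nlinarith
  · intro a x z hxz
    have hm := monotone_qp hb.le (k a) hxz
    show max (qp b (k a) z) (-L) + θ a z - (qp b (k a) z + θ a z) ≤
      max (qp b (k a) x) (-L) + θ a x - (qp b (k a) x + θ a x)
    have e : ∀ w, max (qp b (k a) w) (-L) + θ a w - (qp b (k a) w + θ a w) =
        max 0 (-L - qp b (k a) w) := by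
      intro w
      rcases le_total (-L) (qp b (k a) w) with h | h
      · rw [max_eq_left h, max_eq_left (by linarith)]; ring
      · rw [max_eq_right h, max_eq_right (by linarith)]; ring
    rw [e, e]
    exact max_le_max le_rfl (by linarith)
  · intro a x
    have := le_max_left (qp b (k a) x) (-L)
    linarith
  · intro a x
    have := trunc_qp_le hb (k a) hL x
    linarith

end Crest.Agent.R146.Assoc_323
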