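import Mathlib
import Crest.Agent.R146.Assoc3_323

/-!
Row 146, package ASSOC, part 4: limits of the mean pressure and convergence in probability pass
from the truncated (bounded) potentials to the quadratic penalty `qp b k + θ`, for every good
coordinate law.
-/

set_option autoImplicit false
set_option linter.unusedSectionVars false

namespace Crest.Agent.R146.Assoc_323

open MeasureTheory ProbabilityTheory Filter Topology
open Crest.ProbabilityR.Perceptron
open Crest.Agent.R146.RepairLaw_840 (Good)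
open Crest.Agent.R146.PressC_663 (logZ uSph crd measurable_crd isProb_uSph spherePressure_eq)

/-- the mean pressure at `β = 1` for an array with i.i.d. entries of law `ν`. -/
noncomputable def eP (ν : Measure ℝ) (α : ℝ) (φ : ℝ → ℝ) (N : ℕ) : ℝ :=
  ∫ g, spherePressure N α 1 φ g ∂(Measure.pi fun _ : Fin (numPatterns N α) × Fin N => ν)

theorem spherePressure_one (N : ℕ) (α : ℝ) (φ : ℝ → ℝ) (g : Patterns N α) :
    spherePressure N α 1 φ g = logZ (uSph N) (crd N) (fun _ => φ) g / N := by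
  rw [spherePressure_eq]
  simp only [one_mul]

theorem spherePressure_beta (N : ℕ) (α β : ℝ) (φ : ℝ → ℝ) (g : Patterns N α) :
    spherePressure N α β φ g = spherePressure N α 1 (fun x => β * φ x) g := by
  rw [spherePressure_eq, spherePressure_one]

theorem eP_eq (ν : Measure ℝ) (α : ℝ) (φ : ℝ → ℝ) (N : ℕ) :
    eP ν α φ N =
      (∫ A, logZ (uSph N) (crd N) (fun _ => φ) A ∂(PL (numPatterns N α) N ν)) / N := by
  unfold eP
  rw [← integral_div]
  exact integral_congr_ae (ae_of_all _ fun g => spherePressure_one N α φ g)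

theorem expectedPressure_eq (N : ℕ) (α β : ℝ) (φ : ℝ → ℝ) :
    expectedPressure N α β φ = eP (gaussianReal 0 1) α (fun x => β * φ x) N := by
  unfold expectedPressure eP
  exact integral_congr_ae (ae_of_all _ fun g => spherePressure_beta N α β φ g)

/-- A sequence which is approximated with vanishing error by converging sequences converges. -/
theorem tendsto_of_approx {x : ℕ → ℝ} {y : ℕ → ℕ → ℝ} {p c : ℕ → ℝ}
    (hc : Tendsto c atTop (𝓝 0)) (hy : ∀ n, Tendsto (y n) atTop (𝓝 (p n)))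
    (hxy : ∀ n, ∀ᶠ N in atTop, |x N - y n N| ≤ c n) :
    ∃ P, Tendsto x atTop (𝓝 P) ∧ ∀ n, |p n - P| ≤ c n := by
  have hcauchy : CauchySeq x := by
    rw [Metric.cauchySeq_iff']
    intro ε hε
    obtain ⟨n, hn⟩ := ((Metric.tendsto_nhds.1 hc (ε / 6) (by positivity))).exists
    rw [Real.dist_eq, sub_zero] at hn
    have hn' : c n < ε / 6 := (le_abs_self _).trans_lt hn
    have h1 := Metric.tendsto_nhds.1 (hy n) (ε / 6) (by positivity)
    obtain ⟨N0, hN0⟩ := eventually_atTop.1 (h1.and (hxy n))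
    refine ⟨N0, fun N hN => ?_⟩
    obtain ⟨a1, a2⟩ := hN0 N hN
    obtain ⟨b1, b2⟩ := hN0 N0 le_rfl
    rw [Real.dist_eq] at *
    have e : x N - x N0 = (x N - y n N) + (y n N - p n) - (y n N0 - p n) - (x N0 - y n N0) := by
      ring
    rw [abs_le] at a2 b2
    rw [abs_lt] at a1 b1 ⊢
    constructor <;> linarith
  obtain ⟨P, hP⟩ := cauchySeq_tendsto_of_complete hcauchy
  refine ⟨P, hP, fun n => ?_⟩
  have h1 : Tendsto (fun N => |y n N - x N|) atTop (𝓝 |p n - P|) := ((hy n).sub hP).abs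
  refine le_of_tendsto h1 ?_
  filter_upwards [hxy n] with N hN
  rwa [abs_sub_comm]

/-- the uniform truncation error at level `L`. -/
noncomputable def cL (α b k T L : ℝ) : ℝ :=
  α * (Real.exp (2 * T) * (2 * Real.exp 4) *
    (b * Real.exp (2 * |k|) * Real.exp (-Real.sqrt (2 * L / b))))

theorem cL_nonneg {α b : ℝ} (hα : 0 ≤ α) (hb : 0 ≤ b) (k T L : ℝ) : 0 ≤ cL α b k T L := by
  unfold cL; positivity

theorem tendsto_cL (α : ℝ) {b : ℝ} (hb : 0 < b) (k T : ℝ) :
    Tendsto (fun n : ℕ => cL α b k T n) atTop (𝓝 0) := by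
  have h1 : Tendsto (fun n : ℕ => Real.sqrt (2 * (n : ℝ) / b)) atTop atTop := by
    refine Real.tendsto_sqrt_atTop.comp ?_
    refine Tendsto.atTop_div_const hb ?_
    exact tendsto_natCast_atTop_atTop.const_mul_atTop (by norm_num)
  have h2 : Tendsto (fun n : ℕ => Real.exp (-Real.sqrt (2 * (n : ℝ) / b))) atTop (𝓝 0) :=
    Real.tendsto_exp_neg_atTop_nhds_zero.comp h1
  have h3 := h2.const_mul (α * (Real.exp (2 * T) * (2 * Real.exp 4) * (b * Real.exp (2 * |k|))))
  rw [mul_zero] at h3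
  refine h3.congr fun n => ?_
  unfold cL
  ring

/-- the truncation error of the mean pressure. -/
theorem eP_trunc {ν : Measure ℝ} (h : Good ν) {α b : ℝ} (hα : 0 ≤ α) (hb : 0 < b) (k : ℝ)
    {θ : ℝ → ℝ} (hθm : Measurable θ) {T : ℝ} (hθ : ∀ x, |θ x| ≤ T) {L : ℝ} (hL : 0 ≤ L)
    {N : ℕ} (hN : 0 < N) :
    eP ν α (fun x => qp b k x + θ x) N ≤ eP ν α (fun x => max (qp b k x) (-L) + θ x) N ∧
      eP ν α (fun x => max (qp b k x) (-L) + θ x) N - eP ν α (fun x => qp b k x + θ x) N ≤
        cL α b k T L := by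
  have h0 : (0 : ℝ) < N := by exact_mod_cast hN
  have key := trunc_bound h (M := numPatterns N α) hN hb (fun _ => k) (fun _ => hθm) (T := T)
    (fun _ => hθ) hL
  rw [eP_eq, eP_eq]
  refine ⟨div_le_div_of_nonneg_right key.1 h0.le, ?_⟩
  rw [← sub_div, div_le_iff₀ h0]
  refine key.2.trans ?_
  rw [Finset.sum_const, Finset.card_univ, Fintype.card_fin, nsmul_eq_mul]
  unfold cL
  have hM : (numPatterns N α : ℝ) ≤ α * N := Nat.floor_le (by positivity)
  have hc : 0 ≤ Real.exp (2 * T) * (2 * Real.exp 4) *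
    (b * Real.exp (2 * |k|) * Real.exp (-Real.sqrt (2 * L / b))) := by positivity
  nlinarith [mul_le_mul_of_nonneg_right hM hc]

/-- **Limit transfer.** If the mean pressures of all truncations converge, so does the mean
pressure of `qp b k + θ`; the limits are within `cL`. -/
theorem exists_tendsto_eP_qp {ν : Measure ℝ} (h : Good ν) {α b : ℝ} (hα : 0 ≤ α) (hb : 0 < b)
    (k : ℝ) {θ : ℝ → ℝ} (hθm : Measurable θ) {T : ℝ} (hθ : ∀ x, |θ x| ≤ T) {p : ℕ → ℝ}
    (hp : ∀ n : ℕ, Tendsto (eP ν α fun x => max (qp b k x) (-(n : ℝ)) + θ x) atTop (𝓝 (p n))) :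
    ∃ P : ℝ, Tendsto (eP ν α fun x => qp b k x + θ x) atTop (𝓝 P) ∧
      ∀ n : ℕ, P ≤ p n ∧ p n - P ≤ cL α b k T n := by
  have hxy : ∀ n : ℕ, ∀ᶠ N in atTop, |eP ν α (fun x => qp b k x + θ x) N -
      eP ν α (fun x => max (qp b k x) (-(n : ℝ)) + θ x) N| ≤ cL α b k T n := by
    intro n
    filter_upwards [eventually_gt_atTop 0] with N hN
    obtain ⟨h1, h2⟩ := eP_trunc h hα hb k hθm hθ (L := (n : ℝ)) (Nat.cast_nonneg n) hN
    rw [abs_sub_comm, abs_of_nonneg (sub_nonneg.2 h1)]
    exact h2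
  obtain ⟨P, hP, hPn⟩ := tendsto_of_approx (tendsto_cL α hb k T) hp hxy
  refine ⟨P, hP, fun n => ⟨?_, (le_abs_self _).trans (hPn n)⟩⟩
  refine le_of_tendsto_of_tendsto hP (hp n) ?_
  filter_upwards [eventually_gt_atTop 0] with N hN
  exact (eP_trunc h hα hb k hθm hθ (L := (n : ℝ)) (Nat.cast_nonneg n) hN).1

theorem QG_const {C : ℝ} {φ : ℝ → ℝ} (hφ : ∀ x, |φ x| ≤ C * (1 + x ^ 2)) (M : ℕ) :
    QG C (fun _ : Fin M => φ) := fun _ x => hφ x

theorem growth_qp_add {b : ℝ} (hb : 0 ≤ b) (k : ℝ) {θ : ℝ → ℝ} {T : ℝ} (hθ : ∀ x, |θ x| ≤ T)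
    (x : ℝ) : |qp b k x + θ x| ≤ (b * (1 + k ^ 2) + |T|) * (1 + x ^ 2) := by
  refine (abs_add_le _ _).trans ?_
  have h1 := abs_qp_le hb k x
  have h2 : |θ x| ≤ |T| * (1 + x ^ 2) := by
    have h3 := (hθ x).trans (le_abs_self T)
    have h4 := mul_nonneg (abs_nonneg T) (sq_nonneg x)
    nlinarith
  linarith

theorem growth_max_add {b : ℝ} (hb : 0 ≤ b) (k : ℝ) {θ : ℝ → ℝ} {T : ℝ} (hθ : ∀ x, |θ x| ≤ T)
    {L : ℝ} (hL : 0 ≤ L) (x : ℝ) : |max (qp b k x) (-L) + θ x| ≤
      (b * (1 + k ^ 2) + |T|) * (1 + x ^ 2) := by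
  refine (abs_add_le _ _).trans ?_
  have h1 := abs_qp_le hb k x
  have h0 : |max (qp b k x) (-L)| ≤ |qp b k x| := by
    have h4 := qp_nonpos hb k x
    rw [abs_of_nonpos h4, abs_of_nonpos (max_le h4 (by linarith))]
    exact neg_le_neg (le_max_left _ _)
  have h2 : |θ x| ≤ |T| * (1 + x ^ 2) := by
    have h3 := (hθ x).trans (le_abs_self T)
    have h4 := mul_nonneg (abs_nonneg T) (sq_nonneg x)
    nlinarith
  linarith

/-- **Convergence in probability** of the pressure with the quadratic penalty. -/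
theorem tendsto_dev_qp {ν : Measure ℝ} (h : Good ν) {α b : ℝ} (hα : 0 ≤ α) (hb : 0 < b)
    (k : ℝ) {θ : ℝ → ℝ} (hθm : Measurable θ) {T : ℝ} (hθ : ∀ x, |θ x| ≤ T) {p : ℕ → ℝ}
    (hp : ∀ n : ℕ, Tendsto (eP ν α fun x => max (qp b k x) (-(n : ℝ)) + θ x) atTop (𝓝 (p n)))
    {P : ℝ} (hP : Tendsto (eP ν α fun x => qp b k x + θ x) atTop (𝓝 P)) {ε : ℝ} (hε : 0 < ε) :
    Tendsto (fun N : ℕ => (Measure.pi fun _ : Fin (numPatterns N α) × Fin N => ν)
      {g | ε < |spherePressure N α 1 (fun x => qp b k x + θ x) g - P|}) atTop (𝓝 0) := by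
  have := h.prob
  rw [ENNReal.tendsto_nhds_zero]
  intro δ hδ
  -- choose the truncation level
  obtain ⟨P', hP', hPn⟩ := exists_tendsto_eP_qp h hα hb k hθm hθ hp
  have hPP : P' = P := tendsto_nhds_unique hP' hP
  subst hPP
  have hδ2 : ∃ n : ℕ, ENNReal.ofReal (cL α b k T n / (ε / 3)) ≤ δ / 2 ∧ cL α b k T n < ε / 3 := by
    have h1 : Tendsto (fun n : ℕ => ENNReal.ofReal (cL α b k T n / (ε / 3))) atTop (𝓝 0) := by
      have h2 := (tendsto_cL α hb k T).div_const (ε / 3)
      rw [zero_div] at h2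
      have h3 := ENNReal.tendsto_ofReal h2
      rwa [ENNReal.ofReal_zero] at h3
    have h4 := ENNReal.tendsto_nhds_zero.1 h1 (δ / 2) (ENNReal.half_pos hδ.ne')
    have h5 := Metric.tendsto_nhds.1 (tendsto_cL α hb k T) (ε / 3) (by positivity)
    obtain ⟨n, hn1, hn2⟩ := (h4.and h5).exists
    refine ⟨n, hn1, ?_⟩
    rw [Real.dist_eq, sub_zero] at hn2
    exact (le_abs_self _).trans_lt hn2
  obtain ⟨n, hn1, hn2⟩ := hδ2
  have hn0 : (0 : ℝ) ≤ n := Nat.cast_nonneg n
  -- the truncated potential is bounded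
  have hbdd : ∀ x, |max (qp b k x) (-(n : ℝ)) + θ x| ≤ n + T := by
    intro x
    refine (abs_add_le _ _).trans (add_le_add ?_ (hθ x))
    have h4 := qp_nonpos hb.le k x
    rw [abs_of_nonpos (max_le h4 (by linarith))]
    have := le_max_right (qp b k x) (-(n : ℝ))
    linarith
  have hmt : Measurable fun x => max (qp b k x) (-(n : ℝ)) + θ x :=
    ((continuous_qp b k).measurable.max measurable_const).add hθm
  have hmf : Measurable fun x => qp b k x + θ x := (continuous_qp b k).measurable.add hθm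
  have hdev := PressC_663.tendsto_dev (β := 1) hα hmt hbdd ν (hp n) (ε := ε / 3) (by positivity)
  have hdev' := ENNReal.tendsto_nhds_zero.1 hdev (δ / 2) (ENNReal.half_pos hδ.ne')
  filter_upwards [hdev', eventually_gt_atTop 0] with N hN hN0
  have h0 : (0 : ℝ) < N := by exact_mod_cast hN0
  have hC0 : 0 ≤ b * (1 + k ^ 2) + |T| := by positivity
  -- integrability and the L¹ distance
  have i1 : Integrable (spherePressure N α 1 fun x => qp b k x + θ x)
      (Measure.pi fun _ : Fin (numPatterns N α) × Fin N => ν) := by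
    have h1 := (integrable_logZ h (M := numPatterns N α) hN0 hC0 (fun _ => hmf)
      (QG_const (growth_qp_add hb.le k hθ) _)).div_const (N : ℝ)
    exact h1.congr (ae_of_all _ fun g => (spherePressure_one N α _ g).symm)
  have i2 : Integrable (spherePressure N α 1 fun x => max (qp b k x) (-(n : ℝ)) + θ x)
      (Measure.pi fun _ : Fin (numPatterns N α) × Fin N => ν) := by
    have h1 := (integrable_logZ h (M := numPatterns N α) hN0 hC0 (fun _ => hmt)
      (QG_const (growth_max_add hb.le k hθ hn0) _)).div_const (N : ℝ)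
    exact h1.congr (ae_of_all _ fun g => (spherePressure_one N α _ g).symm)
  have hmono : ∀ g : Patterns N α, spherePressure N α 1 (fun x => qp b k x + θ x) g ≤
      spherePressure N α 1 (fun x => max (qp b k x) (-(n : ℝ)) + θ x) g := by
    intro g
    have := isProb_uSph hN0
    rw [spherePressure_one, spherePressure_one]
    refine div_le_div_of_nonneg_right ?_ h0.le
    refine log_Zf_mono (IsProbabilityMeasure.ne_zero _) (measurable_crd N)
      (fun u => sum_crd_sq_le u) hC0 (fun _ => hmf) (QG_const (growth_qp_add hb.le k hθ) _)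
      (fun _ => hmt) (QG_const (growth_max_add hb.le k hθ hn0) _) (fun _ x => ?_) g
    have := le_max_left (qp b k x) (-(n : ℝ))
    linarith
  have hL1 : ∫ g, (spherePressure N α 1 (fun x => max (qp b k x) (-(n : ℝ)) + θ x) g -
      spherePressure N α 1 (fun x => qp b k x + θ x) g)
      ∂(Measure.pi fun _ : Fin (numPatterns N α) × Fin N => ν) ≤ cL α b k T n := by
    rw [integral_sub i2 i1]
    exact (eP_trunc h hα hb k hθm hθ hn0 hN0).2
  have hmarkov : (Measure.pi fun _ : Fin (numPatterns N α) × Fin N => ν)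
      {g | ε / 3 ≤ spherePressure N α 1 (fun x => max (qp b k x) (-(n : ℝ)) + θ x) g -
        spherePressure N α 1 (fun x => qp b k x + θ x) g} ≤ δ / 2 := by
    refine le_trans ?_ hn1
    have h1 := mul_meas_ge_le_integral_of_nonneg (μ := Measure.pi
      fun _ : Fin (numPatterns N α) × Fin N => ν)
      (f := fun g => spherePressure N α 1 (fun x => max (qp b k x) (-(n : ℝ)) + θ x) g -
        spherePressure N α 1 (fun x => qp b k x + θ x) g)
      (ae_of_all _ fun g => sub_nonneg.2 (hmono g)) (i2.sub i1) (ε / 3)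
    have h2 := h1.trans hL1
    rw [ENNReal.le_ofReal_iff_toReal_le (measure_ne_top _ _)
      (div_nonneg (cL_nonneg hα hb.le k T n) (by positivity)), le_div_iff₀ (by positivity)]
    rw [mul_comm]
    exact h2
  have hsub : {g : Patterns N α | ε < |spherePressure N α 1 (fun x => qp b k x + θ x) g - P'|} ⊆
      {g | ε / 3 ≤ spherePressure N α 1 (fun x => max (qp b k x) (-(n : ℝ)) + θ x) g -
        spherePressure N α 1 (fun x => qp b k x + θ x) g} ∪
      {g | ε / 3 < |spherePressure N α 1 (fun x => max (qp b k x) (-(n : ℝ)) + θ x) g - p n|} := by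
    intro g hg
    by_contra hcon
    simp only [Set.mem_union, Set.mem_ofPred_eq, not_or, not_le, not_lt] at hcon hg
    obtain ⟨c1, c2⟩ := hcon
    have h1 := hmono g
    obtain ⟨h2, h3⟩ := hPn n
    have h4 : |spherePressure N α 1 (fun x => qp b k x + θ x) g - P'| ≤ ε := by
      rw [abs_le] at c2 ⊢
      constructor <;> linarith
    linarith
  calc (Measure.pi fun _ : Fin (numPatterns N α) × Fin N => ν)
        {g : Patterns N α | ε < |spherePressure N α 1 (fun x => qp b k x + θ x) g - P'|}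
      ≤ _ := measure_mono hsub
    _ ≤ _ := measure_union_le _ _
    _ ≤ δ / 2 + δ / 2 := add_le_add hmarkov hN
    _ = δ := ENNReal.add_halves δ

end Crest.Agent.R146.Assoc_323
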