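import Crest.Agent.R146.RepairLaw_840

/-!
# Row 146, node REPAIR, nets and the good event (helper840)

* `exists_net` : `2 ^ (-k)`-nets of the unit ball with at most `5 ^ (k d)` points;
* `good_event` : with probability at least `1 - 2 exp (-n / 1456)`, the transpose of an array with `n`
  columns and at most `α n` rows, with iid entries of a good law, is bounded by `C √n` and bounded below by
  `√n / 8` on all vectors with at most `v n` non-zero entries.
-/

set_option autoImplicit false

open MeasureTheory ProbabilityTheory Set Crest.Agent.R146.RepairLaw_840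
open scoped ENNReal NNReal

namespace Crest.Agent.R146.RepairNet_840

section nets

variable (E : Type*) [NormedAddCommGroup E] [NormedSpace ℝ E] [FiniteDimensional ℝ E]

/-- a half-net of the unit ball with at most `5 ^ d` points -/
lemma exists_half_net : ∃ N : Finset E, N.card ≤ 5 ^ (Module.finrank ℝ E) ∧ (∀ c ∈ N, ‖c‖ ≤ 1) ∧
    ∀ v : E, ‖v‖ ≤ 1 → ∃ c ∈ N, ‖v - c‖ ≤ 1 / 2 := by
  classical
  set P : Finset E → Prop := fun S => (∀ c ∈ S, ‖c‖ ≤ 1) ∧
    ∀ c ∈ S, ∀ e ∈ S, c ≠ e → 1 / 2 ≤ ‖c - e‖ with hP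
  have hcard : ∀ S, P S → S.card ≤ 5 ^ (Module.finrank ℝ E) := by
    intro S hS
    have hinj : Function.Injective (fun c : E => (2 : ℝ) • c) := by
      intro a b hab
      have : (2 : ℝ) • a = (2 : ℝ) • b := hab
      exact (smul_right_injective E (two_ne_zero : (2 : ℝ) ≠ 0)) this
    have h := Besicovitch.card_le_of_separated (S.image fun c : E => (2 : ℝ) • c) ?_ ?_
    · rw [Finset.card_image_of_injective _ hinj] at h
      exact h
    · intro c hc
      obtain ⟨a, ha, rfl⟩ := Finset.mem_image.1 hc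
      rw [norm_smul]
      have := hS.1 a ha
      norm_num
      linarith
    · intro c hc e he hce
      obtain ⟨a, ha, rfl⟩ := Finset.mem_image.1 hc
      obtain ⟨b, hb, rfl⟩ := Finset.mem_image.1 he
      have hab : a ≠ b := fun h => hce (by rw [h])
      have := hS.2 a ha b hb hab
      rw [← smul_sub, norm_smul]
      norm_num
      linarith
  have hex : ∃ S, P S ∧ ∀ S', P S' → S'.card ≤ S.card := by
    set A : Set ℕ := {n | ∃ S, P S ∧ S.card = n} with hA
    have hne : A.Nonempty := ⟨0, ∅, ⟨by simp, by simp⟩, by simp⟩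
    have hbdd : BddAbove A := ⟨5 ^ (Module.finrank ℝ E), by
      rintro n ⟨S, hS, rfl⟩
      exact hcard S hS⟩
    obtain ⟨S, hS, hSn⟩ := Nat.sSup_mem hne hbdd
    refine ⟨S, hS, fun S' hS' => ?_⟩
    rw [hSn]
    exact le_csSup hbdd ⟨S', hS', rfl⟩
  obtain ⟨S, hS, hmax⟩ := hex
  refine ⟨S, hcard S hS, hS.1, fun v hv => ?_⟩
  by_contra hcon
  push Not at hcon
  have hvS : v ∉ S := by
    intro hvS
    have := hcon v hvS
    simp at this
    linarith
  have hP' : P (insert v S) := by
    refine ⟨?_, ?_⟩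
    · intro c hc
      rcases Finset.mem_insert.1 hc with rfl | hc
      · exact hv
      · exact hS.1 c hc
    · intro c hc e he hce
      rcases Finset.mem_insert.1 hc with rfl | hc'
      · rcases Finset.mem_insert.1 he with rfl | he'
        · exact absurd rfl hce
        · exact (hcon e he').le
      · rcases Finset.mem_insert.1 he with rfl | he'
        · rw [norm_sub_rev]
          exact (hcon c hc').le
        · exact hS.2 c hc' e he' hce
  have := hmax _ hP'
  rw [Finset.card_insert_of_notMem hvS] at this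
  omega

/-- a `2 ^ (-k)`-net of the unit ball with at most `5 ^ (k d)` points -/
lemma exists_net (k : ℕ) : ∃ N : Finset E, N.card ≤ (5 ^ k) ^ (Module.finrank ℝ E) ∧
    ∀ v : E, ‖v‖ ≤ 1 → ∃ c ∈ N, ‖v - c‖ ≤ (1 / 2) ^ k := by
  classical
  obtain ⟨H, hH, -, hH2⟩ := exists_half_net E
  induction k with
  | zero => exact ⟨{0}, by simp, fun v hv => ⟨0, by simp, by simpa using hv⟩⟩
  | succ k ih =>
    obtain ⟨N, hN, hN2⟩ := ih
    refine ⟨(N ×ˢ H).image fun q => q.1 + ((1 / 2 : ℝ) ^ k) • q.2, ?_, ?_⟩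
    · refine Finset.card_image_le.trans ?_
      rw [Finset.card_product, pow_succ, mul_pow]
      exact Nat.mul_le_mul hN hH
    · intro v hv
      obtain ⟨c, hc, hvc⟩ := hN2 v hv
      have hw : ‖(2 : ℝ) ^ k • (v - c)‖ ≤ 1 := by
        rw [norm_smul, norm_pow, Real.norm_ofNat]
        calc (2 : ℝ) ^ k * ‖v - c‖ ≤ 2 ^ k * (1 / 2) ^ k := by gcongr
          _ = 1 := by rw [← mul_pow]; norm_num
      obtain ⟨e, he, hwe⟩ := hH2 _ hw
      refine ⟨c + ((1 / 2 : ℝ) ^ k) • e, Finset.mem_image.2 ⟨(c, e), by simp [hc, he], rfl⟩, ?_⟩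
      have e1 : v - (c + ((1 / 2 : ℝ) ^ k) • e) = ((1 / 2 : ℝ) ^ k) • ((2 : ℝ) ^ k • (v - c) - e) := by
        rw [smul_sub, smul_smul, ← mul_pow]
        norm_num
        abel
      rw [e1, norm_smul, norm_pow, pow_succ]
      have : ‖(1 / 2 : ℝ)‖ = 1 / 2 := by norm_num
      rw [this]
      gcongr

end nets

section event

variable {κ J : Type*} [Fintype κ] [Fintype J]

/-- the rows of an array -/
noncomputable def row (A : κ × J → ℝ) (a : κ) : EuclideanSpace ℝ J := WithLp.toLp 2 fun j => A (a, j)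

/-- the transpose of the array applied to a vector -/
noncomputable def vec (A : κ × J → ℝ) (l : κ → ℝ) : EuclideanSpace ℝ J := ∑ a, l a • row A a

lemma norm_vec_sq (A : κ × J → ℝ) (l : κ → ℝ) : ‖vec A l‖ ^ 2 = quad l A := by
  rw [EuclideanSpace.norm_sq_eq, quad]
  refine Finset.sum_congr rfl fun j _ => ?_
  rw [Real.norm_eq_abs, sq_abs]
  congr 1
  simp [vec, row]

omit [Fintype J] in
lemma vec_sub (A : κ × J → ℝ) (l m : κ → ℝ) : vec A (fun a => l a - m a) = vec A l - vec A m := by
  simp [vec, sub_smul, Finset.sum_sub_distrib]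

omit [Fintype J] in
lemma vec_smul (A : κ × J → ℝ) (c : ℝ) (l : κ → ℝ) : vec A (fun a => c * l a) = c • vec A l := by
  simp [vec, mul_smul, Finset.smul_sum]

/-- the transpose as a linear map -/
noncomputable def vecL (A : κ × J → ℝ) : EuclideanSpace ℝ κ →ₗ[ℝ] EuclideanSpace ℝ J where
  toFun x := vec A (fun a => x a)
  map_add' x y := by simp [vec, add_smul, Finset.sum_add_distrib]
  map_smul' c x := by simp [vec, mul_smul, Finset.smul_sum]

/-- bound of the operator norm from a half-net -/
lemma norm_vec_le_of_net (N : Finset (EuclideanSpace ℝ κ))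
    (hN : ∀ v : EuclideanSpace ℝ κ, ‖v‖ ≤ 1 → ∃ c ∈ N, ‖v - c‖ ≤ 1 / 2) (A : κ × J → ℝ) (B : ℝ)
    (hB : 0 ≤ B) (hAB : ∀ c ∈ N, quad (fun a => c a) A ≤ B ^ 2) (l : κ → ℝ) :
    ‖vec A l‖ ≤ 2 * B * √(∑ a, l a ^ 2) := by
  set T : EuclideanSpace ℝ κ →L[ℝ] EuclideanSpace ℝ J := LinearMap.toContinuousLinearMap (vecL A)
    with hT
  have hTc : ∀ c ∈ N, ‖T c‖ ≤ B := by
    intro c hc
    have h1 : ‖T c‖ ^ 2 ≤ B ^ 2 := by
      have : ‖T c‖ ^ 2 = quad (fun a => c a) A := norm_vec_sq A _
      rw [this]
      exact hAB c hc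
    exact le_of_sq_le_sq h1 hB
  have hop : ‖T‖ ≤ 2 * B := by
    have h1 : ‖T‖ ≤ ‖T‖ / 2 + B := by
      refine ContinuousLinearMap.opNorm_le_of_unit_norm (by positivity) fun v hv => ?_
      obtain ⟨e, he, hve⟩ := hN v hv.le
      calc ‖T v‖ = ‖T (v - e) + T e‖ := by rw [← map_add, sub_add_cancel]
        _ ≤ ‖T (v - e)‖ + ‖T e‖ := norm_add_le _ _
        _ ≤ ‖T‖ * ‖v - e‖ + B := add_le_add (T.le_opNorm _) (hTc e he)
        _ ≤ ‖T‖ * (1 / 2) + B := by gcongr
        _ = _ := by ring
    linarith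
  have h2 := T.le_opNorm (WithLp.toLp 2 l)
  have h3 : ‖(WithLp.toLp 2 l : EuclideanSpace ℝ κ)‖ = √(∑ a, l a ^ 2) := by
    rw [EuclideanSpace.norm_eq]
    simp
  have h4 : T (WithLp.toLp 2 l) = vec A l := rfl
  rw [h3, h4] at h2
  refine h2.trans ?_
  gcongr

/-- extension by zero -/
noncomputable def ext0 [DecidableEq κ] (U : Finset κ) (x : EuclideanSpace ℝ U) : κ → ℝ :=
  fun a => if h : a ∈ U then x ⟨a, h⟩ else 0

lemma sum_ext0_sq [DecidableEq κ] (U : Finset κ) (x : EuclideanSpace ℝ U) :
    ∑ a, ext0 U x a ^ 2 = ‖x‖ ^ 2 := by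
  rw [EuclideanSpace.norm_sq_eq]
  have h1 : ∑ a, ext0 U x a ^ 2 = ∑ a ∈ U, ext0 U x a ^ 2 := by
    symm
    refine Finset.sum_subset (Finset.subset_univ _) fun a _ ha => ?_
    simp [ext0, ha]
  rw [h1, ← Finset.sum_coe_sort U]
  refine Finset.sum_congr rfl fun a _ => ?_
  simp [ext0, a.2]

/-- sum over subsets of bounded size -/
lemma sum_small_subsets [DecidableEq κ] (K b r : ℝ) (hK : 0 ≤ K) (hb : 0 ≤ b) :
    ∑ U ∈ (Finset.univ : Finset κ).powerset.filter (fun U => (U.card : ℝ) ≤ r), K ^ U.card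
      ≤ Real.exp (b * r + K * Real.exp (-b) * Fintype.card κ) := by
  calc ∑ U ∈ (Finset.univ : Finset κ).powerset.filter (fun U => (U.card : ℝ) ≤ r), K ^ U.card
      ≤ ∑ U ∈ (Finset.univ : Finset κ).powerset.filter (fun U => (U.card : ℝ) ≤ r),
          Real.exp (b * r) * (K * Real.exp (-b)) ^ U.card := by
        refine Finset.sum_le_sum fun U hU => ?_
        have hUr : (U.card : ℝ) ≤ r := (Finset.mem_filter.1 hU).2
        rw [mul_pow, ← Real.exp_nat_mul]
        have h1 : 1 ≤ Real.exp (b * r) * Real.exp (U.card * -b) := by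
          rw [← Real.exp_add]
          apply Real.one_le_exp
          nlinarith
        calc K ^ U.card = K ^ U.card * 1 := (mul_one _).symm
          _ ≤ K ^ U.card * (Real.exp (b * r) * Real.exp (U.card * -b)) := by gcongr
          _ = _ := by ring
    _ ≤ ∑ U ∈ (Finset.univ : Finset κ).powerset,
          Real.exp (b * r) * (K * Real.exp (-b)) ^ U.card := by
        refine Finset.sum_le_sum_of_subset_of_nonneg (Finset.filter_subset _ _) fun U _ _ => ?_
        positivity
    _ = Real.exp (b * r) * (1 + K * Real.exp (-b)) ^ Fintype.card κ := by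
        rw [← Finset.mul_sum]
        congr 1
        have := Finset.prod_one_add (f := fun _ : κ => K * Real.exp (-b)) (Finset.univ : Finset κ)
        simp only [Finset.prod_const, Finset.card_univ] at this
        rw [this]
    _ ≤ Real.exp (b * r) * Real.exp (K * Real.exp (-b)) ^ Fintype.card κ := by
        gcongr
        have := Real.add_one_le_exp (K * Real.exp (-b))
        linarith
    _ = _ := by
        rw [← Real.exp_nat_mul, ← Real.exp_add]
        congr 1
        ring

/-- **The good event.** -/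
theorem good_event {ν : Measure ℝ} (h : Good ν) (α : ℝ) (hα : 0 ≤ α) :
    ∃ C v : ℝ, 0 < C ∧ 0 < v ∧ ∀ (κ J : Type) [Fintype κ] [Fintype J],
      (Fintype.card κ : ℝ) ≤ α * Fintype.card J →
      (Measure.pi fun _ : κ × J => ν) {A | ¬ ((∀ l : κ → ℝ,
          ‖vec A l‖ ≤ C * √(Fintype.card J) * √(∑ a, l a ^ 2)) ∧
        (∀ l : κ → ℝ, ((Finset.univ.filter fun a => l a ≠ 0).card : ℝ) ≤ v * Fintype.card J →
          1 / 8 * √(Fintype.card J) * √(∑ a, l a ^ 2) ≤ ‖vec A l‖))}
        ≤ ENNReal.ofReal (2 * Real.exp (-(Fintype.card J : ℝ) / 1456)) := by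
  classical
  have hprob := h.prob
  -- the constants
  set C : ℝ := 8 * √(α + 1) with hC
  have hC8 : 8 ≤ C := by
    have : 1 ≤ √(α + 1) := by
      rw [Real.one_le_sqrt]; linarith
    linarith
  have hCsq : C ^ 2 = 64 * (α + 1) := by
    rw [hC, mul_pow, Real.sq_sqrt (by linarith)]
    norm_num
  obtain ⟨k, hk⟩ : ∃ k : ℕ, (1 / 2 : ℝ) ^ k < 1 / (8 * C) :=
    exists_pow_lt_of_lt_one (by positivity) (by norm_num)
  set K : ℝ := (5 : ℝ) ^ k with hK
  have hKpos : 0 < K := by positivity
  obtain ⟨b, hb0, hb⟩ : ∃ b : ℝ, 0 < b ∧ K * Real.exp (-b) * α ≤ 1 / 2912 := by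
    refine ⟨2912 * (K * α + 1), by positivity, ?_⟩
    have h1 : 2912 * (K * α + 1) ≤ Real.exp (2912 * (K * α + 1)) := by
      have := Real.add_one_le_exp (2912 * (K * α + 1))
      linarith
    rw [Real.exp_neg]
    have h2 : (Real.exp (2912 * (K * α + 1)))⁻¹ ≤ (2912 * (K * α + 1))⁻¹ :=
      inv_anti₀ (by positivity) h1
    calc K * (Real.exp (2912 * (K * α + 1)))⁻¹ * α ≤ K * (2912 * (K * α + 1))⁻¹ * α := by gcongr
      _ = (K * α) / (2912 * (K * α + 1)) := by field_simp
      _ ≤ 1 / 2912 := by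
        rw [div_le_div_iff₀ (by positivity) (by norm_num)]
        nlinarith [mul_nonneg hKpos.le hα]
  refine ⟨C, 1 / (2912 * b), by linarith, by positivity, ?_⟩
  intro κ J _ _ hcard
  set n : ℝ := (Fintype.card J : ℝ) with hn
  have hn0 : 0 ≤ n := by positivity
  set v : ℝ := 1 / (2912 * b) with hv
  set P := (Measure.pi fun _ : κ × J => ν) with hP
  -- nets
  obtain ⟨N0, hN0c, hN01, hN0⟩ := exists_half_net (EuclideanSpace ℝ κ)
  have hnets : ∀ U : Finset κ, ∃ N : Finset (EuclideanSpace ℝ U),
      N.card ≤ (5 ^ k) ^ U.card ∧ ∀ x : EuclideanSpace ℝ U, ‖x‖ ≤ 1 → ∃ c ∈ N,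
        ‖x - c‖ ≤ (1 / 2) ^ k := by
    intro U
    obtain ⟨N, hN, hN2⟩ := exists_net (EuclideanSpace ℝ U) k
    refine ⟨N, ?_, hN2⟩
    simpa using hN
  choose N hNc hN using hnets
  set small : Finset (Finset κ) :=
    (Finset.univ : Finset κ).powerset.filter (fun U => (U.card : ℝ) ≤ v * n) with hsmall
  set bad0 : Set (κ × J → ℝ) := ⋃ c ∈ N0, {A | (C / 2) ^ 2 * n ≤ quad (fun a => c a) A} with hbad0
  set bad1 : Set (κ × J → ℝ) := ⋃ U ∈ small, ⋃ c ∈ (N U).filter (fun c => 1 / 2 ≤ ‖c‖),
    {A | quad (ext0 U c) A ≤ n / 16} with hbad1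
  -- inclusion
  have hincl : {A : κ × J → ℝ | ¬ ((∀ l : κ → ℝ, ‖vec A l‖ ≤ C * √n * √(∑ a, l a ^ 2)) ∧
        (∀ l : κ → ℝ, ((Finset.univ.filter fun a => l a ≠ 0).card : ℝ) ≤ v * n →
          1 / 8 * √n * √(∑ a, l a ^ 2) ≤ ‖vec A l‖))} ⊆ bad0 ∪ bad1 := by
    intro A hA
    by_contra hcon
    rw [Set.mem_union, not_or] at hcon
    obtain ⟨hA0, hA1⟩ := hcon
    apply hA
    have hop : ∀ l : κ → ℝ, ‖vec A l‖ ≤ C * √n * √(∑ a, l a ^ 2) := by
      intro l
      have h1 : ∀ c ∈ N0, quad (fun a => c a) A ≤ (C / 2 * √n) ^ 2 := by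
        intro c hc
        by_contra hlt
        push Not at hlt
        apply hA0
        refine Set.mem_iUnion₂.2 ⟨c, hc, ?_⟩
        have : (C / 2 * √n) ^ 2 = (C / 2) ^ 2 * n := by rw [mul_pow, Real.sq_sqrt hn0]
        rw [this] at hlt
        exact hlt.le
      have h2 := norm_vec_le_of_net N0 hN0 A (C / 2 * √n) (by positivity) h1 l
      refine h2.trans (le_of_eq ?_)
      ring
    refine ⟨hop, fun l hl => ?_⟩
    -- the lower bound
    set L : ℝ := √(∑ a, l a ^ 2) with hL
    rcases (Real.sqrt_nonneg (∑ a, l a ^ 2)).lt_or_eq with hLpos | hL0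
    swap
    · rw [hL, ← hL0, mul_zero]
      exact norm_nonneg _
    have hLpos' : 0 < L := hLpos
    have hLsq : L ^ 2 = ∑ a, l a ^ 2 := Real.sq_sqrt (Finset.sum_nonneg fun a _ => sq_nonneg _)
    set U : Finset κ := Finset.univ.filter fun a => l a ≠ 0 with hU
    have hUsmall : U ∈ small := Finset.mem_filter.2 ⟨by simp, hl⟩
    set x : EuclideanSpace ℝ U := WithLp.toLp 2 fun a => L⁻¹ * l a with hx
    have hxe : ext0 U x = fun a => L⁻¹ * l a := by
      ext a
      by_cases ha : a ∈ U
      · simp [ext0, ha, hx]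
      · have : l a = 0 := by
          by_contra hne
          exact ha (Finset.mem_filter.2 ⟨Finset.mem_univ _, hne⟩)
        simp [ext0, ha, this]
    have hxn : ‖x‖ = 1 := by
      have h1 : ‖x‖ ^ 2 = 1 := by
        rw [← sum_ext0_sq, hxe]
        simp_rw [mul_pow]
        rw [← Finset.mul_sum, ← hLsq, ← mul_pow, inv_mul_cancel₀ hLpos'.ne', one_pow]
      have h2 : (‖x‖ - 1) * (‖x‖ + 1) = 0 := by ring_nf; linarith
      rcases mul_eq_zero.1 h2 with h3 | h3
      · linarith
      · have := norm_nonneg x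
        linarith
    obtain ⟨c, hc, hxc⟩ := hN U x hxn.le
    have h64 : (1 / 2 : ℝ) ^ k ≤ 1 / 64 := by
      refine hk.le.trans ?_
      apply one_div_le_one_div_of_le (by norm_num)
      linarith
    have hchalf : 1 / 2 ≤ ‖c‖ := by
      have h1 : ‖x‖ ≤ ‖x - c‖ + ‖c‖ := by
        have := norm_add_le (x - c) c
        simpa using this
      linarith
    have hquad : n / 16 ≤ quad (ext0 U c) A := by
      by_contra hlt
      push Not at hlt
      apply hA1
      refine Set.mem_iUnion₂.2 ⟨U, hUsmall, ?_⟩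
      exact Set.mem_iUnion₂.2 ⟨c, Finset.mem_filter.2 ⟨hc, hchalf⟩, hlt.le⟩
    have hvc : √n / 4 ≤ ‖vec A (ext0 U c)‖ := by
      refine le_of_sq_le_sq ?_ (norm_nonneg _)
      rw [norm_vec_sq, div_pow, Real.sq_sqrt hn0]
      refine le_trans (le_of_eq ?_) hquad
      norm_num
    have hdiff : ‖vec A (ext0 U x) - vec A (ext0 U c)‖ ≤ √n / 8 := by
      rw [← vec_sub]
      refine (hop _).trans ?_
      have h1 : (fun a => ext0 U x a - ext0 U c a) = ext0 U (x - c) := by
        ext a
        by_cases ha : a ∈ U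
        · simp [ext0, ha]
        · simp [ext0, ha]
      have h2 : √(∑ a, (ext0 U x a - ext0 U c a) ^ 2) = ‖x - c‖ := by
        have h3 : ∑ a, (ext0 U x a - ext0 U c a) ^ 2 = ‖x - c‖ ^ 2 := by
          rw [← sum_ext0_sq, ← h1]
        rw [h3, Real.sqrt_sq (norm_nonneg _)]
      rw [h2]
      calc C * √n * ‖x - c‖ ≤ C * √n * (1 / (8 * C)) := by
            gcongr
            exact hxc.trans hk.le
        _ = √n / 8 := by field_simp
    have hvx : √n / 8 ≤ ‖vec A (ext0 U x)‖ := by
      have h1 : ‖vec A (ext0 U c)‖ ≤ ‖vec A (ext0 U x)‖ + ‖vec A (ext0 U x) - vec A (ext0 U c)‖ := by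
        have := norm_sub_le (vec A (ext0 U x)) (vec A (ext0 U x) - vec A (ext0 U c))
        simpa using this
      linarith
    rw [hxe, vec_smul, norm_smul, Real.norm_of_nonneg (by positivity)] at hvx
    calc 1 / 8 * √n * L = L * (√n / 8) := by ring
      _ ≤ L * (L⁻¹ * ‖vec A l‖) := by gcongr
      _ = ‖vec A l‖ := by rw [← mul_assoc, mul_inv_cancel₀ hLpos'.ne', one_mul]
  -- probabilities
  have hP0 : P bad0 ≤ ENNReal.ofReal (Real.exp (-n)) := by
    calc P bad0 ≤ ∑ c ∈ N0, P {A | (C / 2) ^ 2 * n ≤ quad (fun a => c a) A} :=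
          measure_biUnion_finset_le _ _
      _ ≤ ∑ _c ∈ N0, ENNReal.ofReal (√2 ^ Fintype.card J * Real.exp (-((C / 2) ^ 2 * n) / 8)) := by
          refine Finset.sum_le_sum fun c hc => measure_quad_ge h _ ?_ _
          have h1 : ∑ a, c a ^ 2 = ‖c‖ ^ 2 := by
            rw [EuclideanSpace.norm_sq_eq]
            simp
          rw [h1]
          have := hN01 c hc
          have := norm_nonneg c
          nlinarith
      _ = (N0.card : ℝ≥0∞) *
            ENNReal.ofReal (√2 ^ Fintype.card J * Real.exp (-((C / 2) ^ 2 * n) / 8)) := by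
          rw [Finset.sum_const, nsmul_eq_mul]
      _ ≤ ENNReal.ofReal (5 ^ Fintype.card κ) *
            ENNReal.ofReal (√2 ^ Fintype.card J * Real.exp (-((C / 2) ^ 2 * n) / 8)) := by
          gcongr
          rw [← ENNReal.ofReal_natCast]
          refine ENNReal.ofReal_le_ofReal ?_
          rw [finrank_euclideanSpace] at hN0c
          exact_mod_cast hN0c
      _ = ENNReal.ofReal (5 ^ Fintype.card κ *
            (√2 ^ Fintype.card J * Real.exp (-((C / 2) ^ 2 * n) / 8))) := by
          rw [← ENNReal.ofReal_mul (by positivity)]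
      _ ≤ ENNReal.ofReal (Real.exp (-n)) := by
          refine ENNReal.ofReal_le_ofReal ?_
          have h5 : (5 : ℝ) ≤ Real.exp 2 := by
            have h1 := Real.exp_one_gt_d9
            have h2 : Real.exp 2 = Real.exp 1 * Real.exp 1 := by
              rw [← Real.exp_add]; norm_num
            rw [h2]
            nlinarith
          have h2 : √2 ≤ Real.exp 1 := by
            have h1 := Real.exp_one_gt_d9
            have : √2 ≤ 2 := by
              rw [Real.sqrt_le_left (by norm_num)]; norm_num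
            linarith
          calc (5 : ℝ) ^ Fintype.card κ *
                (√2 ^ Fintype.card J * Real.exp (-((C / 2) ^ 2 * n) / 8))
              ≤ Real.exp 2 ^ Fintype.card κ *
                (Real.exp 1 ^ Fintype.card J * Real.exp (-((C / 2) ^ 2 * n) / 8)) := by
                gcongr
            _ = Real.exp (2 * Fintype.card κ + n - (α + 1) * 2 * n) := by
                rw [← Real.exp_nat_mul, ← Real.exp_nat_mul, ← Real.exp_add, ← Real.exp_add]
                congr 1
                rw [div_pow, hCsq, ← hn]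
                ring
            _ ≤ Real.exp (-n) := by
                apply Real.exp_le_exp.2
                nlinarith
  have hP1 : P bad1 ≤ ENNReal.ofReal (Real.exp (-n / 1456)) := by
    calc P bad1 ≤ ∑ U ∈ small, P (⋃ c ∈ (N U).filter (fun c => 1 / 2 ≤ ‖c‖),
            {A | quad (ext0 U c) A ≤ n / 16}) := measure_biUnion_finset_le _ _
      _ ≤ ∑ U ∈ small, ENNReal.ofReal (K ^ U.card * Real.exp (-n / 728)) := by
          refine Finset.sum_le_sum fun U _ => ?_
          calc P (⋃ c ∈ (N U).filter (fun c => 1 / 2 ≤ ‖c‖), {A | quad (ext0 U c) A ≤ n / 16})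
              ≤ ∑ c ∈ (N U).filter (fun c => 1 / 2 ≤ ‖c‖), P {A | quad (ext0 U c) A ≤ n / 16} :=
                measure_biUnion_finset_le _ _
            _ ≤ ∑ _c ∈ (N U).filter (fun c => 1 / 2 ≤ ‖c‖), ENNReal.ofReal (Real.exp (-n / 728)) := by
                refine Finset.sum_le_sum fun c hc => ?_
                have hc2 : 1 / 2 ≤ ‖c‖ := (Finset.mem_filter.1 hc).2
                have hcpos : 0 < ‖c‖ := by linarith
                have hunit : ∑ a, (‖c‖⁻¹ * ext0 U c a) ^ 2 = 1 := by
                  simp_rw [mul_pow]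
                  rw [← Finset.mul_sum, sum_ext0_sq, ← mul_pow, inv_mul_cancel₀ hcpos.ne', one_pow]
                refine le_trans (measure_mono ?_) (measure_quad_le (J := J) h _ hunit)
                intro A hA
                have hA' : quad (ext0 U c) A ≤ n / 16 := hA
                show quad (fun a => ‖c‖⁻¹ * ext0 U c a) A ≤ n / 4
                rw [quad_smul]
                have h1 : (‖c‖⁻¹) ^ 2 ≤ 4 := by
                  have : ‖c‖⁻¹ ≤ 2 := by
                    rw [inv_le_comm₀ hcpos (by norm_num)]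
                    linarith
                  have h0 : 0 ≤ ‖c‖⁻¹ := by positivity
                  nlinarith
                calc (‖c‖⁻¹) ^ 2 * quad (ext0 U c) A ≤ 4 * (n / 16) := by
                      have h0 : 0 ≤ quad (ext0 U c) A :=
                        Finset.sum_nonneg fun j _ => sq_nonneg _
                      gcongr
                  _ = n / 4 := by ring
            _ = (((N U).filter (fun c => 1 / 2 ≤ ‖c‖)).card : ℝ≥0∞) *
                  ENNReal.ofReal (Real.exp (-n / 728)) := by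
                rw [Finset.sum_const, nsmul_eq_mul]
            _ ≤ ENNReal.ofReal (K ^ U.card) * ENNReal.ofReal (Real.exp (-n / 728)) := by
                gcongr
                rw [← ENNReal.ofReal_natCast]
                refine ENNReal.ofReal_le_ofReal ?_
                have h1 : ((N U).filter (fun c => 1 / 2 ≤ ‖c‖)).card ≤ (5 ^ k) ^ U.card :=
                  (Finset.card_filter_le _ _).trans (hNc U)
                rw [hK]
                exact_mod_cast h1
            _ = ENNReal.ofReal (K ^ U.card * Real.exp (-n / 728)) := by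
                rw [← ENNReal.ofReal_mul (by positivity)]
      _ = ENNReal.ofReal (∑ U ∈ small, K ^ U.card * Real.exp (-n / 728)) := by
          rw [ENNReal.ofReal_sum_of_nonneg]
          intro U _
          positivity
      _ ≤ ENNReal.ofReal (Real.exp (-n / 1456)) := by
          refine ENNReal.ofReal_le_ofReal ?_
          rw [← Finset.sum_mul]
          have h1 := sum_small_subsets (κ := κ) K b (v * n) hKpos.le hb0.le
          calc (∑ U ∈ small, K ^ U.card) * Real.exp (-n / 728)
              ≤ Real.exp (b * (v * n) + K * Real.exp (-b) * Fintype.card κ) *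
                  Real.exp (-n / 728) := by gcongr
            _ = Real.exp (b * (v * n) + K * Real.exp (-b) * Fintype.card κ + -n / 728) := by
                rw [← Real.exp_add]
            _ ≤ Real.exp (-n / 1456) := by
                apply Real.exp_le_exp.2
                have h2 : b * (v * n) = n / 2912 := by
                  rw [hv]; field_simp
                have h3 : K * Real.exp (-b) * Fintype.card κ ≤ n / 2912 := by
                  calc K * Real.exp (-b) * Fintype.card κ ≤ K * Real.exp (-b) * (α * n) := by gcongr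
                    _ = (K * Real.exp (-b) * α) * n := by ring
                    _ ≤ 1 / 2912 * n := by gcongr
                    _ = n / 2912 := by ring
                linarith
  calc P _ ≤ P (bad0 ∪ bad1) := measure_mono hincl
    _ ≤ P bad0 + P bad1 := measure_union_le _ _
    _ ≤ ENNReal.ofReal (Real.exp (-n)) + ENNReal.ofReal (Real.exp (-n / 1456)) := add_le_add hP0 hP1
    _ = ENNReal.ofReal (Real.exp (-n) + Real.exp (-n / 1456)) := by
        rw [ENNReal.ofReal_add (by positivity) (by positivity)]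
    _ ≤ ENNReal.ofReal (2 * Real.exp (-n / 1456)) := by
        refine ENNReal.ofReal_le_ofReal ?_
        have : Real.exp (-n) ≤ Real.exp (-n / 1456) := by
          apply Real.exp_le_exp.2
          linarith
        linarith

end event

end Crest.Agent.R146.RepairNet_840
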