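import Crest.Agent.R146.RepairDet_840
import Crest.Agent.R146.RepairNet_840

/-!
# Row 146, node REPAIR, final statements (helper840)

`NearSat A η τ` : some unit vector has quadratic energy at most `τ N` at margin `-1 + η`.

* `repair_measure` : for a good coordinate law, `P (NearSat) ≤ P (IsSat) + 2 exp (-N / 1456)` as soon as
  `τ ≤ τ₀(α, η)`;
* `satProbMix_tendsto_one`, `satProb_tendsto_one` : if near satisfiability at margin `-1 + η` with every
  energy density `τ > 0` (it is enough: with the density `τ₀`) has probability tending to `1`, so has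
  satisfiability at margin `-1`.
-/

set_option autoImplicit false

open MeasureTheory ProbabilityTheory Set Filter Crest.Agent.R146.RepairLaw_840
  Crest.Agent.R146.RepairNet_840 Crest.Agent.R146.RepairDet_840 Crest.ProbabilityR.Perceptron
open scoped ENNReal NNReal Topology

namespace Crest.Agent.R146.RepairFin_840

/-- near satisfiability: some unit vector has quadratic energy at most `τ N` at margin `-1 + η` -/
def NearSat {N : ℕ} {α : ℝ} (A : Patterns N α) (η τ : ℝ) : Prop :=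
  ∃ y : Fin N → ℝ, ∑ i, y i ^ 2 = 1 ∧
    ∑ μ : Fin (numPatterns N α), (max (-(∑ i, A (μ, i) * y i + 1 - η)) 0) ^ 2 ≤ τ * N

lemma NearSat.mono {N : ℕ} {α : ℝ} {A : Patterns N α} {η τ τ' : ℝ} (h : NearSat A η τ)
    (hτ : τ ≤ τ') : NearSat A η τ' := by
  obtain ⟨y, hy, hA⟩ := h
  exact ⟨y, hy, hA.trans (by gcongr)⟩

lemma numPatterns_le (N : ℕ) (α : ℝ) (hα : 0 ≤ α) : ((numPatterns N α : ℕ) : ℝ) ≤ α * N :=
  Nat.floor_le (by positivity)

/-- deterministic step, on the good event -/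
lemma isSat_of_nearSat {N : ℕ} {α : ℝ} (A : Patterns N α) (hN : 0 < N) {C v η τ : ℝ} (hC : 0 < C)
    (hv : 0 < v) (hη : 0 < η) (hη1 : η ≤ 1) (hτ : 0 < τ)
    (hop : ∀ l : Fin (numPatterns N α) → ℝ,
      ‖vec A l‖ ≤ C * √(Fintype.card (Fin N)) * √(∑ a, l a ^ 2))
    (hsing : ∀ l : Fin (numPatterns N α) → ℝ,
      ((Finset.univ.filter fun a => l a ≠ 0).card : ℝ) ≤ v * Fintype.card (Fin N) →
        1 / 8 * √(Fintype.card (Fin N)) * √(∑ a, l a ^ 2) ≤ ‖vec A l‖)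
    (hτ1 : 32 * τ ≤ v * η ^ 2) (hτ2 : 128 * C ^ 2 * τ ≤ (1 / 8) ^ 2 * η ^ 2 * v)
    (hτ3 : 16 * τ ≤ (1 / 8) ^ 2 * η ^ 2) (hA : NearSat A η τ) : IsSat A := by
  obtain ⟨y, hy, hE⟩ := hA
  have hNpos : (0 : ℝ) < N := by exact_mod_cast hN
  have hin : ∀ (z : EuclideanSpace ℝ (Fin N)) (μ : Fin (numPatterns N α)),
      inner ℝ (row A μ) z = ∑ i, A (μ, i) * z i := by
    intro z μ
    rw [PiLp.inner_apply]
    refine Finset.sum_congr rfl fun i _ => ?_
    simp [row, mul_comm]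
  have hyn : ‖(WithLp.toLp 2 y : EuclideanSpace ℝ (Fin N))‖ = 1 := by
    rw [EuclideanSpace.norm_eq]
    simp [hy]
  have hcard : (Fintype.card (Fin N) : ℝ) = N := by simp
  rw [hcard] at hop hsing
  obtain ⟨y', hy', hsat⟩ := repair_det (fun μ => row A μ) (WithLp.toLp 2 y) hyn (n := (N : ℝ))
    (C := C) (c₀ := 1 / 8) (ν := v) (η := η) (τ := τ) hNpos hC (by norm_num) hv hη hη1 hτ
    hop hsing (by
      refine le_trans (le_of_eq ?_) hE
      refine Finset.sum_congr rfl fun μ _ => ?_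
      rw [hin]) hτ1 hτ2 hτ3
  refine ⟨fun i => y' i, ?_, fun μ => ?_⟩
  · have h1 := EuclideanSpace.norm_sq_eq y'
    rw [hy'] at h1
    simpa using h1.symm
  · rw [← hin]
    exact hsat μ

/-- **Repair, in measure.** -/
theorem repair_measure {ν : Measure ℝ} (h : Good ν) (α : ℝ) (hα : 0 ≤ α) (η : ℝ) (hη : 0 < η)
    (hη1 : η ≤ 1) : ∃ τ₀ : ℝ, 0 < τ₀ ∧ ∀ τ : ℝ, τ ≤ τ₀ → ∀ N : ℕ, 0 < N →
      (Measure.pi fun _ : Fin (numPatterns N α) × Fin N => ν) {A : Patterns N α | NearSat A η τ}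
        ≤ (Measure.pi fun _ : Fin (numPatterns N α) × Fin N => ν) {A : Patterns N α | IsSat A}
          + ENNReal.ofReal (2 * Real.exp (-(N : ℝ) / 1456)) := by
  obtain ⟨C, v, hC, hv, hgood⟩ := good_event h α hα
  set τ₀ : ℝ := min (v * η ^ 2 / 32) (min ((1 / 8) ^ 2 * η ^ 2 * v / (128 * C ^ 2))
    ((1 / 8) ^ 2 * η ^ 2 / 16)) with hτ₀
  have hτ₀pos : 0 < τ₀ := by
    refine lt_min (by positivity) (lt_min (by positivity) (by positivity))
  refine ⟨τ₀, hτ₀pos, fun τ hττ₀ N hN => ?_⟩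
  have hcard : (Fintype.card (Fin (numPatterns N α)) : ℝ) ≤ α * Fintype.card (Fin N) := by
    simpa using numPatterns_le N α hα
  have hg := hgood (Fin (numPatterns N α)) (Fin N) hcard
  have ht1 : 32 * τ₀ ≤ v * η ^ 2 := by
    have : τ₀ ≤ v * η ^ 2 / 32 := min_le_left _ _
    linarith
  have ht2 : 128 * C ^ 2 * τ₀ ≤ (1 / 8) ^ 2 * η ^ 2 * v := by
    have : τ₀ ≤ (1 / 8) ^ 2 * η ^ 2 * v / (128 * C ^ 2) :=
      (min_le_right _ _).trans (min_le_left _ _)
    rw [le_div_iff₀ (by positivity)] at this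
    linarith
  have ht3 : 16 * τ₀ ≤ (1 / 8) ^ 2 * η ^ 2 := by
    have : τ₀ ≤ (1 / 8) ^ 2 * η ^ 2 / 16 := (min_le_right _ _).trans (min_le_right _ _)
    linarith
  refine (measure_mono (fun A hA => ?_)).trans ((measure_union_le {A : Patterns N α | IsSat A}
    _).trans (add_le_add le_rfl (hg.trans (le_of_eq (by simp)))))
  by_cases hbad : (∀ l : Fin (numPatterns N α) → ℝ,
      ‖vec A l‖ ≤ C * √(Fintype.card (Fin N)) * √(∑ a, l a ^ 2)) ∧
    (∀ l : Fin (numPatterns N α) → ℝ,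
      ((Finset.univ.filter fun a => l a ≠ 0).card : ℝ) ≤ v * Fintype.card (Fin N) →
        1 / 8 * √(Fintype.card (Fin N)) * √(∑ a, l a ^ 2) ≤ ‖vec A l‖)
  · left
    exact isSat_of_nearSat A hN hC hv hη hη1 hτ₀pos hbad.1 hbad.2 ht1 ht2 ht3
      (NearSat.mono hA hττ₀)
  · right
    exact hbad

lemma tendsto_err : Tendsto (fun N : ℕ => ENNReal.ofReal (2 * Real.exp (-(N : ℝ) / 1456))) atTop
    (𝓝 0) := by
  rw [← ENNReal.ofReal_zero]
  refine ENNReal.tendsto_ofReal ?_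
  have h1 : Tendsto (fun N : ℕ => -(N : ℝ) / 1456) atTop atBot := by
    have : (fun N : ℕ => -(N : ℝ) / 1456) = fun N : ℕ => (-1 / 1456 : ℝ) * (N : ℝ) := by
      ext N; ring
    rw [this]
    exact (tendsto_natCast_atTop_atTop).const_mul_atTop_of_neg (by norm_num)
  have h2 := (Real.tendsto_exp_atBot.comp h1).const_mul 2
  simpa using h2

/-- Convergence of the satisfiability probability from near satisfiability, any good law. -/
theorem tendsto_one_of_nearSat {ν : Measure ℝ} (h : Good ν) (α : ℝ) (hα : 0 ≤ α) (η : ℝ)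
    (hη : 0 < η) (hη1 : η ≤ 1) : ∃ τ₀ : ℝ, 0 < τ₀ ∧ ∀ τ : ℝ, τ ≤ τ₀ →
      Tendsto (fun N : ℕ => (Measure.pi fun _ : Fin (numPatterns N α) × Fin N => ν)
        {A : Patterns N α | NearSat A η τ}) atTop (𝓝 1) →
      Tendsto (fun N : ℕ => (Measure.pi fun _ : Fin (numPatterns N α) × Fin N => ν)
        {A : Patterns N α | IsSat A}) atTop (𝓝 1) := by
  obtain ⟨τ₀, hτ₀, hmain⟩ := repair_measure h α hα η hη hη1
  refine ⟨τ₀, hτ₀, fun τ hτ hlim => ?_⟩
  have := h.prob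
  have hlow : Tendsto (fun N : ℕ => (Measure.pi fun _ : Fin (numPatterns N α) × Fin N => ν)
        {A : Patterns N α | NearSat A η τ} - ENNReal.ofReal (2 * Real.exp (-(N : ℝ) / 1456)))
        atTop (𝓝 (1 - 0)) :=
    ENNReal.Tendsto.sub hlim tendsto_err (Or.inl ENNReal.one_ne_top)
  rw [tsub_zero] at hlow
  refine tendsto_of_tendsto_of_tendsto_of_le_of_le' hlow tendsto_const_nhds ?_ ?_
  · filter_upwards [eventually_gt_atTop 0] with N hN
    exact tsub_le_iff_right.2 (hmain τ hτ N hN)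
  · exact Eventually.of_forall fun N => prob_le_one

/-- **Repair for `satProbMix`.** -/
theorem satProbMix_tendsto_one (α : ℝ) (hα : 0 ≤ α) (ε : ℝ) (hε0 : 0 ≤ ε) (hε1 : ε ≤ 1) (η : ℝ)
    (hη : 0 < η) (hη1 : η ≤ 1) : ∃ τ₀ : ℝ, 0 < τ₀ ∧ ∀ τ : ℝ, τ ≤ τ₀ →
      Tendsto (fun N : ℕ => patternLawMix N α ε {A | NearSat A η τ}) atTop (𝓝 1) →
      Tendsto (fun N : ℕ => satProbMix N α ε) atTop (𝓝 1) :=
  tendsto_one_of_nearSat (good_mixtureLaw ε hε0 hε1) α hα η hη hη1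

/-- **Repair for `satProb`.** -/
theorem satProb_tendsto_one (α : ℝ) (hα : 0 ≤ α) (η : ℝ)
    (hη : 0 < η) (hη1 : η ≤ 1) : ∃ τ₀ : ℝ, 0 < τ₀ ∧ ∀ τ : ℝ, τ ≤ τ₀ →
      Tendsto (fun N : ℕ => patternLaw N α {A | NearSat A η τ}) atTop (𝓝 1) →
      Tendsto (fun N : ℕ => satProb N α) atTop (𝓝 1) :=
  tendsto_one_of_nearSat good_gaussian α hα η hη hη1

end Crest.Agent.R146.RepairFin_840
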