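import Mathlib
import Crest.Agent.R146.Assoc4_323
import Crest.Agent.R146.RepairFin_840

/-!
Row 146, package ASSOC, part 5: concentration of the pressure of the quadratic penalty around its
mean (no limit assumed), and the SAT side: a pressure `≥ -b δ` gives near-satisfiability with
energy density `2 δ`.
-/

set_option autoImplicit false
set_option linter.unusedSectionVars false

namespace Crest.Agent.R146.Assoc_323

open MeasureTheory ProbabilityTheory Filter Topology
open Crest.ProbabilityR.Perceptron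
open Crest.Agent.R146.RepairLaw_840 (Good)
open Crest.Agent.R146.RepairFin_840 (NearSat tendsto_one_of_nearSat)
open Crest.Agent.R146.PressC_663 (logZ uSph crd measurable_crd isProb_uSph spherePressure_eq)

theorem integrable_sp_qp {ν : Measure ℝ} (h : Good ν) {α b : ℝ} (hb : 0 < b)
    (k : ℝ) {θ : ℝ → ℝ} (hθm : Measurable θ) {T : ℝ} (hθ : ∀ x, |θ x| ≤ T) {N : ℕ} (hN : 0 < N) :
    Integrable (spherePressure N α 1 fun x => qp b k x + θ x)
      (Measure.pi fun _ : Fin (numPatterns N α) × Fin N => ν) := by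
  have hmf : Measurable fun x => qp b k x + θ x := (continuous_qp b k).measurable.add hθm
  have hC0 : 0 ≤ b * (1 + k ^ 2) + |T| := by positivity
  have h1 := (integrable_logZ h (M := numPatterns N α) hN hC0 (fun _ => hmf)
    (QG_const (growth_qp_add hb.le k hθ) _)).div_const (N : ℝ)
  exact h1.congr (ae_of_all _ fun g => (spherePressure_one N α _ g).symm)

theorem integrable_sp_max {ν : Measure ℝ} (h : Good ν) {α b : ℝ} (hb : 0 < b)
    (k : ℝ) {θ : ℝ → ℝ} (hθm : Measurable θ) {T : ℝ} (hθ : ∀ x, |θ x| ≤ T) {L : ℝ} (hL : 0 ≤ L)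
    {N : ℕ} (hN : 0 < N) :
    Integrable (spherePressure N α 1 fun x => max (qp b k x) (-L) + θ x)
      (Measure.pi fun _ : Fin (numPatterns N α) × Fin N => ν) := by
  have hmt : Measurable fun x => max (qp b k x) (-L) + θ x :=
    ((continuous_qp b k).measurable.max measurable_const).add hθm
  have hC0 : 0 ≤ b * (1 + k ^ 2) + |T| := by positivity
  have h1 := (integrable_logZ h (M := numPatterns N α) hN hC0 (fun _ => hmt)
    (QG_const (growth_max_add hb.le k hθ hL) _)).div_const (N : ℝ)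
  exact h1.congr (ae_of_all _ fun g => (spherePressure_one N α _ g).symm)

theorem sp_mono_trunc {α b : ℝ} (hb : 0 < b)
    (k : ℝ) {θ : ℝ → ℝ} (hθm : Measurable θ) {T : ℝ} (hθ : ∀ x, |θ x| ≤ T) {L : ℝ} (hL : 0 ≤ L)
    {N : ℕ} (hN : 0 < N) (g : Patterns N α) :
    spherePressure N α 1 (fun x => qp b k x + θ x) g ≤
      spherePressure N α 1 (fun x => max (qp b k x) (-L) + θ x) g := by
  have := isProb_uSph hN
  have h0 : (0 : ℝ) < N := by exact_mod_cast hN
  have hmf : Measurable fun x => qp b k x + θ x := (continuous_qp b k).measurable.add hθm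
  have hmt : Measurable fun x => max (qp b k x) (-L) + θ x :=
    ((continuous_qp b k).measurable.max measurable_const).add hθm
  have hC0 : 0 ≤ b * (1 + k ^ 2) + |T| := by positivity
  rw [spherePressure_one, spherePressure_one]
  refine div_le_div_of_nonneg_right ?_ h0.le
  refine log_Zf_mono (IsProbabilityMeasure.ne_zero _) (measurable_crd N)
    (fun u => sum_crd_sq_le u) hC0 (fun _ => hmf) (QG_const (growth_qp_add hb.le k hθ) _)
    (fun _ => hmt) (QG_const (growth_max_add hb.le k hθ hL) _) (fun _ x => ?_) g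
  have := le_max_left (qp b k x) (-L)
  linarith

/-- Markov: the truncation error is small in probability. -/
theorem meas_trunc_le {ν : Measure ℝ} (h : Good ν) {α b : ℝ} (hα : 0 ≤ α) (hb : 0 < b)
    (k : ℝ) {θ : ℝ → ℝ} (hθm : Measurable θ) {T : ℝ} (hθ : ∀ x, |θ x| ≤ T) {L : ℝ} (hL : 0 ≤ L)
    {N : ℕ} (hN : 0 < N) {ε : ℝ} (hε : 0 < ε) :
    (Measure.pi fun _ : Fin (numPatterns N α) × Fin N => ν)
      {g | ε ≤ spherePressure N α 1 (fun x => max (qp b k x) (-L) + θ x) g -
        spherePressure N α 1 (fun x => qp b k x + θ x) g} ≤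
      ENNReal.ofReal (cL α b k T L / ε) := by
  have := h.prob
  have i1 := integrable_sp_qp h (α := α) hb k hθm hθ hN
  have i2 := integrable_sp_max h (α := α) hb k hθm hθ hL hN
  have hL1 : ∫ g, (spherePressure N α 1 (fun x => max (qp b k x) (-L) + θ x) g -
      spherePressure N α 1 (fun x => qp b k x + θ x) g)
      ∂(Measure.pi fun _ : Fin (numPatterns N α) × Fin N => ν) ≤ cL α b k T L := by
    rw [integral_sub i2 i1]
    exact (eP_trunc h hα hb k hθm hθ hL hN).2
  have h1 := mul_meas_ge_le_integral_of_nonneg (μ := Measure.pi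
    fun _ : Fin (numPatterns N α) × Fin N => ν)
    (f := fun g => spherePressure N α 1 (fun x => max (qp b k x) (-L) + θ x) g -
      spherePressure N α 1 (fun x => qp b k x + θ x) g)
    (ae_of_all _ fun g => sub_nonneg.2 (sp_mono_trunc hb k hθm hθ hL hN g)) (i2.sub i1) ε
  have h2 := h1.trans hL1
  rw [ENNReal.le_ofReal_iff_toReal_le (measure_ne_top _ _)
    (div_nonneg (cL_nonneg hα hb.le k T L) hε.le), le_div_iff₀ hε]
  rw [mul_comm]
  exact h2

/-- **Concentration** of the pressure with the quadratic penalty around its mean. -/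
theorem conc_qp {ν : Measure ℝ} (h : Good ν) {α b : ℝ} (hα : 0 ≤ α) (hb : 0 < b)
    (k : ℝ) {θ : ℝ → ℝ} (hθm : Measurable θ) {T : ℝ} (hθ : ∀ x, |θ x| ≤ T) {ε : ℝ} (hε : 0 < ε) :
    Tendsto (fun N : ℕ => (Measure.pi fun _ : Fin (numPatterns N α) × Fin N => ν)
      {g | ε < |spherePressure N α 1 (fun x => qp b k x + θ x) g -
        eP ν α (fun x => qp b k x + θ x) N|}) atTop (𝓝 0) := by
  have := h.prob
  rw [ENNReal.tendsto_nhds_zero]
  intro δ hδ
  have hδ2 : ∃ n : ℕ, ENNReal.ofReal (cL α b k T n / (ε / 3)) ≤ δ / 2 ∧ cL α b k T n < ε / 3 := by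
    have h1 : Tendsto (fun n : ℕ => ENNReal.ofReal (cL α b k T n / (ε / 3))) atTop (𝓝 0) := by
      have h2 := (tendsto_cL α hb k T).div_const (ε / 3)
      rw [zero_div] at h2
      have h3 := ENNReal.tendsto_ofReal h2
      rwa [ENNReal.ofReal_zero] at h3
    have h4 := ENNReal.tendsto_nhds_zero.1 h1 (δ / 2) (ENNReal.half_pos hδ.ne')
    have h5 := Metric.tendsto_nhds.1 (tendsto_cL α hb k T) (ε / 3) (by positivity)
    obtain ⟨n, hn1, hn2⟩ := (h4.and h5).exists
    refine ⟨n, hn1, ?_⟩
    rw [Real.dist_eq, sub_zero] at hn2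
    exact (le_abs_self _).trans_lt hn2
  obtain ⟨n, hn1, hn2⟩ := hδ2
  have hn0 : (0 : ℝ) ≤ n := Nat.cast_nonneg n
  have hbdd : ∀ x, |max (qp b k x) (-(n : ℝ)) + θ x| ≤ n + T := by
    intro x
    refine (abs_add_le _ _).trans (add_le_add ?_ (hθ x))
    have h4 := qp_nonpos hb.le k x
    rw [abs_of_nonpos (max_le h4 (by linarith))]
    have := le_max_right (qp b k x) (-(n : ℝ))
    linarith
  have hmt : Measurable fun x => max (qp b k x) (-(n : ℝ)) + θ x :=
    ((continuous_qp b k).measurable.max measurable_const).add hθm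
  have hdev : Tendsto (fun N : ℕ => ENNReal.ofReal
      (α * (2 * (|1| * (n + T))) ^ 2 / (N * (ε / 3) ^ 2))) atTop (𝓝 0) := by
    rw [← ENNReal.ofReal_zero]
    apply ENNReal.tendsto_ofReal
    have h3 : Tendsto (fun N : ℕ => (α * (2 * (|1| * (n + T))) ^ 2 / (ε / 3) ^ 2) * ((N : ℝ))⁻¹)
        atTop (𝓝 ((α * (2 * (|1| * (n + T))) ^ 2 / (ε / 3) ^ 2) * 0)) :=
      tendsto_const_nhds.mul (tendsto_inv_atTop_zero.comp tendsto_natCast_atTop_atTop)
    rw [mul_zero] at h3
    refine h3.congr fun N => ?_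
    by_cases hN : (N : ℝ) = 0
    · simp [hN]
    · have : (ε / 3) ≠ 0 := by positivity
      field_simp
  have hdev' := ENNReal.tendsto_nhds_zero.1 hdev (δ / 2) (ENNReal.half_pos hδ.ne')
  filter_upwards [hdev', eventually_gt_atTop 0] with N hN hN0
  have hb1 := meas_trunc_le h hα hb k hθm hθ hn0 hN0 (ε := ε / 3) (by positivity)
  have hb2 := PressC_663.meas_spherePressure_dev (β := 1) hN0 hα hmt hbdd ν (t := ε / 3)
    (by positivity)
  obtain ⟨e1, e2⟩ := eP_trunc h hα hb k hθm hθ hn0 hN0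
  have hsub : {g : Patterns N α | ε < |spherePressure N α 1 (fun x => qp b k x + θ x) g -
        eP ν α (fun x => qp b k x + θ x) N|} ⊆
      {g | ε / 3 ≤ spherePressure N α 1 (fun x => max (qp b k x) (-(n : ℝ)) + θ x) g -
        spherePressure N α 1 (fun x => qp b k x + θ x) g} ∪
      {g | ε / 3 < |spherePressure N α 1 (fun x => max (qp b k x) (-(n : ℝ)) + θ x) g -
        ∫ g, spherePressure N α 1 (fun x => max (qp b k x) (-(n : ℝ)) + θ x) g
          ∂(Measure.pi fun _ : Fin (numPatterns N α) × Fin N => ν)|} := by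
    intro g hg
    by_contra hcon
    simp only [Set.mem_union, Set.mem_ofPred_eq, not_or, not_le, not_lt] at hcon hg
    obtain ⟨c1, c2⟩ := hcon
    have h1 := sp_mono_trunc hb k hθm hθ hn0 hN0 g
    have h4 : |spherePressure N α 1 (fun x => qp b k x + θ x) g -
        eP ν α (fun x => qp b k x + θ x) N| ≤ ε := by
      unfold eP at e1 e2 ⊢
      rw [abs_le] at c2 ⊢
      constructor <;> linarith
    linarith
  calc (Measure.pi fun _ : Fin (numPatterns N α) × Fin N => ν) _
      ≤ _ := measure_mono hsub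
    _ ≤ _ := measure_union_le _ _
    _ ≤ δ / 2 + δ / 2 := add_le_add (hb1.trans hn1) (hb2.trans hN)
    _ = δ := ENNReal.add_halves δ

/-! ### SAT side -/

theorem sum_qp_eq {N M : ℕ} (b k : ℝ) (A : Fin M × Fin N → ℝ) (u : UnitSphere N) :
    ∑ a, qp b k (∑ i, A (a, i) * crd N u i) =
      -(b / 2) * ∑ a, max (k - ∑ i, A (a, i) * crd N u i) 0 ^ 2 := by
  unfold qp
  rw [Finset.mul_sum]

/-- If the pressure of the quadratic penalty is at least `-b δ`, some unit vector has energy
`∑ (k - A_a · y)₊² ≤ 2 δ N`. -/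
theorem exists_of_pressure_ge {N : ℕ} (hN : 0 < N) {α b : ℝ} (hb : 0 < b) (k δ : ℝ)
    (A : Patterns N α) (h : -(b * δ) ≤ spherePressure N α 1 (qp b k) A) :
    ∃ y : Fin N → ℝ, ∑ i, y i ^ 2 = 1 ∧
      ∑ μ, max (k - ∑ i, A (μ, i) * y i) 0 ^ 2 ≤ 2 * δ * N := by
  have := isProb_uSph hN
  have h0 : (0 : ℝ) < N := by exact_mod_cast hN
  by_contra hcon
  push Not at hcon
  have hu : ∀ u : UnitSphere N, wt (crd N) (fun _ => qp b k) A u < Real.exp (-(b * δ) * N) := by
    intro u
    unfold wt fld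
    refine Real.exp_lt_exp.2 ?_
    rw [sum_qp_eq]
    have h1 := hcon (crd N u) (sum_crd_sq u)
    nlinarith
  have hC0 : 0 ≤ b * (1 + k ^ 2) := by positivity
  have hQ : QG (b * (1 + k ^ 2)) (fun _ : Fin (numPatterns N α) => qp b k) :=
    fun _ x => abs_qp_le hb.le k x
  have hqm : ∀ a : Fin (numPatterns N α), Measurable ((fun _ => qp b k) a) :=
    fun _ => (continuous_qp b k).measurable
  have iw := integrable_wt (uSph N) (measurable_crd N) (fun u => sum_crd_sq_le u) hC0 hqm hQ A
  have hZ := Zf_pos (μ := uSph N) (IsProbabilityMeasure.ne_zero _) (measurable_crd N)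
    (fun u => sum_crd_sq_le u) hC0 hqm hQ A
  have hlt : Zf (uSph N) (crd N) (fun _ => qp b k) A < Real.exp (-(b * δ) * N) := by
    have h1 : 0 < ∫ u, (Real.exp (-(b * δ) * N) - wt (crd N) (fun _ => qp b k) A u) ∂(uSph N) := by
      rw [integral_pos_iff_support_of_nonneg (fun u => (sub_pos.2 (hu u)).le)
        ((integrable_const _).sub iw)]
      have : Function.support (fun u => Real.exp (-(b * δ) * N) -
          wt (crd N) (fun _ => qp b k) A u) = Set.univ := by
        rw [Set.eq_univ_iff_forall]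
        exact fun u => (sub_pos.2 (hu u)).ne'
      rw [this, measure_univ]
      exact one_pos
    rw [integral_sub (integrable_const _) iw, integral_const, probReal_univ, one_smul] at h1
    have h2 : ∫ u, wt (crd N) (fun _ => qp b k) A u ∂(uSph N) =
      Zf (uSph N) (crd N) (fun _ => qp b k) A := rfl
    linarith
  have hlog := Real.log_lt_log hZ hlt
  rw [Real.log_exp] at hlog
  rw [spherePressure_one] at h
  have h3 : logZ (uSph N) (crd N) (fun _ => qp b k) A =
      Real.log (Zf (uSph N) (crd N) (fun _ => qp b k) A) := rfl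
  rw [h3, le_div_iff₀ h0] at h
  linarith

/-- near satisfiability from the pressure. -/
theorem nearSat_of_pressure {N : ℕ} (hN : 0 < N) {α b : ℝ} (hb : 0 < b) {η δ : ℝ}
    (A : Patterns N α) (h : -(b * δ) ≤ spherePressure N α 1 (qp b (η - 1)) A) :
    NearSat A η (2 * δ) := by
  obtain ⟨y, hy, hE⟩ := exists_of_pressure_ge hN hb (η - 1) δ A h
  refine ⟨y, hy, ?_⟩
  refine le_trans (le_of_eq (Finset.sum_congr rfl fun μ _ => ?_)) hE
  congr 2
  ring

theorem qp_add_zero (b k : ℝ) : (fun x => qp b k x + (fun _ : ℝ => (0 : ℝ)) x) = qp b k := by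
  funext x; simp

/-- The SAT criterion in terms of mean pressures: if for every `δ > 0` there is `b > 0` with
`-b δ ≤ eP` eventually (margin `η - 1`), satisfiability at margin `-1` has probability tending
to `1`. -/
theorem sat_tendsto_one {ν : Measure ℝ} (h : Good ν) {α : ℝ} (hα : 0 ≤ α) {η : ℝ} (hη : 0 < η)
    (hη1 : η ≤ 1)
    (hlow : ∀ δ : ℝ, 0 < δ → ∃ b : ℝ, 0 < b ∧ ∀ᶠ N in atTop, -(b * δ) ≤ eP ν α (qp b (η - 1)) N) :
    Tendsto (fun N : ℕ => (Measure.pi fun _ : Fin (numPatterns N α) × Fin N => ν)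
      {A : Patterns N α | IsSat A}) atTop (𝓝 1) := by
  have := h.prob
  obtain ⟨τ₀, hτ₀, hmain⟩ := tendsto_one_of_nearSat h α hα η hη hη1
  refine hmain τ₀ le_rfl ?_
  obtain ⟨b, hb, hbN⟩ := hlow (τ₀ / 4) (by positivity)
  have hconc := conc_qp h hα hb (η - 1) (θ := fun _ => 0) measurable_const (T := 0)
    (fun x => by simp) (ε := b * (τ₀ / 4)) (by positivity)
  rw [qp_add_zero] at hconc
  have hcompl : Tendsto (fun N : ℕ => 1 - (Measure.pi fun _ : Fin (numPatterns N α) × Fin N => ν)
      {g | b * (τ₀ / 4) < |spherePressure N α 1 (qp b (η - 1)) g - eP ν α (qp b (η - 1)) N|})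
      atTop (𝓝 (1 - 0)) :=
    ENNReal.Tendsto.sub tendsto_const_nhds hconc (Or.inl ENNReal.one_ne_top)
  rw [tsub_zero] at hcompl
  refine tendsto_of_tendsto_of_tendsto_of_le_of_le' hcompl tendsto_const_nhds ?_
    (Eventually.of_forall fun N => prob_le_one)
  filter_upwards [hbN, eventually_gt_atTop 0] with N h1 hN0
  rw [tsub_le_iff_right]
  have hcov : (Set.univ : Set (Patterns N α)) ⊆ {A | NearSat A η τ₀} ∪
      {g | b * (τ₀ / 4) < |spherePressure N α 1 (qp b (η - 1)) g -
        eP ν α (qp b (η - 1)) N|} := by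
    intro g _
    by_cases hg : b * (τ₀ / 4) < |spherePressure N α 1 (qp b (η - 1)) g -
        eP ν α (qp b (η - 1)) N|
    · exact Or.inr hg
    · left
      push Not at hg
      have h2 := (abs_le.1 hg).1
      have h3 := nearSat_of_pressure hN0 hb (η := η) (δ := τ₀ / 2) g (by nlinarith)
      have e : 2 * (τ₀ / 2) = τ₀ := by ring
      rwa [e] at h3
  calc (1 : ENNReal) = (Measure.pi fun _ : Fin (numPatterns N α) × Fin N => ν) Set.univ :=
        measure_univ.symm
    _ ≤ _ := measure_mono hcov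
    _ ≤ _ := measure_union_le _ _

end Crest.Agent.R146.Assoc_323
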