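import Crest.Agent.R146.R1f_847
import Crest.Agent.R146.StepStart_483

/-!
Row 146, PT0-R1 (helper847): **`Back A` for every step datum `A`** (structure of `StepDef_791`).
-/

set_option autoImplicit false

namespace Crest.Agent.R146.Back_847

open MeasureTheory ProbabilityTheory Filter Topology Set
open Crest.Agent.R146.Hg_534 Crest.Agent.R146.PB_534
open Crest.Agent.R146.R1d_847 Crest.Agent.R146.R1e_847
open Crest.Agent.R146.StepDef_791 Crest.Agent.R146.StepStart_483

/-- the state at time `T` -/
theorem st_start {d δ : ℝ} (hd : 0 < d) (hδ : 0 < δ) : St d (startPsi d δ) := by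
  have hs := Real.sqrt_pos.2 hδ
  refine ⟨Sm_startPsi hd hδ, startPsi_nonpos hd, startPsi_deriv_pos hd hδ,
    startPsi_deriv2_neg hd hδ, fun x => ?_, fun x => ?_, startPsi_deriv3_pos hd hδ,
    ⟨1 / (Real.sqrt δ * d), fun x => ?_⟩⟩
  · have h := startPsi_deriv2_gt hd hδ x
    have h2 := mul_lt_mul_of_pos_left h hd
    have h3 : d * -(1 / d) = -1 := by field_simp
    rw [h3] at h2
    linarith
  · rw [startPsi_deriv_eq hδ]
    have h := add_U0_pos (x / Real.sqrt δ)
    have h1 := mul_pos hs h
    have e : x + d * (Real.sqrt δ * U0 (x / Real.sqrt δ) / d) =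
        Real.sqrt δ * (x / Real.sqrt δ + U0 (x / Real.sqrt δ)) := by
      field_simp
    rw [e]
    exact h1
  · rw [startPsi_deriv3_eq hδ]
    exact div_le_div_of_nonneg_right (ph_le_one _) (by positivity)

/-- **R1** -/
theorem back (A : SD) : Back A :=
  R1f_847.back_of A (st_start A.hd A.dl_pos) (u_T A) (V_T A) (P_T A)

/-- all facts in terms of the `x`-derivatives of `ψ` -/
theorem sys (A : SD) : Sys A.T A.D A.m A.ml A.psi := R1f_847.sys A (st_start A.hd A.dl_pos)

end Crest.Agent.R146.Back_847
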