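import Crest.Agent.R146.SlopeV_371
import Crest.Agent.R146.StepDef_791
import Crest.Agent.R146.StepStart_483
import Crest.Agent.R146.StepCmp_371

/-!
Row 146 (helper371), PT-CMP C1, part 2: slope bands of the step system.

* `Clk A ω χ k`   : clock (`ω = 0`: `χ = k = 1 - t`; `ω = 1`: `χ = D K0`, `k = K0`), instances `clk0`, `clk1`;
* `UpBand`, `LowBand` : pointwise data of a barrier on `(0,1)`;
* `up_band`, `low_band` : the bands on `[t0,t1]` with transients `(k t1 / k t)^κ`;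
* `poor_up`, `poor_low` : start at `T` with the Gaussian profile, no transient;
* `ref_up`, `ref_low` : two stages (`[tb,T]` with the large window, `[ta,tb]` with the small one), the constants
  do not depend on the step datum.
-/

set_option autoImplicit false

open Set Filter Topology

namespace Crest.Agent.R146.Band_371

open MaxP_371 MaxP2_371 MaxPCmp_371 SlopeT_371 SlopeV_371 StepDef_791 StepCmp_371
open StepStart_483 (ph Phi)

/-! ### restriction of a backward system -/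

theorem bsys_restrict {t0 t1 s0 s1 : ℝ} {b : ℝ → ℝ} {u V P Px Pxx : ℝ → ℝ → ℝ} {M : ℝ}
    (h : BSys t0 t1 b u V P Px Pxx M) (h0 : t0 ≤ s0) (h1 : s1 ≤ t1) :
    BSys s0 s1 b u V P Px Pxx M := by
  have hI : Icc s0 s1 ⊆ Icc t0 t1 := Icc_subset_Icc h0 h1
  have hO : Ico s0 s1 ⊆ Ico t0 t1 := Ico_subset_Ico h0 h1
  have hS : strip s0 s1 ⊆ strip t0 t1 := prod_mono hI le_rfl
  exact
    { hux := fun t ht => h.hux t (hO ht)
      hVx := fun t ht => h.hVx t (hO ht)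
      hPx := fun t ht => h.hPx t (hO ht)
      hPxx := fun t ht => h.hPxx t (hO ht)
      hut := fun t ht => h.hut t (hO ht)
      hVt := fun t ht => h.hVt t (hO ht)
      hPt := fun t ht => h.hPt t (hO ht)
      cu := h.cu.mono hS
      cV := h.cV.mono hS
      cP := h.cP.mono hS
      b_nonneg := fun t ht => h.b_nonneg t (hI ht)
      b_le := fun t ht => h.b_le t (hI ht)
      V_pos := fun t ht => h.V_pos t (hI ht)
      V_lt := fun t ht => h.V_lt t (hI ht)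
      u_nonneg := fun t ht => h.u_nonneg t (hI ht)
      u_le := fun t ht => h.u_le t (hI ht)
      P_nonneg := fun t ht => h.P_nonneg t (hI ht)
      P_le := fun t ht => h.P_le t (hI ht) }

/-! ### clocks -/

/-- clock `χ` with its logarithmic potential `k` (`k' = -k/χ`) -/
structure Clk (A : SD) (ω : ℝ) (χ k : ℝ → ℝ) : Prop where
  pos : ∀ t ∈ Icc 0 A.T, 0 < χ t
  cont : ContinuousOn χ (Icc 0 A.T)
  der : ∀ t ∈ Ico 0 A.T, HasDerivWithinAt χ (-(1 + ω * (A.b t * χ t))) (Ici t) t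
  kpos : ∀ t ∈ Icc 0 A.T, 0 < k t
  kder : ∀ t ∈ Icc 0 A.T, HasDerivAt k (-(k t / χ t)) t
  fin : χ A.T = A.dl

theorem clk0 (A : SD) : Clk A 0 (fun t => 1 - t) (fun t => 1 - t) where
  pos := fun t ht => by have := ht.2.trans_lt A.hT1; linarith
  cont := by fun_prop
  der := fun t _ => by
    have h := ((hasDerivAt_id t).const_sub 1).hasDerivWithinAt (s := Ici t)
    refine h.congr_deriv ?_
    ring
  kpos := fun t ht => by have := ht.2.trans_lt A.hT1; linarith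
  kder := fun t ht => by
    have h1 : (0:ℝ) < 1 - t := by have := ht.2.trans_lt A.hT1; linarith
    have h := ((hasDerivAt_id t).const_sub 1)
    refine h.congr_deriv ?_
    rw [div_self h1.ne']
  fin := rfl

theorem clk1 {A : SD} (hC : Clock A) : Clk A 1 A.chi A.K0 where
  pos := fun t ht => hC.chi_pos t (ht.2.trans_lt A.hT1)
  cont := by
    intro t ht
    exact (hC.D_cont.continuousWithinAt).mul (hC.K0_t t ht).continuousAt.continuousWithinAt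
  der := fun t ht => by
    have h := hC.chi_t t ht
    refine h.congr_deriv ?_
    have hD := (A.D_pos t).ne'
    unfold SD.b SD.chi
    field_simp
  kpos := fun t ht => hC.K0_pos t (ht.2.trans_lt A.hT1)
  kder := fun t ht => by
    have h := hC.K0_t t ht
    refine h.congr_deriv ?_
    have hD := (A.D_pos t).ne'
    have hK := (hC.K0_pos t (ht.2.trans_lt A.hT1)).ne'
    unfold SD.chi SD.E
    field_simp
  fin := hC.chi_T

section clk

variable {A : SD} {ω : ℝ} {χ k : ℝ → ℝ}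

/-- the clock factor `s = χ^{-1/2}` -/
noncomputable def sf (χ : ℝ → ℝ) (t : ℝ) : ℝ := (Real.sqrt (χ t))⁻¹

lemma sf_pos (h : Clk A ω χ k) {t : ℝ} (ht : t ∈ Icc 0 A.T) : 0 < sf χ t :=
  inv_pos.2 (Real.sqrt_pos.2 (h.pos t ht))

lemma sf_sq (h : Clk A ω χ k) {t : ℝ} (ht : t ∈ Icc 0 A.T) : sf χ t ^ 2 = (χ t)⁻¹ := by
  unfold sf
  rw [inv_pow, Real.sq_sqrt (h.pos t ht).le]

lemma div_sf_sq (h : Clk A ω χ k) {t : ℝ} (ht : t ∈ Icc 0 A.T) (b : ℝ) :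
    b / sf χ t ^ 2 = b * χ t := by
  rw [sf_sq h ht, div_inv_eq_mul]

lemma sf_cont (h : Clk A ω χ k) : ContinuousOn (sf χ) (Icc 0 A.T) := by
  unfold sf
  exact (h.cont.sqrt).inv₀ (fun t ht => (Real.sqrt_pos.2 (h.pos t ht)).ne')

lemma sf_deriv (h : Clk A ω χ k) {t : ℝ} (ht : t ∈ Ico 0 A.T) :
    HasDerivWithinAt (sf χ) ((1 + ω * (A.b t / sf χ t ^ 2)) / 2 * sf χ t ^ 3) (Ici t) t := by
  have htI : t ∈ Icc 0 A.T := ⟨ht.1, ht.2.le⟩
  have hp := h.pos t htI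
  have hs := Real.sqrt_pos.2 hp
  have h1 := ((h.der t ht).sqrt hp.ne').inv hs.ne'
  rw [div_sf_sq h htI]
  refine h1.congr_deriv ?_
  unfold sf
  rw [Real.sq_sqrt hp.le]
  have h2 : χ t = Real.sqrt (χ t) ^ 2 := (Real.sq_sqrt hp.le).symm
  have h3 : (Real.sqrt (χ t))⁻¹ ^ 3 = (Real.sqrt (χ t))⁻¹ * (χ t)⁻¹ := by
    rw [pow_succ, inv_pow, ← h2]; ring
  rw [h3]
  field_simp

/-- the transient `ε₁ (k t₁ / k t)^κ` -/
noncomputable def tr (k : ℝ → ℝ) (t1 ε1 κ t : ℝ) : ℝ := ε1 * (k t1 / k t) ^ κ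

lemma tr_nonneg (h : Clk A ω χ k) {t1 t ε1 κ : ℝ} (ht1 : t1 ∈ Icc 0 A.T) (ht : t ∈ Icc 0 A.T)
    (hε : 0 ≤ ε1) : 0 ≤ tr k t1 ε1 κ t :=
  mul_nonneg hε (Real.rpow_nonneg (div_pos (h.kpos _ ht1) (h.kpos _ ht)).le _)

lemma tr_self (h : Clk A ω χ k) {t1 ε1 κ : ℝ} (ht1 : t1 ∈ Icc 0 A.T) :
    tr k t1 ε1 κ t1 = ε1 := by
  unfold tr
  rw [div_self (h.kpos _ ht1).ne', Real.one_rpow, mul_one]

lemma tr_deriv (h : Clk A ω χ k) {t1 t ε1 κ : ℝ} (ht1 : t1 ∈ Icc 0 A.T) (ht : t ∈ Icc 0 A.T) :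
    HasDerivAt (tr k t1 ε1 κ) (κ * tr k t1 ε1 κ t * sf χ t ^ 2) t := by
  have hK : 0 < k t := h.kpos _ ht
  have hK1 : 0 < k t1 := h.kpos _ ht1
  have hχ := h.pos t ht
  have h2 : HasDerivAt (fun s => k t1 / k s) (k t1 / (k t * χ t)) t := by
    have := (h.kder t ht).inv hK.ne'
    have h3 := this.const_mul (k t1)
    refine (h3.congr_deriv ?_)
    field_simp
  have h4 := h2.rpow_const (p := κ) (Or.inl (div_pos hK1 hK).ne')
  have h5 := h4.const_mul ε1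
  refine h5.congr_deriv ?_
  rw [sf_sq h ht]
  unfold tr
  rw [Real.rpow_sub_one (div_pos hK1 hK).ne']
  have hKK : k t ≠ 0 := hK.ne'
  have hKK1 : k t1 ≠ 0 := hK1.ne'
  field_simp

/-- `k` is antitone on `[0,T]` -/
lemma k_anti (h : Clk A ω χ k) {s t : ℝ} (hs : s ∈ Icc 0 A.T) (ht : t ∈ Icc 0 A.T) (hst : s ≤ t) :
    k t ≤ k s := by
  have hA : AntitoneOn k (Icc 0 A.T) := by
    apply antitoneOn_of_deriv_nonpos (convex_Icc _ _)
    · intro t ht; exact (h.kder t ht).continuousAt.continuousWithinAt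
    · intro t ht
      rw [interior_Icc] at ht
      exact (h.kder t ⟨ht.1.le, ht.2.le⟩).differentiableAt.differentiableWithinAt
    · intro t ht
      rw [interior_Icc] at ht
      have htI : t ∈ Icc 0 A.T := ⟨ht.1.le, ht.2.le⟩
      rw [(h.kder t htI).deriv]
      have := div_pos (h.kpos t htI) (h.pos t htI)
      linarith
  exact hA hs ht hst

lemma tr_le (h : Clk A ω χ k) {t1 t ε1 κ : ℝ} (ht1 : t1 ∈ Icc 0 A.T) (ht : t ∈ Icc 0 A.T)
    (htt : t ≤ t1) (hε : 0 ≤ ε1) (hκ : 0 ≤ κ) : tr k t1 ε1 κ t ≤ ε1 := by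
  unfold tr
  have h1 : (k t1 / k t) ^ κ ≤ 1 := by
    apply Real.rpow_le_one (div_pos (h.kpos _ ht1) (h.kpos _ ht)).le _ hκ
    exact (div_le_one (h.kpos _ ht)).2 (k_anti h ht ht1 htt)
  nlinarith

end clk

/-! ### data of the barriers -/

/-- upper barrier on `(0,1)` for the window `y ∈ [lo, hi]` -/
structure UpBand (ω κ lo hi : ℝ) (S S1 S2 : ℝ → ℝ) : Prop where
  cont : ContinuousOn S (Ioo 0 1)
  pos : ∀ v ∈ Ioo (0:ℝ) 1, 0 < S v
  touch : ∀ v ∈ Ioo (0:ℝ) 1, TouchAbove S v (S1 v) (S2 v)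
  hκ : 0 ≤ κ
  conc : ∀ v ∈ Ioo (0:ℝ) 1, S v * S2 v ≤ -κ
  stat_lo : ∀ v ∈ Ioo (0:ℝ) 1, Stat ω lo v (S v) (S1 v) (S2 v) ≤ 0
  stat_hi : ∀ v ∈ Ioo (0:ℝ) 1, Stat ω hi v (S v) (S1 v) (S2 v) ≤ 0

/-- lower barrier on `(0,1)` for the window `y ∈ [lo, hi]` -/
structure LowBand (ω lo hi : ℝ) (S S1 S2 : ℝ → ℝ) : Prop where
  cont : ContinuousOn S (Ioo 0 1)
  pos : ∀ v ∈ Ioo (0:ℝ) 1, 0 < S v
  bdd : ∃ KM, ∀ v ∈ Ioo (0:ℝ) 1, S v ≤ KM
  touch : ∀ v ∈ Ioo (0:ℝ) 1, TouchBelow S v (S1 v) (S2 v)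
  conv : ∃ κ2, ∀ v ∈ Ioo (0:ℝ) 1, S v * S2 v ≤ κ2
  stat_lo : ∀ v ∈ Ioo (0:ℝ) 1, 0 ≤ Stat ω lo v (S v) (S1 v) (S2 v)
  stat_hi : ∀ v ∈ Ioo (0:ℝ) 1, 0 ≤ Stat ω hi v (S v) (S1 v) (S2 v)

/-- damping data of a lower barrier for the window `[lo, hi]` (needed for transients) -/
structure LowTr (ω m0 lo hi : ℝ) (S S1 S2 : ℝ → ℝ) : Prop where
  lin_lo : ∀ v ∈ Ioo (0:ℝ) 1, m0 * S v ≤ Lin ω lo v (S v) (S1 v)
  lin_hi : ∀ v ∈ Ioo (0:ℝ) 1, m0 * S v ≤ Lin ω hi v (S v) (S1 v)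
  lin2_lo : ∀ v ∈ Ioo (0:ℝ) 1, m0 * S v ≤ Lin ω lo v (S v) (S1 v) - S v ^ 2 * S2 v / 2
  lin2_hi : ∀ v ∈ Ioo (0:ℝ) 1, m0 * S v ≤ Lin ω hi v (S v) (S1 v) - S v ^ 2 * S2 v / 2

/-- a function affine in `y` which is `≤ 0` at both ends -/
lemma aff_nonpos {a b lo hi y : ℝ} (hy : y ∈ Icc lo hi) (h1 : a + b * lo ≤ 0) (h2 : a + b * hi ≤ 0) :
    a + b * y ≤ 0 := by
  rcases le_or_gt 0 b with hb | hb
  · have := mul_le_mul_of_nonneg_left hy.2 hb; linarith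
  · have := mul_le_mul_of_nonpos_left hy.1 hb.le; linarith

lemma stat_aff (ω y v K K1 K2 : ℝ) : Stat ω y v K K1 K2 =
    (K / 2 + K ^ 2 * K2 / 2) + (ω * K / 2 + (v * (1 - v) * K1 - (2 - 3 * v) * K)) * y := by
  unfold Stat; ring

lemma lin_aff (ω y v K K1 : ℝ) : Lin ω y v K K1 =
    K / 2 + (ω * K / 2 + (v * (1 - v) * K1 - (2 - 3 * v) * K)) * y := by
  unfold Lin; ring

lemma stat_nonpos {ω lo hi y v K K1 K2 : ℝ} (hy : y ∈ Icc lo hi)
    (h1 : Stat ω lo v K K1 K2 ≤ 0) (h2 : Stat ω hi v K K1 K2 ≤ 0) : Stat ω y v K K1 K2 ≤ 0 := by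
  rw [stat_aff] at *
  exact aff_nonpos hy h1 h2

lemma stat_nonneg {ω lo hi y v K K1 K2 : ℝ} (hy : y ∈ Icc lo hi)
    (h1 : 0 ≤ Stat ω lo v K K1 K2) (h2 : 0 ≤ Stat ω hi v K K1 K2) : 0 ≤ Stat ω y v K K1 K2 := by
  rw [stat_aff] at *
  have := aff_nonpos (a := -(K / 2 + K ^ 2 * K2 / 2))
    (b := -(ω * K / 2 + (v * (1 - v) * K1 - (2 - 3 * v) * K))) hy (by linarith) (by linarith)
  linarith

lemma lin_ge {ω lo hi y v K K1 m c : ℝ} (hy : y ∈ Icc lo hi)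
    (h1 : m ≤ Lin ω lo v K K1 - c) (h2 : m ≤ Lin ω hi v K K1 - c) : m ≤ Lin ω y v K K1 - c := by
  rw [lin_aff] at *
  have := aff_nonpos (a := m - K / 2 + c)
    (b := -(ω * K / 2 + (v * (1 - v) * K1 - (2 - 3 * v) * K))) hy (by linarith) (by linarith)
  linarith

lemma lin_le {ω lo hi y v K K1 m c : ℝ} (hy : y ∈ Icc lo hi)
    (h1 : Lin ω lo v K K1 + c ≤ m) (h2 : Lin ω hi v K K1 + c ≤ m) : Lin ω y v K K1 + c ≤ m := by
  rw [lin_aff] at *
  have := aff_nonpos (a := K / 2 + c - m)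
    (b := (ω * K / 2 + (v * (1 - v) * K1 - (2 - 3 * v) * K))) hy (by linarith) (by linarith)
  linarith

/-! ### the bands -/

section band

variable {A : SD} {ω : ℝ} {χ k : ℝ → ℝ} {S S1 S2 : ℝ → ℝ} {κ lo hi : ℝ}

/-- **upper band on `[t0,t1]` with transient.** -/
theorem up_band (hB : Back A) (hk : Clk A ω χ k) (hS : UpBand ω κ lo hi S S1 S2)
    {t0 t1 ε1 : ℝ} (h0 : 0 ≤ t0) (h1 : t1 ≤ A.T) (hε : 0 ≤ ε1)
    (hY : ∀ t ∈ Ico t0 t1, A.b t * χ t ∈ Icc lo hi)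
    (hterm : ∀ x, A.P t1 x ≤ (1 + ε1) * sf χ t1 * S (A.V t1 x)) :
    ∀ t ∈ Icc t0 t1, ∀ x, A.P t x ≤ (1 + tr k t1 ε1 κ t) * sf χ t * S (A.V t x) := by
  intro t ht
  have ht01 : t0 ≤ t1 := ht.1.trans ht.2
  have ht1I : t1 ∈ Icc 0 A.T := ⟨h0.trans ht01, h1⟩
  have hI : Icc t0 t1 ⊆ Icc 0 A.T := Icc_subset_Icc h0 h1
  have hO : Ico t0 t1 ⊆ Ico 0 A.T := Ico_subset_Ico h0 h1
  obtain ⟨M, hM⟩ := hB.bsys
  have hM' := bsys_restrict hM h0 h1
  refine slope_trans_le_v hM' (s := sf χ) (e := tr k t1 ε1 κ) (ω := ω) (κ := κ)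
    (fun t ht => sf_deriv hk (hO ht)) ((sf_cont hk).mono hI) (fun t ht => sf_pos hk (hI ht))
    (fun t ht => (tr_deriv hk ht1I (hI ⟨ht.1, ht.2.le⟩)).hasDerivWithinAt)
    (fun t ht => (tr_deriv hk ht1I (hI ht)).continuousAt.continuousWithinAt)
    (fun t ht => tr_nonneg hk ht1I (hI ht) hε) hS.cont hS.pos hS.touch hS.hκ hS.conc ?_ ?_ t ht
  · intro t ht v hv
    rw [div_sf_sq hk (hI ⟨ht.1, ht.2.le⟩)]
    exact stat_nonpos (hY t ht) (hS.stat_lo v hv) (hS.stat_hi v hv)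
  · intro x
    rw [tr_self hk ht1I]
    exact hterm x

/-- **lower band on `[t0,t1]` with transient.** -/
theorem low_band (hB : Back A) (hk : Clk A ω χ k) (hS : LowBand ω lo hi S S1 S2)
    {t0 t1 ε1 m0 : ℝ} (h0 : 0 ≤ t0) (h1 : t1 ≤ A.T) (hε : 0 ≤ ε1) (hε1 : ε1 < 1) (hκ : 0 ≤ κ)
    (htr : 0 < ε1 → LowTr ω m0 lo hi S S1 S2 ∧ κ ≤ (1 - ε1) * m0)
    (hY : ∀ t ∈ Ico t0 t1, A.b t * χ t ∈ Icc lo hi)
    (hterm : ∀ x, (1 - ε1) * sf χ t1 * S (A.V t1 x) ≤ A.P t1 x) :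
    ∀ t ∈ Icc t0 t1, ∀ x, (1 - tr k t1 ε1 κ t) * sf χ t * S (A.V t x) ≤ A.P t x := by
  intro t ht
  have ht01 : t0 ≤ t1 := ht.1.trans ht.2
  have ht1I : t1 ∈ Icc 0 A.T := ⟨h0.trans ht01, h1⟩
  have hI : Icc t0 t1 ⊆ Icc 0 A.T := Icc_subset_Icc h0 h1
  have hO : Ico t0 t1 ⊆ Ico 0 A.T := Ico_subset_Ico h0 h1
  obtain ⟨M, hM⟩ := hB.bsys
  have hM' := bsys_restrict hM h0 h1
  obtain ⟨KM, hKM⟩ := hS.bdd
  obtain ⟨κ2, hκ2⟩ := hS.conv
  obtain ⟨G, hG⟩ := (isCompact_Icc (a := t0) (b := t1)).bddAbove_image ((sf_cont hk).mono hI)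
  have hG' : ∀ t ∈ Icc t0 t1, sf χ t ≤ G := fun t ht => hG ⟨t, ht, rfl⟩
  refine le_slope_trans_v hM' (s := sf χ) (e := tr k t1 ε1 κ) (ω := ω) (κ := κ) (e1 := ε1)
    (G := G) (KM := KM) (κ2 := max κ2 0)
    (fun t ht => sf_deriv hk (hO ht)) ((sf_cont hk).mono hI) (fun t ht => sf_pos hk (hI ht)) hG'
    (fun t ht => (tr_deriv hk ht1I (hI ⟨ht.1, ht.2.le⟩)).hasDerivWithinAt)
    (fun t ht => (tr_deriv hk ht1I (hI ht)).continuousAt.continuousWithinAt)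
    (fun t ht => tr_nonneg hk ht1I (hI ht) hε) (fun t ht => tr_le hk ht1I (hI ht) ht.2 hε hκ) hε1
    hS.cont hS.pos hKM hS.touch hκ (le_max_right _ _)
    (fun v hv => (hκ2 v hv).trans (le_max_left _ _)) ?_ ?_ ?_ ?_ t ht
  · intro t ht v hv
    rw [div_sf_sq hk (hI ⟨ht.1, ht.2.le⟩)]
    exact stat_nonneg (hY t ht) (hS.stat_lo v hv) (hS.stat_hi v hv)
  · intro he t ht v hv
    rw [div_sf_sq hk (hI ⟨ht.1, ht.2.le⟩)]
    obtain ⟨hL, hκm⟩ := htr he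
    have h2 : m0 * S v ≤ Lin ω (A.b t * χ t) v (S v) (S1 v) - 0 :=
      lin_ge (hY t ht) (by simpa using hL.lin_lo v hv) (by simpa using hL.lin_hi v hv)
    have h3 := mul_le_mul_of_nonneg_left h2 (show (0:ℝ) ≤ 1 - ε1 by linarith)
    have h4 := mul_le_mul_of_nonneg_right hκm (hS.pos v hv).le
    rw [sub_zero] at h3
    linarith
  · intro he t ht v hv
    rw [div_sf_sq hk (hI ⟨ht.1, ht.2.le⟩)]
    obtain ⟨hL, hκm⟩ := htr he
    have h2 : m0 * S v ≤ Lin ω (A.b t * χ t) v (S v) (S1 v) - S v ^ 2 * S2 v / 2 :=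
      lin_ge (hY t ht) (hL.lin2_lo v hv) (hL.lin2_hi v hv)
    have h3 := mul_le_mul_of_nonneg_left h2 (show (0:ℝ) ≤ 1 - ε1 by linarith)
    have h4 := mul_le_mul_of_nonneg_right hκm (hS.pos v hv).le
    linarith
  · intro x
    rw [tr_self hk ht1I]
    exact hterm x

/-- start profile: `P(T,x) = s φ(z)`, `V(T,x) = Φ(z)` -/
lemma start_P (hk : Clk A ω χ k) (x : ℝ) :
    A.P A.T x = sf χ A.T * ph (x / Real.sqrt A.dl) ∧ A.V A.T x = Phi (x / Real.sqrt A.dl) := by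
  refine ⟨?_, StepStart_483.V_T A x⟩
  rw [StepStart_483.P_T A x]
  unfold sf
  rw [hk.fin]
  unfold ph
  rw [div_eq_inv_mul]

/-- **POOR BAND, upper** (no transient): start at `T`. -/
theorem poor_up (hB : Back A) (hk : Clk A ω χ k) (hS : UpBand ω κ lo hi S S1 S2) {ta : ℝ}
    (h0 : 0 ≤ ta) (hY : ∀ t ∈ Ico ta A.T, A.b t * χ t ∈ Icc lo hi)
    (hstart : ∀ z, ph z ≤ S (Phi z)) :
    ∀ t ∈ Icc ta A.T, ∀ x, A.P t x ≤ sf χ t * S (A.V t x) := by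
  intro t ht x
  have h := up_band hB hk hS h0 le_rfl (ε1 := 0) le_rfl hY (by
    intro x
    obtain ⟨h1, h2⟩ := start_P hk x
    rw [h1, h2, add_zero, one_mul]
    exact mul_le_mul_of_nonneg_left (hstart _) (sf_pos hk ⟨A.hT0.le, le_rfl⟩).le) t ht x
  have e : tr k A.T 0 κ t = 0 := by unfold tr; ring
  rw [e, add_zero, one_mul] at h
  exact h

/-- **POOR BAND, lower** (no transient): start at `T`. -/
theorem poor_low (hB : Back A) (hk : Clk A ω χ k) (hS : LowBand ω lo hi S S1 S2) {ta : ℝ}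
    (h0 : 0 ≤ ta) (hY : ∀ t ∈ Ico ta A.T, A.b t * χ t ∈ Icc lo hi)
    (hstart : ∀ z, S (Phi z) ≤ ph z) :
    ∀ t ∈ Icc ta A.T, ∀ x, sf χ t * S (A.V t x) ≤ A.P t x := by
  intro t ht x
  have h := low_band (κ := 0) (m0 := 0) hB hk hS h0 le_rfl (ε1 := 0) le_rfl one_pos le_rfl
    (fun h => absurd h (lt_irrefl _)) hY (by
    intro x
    obtain ⟨h1, h2⟩ := start_P hk x
    rw [h1, h2, sub_zero, one_mul]
    exact mul_le_mul_of_nonneg_left (hstart _) (sf_pos hk ⟨A.hT0.le, le_rfl⟩).le) t ht x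
  have e : tr k A.T 0 0 t = 0 := by unfold tr; ring
  rw [e, sub_zero, one_mul] at h
  exact h

/-- the same with a bound `Y ≥ 0` replaced by the sign of `b` : `sqrt χ P` form -/
theorem sqrt_le_iff (hk : Clk A ω χ k) {t : ℝ} (ht : t ∈ Icc 0 A.T) {a c : ℝ} :
    a ≤ sf χ t * c ↔ Real.sqrt (χ t) * a ≤ c := by
  have hs := Real.sqrt_pos.2 (hk.pos t ht)
  unfold sf
  rw [inv_mul_eq_div, le_div_iff₀ hs, mul_comm]

theorem le_sqrt_iff (hk : Clk A ω χ k) {t : ℝ} (ht : t ∈ Icc 0 A.T) {a c : ℝ} :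
    sf χ t * c ≤ a ↔ c ≤ Real.sqrt (χ t) * a := by
  have hs := Real.sqrt_pos.2 (hk.pos t ht)
  unfold sf
  rw [inv_mul_eq_div, div_le_iff₀ hs, mul_comm]

end band

/-! ### two-stage bands (reference) -/

/-- scaling of an upper barrier by `C ≥ 0` -/
lemma TouchAbove.smul {K : ℝ → ℝ} {v k1 k2 C : ℝ} (h : TouchAbove K v k1 k2) (hC : 0 ≤ C) :
    TouchAbove (fun y => C * K y) v (C * k1) (C * k2) := by
  obtain ⟨L, L', a, b, c, d, e⟩ := h
  refine ⟨fun y => C * L y, fun y => C * L' y, by simp only [a], ?_, ?_, by simp only [d], ?_⟩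
  · filter_upwards [b] with y hy using mul_le_mul_of_nonneg_left hy hC
  · filter_upwards [c] with y hy using hy.const_mul C
  · rcases e with e | e
    · exact Or.inl (e.const_mul C)
    · exact Or.inr (e.const_mul C)

lemma TouchBelow.smul {K : ℝ → ℝ} {v k1 k2 C : ℝ} (h : TouchBelow K v k1 k2) (hC : 0 ≤ C) :
    TouchBelow (fun y => C * K y) v (C * k1) (C * k2) := by
  obtain ⟨L, L', a, b, c, d, e⟩ := h
  refine ⟨fun y => C * L y, fun y => C * L' y, by simp only [a], ?_, ?_, by simp only [d], ?_⟩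
  · filter_upwards [b] with y hy using mul_le_mul_of_nonneg_left hy hC
  · filter_upwards [c] with y hy using hy.const_mul C
  · rcases e with e | e
    · exact Or.inl (e.const_mul C)
    · exact Or.inr (e.const_mul C)

lemma stat_smul (ω y v K K1 K2 C : ℝ) : Stat ω y v (C * K) (C * K1) (C * K2) =
    C * (Lin ω y v K K1 + C ^ 2 * (K ^ 2 * K2 / 2)) := by
  unfold Stat Lin; ring

lemma lin_smul (ω y v K K1 C : ℝ) : Lin ω y v (C * K) (C * K1) = C * Lin ω y v K K1 := by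
  unfold Lin; ring

/-- **REF BAND, upper.** `S` is an upper barrier for the small window `[lo,hi]`, with `S S'' ≤ -κ < 0`;
in the large window `[lo0, hi0]` only `Lin ≤ B S` is known. Then with a constant `C ≥ 0` depending only on the data:
`√χ P ≤ (1 + C (k tb / k t)^κ) S(V)` on `[ta, tb]` if `Y ∈ [lo0,hi0]` on `[ta,T)` and `Y ∈ [lo,hi]` on `[ta,tb)`. -/
theorem ref_up {ω κ lo hi lo0 hi0 B c2 : ℝ} {S S1 S2 : ℝ → ℝ}
    (hS : UpBand ω κ lo hi S S1 S2) (hκ : 0 < κ)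
    (hB0 : ∀ v ∈ Ioo (0:ℝ) 1, Lin ω lo0 v (S v) (S1 v) ≤ B * S v)
    (hB1 : ∀ v ∈ Ioo (0:ℝ) 1, Lin ω hi0 v (S v) (S1 v) ≤ B * S v)
    (hc2 : ∀ z, ph z ≤ c2 * S (Phi z)) :
    ∃ C : ℝ, 0 ≤ C ∧ ∀ (A : SD) (χ k : ℝ → ℝ), Back A → Clk A ω χ k →
      ∀ ta tb : ℝ, 0 ≤ ta → tb ≤ A.T →
      (∀ t ∈ Ico tb A.T, A.b t * χ t ∈ Icc lo0 hi0) →
      (∀ t ∈ Ico ta tb, A.b t * χ t ∈ Icc lo hi) →
      ∀ t ∈ Icc ta tb, ∀ x, A.P t x ≤ (1 + tr k tb C κ t) * sf χ t * S (A.V t x) := by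
  -- `C0² κ / 2 ≥ B`, `C0 ≥ c2`, `C0 ≥ 1`
  obtain ⟨C0, hC1, hC2, hC3⟩ : ∃ C0 : ℝ, 1 ≤ C0 ∧ c2 ≤ C0 ∧ B ≤ C0 ^ 2 * (κ / 2) := by
    refine ⟨max (max 1 c2) (2 * |B| / κ), (le_max_left _ _).trans (le_max_left _ _),
      (le_max_right _ _).trans (le_max_left _ _), ?_⟩
    set C0 := max (max 1 c2) (2 * |B| / κ) with hC0
    have h1 : 1 ≤ C0 := (le_max_left _ _).trans (le_max_left _ _)
    have h2 : 2 * |B| / κ ≤ C0 := le_max_right _ _
    have h3 : 2 * |B| ≤ C0 * κ := (div_le_iff₀ hκ).1 h2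
    have h4 : B ≤ |B| := le_abs_self B
    have h5 : C0 * κ ≤ C0 ^ 2 * κ := by
      have : C0 ≤ C0 ^ 2 := by nlinarith
      exact mul_le_mul_of_nonneg_right this hκ.le
    linarith
  have hC0 : 0 < C0 := by linarith
  refine ⟨C0 - 1, by linarith, ?_⟩
  intro A χ k hB hk ta tb hta htb hYb hYa t ht x
  have htab : ta ≤ tb := ht.1.trans ht.2
  have htb0 : 0 ≤ tb := hta.trans htab
  -- stage 1
  have hS1 : UpBand ω 0 lo0 hi0 (fun v => C0 * S v) (fun v => C0 * S1 v) (fun v => C0 * S2 v) := by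
    refine ⟨continuousOn_const.mul hS.cont, fun v hv => mul_pos hC0 (hS.pos v hv),
      fun v hv => TouchAbove.smul (hS.touch v hv) hC0.le, le_rfl, ?_, ?_, ?_⟩
    · intro v hv
      have h1 := hS.conc v hv
      have h2 : C0 * S v * (C0 * S2 v) = C0 ^ 2 * (S v * S2 v) := by ring
      rw [h2, neg_zero]
      exact mul_nonpos_of_nonneg_of_nonpos (by positivity) (by linarith)
    · intro v hv
      rw [stat_smul]
      refine mul_nonpos_of_nonneg_of_nonpos hC0.le ?_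
      have h1 := hS.conc v hv
      have h2 := hS.pos v hv
      have h3 : S v ^ 2 * S2 v / 2 = S v * (S v * S2 v) / 2 := by ring
      have h4 : S v * (S v * S2 v) / 2 ≤ S v * (-κ) / 2 := by
        have := mul_le_mul_of_nonneg_left h1 h2.le
        linarith
      have h5 : C0 ^ 2 * (S v ^ 2 * S2 v / 2) ≤ C0 ^ 2 * (S v * (-κ) / 2) := by
        rw [h3]; exact mul_le_mul_of_nonneg_left h4 (by positivity)
      have h6 := hB0 v hv
      have h7 := mul_le_mul_of_nonneg_right hC3 h2.le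
      nlinarith
    · intro v hv
      rw [stat_smul]
      refine mul_nonpos_of_nonneg_of_nonpos hC0.le ?_
      have h1 := hS.conc v hv
      have h2 := hS.pos v hv
      have h3 : S v ^ 2 * S2 v / 2 = S v * (S v * S2 v) / 2 := by ring
      have h4 : S v * (S v * S2 v) / 2 ≤ S v * (-κ) / 2 := by
        have := mul_le_mul_of_nonneg_left h1 h2.le
        linarith
      have h5 : C0 ^ 2 * (S v ^ 2 * S2 v / 2) ≤ C0 ^ 2 * (S v * (-κ) / 2) := by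
        rw [h3]; exact mul_le_mul_of_nonneg_left h4 (by positivity)
      have h6 := hB1 v hv
      have h7 := mul_le_mul_of_nonneg_right hC3 h2.le
      nlinarith
  have hst1 := poor_up hB hk hS1 htb0 hYb (by
    intro z
    have h1 := hc2 z
    have h2 := hS.pos (Phi z) ⟨StepStart_483.Phi_pos z, StepStart_483.Phi_lt_one z⟩
    exact h1.trans (mul_le_mul_of_nonneg_right hC2 h2.le)) tb ⟨le_rfl, htb⟩
  refine up_band hB hk hS hta htb (ε1 := C0 - 1) (by linarith) hYa ?_ t ht x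
  intro x
  refine (hst1 x).trans (le_of_eq ?_)
  ring

/-- **REF BAND, lower.** `S` is a lower barrier for the small window with damping `m0 > 0` there; in the large
window `Lin ≥ m1 S`, `m1 > 0`. Then `(1 - (k tb / k t)^κ) S(V) ≤ √χ P` on `[ta, tb]` for some `κ > 0` depending
only on the data. -/
theorem ref_low {ω m0 m1 κ3 lo hi lo0 hi0 c1 : ℝ} {S S1 S2 : ℝ → ℝ}
    (hS : LowBand ω lo hi S S1 S2) (hT : LowTr ω m0 lo hi S S1 S2) (hm0 : 0 < m0) (hm1 : 0 < m1)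
    (hl0 : ∀ v ∈ Ioo (0:ℝ) 1, m1 * S v ≤ Lin ω lo0 v (S v) (S1 v))
    (hl1 : ∀ v ∈ Ioo (0:ℝ) 1, m1 * S v ≤ Lin ω hi0 v (S v) (S1 v))
    (hκ3 : ∀ v ∈ Ioo (0:ℝ) 1, -κ3 ≤ S v * S2 v)
    (hc1 : 0 < c1) (hc1' : ∀ z, c1 * S (Phi z) ≤ ph z) :
    ∃ κ : ℝ, 0 < κ ∧ ∀ (A : SD) (χ k : ℝ → ℝ), Back A → Clk A ω χ k →
      ∀ ta tb : ℝ, 0 ≤ ta → tb ≤ A.T →
      (∀ t ∈ Ico tb A.T, A.b t * χ t ∈ Icc lo0 hi0) →
      (∀ t ∈ Ico ta tb, A.b t * χ t ∈ Icc lo hi) →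
      ∀ t ∈ Icc ta tb, ∀ x, (1 - tr k tb 1 κ t) * sf χ t * S (A.V t x) ≤ A.P t x := by
  -- `θ² κ3/2 ≤ m1`, `θ ≤ c1`, `θ ≤ 1/2`
  obtain ⟨θ, hθ0, hθ1, hθ2, hθ3⟩ : ∃ θ : ℝ, 0 < θ ∧ θ ≤ 1 / 2 ∧ θ ≤ c1 ∧ θ ^ 2 * (|κ3| / 2) ≤ m1 := by
    refine ⟨min (min (1/2) c1) (2 * m1 / (|κ3| + 1)), by positivity,
      (min_le_left _ _).trans (min_le_left _ _), (min_le_left _ _).trans (min_le_right _ _), ?_⟩
    set θ := min (min (1/2) c1) (2 * m1 / (|κ3| + 1)) with hθ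
    have h0 : 0 < θ := by positivity
    have h1 : θ ≤ 1 / 2 := (min_le_left _ _).trans (min_le_left _ _)
    have h2 : θ ≤ 2 * m1 / (|κ3| + 1) := min_le_right _ _
    have h3 : θ * (|κ3| + 1) ≤ 2 * m1 := (le_div_iff₀ (by positivity)).1 h2
    have h4 : θ ^ 2 ≤ θ := by nlinarith
    have h5 : θ ^ 2 * |κ3| ≤ θ * |κ3| := mul_le_mul_of_nonneg_right h4 (abs_nonneg _)
    nlinarith
  refine ⟨θ * m0, by positivity, ?_⟩
  intro A χ k hB hk ta tb hta htb hYb hYa t ht x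
  have htab : ta ≤ tb := ht.1.trans ht.2
  have htb0 : 0 ≤ tb := hta.trans htab
  have htbI : tb ∈ Icc 0 A.T := ⟨htb0, htb⟩
  have htI : t ∈ Icc 0 A.T := ⟨hta.trans ht.1, ht.2.trans htb⟩
  obtain ⟨KM, hKM⟩ := hS.bdd
  obtain ⟨κ2, hκ2⟩ := hS.conv
  have hS1 : LowBand ω lo0 hi0 (fun v => θ * S v) (fun v => θ * S1 v) (fun v => θ * S2 v) := by
    have hkey : ∀ v ∈ Ioo (0:ℝ) 1, -m1 * S v ≤ θ ^ 2 * (S v ^ 2 * S2 v / 2) := by
      intro v hv
      have h1 := hκ3 v hv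
      have h2 := hS.pos v hv
      have h3 : S v ^ 2 * S2 v / 2 = S v * (S v * S2 v) / 2 := by ring
      have h4 : -|κ3| ≤ S v * S2 v := by
        have := le_abs_self κ3
        linarith
      have h5 : S v * (-|κ3|) / 2 ≤ S v * (S v * S2 v) / 2 := by
        have := mul_le_mul_of_nonneg_left h4 h2.le
        linarith
      have h6 : θ ^ 2 * (S v * (-|κ3|) / 2) ≤ θ ^ 2 * (S v * (S v * S2 v) / 2) :=
        mul_le_mul_of_nonneg_left h5 (by positivity)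
      have h7 := mul_le_mul_of_nonneg_right hθ3 h2.le
      rw [h3]
      nlinarith
    refine ⟨continuousOn_const.mul hS.cont, fun v hv => mul_pos hθ0 (hS.pos v hv),
      ⟨θ * KM, fun v hv => mul_le_mul_of_nonneg_left (hKM v hv) hθ0.le⟩,
      fun v hv => TouchBelow.smul (hS.touch v hv) hθ0.le, ⟨θ ^ 2 * κ2, ?_⟩, ?_, ?_⟩
    · intro v hv
      have h2 : θ * S v * (θ * S2 v) = θ ^ 2 * (S v * S2 v) := by ring
      rw [h2]
      exact mul_le_mul_of_nonneg_left (hκ2 v hv) (by positivity)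
    · intro v hv
      rw [stat_smul]
      refine mul_nonneg hθ0.le ?_
      have h1 := hl0 v hv
      have h2 := hkey v hv
      linarith
    · intro v hv
      rw [stat_smul]
      refine mul_nonneg hθ0.le ?_
      have h1 := hl1 v hv
      have h2 := hkey v hv
      linarith
  have hst1 := poor_low hB hk hS1 htb0 hYb (by
    intro z
    have h1 := hc1' z
    have h2 := hS.pos (Phi z) ⟨StepStart_483.Phi_pos z, StepStart_483.Phi_lt_one z⟩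
    exact (mul_le_mul_of_nonneg_right hθ2 h2.le).trans h1) tb ⟨le_rfl, htb⟩
  have hmain := low_band hB hk hS (κ := θ * m0) (m0 := m0) hta htb (ε1 := 1 - θ) (by linarith)
    (by linarith) (by positivity) (fun _ => ⟨hT, by linarith⟩) hYa (by
      intro x
      refine le_trans (le_of_eq ?_) (hst1 x)
      ring) t ht x
  refine le_trans ?_ hmain
  have hSx : 0 < S (A.V t x) := by
    obtain ⟨M, hM⟩ := hB.bsys
    exact hS.pos _ ⟨hM.V_pos t htI x, hM.V_lt t htI x⟩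
  have h1 : tr k tb (1 - θ) (θ * m0) t ≤ tr k tb 1 (θ * m0) t := by
    unfold tr
    have : 0 ≤ (k tb / k t) ^ (θ * m0) :=
      Real.rpow_nonneg (div_pos (hk.kpos _ htbI) (hk.kpos _ htI)).le _
    nlinarith
  have h2 := sf_pos hk htI
  have h3 : (1 - tr k tb 1 (θ * m0) t) * sf χ t ≤ (1 - tr k tb (1 - θ) (θ * m0) t) * sf χ t :=
    mul_le_mul_of_nonneg_right (by linarith) h2.le
  exact mul_le_mul_of_nonneg_right h3 hSx.le

end Crest.Agent.R146.Band_371
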