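import Crest.Agent.R146.CtlB_130

/-!
Row 146, S0206 node (V), part C (helper130): the natural filtration, progressive controls,
conditional one-step estimates and their chains.
-/

set_option autoImplicit false

namespace Crest.Agent.R146.CtlC_130

open MeasureTheory ProbabilityTheory Filter Topology Set
open Crest.ProbabilityR.InvariantGlass
open Crest.ProbabilityR.Perceptron (brownianFiltration)
open Crest.Agent.R164.GC (H)
open Crest.Agent.R146.CtlA_130 Crest.Agent.R146.CtlB_130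
open scoped NNReal

noncomputable section

variable {Ω : Type*} [mΩ : MeasurableSpace Ω] {P : Measure Ω}
variable {B : ℝ≥0 → Ω → ℝ} (hBm : ∀ t, Measurable (B t))

/-- the σ-algebra at the real time `t` -/
@[reducible] def F (t : ℝ) : MeasurableSpace Ω := brownianFiltration B hBm t.toNNReal

theorem F_le (t : ℝ) : F hBm t ≤ mΩ := (brownianFiltration B hBm).le _

theorem F_mono {s t : ℝ} (h : s ≤ t) : F hBm s ≤ F hBm t :=
  (brownianFiltration B hBm).mono (Real.toNNReal_le_toNNReal h)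

theorem F_adapted (s t : ℝ) (h : s ≤ t) : Measurable[F hBm t] (B s.toNNReal) := by
  have h1 : Measurable[F hBm s] (B s.toNNReal) :=
    ((Filtration.stronglyAdapted_natural (u := fun t => B t)
      fun t => (hBm t).stronglyMeasurable) s.toNNReal).measurable
  exact h1.mono (F_mono hBm h) le_rfl

theorem F_eq (t : ℝ) : F hBm t =
    MeasurableSpace.comap (fun ω (s : Set.Iic t.toNNReal) => B s ω) MeasurableSpace.pi := by
  change (⨆ j ≤ t.toNNReal, MeasurableSpace.comap (B j) inferInstance) = _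
  simp only [MeasurableSpace.pi, MeasurableSpace.comap_iSup, MeasurableSpace.comap_comp]
  rw [iSup_subtype']
  rfl

/-- the increment is independent of the past -/
theorem indep_incr (hB : IsBrownianReal B P) {s t : ℝ} (_hs : 0 ≤ s) (h : s ≤ t) {Y : Ω → ℝ}
    (hY : Measurable[F hBm s] Y) :
    IndepFun Y (fun ω => B t.toNNReal ω - B s.toNNReal ω) P := by
  have h1 := hB.toIsPreBrownianReal.indepFun_shift s.toNNReal
  have h2 : Indep (F hBm s) (MeasurableSpace.comap
      (fun ω (t : ℝ≥0) => B (s.toNNReal + t) ω - B s.toNNReal ω) MeasurableSpace.pi) P := by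
    rw [F_eq]
    exact h1.symm
  rw [IndepFun_iff_Indep]
  refine indep_of_indep_of_le_left (indep_of_indep_of_le_right h2 ?_) hY.comap_le
  have e : (fun ω => B t.toNNReal ω - B s.toNNReal ω) =
      (fun g : ℝ≥0 → ℝ => g (t.toNNReal - s.toNNReal)) ∘
        (fun ω (t : ℝ≥0) => B (s.toNNReal + t) ω - B s.toNNReal ω) := by
    funext ω
    simp only [Function.comp_apply]
    rw [add_tsub_cancel_of_le (Real.toNNReal_le_toNNReal h)]
  rw [e, ← MeasurableSpace.comap_comp]
  exact MeasurableSpace.comap_mono (measurable_pi_apply _).comap_le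

theorem law_incr (hB : IsBrownianReal B P) {s t : ℝ} (hs : 0 ≤ s) (h : s ≤ t) :
    P.map (fun ω => B t.toNNReal ω - B s.toNNReal ω) = gaussianReal 0 (t - s).toNNReal := by
  have h1 := (hB.toIsPreBrownianReal.hasLaw_sub t.toNNReal s.toNNReal).map_eq
  have e : (B t.toNNReal - B s.toNNReal) = fun ω => B t.toNNReal ω - B s.toNNReal ω := rfl
  rw [e] at h1
  rw [h1]
  have e2 : nndist ((t.toNNReal : ℝ≥0) : ℝ) ((s.toNNReal : ℝ≥0) : ℝ) = (t - s).toNNReal := by
    apply NNReal.coe_injective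
    rw [coe_nndist, Real.dist_eq, Real.coe_toNNReal t (hs.trans h), Real.coe_toNNReal s hs,
      Real.coe_toNNReal (t - s) (by linarith), abs_of_nonneg (by linarith)]
  exact congrArg (gaussianReal 0) e2

/-- integrating out one increment -/
theorem int_incr [IsProbabilityMeasure P] (hB : IsBrownianReal B P) {s t : ℝ} (hs : 0 ≤ s)
    (h : s ≤ t) {Y : Ω → ℝ} (hY : Measurable[F hBm s] Y) {φ : ℝ → ℝ} {K : ℝ} (hφ : BM φ K) :
    ∫ ω, φ (Y ω + (B t.toNNReal ω - B s.toNNReal ω)) ∂P =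
      ∫ ω, H (Real.sqrt (t - s)) φ (Y ω) ∂P := by
  have hYm : Measurable Y := hY.mono (F_le hBm s) le_rfl
  have hDm : Measurable (fun ω => B t.toNNReal ω - B s.toNNReal ω) := (hBm _).sub (hBm _)
  have hind := indep_incr hBm hB hs h hY
  have hprod := (indepFun_iff_map_prod_eq_prod_map_map hYm.aemeasurable hDm.aemeasurable).1 hind
  have hφ2 : Measurable (fun p : ℝ × ℝ => φ (p.1 + p.2)) := hφ.meas.comp (by fun_prop)
  have e1 : ∫ ω, φ (Y ω + (B t.toNNReal ω - B s.toNNReal ω)) ∂P =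
      ∫ p, φ (p.1 + p.2) ∂(P.map fun ω => (Y ω, B t.toNNReal ω - B s.toNNReal ω)) := by
    rw [integral_map (hYm.prodMk hDm).aemeasurable hφ2.aestronglyMeasurable]
  have : IsProbabilityMeasure (P.map Y) := Measure.isProbabilityMeasure_map hYm.aemeasurable
  rw [e1, hprod, law_incr hB hs h, integral_prod]
  · rw [integral_map hYm.aemeasurable]
    · refine integral_congr_ae (ae_of_all _ fun ω => ?_)
      simp only
      rw [H_eq hφ.meas (by linarith)]
    · exact (hφ2.stronglyMeasurable.integral_prod_right).aestronglyMeasurable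
  · refine Integrable.of_bound hφ2.aestronglyMeasurable K ?_
    exact ae_of_all _ fun g => by simpa [Real.norm_eq_abs] using hφ.bd _

theorem bm_int [IsFiniteMeasure P] {φ : ℝ → ℝ} {K : ℝ} (hφ : BM φ K) {Y : Ω → ℝ}
    (hY : Measurable Y) : Integrable (fun ω => φ (Y ω)) P := by
  refine Integrable.of_bound (hφ.meas.comp hY).aestronglyMeasurable K ?_
  exact ae_of_all _ fun g => by simpa [Real.norm_eq_abs] using hφ.bd _

theorem bd_int [IsFiniteMeasure P] {Y : Ω → ℝ} {K : ℝ}
    (hY : Measurable Y) (hK : ∀ ω, |Y ω| ≤ K) : Integrable Y P := by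
  refine Integrable.of_bound hY.aestronglyMeasurable K ?_
  exact ae_of_all _ fun g => by simpa [Real.norm_eq_abs] using hK _

/-- conditional one-step upper bound -/
theorem cstep_le [IsProbabilityMeasure P] (hB : IsBrownianReal B P) {s t : ℝ} (hs : 0 ≤ s)
    (h : s ≤ t) {X c : Ω → ℝ} (hX : Measurable[F hBm s] X) (hc : Measurable[F hBm s] c) {M : ℝ}
    (hcM : ∀ ω, |c ω| ≤ M) {φ : ℝ → ℝ} {K : ℝ} (hφ : BM φ K) {x : ℝ} (hx : 0 ≤ x) :
    ∫ ω, φ (X ω + x * (t - s) * c ω + (B t.toNNReal ω - B s.toNNReal ω)) ∂P -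
      x / 2 * ((t - s) * ∫ ω, c ω ^ 2 ∂P) ≤ ∫ ω, gaussOp x (t - s) φ (X ω) ∂P := by
  have hd : 0 ≤ t - s := by linarith
  have hXm : Measurable X := hX.mono (F_le hBm s) le_rfl
  have hcm : Measurable c := hc.mono (F_le hBm s) le_rfl
  have hY : Measurable[F hBm s] (fun ω => X ω + x * (t - s) * c ω) :=
    Measurable.add hX (Measurable.const_mul hc _)
  rw [int_incr hBm hB hs h hY hφ]
  have hi1 : Integrable (fun ω => H (Real.sqrt (t - s)) φ (X ω + x * (t - s) * c ω)) P :=
    bm_int ⟨H_meas hφ.meas _, H_bd hφ _⟩ (hXm.add (hcm.const_mul _))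
  have hi2 : Integrable (fun ω => x / 2 * ((t - s) * c ω ^ 2)) P := by
    have : Integrable (fun ω => c ω ^ 2) P := by
      refine bd_int (K := M ^ 2) (hcm.pow_const 2) fun ω => ?_
      rw [abs_pow]
      exact pow_le_pow_left₀ (abs_nonneg _) (hcM ω) 2
    exact (this.const_mul _).const_mul _
  have e : x / 2 * ((t - s) * ∫ ω, c ω ^ 2 ∂P) = ∫ ω, x / 2 * ((t - s) * c ω ^ 2) ∂P := by
    rw [integral_const_mul, integral_const_mul]
  rw [e, ← integral_sub hi1 hi2]
  refine integral_mono (hi1.sub hi2) (bm_int (gaussOp_BM hφ hx _) hXm) fun ω => ?_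
  have := step_le hφ hx hd (X ω) (c ω)
  simpa [H] using this

/-- conditional one-step lower bound -/
theorem cstep_ge [IsProbabilityMeasure P] (hB : IsBrownianReal B P) {s t : ℝ} (hs : 0 ≤ s)
    (h : s ≤ t) (hts : t - s ≤ 1) {X : Ω → ℝ} (hX : Measurable[F hBm s] X) {φ w1 w2 : ℝ → ℝ}
    {K L C : ℝ} (hφ : Reg φ w1 w2 K L C) {x : ℝ} (hx : 0 ≤ x) (hx1 : x ≤ 1) :
    ∫ ω, gaussOp x (t - s) φ (X ω) ∂P ≤
    ∫ ω, φ (X ω + x * (t - s) * w1 (X ω) + (B t.toNNReal ω - B s.toNNReal ω)) ∂P -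
      x / 2 * ((t - s) * ∫ ω, w1 (X ω) ^ 2 ∂P) + MC L C * (t - s) ^ 2 := by
  have hd : 0 ≤ t - s := by linarith
  have hXm : Measurable X := hX.mono (F_le hBm s) le_rfl
  have hw1 : Measurable w1 :=
    (continuous_iff_continuousAt.2 fun y => (hφ.d2 y).continuousAt).measurable
  have hcm : Measurable (fun ω => w1 (X ω)) := hw1.comp hXm
  have hY : Measurable[F hBm s] (fun ω => X ω + x * (t - s) * w1 (X ω)) :=
    Measurable.add hX (Measurable.const_mul (hw1.comp hX) _)
  rw [int_incr hBm hB hs h hY hφ.BM]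
  have hL0 : 0 ≤ L := (abs_nonneg _).trans (hφ.bL 0)
  have hC0 : 0 ≤ C := (abs_nonneg _).trans (hφ.bC 0)
  have hi1 : Integrable (fun ω => H (Real.sqrt (t - s)) φ (X ω + x * (t - s) * w1 (X ω))) P :=
    bm_int ⟨H_meas hφ.BM.meas _, H_bd hφ.BM _⟩ (hXm.add (hcm.const_mul _))
  have hi2 : Integrable (fun ω => x / 2 * ((t - s) * w1 (X ω) ^ 2)) P := by
    have : Integrable (fun ω => w1 (X ω) ^ 2) P := by
      refine bd_int (K := L ^ 2) (hcm.pow_const 2) fun ω => ?_
      rw [abs_pow]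
      exact pow_le_pow_left₀ (abs_nonneg _) (hφ.bL _) 2
    exact (this.const_mul _).const_mul _
  have e : x / 2 * ((t - s) * ∫ ω, w1 (X ω) ^ 2 ∂P) =
      ∫ ω, x / 2 * ((t - s) * w1 (X ω) ^ 2) ∂P := by
    rw [integral_const_mul, integral_const_mul]
  have e3 : ∫ ω, (H (Real.sqrt (t - s)) φ (X ω + x * (t - s) * w1 (X ω)) -
      x / 2 * ((t - s) * w1 (X ω) ^ 2) + MC L C * (t - s) ^ 2) ∂P =
      ∫ ω, H (Real.sqrt (t - s)) φ (X ω + x * (t - s) * w1 (X ω)) ∂P -
      ∫ ω, x / 2 * ((t - s) * w1 (X ω) ^ 2) ∂P + MC L C * (t - s) ^ 2 := by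
    have h1 := integral_add (hi1.sub hi2) (integrable_const (μ := P) (MC L C * (t - s) ^ 2))
    have h2 := integral_sub hi1 hi2
    simp only [Pi.sub_apply] at h1
    rw [h1, h2]
    simp
  rw [e, ← e3]
  refine integral_mono (bm_int (gaussOp_BM hφ.BM hx _) hXm) ((hi1.sub hi2).add
    (integrable_const _)) fun ω => ?_
  have := step_ge hφ.BM hφ.d1 hL0 hC0 hφ.bL hφ.lip1 hx hx1 hd hts (X ω)
  simpa [H] using this

/-! ### Progressive controls -/

open Crest.ProbabilityR.Perceptron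

/-- bounded progressive controls -/
structure Ctl (M : ℝ) (v : ℝ≥0 → Ω → ℝ) : Prop where
  prog : IsProgressive (brownianFiltration B hBm) v
  bd : ∀ r ω, |v r ω| ≤ M

variable {hBm}

theorem prog_joint {v : ℝ≥0 → Ω → ℝ} (hv : IsProgressive (brownianFiltration B hBm) v) (t : ℝ) :
    Measurable[Prod.instMeasurableSpace (m₂ := F hBm t)]
      (fun p : ℝ × Ω => v (min p.1.toNNReal t.toNNReal) p.2) := by
  have h1 := hv t.toNNReal
  have h2 : Measurable[Prod.instMeasurableSpace (m₂ := F hBm t),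
      Prod.instMeasurableSpace (m₂ := F hBm t)]
      (fun p : ℝ × Ω => ((⟨min p.1.toNNReal t.toNNReal, Set.mem_Iic.2 (min_le_right _ _)⟩ :
        Set.Iic t.toNNReal), p.2)) := by
    refine @Measurable.prodMk (ℝ × Ω) (Prod.instMeasurableSpace (m₂ := F hBm t))
      (Set.Iic t.toNNReal) Ω _ (F hBm t) _ _ ?_ ?_
    · refine Measurable.subtype_mk ?_
      refine Measurable.min ?_ measurable_const
      exact measurable_real_toNNReal.comp (@measurable_fst _ _ _ (F hBm t))
    · exact @measurable_snd _ _ _ (F hBm t)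
  exact h1.comp h2

theorem prog_joint' {v : ℝ≥0 → Ω → ℝ} (hv : IsProgressive (brownianFiltration B hBm) v) (t : ℝ) :
    Measurable (fun p : ℝ × Ω => v (min p.1.toNNReal t.toNNReal) p.2) := by
  refine (prog_joint hv t).mono ?_ le_rfl
  exact sup_le_sup le_rfl (MeasurableSpace.comap_mono (F_le hBm t))

theorem prog_section {v : ℝ≥0 → Ω → ℝ} (hv : IsProgressive (brownianFiltration B hBm) v) (t : ℝ)
    (ω : Ω) : Measurable (fun r : ℝ => v (min r.toNNReal t.toNNReal) ω) :=
  (prog_joint' hv t).comp (measurable_id.prodMk measurable_const)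

theorem min_eq_of_le {r t : ℝ} (h : r ≤ t) : min r.toNNReal t.toNNReal = r.toNNReal :=
  min_eq_left (Real.toNNReal_le_toNNReal h)

omit mΩ in
theorem int_min {g : ℝ → ℝ → ℝ} {v : ℝ≥0 → Ω → ℝ} {s t : ℝ} (h : s ≤ t) (ω : Ω) :
    ∫ r in s..t, g r (v r.toNNReal ω) =
      ∫ r in s..t, g r (v (min r.toNNReal t.toNNReal) ω) := by
  refine intervalIntegral.integral_congr_ae (ae_of_all _ fun r hr => ?_)
  rw [uIoc_of_le h] at hr
  rw [min_eq_of_le hr.2]

/-- integrals of progressive processes are adapted -/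
theorem meas_int {v : ℝ≥0 → Ω → ℝ} (hv : IsProgressive (brownianFiltration B hBm) v) {s t : ℝ}
    (h : s ≤ t) {g : ℝ → ℝ → ℝ} (hg : Measurable (fun p : ℝ × ℝ => g p.1 p.2)) :
    Measurable[F hBm t] (fun ω => ∫ r in s..t, g r (v r.toNNReal ω)) := by
  have e : (fun ω => ∫ r in s..t, g r (v r.toNNReal ω)) =
      fun ω => ∫ r in Set.Ioc s t, g r (v (min r.toNNReal t.toNNReal) ω) := by
    funext ω
    rw [int_min h, intervalIntegral.integral_of_le h]
  rw [e]
  have h1 : Measurable[Prod.instMeasurableSpace (m₂ := F hBm t)]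
      (fun p : ℝ × Ω => g p.1 (v (min p.1.toNNReal t.toNNReal) p.2)) := by
    have h3 : Measurable[Prod.instMeasurableSpace (m₂ := F hBm t)]
        (fun p : ℝ × Ω => (p.1, v (min p.1.toNNReal t.toNNReal) p.2)) :=
      Measurable.prodMk (@measurable_fst _ _ _ (F hBm t)) (prog_joint hv t)
    exact hg.comp h3
  have h2 := @StronglyMeasurable.integral_prod_left _ _ _ _ (F hBm t)
    (volume.restrict (Set.Ioc s t)) _ _ _
    (fun r ω => g r (v (min r.toNNReal t.toNNReal) ω)) h1.stronglyMeasurable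
  exact h2.measurable

theorem Ctl.intv {M : ℝ} {v : ℝ≥0 → Ω → ℝ} (hv : Ctl hBm M v) {m : ℝ → ℝ} (hm : Measurable m)
    {c : ℝ} {s t : ℝ} (hmb : ∀ r ∈ Set.Ioc s t, |m r| ≤ c) (hst : s ≤ t) (ω : Ω) :
    IntervalIntegrable (fun r => m r * v r.toNNReal ω) volume s t := by
  rw [intervalIntegrable_iff_integrableOn_Ioc_of_le hst]
  have h1 : IntegrableOn (fun r => m r * v (min r.toNNReal t.toNNReal) ω) (Set.Ioc s t) := by
    refine Measure.integrableOn_of_bounded (M := c * M) (by simp)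
      (hm.mul (prog_section hv.prog t ω)).aestronglyMeasurable ?_
    refine (ae_restrict_iff' measurableSet_Ioc).2 (ae_of_all _ fun r hr => ?_)
    rw [Real.norm_eq_abs, abs_mul]
    exact mul_le_mul (hmb r hr) (hv.bd _ _) (abs_nonneg _) ((abs_nonneg _).trans (hmb r hr))
  refine h1.congr_fun (fun r hr => ?_) measurableSet_Ioc
  simp only
  rw [min_eq_of_le hr.2]

theorem Ctl.intv2 {M : ℝ} {v : ℝ≥0 → Ω → ℝ} (hv : Ctl hBm M v) {m : ℝ → ℝ} (hm : Measurable m)
    {c : ℝ} {s t : ℝ} (hmb : ∀ r ∈ Set.Ioc s t, |m r| ≤ c) (hst : s ≤ t) (ω : Ω) :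
    IntervalIntegrable (fun r => m r * v r.toNNReal ω ^ 2) volume s t := by
  rw [intervalIntegrable_iff_integrableOn_Ioc_of_le hst]
  have h1 : IntegrableOn (fun r => m r * v (min r.toNNReal t.toNNReal) ω ^ 2) (Set.Ioc s t) := by
    refine Measure.integrableOn_of_bounded (M := c * M ^ 2) (by simp)
      (hm.mul ((prog_section hv.prog t ω).pow_const 2)).aestronglyMeasurable ?_
    refine (ae_restrict_iff' measurableSet_Ioc).2 (ae_of_all _ fun r hr => ?_)
    rw [Real.norm_eq_abs, abs_mul, abs_pow]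
    exact mul_le_mul (hmb r hr) (pow_le_pow_left₀ (abs_nonneg _) (hv.bd _ _) 2)
      (by positivity) ((abs_nonneg _).trans (hmb r hr))
  refine h1.congr_fun (fun r hr => ?_) measurableSet_Ioc
  simp only
  rw [min_eq_of_le hr.2]

end

end Crest.Agent.R146.CtlC_130
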