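import Crest.Agent.R146.DualG2_256
import Crest.Agent.R146.CtlC_130
import Crest.Agent.R146.StepDef_791

/-!
# Row 146, R3 bridge (helper256), file 1: locally Lipschitz functions of linear constant, one step

`QL g C` : `|g x - g y| ≤ C (1 + |x| + |y|) |x - y|`.
-/

set_option autoImplicit false

noncomputable section

open MeasureTheory Set Filter Topology ProbabilityTheory
open scoped InnerProductSpace RealInnerProductSpace NNReal ENNReal

namespace Crest.Agent.R146.Br_256

open Crest.ProbabilityR.Perceptron Crest.ProbabilityR.InvariantGlass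
open Crest.Agent.R146.DualQ_256 Crest.Agent.R146.DualC1_256 Crest.Agent.R146.DualV_256
  Crest.Agent.R146.DualL_256 Crest.Agent.R146.DualG_256
open Crest.Agent.R164.GC (H)

/-- locally Lipschitz with a constant of linear growth -/
structure QL (g : ℝ → ℝ) (C : ℝ) : Prop where
  nonneg : 0 ≤ C
  lip : ∀ x y, |g x - g y| ≤ C * (1 + |x| + |y|) * |x - y|

theorem QL.cont {g : ℝ → ℝ} {C : ℝ} (h : QL g C) : Continuous g := by
  rw [continuous_iff_continuousAt]
  intro x
  rw [ContinuousAt, tendsto_iff_norm_sub_tendsto_zero]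
  have h1 : Tendsto (fun y => C * (1 + |y| + |x|) * |y - x|) (𝓝 x)
      (𝓝 (C * (1 + |x| + |x|) * |x - x|)) :=
    (Continuous.tendsto (by fun_prop) _)
  rw [sub_self, abs_zero, mul_zero] at h1
  exact squeeze_zero (fun _ => norm_nonneg _) (fun y => by
    rw [Real.norm_eq_abs]; exact h.lip y x) h1

theorem QL.growth {g : ℝ → ℝ} {C : ℝ} (h : QL g C) (x : ℝ) :
    |g x| ≤ |g 0| + C + 2 * C * x ^ 2 := by
  have h1 := h.lip x 0
  rw [abs_zero, sub_zero, add_zero] at h1
  have h2 : |g x| ≤ |g 0| + |g x - g 0| := by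
    have := abs_add_le (g 0) (g x - g 0)
    rw [add_sub_cancel] at this; exact this
  have h3 : C * (1 + |x|) * |x| ≤ C * (1 + 2 * x ^ 2) := by
    rw [mul_assoc]
    refine mul_le_mul_of_nonneg_left ?_ h.nonneg
    rw [← sq_abs x]
    nlinarith [sq_nonneg (|x| - 1), abs_nonneg x]
  nlinarith

theorem QL.add {g g' : ℝ → ℝ} {C C' : ℝ} (h : QL g C) (h' : QL g' C') :
    QL (fun x => g x + g' x) (C + C') where
  nonneg := add_nonneg h.nonneg h'.nonneg
  lip := fun x y => by
    have h1 := h.lip x y
    have h2 := h'.lip x y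
    calc |g x + g' x - (g y + g' y)| = |(g x - g y) + (g' x - g' y)| := by congr 1; ring
      _ ≤ |g x - g y| + |g' x - g' y| := abs_add_le _ _
      _ ≤ _ := by nlinarith

theorem QL.const_mul {g : ℝ → ℝ} {C : ℝ} (h : QL g C) (c : ℝ) :
    QL (fun x => c * g x) (|c| * C) where
  nonneg := mul_nonneg (abs_nonneg c) h.nonneg
  lip := fun x y => by
    rw [← mul_sub, abs_mul, mul_assoc, mul_assoc]
    refine mul_le_mul_of_nonneg_left ?_ (abs_nonneg c)
    rw [← mul_assoc]; exact h.lip x y

theorem QL.of_lip {g : ℝ → ℝ} {l : ℝ} (hl : 0 ≤ l) (h : ∀ x y, |g x - g y| ≤ l * |x - y|) :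
    QL g l where
  nonneg := hl
  lip := fun x y => by
    refine (h x y).trans (mul_le_mul_of_nonneg_right ?_ (abs_nonneg _))
    have := mul_nonneg hl (add_nonneg (abs_nonneg x) (abs_nonneg y))
    nlinarith

/-- a differentiable function whose derivative is `L`-Lipschitz -/
theorem QL.of_deriv {g g1 : ℝ → ℝ} (hd : ∀ x, HasDerivAt g (g1 x) x) {L : ℝ} (hL : 0 ≤ L)
    (h1 : ∀ x y, |g1 x - g1 y| ≤ L * |x - y|) : QL g (|g1 0| + L) where
  nonneg := add_nonneg (abs_nonneg _) hL
  lip := fun x y => by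
    have hb : ∀ z, |g1 z| ≤ |g1 0| + L * |z| := fun z => by
      have h2 := h1 z 0
      rw [sub_zero] at h2
      have := abs_add_le (g1 0) (g1 z - g1 0)
      rw [add_sub_cancel] at this; linarith
    have hseg : ∀ z ∈ segment ℝ y x, ‖g1 z‖ ≤ (|g1 0| + L) * (1 + |x| + |y|) := by
      intro z hz
      obtain ⟨a, b, ha, hb', hab, rfl⟩ := hz
      rw [Real.norm_eq_abs]
      refine (hb _).trans ?_
      have h3 : |a • y + b • x| ≤ |x| + |y| := by
        simp only [smul_eq_mul]
        refine (abs_add_le _ _).trans ?_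
        rw [abs_mul, abs_mul, abs_of_nonneg ha, abs_of_nonneg hb']
        have : a ≤ 1 := by linarith
        have : b ≤ 1 := by linarith
        nlinarith [abs_nonneg x, abs_nonneg y]
      have h4 := mul_le_mul_of_nonneg_left h3 hL
      have h5 := mul_nonneg (abs_nonneg (g1 0)) (add_nonneg (abs_nonneg x) (abs_nonneg y))
      nlinarith
    have := (convex_segment y x).norm_image_sub_le_of_norm_hasDerivWithin_le
      (f := g) (f' := g1) (fun z _ => (hd z).hasDerivWithinAt) hseg
      (left_mem_segment ℝ y x) (right_mem_segment ℝ y x)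
    simpa [Real.norm_eq_abs] using this

/-- continuous of quadratic growth -/
structure QG (g : ℝ → ℝ) (A : ℝ) : Prop where
  nonneg : 0 ≤ A
  cont : Continuous g
  bd : ∀ x, |g x| ≤ A + A * x ^ 2

theorem QL.qg {g : ℝ → ℝ} {C : ℝ} (h : QL g C) : QG g (|g 0| + 2 * C) where
  nonneg := by have := h.nonneg; positivity
  cont := h.cont
  bd := fun x => by
    have h1 := h.growth x
    have h2 := h.nonneg
    have h3 := abs_nonneg (g 0)
    have h4 := mul_nonneg h3 (sq_nonneg x)
    nlinarith

theorem QG.add_bdd {g φ : ℝ → ℝ} {A K : ℝ} (h : QG g A) (hφ : Continuous φ)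
    (hK : ∀ x, |φ x| ≤ K) : QG (fun x => g x + φ x) (A + K) where
  nonneg := add_nonneg h.nonneg ((abs_nonneg _).trans (hK 0))
  cont := h.cont.add hφ
  bd := fun x => by
    have h1 := abs_add_le (g x) (φ x)
    have h2 := h.bd x
    have h3 := hK x
    have h4 := mul_nonneg ((abs_nonneg _).trans (hK 0)) (sq_nonneg x)
    nlinarith

section Gauss

theorem gauss_sq_int : Integrable (fun w : ℝ => w ^ 2) (gaussianReal 0 1) :=
  (memLp_id_gaussianReal' 2 (by simp)).integrable_sq

theorem QG.gint {g : ℝ → ℝ} {A : ℝ} (h : QG g A) (y s : ℝ) :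
    Integrable (fun w => g (y + s * w)) (gaussianReal 0 1) := by
  have h1 : Integrable (fun w : ℝ => A + A * (2 * y ^ 2 + 2 * s ^ 2 * w ^ 2))
      (gaussianReal 0 1) :=
    (integrable_const _).add
      (((integrable_const _).add (gauss_sq_int.const_mul _)).const_mul _)
  refine h1.mono' (h.cont.comp (by fun_prop)).aestronglyMeasurable
    (ae_of_all _ fun w => ?_)
  rw [Real.norm_eq_abs]
  refine (h.bd _).trans ?_
  have h2 : (y + s * w) ^ 2 ≤ 2 * y ^ 2 + 2 * s ^ 2 * w ^ 2 := by nlinarith [sq_nonneg (y - s * w)]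
  have h3 := mul_le_mul_of_nonneg_left h2 h.nonneg
  linarith

/-- exponential integrability of functions bounded above -/
theorem exp_gint {g : ℝ → ℝ} (hg : Continuous g) {K : ℝ} (hK : ∀ x, g x ≤ K) {x : ℝ}
    (hx : 0 ≤ x) (y s a b : ℝ) :
    Integrable (fun w => Real.exp (x * g (y + s * w) + (a * w + b))) (gaussianReal 0 1) := by
  have h1 : Integrable (fun z : ℝ => Real.exp (a * z)) (gaussianReal 0 1) :=
    integrable_exp_mul_gaussianReal _
  refine (h1.const_mul (Real.exp (x * K + b))).mono' ?_ (ae_of_all _ fun z => ?_)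
  · exact Continuous.aestronglyMeasurable (by fun_prop)
  · rw [Real.norm_eq_abs, abs_of_pos (Real.exp_pos _), ← Real.exp_add]
    refine Real.exp_le_exp.2 ?_
    have := mul_le_mul_of_nonneg_left (hK (y + s * z)) hx
    linarith

/-- **one step**, constants -/
theorem step_le {g : ℝ → ℝ} {A K : ℝ} (hg : QG g A) (hK : ∀ x, g x ≤ K) {x : ℝ} (hx : 0 ≤ x)
    {d : ℝ} (hd : 0 ≤ d) (y c : ℝ) :
    (∫ w, g (y + x * d * c + Real.sqrt d * w) ∂gaussianReal 0 1) - x / 2 * (d * c ^ 2) ≤
      gaussOp x d g y := by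
  rcases hx.eq_or_lt with hx0 | hx0
  · rw [← hx0, R164.GC.gaussOp_zero]
    simp [H]
  · rw [R164.GC.gaussOp_ne hx0.ne']
    unfold H
    set s := Real.sqrt d with hs
    have hsd : s ^ 2 = d := Real.sq_sqrt hd
    set c' := x * s * c with hc'
    rw [CtlA_130.gauss_shift (fun z => Real.exp (x * g (y + s * z))) c']
    have e2 : (fun z => Real.exp (x * g (y + s * (z + c'))) * Real.exp (-c' * z - c' ^ 2 / 2)) =
        fun z => Real.exp (x * g (y + x * d * c + s * z) + (-c' * z + -(c' ^ 2 / 2))) := by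
      funext z
      rw [← Real.exp_add]
      congr 1
      have : y + s * (z + c') = y + x * d * c + s * z := by rw [hc', ← hsd]; ring
      rw [this]; ring
    rw [e2]
    have hi1 := hg.gint (y + x * d * c) s
    have hid : Integrable (fun z : ℝ => -c' * z) (gaussianReal 0 1) :=
      ((memLp_id_gaussianReal' 1 (by simp)).integrable le_rfl).const_mul (-c')
    have hi2 : Integrable (fun z : ℝ => -c' * z + -(c' ^ 2 / 2)) (gaussianReal 0 1) :=
      hid.add (integrable_const _)
    have hW : Integrable (fun z => x * g (y + x * d * c + s * z) + (-c' * z + -(c' ^ 2 / 2)))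
        (gaussianReal 0 1) := (hi1.const_mul x).add hi2
    have hE := exp_gint hg.cont hK hx (y + x * d * c) s (-c') (-(c' ^ 2 / 2))
    have hJ := convexOn_exp.map_integral_le Real.continuous_exp.continuousOn isClosed_univ
        (by simp) hW hE
    have hI : ∫ z, (x * g (y + x * d * c + s * z) + (-c' * z + -(c' ^ 2 / 2))) ∂gaussianReal 0 1 =
        x * (∫ z, g (y + x * d * c + s * z) ∂gaussianReal 0 1) - c' ^ 2 / 2 := by
      rw [integral_add (hi1.const_mul x) hi2, integral_const_mul, integral_add hid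
        (integrable_const _), integral_const_mul, integral_id_gaussianReal]
      simp
      ring
    rw [hI] at hJ
    have hL := Real.log_le_log (Real.exp_pos _) hJ
    rw [Real.log_exp] at hL
    have h3 : (∫ w, g (y + x * d * c + s * w) ∂gaussianReal 0 1) - x / 2 * (d * c ^ 2) =
        x⁻¹ * (x * (∫ z, g (y + x * d * c + s * z) ∂gaussianReal 0 1) - c' ^ 2 / 2) := by
      rw [hc', ← hsd]
      field_simp
    rw [h3]
    exact mul_le_mul_of_nonneg_left hL (by positivity)

theorem gaussOp_le {g : ℝ → ℝ} (hg : Continuous g) {K : ℝ} (hK : ∀ x, g x ≤ K)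
    (hgi : ∀ y s, Integrable (fun w => g (y + s * w)) (gaussianReal 0 1)) {x : ℝ} (hx : 0 ≤ x)
    (d y : ℝ) : gaussOp x d g y ≤ K := by
  rcases hx.eq_or_lt with hx0 | hx0
  · rw [← hx0, R164.GC.gaussOp_zero]
    have := integral_mono (hgi y (Real.sqrt d)) (integrable_const K) fun w => hK _
    simpa [H] using this
  · rw [R164.GC.gaussOp_ne hx0.ne']
    unfold H
    have h1 : ∫ w, Real.exp (x * g (y + Real.sqrt d * w)) ∂gaussianReal 0 1 ≤ Real.exp (x * K) := by
      have := integral_mono (μ := gaussianReal 0 1)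
        (f := fun w => Real.exp (x * g (y + Real.sqrt d * w))) (g := fun _ => Real.exp (x * K))
        (by simpa using exp_gint hg hK hx y (Real.sqrt d) 0 0) (integrable_const _)
        fun w => Real.exp_le_exp.2 (mul_le_mul_of_nonneg_left (hK _) hx)
      simpa using this
    have h0 : 0 < ∫ w, Real.exp (x * g (y + Real.sqrt d * w)) ∂gaussianReal 0 1 := by
      have hi : Integrable (fun w => Real.exp (x * g (y + Real.sqrt d * w))) (gaussianReal 0 1) := by
        simpa using exp_gint hg hK hx y (Real.sqrt d) 0 0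
      exact integral_exp_pos hi
    have h2 := Real.log_le_log h0 h1
    rw [Real.log_exp] at h2
    calc x⁻¹ * Real.log _ ≤ x⁻¹ * (x * K) := mul_le_mul_of_nonneg_left h2 (inv_nonneg.2 hx)
      _ = K := by field_simp

end Gauss

end Crest.Agent.R146.Br_256
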