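import Crest.Agent.R146.Br2_256

/-!
# Row 146, R3 bridge (helper256), file 3: `gaussOp` on functions bounded above, restricted weights
-/

set_option autoImplicit false

noncomputable section

open MeasureTheory Set Filter Topology ProbabilityTheory
open scoped InnerProductSpace RealInnerProductSpace NNReal ENNReal

namespace Crest.Agent.R146.Br_256

open Crest.ProbabilityR.Perceptron Crest.ProbabilityR.InvariantGlass
open Crest.Agent.R146.DualQ_256 Crest.Agent.R146.DualC1_256 Crest.Agent.R146.DualV_256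
  Crest.Agent.R146.DualL_256 Crest.Agent.R146.DualG_256 Crest.Agent.R146.CtlC_130
open Crest.Agent.R146.CtlA_130 (BM)
open Crest.Agent.R164.GC (H)

/-! ### `gaussOp` -/

theorem exp_bm {g : ℝ → ℝ} (hg : Continuous g) {K : ℝ} (hK : ∀ x, g x ≤ K) {z : ℝ} (hz : 0 ≤ z) :
    BM (fun u => Real.exp (z * g u)) (Real.exp (z * K)) where
  meas := (Real.continuous_exp.comp (continuous_const.mul hg)).measurable
  bd := fun x => by
    rw [abs_of_pos (Real.exp_pos _)]
    exact Real.exp_le_exp.2 (mul_le_mul_of_nonneg_left (hK x) hz)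

theorem H_cont {φ : ℝ → ℝ} (hφ : Continuous φ) {K : ℝ} (hK : ∀ x, |φ x| ≤ K) (s : ℝ) :
    Continuous (H s φ) := by
  unfold H
  refine continuous_of_dominated (F := fun x g => φ (x + s * g)) (bound := fun _ => K)
    (fun x => (hφ.comp (by fun_prop)).aestronglyMeasurable)
    (fun x => ae_of_all _ fun g => by rw [Real.norm_eq_abs]; exact hK _) (integrable_const _)
    (ae_of_all _ fun g => hφ.comp (by fun_prop))

theorem expH_pos {g : ℝ → ℝ} (hg : Continuous g) {K : ℝ} (hK : ∀ x, g x ≤ K) {z : ℝ}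
    (hz : 0 ≤ z) (s x : ℝ) : 0 < H s (fun u => Real.exp (z * g u)) x := by
  unfold H
  have hi : Integrable (fun w => Real.exp (z * g (x + s * w))) (gaussianReal 0 1) := by
    simpa using exp_gint hg hK hz x s 0 0
  exact integral_exp_pos hi

theorem exp_gaussOp {g : ℝ → ℝ} (hg : Continuous g) {K : ℝ} (hK : ∀ x, g x ≤ K) {z : ℝ}
    (hz : 0 < z) (d x : ℝ) :
    Real.exp (z * gaussOp z d g x) = H (Real.sqrt d) (fun u => Real.exp (z * g u)) x := by
  rw [R164.GC.gaussOp_ne hz.ne']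
  rw [show z * (z⁻¹ * Real.log (H (Real.sqrt d) (fun u => Real.exp (z * g u)) x)) =
      Real.log (H (Real.sqrt d) (fun u => Real.exp (z * g u)) x) by field_simp]
  exact Real.exp_log (expH_pos hg hK hz.le _ _)

theorem gaussOp_cont {g : ℝ → ℝ} (hg : Continuous g) {K : ℝ} (hK : ∀ x, g x ≤ K) {z : ℝ}
    (hz : 0 < z) (d : ℝ) : Continuous (gaussOp z d g) := by
  have e : gaussOp z d g =
      fun x => z⁻¹ * Real.log (H (Real.sqrt d) (fun u => Real.exp (z * g u)) x) :=
    funext fun x => R164.GC.gaussOp_ne hz.ne' d g x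
  rw [e]
  refine continuous_const.mul (Continuous.log ?_ fun x => (expH_pos hg hK hz.le _ _).ne')
  exact H_cont (Real.continuous_exp.comp (continuous_const.mul hg)) (exp_bm hg hK hz.le).bd _

theorem H_sq {A y d : ℝ} (hd : 0 ≤ d) :
    ∫ w : ℝ, (A + A * (2 * y ^ 2 + 2 * (Real.sqrt d) ^ 2 * w ^ 2)) ∂gaussianReal 0 1 =
      A + A * (2 * y ^ 2 + 2 * d) := by
  have e : ∫ w : ℝ, w ^ 2 ∂gaussianReal 0 1 = 1 := by
    have h3 := variance_fun_id_gaussianReal (μ := 0) (v := 1)
    rw [variance_eq_integral (by fun_prop)] at h3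
    simpa using h3
  rw [Real.sq_sqrt hd]
  have j1 : Integrable (fun w : ℝ => 2 * d * w ^ 2) (gaussianReal 0 1) :=
    gauss_sq_int.const_mul _
  have j2 : Integrable (fun w : ℝ => 2 * y ^ 2 + 2 * d * w ^ 2) (gaussianReal 0 1) :=
    (integrable_const _).add j1
  have j3 : Integrable (fun w : ℝ => A * (2 * y ^ 2 + 2 * d * w ^ 2))
    (gaussianReal 0 1) := j2.const_mul _
  have k1 : ∫ w : ℝ, (2 * y ^ 2 + 2 * d * w ^ 2) ∂gaussianReal 0 1 = 2 * y ^ 2 + 2 * d := by
    rw [integral_add (integrable_const _) j1, integral_const_mul (2 * d), e]; simp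
  rw [integral_add (integrable_const _) j3, integral_const_mul, k1]
  simp

theorem QG.H_bd {g : ℝ → ℝ} {A : ℝ} (hg : QG g A) {d : ℝ} (hd : 0 ≤ d) (y : ℝ) :
    |H (Real.sqrt d) g y| ≤ A + A * (2 * y ^ 2 + 2 * d) := by
  rw [← H_sq hd]
  unfold H
  have h1 : Integrable (fun w : ℝ => A + A * (2 * y ^ 2 + 2 * (Real.sqrt d) ^ 2 * w ^ 2))
      (gaussianReal 0 1) :=
    (integrable_const _).add
      (((integrable_const _).add (gauss_sq_int.const_mul _)).const_mul _)
  refine abs_integral_le_integral_abs.trans (integral_mono (hg.gint y _).abs h1 fun w => ?_)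
  refine (hg.bd _).trans ?_
  have h2 : (y + Real.sqrt d * w) ^ 2 ≤ 2 * y ^ 2 + 2 * (Real.sqrt d) ^ 2 * w ^ 2 := by
    nlinarith [sq_nonneg (y - Real.sqrt d * w)]
  have h3 := mul_le_mul_of_nonneg_left h2 hg.nonneg
  linarith

theorem QG.mono {g : ℝ → ℝ} {A A' : ℝ} (hg : QG g A) (h : A ≤ A') : QG g A' where
  nonneg := hg.nonneg.trans h
  cont := hg.cont
  bd := fun x => (hg.bd x).trans (by nlinarith [sq_nonneg x])

/-- the class is stable, uniformly for variances in `[0,1]` -/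
theorem QG.gaussOp {g : ℝ → ℝ} {A K : ℝ} (hg : QG g A) (hK : ∀ x, g x ≤ K) {z : ℝ} (hz : 0 < z)
    {d : ℝ} (hd : 0 ≤ d) (hd1 : d ≤ 1) : QG (gaussOp z d g) (3 * A + |K|) where
  nonneg := by have := hg.nonneg; positivity
  cont := gaussOp_cont hg.cont hK hz d
  bd := fun x => by
    have h1 := gaussOp_le hg.cont hK hg.gint hz.le d x
    have h2 := step_le hg hK hz.le hd x 0
    simp only [mul_zero, add_zero, ne_eq, OfNat.ofNat_ne_zero, not_false_eq_true, zero_pow,
      sub_zero] at h2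
    have h3 : H (Real.sqrt d) g x ≤ Crest.ProbabilityR.InvariantGlass.gaussOp z d g x := h2
    have h4 := (abs_le.1 (hg.H_bd hd x)).1
    have hA := hg.nonneg
    have h5 : A * d ≤ A := by nlinarith
    have h6 := mul_nonneg (abs_nonneg K) (sq_nonneg x)
    have h7 := mul_nonneg hA (sq_nonneg x)
    rw [abs_le]
    constructor
    · have := abs_nonneg K; nlinarith
    · have := le_abs_self K; nlinarith

theorem gaussOp_semi {g : ℝ → ℝ} (hg : Continuous g) {K : ℝ} (hK : ∀ x, g x ≤ K) {z : ℝ}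
    (hz : 0 < z) {d1 d2 : ℝ} (h1 : 0 ≤ d1) (h2 : 0 ≤ d2) (x : ℝ) :
    gaussOp z d1 (gaussOp z d2 g) x = gaussOp z (d1 + d2) g x := by
  rw [R164.GC.gaussOp_ne hz.ne', R164.GC.gaussOp_ne hz.ne']
  congr 2
  rw [← CtlB_130.H_semi (exp_bm hg hK hz.le) h1 h2 x]
  congr 1
  funext y
  exact exp_gaussOp hg hK hz d2 y

theorem gaussOp_mono {g g' : ℝ → ℝ} (hg : Continuous g) (hg' : Continuous g') {K : ℝ}
    (hK : ∀ x, g' x ≤ K) (hgg : ∀ x, g x ≤ g' x) {z : ℝ}
    (hz : 0 < z) (d x : ℝ) : gaussOp z d g x ≤ gaussOp z d g' x := by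
  have hK' : ∀ x, g x ≤ K := fun x => (hgg x).trans (hK x)
  rw [R164.GC.gaussOp_ne hz.ne', R164.GC.gaussOp_ne hz.ne']
  refine mul_le_mul_of_nonneg_left ?_ (inv_pos.2 hz).le
  refine Real.log_le_log (expH_pos hg hK' hz.le _ _) ?_
  unfold H
  refine integral_mono ?_ ?_ fun w => Real.exp_le_exp.2 (mul_le_mul_of_nonneg_left (hgg _) hz.le)
  · simpa using exp_gint hg hK' hz.le x (Real.sqrt d) 0 0
  · simpa using exp_gint hg' hK hz.le x (Real.sqrt d) 0 0

/-! ### restricted weights -/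

/-- the weight `w` restricted to `(s,t]` -/
def wr (w : ℝ → ℝ) (s t : ℝ) : ℝ → ℝ := (Ioc s t).indicator w

theorem wr_isWeight {w : ℝ → ℝ} (hw : PF.IsWeight w) (s t : ℝ) : PF.IsWeight (wr w s t) where
  int := hw.int.indicator measurableSet_Ioc
  nonneg := fun r hr => by
    unfold wr
    by_cases h : r ∈ Ioc s t
    · rw [indicator_of_mem h]; exact hw.nonneg r hr
    · rw [indicator_of_notMem h]

section PF

variable {E : Type*} [NormedAddCommGroup E] [InnerProductSpace ℝ E] [CompleteSpace E]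
variable (F : PF E) {w : ℝ → ℝ} (hw : PF.IsWeight w)

/-- `∫_s^t w_r Pi_r dr` -/
def OO (s t : ℝ) : E →L[ℝ] E := F.op (wr_isWeight hw s t)

theorem inner_OO {s t : ℝ} (hs : 0 ≤ s) (hst : s ≤ t) (ht : t ≤ 1) (x y : E) :
    ⟪OO F hw s t x, y⟫_ℝ = ∫ r in s..t, w r * ⟪F.Pi r x, y⟫_ℝ := by
  unfold OO
  rw [F.inner_op, intervalIntegral.integral_of_le hst]
  unfold PF.bil wr
  have e : (fun r => (Ioc s t).indicator w r * ⟪F.Pi r x, y⟫_ℝ) =
      (Ioc s t).indicator (fun r => w r * ⟪F.Pi r x, y⟫_ℝ) := by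
    funext r
    by_cases h : r ∈ Ioc s t
    · rw [indicator_of_mem h, indicator_of_mem h]
    · rw [indicator_of_notMem h, indicator_of_notMem h, zero_mul]
  rw [e, setIntegral_indicator measurableSet_Ioc]
  congr 2
  rw [inter_eq_right]
  exact fun r hr => ⟨hs.trans hr.1.le, hr.2.trans ht⟩

omit [CompleteSpace E] in
include hw in
theorem ii_w {s t : ℝ} (hs : 0 ≤ s) (hst : s ≤ t) (ht : t ≤ 1) (x y : E) :
    IntervalIntegrable (fun r => w r * ⟪F.Pi r x, y⟫_ℝ) volume s t := by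
  rw [intervalIntegrable_iff_integrableOn_Ioc_of_le hst]
  exact (F.integrable_bil hw.int x y).mono_set fun r hr => ⟨hs.trans hr.1.le, hr.2.trans ht⟩

theorem OO_self {s : ℝ} (hs : 0 ≤ s) (hs1 : s ≤ 1) (x : E) : OO F hw s s x = 0 := by
  refine ext_inner_right ℝ fun y => ?_
  rw [inner_OO F hw hs le_rfl hs1, intervalIntegral.integral_same, inner_zero_left]

theorem OO_add {s t u : ℝ} (hs : 0 ≤ s) (hst : s ≤ t) (htu : t ≤ u) (hu : u ≤ 1) (x : E) :
    OO F hw s t x + OO F hw t u x = OO F hw s u x := by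
  refine ext_inner_right ℝ fun y => ?_
  rw [inner_add_left, inner_OO F hw hs hst (htu.trans hu), inner_OO F hw (hs.trans hst) htu hu,
    inner_OO F hw hs (hst.trans htu) hu]
  exact intervalIntegral.integral_add_adjacent_intervals
    (ii_w F hw hs hst (htu.trans hu) x y) (ii_w F hw (hs.trans hst) htu hu x y)

theorem Pi_OO {s t : ℝ} (hs : 0 ≤ s) (hst : s ≤ t) (ht : t ≤ 1) {t' : ℝ} (htt : t ≤ t') (x : E) :
    F.Pi t' (OO F hw s t x) = OO F hw s t x := by
  refine ext_inner_right ℝ fun y => ?_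
  rw [F.sa, inner_OO F hw hs hst ht, inner_OO F hw hs hst ht]
  refine intervalIntegral.integral_congr fun r hr => ?_
  rw [uIcc_of_le hst] at hr
  rw [← F.sa, F.comp' (hr.2.trans htt)]

theorem OO_Pi {s t : ℝ} (hs : 0 ≤ s) (hst : s ≤ t) (ht : t ≤ 1) {t' : ℝ} (htt : t ≤ t') (x : E) :
    OO F hw s t (F.Pi t' x) = OO F hw s t x := by
  refine ext_inner_right ℝ fun y => ?_
  rw [inner_OO F hw hs hst ht, inner_OO F hw hs hst ht]
  refine intervalIntegral.integral_congr fun r hr => ?_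
  rw [uIcc_of_le hst] at hr
  rw [F.comp r t' (hr.2.trans htt)]

/-- constant weight: Riemann approximation of `∫ Pi_r dr` by the left end -/
theorem norm_OO_sub_le {s t z : ℝ} (hs : 0 ≤ s) (hst : s ≤ t) (ht : t ≤ 1) (hz : 0 ≤ z)
    (hwz : ∀ r ∈ Ioo s t, w r = z) (x : E) :
    ‖OO F hw s t x - (z * (t - s)) • F.Pi s x‖ ≤ z * (t - s) * Real.sqrt (F.q x t - F.q x s) := by
  set v := OO F hw s t x - (z * (t - s)) • F.Pi s x with hv
  set κ := Real.sqrt (F.q x t - F.q x s) with hκ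
  have h1 : ‖v‖ ^ 2 ≤ z * (t - s) * κ * ‖v‖ := by
    rw [← real_inner_self_eq_norm_sq]
    have e1 : ⟪v, v⟫_ℝ = ∫ r in s..t, z * ⟪F.Pi r x - F.Pi s x, v⟫_ℝ := by
      conv_lhs => rw [hv]
      rw [inner_sub_left, inner_OO F hw hs hst ht, real_inner_smul_left]
      have e2 : ∫ r in s..t, w r * ⟪F.Pi r x, v⟫_ℝ = ∫ r in s..t, z * ⟪F.Pi r x, v⟫_ℝ := by
        rw [intervalIntegral.integral_of_le hst, intervalIntegral.integral_of_le hst,
          integral_Ioc_eq_integral_Ioo, integral_Ioc_eq_integral_Ioo]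
        exact setIntegral_congr_fun measurableSet_Ioo fun r hr => by rw [hwz r hr]
      have e3 : z * (t - s) * ⟪F.Pi s x, v⟫_ℝ = ∫ r in s..t, z * ⟪F.Pi s x, v⟫_ℝ := by
        rw [intervalIntegral.integral_const, smul_eq_mul]; ring
      have i1 : IntervalIntegrable (fun r => z * ⟪F.Pi r x, v⟫_ℝ) volume s t := by
        have := (((F.q_mono (x + v)).intervalIntegrable (μ := volume) (a := s) (b := t)).sub
          ((F.q_mono (x - v)).intervalIntegrable (μ := volume) (a := s) (b := t))).const_mul (z / 4)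
        refine this.congr fun r _ => ?_
        rw [F.inner_eq_q]; ring
      rw [e2, e3, ← intervalIntegral.integral_sub i1 intervalIntegrable_const]
      refine intervalIntegral.integral_congr fun r _ => ?_
      rw [inner_sub_left]; ring
    rw [e1]
    have h2 := intervalIntegral.norm_integral_le_of_norm_le_const (a := s) (b := t)
      (f := fun r => z * ⟪F.Pi r x - F.Pi s x, v⟫_ℝ) (C := z * (κ * ‖v‖)) (fun r hr => by
        rw [uIoc_of_le hst] at hr
        rw [Real.norm_eq_abs, abs_mul, abs_of_nonneg hz]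
        refine mul_le_mul_of_nonneg_left ?_ hz
        refine (abs_real_inner_le_norm _ _).trans (mul_le_mul_of_nonneg_right ?_ (norm_nonneg _))
        refine Real.le_sqrt_of_sq_le ?_
        rw [F.norm_sub_sq hr.1.le]
        have := F.q_mono x hr.2
        linarith)
    rw [Real.norm_eq_abs, abs_of_nonneg (by linarith : 0 ≤ t - s)] at h2
    have h3 := le_abs_self (∫ r in s..t, z * ⟪F.Pi r x - F.Pi s x, v⟫_ℝ)
    calc _ ≤ _ := h3
      _ ≤ _ := h2
      _ = _ := by ring
  by_cases h0 : ‖v‖ = 0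
  · rw [h0]; have : 0 ≤ t - s := by linarith
    positivity
  · have hp : 0 < ‖v‖ := lt_of_le_of_ne (norm_nonneg _) (Ne.symm h0)
    rw [pow_two] at h1
    exact le_of_mul_le_mul_right h1 hp

end PF

end Crest.Agent.R146.Br_256
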