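import Crest.Agent.R146.BrIf_256

/-!
# Row 146, R3 bridge (helper256), file 4: the inequality on a cell
-/

set_option autoImplicit false

noncomputable section

open MeasureTheory Set Filter Topology ProbabilityTheory
open scoped InnerProductSpace RealInnerProductSpace NNReal ENNReal

namespace Crest.Agent.R146.Br_256

open Crest.ProbabilityR.Perceptron Crest.ProbabilityR.InvariantGlass
open Crest.Agent.R146.DualQ_256 Crest.Agent.R146.DualC1_256 Crest.Agent.R146.DualV_256
  Crest.Agent.R146.DualL_256 Crest.Agent.R146.DualG_256 Crest.Agent.R146.CtlC_130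
open Crest.Agent.R146.StepDef_791 Crest.Agent.R146.Cell_534 Crest.Agent.R146.PD_534
open Crest.Agent.R164.GC (H)

variable {Ω : Type*} [mΩ : MeasurableSpace Ω] {P : Measure Ω} [IsProbabilityMeasure P]
  {B : ℝ≥0 → Ω → ℝ} (hBm : ∀ t, Measurable (B t)) (hB : IsBrownianReal B P)

theorem dZ_self (s : ℝ) : dZ hB s s = 0 := by unfold dZ; rw [sub_self]

theorem dZ_add (s t u : ℝ) : dZ hB s t + dZ hB t u = dZ hB s u := by unfold dZ; abel

theorem Zt_fix' {s t : ℝ} (hs : 0 ≤ s) (hst : s ≤ t) :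
    condPi (brownianFiltration B hBm) P t (Zt hB s.toNNReal) = Zt hB s.toNNReal := by
  have h1 := Zt_fix hBm hB s.toNNReal
  rw [Real.coe_toNNReal s hs] at h1
  have h2 := (FB P B hBm).comp' hst (Zt hB s.toNNReal)
  change condPi _ P t (condPi _ P s _) = condPi _ P s _ at h2
  rw [h1] at h2
  exact h2

theorem dZ_fix {s t u : ℝ} (hs : 0 ≤ s) (hst : s ≤ t) (htu : t ≤ u) :
    condPi (brownianFiltration B hBm) P u (dZ hB s t) = dZ hB s t := by
  unfold dZ
  rw [map_sub, Zt_fix' hBm hB (hs.trans hst) htu, Zt_fix' hBm hB hs (hst.trans htu)]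

theorem fix_mono {s t : ℝ} (hst : s ≤ t) {Y : Ω →₂[P] ℝ}
    (hY : condPi (brownianFiltration B hBm) P s Y = Y) :
    condPi (brownianFiltration B hBm) P t Y = Y := by
  have h2 := (FB P B hBm).comp' hst Y
  change condPi _ P t (condPi _ P s _) = condPi _ P s _ at h2
  rw [hY] at h2
  exact h2

theorem condPi_idem (s : ℝ) (x : Ω →₂[P] ℝ) :
    condPi (brownianFiltration B hBm) P s (condPi (brownianFiltration B hBm) P s x) =
      condPi (brownianFiltration B hBm) P s x := (FB P B hBm).idem s x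

/-- the polygon -/
def Pg (z : ℝ) (s : ℕ → ℝ) (Y lam : Ω →₂[P] ℝ) (k : ℕ) : Ω →₂[P] ℝ :=
  Y + dZ hB (s 0) (s k) + ∑ i ∈ Finset.range k, (z * (s (i + 1) - s i)) •
    condPi (brownianFiltration B hBm) P (s i) lam

theorem Pg_fix {z : ℝ} {s : ℕ → ℝ} (hs : Monotone s) (h0 : 0 ≤ s 0) {Y : Ω →₂[P] ℝ}
    (hY : condPi (brownianFiltration B hBm) P (s 0) Y = Y) (lam : Ω →₂[P] ℝ) (k : ℕ) :
    condPi (brownianFiltration B hBm) P (s k) (Pg hBm hB z s Y lam k) =
      Pg hBm hB z s Y lam k := by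
  unfold Pg
  rw [map_add, map_add, fix_mono hBm (hs (Nat.zero_le k)) hY,
    dZ_fix hBm hB h0 (hs (Nat.zero_le k)) le_rfl, map_sum]
  congr 1
  refine Finset.sum_congr rfl fun i hi => ?_
  rw [map_smul, fix_mono hBm (hs (Finset.mem_range.1 hi).le) (condPi_idem hBm _ _)]

theorem Pg_succ (z : ℝ) (s : ℕ → ℝ) (Y lam : Ω →₂[P] ℝ) (k : ℕ) :
    Pg hBm hB z s Y lam (k + 1) = Pg hBm hB z s Y lam k + (z * (s (k + 1) - s k)) •
      condPi (brownianFiltration B hBm) P (s k) lam +
        (Zt hB (s (k + 1)).toNNReal - Zt hB (s k).toNNReal) := by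
  unfold Pg
  rw [Finset.sum_range_succ, ← dZ_add hB (s 0) (s k) (s (k + 1))]
  have : dZ hB (s k) (s (k + 1)) = Zt hB (s (k + 1)).toNNReal - Zt hB (s k).toNNReal := rfl
  rw [this]
  abel

/-- the chain of one-step inequalities -/
theorem chain {z : ℝ} (hz : 0 < z) {s : ℕ → ℝ} (hs : Monotone s) (h0 : 0 ≤ s 0) {n : ℕ}
    (hn : s n ≤ 1) {g : ℝ → ℝ} {A K : ℝ} (hg : QG g A) (hK : ∀ x, g x ≤ K) {Y : Ω →₂[P] ℝ}
    (hY : condPi (brownianFiltration B hBm) P (s 0) Y = Y) (lam : Ω →₂[P] ℝ) (k : ℕ) (hk : k ≤ n) :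
    ∫ ω, gaussOp z (s n - s k) g ((Pg hBm hB z s Y lam k : Ω →₂[P] ℝ) ω) ∂P -
      1 / 2 * ∑ i ∈ Finset.range k, z * ((s (i + 1) - s i) * (FB P B hBm).q lam (s i)) ≤
      ∫ ω, gaussOp z (s n - s 0) g (Y ω) ∂P := by
  induction k with
  | zero =>
    have e : Pg hBm hB z s Y lam 0 = Y := by
      unfold Pg; rw [dZ_self]; simp
    rw [e]; simp
  | succ k ih =>
    have ih' := ih (by omega)
    have hkk : s k ≤ s (k + 1) := hs (Nat.le_succ k)
    have hkn : s (k + 1) ≤ s n := hs hk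
    have hk0 : 0 ≤ s k := h0.trans (hs (Nat.zero_le k))
    have hd0 : 0 ≤ s n - s (k + 1) := by linarith
    have hd1 : s n - s (k + 1) ≤ 1 := by linarith
    have hG := hg.gaussOp hK hz hd0 hd1
    have hGK := fun x => gaussOp_le hg.cont hK hg.gint hz.le (s n - s (k + 1)) x
    have h1 := cstep hBm hB hk0 hkk (Pg_fix hBm hB (z := z) hs h0 hY lam k)
      (condPi_idem hBm (s k) lam) hG hGK hz.le
    rw [← Pg_succ] at h1
    have e1 : ∀ y, gaussOp z (s (k + 1) - s k) (gaussOp z (s n - s (k + 1)) g) y =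
        gaussOp z (s n - s k) g y := by
      intro y
      rw [gaussOp_semi hg.cont hK hz (by linarith) hd0]
      congr 1; ring
    simp only [e1] at h1
    rw [Finset.sum_range_succ]
    have e2 : (FB P B hBm).q lam (s k) = ‖condPi (brownianFiltration B hBm) P (s k) lam‖ ^ 2 :=
      (FB P B hBm).q_eq lam (s k)
    rw [e2]
    linarith

/-! ### Riemann sums -/

section PF

variable {E : Type*} [NormedAddCommGroup E] [InnerProductSpace ℝ E] [CompleteSpace E]
variable (F : PF E) {w : ℝ → ℝ} (hw : PF.IsWeight w)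

theorem OO_sum {s : ℕ → ℝ} (hs : Monotone s) (h0 : 0 ≤ s 0) (x : E) (k : ℕ) (hk : s k ≤ 1) :
    OO F hw (s 0) (s k) x = ∑ i ∈ Finset.range k, OO F hw (s i) (s (i + 1)) x := by
  induction k with
  | zero => rw [OO_self F hw h0 hk]; simp
  | succ k ih =>
    have hkk : s k ≤ s (k + 1) := hs (Nat.le_succ k)
    rw [Finset.sum_range_succ, ← ih (hkk.trans hk), OO_add F hw h0 (hs (Nat.zero_le k)) hkk hk]

theorem riemann_le {a b z : ℝ} (ha : 0 ≤ a) (hab : a < b) (hb : b ≤ 1) (hz : 0 ≤ z)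
    (hwz : ∀ r ∈ Ioo a b, w r = z) (x : E) (n : ℕ) (hn : 0 < n) :
    ‖OO F hw a b x - ∑ i ∈ Finset.range n,
      (z * ((a + (i + 1 : ℕ) * ((b - a) / n)) - (a + (i : ℕ) * ((b - a) / n)))) •
        F.Pi (a + (i : ℕ) * ((b - a) / n)) x‖ ≤
      z * ((b - a) + (F.q x b - F.q x a)) / 2 * Real.sqrt ((b - a) / n) := by
  set δ := (b - a) / n with hδ
  have hn' : (0:ℝ) < n := by exact_mod_cast hn
  have hδ0 : 0 < δ := div_pos (by linarith) hn'
  set s : ℕ → ℝ := fun i => a + (i : ℕ) * δ with hs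
  have hsn : s n = b := by simp only [hs, hδ]; field_simp; ring
  have hs0 : s 0 = a := by simp [hs]
  have hmono : Monotone s := fun i j hij => by
    simp only [hs]
    have : (i:ℝ) ≤ j := by exact_mod_cast hij
    nlinarith
  have hinc : ∀ i, s (i + 1) - s i = δ := fun i => by simp only [hs]; push_cast; ring
  have h1 := OO_sum F hw hmono (by rw [hs0]; exact ha) x n (by rw [hsn]; exact hb)
  rw [hsn, hs0] at h1
  change ‖OO F hw a b x - ∑ i ∈ Finset.range n, (z * (s (i + 1) - s i)) • F.Pi (s i) x‖ ≤ _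
  rw [h1, ← Finset.sum_sub_distrib]
  refine (norm_sum_le _ _).trans ?_
  set κ := Real.sqrt δ with hκ
  have hκ0 : 0 < κ := Real.sqrt_pos.2 hδ0
  have hκ2 : κ ^ 2 = δ := Real.sq_sqrt hδ0.le
  have h2 : ∀ i ∈ Finset.range n,
      ‖OO F hw (s i) (s (i + 1)) x - (z * (s (i + 1) - s i)) • F.Pi (s i) x‖ ≤
        z * κ / 2 * (δ + (F.q x (s (i + 1)) - F.q x (s i))) := by
    intro i hi
    have hi' : i + 1 ≤ n := Finset.mem_range.1 hi
    have hsi : a ≤ s i := by rw [← hs0]; exact hmono (Nat.zero_le i)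
    have hsi1 : s (i + 1) ≤ b := by rw [← hsn]; exact hmono hi'
    refine (norm_OO_sub_le F hw (ha.trans hsi) (hmono (Nat.le_succ i)) (hsi1.trans hb) hz
      (fun r hr => hwz r ⟨lt_of_le_of_lt hsi hr.1, lt_of_lt_of_le hr.2 hsi1⟩) x).trans ?_
    rw [hinc]
    set u := F.q x (s (i + 1)) - F.q x (s i) with hu
    have hu0 : 0 ≤ u := sub_nonneg.2 (F.q_mono x (hmono (Nat.le_succ i)))
    have h3 : 2 * (κ * Real.sqrt u) ≤ δ + u := by
      have h4 := Real.sq_sqrt hu0
      nlinarith [sq_nonneg (κ - Real.sqrt u)]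
    have h5 : z * δ * Real.sqrt u = z * κ / 2 * (2 * (κ * Real.sqrt u)) := by
      rw [← hκ2]; ring
    rw [h5]
    exact mul_le_mul_of_nonneg_left h3 (by positivity)
  refine (Finset.sum_le_sum h2).trans (le_of_eq ?_)
  rw [← Finset.mul_sum, Finset.sum_add_distrib, Finset.sum_range_sub (fun i => F.q x (s i)),
    Finset.sum_const, Finset.card_range, hsn, hs0]
  have h6 : n • δ = b - a := by rw [nsmul_eq_mul, hδ]; field_simp
  rw [h6]; ring

omit [CompleteSpace E] in
include hw in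
theorem ii_q {s t : ℝ} (hs : 0 ≤ s) (hst : s ≤ t) (ht : t ≤ 1) (x : E) :
    IntervalIntegrable (fun r => w r * F.q x r) volume s t := ii_w F hw hs hst ht x x

omit [CompleteSpace E] in
include hw in
theorem cost_le {a b z : ℝ} (ha : 0 ≤ a) (hb : b ≤ 1) (hz : 0 ≤ z)
    (hwz : ∀ r ∈ Ioo a b, w r = z) {s : ℕ → ℝ} (hs : Monotone s) (x : E) (n : ℕ)
    (hs0 : s 0 = a) (hsn : s n = b) :
    ∑ i ∈ Finset.range n, z * ((s (i + 1) - s i) * F.q x (s i)) ≤
      ∫ r in a..b, w r * F.q x r := by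
  have h1 : ∑ i ∈ Finset.range n, ∫ r in s i..s (i + 1), w r * F.q x r =
      ∫ r in s 0..s n, w r * F.q x r := by
    refine intervalIntegral.sum_integral_adjacent_intervals fun i hi => ?_
    refine ii_q F hw ?_ (hs (Nat.le_succ i)) ?_ x
    · exact ha.trans (by rw [← hs0]; exact hs (Nat.zero_le i))
    · refine le_trans ?_ hb
      rw [← hsn]; exact hs hi
  rw [← hs0, ← hsn, ← h1]
  refine Finset.sum_le_sum fun i hi => ?_
  have hi' : i + 1 ≤ n := Finset.mem_range.1 hi
  have hsi : a ≤ s i := by rw [← hs0]; exact hs (Nat.zero_le i)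
  have hsi1 : s (i + 1) ≤ b := by rw [← hsn]; exact hs hi'
  have hii : s i ≤ s (i + 1) := hs (Nat.le_succ i)
  have h2 : z * ((s (i + 1) - s i) * F.q x (s i)) = ∫ r in s i..s (i + 1), z * F.q x (s i) := by
    rw [intervalIntegral.integral_const, smul_eq_mul]; ring
  rw [h2, intervalIntegral.integral_of_le hii, intervalIntegral.integral_of_le hii,
    integral_Ioc_eq_integral_Ioo, integral_Ioc_eq_integral_Ioo]
  have i1 := ii_q F hw (ha.trans hsi) hii (hsi1.trans hb) x
  rw [intervalIntegrable_iff_integrableOn_Ioc_of_le hii] at i1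
  refine setIntegral_mono_on ?_ (i1.mono_set Ioo_subset_Ioc_self) measurableSet_Ioo fun r hr => ?_
  · exact (continuous_const.integrableOn_Icc (a := s i) (b := s (i + 1))).mono_set Ioo_subset_Icc_self
  · rw [hwz r ⟨lt_of_le_of_lt hsi hr.1, lt_of_lt_of_le hr.2 hsi1⟩]
    exact mul_le_mul_of_nonneg_left (F.q_mono x hr.1.le) hz

end PF

/-- **CELL** -/
theorem cell : CELL hBm hB := by
  intro A lam a b z ha hab hbT hz hm Y hY g C K hg hK
  have hb1 : b ≤ 1 := hbT.trans A.hT1.le
  rcases hab.eq_or_lt with h | h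
  · subst h
    have e1 : Go hBm hB A lam a a Y = Y := by
      unfold Go; rw [dZ_self, OO_self _ _ ha hb1]; simp
    have e2 : Cq hBm A lam a a = 0 := by unfold Cq; exact intervalIntegral.integral_same
    rw [e1, e2, sub_self]
    simp only [CtlB_130.gaussOp_var0]
    simp
  · have hqg := hg.qg
    set F := FB P B hBm with hF
    have key : ∀ n : ℕ, 0 < n →
        ∫ ω, g ((Pg hBm hB z (fun i : ℕ => a + (i : ℕ) * ((b - a) / n)) Y lam n : Ω →₂[P] ℝ) ω) ∂P -
          1 / 2 * Cq hBm A lam a b ≤ ∫ ω, gaussOp z (b - a) g (Y ω) ∂P := by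
      intro n hn
      set s : ℕ → ℝ := fun i : ℕ => a + (i : ℕ) * ((b - a) / n) with hs
      have hn' : (0:ℝ) < n := by exact_mod_cast hn
      have hδ0 : 0 < (b - a) / n := div_pos (by linarith) hn'
      have hsn : s n = b := by simp only [hs]; field_simp; ring
      have hs0 : s 0 = a := by simp [hs]
      have hmono : Monotone s := fun i j hij => by
        simp only [hs]
        have : (i:ℝ) ≤ j := by exact_mod_cast hij
        nlinarith
      have h1 := chain hBm hB hz hmono (by rw [hs0]; exact ha) (n := n) (by rw [hsn]; exact hb1)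
        hqg hK (Y := Y) (by rw [hs0]; exact hY) lam n le_rfl
      rw [sub_self, hsn, hs0] at h1
      simp only [CtlB_130.gaussOp_var0] at h1
      have h2 := cost_le F (wA A) ha hb1 hz.le hm hmono lam n hs0 hsn
      have h3 : Cq hBm A lam a b = ∫ r in a..b, A.m r * F.q lam r := rfl
      rw [h3]
      linarith
    have hlim : Tendsto (fun n : ℕ =>
        Pg hBm hB z (fun i : ℕ => a + (i : ℕ) * ((b - a) / n)) Y lam n) atTop
        (𝓝 (Go hBm hB A lam a b Y)) := by
      rw [tendsto_iff_norm_sub_tendsto_zero]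
      have h4 : Tendsto (fun n : ℕ => z * ((b - a) + (F.q lam b - F.q lam a)) / 2 *
          Real.sqrt ((b - a) / n)) atTop (𝓝 0) := by
        have h5 : Tendsto (fun n : ℕ => Real.sqrt ((b - a) / n)) atTop (𝓝 0) := by
          have h6 : Tendsto (fun n : ℕ => (b - a) / (n : ℝ)) atTop (𝓝 0) :=
            tendsto_const_div_atTop_nhds_zero_nat (b - a)
          have h7 := (Real.continuous_sqrt.tendsto 0).comp h6
          rw [Real.sqrt_zero] at h7
          exact h7
        simpa using h5.const_mul (z * ((b - a) + (F.q lam b - F.q lam a)) / 2)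
      refine squeeze_zero' (Eventually.of_forall fun _ => norm_nonneg _) ?_ h4
      filter_upwards [eventually_gt_atTop 0] with n hn
      refine le_trans (le_of_eq ?_) (riemann_le F (wA A) ha h hb1 hz.le hm lam n hn)
      rw [norm_sub_rev]
      congr 1
      have hn' : (n : ℝ) ≠ 0 := by exact_mod_cast hn.ne'
      have e3 : a + ((n : ℕ) : ℝ) * ((b - a) / n) = b := by field_simp; ring
      have e4 : a + ((0 : ℕ) : ℝ) * ((b - a) / n) = a := by simp
      unfold Go Pg
      simp only [e3, e4]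
      have e5 : ∀ u v w : Ω →₂[P] ℝ, u + v - (u + w) = v - w := fun u v w => by abel
      rw [e5]
      rfl
    have h8 := (hg.tendsto hlim).sub_const (1 / 2 * Cq hBm A lam a b)
    refine le_of_tendsto h8 ?_
    filter_upwards [eventually_gt_atTop 0] with n hn
    exact key n hn

end Crest.Agent.R146.Br_256
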