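import Crest.Agent.R146.BrIf_256

/-!
Row 146, R3 bridge, edge `(UP, LB) → EQT` of helper256 (post 1362), helper151.

* basic facts on `Xp`, `Go`, `Cq`: adaptedness, composition, additivity;
* `QQ` at the optimal dual variable;
* `eqt_of : UP hBm hB → LB hB → EQT hBm hB`.
-/

set_option autoImplicit false

noncomputable section

open MeasureTheory Set Filter Topology ProbabilityTheory
open scoped InnerProductSpace RealInnerProductSpace NNReal ENNReal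

namespace Crest.Agent.R146.BrEq_151

open Crest.ProbabilityR.Perceptron Crest.ProbabilityR.InvariantGlass
open Crest.Agent.R146.DualQ_256 Crest.Agent.R146.DualC1_256 Crest.Agent.R146.DualV_256
  Crest.Agent.R146.DualL_256 Crest.Agent.R146.DualG_256 Crest.Agent.R146.CtlC_130
open Crest.Agent.R146.StepDef_791 Crest.Agent.R146.Br_256

variable {Ω : Type*} [mΩ : MeasurableSpace Ω] {P : Measure Ω} [IsProbabilityMeasure P]
  {B : ℝ≥0 → Ω → ℝ} (hBm : ∀ t, Measurable (B t)) (hB : IsBrownianReal B P)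

/-- `B_0 = 0` -/
theorem Zt_zero : Zt hB 0 = 0 := by
  refine Lp.ext ?_
  filter_upwards [Zt_coe hB 0, Lp.coeFn_zero ℝ 2 P,
    hB.toIsPreBrownianReal.eval_zero_ae_eq_zero] with ω h1 h2 h3
  rw [h1, h2, h3]
  rfl

theorem dZ_add (s t u : ℝ) : dZ hB s t + dZ hB t u = dZ hB s u := by
  unfold dZ; abel

theorem dZ_zero_one : dZ hB 0 1 = ZB hB := by
  unfold dZ
  rw [Real.toNNReal_one, Real.toNNReal_zero, Zt_zero, sub_zero, Zt_one]

/-- adaptedness -/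
theorem condPi_Xp (A : SD) (x0 : ℝ) (lam : Ω →₂[P] ℝ) {t : ℝ} (h0 : 0 ≤ t) (h1 : t ≤ 1) :
    condPi (brownianFiltration B hBm) P t (Xp hBm hB A x0 lam t) = Xp hBm hB A x0 lam t := by
  unfold Xp Go dZ
  rw [Real.toNNReal_zero, Zt_zero, sub_zero, map_add, map_add, cst_fix]
  have h2 : condPi (brownianFiltration B hBm) P t (Zt hB t.toNNReal) = Zt hB t.toNNReal := by
    have := Zt_fix hBm hB t.toNNReal
    rwa [Real.coe_toNNReal _ h0] at this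
  have h3 := Pi_OO (FB P B hBm) (wA A) le_rfl h0 h1 (le_refl t) lam
  rw [h2]
  congr 1

/-- composition -/
theorem Go_Xp (A : SD) (x0 : ℝ) (lam : Ω →₂[P] ℝ) {t u : ℝ} (h0 : 0 ≤ t) (h1 : t ≤ u)
    (h2 : u ≤ 1) : Go hBm hB A lam t u (Xp hBm hB A x0 lam t) = Xp hBm hB A x0 lam u := by
  unfold Xp Go
  rw [← OO_add (FB P B hBm) (wA A) le_rfl h0 h1 h2 lam, ← dZ_add hB 0 t u]
  abel

theorem ii_q (A : SD) (lam : Ω →₂[P] ℝ) {s t : ℝ} (hs : 0 ≤ s) (hst : s ≤ t) (ht : t ≤ 1) :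
    IntervalIntegrable (fun r => A.m r * (FB P B hBm).q lam r) volume s t :=
  ii_w (FB P B hBm) (wA A) hs hst ht lam lam

theorem Cq_add (A : SD) (lam : Ω →₂[P] ℝ) {s t u : ℝ} (hs : 0 ≤ s) (hst : s ≤ t) (htu : t ≤ u)
    (hu : u ≤ 1) : Cq hBm A lam s t + Cq hBm A lam t u = Cq hBm A lam s u :=
  intervalIntegral.integral_add_adjacent_intervals (ii_q hBm A lam hs hst (htu.trans hu))
    (ii_q hBm A lam (hs.trans hst) htu hu)

theorem Cq_bil (A : SD) (lam : Ω →₂[P] ℝ) : (FB P B hBm).bil A.m lam lam = Cq hBm A lam 0 1 := by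
  unfold Cq
  rw [PF.bil_self, intervalIntegral.integral_of_le zero_le_one, integral_Icc_eq_integral_Ioc]

/-- `X_1` -/
theorem Xp_one (A : SD) (x0 : ℝ) (lam : Ω →₂[P] ℝ) :
    Xp hBm hB A x0 lam 1 = (ZB hB - cst P (-x0)) + OO (FB P B hBm) (wA A) 0 1 lam := by
  unfold Xp Go
  rw [dZ_zero_one]
  have : cst P x0 = - cst P (-x0) := by
    refine Lp.ext ?_
    filter_upwards [cst_coe (P := P) x0, Lp.coeFn_neg (cst P (-x0)), cst_coe (P := P) (-x0)]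
      with ω h1 h2 h3
    rw [h1, h2, Pi.neg_apply, h3, neg_neg]
  rw [this]
  abel

theorem inner_X1 (A : SD) (x0 : ℝ) (lam : Ω →₂[P] ℝ) :
    ⟪Xp hBm hB A x0 lam 1, lam⟫_ℝ = ⟪ZB hB - cst P (-x0), lam⟫_ℝ + Cq hBm A lam 0 1 := by
  rw [Xp_one, inner_add_left, inner_OO (FB P B hBm) (wA A) le_rfl zero_le_one le_rfl]
  rfl

variable {hBm hB}

/-- `⟪X_1, lam⟫ = -d ‖lam‖²` -/
theorem inner_kkt {A : SD} {x0 : ℝ} {lam : Ω →₂[P] ℝ} (h : LK hBm hB A x0 lam) :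
    ⟪Xp hBm hB A x0 lam 1, lam⟫_ℝ = -(A.d * ‖lam‖ ^ 2) := by
  rw [inner_eq, norm_sq_eq, ← integral_const_mul, ← integral_neg]
  refine integral_congr_ae ?_
  filter_upwards [h.kkt] with ω hω
  have hd := A.hd.ne'
  set X := (Xp hBm hB A x0 lam 1 : Ω →₂[P] ℝ) ω
  rw [hω]
  rcases le_total (-X) 0 with h0 | h0
  · rw [max_eq_right h0]; ring
  · rw [max_eq_left h0]; field_simp

/-- `E fA(X_1) = -(d/2) ‖lam‖²` -/
theorem int_fA {A : SD} {x0 : ℝ} {lam : Ω →₂[P] ℝ} (h : LK hBm hB A x0 lam) :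
    ∫ ω, fA A.d ((Xp hBm hB A x0 lam 1 : Ω →₂[P] ℝ) ω) ∂P = -(A.d / 2 * ‖lam‖ ^ 2) := by
  rw [norm_sq_eq, ← integral_const_mul, ← integral_neg]
  refine integral_congr_ae ?_
  filter_upwards [h.kkt] with ω hω
  have hd := A.hd.ne'
  set X := (Xp hBm hB A x0 lam 1 : Ω →₂[P] ℝ) ω
  rw [hω]
  unfold fA
  field_simp

/-- `QQ` at the optimal dual variable -/
theorem QQ_eq {A : SD} {x0 : ℝ} {lam : Ω →₂[P] ℝ} (h : LK hBm hB A x0 lam) :
    QQ (brownianFiltration B hBm) A.m (1 / A.d) (-x0) (ZB hB) lam =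
      ∫ ω, fA A.d ((Xp hBm hB A x0 lam 1 : Ω →₂[P] ℝ) ω) ∂P - 1 / 2 * Cq hBm A lam 0 1 := by
  have h1 := inner_kkt h
  rw [inner_X1] at h1
  rw [QQ_def, int_fA h]
  have h2 := Cq_bil hBm A lam
  have h3 : (fam (brownianFiltration B hBm) P).bil A.m lam lam = Cq hBm A lam 0 1 := h2
  rw [h3]
  have h4 : 1 / (1 / A.d) / 2 = A.d / 2 := by
    have := A.hd.ne'
    field_simp
  rw [h4]
  linarith

theorem int_cst (f : ℝ → ℝ) (x0 : ℝ) : ∫ ω, f ((cst P x0 : Ω →₂[P] ℝ) ω) ∂P = f x0 := by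
  have : ∫ ω, f ((cst P x0 : Ω →₂[P] ℝ) ω) ∂P = ∫ _ω, f x0 ∂P := by
    refine integral_congr_ae ?_
    filter_upwards [cst_coe (P := P) x0] with ω hω
    rw [hω]
  rw [this]
  simp

/-- **edge `(UP, LB) → EQT`** -/
theorem eqt_of (hU : UP hBm hB) (hL : LB hBm hB) : EQT hBm hB := by
  intro A x0 lam h t ht
  have hT1 := A.hT1.le
  have ht1 : t ≤ 1 := ht.2.trans hT1
  obtain ⟨u1, u2⟩ := hU A lam
  have a1 := u1 0 t le_rfl ht.1 ht.2 (cst P x0) (cst_fix 0 x0)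
  have a2 := u2 t ht.1 ht.2 (Xp hBm hB A x0 lam t) (condPi_Xp hBm hB A x0 lam ht.1 ht1)
  rw [Go_Xp hBm hB A x0 lam ht.1 ht1 le_rfl] at a2
  rw [int_cst] at a1
  have a3 := hL A x0 lam h.mem
  rw [QQ_eq h, ← Cq_add hBm A lam le_rfl ht.1 ht1 le_rfl] at a3
  have e : Xp hBm hB A x0 lam t = Go hBm hB A lam 0 t (cst P x0) := rfl
  rw [← e] at a1
  constructor <;> linarith

end Crest.Agent.R146.BrEq_151
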