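import Crest.Agent.R146.Br4_256

/-!
# Row 146, R3 bridge: leaf EXL (helper952)

Existence of the optimal dual variable in the Hilbert space of the Brownian filtration.
-/

set_option autoImplicit false

noncomputable section

open MeasureTheory Set Filter Topology ProbabilityTheory
open scoped InnerProductSpace RealInnerProductSpace NNReal ENNReal

namespace Crest.Agent.R146.BrEx_952

open Crest.ProbabilityR.Perceptron Crest.ProbabilityR.InvariantGlass
open Crest.Agent.R146.DualQ_256 Crest.Agent.R146.DualC1_256 Crest.Agent.R146.DualV_256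
  Crest.Agent.R146.DualL_256 Crest.Agent.R146.DualG_256 Crest.Agent.R146.CtlC_130
open Crest.Agent.R146.StepDef_791 Crest.Agent.R146.Br_256

variable {Ω : Type*} [mΩ : MeasurableSpace Ω] {P : Measure Ω} [IsProbabilityMeasure P]
  {B : ℝ≥0 → Ω → ℝ} (hBm : ∀ t, Measurable (B t)) (hB : IsBrownianReal B P)

/-! ### the martingale property -/

/-- the increment is orthogonal to the past -/
theorem inner_dZ {s t : ℝ} (hs : 0 ≤ s) (hst : s ≤ t) {Y : Ω →₂[P] ℝ}
    (hY : condPi (brownianFiltration B hBm) P s Y = Y) : ⟪dZ hB s t, Y⟫_ℝ = 0 := by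
  obtain ⟨Y', h1, h2, h3⟩ := exists_rep hBm hY
  have e1 : ⟪dZ hB s t, Y⟫_ℝ = ∫ ω, (Y' * fun ω => B t.toNNReal ω - B s.toNNReal ω) ω ∂P := by
    rw [inner_eq]
    refine integral_congr_ae ?_
    filter_upwards [Lp.coeFn_sub (Zt hB t.toNNReal) (Zt hB s.toNNReal), Zt_coe hB t.toNNReal,
      Zt_coe hB s.toNNReal, h2] with ω a1 a2 a3 a4
    unfold dZ
    simp only [Pi.mul_apply, a1, Pi.sub_apply, a2, a3, a4]
    ring
  have hind := indep_incr hBm hB hs hst h1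
  have hD : MemLp (fun ω => B t.toNNReal ω - B s.toNNReal ω) 2 P :=
    (memLp_B hB t.toNNReal).sub (memLp_B hB s.toNNReal)
  have e2 : ∫ ω, (B t.toNNReal ω - B s.toNNReal ω) ∂P = 0 := by
    have hDm : Measurable (fun ω => B t.toNNReal ω - B s.toNNReal ω) := (hBm _).sub (hBm _)
    have h5 : ∫ ω, (B t.toNNReal ω - B s.toNNReal ω) ∂P =
        ∫ x, x ∂(P.map fun ω => B t.toNNReal ω - B s.toNNReal ω) := by
      rw [integral_map hDm.aemeasurable (by fun_prop)]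
    rw [h5, law_incr hB hs hst]
    exact integral_id_gaussianReal
  rw [e1, hind.integral_mul_eq_mul_integral h3.1 hD.1, e2, mul_zero]

theorem condPi_dZ {s t : ℝ} (hs : 0 ≤ s) (hst : s ≤ t) :
    condPi (brownianFiltration B hBm) P s (dZ hB s t) = 0 := by
  refine ext_inner_right ℝ fun y => ?_
  rw [condPi_sa, inner_dZ hBm hB hs hst (condPi_idem hBm s y), inner_zero_left]

/-- `E_t (B_1 - B_0) = B_t - B_0` -/
theorem condPi_dZ_one {t : ℝ} (ht : t ∈ Icc (0 : ℝ) 1) :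
    condPi (brownianFiltration B hBm) P t (dZ hB 0 1) = dZ hB 0 t := by
  rw [← dZ_add hB 0 t 1, map_add, condPi_dZ hBm hB ht.1 ht.2, add_zero,
    dZ_fix hBm hB le_rfl ht.1 le_rfl]

theorem Zt_zero : Zt hB 0 = 0 := by
  refine Lp.ext ?_
  filter_upwards [Zt_coe hB 0, Lp.coeFn_zero ℝ 2 P, hB.toIsPreBrownianReal.eval_zero_ae_eq_zero]
    with ω h1 h2 h3
  rw [h1, h2, h3]; rfl

theorem dZ_zero_one : dZ hB 0 1 = ZB hB := by
  unfold dZ
  rw [Real.toNNReal_zero, Real.toNNReal_one, Zt_zero, sub_zero, Zt_one]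

/-! ### the operator -/

theorem OO_eq_op (A : SD) (x : Ω →₂[P] ℝ) :
    OO (FB P B hBm) (wA A) 0 1 x = (FB P B hBm).op (wA A) x := by
  refine ext_inner_right ℝ fun y => ?_
  rw [inner_OO (FB P B hBm) (wA A) le_rfl zero_le_one le_rfl, (FB P B hBm).inner_op,
    intervalIntegral.integral_of_le zero_le_one, ← integral_Icc_eq_integral_Ioc]
  rfl

theorem op_mem (A : SD) (x : Ω →₂[P] ℝ) :
    (FB P B hBm).op (wA A) x ∈ HH P B hBm := by
  set F := FB P B hBm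
  set K := HH P B hBm
  have hc : IsClosed (K : Set (Ω →₂[P] ℝ)) := HB_closed
  rw [← K.orthogonal_orthogonal, Submodule.mem_orthogonal]
  intro y hy
  rw [Submodule.mem_orthogonal] at hy
  rw [real_inner_comm, PF.inner_op]
  unfold PF.bil
  have h1 : ∀ᵐ t ∂(volume.restrict (Icc (0 : ℝ) 1)), t ≠ 1 := by
    refine ae_restrict_of_ae ?_
    rw [ae_iff]; simp
  refine integral_eq_zero_of_ae ?_
  filter_upwards [h1, ae_restrict_mem measurableSet_Icc] with t ht1 ht2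
  have ht : t < 1 := lt_of_le_of_ne ht2.2 ht1
  have h2 := hy (condPi (brownianFiltration B hBm) P t x) (condPi_mem ht x)
  show A.m t * ⟪condPi (brownianFiltration B hBm) P t x, y⟫_ℝ = 0
  rw [h2, mul_zero]

/-- `D t = d + ∫_t^1 m` -/
theorem D_eq (A : SD) (t : ℝ) : A.D t = A.d + ∫ s in t..1, A.m s := by
  have h1 := StepClk_900.D_sub_eq A t 1
  rw [StepClk_900.D_of_ge A A.hT1.le] at h1
  linarith

theorem inner_Dop (A : SD) (x y : HH P B hBm) :
    ⟪y, (RB P B hBm).Dop A.D x⟫_ℝ =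
      (FB P B hBm).bil A.m (x : Ω →₂[P] ℝ) (y : Ω →₂[P] ℝ) + A.d * ⟪y, x⟫_ℝ := by
  have h := (RB P B hBm).inner_Dop_eq_integral (D := A.D) (m := A.m) (d := A.d)
    (StepClk_900.D_cont A).continuousOn (StepClk_900.m_intble A 0 1) (fun t _ => D_eq A t) x y
  rw [h, intervalIntegral.integral_of_le zero_le_one, ← integral_Icc_eq_integral_Ioc]
  congr 1
  unfold PF.bil
  refine integral_congr_ae (Eventually.of_forall fun t => ?_)
  simp only
  rw [Submodule.coe_inner, real_inner_comm]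
  rfl

theorem Dop_eq (A : SD) (x : HH P B hBm) :
    (((RB P B hBm).Dop A.D x : HH P B hBm) : Ω →₂[P] ℝ) =
      (FB P B hBm).op (wA A) (x : Ω →₂[P] ℝ) + A.d • (x : Ω →₂[P] ℝ) := by
  set z : HH P B hBm := ⟨_, op_mem hBm A (x : Ω →₂[P] ℝ)⟩ with hz
  have h1 : z + A.d • x = (RB P B hBm).Dop A.D x := by
    refine ext_inner_left ℝ fun y => ?_
    have e1 : ⟪y, A.d • x⟫_ℝ = A.d * ⟪y, x⟫_ℝ := by
      rw [Submodule.coe_inner, Submodule.coe_inner, Submodule.coe_smul, real_inner_smul_right]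
    rw [inner_Dop, inner_add_right, e1]
    congr 1
    rw [Submodule.coe_inner, real_inner_comm]
    exact PF.inner_op _ _ _ _
  rw [← h1]
  rfl

/-! ### conditional expectation of the operator -/

/-- `E_t (∫_0^1 m_r E_r x dr) = ∫_0^t m_r E_r x dr + (∫_t^1 m) E_t x` -/
theorem condPi_op (A : SD) {t : ℝ} (ht : t ∈ Icc (0 : ℝ) 1) (x : Ω →₂[P] ℝ) :
    condPi (brownianFiltration B hBm) P t ((FB P B hBm).op (wA A) x) =
      OO (FB P B hBm) (wA A) 0 t x +
        (∫ s in t..1, A.m s) • condPi (brownianFiltration B hBm) P t x := by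
  rw [← OO_eq_op, ← OO_add (FB P B hBm) (wA A) le_rfl ht.1 ht.2 le_rfl x, map_add]
  congr 1
  · exact Pi_OO (FB P B hBm) (wA A) le_rfl ht.1 ht.2 le_rfl x
  · refine ext_inner_right ℝ fun y => ?_
    rw [condPi_sa, inner_OO (FB P B hBm) (wA A) ht.1 ht.2 le_rfl, real_inner_smul_left,
      ← intervalIntegral.integral_mul_const]
    refine intervalIntegral.integral_congr fun r hr => ?_
    rw [uIcc_of_le ht.2] at hr
    congr 1
    have h1 := (FB P B hBm).sa r x (condPi (brownianFiltration B hBm) P t y)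
    have h2 : (FB P B hBm).Pi r (condPi (brownianFiltration B hBm) P t y) =
        condPi (brownianFiltration B hBm) P t y := (FB P B hBm).comp' hr.1 y
    rw [h1, h2, condPi_sa]

/-! ### the dual variable -/

/-- the optimal dual variable -/
def lA (A : SD) (x0 : ℝ) : Ω →₂[P] ℝ :=
  lam (brownianFiltration B hBm) (wA_wt A) (b := 1 / A.d) (one_div_pos.2 A.hd) (-x0) (ZB hB)

theorem lA_mem (A : SD) (x0 : ℝ) : lA hBm hB A x0 ∈ cone P :=
  lam_mem (brownianFiltration B hBm) (wA_wt A) _ _ _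

theorem lA_kkt (A : SD) (x0 : ℝ) : (lA hBm hB A x0 : Ω → ℝ) =ᵐ[P] fun ω =>
    1 / A.d * max (-x0 - (ZB hB + (FB P B hBm).op (wA A) (lA hBm hB A x0) : Ω →₂[P] ℝ) ω) 0 :=
  kkt (wA_wt A) (one_div_pos.2 A.hd) (-x0) (lam_mem (brownianFiltration B hBm) (wA_wt A) _ _ _)
    (lam_min (brownianFiltration B hBm) (wA_wt A) _ _ _)

theorem lA_HB (A : SD) (x0 : ℝ) : lA hBm hB A x0 ∈ HH P B hBm :=
  kkt_mem ((HH P B hBm).add_mem (ZB_mem hBm hB) (op_mem hBm A _)) (lA_kkt hBm hB A x0)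

theorem Xp_one (A : SD) (x0 : ℝ) (l : Ω →₂[P] ℝ) :
    Xp hBm hB A x0 l 1 = cst P x0 + ZB hB + (FB P B hBm).op (wA A) l := by
  unfold Xp Go
  rw [dZ_zero_one, OO_eq_op]

theorem lA_LK (A : SD) (x0 : ℝ) : LK hBm hB A x0 (lA hBm hB A x0) where
  mem := lA_mem hBm hB A x0
  kkt := by
    filter_upwards [lA_kkt hBm hB A x0, Lp.coeFn_add (cst P x0 + ZB hB)
      ((FB P B hBm).op (wA A) (lA hBm hB A x0)), Lp.coeFn_add (cst P x0) (ZB hB),
      Lp.coeFn_add (ZB hB) ((FB P B hBm).op (wA A) (lA hBm hB A x0)), cst_coe (P := P) x0]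
      with ω h1 h2 h3 h4 h5
    rw [Xp_one, h1, h2, h4, Pi.add_apply, Pi.add_apply, h3, Pi.add_apply, h5]
    congr 2
    ring

/-- the terminal variable `h = X_1 + d l` -/
theorem hterm (A : SD) (x0 : ℝ) (l : HH P B hBm) :
    ((xi hBm hB x0 + (RB P B hBm).Dop A.D l : HH P B hBm) : Ω →₂[P] ℝ) =
      Xp hBm hB A x0 (l : Ω →₂[P] ℝ) 1 + A.d • (l : Ω →₂[P] ℝ) := by
  rw [Xp_one, Submodule.coe_add, Dop_eq]
  show cst P x0 + ZB hB + _ = _
  abel

theorem hterm_ae (A : SD) (x0 : ℝ) (l : HH P B hBm) (hl : LK hBm hB A x0 (l : Ω →₂[P] ℝ)) :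
    (((xi hBm hB x0 + (RB P B hBm).Dop A.D l : HH P B hBm) : Ω →₂[P] ℝ) : Ω → ℝ) =ᵐ[P]
      fun ω => max ((Xp hBm hB A x0 (l : Ω →₂[P] ℝ) 1 : Ω →₂[P] ℝ) ω) 0 := by
  rw [hterm]
  filter_upwards [Lp.coeFn_add (Xp hBm hB A x0 (l : Ω →₂[P] ℝ) 1) (A.d • (l : Ω →₂[P] ℝ)),
    Lp.coeFn_smul A.d (l : Ω →₂[P] ℝ), hl.kkt] with ω h1 h2 h3
  rw [h1, Pi.add_apply, h2, Pi.smul_apply, h3, smul_eq_mul]
  have hd := A.hd
  generalize (Xp hBm hB A x0 (l : Ω →₂[P] ℝ) 1 : Ω →₂[P] ℝ) ω = X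
  have e : A.d * (1 / A.d * max (-X) 0) = max (-X) 0 := by field_simp
  rw [e]
  rcases le_total X 0 with h | h
  · rw [max_eq_left (by linarith), max_eq_right h]; ring
  · rw [max_eq_right (by linarith), max_eq_left h]; ring

theorem kktH (A : SD) (x0 : ℝ) (l : HH P B hBm) (hl : LK hBm hB A x0 (l : Ω →₂[P] ℝ)) :
    PtHlim_45.Kkt (RB P B hBm) (KB P B hBm) (xi hBm hB x0) A.D l where
  mem := hl.mem
  nonneg := fun y hy => by
    rw [Submodule.coe_inner, inner_eq]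
    refine integral_nonneg_of_ae ?_
    filter_upwards [hterm_ae hBm hB A x0 l hl, mem_cone.1 (show (y : Ω →₂[P] ℝ) ∈ cone P from hy)]
      with ω h1 h2
    rw [Pi.zero_apply, h1]
    exact mul_nonneg h2 (le_max_right _ _)
  zero := by
    rw [Submodule.coe_inner, inner_eq]
    refine integral_eq_zero_of_ae ?_
    filter_upwards [hterm_ae hBm hB A x0 l hl, hl.kkt] with ω h1 h2
    rw [Pi.zero_apply, h1, h2]
    rcases le_total ((Xp hBm hB A x0 (l : Ω →₂[P] ℝ) 1 : Ω →₂[P] ℝ) ω) 0 with h | h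
    · rw [max_eq_right h, mul_zero]
    · rw [max_eq_right (by linarith : -((Xp hBm hB A x0 (l : Ω →₂[P] ℝ) 1 : Ω →₂[P] ℝ) ω) ≤ 0)]
      simp

theorem Ph (A : SD) (x0 : ℝ) (l : HH P B hBm) {t : ℝ} (ht : t ∈ Icc (0 : ℝ) 1) :
    (((RB P B hBm).P t (xi hBm hB x0 + (RB P B hBm).Dop A.D l) : HH P B hBm) : Ω →₂[P] ℝ) =
      Xp hBm hB A x0 (l : Ω →₂[P] ℝ) t +
        A.D t • condPi (brownianFiltration B hBm) P t (l : Ω →₂[P] ℝ) := by
  rw [resB_coe, hterm, Xp_one, map_add, map_add, map_add, cst_fix, ← dZ_zero_one hB,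
    condPi_dZ_one hBm hB ht, condPi_op hBm A ht, map_smul, D_eq A t, add_smul]
  unfold Xp Go
  abel

/-- **EXL** -/
theorem exl : EXL (P := P) hBm hB := by
  intro A x0
  refine ⟨⟨lA hBm hB A x0, lA_HB hBm hB A x0⟩, lA_LK hBm hB A x0,
    kktH hBm hB A x0 _ (lA_LK hBm hB A x0), fun t ht => ?_⟩
  exact Ph hBm hB A x0 ⟨lA hBm hB A x0, lA_HB hBm hB A x0⟩ ht

end Crest.Agent.R146.BrEx_952
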