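import Crest.Agent.R146.BrIf_256
import Crest.Agent.R146.Back_847

/-!
# Row 146, R3 bridge (split 1362 of helper256), edge `(EXL, IDT, LAWT) → FIN` (helper861)

`‖P_t l‖² = E[(u/D)²](t, X_t) = Lams` and `⟪P_t h, l⟫ = E[(X_t + u) u / D] = Cs`.
-/

set_option autoImplicit false

noncomputable section

open MeasureTheory Set Filter Topology ProbabilityTheory
open scoped InnerProductSpace RealInnerProductSpace NNReal ENNReal

namespace Crest.Agent.R146.BrFin_861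

open Crest.ProbabilityR.Perceptron Crest.ProbabilityR.InvariantGlass
open Crest.Agent.R146.DualQ_256 Crest.Agent.R146.DualC1_256 Crest.Agent.R146.DualV_256
  Crest.Agent.R146.DualL_256 Crest.Agent.R146.DualG_256 Crest.Agent.R146.CtlC_130
open Crest.Agent.R146.StepDef_791 Crest.Agent.R146.Cell_534 Crest.Agent.R146.PD_534
open Crest.Agent.R146.Br_256

theorem u_cont (A : SD) {t : ℝ} (ht : t ∈ Icc 0 A.T) : Continuous (A.u t) :=
  continuous_iff_continuousAt.2 fun x => ((Back_847.back A).u_x t ht x).continuousAt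

theorem w_cont (A : SD) {t : ℝ} (ht : t ∈ Icc 0 A.T) : Continuous (A.w t) :=
  continuous_id.add (u_cont A ht)

section

variable {Ω : Type*} [mΩ : MeasurableSpace Ω] {P : Measure Ω} [IsProbabilityMeasure P]
  {B : ℝ≥0 → Ω → ℝ} (hBm : ∀ t, Measurable (B t)) (hB : IsBrownianReal B P)

include hBm in
/-- integrals of functions of `X_t` -/
theorem int_law (hL : LAWT hBm hB) {A : SD} {x0 : ℝ} {lam : Ω →₂[P] ℝ} (h : LK hBm hB A x0 lam)
    {t : ℝ} (ht : t ∈ Icc 0 A.T) {f : ℝ → ℝ} (hf : Continuous f) :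
    ∫ ω, f ((Xp hBm hB A x0 lam t : Ω →₂[P] ℝ) ω) ∂P = ex x0 (pd A x0) t f := by
  rw [← int_muA (Back_847.back A) x0 ht f, ← hL A x0 lam h t ht]
  exact (integral_map (Lp.aestronglyMeasurable _).aemeasurable hf.aestronglyMeasurable).symm

/-- **FIN** from EXL, IDT, LAWT -/
theorem fin_of (hX : EXL hBm hB) (hI : IDT hBm hB) (hL : LAWT hBm hB) : FIN hBm hB := by
  intro A x0
  obtain ⟨l, hLK, hK, hP⟩ := hX A x0
  have hT1 : A.T ≤ 1 := A.hT1.le
  refine ⟨l, hK, fun t ht => ?_, fun t ht => ?_⟩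
  · have h1 : ‖(RB P B hBm).P t l‖ ^ 2 =
        ‖condPi (brownianFiltration B hBm) P t (l : Ω →₂[P] ℝ)‖ ^ 2 := rfl
    rw [h1, norm_sq_eq]
    have h2 : ∫ ω, (condPi (brownianFiltration B hBm) P t (l : Ω →₂[P] ℝ) : Ω →₂[P] ℝ) ω ^ 2 ∂P =
        ∫ ω, A.E t ^ 2 * A.u t ((Xp hBm hB A x0 (l : Ω →₂[P] ℝ) t : Ω →₂[P] ℝ) ω) ^ 2 ∂P := by
      refine integral_congr_ae ?_
      filter_upwards [hI A x0 _ hLK t ht] with ω h
      rw [h]
      unfold SD.E
      ring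
    rw [h2, integral_const_mul, int_law hBm hB hL hLK ht (f := fun x => A.u t x ^ 2)
      ((u_cont A ht).pow 2)]
    rfl
  · have ht1 : t ∈ Icc (0:ℝ) 1 := ⟨ht.1, ht.2.trans hT1⟩
    have h0 := hP t ht1
    have h1 : ⟪(RB P B hBm).P t (xi hBm hB x0 + (RB P B hBm).Dop A.D l), l⟫_ℝ =
        ⟪(RB P B hBm).P t (xi hBm hB x0 + (RB P B hBm).Dop A.D l), (RB P B hBm).P t l⟫_ℝ := by
      rw [← (RB P B hBm).symm t ((RB P B hBm).P t (xi hBm hB x0 + (RB P B hBm).Dop A.D l)) l,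
        (RB P B hBm).mul t t le_rfl]
    rw [h1, Submodule.coe_inner, h0]
    have h2 : (((RB P B hBm).P t l : HH P B hBm) : Ω →₂[P] ℝ) =
        condPi (brownianFiltration B hBm) P t (l : Ω →₂[P] ℝ) := rfl
    rw [h2, inner_eq]
    have h3 : ∫ ω, (Xp hBm hB A x0 (l : Ω →₂[P] ℝ) t +
          A.D t • condPi (brownianFiltration B hBm) P t (l : Ω →₂[P] ℝ) : Ω →₂[P] ℝ) ω *
          (condPi (brownianFiltration B hBm) P t (l : Ω →₂[P] ℝ) : Ω →₂[P] ℝ) ω ∂P =
        ∫ ω, A.E t * (A.w t ((Xp hBm hB A x0 (l : Ω →₂[P] ℝ) t : Ω →₂[P] ℝ) ω) *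
          A.u t ((Xp hBm hB A x0 (l : Ω →₂[P] ℝ) t : Ω →₂[P] ℝ) ω)) ∂P := by
      refine integral_congr_ae ?_
      filter_upwards [hI A x0 _ hLK t ht,
        Lp.coeFn_add (Xp hBm hB A x0 (l : Ω →₂[P] ℝ) t)
          (A.D t • condPi (brownianFiltration B hBm) P t (l : Ω →₂[P] ℝ)),
        Lp.coeFn_smul (A.D t) (condPi (brownianFiltration B hBm) P t (l : Ω →₂[P] ℝ))]
        with ω h h4 h5
      rw [h4, Pi.add_apply, h5, Pi.smul_apply, h, smul_eq_mul]
      have hD := (A.D_pos t).ne'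
      unfold SD.E SD.w
      field_simp
    rw [h3, integral_const_mul, int_law hBm hB hL hLK ht (f := fun x => A.w t x * A.u t x)
      ((w_cont A ht).mul (u_cont A ht))]
    rfl

end

end Crest.Agent.R146.BrFin_861
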