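import Crest.Agent.R146.BrIf_256
import Crest.Agent.R146.Back_847

/-!
# Row 146, R3 bridge (helper109): `UP`, `EQT` imply `IDT` (`E_t lam = ψ_x(t, X_t)`)
-/

set_option autoImplicit false

noncomputable section

open MeasureTheory Set Filter Topology ProbabilityTheory
open scoped InnerProductSpace RealInnerProductSpace NNReal ENNReal

namespace Crest.Agent.R146.BrId_109

open Crest.ProbabilityR.Perceptron Crest.ProbabilityR.InvariantGlass
open Crest.Agent.R146.DualQ_256 Crest.Agent.R146.DualC1_256 Crest.Agent.R146.DualV_256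
  Crest.Agent.R146.DualL_256 Crest.Agent.R146.DualG_256 Crest.Agent.R146.Br_256
open Crest.Agent.R146.StepDef_791

/-! ### pointwise inequalities -/

/-- tangent parabola below the soft wall -/
theorem fA_ge {d : ℝ} (hd : 0 < d) (y h : ℝ) :
    fA d y + h * (1 / d * max (-y) 0) - h ^ 2 / (2 * d) ≤ fA d (y + h) := by
  unfold fA
  have h1 : (max (-(y + h)) 0) ^ 2 ≤ (max (-y) 0 - h) ^ 2 := by
    rcases le_total (-(y + h)) 0 with h2 | h2
    · rw [max_eq_right h2]; nlinarith [sq_nonneg (max (-y) 0 - h)]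
    · rw [max_eq_left h2]
      have h3 : -y ≤ max (-y) 0 := le_max_left _ _
      have h4 : -(y + h) ≤ max (-y) 0 - h := by linarith
      exact pow_le_pow_left₀ h2 h4 2
  have h2 : 0 < 1 / (2 * d) := by positivity
  have h3 := mul_le_mul_of_nonneg_left h1 h2.le
  have h4 : 1 / (2 * d) * (max (-y) 0 - h) ^ 2 =
      1 / (2 * d) * (max (-y) 0) ^ 2 - h * (1 / d * max (-y) 0) + h ^ 2 / (2 * d) := by
    field_simp
    ring
  linarith

/-- tangent line above a concave function -/
theorem tangent_le {f f1 : ℝ → ℝ} (hf : ∀ x, HasDerivAt f (f1 x) x) (hanti : Antitone f1)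
    (y h : ℝ) : f (y + h) ≤ f y + h * f1 y := by
  have hd : ∀ x, HasDerivAt (fun x => f x - f1 y * x) (f1 x - f1 y) x := fun x => by
    have := (hf x).sub ((hasDerivAt_id' x).const_mul (f1 y))
    rw [mul_one] at this
    exact this
  rcases le_total 0 h with h0 | h0
  · have hA : AntitoneOn (fun x => f x - f1 y * x) (Ici y) := by
      apply antitoneOn_of_deriv_nonpos (convex_Ici y)
      · exact fun x _ => (hd x).continuousAt.continuousWithinAt
      · exact fun x _ => (hd x).differentiableAt.differentiableWithinAt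
      · intro x hx
        rw [interior_Ici] at hx
        rw [(hd x).deriv]
        have := hanti (le_of_lt hx)
        linarith
    have := hA (mem_Ici.2 le_rfl) (mem_Ici.2 (by linarith : y ≤ y + h)) (by linarith)
    simp only at this
    linarith
  · have hA : MonotoneOn (fun x => f x - f1 y * x) (Iic y) := by
      apply monotoneOn_of_deriv_nonneg (convex_Iic y)
      · exact fun x _ => (hd x).continuousAt.continuousWithinAt
      · exact fun x _ => (hd x).differentiableAt.differentiableWithinAt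
      · intro x hx
        rw [interior_Iic] at hx
        rw [(hd x).deriv]
        have := hanti (le_of_lt hx)
        linarith
    have := hA (mem_Iic.2 (by linarith : y + h ≤ y)) (mem_Iic.2 le_rfl) (by linarith)
    simp only at this
    linarith

/-- the soft wall is `QL` -/
theorem fA_QL {d : ℝ} (hd : 0 < d) : QL (fA d) (1 / (2 * d)) where
  nonneg := by positivity
  lip := fun x y => by
    unfold fA
    have h1 : |max (-x) 0 - max (-y) 0| ≤ |x - y| := by
      have := abs_max_sub_max_le_abs (-x) (-y) 0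
      have e : |(-x) - (-y)| = |x - y| := by rw [neg_sub_neg, abs_sub_comm]
      rwa [e] at this
    have h2 : |max (-x) 0 + max (-y) 0| ≤ |x| + |y| := by
      have e1 : max (-x) 0 ≤ |x| := max_le (neg_le_abs x) (abs_nonneg x)
      have e2 : max (-y) 0 ≤ |y| := max_le (neg_le_abs y) (abs_nonneg y)
      have e3 : 0 ≤ max (-x) 0 := le_max_right _ _
      have e4 : 0 ≤ max (-y) 0 := le_max_right _ _
      rw [abs_of_nonneg (by linarith)]
      linarith
    have e : -(1 / (2 * d)) * max (-x) 0 ^ 2 - -(1 / (2 * d)) * max (-y) 0 ^ 2 =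
        -(1 / (2 * d)) * ((max (-x) 0 + max (-y) 0) * (max (-x) 0 - max (-y) 0)) := by ring
    rw [e, abs_mul, abs_mul, abs_neg, abs_of_pos (by positivity : 0 < 1 / (2 * d)), mul_assoc]
    refine mul_le_mul_of_nonneg_left ?_ (by positivity)
    exact mul_le_mul (by linarith) h1 (abs_nonneg _) (by positivity)

section

variable {Ω : Type*} [mΩ : MeasurableSpace Ω] {P : Measure Ω} [IsProbabilityMeasure P]
  {B : ℝ≥0 → Ω → ℝ} (hBm : ∀ t, Measurable (B t)) (hB : IsBrownianReal B P)

/-- time-measurable functions of a time-measurable variable -/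
theorem fix_comp {s : ℝ} {X G : Ω →₂[P] ℝ} (hX : condPi (brownianFiltration B hBm) P s X = X)
    {g : ℝ → ℝ} (hg : Continuous g) (hG : (G : Ω → ℝ) =ᵐ[P] fun ω => g (X ω)) :
    condPi (brownianFiltration B hBm) P s G = G := by
  apply condPi_of_meas
  obtain ⟨X', h1, h2, -⟩ := exists_rep hBm hX
  refine ⟨fun ω => g (X' ω), ?_, ?_⟩
  · exact (hg.measurable.comp h1).stronglyMeasurable
  · filter_upwards [hG, h2] with ω a b
    rw [a, b]

/-- fixed at an earlier time implies fixed at a later time -/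
theorem fix_mono {s t : ℝ} (hst : s ≤ t) {Y : Ω →₂[P] ℝ}
    (hY : condPi (brownianFiltration B hBm) P s Y = Y) :
    condPi (brownianFiltration B hBm) P t Y = Y := by
  have h := (FB P B hBm).comp' hst Y
  simp only [fam_Pi] at h
  rw [hY] at h
  exact h

theorem Z_fix {s t : ℝ} (hs : 0 ≤ s) (hst : s ≤ t) :
    condPi (brownianFiltration B hBm) P t (Zt hB s.toNNReal) = Zt hB s.toNNReal := by
  refine fix_mono hBm hst ?_
  have := Zt_fix hBm hB s.toNNReal
  rwa [Real.coe_toNNReal s hs] at this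

theorem X_fix (A : SD) (x0 : ℝ) (lam : Ω →₂[P] ℝ) {t : ℝ} (ht : 0 ≤ t) (ht1 : t ≤ 1) :
    condPi (brownianFiltration B hBm) P t (Xp hBm hB A x0 lam t) = Xp hBm hB A x0 lam t := by
  unfold Xp Go dZ
  rw [map_add, map_add, map_sub, cst_fix, Z_fix hBm hB ht le_rfl, Z_fix hBm hB le_rfl ht]
  congr 1
  exact Pi_OO (FB P B hBm) (wA A) le_rfl ht ht1 le_rfl lam

theorem Go_comp (A : SD) (x0 : ℝ) (lam Y : Ω →₂[P] ℝ) {t : ℝ} (ht : 0 ≤ t) (ht1 : t ≤ 1) :
    Go hBm hB A lam t 1 (Xp hBm hB A x0 lam t + Y) = Xp hBm hB A x0 lam 1 + Y := by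
  unfold Xp Go dZ
  rw [← OO_add (FB P B hBm) (wA A) le_rfl ht ht1 le_rfl lam]
  abel

theorem int_fA_ge {d : ℝ} (hd : 0 < d) {X lam W : Ω →₂[P] ℝ}
    (hl : (lam : Ω → ℝ) =ᵐ[P] fun ω => 1 / d * max (-(X ω)) 0) (e : ℝ) :
    ∫ ω, fA d (X ω) ∂P + e * ⟪lam, W⟫_ℝ - e ^ 2 * (‖W‖ ^ 2 / (2 * d)) ≤
      ∫ ω, fA d ((X + e • W : Ω →₂[P] ℝ) ω) ∂P := by
  have i1 := (fA_QL hd).int X
  have i2 := (fA_QL hd).int (X + e • W)
  have i3 : Integrable (fun ω => e * (lam ω * W ω)) P := (integrable_mul lam W).const_mul e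
  have i4 : Integrable (fun ω => e ^ 2 / (2 * d) * (W ω) ^ 2) P := (integrable_sq W).const_mul _
  have i5 : Integrable (fun ω => fA d (X ω) + e * (lam ω * W ω)) P := i1.add i3
  have e1 : ∫ ω, fA d (X ω) ∂P + e * ⟪lam, W⟫_ℝ - e ^ 2 * (‖W‖ ^ 2 / (2 * d)) =
      ∫ ω, (fA d (X ω) + e * (lam ω * W ω) - e ^ 2 / (2 * d) * (W ω) ^ 2) ∂P := by
    rw [integral_sub i5 i4, integral_add i1 i3, integral_const_mul, integral_const_mul,
      inner_eq, norm_sq_eq]
    ring
  rw [e1]
  refine integral_mono_ae (i5.sub i4) i2 ?_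
  filter_upwards [hl, Lp.coeFn_add X (e • W), Lp.coeFn_smul e W] with ω a1 a2 a3
  rw [a2, Pi.add_apply, a3, Pi.smul_apply, smul_eq_mul, a1]
  have := fA_ge hd (X ω) (e * W ω)
  have e2 : (e * W ω) ^ 2 / (2 * d) = e ^ 2 / (2 * d) * (W ω) ^ 2 := by ring
  rw [e2] at this
  linarith

theorem int_psi_le {f f1 : ℝ → ℝ} (hf : ∀ x, HasDerivAt f (f1 x) x) (hanti : Antitone f1)
    {C : ℝ} (hQ : QL f C) {X G W : Ω →₂[P] ℝ} (hG : (G : Ω → ℝ) =ᵐ[P] fun ω => f1 (X ω))
    (e : ℝ) :
    ∫ ω, f ((X + e • W : Ω →₂[P] ℝ) ω) ∂P ≤ ∫ ω, f (X ω) ∂P + e * ⟪G, W⟫_ℝ := by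
  have i1 := hQ.int X
  have i2 := hQ.int (X + e • W)
  have i3 : Integrable (fun ω => e * (G ω * W ω)) P := (integrable_mul G W).const_mul e
  have e1 : ∫ ω, f (X ω) ∂P + e * ⟪G, W⟫_ℝ = ∫ ω, (f (X ω) + e * (G ω * W ω)) ∂P := by
    rw [integral_add i1 i3, integral_const_mul, inner_eq]
  rw [e1]
  refine integral_mono_ae i2 (i1.add i3) ?_
  filter_upwards [hG, Lp.coeFn_add X (e • W), Lp.coeFn_smul e W] with ω a1 a2 a3
  rw [a2, Pi.add_apply, a3, Pi.smul_apply, smul_eq_mul, a1]
  have := tangent_le hf hanti (X ω) (e * W ω)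
  linarith

theorem eq_zero_of_quad {a K : ℝ} (hK : 0 ≤ K) (h : ∀ e : ℝ, e * a ≤ e ^ 2 * K) : a = 0 := by
  by_contra ha
  have h1 := h (a / (K + 1))
  have hK1 : 0 < K + 1 := by linarith
  have ha2 : 0 < a ^ 2 := by positivity
  have h2 : a ^ 2 * (K + 1) ≤ a ^ 2 * K := by
    have e1 : a / (K + 1) * a = a ^ 2 * (K + 1) / (K + 1) ^ 2 := by field_simp
    have e2 : (a / (K + 1)) ^ 2 * K = a ^ 2 * K / (K + 1) ^ 2 := by field_simp
    rw [e1, e2, div_le_div_iff_of_pos_right (by positivity)] at h1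
    exact h1
  nlinarith

/-- Lipschitz functions of an `L2` variable are in `L2` -/
theorem memLp_lip {g : ℝ → ℝ} {K : ℝ} (hgc : Continuous g)
    (hlip : ∀ x y, |g x - g y| ≤ K * |x - y|) (X : Ω →₂[P] ℝ) :
    MemLp (fun ω => g (X ω)) 2 P := by
  have h1 : MemLp (fun ω => |g 0| + K * |X ω|) 2 P :=
    (memLp_const |g 0|).add ((Lp.memLp X).abs.const_mul K)
  refine h1.mono (hgc.comp_aestronglyMeasurable (Lp.memLp X).1) (ae_of_all _ fun ω => ?_)
  rw [Real.norm_eq_abs, Real.norm_eq_abs]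
  have h2 := hlip (X ω) 0
  rw [sub_zero] at h2
  have h3 := abs_add_le (g 0) (g (X ω) - g 0)
  rw [add_sub_cancel] at h3
  exact (h3.trans (by linarith)).trans (le_abs_self _)

/-- **IDT** from `UP` and `EQT` -/
theorem idt_of (hU : UP hBm hB) (hE : EQT hBm hB) : IDT hBm hB := by
  intro A x0 lam hL t ht
  have hT1 : t ≤ 1 := ht.2.trans A.hT1.le
  have hbk := Back_847.back A
  obtain ⟨M, hM⟩ := hbk.bsys
  have hD := A.D_pos t
  have hd := A.hd
  -- derivatives of psi
  set g : ℝ → ℝ := fun x => A.u t x / A.D t with hg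
  have hpsi : ∀ x, HasDerivAt (A.psi t) (g x) x := fun x => by
    have h1 := (hbk.sm t ht).hd x
    have h2 : deriv (A.psi t) x = g x := by
      simp only [hg, SD.u]
      field_simp
    rwa [h2] at h1
  have hgd : ∀ x, HasDerivAt g ((A.V t x - 1) / A.D t) x := fun x => (hbk.u_x t ht x).div_const _
  have hanti : Antitone g := by
    refine antitone_of_hasDerivAt_nonpos (f' := fun x => (A.V t x - 1) / A.D t) hgd (fun x => ?_)
    have := hM.V_lt t ht x
    simp only [Pi.zero_apply]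
    exact div_nonpos_of_nonpos_of_nonneg (by linarith) hD.le
  have hlip : ∀ x y, |g x - g y| ≤ 1 / A.D t * |x - y| := fun x y => by
    have := convex_univ.norm_image_sub_le_of_norm_hasDerivWithin_le (s := univ)
      (f := g) (f' := fun x => (A.V t x - 1) / A.D t) (C := 1 / A.D t)
      (fun x _ => (hgd x).hasDerivWithinAt) (fun x _ => by
        have h1 := hM.V_lt t ht x
        have h2 := hM.V_pos t ht x
        rw [Real.norm_eq_abs, abs_div, abs_of_pos hD]
        refine div_le_div_of_nonneg_right ?_ hD.le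
        rw [abs_le]; constructor <;> linarith) (mem_univ y) (mem_univ x)
    simpa [Real.norm_eq_abs] using this
  have hgc : Continuous g := continuous_iff_continuousAt.2 fun x => (hgd x).continuousAt
  have hQ := QL.of_deriv hpsi (by positivity : 0 ≤ 1 / A.D t) hlip
  -- the variable `G`
  set X := Xp hBm hB A x0 lam t with hX
  have hmem : MemLp (fun ω => g (X ω)) 2 P := memLp_lip hgc hlip X
  set G : Ω →₂[P] ℝ := hmem.toLp _ with hGdef
  have hG : (G : Ω → ℝ) =ᵐ[P] fun ω => g (X ω) := hmem.coeFn_toLp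
  have hXf : condPi (brownianFiltration B hBm) P t X = X := X_fix hBm hB A x0 lam ht.1 hT1
  have hGf : condPi (brownianFiltration B hBm) P t G = G := fix_comp hBm hXf hgc hG
  -- the key identity
  have key : ∀ W : Ω →₂[P] ℝ, condPi (brownianFiltration B hBm) P t W = W →
      ⟪lam, W⟫_ℝ = ⟪G, W⟫_ℝ := by
    intro W hW
    have h0 : ⟪lam, W⟫_ℝ - ⟪G, W⟫_ℝ = 0 := by
      refine eq_zero_of_quad (K := ‖W‖ ^ 2 / (2 * A.d)) (by positivity) (fun e => ?_)
      have h1 := (hU A lam).2 t ht.1 ht.2 (X + e • W) (by rw [map_add, map_smul, hXf, hW])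
      rw [hX, Go_comp hBm hB A x0 lam (e • W) ht.1 hT1, ← hX] at h1
      have h2 := (hE A x0 lam hL t ht).2
      rw [← hX] at h2
      have h3 := int_fA_ge hd (W := W) hL.kkt e
      have h4 := int_psi_le hpsi hanti hQ (W := W) hG e
      nlinarith
    linarith
  -- conclusion
  have hW : condPi (brownianFiltration B hBm) P t lam = G := by
    set W := condPi (brownianFiltration B hBm) P t lam - G with hWd
    have hWf : condPi (brownianFiltration B hBm) P t W = W := by
      rw [hWd, map_sub, hGf, condPi_comp _ t t le_rfl]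
    have h1 := key W hWf
    have h2 : ⟪condPi (brownianFiltration B hBm) P t lam, W⟫_ℝ = ⟪lam, W⟫_ℝ := by
      rw [condPi_sa, hWf]
    have h3 : ⟪W, W⟫_ℝ = 0 := by
      nth_rewrite 1 [hWd]
      rw [inner_sub_left, h2, h1, sub_self]
    exact sub_eq_zero.1 (inner_self_eq_zero.1 h3)
  rw [hW]
  exact hG

end

end Crest.Agent.R146.BrId_109
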