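import Crest.Agent.R146.BrLBa_952

/-!
Row 146, R3 bridge (task 154 of helper256), leaf BR-LB (helper952): weak duality for the step system
of `StepDef_791`.

* `ctl_ge`    : `ψ(0,x0) - ε ≤ pay (fbk (1/d) (-x0)) (B 1) m v` for some admissible control `v`;
* `psi_le_QQ` : `ψ(0,x0) ≤ QQ m (1/d) (-x0) Z x` for every `x ≥ 0`.
-/

set_option autoImplicit false

namespace Crest.Agent.R146.BrLB_952

open MeasureTheory ProbabilityTheory Filter Topology Set
open Crest.ProbabilityR.InvariantGlass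
open Crest.ProbabilityR.Perceptron
open Crest.Agent.R146.CtlA_130 Crest.Agent.R146.CtlB_130 Crest.Agent.R146.CtlC_130
open Crest.Agent.R146.CtlE_130 (val Prof ctl_zero int_mv2)
open Crest.Agent.R146.StepDef_791 (Valid mrc Psc startPsi SD)
open Crest.Agent.R146.BrLBa_952 Crest.Agent.R146.DualC1_256 Crest.Agent.R146.DualV_256
open Crest.Agent.R146.P34_734 (fq Test)
open scoped NNReal InnerProductSpace

noncomputable section

/-! ### the start profile -/

lemma start_eq (d δ x : ℝ) : startPsi d δ x =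
    ∫ g, fq (1 / d) 0 (x + Real.sqrt δ * g) ∂gaussianReal 0 1 := by
  unfold startPsi Hg_534.H fq
  rw [← integral_const_mul]
  congr 1
  funext g
  rw [zero_sub]
  have : -(1 / (2 * d)) = -(1 / d / 2) := by rw [div_div, mul_comm]
  rw [this]

lemma fq_nonpos {d : ℝ} (hd : 0 < d) (x : ℝ) : fq (1 / d) 0 x ≤ 0 := by
  unfold fq
  have h1 : 0 ≤ 1 / d / 2 := by positivity
  have h2 : 0 ≤ max (0 - x) 0 ^ 2 := sq_nonneg _
  nlinarith [mul_nonneg h1 h2]

lemma continuous_fq (b : ℝ) : Continuous (fq b 0) := by unfold fq; fun_prop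

lemma int_fq (b δ x : ℝ) :
    Integrable (fun g => fq b 0 (x + Real.sqrt δ * g)) (gaussianReal 0 1) := by
  have : PB_534.PG (fq b 0) := by
    refine ⟨continuous_fq b, |b / 2|, 2, abs_nonneg _, fun y => ?_⟩
    unfold fq
    rw [abs_mul, abs_neg, abs_pow]
    refine mul_le_mul_of_nonneg_left ?_ (abs_nonneg _)
    refine pow_le_pow_left₀ (abs_nonneg _) ?_ 2
    rw [zero_sub, abs_of_nonneg (le_max_right _ _)]
    refine max_le ((neg_le_abs y).trans (by linarith)) ?_
    positivity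
  exact this.eg.int _ _

lemma start_nm {d : ℝ} (hd : 0 < d) (δ : ℝ) : NM (startPsi d δ) := by
  have e : startPsi d δ = fun x => ∫ g, fq (1 / d) 0 (x + Real.sqrt δ * g) ∂gaussianReal 0 1 :=
    funext fun x => start_eq d δ x
  rw [e]
  constructor
  · have h1 : StronglyMeasurable (fun p : ℝ × ℝ => fq (1 / d) 0 (p.1 + Real.sqrt δ * p.2)) :=
      ((continuous_fq (1 / d)).comp (by fun_prop)).stronglyMeasurable
    exact (h1.integral_prod_right (ν := gaussianReal 0 1)).measurable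
  · exact fun x => integral_nonpos fun g => fq_nonpos hd _

lemma gaussOp0 (v : ℝ) (f : ℝ → ℝ) (x : ℝ) :
    gaussOp 0 v f x = ∫ g, f (x + Real.sqrt v * g) ∂gaussianReal 0 1 := by
  unfold gaussOp
  rw [if_pos rfl]

lemma start_le {d : ℝ} (δ : ℝ) {φ : ℝ → ℝ} {K : ℝ} (hφ : BM φ K)
    (hle : ∀ x, fq (1 / d) 0 x ≤ φ x) (x : ℝ) : startPsi d δ x ≤ gaussOp 0 δ φ x := by
  rw [start_eq, gaussOp0]
  exact integral_mono (int_fq _ _ _) (hφ.int _ _ _) fun g => hle _

lemma gaussOp0_nm {φ : ℝ → ℝ} {K : ℝ} (hφ : BM φ K) (h0 : ∀ x, φ x ≤ 0) (δ : ℝ) :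
    NM (gaussOp 0 δ φ) := by
  refine ⟨(gaussOp_BM hφ le_rfl δ).meas, fun x => ?_⟩
  rw [gaussOp0]
  exact integral_nonpos fun g => h0 _

lemma gaussOp0_scale (φ : ℝ → ℝ) (M δ : ℝ) :
    gaussOp 0 δ (fun y => M * φ y) = fun x => M * gaussOp 0 δ φ x := by
  funext x
  rw [gaussOp0, gaussOp0, integral_const_mul]

lemma test_reg {φ : ℝ → ℝ} (h : Test φ) {M : ℝ} (hM : 0 < M) : ∃ K L C : ℝ, 0 < L ∧
    (∀ x, |φ x| ≤ K) ∧
    Reg (fun y => M * φ y) (fun y => M * deriv φ y) (fun y => M * deriv (deriv φ) y)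
      (M * K) (M * L) (M * C) := by
  obtain ⟨K, hK⟩ := h.bd 0
  obtain ⟨L, hL⟩ := h.bd 1
  obtain ⟨C, hC⟩ := h.bd 2
  simp only [iteratedDeriv_zero, iteratedDeriv_one] at hK hL
  have hC' : ∀ x, |deriv (deriv φ) x| ≤ C := by
    intro x
    have := hC x
    rw [show (2 : ℕ) = 1 + 1 from rfl, iteratedDeriv_succ, iteratedDeriv_one] at this
    exact this
  have s2 : ContDiff ℝ 2 φ := by exact_mod_cast h.smooth 2
  have s3 : ContDiff ℝ 1 (deriv φ) :=
    ((contDiff_succ_iff_deriv (n := 1)).1 (by rw [one_add_one_eq_two]; exact s2)).2.2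
  have d1 : Differentiable ℝ φ := s2.differentiable (by norm_num)
  have d2 : Differentiable ℝ (deriv φ) := s3.differentiable (by norm_num)
  have c2 : Continuous (deriv (deriv φ)) := s3.continuous_deriv (by norm_num)
  have ab : ∀ z : ℝ, |M * z| = M * |z| := fun z => by rw [abs_mul, abs_of_pos hM]
  refine ⟨K, max L 1, C, by positivity, hK, ?_⟩
  exact {
    d1 := fun y => (d1 y).hasDerivAt.const_mul M
    d2 := fun y => (d2 y).hasDerivAt.const_mul M
    c2 := by fun_prop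
    bK := fun y => by rw [ab]; exact mul_le_mul_of_nonneg_left (hK y) hM.le
    bL := fun y => by
      rw [ab]; exact mul_le_mul_of_nonneg_left ((hL y).trans (le_max_left _ _)) hM.le
    bC := fun y => by rw [ab]; exact mul_le_mul_of_nonneg_left (hC' y) hM.le }

/-! ### controls -/

variable {Ω : Type*} [mΩ : MeasurableSpace Ω]
variable {B : ℝ≥0 → Ω → ℝ} {hBm : ∀ t, Measurable (B t)}
variable {P : Measure Ω} [IsProbabilityMeasure P]

/-- positive part of a control -/
lemma ctl_pos {L : ℝ} {v : ℝ≥0 → Ω → ℝ} (hv : Ctl hBm L v) :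
    Ctl hBm L (fun r ω => max (v r ω) 0) := by
  constructor
  · intro i
    exact (hv.prog i).max measurable_const
  · intro r ω
    have h1 := hv.bd r ω
    rw [abs_of_nonneg (le_max_right _ _)]
    exact max_le ((le_abs_self _).trans h1) ((abs_nonneg _).trans h1)

lemma ctl_div {L : ℝ} {v : ℝ≥0 → Ω → ℝ} (hv : Ctl hBm L v) {M : ℝ} (hM : 0 < M) :
    Ctl hBm (L / M) (fun r ω => v r ω / M) := by
  constructor
  · intro i
    exact (hv.prog i).div_const M
  · intro r ω
    rw [abs_div, abs_of_pos hM]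
    exact div_le_div_of_nonneg_right (hv.bd r ω) hM.le

lemma adm_of_ctl {w : ℝ → ℝ} (hw : Wt w) {M L : ℝ} (hwM : ∀ t, w t ≤ M) {v : ℝ≥0 → Ω → ℝ}
    (hv : Ctl hBm L v) : Adm (brownianFiltration B hBm) P w v := by
  refine ⟨hv.prog, ?_⟩
  have h1 : ∀ ω, ∫⁻ t in Icc (0 : ℝ) 1, ENNReal.ofReal (w t * v (Real.toNNReal t) ω ^ 2) ≤
      ENNReal.ofReal (M * L ^ 2) := by
    intro ω
    have h2 : ∫⁻ t in Icc (0 : ℝ) 1, ENNReal.ofReal (w t * v (Real.toNNReal t) ω ^ 2) ≤
        ∫⁻ _ in Icc (0 : ℝ) 1, ENNReal.ofReal (M * L ^ 2) := by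
      refine setLIntegral_mono' measurableSet_Icc fun t ht => ENNReal.ofReal_le_ofReal ?_
      have h3 : v (Real.toNNReal t) ω ^ 2 ≤ L ^ 2 := by
        rw [← sq_abs]
        exact pow_le_pow_left₀ (abs_nonneg _) (hv.bd _ _) 2
      have h4 := hw.nonneg t ht
      exact mul_le_mul (hwM t) h3 (sq_nonneg _) (h4.trans (hwM t))
    simpa using h2
  refine lt_of_le_of_lt (lintegral_mono h1) ?_
  simp

/-- the cost as an iterated integral -/
lemma cost_iter {𝓕 : Filtration ℝ≥0 mΩ} {w : ℝ → ℝ} (hw : Wt w) {v : ℝ≥0 → Ω → ℝ}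
    (hv : Adm 𝓕 P w v) :
    cost P w v = ∫ ω, (∫ t in (0 : ℝ)..1, w t * v (Real.toNNReal t) ω ^ 2) ∂P := by
  have := isFinite_wm hw
  rw [cost_eq hw hv, integral_prod_symm _ (memLp_vh hw hv).integrable_sq]
  congr 1
  funext ω
  rw [wm_integral hw, intervalIntegral.integral_of_le zero_le_one, ← integral_Icc_eq_integral_Ioc]
  refine setIntegral_congr_fun measurableSet_Icc fun t ht => ?_
  show w t * vh v (t, ω) ^ 2 = _
  rw [vh_eq ht]

/-- replacing a control by its positive part increases the value of a monotone function -/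
lemma val_pos {L : ℝ} {v : ℝ≥0 → Ω → ℝ} (hv : Ctl hBm L v) {m : ℝ → ℝ} (hm : Prof m)
    {F0 : ℝ → ℝ} {K : ℝ} (hF : BM F0 K) (hmono : Monotone F0) {X : Ω → ℝ} (hX : Measurable X) :
    val P B m F0 0 X v ≤ val P B m F0 0 X (fun r ω => max (v r ω) 0) := by
  have hv' := ctl_pos hv
  unfold val
  have e1 : ∀ ω, ∫ r in (0 : ℝ)..1, m r * v r.toNNReal ω ≤
      ∫ r in (0 : ℝ)..1, m r * max (v r.toNNReal ω) 0 := fun ω =>
    intervalIntegral.integral_mono_on zero_le_one
      (hv.intv hm.meas (hm.abs le_rfl le_rfl) zero_le_one ω)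
      (hv'.intv hm.meas (hm.abs le_rfl le_rfl) zero_le_one ω) fun r hr =>
        mul_le_mul_of_nonneg_left (le_max_left _ _) (hm.bd r hr).1
  have e2 : ∀ ω, ∫ r in (0 : ℝ)..1, m r * max (v r.toNNReal ω) 0 ^ 2 ≤
      ∫ r in (0 : ℝ)..1, m r * v r.toNNReal ω ^ 2 := fun ω =>
    intervalIntegral.integral_mono_on zero_le_one
      (hv'.intv2 hm.meas (hm.abs le_rfl le_rfl) zero_le_one ω)
      (hv.intv2 hm.meas (hm.abs le_rfl le_rfl) zero_le_one ω) fun r hr => by
        refine mul_le_mul_of_nonneg_left ?_ (hm.bd r hr).1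
        rw [← sq_abs (v r.toNNReal ω)]
        refine pow_le_pow_left₀ (le_max_right _ _) ?_ 2
        exact max_le (le_abs_self _) (abs_nonneg _)
  have mI : ∀ {u : ℝ≥0 → Ω → ℝ}, Ctl hBm L u →
      Measurable (fun ω => X ω + (B (1 : ℝ).toNNReal ω - B (0 : ℝ).toNNReal ω) +
        ∫ r in (0 : ℝ)..1, m r * u r.toNNReal ω) := by
    intro u hu
    have h1 := (CtlE_130.meas_mv hu hm zero_le_one).mono (CtlC_130.F_le hBm 1) le_rfl
    exact (hX.add ((hBm _).sub (hBm _))).add h1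
  have h1 : ∫ ω, F0 (X ω + (B (1 : ℝ).toNNReal ω - B (0 : ℝ).toNNReal ω) +
      ∫ r in (0 : ℝ)..1, m r * v r.toNNReal ω) ∂P ≤
      ∫ ω, F0 (X ω + (B (1 : ℝ).toNNReal ω - B (0 : ℝ).toNNReal ω) +
      ∫ r in (0 : ℝ)..1, m r * max (v r.toNNReal ω) 0) ∂P :=
    integral_mono (bm_int hF (mI hv)) (bm_int hF (mI hv')) fun ω =>
      hmono (by have := e1 ω; linarith)
  have h2 : ∫ ω, (∫ r in (0 : ℝ)..1, m r * max (v r.toNNReal ω) 0 ^ 2) ∂P ≤
      ∫ ω, (∫ r in (0 : ℝ)..1, m r * v r.toNNReal ω ^ 2) ∂P :=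
    integral_mono (int_mv2 hv' hm le_rfl zero_le_one le_rfl)
      (int_mv2 hv hm le_rfl zero_le_one le_rfl) e2
  linarith

/-! ### exponential moments of the Brownian motion -/

omit [IsProbabilityMeasure P] in
lemma int_exp_W (hBm : ∀ t, Measurable (B t)) (hB : IsBrownianReal B P) (x0 : ℝ) :
    Integrable (fun ω =>
      Real.exp (2 * (x0 + (B (1 : ℝ).toNNReal ω - B (0 : ℝ).toNNReal ω))) +
      Real.exp (-(2 * (x0 + (B (1 : ℝ).toNNReal ω - B (0 : ℝ).toNNReal ω))))) P := by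
  set W : Ω → ℝ := fun ω => B (1 : ℝ).toNNReal ω - B (0 : ℝ).toNNReal ω with hW
  have hWm : Measurable W := (hBm _).sub (hBm _)
  have hl : P.map W = gaussianReal 0 (1 - 0 : ℝ).toNNReal := law_incr hB le_rfl zero_le_one
  have hi : Integrable (fun y => Real.exp (2 * (x0 + y)) + Real.exp (-(2 * (x0 + y))))
      (P.map W) := by
    rw [hl]
    have e : (fun y => Real.exp (2 * (x0 + y)) + Real.exp (-(2 * (x0 + y)))) = fun y =>
        Real.exp (2 * x0) * Real.exp (2 * y) + Real.exp (-(2 * x0)) * Real.exp (-2 * y) := by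
      funext y
      rw [← Real.exp_add, ← Real.exp_add]
      congr 2 <;> ring
    rw [e]
    exact ((integrable_exp_mul_gaussianReal 2).const_mul _).add
      ((integrable_exp_mul_gaussianReal (-2)).const_mul _)
  exact (integrable_map_measure (by fun_prop) hWm.aemeasurable).1 hi

/-! ### main statements -/

theorem ctl_ge (hBm : ∀ t, Measurable (B t)) (hB : IsBrownianReal B P) (A : SD) (x0 : ℝ)
    {eps : ℝ} (heps : 0 < eps) : ∃ v, Adm (brownianFiltration B hBm) P A.m v ∧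
      A.psi 0 x0 - eps ≤ pay P (fbk (1 / A.d) (-x0)) (B 1) A.m v := by
  obtain ⟨M, hM1, hMc⟩ := exists_M A.cs
  have hM : 0 < M := by linarith
  have hmM : ∀ t, A.m t ≤ M := fun t => mrc_le hM.le hMc t
  have hmm : Measurable A.m := measurable_mrc _ _
  set m' : ℝ → ℝ := fun r => A.m r / M with hm'
  have hP : Prof m' := ⟨hmm.div_const M, fun r _ =>
    ⟨div_nonneg (A.m_nonneg r) hM.le, (div_le_one hM).2 (hmM r)⟩⟩
  -- the exponential moment
  set W : Ω → ℝ := fun ω => B (1 : ℝ).toNNReal ω - B (0 : ℝ).toNNReal ω with hW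
  have hGi := int_exp_W hBm hB x0
  set I0 : ℝ := ∫ ω, (Real.exp (2 * (x0 + W ω)) + Real.exp (-(2 * (x0 + W ω)))) ∂P with hI0
  have hI0n : 0 ≤ I0 := integral_nonneg fun ω => by positivity
  set c : ℝ := eps / (2 * (I0 + 1)) with hc
  have hc0 : 0 < c := by positivity
  have hcI : c * I0 ≤ eps / 2 := by
    rw [hc, div_mul_eq_mul_div, div_le_div_iff₀ (by positivity) (by norm_num)]
    nlinarith
  -- the smooth majorant
  have hd := A.hd
  obtain ⟨φ, hT, hle, hanti, hmono, hφ0, hφb⟩ := SmoothApx_323.exists_smooth_above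
    (b := 1 / A.d) (by positivity) 0 hc0
  obtain ⟨K, L, C, hL, hK, hr⟩ := test_reg hT hM
  have hφc : Continuous φ := (hT.smooth 0).continuous
  have hBM : BM φ K := ⟨hφc.measurable, hK⟩
  have hL' : 0 < M * L := mul_pos hM hL
  set F0 : ℝ → ℝ := fun y => M * φ y with hF0
  -- controls
  have n1 : Near P B hBm (M * L) m' F0 1 F0 := by
    intro ε hε X hX
    refine ⟨fun _ _ => 0, ctl_zero hL'.le, ?_⟩
    unfold val
    simp
    exact hε.le
  have n2 := cell_ge (s := A.T) (x := 0) hB hP hr hL' A.hT0.le A.hT1.le le_rfl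
    (fun r hr' => by
      show A.m r / M = 0
      have : A.m r = 0 := mrc_of_ge A.hv hr'.1.le
      rw [this, zero_div]) le_rfl zero_le_one n1
  obtain ⟨w1, w2, hw⟩ := gaussOp_reg hr hL' le_rfl zero_le_one (1 - A.T)
  rw [gaussOp0_scale] at n2 hw
  have n3 := fold_ge hB hP hM hL' A.hv A.hT1.le hMc (fun r _ => rfl) hw n2
  obtain ⟨v, hv, h1⟩ := n3 (M * (eps / 2)) (by positivity) (fun _ => x0) measurable_const
  rw [integral_const, probReal_univ, one_smul] at h1
  -- monotonicity of the recursion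
  have h2 : A.psi 0 x0 ≤ Fold A.T (gaussOp 0 (1 - A.T) φ) A.cs x0 := by
    unfold SD.psi
    rw [Psc_zero _ A.hv]
    exact Fold_mono A.hv (start_nm hd _) (gaussOp0_nm hBM hφ0 _)
      (fun x => start_le _ hBM hle x) x0
  -- positive part
  have hvp := ctl_pos hv
  have hF0 : BM F0 (M * K) := hr.BM
  have h3 := val_pos (P := P) hv hP hF0 (fun x y h => mul_le_mul_of_nonneg_left (hmono h) hM.le)
    (X := fun _ => x0) measurable_const
  set v1 : ℝ≥0 → Ω → ℝ := fun r ω => max (v r ω) 0 with hv1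
  -- the final control
  set u : ℝ≥0 → Ω → ℝ := fun r ω => v1 r ω / M with hu
  have hwt := wt_m A
  have hadm : Adm (brownianFiltration B hBm) P A.m u := adm_of_ctl hwt hmM (ctl_div hvp hM)
  refine ⟨u, hadm, ?_⟩
  -- terminal variable
  set I1 : Ω → ℝ := fun ω => ∫ r in (0 : ℝ)..1, m' r * v1 r.toNNReal ω with hI1
  have hI1n : ∀ ω, 0 ≤ I1 ω := fun ω =>
    intervalIntegral.integral_nonneg zero_le_one fun r hr =>
      mul_nonneg (hP.bd r hr).1 (le_max_right _ _)
  have hI1m : Measurable I1 :=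
    (CtlE_130.meas_mv hvp hP zero_le_one).mono (CtlC_130.F_le hBm 1) le_rfl
  have hWm : Measurable W := (hBm _).sub (hBm _)
  set Y : Ω → ℝ := fun ω => x0 + W ω + I1 ω with hY
  have hYm : Measurable Y := (hWm.const_add x0).add hI1m
  have hII : ∀ ω, II A.m u ω = I1 ω := by
    intro ω
    rw [II_eq hwt, hI1]
    refine intervalIntegral.integral_congr fun r _ => ?_
    simp only [hu, hm']
    ring
  have hcost : cost P A.m u = 1 / M * ∫ ω, (∫ r in (0 : ℝ)..1, m' r * v1 r.toNNReal ω ^ 2) ∂P := by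
    rw [cost_iter hwt hadm, ← integral_const_mul]
    congr 1
    funext ω
    rw [← intervalIntegral.integral_const_mul]
    refine intervalIntegral.integral_congr fun r _ => ?_
    simp only [hu, hm']
    field_simp
  have hval : val P B m' F0 0 (fun _ => x0) v1 = M * ((∫ ω, φ (Y ω) ∂P) - cost P A.m u / 2) := by
    rw [hcost]
    unfold val
    have e1 : ∫ ω, F0 (x0 + (B (1 : ℝ).toNNReal ω - B (0 : ℝ).toNNReal ω) +
        ∫ r in (0 : ℝ)..1, m' r * v1 r.toNNReal ω) ∂P = M * ∫ ω, φ (Y ω) ∂P := by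
      rw [← integral_const_mul]
    rw [e1]
    field_simp
  -- comparison of the terminal functions
  set G : Ω → ℝ := fun ω => Real.exp (2 * (x0 + W ω)) + Real.exp (-(2 * (x0 + W ω))) with hG
  have hdiff : ∀ ω, φ (Y ω) - fq (1 / A.d) 0 (Y ω) ≤ c * G ω := by
    intro ω
    have a1 : x0 + W ω ≤ Y ω := by have := hI1n ω; simp only [hY]; linarith
    exact (hanti a1).trans (hφb _)
  have hφi : Integrable (fun ω => φ (Y ω)) P := bm_int hBM hYm
  have hfi : Integrable (fun ω => fq (1 / A.d) 0 (Y ω)) P := by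
    refine (hφi.abs.add (hGi.const_mul c)).mono'
      ((continuous_fq (1 / A.d)).measurable.comp hYm).aestronglyMeasurable ?_
    refine ae_of_all _ fun ω => ?_
    rw [Real.norm_eq_abs, abs_le]
    have a1 := hdiff ω
    have a2 := hle (Y ω)
    have a3 := neg_abs_le (φ (Y ω))
    have a4 := le_abs_self (φ (Y ω))
    have a5 : 0 ≤ c * G ω := by positivity
    show -(|φ (Y ω)| + c * G ω) ≤ _ ∧ _ ≤ |φ (Y ω)| + c * G ω
    constructor <;> linarith
  have h4 : ∫ ω, φ (Y ω) ∂P ≤ (∫ ω, fq (1 / A.d) 0 (Y ω) ∂P) + c * I0 := by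
    rw [hI0, ← integral_const_mul, ← integral_add hfi (hGi.const_mul c)]
    exact integral_mono hφi (hfi.add (hGi.const_mul c)) fun ω => by
      have := hdiff ω
      show φ (Y ω) ≤ fq (1 / A.d) 0 (Y ω) + c * G ω
      linarith
  have hpay : pay P (fbk (1 / A.d) (-x0)) (B 1) A.m u =
      (∫ ω, fq (1 / A.d) 0 (Y ω) ∂P) - cost P A.m u / 2 := by
    unfold pay
    congr 1
    refine integral_congr_ae ?_
    filter_upwards [hB.toIsPreBrownianReal.eval_zero_ae_eq_zero] with ω hω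
    rw [hII]
    have hWω : W ω = B 1 ω := by
      simp only [hW]
      rw [Real.toNNReal_one, Real.toNNReal_zero, hω, sub_zero]
    simp only [hY]
    rw [hWω]
    unfold fbk fq
    have e : -x0 - (B 1 ω + I1 ω) = 0 - (x0 + B 1 ω + I1 ω) := by ring
    rw [e]
  rw [hpay]
  rw [hval] at h3
  have h5 : M * (A.psi 0 x0 - eps / 2) ≤ M * ((∫ ω, φ (Y ω) ∂P) - cost P A.m u / 2) := by
    have := mul_le_mul_of_nonneg_left h2 hM.le
    linarith
  have h6 := le_of_mul_le_mul_left h5 hM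
  linarith

/-- **weak duality** for the step system -/
theorem psi_le_QQ (hBm : ∀ t, Measurable (B t)) (hB : IsBrownianReal B P) (A : SD) (x0 : ℝ)
    {x : Ω →₂[P] ℝ} (hx : x ∈ cone P) :
    A.psi 0 x0 ≤ QQ (brownianFiltration B hBm) A.m (1 / A.d) (-x0) (DualL_256.ZB hB) x := by
  refine le_of_forall_pos_le_add fun eps heps => ?_
  obtain ⟨v, hv, h1⟩ := ctl_ge hBm hB A x0 heps
  have h2 := pay_le (wt_m A) hv (DualL_256.ZB_coe hB) (b := 1 / A.d)
    (by have := A.hd; positivity) (-x0) hx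
  linarith

end

end Crest.Agent.R146.BrLB_952
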