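import Crest.Agent.R146.Br2_256

/-!
Row 146, R3 bridge (helper52 for helper256): the law of the next step from the variational identity
with perturbed potentials (`law_step`).
-/

set_option autoImplicit false

noncomputable section

open MeasureTheory Set Filter Topology ProbabilityTheory

namespace Crest.Agent.R146.BrLaw_52

open Crest.ProbabilityR.InvariantGlass
open Crest.Agent.R146.Br_256
open Crest.Agent.R164.GC (H)

theorem log_upper {u : ℝ} (h : |u| ≤ 1 / 2) : Real.log (1 + u) ≤ u := by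
  have h1 := abs_le.1 h
  have := Real.log_le_sub_one_of_pos (x := 1 + u) (by linarith)
  linarith

theorem log_lower {u : ℝ} (h : |u| ≤ 1 / 2) : u - 2 * u ^ 2 ≤ Real.log (1 + u) := by
  have h1 := abs_le.1 h
  have hp : 0 < 1 + u := by linarith
  have h2 := Real.one_sub_inv_le_log_of_pos hp
  refine le_trans ?_ h2
  have h3 : 1 - (1 + u)⁻¹ - (u - 2 * u ^ 2) = u ^ 2 * (1 + 2 * u) / (1 + u) := by
    field_simp
    ring
  have h4 : 0 ≤ u ^ 2 * (1 + 2 * u) / (1 + u) :=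
    div_nonneg (mul_nonneg (sq_nonneg _) (by linarith)) hp.le
  linarith

theorem log_lip {a b : ℝ} (ha : 1 / 2 ≤ a) (hb : 1 / 2 ≤ b) :
    |Real.log a - Real.log b| ≤ 2 * |a - b| := by
  have key : ∀ a b : ℝ, 1 / 2 ≤ a → 1 / 2 ≤ b → Real.log a - Real.log b ≤ 2 * |a - b| := by
    intro a b ha hb
    have ha0 : 0 < a := by linarith
    have hb0 : 0 < b := by linarith
    rw [← Real.log_div ha0.ne' hb0.ne']
    have h1 := Real.log_le_sub_one_of_pos (div_pos ha0 hb0)
    have h2 : a / b - 1 = (a - b) / b := by field_simp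
    have h3 : (a - b) / b ≤ 2 * |a - b| := by
      rw [div_le_iff₀ hb0]
      have := le_abs_self (a - b)
      have := abs_nonneg (a - b)
      nlinarith
    linarith
  rw [abs_le]
  constructor
  · have := key b a hb ha
    rw [abs_sub_comm] at this
    linarith
  · exact key a b ha hb

variable {z d : ℝ} {ψ θ : ℝ → ℝ}

/-- the perturbation -/
def ph (z ε : ℝ) (θ : ℝ → ℝ) (y : ℝ) : ℝ := z⁻¹ * Real.log (1 + ε * θ y)

theorem eth_le {ε : ℝ} (hε : |ε| ≤ 1 / 2) (hb : ∀ x, |θ x| ≤ 1) (y : ℝ) : |ε * θ y| ≤ 1 / 2 := by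
  rw [abs_mul]
  calc |ε| * |θ y| ≤ 1 / 2 * 1 := mul_le_mul hε (hb y) (abs_nonneg _) (by norm_num)
    _ = _ := by norm_num

theorem ph_lip (hz : 0 < z) {ε : ℝ} (hε : |ε| ≤ 1 / 2) (hl : ∃ l, ∀ x y, |θ x - θ y| ≤ l * |x - y|)
    (hb : ∀ x, |θ x| ≤ 1) : ∃ l, ∀ x y, |ph z ε θ x - ph z ε θ y| ≤ l * |x - y| := by
  obtain ⟨l, hl⟩ := hl
  refine ⟨z⁻¹ * l, fun x y => ?_⟩
  unfold ph
  rw [← mul_sub, abs_mul, abs_of_pos (inv_pos.2 hz), mul_assoc]
  refine mul_le_mul_of_nonneg_left ?_ (inv_pos.2 hz).le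
  have h1 := abs_le.1 (eth_le hε hb x)
  have h2 := abs_le.1 (eth_le hε hb y)
  refine (log_lip (by linarith) (by linarith)).trans ?_
  have h3 : 1 + ε * θ x - (1 + ε * θ y) = ε * (θ x - θ y) := by ring
  rw [h3, abs_mul]
  have h4 := hl x y
  have h5 := mul_le_mul hε h4 (abs_nonneg _) (by norm_num : (0:ℝ) ≤ 1 / 2)
  linarith

theorem log_abs_le {u : ℝ} (h : |u| ≤ 1 / 2) : |Real.log (1 + u)| ≤ 1 := by
  have h1 := abs_le.1 h
  have h2 := log_upper h
  have h3 := log_lower h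
  rw [abs_le]
  constructor
  · nlinarith
  · linarith

theorem ph_bdd (hz : 0 < z) {ε : ℝ} (hε : |ε| ≤ 1 / 2) (hb : ∀ x, |θ x| ≤ 1) :
    ∃ K, ∀ x, |ph z ε θ x| ≤ K := by
  refine ⟨z⁻¹, fun x => ?_⟩
  unfold ph
  rw [abs_mul, abs_of_pos (inv_pos.2 hz)]
  have := mul_le_mul_of_nonneg_left (log_abs_le (eth_le hε hb x)) (inv_pos.2 hz).le
  linarith

/-- the kernel average of `θ` -/
def kth (z d : ℝ) (ψ θ : ℝ → ℝ) (x : ℝ) : ℝ :=
  H (Real.sqrt d) (fun y => θ y * Real.exp (z * ψ y)) x /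
    H (Real.sqrt d) (fun y => Real.exp (z * ψ y)) x

theorem exp_int (hz : 0 < z) (hψ : Continuous ψ) (h0 : ∀ y, ψ y ≤ 0) (x : ℝ) :
    Integrable (fun g => Real.exp (z * ψ (x + Real.sqrt d * g))) (gaussianReal 0 1) := by
  refine Integrable.of_bound (Continuous.aestronglyMeasurable (by fun_prop)) 1
    (ae_of_all _ fun g => ?_)
  rw [Real.norm_eq_abs, abs_of_pos (Real.exp_pos _), Real.exp_le_one_iff]
  exact mul_nonpos_of_nonneg_of_nonpos hz.le (h0 _)

theorem th_exp_int (hz : 0 < z) (hψ : Continuous ψ) (h0 : ∀ y, ψ y ≤ 0) (hθ : Continuous θ)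
    (hb : ∀ x, |θ x| ≤ 1) (x : ℝ) : Integrable (fun g => θ (x + Real.sqrt d * g) *
      Real.exp (z * ψ (x + Real.sqrt d * g))) (gaussianReal 0 1) := by
  refine (exp_int (d := d) hz hψ h0 x).mono' (Continuous.aestronglyMeasurable (by fun_prop))
    (ae_of_all _ fun g => ?_)
  rw [Real.norm_eq_abs, abs_mul, abs_of_pos (Real.exp_pos _)]
  have := mul_le_mul_of_nonneg_right (hb (x + Real.sqrt d * g))
    (Real.exp_pos (z * ψ (x + Real.sqrt d * g))).le
  linarith

theorem D_pos (hz : 0 < z) (hψ : Continuous ψ) (h0 : ∀ y, ψ y ≤ 0) (x : ℝ) :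
    0 < H (Real.sqrt d) (fun y => Real.exp (z * ψ y)) x :=
  integral_exp_pos (exp_int hz hψ h0 x)

theorem kth_abs_le (hz : 0 < z) (hψ : Continuous ψ) (h0 : ∀ y, ψ y ≤ 0) (hθ : Continuous θ)
    (hb : ∀ x, |θ x| ≤ 1) (x : ℝ) : |kth z d ψ θ x| ≤ 1 := by
  unfold kth
  have hD := D_pos (d := d) hz hψ h0 x
  rw [abs_div, abs_of_pos hD, div_le_one hD]
  unfold H
  refine abs_integral_le_integral_abs.trans ?_
  refine integral_mono (th_exp_int hz hψ h0 hθ hb x).abs (exp_int hz hψ h0 x) fun g => ?_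
  simp only [abs_mul, abs_of_pos (Real.exp_pos _)]
  have := mul_le_mul_of_nonneg_right (hb (x + Real.sqrt d * g))
    (Real.exp_pos (z * ψ (x + Real.sqrt d * g))).le
  linarith

theorem kth_meas (hψ : Continuous ψ) (hθ : Continuous θ) : Measurable (kth z d ψ θ) := by
  unfold kth
  exact (CtlB_130.H_meas (by fun_prop) (Real.sqrt d)).div
    (CtlB_130.H_meas (by fun_prop) (Real.sqrt d))

/-- the operator on the perturbed potential -/
theorem gaussOp_ph (hz : 0 < z) (hψ : Continuous ψ) (h0 : ∀ y, ψ y ≤ 0) (hθ : Continuous θ)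
    (hb : ∀ x, |θ x| ≤ 1) {ε : ℝ} (hε : |ε| ≤ 1 / 2) (x : ℝ) :
    gaussOp z d (fun y => ψ y + ph z ε θ y) x =
      gaussOp z d ψ x + z⁻¹ * Real.log (1 + ε * kth z d ψ θ x) := by
  rw [R164.GC.gaussOp_ne hz.ne', R164.GC.gaussOp_ne hz.ne', ← mul_add]
  congr 1
  have hD := D_pos (d := d) hz hψ h0 x
  have hk := abs_le.1 (eth_le hε (fun x => kth_abs_le (d := d) hz hψ h0 hθ hb x) x)
  rw [← Real.log_mul hD.ne' (by linarith)]
  congr 1
  have e1 : (fun y => Real.exp (z * (ψ y + ph z ε θ y))) =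
      fun y => Real.exp (z * ψ y) + ε * (θ y * Real.exp (z * ψ y)) := by
    funext y
    have h1 := abs_le.1 (eth_le hε hb y)
    have h2 : z * ph z ε θ y = Real.log (1 + ε * θ y) := by
      unfold ph; field_simp
    rw [mul_add, h2, Real.exp_add, Real.exp_log (by linarith)]
    ring
  rw [e1]
  unfold H
  rw [integral_add (exp_int hz hψ h0 x) ((th_exp_int hz hψ h0 hθ hb x).const_mul ε),
    integral_const_mul]
  have h3 : kth z d ψ θ x * H (Real.sqrt d) (fun y => Real.exp (z * ψ y)) x =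
      H (Real.sqrt d) (fun y => θ y * Real.exp (z * ψ y)) x := by
    unfold kth
    rw [div_mul_cancel₀ _ hD.ne']
  unfold H at h3
  rw [← h3]
  ring

theorem law_step {Ω : Type*} [MeasurableSpace Ω] {P : Measure Ω} [IsProbabilityMeasure P]
    {z d c A : ℝ} (hz : 0 < z) (hd : 0 ≤ d) {ψ : ℝ → ℝ} (hψ : QG ψ A) (h0 : ∀ y, ψ y ≤ 0)
    {X Y : Ω → ℝ} (hX : MemLp X 2 P) (hY : MemLp Y 2 P)
    (hle : ∀ φ : ℝ → ℝ, (∃ l, ∀ x y, |φ x - φ y| ≤ l * |x - y|) → (∃ K, ∀ x, |φ x| ≤ K) →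
      (∫ w, (ψ (Y w) + φ (Y w)) ∂P) - c ≤ ∫ w, gaussOp z d (fun y => ψ y + φ y) (X w) ∂P)
    (heq : (∫ w, ψ (Y w) ∂P) - c = ∫ w, gaussOp z d ψ (X w) ∂P)
    {θ : ℝ → ℝ} (hl : ∃ l, ∀ x y, |θ x - θ y| ≤ l * |x - y|) (hb : ∀ x, |θ x| ≤ 1) :
    ∫ w, θ (Y w) ∂P = ∫ w, H (Real.sqrt d) (fun y => θ y * Real.exp (z * ψ y)) (X w) /
      H (Real.sqrt d) (fun y => Real.exp (z * ψ y)) (X w) ∂P := by
  have hθ : Continuous θ := by
    obtain ⟨l, hl⟩ := hl
    have hl' : ∀ x y, |θ x - θ y| ≤ |l| * |x - y| := fun x y =>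
      (hl x y).trans (mul_le_mul_of_nonneg_right (le_abs_self l) (abs_nonneg _))
    exact (QL.of_lip (abs_nonneg l) hl').cont
  change ∫ w, θ (Y w) ∂P = ∫ w, kth z d ψ θ (X w) ∂P
  have hYm := hY.1
  have hXm := hX.1
  have iθ : Integrable (fun w => θ (Y w)) P :=
    Integrable.of_bound (hθ.comp_aestronglyMeasurable hYm) 1 (ae_of_all _ fun w => by
      rw [Real.norm_eq_abs]; exact hb _)
  have iκ : Integrable (fun w => kth z d ψ θ (X w)) P :=
    Integrable.of_bound ((kth_meas hψ.cont hθ).comp_aemeasurable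
      hXm.aemeasurable).aestronglyMeasurable 1 (ae_of_all _ fun w => by
      rw [Real.norm_eq_abs]; exact kth_abs_le hz hψ.cont h0 hθ hb _)
  -- the basic inequality
  have key : ∀ ε : ℝ, |ε| ≤ 1 / 2 →
      ε * ((∫ w, θ (Y w) ∂P) - ∫ w, kth z d ψ θ (X w) ∂P) ≤ 2 * ε ^ 2 := by
    intro ε hε
    have h1 := hle (ph z ε θ) (ph_lip hz hε hl hb) (ph_bdd hz hε hb)
    have ilog : Integrable (fun w => Real.log (1 + ε * θ (Y w))) P := by
      refine Integrable.of_bound ?_ 1 (ae_of_all _ fun w => by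
        rw [Real.norm_eq_abs]; exact log_abs_le (eth_le hε hb _))
      exact (Real.measurable_log.comp_aemeasurable ((aemeasurable_const.add
        ((hθ.comp_aestronglyMeasurable hYm).aemeasurable.const_mul ε)))).aestronglyMeasurable
    have iph : Integrable (fun w => ph z ε θ (Y w)) P := ilog.const_mul z⁻¹
    have iklog : Integrable (fun w => Real.log (1 + ε * kth z d ψ θ (X w))) P := by
      refine Integrable.of_bound ?_ 1 (ae_of_all _ fun w => by
        rw [Real.norm_eq_abs]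
        exact log_abs_le (eth_le hε (fun x => kth_abs_le (d := d) hz hψ.cont h0 hθ hb x) _))
      exact (Real.measurable_log.comp_aemeasurable ((aemeasurable_const.add
        (((kth_meas hψ.cont hθ).comp_aemeasurable hXm.aemeasurable).const_mul
          ε)))).aestronglyMeasurable
    have iψ : Integrable (fun w => ψ (Y w)) P := hψ.int_of hY
    have iG : Integrable (fun w => gaussOp z d ψ (X w)) P := gaussOp_int_of hψ h0 hz.le hd hX
    have e1 : ∫ w, (ψ (Y w) + ph z ε θ (Y w)) ∂P =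
        (∫ w, ψ (Y w) ∂P) + z⁻¹ * ∫ w, Real.log (1 + ε * θ (Y w)) ∂P := by
      rw [integral_add iψ iph, ← integral_const_mul]
      rfl
    have e2 : ∫ w, gaussOp z d (fun y => ψ y + ph z ε θ y) (X w) ∂P =
        (∫ w, gaussOp z d ψ (X w) ∂P) + z⁻¹ * ∫ w, Real.log (1 + ε * kth z d ψ θ (X w)) ∂P := by
      simp only [gaussOp_ph hz hψ.cont h0 hθ hb hε]
      rw [integral_add iG (iklog.const_mul _), integral_const_mul]
    rw [e1, e2, ← heq] at h1
    have h2 : z⁻¹ * ∫ w, Real.log (1 + ε * θ (Y w)) ∂P ≤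
        z⁻¹ * ∫ w, Real.log (1 + ε * kth z d ψ θ (X w)) ∂P := by linarith
    have h3 := le_of_mul_le_mul_left h2 (inv_pos.2 hz)
    have h4 : ∫ w, (ε * θ (Y w) - 2 * ε ^ 2) ∂P ≤ ∫ w, Real.log (1 + ε * θ (Y w)) ∂P := by
      refine integral_mono ((iθ.const_mul ε).sub (integrable_const _)) ilog fun w => ?_
      have h5 := log_lower (eth_le hε hb (Y w))
      have h6 : (ε * θ (Y w)) ^ 2 ≤ ε ^ 2 := by
        rw [mul_pow]
        have h7 : θ (Y w) ^ 2 ≤ 1 := by
          rw [← sq_abs]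
          have := pow_le_pow_left₀ (abs_nonneg _) (hb (Y w)) 2
          linarith
        nlinarith [sq_nonneg ε]
      show ε * θ (Y w) - 2 * ε ^ 2 ≤ _
      linarith
    have h5 : ∫ w, Real.log (1 + ε * kth z d ψ θ (X w)) ∂P ≤
        ∫ w, ε * kth z d ψ θ (X w) ∂P := by
      refine integral_mono iklog (iκ.const_mul ε) fun w => ?_
      exact log_upper (eth_le hε (fun x => kth_abs_le (d := d) hz hψ.cont h0 hθ hb x) _)
    rw [integral_sub (iθ.const_mul ε) (integrable_const _), integral_const_mul] at h4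
    rw [integral_const_mul] at h5
    simp only [integral_const, probReal_univ, one_smul] at h4
    linarith
  set a := ∫ w, θ (Y w) ∂P
  set b := ∫ w, kth z d ψ θ (X w) ∂P
  have k1 : a - b ≤ 0 := by
    refine le_of_forall_pos_le_add fun ε hε => ?_
    set η := min (ε / 2) (1 / 2) with hη
    have hη0 : 0 < η := lt_min (by positivity) (by norm_num)
    have hη1 : η ≤ ε / 2 := min_le_left _ _
    have hη2 : η ≤ 1 / 2 := min_le_right _ _
    have h := key η (by rw [abs_of_pos hη0]; exact hη2)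
    have h2 : η * (a - b) ≤ η * (2 * η) := by linarith
    have h3 := le_of_mul_le_mul_left h2 hη0
    linarith
  have k2 : b - a ≤ 0 := by
    refine le_of_forall_pos_le_add fun ε hε => ?_
    set η := min (ε / 2) (1 / 2) with hη
    have hη0 : 0 < η := lt_min (by positivity) (by norm_num)
    have hη1 : η ≤ ε / 2 := min_le_left _ _
    have hη2 : η ≤ 1 / 2 := min_le_right _ _
    have h := key (-η) (by rw [abs_neg, abs_of_pos hη0]; exact hη2)
    have h2 : η * (b - a) ≤ η * (2 * η) := by nlinarith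
    have h3 := le_of_mul_le_mul_left h2 hη0
    linarith
  linarith

end Crest.Agent.R146.BrLaw_52
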