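import Crest.Agent.R146.BrIf_256
import Crest.Agent.R146.BrLaw_52
import Crest.Agent.R146.Back_847

/-!
Row 146, R3 bridge (helper168 for helper256): the law of the process at the optimal dual variable.

`lawt_of : CELL hBm hB → EQT hBm hB → LAWT hBm hB`.
-/

set_option autoImplicit false

noncomputable section

open MeasureTheory Set Filter Topology ProbabilityTheory
open scoped InnerProductSpace RealInnerProductSpace NNReal ENNReal

namespace Crest.Agent.R146.BrLt_168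

open Crest.ProbabilityR.Perceptron Crest.ProbabilityR.InvariantGlass
open Crest.Agent.R146.DualQ_256 Crest.Agent.R146.DualC1_256 Crest.Agent.R146.DualV_256
  Crest.Agent.R146.DualL_256 Crest.Agent.R146.DualG_256 Crest.Agent.R146.CtlC_130
open Crest.Agent.R146.StepDef_791 Crest.Agent.R146.Cell_534 Crest.Agent.R146.PD_534
open Crest.Agent.R146.TiltB_534 Crest.Agent.R146.TiltC_534 Crest.Agent.R146.PB_534
open Crest.Agent.R146.Br_256

/-! ### measures from bounded Lipschitz functions -/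

theorem cexp_int (ρ : Measure ℝ) [IsProbabilityMeasure ρ] (t : ℝ) :
    ∫ x : ℝ, Complex.exp (t * x * Complex.I) ∂ρ =
      ((∫ x, Real.cos (t * x) ∂ρ : ℝ) : ℂ) + ((∫ x, Real.sin (t * x) ∂ρ : ℝ) : ℂ) * Complex.I := by
  have h1 : (fun x : ℝ => Complex.exp (t * x * Complex.I)) =
      fun x : ℝ => ((Real.cos (t * x) : ℝ) : ℂ) + ((Real.sin (t * x) : ℝ) : ℂ) * Complex.I := by
    funext x
    rw [Complex.exp_mul_I]
    push_cast
    rfl
  have ic : Integrable (fun x : ℝ => ((Real.cos (t * x) : ℝ) : ℂ)) ρ := by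
    refine Integrable.of_bound (Continuous.aestronglyMeasurable (by fun_prop)) 1
      (ae_of_all _ fun x => ?_)
    rw [Complex.norm_real, Real.norm_eq_abs]
    exact Real.abs_cos_le_one _
  have is : Integrable (fun x : ℝ => ((Real.sin (t * x) : ℝ) : ℂ)) ρ := by
    refine Integrable.of_bound (Continuous.aestronglyMeasurable (by fun_prop)) 1
      (ae_of_all _ fun x => ?_)
    rw [Complex.norm_real, Real.norm_eq_abs]
    exact Real.abs_sin_le_one _
  rw [h1, integral_add ic (is.mul_const _), integral_mul_const, integral_complex_ofReal,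
    integral_complex_ofReal]

theorem ext_of_lip {μ ν : Measure ℝ} [IsProbabilityMeasure μ] [IsProbabilityMeasure ν]
    (h : ∀ θ : ℝ → ℝ, (∃ l, ∀ x y, |θ x - θ y| ≤ l * |x - y|) → (∀ x, |θ x| ≤ 1) →
      ∫ x, θ x ∂μ = ∫ x, θ x ∂ν) : μ = ν := by
  refine Measure.ext_of_charFun ?_
  funext t
  rw [charFun_apply_real, charFun_apply_real, cexp_int μ t, cexp_int ν t]
  have hc := h (fun x => Real.cos (t * x)) ⟨|t|, fun x y => by
    rw [← abs_mul, mul_sub]
    exact Real.abs_cos_sub_cos_le _ _⟩ fun x => Real.abs_cos_le_one _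
  have hs := h (fun x => Real.sin (t * x)) ⟨|t|, fun x y => by
    rw [← abs_mul, mul_sub]
    exact Real.abs_sin_sub_sin_le _ _⟩ fun x => Real.abs_sin_le_one _
  rw [hc, hs]

theorem lip_cont {θ : ℝ → ℝ} (hl : ∃ l, ∀ x y, |θ x - θ y| ≤ l * |x - y|) : Continuous θ := by
  obtain ⟨l, hl⟩ := hl
  exact (QL.of_lip (abs_nonneg l) fun x y =>
    (hl x y).trans (mul_le_mul_of_nonneg_right (le_abs_self l) (abs_nonneg _))).cont

theorem lip_pg {θ : ℝ → ℝ} (hl : ∃ l, ∀ x y, |θ x - θ y| ≤ l * |x - y|) (hb : ∀ x, |θ x| ≤ 1) :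
    PG θ := ⟨lip_cont hl, 1, 0, zero_le_one, fun x => by simpa using hb x⟩

/-! ### the backward potential -/

theorem psi_ql (A : SD) {t : ℝ} (ht : t ∈ Icc 0 A.T) : ∃ C, QL (A.psi t) C := by
  have hB := Back_847.back A
  obtain ⟨M, hb⟩ := hB.bsys
  have hD := A.D_pos t
  refine ⟨_, QL.of_deriv (g1 := fun x => A.u t x / A.D t) (fun x => psi_x hB ht x)
    (L := 1 / A.D t) (by positivity) fun x y => ?_⟩
  rw [← sub_div, abs_div, abs_of_pos hD, div_mul_eq_mul_div, one_mul]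
  refine div_le_div_of_nonneg_right ?_ hD.le
  have h1 := convex_univ.norm_image_sub_le_of_norm_hasDerivWithin_le (f := A.u t)
    (f' := fun x => A.V t x - 1) (C := 1) (s := (univ : Set ℝ))
    (fun z _ => (hB.u_x t ht z).hasDerivWithinAt) (fun z _ => by
      rw [Real.norm_eq_abs, abs_le]
      have := hb.V_pos t ht z
      have := hb.V_lt t ht z
      constructor <;> linarith) (mem_univ y) (mem_univ x)
  simpa [Real.norm_eq_abs] using h1

/-- `ψ_a = gaussOp z (t-a) ψ_t` on a cell -/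
theorem psi_semi {A : SD} {a b z : ℝ} (hc : IsCell A a b z) {t : ℝ} (ht : t ∈ Icc a b) (x : ℝ) :
    gaussOp z (t - a) (A.psi t) x = A.psi a x := by
  have hB := Back_847.back A
  rw [hc.psi_eq a hc.aI, hc.psi_eq t ht]
  rw [gaussOp_semi (K := 0) (hB.sm b (hc.mem hc.bI)).cont
    (hB.psi_nonpos b (hc.mem hc.bI)) hc.z0 (by linarith [ht.1]) (by linarith [ht.2])]
  congr 1
  ring

/-- the kernel of `law_step` is `tv` -/
theorem kth_tv {A : SD} {a b z : ℝ} (hc : IsCell A a b z) {t : ℝ} (ht : t ∈ Icc a b)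
    (θ : ℝ → ℝ) (x : ℝ) :
    R164.GC.H (Real.sqrt (t - a)) (fun y => θ y * Real.exp (z * A.psi t y)) x /
      R164.GC.H (Real.sqrt (t - a)) (fun y => Real.exp (z * A.psi t y)) x = tv A z a t θ x := by
  unfold tv
  have h1 := congrFun (Gz_semi (Back_847.back A) hc hc.aI ht ht.1) x
  rw [← h1]
  rfl

section

variable {Ω : Type*} [mΩ : MeasurableSpace Ω] {P : Measure Ω} [IsProbabilityMeasure P]
  {B : ℝ≥0 → Ω → ℝ} (hBm : ∀ t, Measurable (B t)) (hB : IsBrownianReal B P)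

/-! ### algebra of the process -/

theorem Go_add (A : SD) (lam : Ω →₂[P] ℝ) {s t u : ℝ} (hs : 0 ≤ s) (hst : s ≤ t) (htu : t ≤ u)
    (hu : u ≤ 1) (Y : Ω →₂[P] ℝ) :
    Go hBm hB A lam t u (Go hBm hB A lam s t Y) = Go hBm hB A lam s u Y := by
  unfold Go dZ
  rw [← OO_add (FB P B hBm) (wA A) hs hst htu hu lam]
  abel

theorem Go_self (A : SD) (lam : Ω →₂[P] ℝ) {s : ℝ} (hs : 0 ≤ s) (hs1 : s ≤ 1) (Y : Ω →₂[P] ℝ) :
    Go hBm hB A lam s s Y = Y := by
  unfold Go dZ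
  rw [OO_self (FB P B hBm) (wA A) hs hs1, sub_self, add_zero, add_zero]

theorem Zt_fix' {s t : ℝ} (h : s ≤ t) :
    condPi (brownianFiltration B hBm) P t (Zt hB s.toNNReal) = Zt hB s.toNNReal := by
  refine condPi_of_meas _ _ _ ?_
  refine AEStronglyMeasurable.congr ?_ (Zt_coe hB s.toNNReal).symm
  have h1 : StronglyMeasurable[brownianFiltration B hBm s.toNNReal] (B s.toNNReal) :=
    Filtration.stronglyAdapted_natural (fun t => (hBm t).stronglyMeasurable) s.toNNReal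
  exact (h1.mono ((brownianFiltration B hBm).mono
    (Real.toNNReal_le_toNNReal h))).aestronglyMeasurable

theorem Go_fix (A : SD) (lam : Ω →₂[P] ℝ) {s t : ℝ} (hs : 0 ≤ s) (hst : s ≤ t) (ht : t ≤ 1)
    {Y : Ω →₂[P] ℝ} (hY : condPi (brownianFiltration B hBm) P s Y = Y) :
    condPi (brownianFiltration B hBm) P t (Go hBm hB A lam s t Y) = Go hBm hB A lam s t Y := by
  have h1 : condPi (brownianFiltration B hBm) P t Y = Y := by
    have := (FB P B hBm).comp' hst Y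
    simp only [fam_Pi] at this
    rw [hY] at this
    exact this
  have h2 := Pi_OO (FB P B hBm) (wA A) hs hst ht le_rfl lam
  simp only [fam_Pi] at h2
  unfold Go dZ
  rw [map_add, map_add, map_sub, h1, Zt_fix' hBm hB le_rfl, Zt_fix' hBm hB hst, h2]

theorem Xp_fix (A : SD) (x0 : ℝ) (lam : Ω →₂[P] ℝ) {t : ℝ} (h0 : 0 ≤ t) (ht : t ≤ 1) :
    condPi (brownianFiltration B hBm) P t (Xp hBm hB A x0 lam t) = Xp hBm hB A x0 lam t :=
  Go_fix hBm hB A lam le_rfl h0 ht (cst_fix 0 x0)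

theorem Xp_add (A : SD) (x0 : ℝ) (lam : Ω →₂[P] ℝ) {s t : ℝ} (hs : 0 ≤ s) (hst : s ≤ t)
    (ht : t ≤ 1) :
    Go hBm hB A lam s t (Xp hBm hB A x0 lam s) = Xp hBm hB A x0 lam t :=
  Go_add hBm hB A lam le_rfl hs hst ht _

theorem Xp_zero (A : SD) (x0 : ℝ) (lam : Ω →₂[P] ℝ) : Xp hBm hB A x0 lam 0 = cst P x0 :=
  Go_self hBm hB A lam le_rfl zero_le_one _

theorem Cq_add (A : SD) (lam : Ω →₂[P] ℝ) {s t u : ℝ} (hs : 0 ≤ s) (hst : s ≤ t) (htu : t ≤ u)
    (hu : u ≤ 1) : Cq hBm A lam s t + Cq hBm A lam t u = Cq hBm A lam s u := by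
  unfold Cq
  exact intervalIntegral.integral_add_adjacent_intervals
    (ii_w (FB P B hBm) (wA A) hs hst (htu.trans hu) lam lam)
    (ii_w (FB P B hBm) (wA A) (hs.trans hst) htu hu lam lam)

/-! ### one step -/

theorem step_theta (hC : CELL hBm hB) (hE : EQT hBm hB) {A : SD} {x0 : ℝ} {lam : Ω →₂[P] ℝ}
    (hL : LK hBm hB A x0 lam) {a b z : ℝ} (hc : IsCell A a b z) {t : ℝ} (ht : t ∈ Icc a b)
    {θ : ℝ → ℝ} (hl : ∃ l, ∀ x y, |θ x - θ y| ≤ l * |x - y|) (hb : ∀ x, |θ x| ≤ 1) :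
    ∫ ω, θ ((Xp hBm hB A x0 lam t : Ω →₂[P] ℝ) ω) ∂P =
      ∫ ω, tv A z a t θ ((Xp hBm hB A x0 lam a : Ω →₂[P] ℝ) ω) ∂P := by
  have hBk := Back_847.back A
  have haT := hc.mem hc.aI
  have htT := hc.mem ht
  have ht1 : t ≤ 1 := htT.2.trans A.hT1.le
  obtain ⟨C, hQ⟩ := psi_ql A htT
  have h0 := hBk.psi_nonpos t htT
  have hadd := Xp_add hBm hB A x0 lam haT.1 ht.1 ht1
  have hfix := Xp_fix hBm hB A x0 lam haT.1 (haT.2.trans A.hT1.le)
  have key := BrLaw_52.law_step (P := P) (z := z) (d := t - a)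
    (c := 1 / 2 * Cq hBm A lam a t) hc.z0 (by linarith [ht.1]) hQ.qg h0
    (X := fun ω => (Xp hBm hB A x0 lam a : Ω →₂[P] ℝ) ω)
    (Y := fun ω => (Xp hBm hB A x0 lam t : Ω →₂[P] ℝ) ω)
    (Lp.memLp _) (Lp.memLp _) ?_ ?_ hl hb
  · rw [key]
    refine integral_congr_ae (ae_of_all _ fun ω => ?_)
    exact kth_tv hc ht θ _
  · rintro φ ⟨l, hφ⟩ ⟨K, hK⟩
    have hφQ : QL φ |l| := QL.of_lip (abs_nonneg l) fun x y =>
      (hφ x y).trans (mul_le_mul_of_nonneg_right (le_abs_self l) (abs_nonneg _))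
    have h1 := hC A lam a t z haT.1 ht.1 htT.2 hc.z0
      (fun r hr => hc.m_eq r ⟨hr.1.le, hr.2.trans_le ht.2⟩) (Xp hBm hB A x0 lam a) hfix
      (fun y => A.psi t y + φ y) _ K (hQ.add hφQ) (fun x => by
        have := h0 x
        have := (abs_le.1 (hK x)).2
        linarith)
    rw [hadd] at h1
    exact h1
  · have e1 := (hE A x0 lam hL t htT).1
    have e2 := (hE A x0 lam hL a haT).1
    have e3 := Cq_add hBm A lam le_rfl haT.1 ht.1 ht1
    have e4 : ∫ w, gaussOp z (t - a) (A.psi t) ((Xp hBm hB A x0 lam a : Ω →₂[P] ℝ) w) ∂P =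
        ∫ w, A.psi a ((Xp hBm hB A x0 lam a : Ω →₂[P] ℝ) w) ∂P :=
      integral_congr_ae (ae_of_all _ fun ω => psi_semi hc ht _)
    rw [e4]
    linarith

theorem map_prob (Y : Ω →₂[P] ℝ) : IsProbabilityMeasure (P.map fun ω => Y ω) :=
  Measure.isProbabilityMeasure_map (Lp.memLp Y).1.aemeasurable

theorem law_cell (hC : CELL hBm hB) (hE : EQT hBm hB) {A : SD} {x0 : ℝ} {lam : Ω →₂[P] ℝ}
    (hL : LK hBm hB A x0 lam) {a b z : ℝ} (hc : IsCell A a b z) (hp : PCell A x0 a b z)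
    (ih : P.map (fun ω => (Xp hBm hB A x0 lam a : Ω →₂[P] ℝ) ω) = muA A x0 a) {t : ℝ}
    (ht : t ∈ Icc a b) :
    P.map (fun ω => (Xp hBm hB A x0 lam t : Ω →₂[P] ℝ) ω) = muA A x0 t := by
  have hBk := Back_847.back A
  have htT := hc.mem ht
  have := map_prob (P := P) (Xp hBm hB A x0 lam t)
  have := (muA_mom hBk x0 t htT).1
  refine ext_of_lip fun θ hl hb => ?_
  have hθ := lip_cont hl
  rw [integral_map (Lp.memLp _).1.aemeasurable hθ.aestronglyMeasurable,
    step_theta hBm hB hC hE hL hc ht hl hb, int_muA hBk x0 htT, base hBk hc hp ht (lip_pg hl hb)]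
  unfold ev
  rw [← ih, integral_map (Lp.memLp _).1.aemeasurable
    (tv_continuous hBk hc (lip_pg hl hb) ht).aestronglyMeasurable]

theorem law_zero (A : SD) (x0 : ℝ) (lam : Ω →₂[P] ℝ) :
    P.map (fun ω => (Xp hBm hB A x0 lam 0 : Ω →₂[P] ℝ) ω) = muA A x0 0 := by
  rw [Xp_zero]
  unfold muA
  rw [if_pos le_rfl, Measure.map_congr (cst_coe (P := P) x0), Measure.map_const]
  simp

/-- **the law of the process** -/
theorem lawt_of (hC : CELL hBm hB) (hE : EQT hBm hB) : LAWT hBm hB := by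
  intro A x0 lam hL
  refine cells_induct A x0 (fun s => ∀ t ∈ Icc 0 s,
    P.map (fun ω => (Xp hBm hB A x0 lam t : Ω →₂[P] ℝ) ω) = muA A x0 t) ?_ ?_
  · intro t ht
    have h : t = 0 := le_antisymm ht.2 ht.1
    rw [h]
    exact law_zero hBm hB A x0 lam
  · intro a b z hc hp ih t ht
    rcases le_or_gt t a with h | h
    · exact ih t ⟨ht.1, h⟩
    · exact law_cell hBm hB hC hE hL hc hp (ih a ⟨hc.a0, le_rfl⟩) ⟨h.le, ht.2⟩

end

end Crest.Agent.R146.BrLt_168
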