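import Crest.Agent.R146.BrIf_256
import Crest.Agent.R146.Back_847

/-!
# Row 146, R3 bridge: `CELL → UP` (helper52)
-/

set_option autoImplicit false

noncomputable section

open MeasureTheory Set Filter Topology ProbabilityTheory
open scoped InnerProductSpace RealInnerProductSpace NNReal ENNReal

namespace Crest.Agent.R146.BrUp_52

open Crest.ProbabilityR.Perceptron Crest.ProbabilityR.InvariantGlass
open Crest.Agent.R146.DualQ_256 Crest.Agent.R146.DualC1_256 Crest.Agent.R146.DualV_256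
  Crest.Agent.R146.DualL_256 Crest.Agent.R146.DualG_256 Crest.Agent.R146.CtlC_130
open Crest.Agent.R146.StepDef_791 Crest.Agent.R146.Cell_534 Crest.Agent.R146.PD_534
open Crest.Agent.R146.Br_256

/-! ### the Parisi function -/

/-- `ψ_t` is locally Lipschitz with a constant of linear growth -/
theorem psi_QL (A : SD) {t : ℝ} (ht : t ∈ Icc 0 A.T) : ∃ C, QL (A.psi t) C := by
  have hB := Back_847.back A
  obtain ⟨M, hM⟩ := hB.bsys
  have hD := A.D_pos t
  have hu : ∀ x y, |A.u t x - A.u t y| ≤ 1 * |x - y| := by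
    intro x y
    have h := (convex_univ : Convex ℝ (univ : Set ℝ)).norm_image_sub_le_of_norm_hasDerivWithin_le
      (f := A.u t) (f' := fun z => A.V t z - 1) (C := 1)
      (fun z _ => (hB.u_x t ht z).hasDerivWithinAt) (fun z _ => by
        rw [Real.norm_eq_abs, abs_le]
        have h1 := hM.V_pos t ht z
        have h2 := hM.V_lt t ht z
        constructor <;> linarith) (mem_univ y) (mem_univ x)
    simpa [Real.norm_eq_abs] using h
  refine ⟨_, QL.of_deriv (g1 := fun x => A.u t x / A.D t) (fun x => psi_x hB ht x)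
    (L := (A.D t)⁻¹) (inv_pos.2 hD).le fun x y => ?_⟩
  rw [← sub_div, abs_div, abs_of_pos hD, div_eq_inv_mul]
  refine mul_le_mul_of_nonneg_left ?_ (inv_pos.2 hD).le
  simpa using hu x y

theorem psi_semi (A : SD) {a b z : ℝ} (hc : IsCell A a b z) {s t : ℝ} (hs : s ∈ Icc a b)
    (ht : t ∈ Icc a b) (hst : s ≤ t) : gaussOp z (t - s) (A.psi t) = A.psi s := by
  have hB := Back_847.back A
  funext x
  obtain ⟨C, hC⟩ := psi_QL A (hc.mem hc.bI)
  rw [hc.psi_eq t ht, hc.psi_eq s hs]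
  rw [gaussOp_semi hC.cont (hB.psi_nonpos b (hc.mem hc.bI)) hc.z0 (by linarith)
    (by linarith [ht.2]) x]
  congr 1
  ring

theorem fA_QG {d : ℝ} (hd : 0 < d) : QG (fA d) (1 / (2 * d)) where
  nonneg := by positivity
  cont := by unfold fA; fun_prop
  bd := fun x => by
    unfold fA
    have h0 : 0 < 1 / (2 * d) := by positivity
    rw [abs_mul, abs_neg, abs_of_pos h0, abs_of_nonneg (sq_nonneg _)]
    have h1 : (max (-x) 0) ^ 2 ≤ x ^ 2 := by
      rcases le_total (-x) 0 with h | h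
      · rw [max_eq_right h]; nlinarith [sq_nonneg x]
      · rw [max_eq_left h]; nlinarith
    nlinarith [sq_nonneg x]

theorem psi_T (A : SD) (x : ℝ) :
    R164.GC.H (Real.sqrt (1 - A.T)) (fA A.d) x = A.psi A.T x := by
  have e : A.psi A.T = startPsi A.d A.dl := Psc_self A.hv _
  rw [e]
  unfold startPsi R164.GC.H fA Hg_534.H
  rw [← integral_const_mul]
  rfl

section

variable {Ω : Type*} [mΩ : MeasurableSpace Ω] {P : Measure Ω} [IsProbabilityMeasure P]
  {B : ℝ≥0 → Ω → ℝ} (hBm : ∀ t, Measurable (B t)) (hB : IsBrownianReal B P)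

/-! ### the process -/

theorem dZ_add (r s t : ℝ) : dZ hB r s + dZ hB s t = dZ hB r t := by
  unfold dZ; abel

theorem dZ_self (s : ℝ) : dZ hB s s = 0 := by
  unfold dZ; rw [sub_self]

theorem Go_Go (A : SD) (lam Y : Ω →₂[P] ℝ) {s t u : ℝ} (hs : 0 ≤ s) (hst : s ≤ t) (htu : t ≤ u)
    (hu : u ≤ 1) : Go hBm hB A lam t u (Go hBm hB A lam s t Y) = Go hBm hB A lam s u Y := by
  unfold Go
  rw [← OO_add (FB P B hBm) (wA A) hs hst htu hu lam, ← dZ_add hB s t u]
  abel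

theorem Go_self (A : SD) (lam Y : Ω →₂[P] ℝ) {s : ℝ} (hs : 0 ≤ s) (hs1 : s ≤ 1) :
    Go hBm hB A lam s s Y = Y := by
  unfold Go
  rw [dZ_self, OO_self (FB P B hBm) (wA A) hs hs1, add_zero, add_zero]

theorem fix_mono {s t : ℝ} (hst : s ≤ t) {Y : Ω →₂[P] ℝ}
    (hY : condPi (brownianFiltration B hBm) P s Y = Y) :
    condPi (brownianFiltration B hBm) P t Y = Y := by
  have h := (FB P B hBm).comp' hst Y
  have e : (FB P B hBm).Pi s Y = Y := hY
  rw [e] at h
  exact h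

theorem Zt_fix' {s t : ℝ} (hs : 0 ≤ s) (hst : s ≤ t) :
    condPi (brownianFiltration B hBm) P t (Zt hB s.toNNReal) = Zt hB s.toNNReal := by
  refine fix_mono hBm hst ?_
  have h := Zt_fix hBm hB s.toNNReal
  rwa [Real.coe_toNNReal s hs] at h

theorem Go_fix (A : SD) (lam : Ω →₂[P] ℝ) {s t : ℝ} (hs : 0 ≤ s) (hst : s ≤ t) (ht : t ≤ 1)
    {Y : Ω →₂[P] ℝ} (hY : condPi (brownianFiltration B hBm) P s Y = Y) :
    condPi (brownianFiltration B hBm) P t (Go hBm hB A lam s t Y) = Go hBm hB A lam s t Y := by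
  unfold Go dZ
  have h1 : condPi (brownianFiltration B hBm) P t (OO (FB P B hBm) (wA A) s t lam) =
      OO (FB P B hBm) (wA A) s t lam := Pi_OO (FB P B hBm) (wA A) hs hst ht le_rfl lam
  rw [map_add, map_add, map_sub, fix_mono hBm hst hY, Zt_fix' hBm hB (hs.trans hst) le_rfl,
    Zt_fix' hBm hB hs hst, h1]

theorem Cq_ii (A : SD) (lam : Ω →₂[P] ℝ) {s t : ℝ} (hs : 0 ≤ s) (hst : s ≤ t) (ht : t ≤ 1) :
    IntervalIntegrable (fun r => A.m r * (FB P B hBm).q lam r) volume s t :=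
  ii_w (FB P B hBm) (wA A) hs hst ht lam lam

theorem Cq_add (A : SD) (lam : Ω →₂[P] ℝ) {s t u : ℝ} (hs : 0 ≤ s) (hst : s ≤ t) (htu : t ≤ u)
    (hu : u ≤ 1) : Cq hBm A lam s t + Cq hBm A lam t u = Cq hBm A lam s u := by
  unfold Cq
  exact intervalIntegral.integral_add_adjacent_intervals
    (Cq_ii hBm A lam hs hst (htu.trans hu)) (Cq_ii hBm A lam (hs.trans hst) htu hu)

theorem Cq_self (A : SD) (lam : Ω →₂[P] ℝ) (s : ℝ) : Cq hBm A lam s s = 0 := by
  unfold Cq; rw [intervalIntegral.integral_same]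

theorem OO_end (A : SD) (lam : Ω →₂[P] ℝ) : OO (FB P B hBm) (wA A) A.T 1 lam = 0 := by
  refine ext_inner_right ℝ fun y => ?_
  rw [inner_OO (FB P B hBm) (wA A) A.hT0.le A.hT1.le le_rfl, inner_zero_left]
  rw [intervalIntegral.integral_congr (g := fun _ => (0 : ℝ)) fun r hr => ?_]
  · simp
  · rw [uIcc_of_le A.hT1.le] at hr
    simp only
    rw [StepClk_900.m_of_ge A hr.1, zero_mul]

theorem Cq_end (A : SD) (lam : Ω →₂[P] ℝ) : Cq hBm A lam A.T 1 = 0 := by
  unfold Cq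
  rw [intervalIntegral.integral_congr (g := fun _ => (0 : ℝ)) fun r hr => ?_]
  · simp
  · rw [uIcc_of_le A.hT1.le] at hr
    simp only
    rw [StepClk_900.m_of_ge A hr.1, zero_mul]

/-- the last stretch `[T,1]` -/
theorem last (A : SD) (lam : Ω →₂[P] ℝ) {Y : Ω →₂[P] ℝ}
    (hY : condPi (brownianFiltration B hBm) P A.T Y = Y) :
    ∫ ω, fA A.d ((Go hBm hB A lam A.T 1 Y : Ω →₂[P] ℝ) ω) ∂P = ∫ ω, A.psi A.T (Y ω) ∂P := by
  have e : Go hBm hB A lam A.T 1 Y =
      Y + (Zt hB (1 : ℝ).toNNReal - Zt hB A.T.toNNReal) := by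
    unfold Go dZ
    rw [OO_end, add_zero]
  rw [e, freeze hBm hB A.hT0.le A.hT1.le hY (fA_QG A.hd)]
  exact integral_congr_ae (ae_of_all _ fun ω => psi_T A (Y ω))

/-! ### the two inequalities -/

/-- inequality between the times `s` and `t` -/
def Stp (A : SD) (lam : Ω →₂[P] ℝ) (s t : ℝ) : Prop :=
  ∀ Y : Ω →₂[P] ℝ, condPi (brownianFiltration B hBm) P s Y = Y →
    ∫ ω, A.psi t ((Go hBm hB A lam s t Y : Ω →₂[P] ℝ) ω) ∂P - 1 / 2 * Cq hBm A lam s t ≤
      ∫ ω, A.psi s (Y ω) ∂P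

theorem Stp.trans {A : SD} {lam : Ω →₂[P] ℝ} {s t u : ℝ} (hs : 0 ≤ s) (hst : s ≤ t) (htu : t ≤ u)
    (hu : u ≤ 1) (h1 : Stp hBm hB A lam s t) (h2 : Stp hBm hB A lam t u) :
    Stp hBm hB A lam s u := by
  intro Y hY
  have a1 := h1 Y hY
  have a2 := h2 _ (Go_fix hBm hB A lam hs hst (htu.trans hu) hY)
  rw [Go_Go hBm hB A lam Y hs hst htu hu] at a2
  rw [← Cq_add hBm A lam hs hst htu hu]
  linarith

theorem stp_cell (hC : CELL (P := P) hBm hB) {A : SD} (lam : Ω →₂[P] ℝ) {a b z : ℝ}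
    (hc : IsCell A a b z) {s t : ℝ} (hs : a ≤ s) (hst : s ≤ t) (ht : t ≤ b) :
    Stp hBm hB A lam s t := by
  intro Y hY
  have hsm : s ∈ Icc a b := ⟨hs, hst.trans ht⟩
  have htm : t ∈ Icc a b := ⟨hs.trans hst, ht⟩
  obtain ⟨C, hQ⟩ := psi_QL A (hc.mem htm)
  have h := hC A lam s t z (hc.a0.trans hs) hst (ht.trans hc.bT) hc.z0
    (fun r hr => hc.m_eq r ⟨hs.trans hr.1.le, hr.2.trans_le ht⟩) Y hY (A.psi t) C 0 hQ
    ((Back_847.back A).psi_nonpos t (hc.mem htm))
  rwa [psi_semi A hc hsm htm hst] at h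

theorem stp_all (hC : CELL (P := P) hBm hB) (A : SD) (lam : Ω →₂[P] ℝ) :
    ∀ s t : ℝ, 0 ≤ s → s ≤ t → t ≤ A.T → Stp hBm hB A lam s t := by
  refine cells_induct A 0 (fun c => ∀ s t : ℝ, 0 ≤ s → s ≤ t → t ≤ c → Stp hBm hB A lam s t) ?_ ?_
  · intro s t hs hst ht Y _
    have e1 : s = 0 := le_antisymm (hst.trans ht) hs
    have e2 : t = 0 := le_antisymm ht (hs.trans hst)
    subst e1 e2
    rw [Go_self hBm hB A lam Y le_rfl zero_le_one, Cq_self]
    simp
  · intro a b z hc _ ih s t hs hst ht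
    rcases le_or_gt t a with h | h
    · exact ih s t hs hst h
    · rcases le_or_gt a s with h' | h'
      · exact stp_cell hBm hB hC lam hc h' hst ht
      · exact Stp.trans hBm hB hs h'.le h.le (ht.trans (hc.bT.trans A.hT1.le))
          (ih s a hs h'.le le_rfl) (stp_cell hBm hB hC lam hc le_rfl h.le ht)

/-- **`CELL → UP`** -/
theorem up (hC : CELL (P := P) hBm hB) : UP (P := P) hBm hB := by
  intro A lam
  refine ⟨fun s t hs hst ht => stp_all hBm hB hC A lam s t hs hst ht, ?_⟩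
  intro s hs hsT Y hY
  have h1 := stp_all hBm hB hC A lam s A.T hs hsT le_rfl Y hY
  have h2 := last hBm hB A lam (Go_fix hBm hB A lam hs hsT A.hT1.le hY)
  rw [Go_Go hBm hB A lam Y hs hsT A.hT1.le le_rfl] at h2
  rw [h2, ← Cq_add hBm A lam hs hsT A.hT1.le le_rfl, Cq_end, add_zero]
  exact h1

end

end Crest.Agent.R146.BrUp_52
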