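import Crest.Agent.R146.DualG_256

/-!
# Row 146, node G of 624 (helper256), part 2: the model and the bridge to `Dop`, `Q`

* `modelB` : `Lev2_576.Model (resB ..) P B hBm`;
* `op_eq_Dop`, `bil_eq_Q` : for an `OverlapProfile`, `A_m x = Dop m.tail x`,
  `bil m x x = Q m.tail x`;
* `lamH` : the optimal dual variable lies in `HH`; `value_eq_H`, `value_le_H`.
-/

set_option autoImplicit false

noncomputable section

open MeasureTheory Set Filter Topology ProbabilityTheory
open scoped InnerProductSpace RealInnerProductSpace NNReal ENNReal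

namespace Crest.Agent.R146.DualG_256

open Crest.ProbabilityR.Perceptron
open Crest.Agent.R146.DualQ_256 Crest.Agent.R146.DualC1_256 Crest.Agent.R146.DualV_256
  Crest.Agent.R146.DualL_256

variable {Ω : Type*} [mΩ : MeasurableSpace Ω] {P : Measure Ω} [IsProbabilityMeasure P]

section Tail

/-! ### the tail of a profile -/

theorem tail_cont (m : OverlapProfile) : ContinuousOn m.tail (Icc 0 1) := by
  have h2 : Continuous fun t => ∫ s in (0 : ℝ)..t, m.toFun s :=
    intervalIntegral.continuous_primitive (fun a b => m.mono.intervalIntegrable) 0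
  have h3 : Continuous fun t => (∫ s in (0 : ℝ)..1, m.toFun s) - ∫ s in (0 : ℝ)..t, m.toFun s :=
    continuous_const.sub h2
  refine h3.continuousOn.congr fun t _ => ?_
  exact (intervalIntegral.integral_interval_sub_left m.mono.intervalIntegrable
    m.mono.intervalIntegrable).symm

theorem tail_anti (m : OverlapProfile) : AntitoneOn m.tail (Icc 0 1) := by
  intro s hs t ht hst
  unfold OverlapProfile.tail
  rw [← intervalIntegral.integral_add_adjacent_intervals (a := s) (b := t) (c := 1)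
    m.mono.intervalIntegrable m.mono.intervalIntegrable]
  have : 0 ≤ ∫ u in s..t, m.toFun u :=
    intervalIntegral.integral_nonneg hst fun u hu => m.nonneg u ⟨hs.1.trans hu.1, hu.2.trans ht.2⟩
  linarith

theorem tail_nonneg (m : OverlapProfile) {t : ℝ} (ht : t ∈ Icc (0 : ℝ) 1) : 0 ≤ m.tail t :=
  intervalIntegral.integral_nonneg ht.2 fun u hu => m.nonneg u ⟨ht.1.trans hu.1, hu.2⟩

theorem tail_le (m : OverlapProfile) {t : ℝ} (ht : t ∈ Icc (0 : ℝ) 1) : m.tail t ≤ 1 - t := by
  have h : ∫ u in t..1, m.toFun u ≤ ∫ u in t..1, (1 : ℝ) :=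
    intervalIntegral.integral_mono_on ht.2 m.mono.intervalIntegrable
      intervalIntegrable_const fun u hu => m.le_one u ⟨ht.1.trans hu.1, hu.2⟩
  rw [intervalIntegral.integral_const, smul_eq_mul, mul_one] at h
  exact h

@[simp] theorem tail_one (m : OverlapProfile) : m.tail 1 = 0 := by
  unfold OverlapProfile.tail; simp

theorem tail_conc (m : OverlapProfile) : ConcaveOn ℝ (Icc 0 1) m.tail := by
  refine ⟨convex_Icc 0 1, ?_⟩
  intro x hx y hy p q hp hq hpq
  wlog hxy : x ≤ y generalizing x y p q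
  · have := this hy hx hq hp (by linarith) (le_of_not_ge hxy)
    rw [add_comm (p • x), add_comm (p • m.tail x)]; exact this
  simp only [smul_eq_mul]
  set z := p * x + q * y with hz
  have hpe : p = 1 - q := by linarith
  have hxz : x ≤ z := by
    have h0 := mul_nonneg hq (sub_nonneg.2 hxy)
    have e : z = x + q * (y - x) := by rw [hz, hpe]; ring
    linarith
  have hzy : z ≤ y := by
    have h0 := mul_nonneg hp (sub_nonneg.2 hxy)
    have e : z = y - p * (y - x) := by rw [hz, hpe]; ring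
    linarith
  have hzm : z ∈ Icc (0 : ℝ) 1 := ⟨hx.1.trans hxz, hzy.trans hy.2⟩
  have e1 : m.tail x = (∫ u in x..z, m.toFun u) + m.tail z := by
    unfold OverlapProfile.tail
    rw [intervalIntegral.integral_add_adjacent_intervals m.mono.intervalIntegrable
      m.mono.intervalIntegrable]
  have e2 : m.tail z = (∫ u in z..y, m.toFun u) + m.tail y := by
    unfold OverlapProfile.tail
    rw [intervalIntegral.integral_add_adjacent_intervals m.mono.intervalIntegrable
      m.mono.intervalIntegrable]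
  have h1 : ∫ u in x..z, m.toFun u ≤ m.toFun z * (z - x) := by
    calc ∫ u in x..z, m.toFun u ≤ ∫ u in x..z, m.toFun z :=
          intervalIntegral.integral_mono_on hxz m.mono.intervalIntegrable
            intervalIntegrable_const fun u hu => m.mono hu.2
      _ = m.toFun z * (z - x) := by rw [intervalIntegral.integral_const, smul_eq_mul]; ring
  have h2 : m.toFun z * (y - z) ≤ ∫ u in z..y, m.toFun u := by
    calc m.toFun z * (y - z) = ∫ u in z..y, m.toFun z := by
          rw [intervalIntegral.integral_const, smul_eq_mul]; ring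
      _ ≤ _ := intervalIntegral.integral_mono_on hzy intervalIntegrable_const
            m.mono.intervalIntegrable fun u hu => m.mono hu.1
  have h3 : p * (z - x) = q * (y - z) := by
    rw [hz, hpe]; ring
  have h4 := mul_le_mul_of_nonneg_left h1 hp
  have h5 := mul_le_mul_of_nonneg_left h2 hq
  have h6 : p * (m.toFun z * (z - x)) = q * (m.toFun z * (y - z)) := by
    rw [mul_left_comm, h3]; ring
  have e3 : p * m.tail x + q * m.tail y =
      m.tail z + p * (∫ u in x..z, m.toFun u) - q * (∫ u in z..y, m.toFun u) := by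
    have : m.tail y = m.tail z - ∫ u in z..y, m.toFun u := by linarith
    rw [e1, this, hpe]; ring
  rw [e3]; linarith

end Tail

section Brownian

variable {B : ℝ≥0 → Ω → ℝ} (hBm : ∀ t, Measurable (B t)) (hB : IsBrownianReal B P)

/-- the conditional expectations of the Brownian filtration on `HH` -/
abbrev RB (P : Measure Ω) [IsProbabilityMeasure P] (B : ℝ≥0 → Ω → ℝ)
    (hBm : ∀ t, Measurable (B t)) : Hilb.Res (HH P B hBm) := resB P (brownianFiltration B hBm)

variable (P B) in
/-- the model of `Lev2_576` -/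
def modelB : Lev2_576.Model (RB P B hBm) P B hBm where
  J := fun x => ((x : Ω →₂[P] ℝ) : Ω → ℝ)
  memLp := fun x => Lp.memLp (x : Ω →₂[P] ℝ)
  add := fun x y => Lp.coeFn_add (x : Ω →₂[P] ℝ) (y : Ω →₂[P] ℝ)
  smul := fun c x => Lp.coeFn_smul c (x : Ω →₂[P] ℝ)
  inner := fun x y => by
    rw [Submodule.coe_inner]
    exact (inner_eq (x : Ω →₂[P] ℝ) (y : Ω →₂[P] ℝ)).symm
  cond := fun t _ x => condPi_coe t (x : Ω →₂[P] ℝ)

@[simp] theorem modelB_J (x : HH P B hBm) :
    (modelB P B hBm).J x = ((x : Ω →₂[P] ℝ) : Ω → ℝ) := rfl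

theorem modelB_xi (k : ℝ) : (modelB P B hBm).J (xi hBm hB k) =ᵐ[P] fun ω => k + B 1 ω :=
  xi_coe hBm hB k

/-! ### bridging -/

theorem inner_Dop_tail (m : OverlapProfile) (x y : HH P B hBm) :
    ⟪y, (RB P B hBm).Dop m.tail x⟫_ℝ =
      (fam (brownianFiltration B hBm) P).bil m.toFun (x : Ω →₂[P] ℝ) (y : Ω →₂[P] ℝ) := by
  have h := (RB P B hBm).inner_Dop_eq_integral (D := m.tail) (m := m.toFun) (d := 0)
    (tail_cont m) m.mono.intervalIntegrable (fun t _ => by rw [zero_add]; rfl) x y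
  rw [h, zero_mul, add_zero, intervalIntegral.integral_of_le zero_le_one,
    ← integral_Icc_eq_integral_Ioc]
  unfold PF.bil
  refine integral_congr_ae (Eventually.of_forall fun t => ?_)
  simp only
  rw [Submodule.coe_inner, real_inner_comm]
  rfl

theorem bil_eq_Q (m : OverlapProfile) (x : HH P B hBm) :
    (fam (brownianFiltration B hBm) P).bil m.toFun (x : Ω →₂[P] ℝ) (x : Ω →₂[P] ℝ) =
      (RB P B hBm).Q m.tail x := (inner_Dop_tail hBm m x x).symm

theorem op_mem (m : OverlapProfile) (x : Ω →₂[P] ℝ) :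
    (fam (brownianFiltration B hBm) P).op (wt_profile m).isWeight x ∈ HH P B hBm := by
  set F := fam (brownianFiltration B hBm) P
  set A := F.op (wt_profile m).isWeight
  set K := HH P B hBm
  -- orthogonal complement argument
  have hc : IsClosed (K : Set (Ω →₂[P] ℝ)) := HB_closed
  rw [← K.orthogonal_orthogonal, Submodule.mem_orthogonal]
  intro y hy
  rw [Submodule.mem_orthogonal] at hy
  rw [real_inner_comm, PF.inner_op]
  unfold PF.bil
  have h1 : ∀ᵐ t ∂(volume.restrict (Icc (0 : ℝ) 1)), t ≠ 1 := by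
    refine ae_restrict_of_ae ?_
    rw [ae_iff]; simp
  refine integral_eq_zero_of_ae ?_
  filter_upwards [h1, ae_restrict_mem measurableSet_Icc] with t ht1 ht2
  have ht : t < 1 := lt_of_le_of_ne ht2.2 ht1
  have h2 := hy (condPi (brownianFiltration B hBm) P t x) (condPi_mem ht x)
  show m.toFun t * ⟪condPi (brownianFiltration B hBm) P t x, y⟫_ℝ = 0
  rw [h2, mul_zero]

theorem op_eq_Dop (m : OverlapProfile) (x : HH P B hBm) :
    (fam (brownianFiltration B hBm) P).op (wt_profile m).isWeight (x : Ω →₂[P] ℝ) =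
      (((RB P B hBm).Dop m.tail x : HH P B hBm) : Ω →₂[P] ℝ) := by
  set z : HH P B hBm := ⟨_, op_mem hBm m (x : Ω →₂[P] ℝ)⟩ with hz
  have : z = (RB P B hBm).Dop m.tail x := by
    refine ext_inner_left ℝ fun y => ?_
    rw [inner_Dop_tail, Submodule.coe_inner, real_inner_comm]
    exact PF.inner_op _ _ _ _
  rw [← this]

/-! ### the optimal dual variable lies in `HH` -/

theorem kkt_mem {x X : Ω →₂[P] ℝ} {b k : ℝ} {𝓕 : Filtration ℝ≥0 mΩ} (hX : X ∈ HB P 𝓕)
    (h : (x : Ω → ℝ) =ᵐ[P] fun ω => b * max (k - X ω) 0) : x ∈ HB P 𝓕 := by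
  -- `x` is the image of `X` by a Lipschitz function `g`
  set g : ℝ → ℝ := fun u => b * max (k - u) 0 with hg
  have hLg : ∀ u v, |g u - g v| ≤ |b| * |u - v| := by
    intro u v
    simp only [hg]
    rw [← mul_sub, abs_mul]
    refine mul_le_mul_of_nonneg_left ?_ (abs_nonneg b)
    have := abs_max_sub_max_le_abs (k - u) (k - v) 0
    refine this.trans (le_of_eq ?_)
    rw [show k - u - (k - v) = -(u - v) by ring, abs_neg]
  rw [mem_HB, tendsto_iff_norm_sub_tendsto_zero]
  have h0 := tendsto_iff_norm_sub_tendsto_zero.1 (mem_HB.1 hX)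
  have h1 : Tendsto (fun t : ℝ => |b| * ‖condPi 𝓕 P t X - X‖) (𝓝[<] 1) (𝓝 0) := by
    simpa using h0.const_mul |b|
  refine squeeze_zero' (Eventually.of_forall fun t => norm_nonneg _)
    (Eventually.of_forall fun t => ?_) h1
  -- a candidate: `g (E_t X)` is `F_t` measurable
  set Y := condPi 𝓕 P t X with hY
  have hgc : Continuous g := by simp only [hg]; fun_prop
  have hYg : MemLp (fun ω => g (Y ω)) 2 P := by
    have e1 : MemLp (fun ω => k - Y ω) 2 P := (memLp_const k).sub (Lp.memLp Y)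
    have e2 : MemLp (fun ω => max (k - Y ω) 0) 2 P := e1.pos_part
    exact e2.const_mul b
  set W : Ω →₂[P] ℝ := hYg.toLp _ with hW
  have hWc : (W : Ω → ℝ) =ᵐ[P] fun ω => g (Y ω) := MemLp.coeFn_toLp _
  have hfix : condPi 𝓕 P t W = W := by
    refine condPi_of_meas 𝓕 t W ?_
    refine AEStronglyMeasurable.congr ?_ hWc.symm
    exact hgc.comp_aestronglyMeasurable (condPi_meas 𝓕 t X)
  have h2 := norm_sub_condPi_le t (x := x) hfix
  rw [norm_sub_rev]
  refine h2.trans ?_
  have h3 : ‖x - W‖ ≤ ‖|b| • (X - Y)‖ := by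
    refine Lp.norm_le_norm_of_ae_le ?_
    filter_upwards [Lp.coeFn_sub x W, Lp.coeFn_smul |b| (X - Y), Lp.coeFn_sub X Y, h, hWc]
      with ω a1 a2 a3 a4 a5
    rw [a1, a2, Pi.sub_apply, Pi.smul_apply, a3, Pi.sub_apply, a4, a5, smul_eq_mul,
      Real.norm_eq_abs, Real.norm_eq_abs, abs_mul, abs_abs]
    exact hLg _ _
  refine h3.trans (le_of_eq ?_)
  rw [norm_smul, Real.norm_eq_abs, abs_abs, norm_sub_rev]

theorem XP_mem (m : OverlapProfile) {b : ℝ} (hb : 0 < b) (k : ℝ) :
    XP hBm hB m hb k ∈ HH P B hBm :=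
  (HH P B hBm).add_mem (ZB_mem hBm hB) (op_mem hBm m _)

theorem lamP_mem_HB (m : OverlapProfile) {b : ℝ} (hb : 0 < b) (k : ℝ) :
    lamP hBm hB m hb k ∈ HH P B hBm :=
  kkt_mem (XP_mem hBm hB m hb k) (lamP_kkt hBm hB m hb k)

/-- the optimal dual variable as an element of `HH` -/
def lamH (m : OverlapProfile) {b : ℝ} (hb : 0 < b) (k : ℝ) : HH P B hBm :=
  ⟨lamP hBm hB m hb k, lamP_mem_HB hBm hB m hb k⟩

theorem lamH_mem (m : OverlapProfile) {b : ℝ} (hb : 0 < b) (k : ℝ) :
    lamH hBm hB m hb k ∈ KB P B hBm := lamP_mem hBm hB m hb k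

/-- `QQ` in the frame of `HilbA_356` -/
theorem QQ_eq (m : OverlapProfile) (b k : ℝ) (x : HH P B hBm) :
    QQ (brownianFiltration B hBm) m.toFun b k (ZB hB) (x : Ω →₂[P] ℝ) =
      ⟪x, xi hBm hB (-k)⟫_ℝ + 1 / (2 * b) * ‖x‖ ^ 2 + 1 / 2 * (RB P B hBm).Q m.tail x := by
  rw [QQ_def, bil_eq_Q, Submodule.coe_inner]
  have h1 : ((xi hBm hB (-k) : HH P B hBm) : Ω →₂[P] ℝ) = ZB hB - cst P k := by
    show cst P (-k) + ZB hB = _
    have : cst P (-k) = - cst P k := by
      refine Lp.ext ?_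
      filter_upwards [cst_coe (P := P) (-k), cst_coe (P := P) k, Lp.coeFn_neg (cst P k)]
        with ω h1 h2 h3
      rw [h1, h3, Pi.neg_apply, h2]
    rw [this]; abel
  rw [h1, real_inner_comm]
  have h2 : ‖(x : Ω →₂[P] ℝ)‖ = ‖x‖ := rfl
  rw [h2]
  ring

/-- **(G)** the control value as a minimum over the cone of `HH` -/
theorem value_le_H (m : OverlapProfile) {b : ℝ} (hb : 0 < b) (k : ℝ) {x : HH P B hBm}
    (hx : x ∈ KB P B hBm) : controlValue P B hBm (fbk b k) m ≤
      ⟪x, xi hBm hB (-k)⟫_ℝ + 1 / (2 * b) * ‖x‖ ^ 2 + 1 / 2 * (RB P B hBm).Q m.tail x := by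
  rw [← QQ_eq hBm hB m b k x]
  exact value_fbk_le hBm hB m hb k hx

theorem value_eq_H (m : OverlapProfile) {b : ℝ} (hb : 0 < b) (k : ℝ) :
    controlValue P B hBm (fbk b k) m =
      ⟪lamH hBm hB m hb k, xi hBm hB (-k)⟫_ℝ + 1 / (2 * b) * ‖lamH hBm hB m hb k‖ ^ 2 +
        1 / 2 * (RB P B hBm).Q m.tail (lamH hBm hB m hb k) := by
  rw [← QQ_eq hBm hB m b k, value_fbk hBm hB m hb k]
  rfl

/-- the terminal variable: `X* - k = xi(-k) + Dop tail lam*` -/
theorem XP_eq (m : OverlapProfile) {b : ℝ} (hb : 0 < b) (k : ℝ) :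
    ((xi hBm hB (-k) + (RB P B hBm).Dop m.tail (lamH hBm hB m hb k) : HH P B hBm) : Ω → ℝ)
      =ᵐ[P] fun ω => XP hBm hB m hb k ω - k := by
  have h1 : ((xi hBm hB (-k) + (RB P B hBm).Dop m.tail (lamH hBm hB m hb k) : HH P B hBm) :
      Ω →₂[P] ℝ) = cst P (-k) + XP hBm hB m hb k := by
    show (cst P (-k) + ZB hB) + (((RB P B hBm).Dop m.tail (lamH hBm hB m hb k) : HH P B hBm) :
      Ω →₂[P] ℝ) = _
    rw [← op_eq_Dop]
    unfold XP
    rw [add_assoc]; rfl
  rw [h1]
  filter_upwards [Lp.coeFn_add (cst P (-k)) (XP hBm hB m hb k), cst_coe (P := P) (-k)]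
    with ω h2 h3
  rw [h2, Pi.add_apply, h3]; ring

end Brownian

end Crest.Agent.R146.DualG_256
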