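import Crest.Agent.R146.HilbA_356
import Crest.Agent.R146.ProfB_540
import Crest.Agent.R146.HilbE0_12

/-!
Node E (b → ∞), package P5, row 146 (helper12): comparison of the capped functional (`e = 1/b`)
with the zero temperature functional (`e = 0`), in the frame of `HilbA_356`.
-/

set_option autoImplicit false

open MeasureTheory Set Filter Topology
open scoped RealInnerProductSpace

namespace Crest.Agent.R146.HilbE

open Crest.Agent.R146.Hilb Crest.Agent.R146.ProfB_540

variable {H : Type*} [NormedAddCommGroup H] [InnerProductSpace ℝ H]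

/-- the functional `α⟨x,ξ⟩ + (α c/2)‖x‖² + (α/2) Q D x + ½ ∫ (1/D - e/(1-t))` -/
noncomputable def Je (R : Res H) [CompleteSpace H] (α c e : ℝ) (ξ x : H) (D : ℝ → ℝ) : ℝ :=
  α * ⟪x, ξ⟫ + α * c / 2 * ‖x‖ ^ 2 + α / 2 * R.Q D x
    + 1 / 2 * Ent e D

theorem cap_eq {e : ℝ} (t : ℝ) : 1 / (1 / e * (1 - t)) = e / (1 - t) := by
  rw [one_div, mul_inv, one_div, inv_inv, div_eq_mul_inv]

theorem entF_zero (D : ℝ → ℝ) : entF 0 D = fun t => 1 / D t := by
  funext t; simp only [entF, zero_div, sub_zero]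

theorem entF_cap (e : ℝ) (D : ℝ → ℝ) :
    entF e D = fun t => 1 / D t - 1 / (1 / e * (1 - t)) := by
  funext t; simp only [entF, cap_eq]

/-- truncation at the cap -/
theorem adm_cap {e : ℝ} (he : 0 < e) {D : ℝ → ℝ} (h : Adm 0 D) :
    Adm e (capD (1 / e) D) where
  prof :=
    { conc := capD_concave h.prof.conc
      anti := capD_antitone (by positivity) h.prof.anti
      cont := capD_continuous h.prof.cont
      pos := fun t ht => capD_pos (by positivity) (h.prof.pos t ht) ht.2
      one := capD_nonneg_one h.prof.one }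
  cap := fun t _ => by
    have := mul_le_mul_of_nonneg_left (capD_le_cap (1 / e) D t) he.le
    have e1 : e * (1 / e * (1 - t)) = 1 - t := by field_simp
    linarith
  int := by
    have hi : IntervalIntegrable (fun t => 1 / D t) volume 0 1 := by
      rw [← entF_zero]; exact h.int
    have := capD_integrable (b := 1 / e) (by positivity) h.prof.cont h.prof.pos hi
    rw [entF_cap]; exact this

section Complete

variable [CompleteSpace H] (R : Res H)

theorem Je_cap_le {α e : ℝ} (hα : 0 ≤ α) (he : 0 < e) (c : ℝ) (ξ x : H) {D : ℝ → ℝ}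
    (h : Adm 0 D) : Je R α c e ξ x (capD (1 / e) D) ≤ Je R α c 0 ξ x D := by
  have hi : IntervalIntegrable (fun t => 1 / D t) volume 0 1 := by
    rw [← entF_zero]; exact h.int
  have h1 := capD_integral_le (b := 1 / e) (by positivity) h.prof.cont h.prof.pos hi
  simp only [cap_eq] at h1
  have h2 : R.Q (capD (1 / e) D) x ≤ R.Q D x :=
    R.Q_mono (capD_continuous h.prof.cont) h.prof.cont (fun t _ => capD_le _ _ t) x
  have h3 := mul_le_mul_of_nonneg_left h2 (by positivity : 0 ≤ α / 2)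
  unfold Je Ent entF
  simp only [zero_div, sub_zero]
  linarith

theorem adm_add {e : ℝ} (he : 0 < e) {D : ℝ → ℝ} (h : Adm e D) :
    Adm 0 (fun t => D t + e) where
  prof :=
    { conc := h.prof.conc.add_const e
      anti := fun x hx y hy hxy => add_le_add (h.prof.anti hx hy hxy) le_rfl
      cont := h.prof.cont.add continuousOn_const
      pos := fun t ht => add_pos (h.prof.pos t ht) he
      one := by have := h.prof.one; positivity }
  cap := fun t ht => by rw [zero_mul]; linarith [ht.2]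
  int := by
    have := add_integrable (b := 1 / e) (by positivity) h.prof.cont (fun t ht => h.prof.nonneg ht)
    rw [one_div_one_div] at this
    rw [entF_zero]; exact this

theorem Je_add_le {α e : ℝ} (he : 0 < e) (he1 : e ≤ 1) (c : ℝ) (ξ x : H)
    {D : ℝ → ℝ} (h : Adm e D) :
    Je R α c 0 ξ x (fun t => D t + e) ≤
      Je R α c e ξ x D + α / 2 * e * ‖x‖ ^ 2 + 1 / 2 * (e * (1 + 2 * Real.log (1 / e))) := by
  have hb : 1 ≤ 1 / e := by rw [le_div_iff₀ he]; linarith
  have h1 := add_integral_le (b := 1 / e) hb h.prof.cont h.prof.pos h.prof.one ?_ ?_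
  · rw [one_div_one_div] at h1
    simp only [cap_eq] at h1
    have e1 : (1 + 2 * Real.log (1 / e)) / (1 / e) = e * (1 + 2 * Real.log (1 / e)) := by
      field_simp
    rw [e1] at h1
    have h2 : R.Q (fun t => D t + e) x = R.Q D x + e * ‖x‖ ^ 2 := by
      have := R.Q_add h.prof.cont (continuousOn_const : ContinuousOn (fun _ : ℝ => e) (Icc 0 1)) x
      rw [this, R.Q_const]
    unfold Je Ent entF
    rw [h2]
    simp only [zero_div, sub_zero]
    nlinarith [h1]
  · intro t ht
    have := h.cap t ht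
    rw [one_div, inv_mul_eq_div, le_div_iff₀ he]
    linarith
  · rw [← entF_cap]; exact h.int

theorem adm_top {e : ℝ} (he : 0 < e) : Adm e (fun t => 1 / e * (1 - t)) where
  prof := Prof.lin (by positivity)
  cap := fun t _ => le_of_eq (by field_simp)
  int := by
    have : entF e (fun t => 1 / e * (1 - t)) = fun _ => 0 := by
      funext t; simp only [entF, cap_eq, sub_self]
    rw [this]; exact intervalIntegrable_const

/-- a minimiser of the capped functional has norm at most `2‖ξ‖` -/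
theorem norm_le_of_min {α e : ℝ} (hα : 0 < α) (he : 0 < e) (ξ x : H) {D : ℝ → ℝ}
    (h : Adm e D) (hle : Je R α 1 e ξ x D ≤ 0) : ‖x‖ ≤ 2 * ‖ξ‖ := by
  have h1 : 0 ≤ R.Q D x := R.Q_nonneg h.prof.cont (fun t ht => h.prof.nonneg ht) x
  have h2 : 0 ≤ Ent e D := by
    have := cap_integral_nonneg (b := 1 / e) h.prof.pos (fun t ht => ?_)
    · simpa only [cap_eq, Ent, entF] using this
    · have := h.cap t ht
      rw [one_div, inv_mul_eq_div, le_div_iff₀ he]
      linarith
  have h3 : -(‖x‖ * ‖ξ‖) ≤ ⟪x, ξ⟫ := neg_le_of_abs_le (abs_real_inner_le_norm x ξ)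
  unfold Je at hle
  have h4 : α * (‖x‖ ^ 2 / 2 - ‖x‖ * ‖ξ‖) ≤ 0 := by nlinarith
  have h5 : ‖x‖ ^ 2 / 2 - ‖x‖ * ‖ξ‖ ≤ 0 := by
    by_contra hcon
    push Not at hcon
    nlinarith [mul_pos hα hcon]
  by_contra hcon
  push Not at hcon
  have hx : 0 < ‖x‖ := lt_of_le_of_lt (by positivity) hcon
  nlinarith

theorem Je_top (α c : ℝ) {e : ℝ} (ξ : H) :
    Je R α c e ξ 0 (fun t => 1 / e * (1 - t)) = 0 := by
  unfold Je Ent entF
  have : ∀ t : ℝ, 1 / (1 / e * (1 - t)) - e / (1 - t) = 0 := fun t => by rw [cap_eq, sub_self]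
  simp only [this]
  simp [Res.Q]

/-- the error of node E -/
noncomputable def errE (α r e : ℝ) : ℝ :=
  2 * α * e * r ^ 2 + 1 / 2 * (e * (1 + 2 * Real.log (1 / e)))

theorem errE_tendsto (α r : ℝ) : Tendsto (errE α r) (𝓝[>] 0) (𝓝 0) := by
  have h1 : Tendsto (fun e : ℝ => e * (1 + 2 * Real.log (1 / e))) (𝓝[>] 0) (𝓝 0) := by
    have h0 : Tendsto (fun e : ℝ => 1 / e) (𝓝[>] 0) atTop := by
      simpa using tendsto_inv_nhdsGT_zero (𝕜 := ℝ)
    have := err_tendsto.comp h0
    refine this.congr' ?_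
    filter_upwards [self_mem_nhdsWithin] with e he
    have he' : (e:ℝ) ≠ 0 := ne_of_gt he
    simp only [Function.comp]
    field_simp
  have h2 : Tendsto (fun e : ℝ => 2 * α * e * r ^ 2) (𝓝[>] 0) (𝓝 0) := by
    have : Tendsto (fun e : ℝ => 2 * α * e * r ^ 2) (𝓝 0) (𝓝 (2 * α * 0 * r ^ 2)) :=
      (by fun_prop : Continuous fun e : ℝ => 2 * α * e * r ^ 2).tendsto 0
    simp only [mul_zero, zero_mul] at this
    exact this.mono_left nhdsWithin_le_nhds
  have := h2.add (h1.const_mul (1/2))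
  rw [mul_zero, add_zero] at this
  exact this

/-- NODE E, main inequality: if `(x, D)` minimises the capped functional (`c = 1`, cap `e`) over
`K ×` admissible profiles, then `(x, D + e)` is admissible for the zero temperature functional and
minimises it up to `errE α ‖ξ‖ e → 0`. -/
theorem near_min {α e : ℝ} (hα : 0 < α) (he : 0 < e) (he1 : e ≤ 1) {K : Set H} (h0 : (0:H) ∈ K)
    (ξ x : H) {D : ℝ → ℝ} (hD : Adm e D)
    (hmin : ∀ y ∈ K, ∀ D', Adm e D' → Je R α 1 e ξ x D ≤ Je R α 1 e ξ y D') :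
    ‖x‖ ≤ 2 * ‖ξ‖ ∧ Adm 0 (fun t => D t + e) ∧
      ∀ y ∈ K, ∀ D', Adm 0 D' →
        Je R α 1 0 ξ x (fun t => D t + e) ≤ Je R α 1 0 ξ y D' + errE α ‖ξ‖ e := by
  have hn : ‖x‖ ≤ 2 * ‖ξ‖ := by
    refine norm_le_of_min R hα he ξ x hD ?_
    have := hmin 0 h0 _ (adm_top he)
    rwa [Je_top] at this
  refine ⟨hn, adm_add he hD, fun y hy D' hD' => ?_⟩
  have h1 := Je_add_le R (α := α) he he1 1 ξ x hD
  have h2 := hmin y hy _ (adm_cap he hD')
  have h3 := Je_cap_le R hα.le he 1 ξ y hD'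
  have h4 : ‖x‖ ^ 2 ≤ 4 * ‖ξ‖ ^ 2 := by nlinarith [norm_nonneg x, norm_nonneg ξ]
  have h5 : α / 2 * e * ‖x‖ ^ 2 ≤ 2 * α * e * ‖ξ‖ ^ 2 := by
    have : 0 ≤ α / 2 * e := by positivity
    nlinarith [mul_le_mul_of_nonneg_left h4 this]
  unfold errE
  linarith

end Complete

end Crest.Agent.R146.HilbE
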