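import Crest.Agent.R146.ProfB_540

/-!
# Entropy of profiles (node B of the split 624, row 146)
-/

namespace Crest.Agent.R146.ProfC_540

open Set MeasureTheory Filter Topology
open Crest.Agent.R146.ProfA_540 Crest.Agent.R146.ProfB_540

/-- the measure of all integrals below -/
lemma restrict_eq : (volume : Measure ℝ).restrict (Ioc 0 1) = volume.restrict (Ioo 0 1) :=
  (Measure.restrict_congr_set Ioo_ae_eq_Ioc).symm

lemma ae_Ioo {p : ℝ → Prop} (h : ∀ t ∈ Ioo (0 : ℝ) 1, p t) :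
    ∀ᵐ t ∂(volume : Measure ℝ).restrict (Ioc 0 1), p t := by
  rw [restrict_eq]
  exact (ae_restrict_mem measurableSet_Ioo).mono h

lemma intervalIntegrable_iff' {f : ℝ → ℝ} :
    IntervalIntegrable f volume 0 1 ↔ Integrable f (volume.restrict (Ioc 0 1)) := by
  rw [intervalIntegrable_iff_integrableOn_Ioc_of_le zero_le_one]; rfl

lemma integral_eq (f : ℝ → ℝ) :
    ∫ t in (0 : ℝ)..1, f t = ∫ t in Ioc (0 : ℝ) 1, f t :=
  intervalIntegral.integral_of_le zero_le_one

/-- monotonicity of the interval integral when only the values on `(0,1)` matter -/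
lemma integral_mono_Ioo {f g : ℝ → ℝ} (hf : IntervalIntegrable f volume 0 1)
    (hg : IntervalIntegrable g volume 0 1) (h : ∀ t ∈ Ioo (0 : ℝ) 1, f t ≤ g t) :
    ∫ t in (0 : ℝ)..1, f t ≤ ∫ t in (0 : ℝ)..1, g t := by
  rw [integral_eq, integral_eq]
  exact integral_mono_ae (intervalIntegrable_iff'.1 hf) (intervalIntegrable_iff'.1 hg) (ae_Ioo h)

lemma integral_congr_Ioo {f g : ℝ → ℝ} (h : ∀ t ∈ Ioo (0 : ℝ) 1, f t = g t) :
    ∫ t in (0 : ℝ)..1, f t = ∫ t in (0 : ℝ)..1, g t := by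
  rw [integral_eq, integral_eq]
  exact integral_congr_ae (ae_Ioo h)

lemma integral_nonneg_Ioo {f : ℝ → ℝ} (h : ∀ t ∈ Ioo (0 : ℝ) 1, 0 ≤ f t) :
    0 ≤ ∫ t in (0 : ℝ)..1, f t := by
  rw [integral_eq]
  exact integral_nonneg_of_ae (ae_Ioo h)

lemma intervalIntegrable_congr_Ioo {f g : ℝ → ℝ} (h : ∀ t ∈ Ioo (0 : ℝ) 1, f t = g t) :
    IntervalIntegrable f volume 0 1 ↔ IntervalIntegrable g volume 0 1 := by
  rw [intervalIntegrable_iff', intervalIntegrable_iff']
  exact integrable_congr (ae_Ioo h)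

lemma intervalIntegrable_of_le {f g : ℝ → ℝ} (hg : IntervalIntegrable g volume 0 1)
    (hf : ContinuousOn f (Ioo 0 1)) (h0 : ∀ t ∈ Ioo (0 : ℝ) 1, 0 ≤ f t)
    (h : ∀ t ∈ Ioo (0 : ℝ) 1, f t ≤ g t) : IntervalIntegrable f volume 0 1 := by
  rw [intervalIntegrable_iff'] at hg ⊢
  refine hg.mono' ?_ ?_
  · rw [restrict_eq]; exact hf.aestronglyMeasurable measurableSet_Ioo
  · refine ae_Ioo fun t ht => ?_
    rw [Real.norm_eq_abs, abs_of_nonneg (h0 t ht)]
    exact h t ht

section basic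

variable {D E : ℝ → ℝ} {e : ℝ}

lemma Ioo_sub_Ico {t : ℝ} (ht : t ∈ Ioo (0 : ℝ) 1) : t ∈ Ico (0 : ℝ) 1 := ⟨ht.1.le, ht.2⟩

lemma Ioo_sub_Icc {t : ℝ} (ht : t ∈ Ioo (0 : ℝ) 1) : t ∈ Icc (0 : ℝ) 1 := ⟨ht.1.le, ht.2.le⟩

lemma continuousOn_entF (h : Prof D) (e : ℝ) : ContinuousOn (entF e D) (Ico 0 1) := by
  unfold entF
  refine ContinuousOn.sub ?_ ?_
  · refine continuousOn_const.div (h.cont.mono Ico_subset_Icc_self) fun t ht => (h.pos t ht).ne'
  · refine continuousOn_const.div (by fun_prop) fun t ht => ?_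
    have := ht.2
    exact (sub_pos.2 this).ne'

lemma entF_nonneg (h : Prof D) (hcap : ∀ t ∈ Icc (0 : ℝ) 1, e * D t ≤ 1 - t) {t : ℝ}
    (ht : t ∈ Ico (0 : ℝ) 1) : 0 ≤ entF e D t := by
  unfold entF
  have h1 := h.pos t ht
  have h2 : 0 < 1 - t := sub_pos.2 ht.2
  rw [sub_nonneg, div_le_div_iff₀ h2 h1]
  have := hcap t ⟨ht.1, ht.2.le⟩
  linarith

lemma Ent_nonneg (h : Adm e D) : 0 ≤ Ent e D :=
  integral_nonneg_Ioo fun _ ht => entF_nonneg h.prof h.cap (Ioo_sub_Ico ht)

/-- comparison: a capped profile above an admissible one is admissible -/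
lemma Adm.of_le (h : Adm e D) (k : Prof E) (hcap : ∀ t ∈ Icc (0 : ℝ) 1, e * E t ≤ 1 - t)
    (hle : ∀ t ∈ Ioo (0 : ℝ) 1, D t ≤ E t) : Adm e E ∧ Ent e E ≤ Ent e D := by
  have h2 : ∀ t ∈ Ioo (0 : ℝ) 1, entF e E t ≤ entF e D t := fun t ht => by
    unfold entF
    have := one_div_le_one_div_of_le (h.prof.pos t (Ioo_sub_Ico ht)) (hle t ht)
    linarith
  have h3 : IntervalIntegrable (entF e E) volume 0 1 :=
    intervalIntegrable_of_le h.int ((continuousOn_entF k e).mono Ioo_subset_Ico_self)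
      (fun t ht => entF_nonneg k hcap (Ioo_sub_Ico ht)) h2
  exact ⟨⟨k, hcap, h3⟩, integral_mono_Ioo h3 h.int h2⟩

/-- scaling -/
lemma Adm.smul (h : Adm e D) {c : ℝ} (hc : 0 < c) :
    Adm (e / c) (fun t => c * D t) ∧ Ent (e / c) (fun t => c * D t) = Ent e D / c := by
  have h1 : ∀ t ∈ Ioo (0 : ℝ) 1, entF (e / c) (fun t => c * D t) t = entF e D t / c := by
    intro t ht
    unfold entF
    have h1 := h.prof.pos t (Ioo_sub_Ico ht)
    have h2 : 0 < 1 - t := sub_pos.2 ht.2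
    field_simp
  refine ⟨⟨h.prof.smul hc, fun t ht => ?_, ?_⟩, ?_⟩
  · have := h.cap t ht
    have e1 : e / c * (c * D t) = e * D t := by field_simp
    rw [e1]; exact this
  · rw [intervalIntegrable_congr_Ioo h1]
    exact h.int.div_const c
  · unfold Ent
    rw [integral_congr_Ioo h1, intervalIntegral.integral_div]

/-- parallel sums add the entropies -/
lemma Adm.par {e' : ℝ} (h : Adm e D) (k : Adm e' E) :
    Adm (e + e') (par D E) ∧ Ent (e + e') (par D E) = Ent e D + Ent e' E := by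
  have h1 : ∀ t ∈ Ioo (0 : ℝ) 1, entF (e + e') (ProfB_540.par D E) t
      = entF e D t + entF e' E t := by
    intro t ht
    unfold entF
    rw [one_div_par h.prof k.prof (Ioo_sub_Ico ht)]
    ring
  refine ⟨⟨h.prof.par k.prof, fun t ht => ?_, ?_⟩, ?_⟩
  · have h2 := h.cap t ht
    have h3 := k.cap t ht
    have p1 := h.prof.nonneg ht
    have p2 := k.prof.nonneg ht
    unfold ProfB_540.par psum
    rcases eq_or_lt_of_le (add_nonneg p1 p2) with h0 | h0
    · rw [← h0, div_zero, mul_zero]; linarith [ht.2]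
    · rw [mul_div_assoc', div_le_iff₀ h0]
      nlinarith [mul_le_mul_of_nonneg_right h2 p2, mul_le_mul_of_nonneg_right h3 p1]
  · rw [intervalIntegrable_congr_Ioo h1]
    exact h.int.add k.int
  · unfold Ent
    rw [integral_congr_Ioo h1, intervalIntegral.integral_add h.int k.int]

/-- harmonic mean: the entropy is affine -/
lemma Adm.harm (h : Adm e D) (k : Adm e E) :
    Adm e (harm D E) ∧ Ent e (harm D E) = (Ent e D + Ent e E) / 2 := by
  obtain ⟨h1, h2⟩ := Adm.par h k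
  obtain ⟨h3, h4⟩ := Adm.smul h1 (c := 2) (by norm_num)
  have e1 : (e + e) / 2 = e := by ring
  rw [e1] at h3 h4
  exact ⟨h3, h4.trans (by rw [h2])⟩

/-- weighted form: `1 / D' = p / D + q / E` with `p + q = 1` -/
lemma Adm.wharm (h : Adm e D) (k : Adm e E) {p q : ℝ} (hp : 0 < p) (hq : 0 < q)
    (hpq : p + q = 1) :
    Adm e (ProfB_540.par (fun t => p⁻¹ * D t) (fun t => q⁻¹ * E t)) ∧
    Ent e (ProfB_540.par (fun t => p⁻¹ * D t) (fun t => q⁻¹ * E t))
      = p * Ent e D + q * Ent e E := by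
  obtain ⟨h1, h2⟩ := Adm.smul h (c := p⁻¹) (inv_pos.2 hp)
  obtain ⟨k1, k2⟩ := Adm.smul k (c := q⁻¹) (inv_pos.2 hq)
  obtain ⟨h3, h4⟩ := Adm.par h1 k1
  have e1 : e / p⁻¹ + e / q⁻¹ = e := by
    rw [div_inv_eq_mul, div_inv_eq_mul, ← mul_add, hpq, mul_one]
  rw [e1] at h3 h4
  refine ⟨h3, h4.trans ?_⟩
  rw [h2, k2, div_inv_eq_mul, div_inv_eq_mul]
  ring

/-- convex combinations -/
noncomputable def cmean (p q : ℝ) (D E : ℝ → ℝ) (t : ℝ) : ℝ := p * D t + q * E t

lemma inv_cmean_le {p q a b : ℝ} (hp : 0 ≤ p) (hq : 0 ≤ q) (hpq : p + q = 1) (ha : 0 < a)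
    (hb : 0 < b) : 1 / (p * a + q * b) ≤ p * (1 / a) + q * (1 / b) := by
  have h0 : 0 < p * a + q * b := by
    rcases eq_or_lt_of_le hp with h | h
    · have : q = 1 := by linarith
      rw [← h, this]; simpa using hb
    · have := mul_pos h ha
      have := mul_nonneg hq hb.le
      linarith
  have hq' : q = 1 - p := by linarith
  rw [div_le_iff₀ h0]
  have e1 : (p * (1 / a) + q * (1 / b)) * (p * a + q * b)
      = 1 + p * q * ((a - b) ^ 2 / (a * b)) := by
    subst hq'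
    field_simp
    ring
  rw [e1]
  have : 0 ≤ p * q * ((a - b) ^ 2 / (a * b)) := by positivity
  linarith

lemma Prof.cmean (h : Prof D) (k : Prof E) {p q : ℝ} (hp : 0 ≤ p) (hq : 0 ≤ q)
    (hpq : p + q = 1) : Prof (cmean p q D E) := by
  rcases eq_or_lt_of_le hp with h0 | h0
  · have : q = 1 := by linarith
    have e1 : ProfC_540.cmean p q D E = E := by
      funext t; unfold ProfC_540.cmean; rw [← h0, this]; ring
    rw [e1]; exact k
  rcases eq_or_lt_of_le hq with h1 | h1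
  · have : p = 1 := by linarith
    have e1 : ProfC_540.cmean p q D E = D := by
      funext t; unfold ProfC_540.cmean; rw [← h1, this]; ring
    rw [e1]; exact h
  exact (h.smul h0).add (k.smul h1)

lemma Adm.cmean (h : Adm e D) (k : Adm e E) {p q : ℝ} (hp : 0 ≤ p) (hq : 0 ≤ q)
    (hpq : p + q = 1) :
    Adm e (cmean p q D E) ∧ Ent e (cmean p q D E) ≤ p * Ent e D + q * Ent e E := by
  have hP := Prof.cmean h.prof k.prof hp hq hpq
  have hcap : ∀ t ∈ Icc (0 : ℝ) 1, e * ProfC_540.cmean p q D E t ≤ 1 - t := fun t ht => by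
    have h1 := mul_le_mul_of_nonneg_left (h.cap t ht) hp
    have h2 := mul_le_mul_of_nonneg_left (k.cap t ht) hq
    have e1 : (1 - t) = p * (1 - t) + q * (1 - t) := by rw [← add_mul, hpq, one_mul]
    unfold ProfC_540.cmean
    rw [e1]; nlinarith
  have hint : IntervalIntegrable (fun t => p * entF e D t + q * entF e E t) volume 0 1 :=
    (h.int.const_mul p).add (k.int.const_mul q)
  have hle : ∀ t ∈ Ioo (0 : ℝ) 1, entF e (ProfC_540.cmean p q D E) t
      ≤ p * entF e D t + q * entF e E t := fun t ht => by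
    have h1 := inv_cmean_le hp hq hpq (h.prof.pos t (Ioo_sub_Ico ht))
      (k.prof.pos t (Ioo_sub_Ico ht))
    have e1 : e / (1 - t) = p * (e / (1 - t)) + q * (e / (1 - t)) := by
      rw [← add_mul, hpq, one_mul]
    unfold entF ProfC_540.cmean
    linarith
  have hI : IntervalIntegrable (entF e (ProfC_540.cmean p q D E)) volume 0 1 :=
    intervalIntegrable_of_le hint ((continuousOn_entF hP e).mono Ioo_subset_Ico_self)
      (fun t ht => entF_nonneg hP hcap (Ioo_sub_Ico ht)) hle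
  refine ⟨⟨hP, hcap, hI⟩, ?_⟩
  have := integral_mono_Ioo hI hint hle
  unfold Ent
  rw [intervalIntegral.integral_add (h.int.const_mul p) (k.int.const_mul q),
    intervalIntegral.integral_const_mul, intervalIntegral.integral_const_mul] at this
  exact this

lemma amean_eq (D E : ℝ → ℝ) : amean D E = cmean (1 / 2) (1 / 2) D E := by
  funext t; unfold amean cmean; ring

/-- arithmetic mean: strict convexity of the entropy with the `L²` distance of the profiles -/
lemma Adm.amean (h : Adm e D) (k : Adm e E) {C : ℝ} (hC : D 0 ≤ C) (hC' : E 0 ≤ C) :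
    Adm e (amean D E) ∧
    Ent e (amean D E) + (∫ t in (0 : ℝ)..1, (D t - E t) ^ 2) / (4 * C ^ 3)
      ≤ (Ent e D + Ent e E) / 2 := by
  have h0 := Adm.cmean h k (p := 1 / 2) (q := 1 / 2) (by norm_num) (by norm_num) (by norm_num)
  rw [← amean_eq] at h0
  refine ⟨h0.1, ?_⟩
  have hCp : 0 < C := h.prof.pos_zero.trans_le hC
  have hsq : IntervalIntegrable (fun t => (D t - E t) ^ 2) volume 0 1 := by
    refine ContinuousOn.intervalIntegrable ?_
    rw [uIcc_of_le zero_le_one]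
    exact (h.prof.cont.sub k.prof.cont).pow 2
  have hle : ∀ t ∈ Ioo (0 : ℝ) 1, entF e (ProfB_540.amean D E) t + (D t - E t) ^ 2 / (4 * C ^ 3)
      ≤ (entF e D t + entF e E t) / 2 := fun t ht => by
    have h1 := h.prof.pos t (Ioo_sub_Ico ht)
    have h2 := k.prof.pos t (Ioo_sub_Ico ht)
    have h3 := inv_deficit_le h1 h2 ((h.prof.le_zero (Ioo_sub_Icc ht)).trans hC)
      ((k.prof.le_zero (Ioo_sub_Icc ht)).trans hC')
    have h4 : (D t - E t) ^ 2 / (4 * C ^ 3) ≤ (1 / D t + 1 / E t) / 2 - 2 / (D t + E t) := by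
      rw [div_le_iff₀ (by positivity)]; linarith
    have e1 : 1 / ((D t + E t) / 2) = 2 / (D t + E t) := by rw [one_div_div]
    unfold entF ProfB_540.amean
    rw [e1]
    linarith
  have h5 := integral_mono_Ioo (h0.1.int.add (hsq.div_const (4 * C ^ 3)))
    ((h.int.add k.int).div_const 2) hle
  unfold Ent
  rw [intervalIntegral.integral_add h0.1.int (hsq.div_const (4 * C ^ 3)),
    intervalIntegral.integral_div, intervalIntegral.integral_div,
    intervalIntegral.integral_add h.int k.int] at h5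
  exact h5

end basic

section examples

lemma Adm.const {c : ℝ} (hc : 0 < c) : Adm 0 (fun _ => c) ∧ Ent 0 (fun _ => c) = 1 / c := by
  refine ⟨⟨Prof.const hc, fun t ht => ?_, ?_⟩, ?_⟩
  · simpa using ht.2
  · have : entF 0 (fun _ : ℝ => c) = fun _ => 1 / c := by funext t; simp [entF]
    rw [this]; exact intervalIntegrable_const
  · have : entF 0 (fun _ : ℝ => c) = fun _ => 1 / c := by funext t; simp [entF]
    unfold Ent
    rw [this]; simp

/-- the cap itself has zero entropy -/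
lemma Adm.lin {e : ℝ} (he : 0 < e) :
    Adm e (fun t => e⁻¹ * (1 - t)) ∧ Ent e (fun t => e⁻¹ * (1 - t)) = 0 := by
  have h1 : ∀ t ∈ Ioo (0 : ℝ) 1, entF e (fun t => e⁻¹ * (1 - t)) t = (fun _ => (0 : ℝ)) t := by
    intro t ht
    unfold entF
    have h2 : 0 < 1 - t := sub_pos.2 ht.2
    field_simp
    simp
  refine ⟨⟨Prof.lin (inv_pos.2 he), fun t ht => ?_, ?_⟩, ?_⟩
  · rw [← mul_assoc, mul_inv_cancel₀ he.ne', one_mul]
  · rw [intervalIntegrable_congr_Ioo h1]
    exact intervalIntegrable_const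
  · unfold Ent
    rw [integral_congr_Ioo h1]
    simp

end examples

end Crest.Agent.R146.ProfC_540
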