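import Crest.Agent.R146.HilbB_356
import Crest.Agent.R146.HilbE1_12
import Crest.Agent.R146.ProfC_540

/-!
# R146, package P5, node D (helper356): KKT conditions

For the functional `Je R α c e ξ x D` of `HilbE1_12`:
* `kkt_x`, `growth_x`, `min_of_kkt_x` : the `x`-variation at fixed `D`;
* `kkt_D` : the `D`-variation at fixed `x`: `∫ (D'-D)/D² ≤ α (Q D' x - Q D x)`;
* `kkt_scale` (`e = 0`): `∫ 1/D = α Q D x`; `min_of_kkt_D` : the converse.
-/

set_option autoImplicit false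

open MeasureTheory Set Filter Topology
open scoped RealInnerProductSpace

namespace Crest.Agent.R146.HilbD

open Crest.Agent.R146.Hilb Crest.Agent.R146.HilbE Crest.Agent.R146.ProfB_540

variable {H : Type*} [NormedAddCommGroup H] [InnerProductSpace ℝ H]

/-- convex cones, as sets -/
structure IsCone (K : Set H) : Prop where
  zero : (0 : H) ∈ K
  add : ∀ x ∈ K, ∀ y ∈ K, x + y ∈ K
  smul : ∀ r : ℝ, 0 ≤ r → ∀ x ∈ K, r • x ∈ K

section Complete

variable [CompleteSpace H] (R : Res H)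

/-- the `x`-part of the functional -/
noncomputable def Fx (c : ℝ) (ξ : H) (D : ℝ → ℝ) (x : H) : ℝ :=
  ⟪x, ξ⟫ + c / 2 * ‖x‖ ^ 2 + 1 / 2 * R.Q D x

/-- the `D`-part of the functional -/
noncomputable def Gd (α e : ℝ) (x : H) (D : ℝ → ℝ) : ℝ :=
  α * R.Q D x + Ent e D

lemma Je_eq_Fx (α c e : ℝ) (ξ x : H) (D : ℝ → ℝ) :
    Je R α c e ξ x D = α * Fx R c ξ D x + 1 / 2 * Ent e D := by
  unfold Je Fx; ring

lemma Je_eq_Gd (α c e : ℝ) (ξ x : H) (D : ℝ → ℝ) :
    Je R α c e ξ x D = α * ⟪x, ξ⟫ + α * c / 2 * ‖x‖ ^ 2 + 1 / 2 * Gd R α e x D := by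
  unfold Je Gd; ring

/-- the KKT vector -/
noncomputable def hvec (c : ℝ) (ξ : H) (D : ℝ → ℝ) (x : H) : H := ξ + c • x + R.Dop D x

lemma Fx_expand {D : ℝ → ℝ} (hD : ContinuousOn D (Icc 0 1)) (c : ℝ) (ξ x z : H) :
    Fx R c ξ D (x + z) = Fx R c ξ D x + ⟪z, hvec R c ξ D x⟫ + c / 2 * ‖z‖ ^ 2 + 1 / 2 * R.Q D z := by
  unfold Fx hvec
  rw [R.Q_add_vec hD, inner_add_left, norm_add_sq_real, inner_add_right, inner_add_right,
    real_inner_smul_right, real_inner_comm x z]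
  ring

/-- KKT in `x` -/
theorem kkt_x {K : Set H} (hK : IsCone K) {D : ℝ → ℝ} (hD : ContinuousOn D (Icc 0 1))
    (c : ℝ) (ξ x : H) (hx : x ∈ K) (hmin : ∀ y ∈ K, Fx R c ξ D x ≤ Fx R c ξ D y) :
    (∀ y ∈ K, 0 ≤ ⟪y, hvec R c ξ D x⟫) ∧ ⟪x, hvec R c ξ D x⟫ = 0 := by
  -- first order condition in a feasible direction
  have key : ∀ z : H, (∀ s : ℝ, 0 < s → s < 1 → x + s • z ∈ K) → 0 ≤ ⟪z, hvec R c ξ D x⟫ := by
    intro z hz
    have h1 : ∀ s : ℝ, 0 < s → s < 1 →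
        0 ≤ ⟪z, hvec R c ξ D x⟫ + s * (c / 2 * ‖z‖ ^ 2 + 1 / 2 * R.Q D z) := by
      intro s hs hs1
      have h2 := hmin _ (hz s hs hs1)
      rw [Fx_expand R hD, real_inner_smul_left, norm_smul, R.Q_smul_vec, mul_pow,
        Real.norm_eq_abs, sq_abs] at h2
      have h3 : 0 ≤ s * (⟪z, hvec R c ξ D x⟫ + s * (c / 2 * ‖z‖ ^ 2 + 1 / 2 * R.Q D z)) := by
        nlinarith
      exact nonneg_of_mul_nonneg_right h3 hs
    have h4 : Tendsto (fun s : ℝ => ⟪z, hvec R c ξ D x⟫ +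
        s * (c / 2 * ‖z‖ ^ 2 + 1 / 2 * R.Q D z)) (𝓝[>] 0)
        (𝓝 (⟪z, hvec R c ξ D x⟫ + 0 * (c / 2 * ‖z‖ ^ 2 + 1 / 2 * R.Q D z))) :=
      (tendsto_const_nhds.add (tendsto_id.mul_const _)).mono_left nhdsWithin_le_nhds
    rw [zero_mul, add_zero] at h4
    refine ge_of_tendsto h4 ?_
    filter_upwards [Ioo_mem_nhdsGT (zero_lt_one' ℝ)] with s hs using h1 s hs.1 hs.2
  have hA : ∀ y ∈ K, 0 ≤ ⟪y, hvec R c ξ D x⟫ := fun y hy =>
    key y fun s hs _ => hK.add x hx _ (hK.smul s hs.le y hy)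
  refine ⟨hA, le_antisymm ?_ (hA x hx)⟩
  have h1 := key (-x) fun s hs hs1 => by
    have : x + s • (-x) = (1 - s) • x := by rw [smul_neg, sub_smul, one_smul]; abel
    rw [this]
    exact hK.smul _ (by linarith) x hx
  rw [inner_neg_left] at h1
  linarith

/-- quadratic growth around a KKT point -/
theorem growth_x {K : Set H} {D : ℝ → ℝ} (hD : ContinuousOn D (Icc 0 1))
    (c : ℝ) (ξ x : H) (h1 : ∀ y ∈ K, 0 ≤ ⟪y, hvec R c ξ D x⟫) (h2 : ⟪x, hvec R c ξ D x⟫ = 0)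
    {y : H} (hy : y ∈ K) :
    Fx R c ξ D x + c / 2 * ‖y - x‖ ^ 2 + 1 / 2 * R.Q D (y - x) ≤ Fx R c ξ D y := by
  have h3 := Fx_expand R hD c ξ x (y - x)
  rw [add_sub_cancel, inner_sub_left, h2] at h3
  have := h1 y hy
  linarith

theorem min_of_kkt_x {K : Set H} {D : ℝ → ℝ} (hD : ContinuousOn D (Icc 0 1))
    (hD0 : ∀ t ∈ Icc (0:ℝ) 1, 0 ≤ D t) {c : ℝ} (hc : 0 ≤ c) (ξ x : H)
    (h1 : ∀ y ∈ K, 0 ≤ ⟪y, hvec R c ξ D x⟫) (h2 : ⟪x, hvec R c ξ D x⟫ = 0)
    {y : H} (hy : y ∈ K) : Fx R c ξ D x ≤ Fx R c ξ D y := by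
  have h3 := growth_x R hD c ξ x h1 h2 hy
  have h4 := R.Q_nonneg hD hD0 (y - x)
  have h5 : 0 ≤ c / 2 * ‖y - x‖ ^ 2 := by positivity
  linarith

omit [CompleteSpace H] in
/-- value at a KKT point -/
theorem Fx_eq_of_kkt {D : ℝ → ℝ} (c : ℝ) (ξ x : H) (h2 : ⟪x, hvec R c ξ D x⟫ = 0) :
    Fx R c ξ D x = -(c / 2 * ‖x‖ ^ 2 + 1 / 2 * R.Q D x) := by
  unfold hvec at h2
  unfold Fx
  rw [inner_add_right, inner_add_right, real_inner_smul_right, real_inner_self_eq_norm_sq] at h2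
  have : R.Q D x = ⟪x, R.Dop D x⟫ := rfl
  rw [← this] at h2
  linarith

/-! ### variation in `D` -/

lemma adm_ae_pos {e : ℝ} {D : ℝ → ℝ} (h : Adm e D) :
    ∀ᵐ t ∂(volume.restrict (Ioc (0:ℝ) 1)), 0 < D t := by
  filter_upwards [ae_lt_one, ae_restrict_mem measurableSet_Ioc] with t h1 h2
  exact h.prof.pos t ⟨h2.1.le, h1⟩

lemma adm_intOn {e : ℝ} {D : ℝ → ℝ} (h : Adm e D) :
    Integrable (fun t => 1 / D t - e / (1 - t)) (volume.restrict (Ioc (0:ℝ) 1)) :=
  (intervalIntegrable_iff_integrableOn_Ioc_of_le zero_le_one).1 h.int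

lemma aem_of_cont {D : ℝ → ℝ} (h : ContinuousOn D (Icc 0 1)) :
    AEMeasurable D (volume.restrict (Ioc (0:ℝ) 1)) :=
  ((h.mono Ioc_subset_Icc_self).aestronglyMeasurable measurableSet_Ioc).aemeasurable

/-- convex combinations of admissible profiles are admissible -/
theorem adm_comb {e : ℝ} {D D' : ℝ → ℝ} (h : Adm e D) (h' : Adm e D')
    {s : ℝ} (hs : 0 ≤ s) (hs1 : s ≤ 1) : Adm e (fun t => (1 - s) * D t + s * D' t) :=
  (ProfC_540.Adm.cmean h h' (sub_nonneg.2 hs1) hs (by ring)).1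

/-- a form of Fatou's lemma for real functions -/
lemma fatou_real {X : Type*} [MeasurableSpace X] {μ : Measure X} {f : ℕ → X → ℝ} {g : X → ℝ}
    {L : ℝ} (hf : ∀ n, Integrable (f n) μ) (h0 : ∀ n, ∀ᵐ a ∂μ, 0 ≤ f n a)
    (hlim : ∀ᵐ a ∂μ, Tendsto (fun n => f n a) atTop (𝓝 (g a))) (hL : ∀ n, ∫ a, f n a ∂μ ≤ L) :
    Integrable g μ ∧ ∫ a, g a ∂μ ≤ L := by
  have hg0 : ∀ᵐ a ∂μ, 0 ≤ g a := by
    filter_upwards [ae_all_iff.2 h0, hlim] with a h1 h2
    exact ge_of_tendsto' h2 h1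
  have hgm : AEStronglyMeasurable g μ :=
    aestronglyMeasurable_of_tendsto_ae atTop (fun n => (hf n).aestronglyMeasurable) hlim
  have hL0 : 0 ≤ L := (integral_nonneg_of_ae (h0 0)).trans (hL 0)
  have hlint : ∫⁻ a, ENNReal.ofReal (g a) ∂μ ≤ ENNReal.ofReal L := by
    have h1 : ∫⁻ a, ENNReal.ofReal (g a) ∂μ =
        ∫⁻ a, liminf (fun n => ENNReal.ofReal (f n a)) atTop ∂μ := by
      refine lintegral_congr_ae ?_
      filter_upwards [hlim] with a ha
      exact ((ENNReal.continuous_ofReal.tendsto _).comp ha).liminf_eq.symm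
    rw [h1]
    refine (lintegral_liminf_le' fun n => (hf n).aestronglyMeasurable.aemeasurable.ennreal_ofReal).trans ?_
    refine liminf_le_of_frequently_le' (Frequently.of_forall fun n => ?_)
    rw [← ofReal_integral_eq_lintegral_ofReal (hf n) (h0 n)]
    exact ENNReal.ofReal_le_ofReal (hL n)
  have hgi : Integrable g μ := by
    rw [← lintegral_ofReal_ne_top_iff_integrable hgm hg0]
    exact ne_top_of_le_ne_top ENNReal.ofReal_ne_top hlint
  refine ⟨hgi, ?_⟩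
  rw [← ofReal_integral_eq_lintegral_ofReal hgi hg0] at hlint
  exact (ENNReal.ofReal_le_ofReal_iff hL0).1 hlint

lemma alg1 {s A B C z : ℝ} (hs : s ≠ 0) (hA : A ≠ 0) (hC : C ≠ 0) (h : C = (1 - s) * A + s * B) :
    (1 / s) * ((1 / A - z) - (1 / C - z)) = (B - A) / (A * C) := by
  have h1 : C - A = s * (B - A) := by rw [h]; ring
  have h2 : (1 / A - z) - (1 / C - z) = (C - A) / (A * C) := by field_simp; ring
  rw [h2, h1]
  field_simp

lemma alg2 {s A B C : ℝ} (hA : A ≠ 0) (hB : B ≠ 0) (hC : C ≠ 0) (h : C = (1 - s) * A + s * B) :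
    (B - A) / (A * C) - (B - A) / (A * B) = (1 - s) * (B - A) ^ 2 / (A * C * B) := by
  have h1 : B - C = (1 - s) * (B - A) := by rw [h]; ring
  have h2 : (B - A) / (A * C) - (B - A) / (A * B) = (B - A) * (B - C) / (A * C * B) := by
    field_simp
  rw [h2, h1]
  ring

/-- **KKT in `D`**: the first variation of `Gd` at a minimiser `D` in the direction of any
admissible `D'`. -/
theorem kkt_D {α e : ℝ} (x : H) {D D' : ℝ → ℝ} (hD : Adm e D) (hD' : Adm e D')
    (hmin : ∀ E, Adm e E → Gd R α e x D ≤ Gd R α e x E) :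
    IntervalIntegrable (fun t => (D' t - D t) / D t ^ 2) volume 0 1 ∧
      ∫ t in (0:ℝ)..1, (D' t - D t) / D t ^ 2 ≤ α * (R.Q D' x - R.Q D x) := by
  let μ := volume.restrict (Ioc (0:ℝ) 1)
  let s : ℕ → ℝ := fun n => 1 / ((n:ℝ) + 2)
  have hs0 : ∀ n, 0 < s n := fun n => by positivity
  have hs1 : ∀ n, s n ≤ 1 := fun n => by
    simp only [s]; rw [div_le_one (by positivity)]; have : (0:ℝ) ≤ n := n.cast_nonneg; linarith
  have hslim : Tendsto s atTop (𝓝 0) := by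
    have := (tendsto_one_div_add_atTop_nhds_zero_nat (𝕜 := ℝ)).comp (tendsto_add_atTop_nat 1)
    refine this.congr fun n => ?_
    simp only [Function.comp, s]; push_cast; ring
  let q : ℕ → ℝ → ℝ := fun n t =>
    (1 / s n) * ((1 / D t - e / (1 - t)) - (1 / ((1 - s n) * D t + s n * D' t) - e / (1 - t)))
  let q1 : ℝ → ℝ := fun t => (1 / D t - e / (1 - t)) - (1 / D' t - e / (1 - t))
  have hadm : ∀ n, Adm e (fun t => (1 - s n) * D t + s n * D' t) := fun n =>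
    adm_comb hD hD' (hs0 n).le (hs1 n)
  have hqi : ∀ n, Integrable (q n) μ := fun n =>
    ((adm_intOn hD).sub (adm_intOn (hadm n))).const_mul _
  have hq1i : Integrable q1 μ := (adm_intOn hD).sub (adm_intOn hD')
  -- bound of the integrals
  have hQ : ∀ n, R.Q (fun t => (1 - s n) * D t + s n * D' t) x =
      R.Q D x + s n * (R.Q D' x - R.Q D x) := fun n => by
    rw [R.Q_add (g := fun t => (1 - s n) * D t) (k := fun t => s n * D' t)
      (continuousOn_const.mul hD.prof.cont) (continuousOn_const.mul hD'.prof.cont),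
      R.Q_smul hD.prof.cont, R.Q_smul hD'.prof.cont]
    ring
  have hbound : ∀ n, ∫ t, q n t ∂μ ≤ α * (R.Q D' x - R.Q D x) := by
    intro n
    have h1 := hmin _ (hadm n)
    unfold Gd Ent entF at h1
    rw [hQ, intervalIntegral.integral_of_le zero_le_one,
      intervalIntegral.integral_of_le zero_le_one] at h1
    have h2 : ∫ t, q n t ∂μ = (1 / s n) * (∫ t, (1 / D t - e / (1 - t)) ∂μ -
        ∫ t, (1 / ((1 - s n) * D t + s n * D' t) - e / (1 - t)) ∂μ) := by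
      simp only [q]
      rw [integral_const_mul, integral_sub (adm_intOn hD) (adm_intOn (hadm n))]
    rw [h2, one_div, inv_mul_le_iff₀ (hs0 n)]
    linarith
  -- pointwise facts
  have hpt : ∀ᵐ t ∂μ, (∀ n, 0 ≤ q n t - q1 t) ∧
      Tendsto (fun n => q n t - q1 t) atTop (𝓝 ((D' t - D t) / D t ^ 2 - q1 t)) := by
    filter_upwards [adm_ae_pos hD, adm_ae_pos hD'] with t hA hB
    set A := D t with hAdef
    set B := D' t with hBdef
    have hC : ∀ n, 0 < (1 - s n) * A + s n * B := fun n => by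
      have := mul_pos (hs0 n) hB
      nlinarith [mul_nonneg (sub_nonneg.2 (hs1 n)) hA.le]
    have hqn : ∀ n, q n t = (B - A) / (A * ((1 - s n) * A + s n * B)) := fun n => by
      simp only [q, ← hAdef, ← hBdef]
      exact alg1 (hs0 n).ne' hA.ne' (hC n).ne' rfl
    have hq1 : q1 t = (B - A) / (A * B) := by
      simp only [q1, ← hAdef, ← hBdef]
      field_simp
      ring
    constructor
    · intro n
      have h1 := hC n
      rw [hqn, hq1]
      rw [alg2 hA.ne' hB.ne' h1.ne' rfl]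
      exact div_nonneg (mul_nonneg (sub_nonneg.2 (hs1 n)) (sq_nonneg _)) (by positivity)
    · refine Tendsto.sub_const ?_ _
      simp only [hqn]
      have h1 : Tendsto (fun n => A * ((1 - s n) * A + s n * B)) atTop
          (𝓝 (A * ((1 - 0) * A + 0 * B))) :=
        (((hslim.const_sub 1).mul_const A).add (hslim.mul_const B)).const_mul A
      have h2 : A * ((1 - 0) * A + 0 * B) = A ^ 2 := by ring
      rw [h2] at h1
      exact tendsto_const_nhds.div h1 (by positivity)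
  obtain ⟨h1, h2⟩ := fatou_real (μ := μ) (f := fun n t => q n t - q1 t)
    (g := fun t => (D' t - D t) / D t ^ 2 - q1 t)
    (L := α * (R.Q D' x - R.Q D x) - ∫ t, q1 t ∂μ) (fun n => (hqi n).sub hq1i)
    (fun n => hpt.mono fun t ht => ht.1 n) (hpt.mono fun t ht => ht.2)
    (fun n => by rw [integral_sub (hqi n) hq1i]; linarith [hbound n])
  have h3 : Integrable (fun t => (D' t - D t) / D t ^ 2) μ := by
    have := h1.add hq1i
    refine this.congr (ae_of_all _ fun t => ?_)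
    simp
  refine ⟨(intervalIntegrable_iff_integrableOn_Ioc_of_le zero_le_one).2 h3, ?_⟩
  rw [intervalIntegral.integral_of_le zero_le_one]
  rw [integral_sub h3 hq1i] at h2
  linarith

omit [CompleteSpace H] in
/-- converse of `kkt_D` -/
theorem min_of_kkt_D {α e : ℝ} (x : H) {D D' : ℝ → ℝ} (hD : Adm e D)
    (hD' : Adm e D')
    (h1 : IntervalIntegrable (fun t => (D' t - D t) / D t ^ 2) volume 0 1)
    (h2 : ∫ t in (0:ℝ)..1, (D' t - D t) / D t ^ 2 ≤ α * (R.Q D' x - R.Q D x)) :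
    Gd R α e x D ≤ Gd R α e x D' := by
  unfold Gd
  have h3 : ∫ t in (0:ℝ)..1, ((1 / D t - e / (1 - t)) - (1 / D' t - e / (1 - t))) ≤
      ∫ t in (0:ℝ)..1, (D' t - D t) / D t ^ 2 := by
    rw [intervalIntegral.integral_of_le zero_le_one, intervalIntegral.integral_of_le zero_le_one]
    refine integral_mono_ae ((adm_intOn hD).sub (adm_intOn hD'))
      ((intervalIntegrable_iff_integrableOn_Ioc_of_le zero_le_one).1 h1) ?_
    filter_upwards [adm_ae_pos hD, adm_ae_pos hD'] with t hA hB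
    set A := D t with hAdef
    set B := D' t with hBdef
    have : (B - A) / A ^ 2 - ((1 / A - e / (1 - t)) - (1 / B - e / (1 - t))) =
        (B - A) ^ 2 / (A ^ 2 * B) := by field_simp; ring
    have h5 : 0 ≤ (B - A) ^ 2 / (A ^ 2 * B) := by positivity
    linarith
  have h4 := intervalIntegral.integral_sub hD.int hD'.int
  unfold entF at h4
  rw [h4] at h3
  unfold Ent entF
  linarith

/-- scaling a profile -/
theorem adm_scale {D : ℝ → ℝ} (h : Adm 0 D) {r : ℝ} (hr : 0 < r) :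
    Adm 0 (fun t => r * D t) := by
  have := (ProfC_540.Adm.smul h hr).1
  rwa [zero_div] at this

/-- scaling identity at a minimiser (`e = 0`): `∫ 1/D = α Q D x`. -/
theorem kkt_scale {α : ℝ} (x : H) {D : ℝ → ℝ} (hD : Adm 0 D)
    (hmin : ∀ E, Adm 0 E → Gd R α 0 x D ≤ Gd R α 0 x E) :
    ∫ t in (0:ℝ)..1, 1 / D t = α * R.Q D x := by
  have key : ∀ r : ℝ, 0 < r → (r - 1) * ∫ t in (0:ℝ)..1, 1 / D t ≤ (r - 1) * (α * R.Q D x) := by
    intro r hr
    have h := (kkt_D R x hD (adm_scale hD hr) hmin).2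
    rw [R.Q_smul hD.prof.cont] at h
    have h1 : ∫ t in (0:ℝ)..1, (r * D t - D t) / D t ^ 2 = (r - 1) * ∫ t in (0:ℝ)..1, 1 / D t := by
      rw [← intervalIntegral.integral_const_mul, intervalIntegral.integral_of_le zero_le_one,
        intervalIntegral.integral_of_le zero_le_one]
      refine integral_congr_ae ?_
      filter_upwards [adm_ae_pos hD] with t hA
      field_simp
    rw [h1] at h
    linarith
  have h1 := key 2 (by norm_num)
  have h2 := key (1/2) (by norm_num)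
  linarith

/-- minimisers of the joint functional over `K ×` admissible profiles -/
structure IsMin (α c e : ℝ) (ξ : H) (K : Set H) (x : H) (D : ℝ → ℝ) : Prop where
  mem : x ∈ K
  adm : Adm e D
  le : ∀ y ∈ K, ∀ D', Adm e D' → Je R α c e ξ x D ≤ Je R α c e ξ y D'

theorem IsMin.kkt_x {α c e : ℝ} (hα : 0 < α) {ξ : H} {K : Set H} (hK : IsCone K) {x : H}
    {D : ℝ → ℝ} (h : IsMin R α c e ξ K x D) :
    (∀ y ∈ K, 0 ≤ ⟪y, hvec R c ξ D x⟫) ∧ ⟪x, hvec R c ξ D x⟫ = 0 := by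
  refine HilbD.kkt_x R hK h.adm.prof.cont c ξ x h.mem fun y hy => ?_
  have := h.le y hy D h.adm
  rw [Je_eq_Fx, Je_eq_Fx] at this
  have h2 : α * Fx R c ξ D x ≤ α * Fx R c ξ D y := by linarith
  exact le_of_mul_le_mul_left h2 hα

theorem IsMin.min_D {α c e : ℝ} {ξ : H} {K : Set H} {x : H}
    {D : ℝ → ℝ} (h : IsMin R α c e ξ K x D) :
    ∀ E, Adm e E → Gd R α e x D ≤ Gd R α e x E := fun E hE => by
  have := h.le x h.mem E hE
  rw [Je_eq_Gd, Je_eq_Gd] at this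
  linarith

theorem IsMin.kkt_D {α c e : ℝ} {ξ : H} {K : Set H} {x : H}
    {D : ℝ → ℝ} (h : IsMin R α c e ξ K x D) {D' : ℝ → ℝ} (hD' : Adm e D') :
    IntervalIntegrable (fun t => (D' t - D t) / D t ^ 2) volume 0 1 ∧
      ∫ t in (0:ℝ)..1, (D' t - D t) / D t ^ 2 ≤ α * (R.Q D' x - R.Q D x) :=
  HilbD.kkt_D R x h.adm hD' h.min_D

theorem IsMin.kkt_scale {α c : ℝ} {ξ : H} {K : Set H} {x : H}
    {D : ℝ → ℝ} (h : IsMin R α c 0 ξ K x D) : ∫ t in (0:ℝ)..1, 1 / D t = α * R.Q D x :=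
  HilbD.kkt_scale R x h.adm h.min_D

/-- value of the minimum for `e = 0` : `-(α c/2)‖x‖²` -/
theorem IsMin.value {α c : ℝ} (hα : 0 < α) {ξ : H} {K : Set H} (hK : IsCone K) {x : H}
    {D : ℝ → ℝ} (h : IsMin R α c 0 ξ K x D) : Je R α c 0 ξ x D = -(α * c / 2 * ‖x‖ ^ 2) := by
  have h1 := Fx_eq_of_kkt R c ξ x (h.kkt_x R hα hK).2
  have h2 := h.kkt_scale R
  rw [Je_eq_Fx, h1]
  unfold Ent
  rw [entF_zero, h2]; ring

end Complete

end Crest.Agent.R146.HilbD
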