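import Crest.Agent.R146.Lev2_576
import Crest.Agent.R146.HilbE1_12

/-!
Row 146, INTERFACE P5 <-> PT (helper776).

`IsJam`     : jamming minimiser `(x, D)` of the one-homogeneous functional at `αc`
              (produced by node F of P5, helper491; consumed by PT for EVERY such pair).
`TipOut`    : what PT delivers at such a minimiser: `D 1 = 0`, charge, log-limit of `D`.
`TIP`       : the implication, on a Brownian model.
-/

set_option autoImplicit false

namespace Crest.Agent.R146.JamIface_776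

open Set Filter Topology MeasureTheory ProbabilityTheory
open Crest.Agent.R146.Hilb Crest.Agent.R146.ProfB_540 Crest.Agent.R146.HilbE
open Crest.Agent.R146.Lev2_576
open scoped RealInnerProductSpace NNReal

variable {H : Type*} [NormedAddCommGroup H] [InnerProductSpace ℝ H] [CompleteSpace H]

/-- `(x, D)` is a jamming minimiser: `J0 ≥ 0` on `K × Adm 0`, `J0 (x, D) = 0`, `x ≠ 0`.
`J0 (x, D) = αc ⟪x, ξ⟫ + (αc/2) Q D x + ½ ∫ 1/D`. -/
structure IsJam (R : Res H) (K : Set H) (ξ : H) (αc : ℝ) (x : H) (D : ℝ → ℝ) : Prop where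
  xK : x ∈ K
  x0 : x ≠ 0
  adm : Adm 0 D
  zero : Je R αc 0 0 ξ x D = 0
  min : ∀ y ∈ K, ∀ D' : ℝ → ℝ, Adm 0 D' → 0 ≤ Je R αc 0 0 ξ y D'

/-- output of the tip analysis, with `h = ξ + Dop D x`, `h_t = P_t h`. -/
structure TipOut (R : Res H) (ξ : H) (x : H) (D : ℝ → ℝ) (ν : ℝ) : Prop where
  D_one : D 1 = 0
  charge : ∃ c0 : ℝ, 0 < c0 ∧ ∃ t1 ∈ Ico (0 : ℝ) 1, ∀ t ∈ Ico t1 1,
    ⟪R.P t (ξ + R.Dop D x), x⟫ = c0 * (1 - t)
  log_D : Tendsto (fun t => Real.log (D t) / Real.log (1 - t)) (𝓝[<] 1) (𝓝 ν)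
  ν_lo : 0.2936533 < ν
  ν_hi : ν < 0.2936535

/-- the tip theorem (target of PT). The cone is the cone of nonnegative elements of the model. -/
def TIP : Prop :=
  ∀ (Ω : Type) (_ : MeasurableSpace Ω) (P : Measure Ω) (_ : IsProbabilityMeasure P)
    (B : ℝ≥0 → Ω → ℝ) (hBm : ∀ t, Measurable (B t)) (_ : IsBrownianReal B P)
    (H : Type) (_ : NormedAddCommGroup H) (_ : InnerProductSpace ℝ H) (_ : CompleteSpace H)
    (R : Res H) (M : Model R P B hBm) (ξ : H), (M.J ξ =ᵐ[P] fun ω => 1 + B 1 ω) →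
    ∀ (αc : ℝ), 0 < αc → ∀ (x : H) (D : ℝ → ℝ), IsJam R {z : H | 0 ≤ᵐ[P] M.J z} ξ αc x D →
    ∃ ν : ℝ, TipOut R ξ x D ν

end Crest.Agent.R146.JamIface_776
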