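import Crest.Agent.R146.HilbE1_12

/-!
Package P5, row 146 (helper12): scaling of the functional `Je` and the THRESHOLD LINK at Hilbert
level (885 (6b)): the ground state energy vanishes iff the jamming functional is nonnegative.

* `Je_smul`  : `Je α c e (s x, D/s) = s Je α (c s) (e/s) (x, D)`;
* `ZeroH`    : `∀ d > 0`, eventually in `b`: `-d ≤ Je α 1 (1/b)` on `K × Adm (1/b)`;
* `JamNN`    : `0 ≤ Je α 0 0` on `K × Adm 0`;
* `zeroH_iff : ZeroH ↔ JamNN`, `JamNN.of_lt` (passage to the threshold), `exists_neg`, `ne_zero`.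
-/

set_option autoImplicit false

open MeasureTheory Set Filter Topology
open scoped RealInnerProductSpace

namespace Crest.Agent.R146.P5A_12

open Crest.Agent.R146.Hilb Crest.Agent.R146.ProfB_540 Crest.Agent.R146.HilbE

section Profiles

lemma entF_scale {s : ℝ} (hs : s ≠ 0) (e : ℝ) (D : ℝ → ℝ) :
    entF e (fun t => D t / s) = fun t => s * entF (e / s) D t := by
  funext t
  unfold entF
  rw [one_div_div, mul_sub, mul_one_div, ← mul_div_assoc, mul_div_cancel₀ _ hs]

lemma Ent_scale {s : ℝ} (hs : s ≠ 0) (e : ℝ) (D : ℝ → ℝ) :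
    Ent e (fun t => D t / s) = s * Ent (e / s) D := by
  unfold Ent
  rw [entF_scale hs, intervalIntegral.integral_const_mul]

lemma adm_scale {e s : ℝ} (hs : 0 < s) {D : ℝ → ℝ} (h : Adm (e / s) D) :
    Adm e (fun t => D t / s) where
  prof := by
    have := h.prof.smul (c := s⁻¹) (by positivity)
    refine ⟨?_, ?_, ?_, ?_, ?_⟩
    · have h1 := this.conc
      simpa only [div_eq_inv_mul] using h1
    · have h1 := this.anti
      simpa only [div_eq_inv_mul] using h1
    · have h1 := this.cont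
      simpa only [div_eq_inv_mul] using h1
    · intro t ht
      have h1 := this.pos t ht
      simpa only [div_eq_inv_mul] using h1
    · have h1 := this.one
      simpa only [div_eq_inv_mul] using h1
  cap := fun t ht => by
    have := h.cap t ht
    have e1 : e * (D t / s) = e / s * D t := by ring
    rw [e1]; exact this
  int := by
    rw [entF_scale hs.ne']
    exact h.int.const_mul s

lemma adm_scale_iff {e s : ℝ} (hs : 0 < s) {D : ℝ → ℝ} :
    Adm e (fun t => D t / s) ↔ Adm (e / s) D := by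
  refine ⟨fun h => ?_, adm_scale hs⟩
  have h1 := adm_scale (e := e / s) (s := s⁻¹) (D := fun t => D t / s) (by positivity)
    (by rw [div_inv_eq_mul, div_mul_cancel₀ _ hs.ne']; exact h)
  have e1 : (fun t => D t / s / s⁻¹) = D := by
    funext t; rw [div_inv_eq_mul, div_mul_cancel₀ _ hs.ne']
  rwa [e1] at h1

lemma Ent_nonneg {e : ℝ} {D : ℝ → ℝ} (h : Adm e D) : 0 ≤ Ent e D := by
  unfold Ent
  rw [intervalIntegral.integral_of_le zero_le_one]
  refine integral_nonneg_of_ae ?_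
  filter_upwards [ae_lt_one, ae_restrict_mem measurableSet_Ioc] with t h1 h2
  have h3 := h.prof.pos t ⟨h2.1.le, h1⟩
  have h4 := h.cap t ⟨h2.1.le, h1.le⟩
  have h5 : 0 < 1 - t := by linarith
  show 0 ≤ entF e D t
  unfold entF
  rw [sub_nonneg, div_le_div_iff₀ h5 h3]
  linarith

end Profiles

variable {H : Type*} [NormedAddCommGroup H] [InnerProductSpace ℝ H] [CompleteSpace H] (R : Res H)

lemma Je_c (α c e : ℝ) (ξ x : H) (D : ℝ → ℝ) :
    Je R α c e ξ x D = Je R α 0 e ξ x D + α * c / 2 * ‖x‖ ^ 2 := by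
  unfold Je; ring

lemma Je_smul {s : ℝ} (hs : 0 < s) (α c e : ℝ) (ξ x : H) {D : ℝ → ℝ}
    (hD : ContinuousOn D (Icc 0 1)) :
    Je R α c e ξ (s • x) (fun t => D t / s) = s * Je R α (c * s) (e / s) ξ x D := by
  have h1 : R.Q (fun t => D t / s) (s • x) = s * R.Q D x := by
    have e1 : (fun t => D t / s) = fun t => s⁻¹ * D t := by funext t; rw [div_eq_inv_mul]
    rw [R.Q_smul_vec, e1, R.Q_smul hD]
    field_simp
  unfold Je
  rw [h1, Ent_scale hs.ne', real_inner_smul_left, norm_smul, Real.norm_of_nonneg hs.le]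
  ring

/-- vanishing ground state energy, Hilbert form -/
def ZeroH (K : Set H) (ξ : H) (α : ℝ) : Prop :=
  ∀ d : ℝ, 0 < d → ∃ b0 : ℝ, 0 < b0 ∧ ∀ b : ℝ, b0 ≤ b → ∀ x ∈ K, ∀ D : ℝ → ℝ, Adm (1 / b) D →
    -d ≤ Je R α 1 (1 / b) ξ x D

/-- nonnegativity of the jamming functional -/
def JamNN (K : Set H) (ξ : H) (α : ℝ) : Prop :=
  ∀ x ∈ K, ∀ D : ℝ → ℝ, Adm 0 D → 0 ≤ Je R α 0 0 ξ x D

/-- a negative value of the jamming functional gives a negative value at zero temperature -/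
theorem exists_neg {K : Set H} (hK : ∀ s : ℝ, 0 < s → ∀ x ∈ K, s • x ∈ K) {ξ : H} {α : ℝ}
    (h : ¬ JamNN R K ξ α) : ∃ x ∈ K, ∃ D : ℝ → ℝ, Adm 0 D ∧ Je R α 1 0 ξ x D < 0 := by
  unfold JamNN at h
  push Not at h
  obtain ⟨x, hx, D, hD, hneg⟩ := h
  -- scale by a small `s`
  have h1 : Tendsto (fun s : ℝ => Je R α 0 0 ξ x D + s * (α / 2 * ‖x‖ ^ 2)) (𝓝[>] 0)
      (𝓝 (Je R α 0 0 ξ x D + 0 * (α / 2 * ‖x‖ ^ 2))) :=
    ((by fun_prop : Continuous fun s : ℝ => Je R α 0 0 ξ x D + s * (α / 2 * ‖x‖ ^ 2)).tendsto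
      0).mono_left nhdsWithin_le_nhds
  rw [zero_mul, add_zero] at h1
  have h2 := (tendsto_order.1 h1).2 0 hneg
  obtain ⟨s, hs, hs0⟩ := (h2.and self_mem_nhdsWithin).exists
  have hs0 : 0 < s := hs0
  refine ⟨s • x, hK s hs0 x hx, fun t => D t / s, ?_, ?_⟩
  · refine adm_scale hs0 ?_
    rwa [zero_div]
  · rw [Je_smul R hs0 α 1 0 ξ x hD.prof.cont, zero_div, one_mul, Je_c]
    have : Je R α 0 0 ξ x D + α * s / 2 * ‖x‖ ^ 2 < 0 := by linarith
    exact mul_neg_of_pos_of_neg hs0 this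

/-- **threshold link** -/
theorem zeroH_iff {K : Set H} (hK : ∀ s : ℝ, 0 < s → ∀ x ∈ K, s • x ∈ K) {ξ : H} {α : ℝ}
    (hα : 0 ≤ α) : ZeroH R K ξ α ↔ JamNN R K ξ α := by
  constructor
  · intro h
    by_contra hcon
    obtain ⟨x, hx, D, hD, hneg⟩ := exists_neg R hK hcon
    obtain ⟨b0, hb0, hb⟩ := h (-Je R α 1 0 ξ x D / 2) (by linarith)
    have hb1 := hb b0 le_rfl x hx _ (adm_cap (by positivity) hD)
    have hb2 := Je_cap_le R (e := 1 / b0) hα (by positivity) 1 ξ x hD
    linarith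
  · intro h d hd
    have h1 := errE_tendsto 0 0
    have h2 : ∀ᶠ b : ℝ in atTop, errE 0 0 (1 / b) < d := by
      have h3 : Tendsto (fun b : ℝ => 1 / b) atTop (𝓝[>] 0) := by
        simpa using tendsto_inv_atTop_nhdsGT_zero (𝕜 := ℝ)
      exact (tendsto_order.1 (h1.comp h3)).2 d hd
    obtain ⟨b0, hb0⟩ := (h2.and (eventually_ge_atTop (1 : ℝ))).exists_forall_of_atTop
    refine ⟨max b0 1, by positivity, fun b hb x hx D hD => ?_⟩
    have hb1 : 1 ≤ b := (le_max_right _ _).trans hb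
    have hbe := (hb0 b ((le_max_left _ _).trans hb)).1
    have hbp : 0 < b := by linarith
    have he : 0 < 1 / b := by positivity
    have he1 : 1 / b ≤ 1 := by rw [div_le_iff₀ hbp]; linarith
    have h4 := Je_add_le R (α := α) he he1 1 ξ x hD
    have h5 := h x hx _ (adm_add he hD)
    rw [Je_c] at h4
    unfold errE at hbe
    have h6 : 1 / b * ‖x‖ ^ 2 ≤ 1 * ‖x‖ ^ 2 := mul_le_mul_of_nonneg_right he1 (sq_nonneg _)
    have h7 := mul_le_mul_of_nonneg_left h6 (by positivity : 0 ≤ α / 2)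
    nlinarith

lemma Je_affine (α α' s t : ℝ) (hst : s + t = 1) (c e : ℝ) (ξ x : H) (D : ℝ → ℝ) :
    Je R (s * α + t * α') c e ξ x D = s * Je R α c e ξ x D + t * Je R α' c e ξ x D := by
  have : s = 1 - t := by linarith
  subst this
  unfold Je; ring

/-- passage to the threshold -/
theorem JamNN.of_lt {K : Set H} {ξ : H} {αc : ℝ} (hαc : 0 < αc)
    (h : ∀ α, 0 < α → α < αc → JamNN R K ξ α) : JamNN R K ξ αc := by
  intro x hx D hD
  have h1 : Tendsto (fun α : ℝ => Je R α 0 0 ξ x D) (𝓝[<] αc) (𝓝 (Je R αc 0 0 ξ x D)) := by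
    have : Continuous fun α : ℝ => Je R α 0 0 ξ x D := by unfold Je; fun_prop
    exact (this.tendsto αc).mono_left nhdsWithin_le_nhds
  refine ge_of_tendsto h1 ?_
  filter_upwards [Ioo_mem_nhdsLT hαc] with α hα
  exact h α hα.1 hα.2 x hx D hD

/-- monotonicity in the density: the jamming functional decreases when it is nonpositive -/
theorem JamNN.anti {K : Set H} {ξ : H} {α α' : ℝ} (hα : 0 < α) (hαα : α ≤ α')
    (h : JamNN R K ξ α') : JamNN R K ξ α := by
  intro x hx D hD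
  have h1 := h x hx D hD
  have h2 : 0 ≤ Ent 0 D := Ent_nonneg hD
  unfold Je at h1 ⊢
  simp only [mul_zero, zero_div, zero_mul, add_zero] at h1 ⊢
  by_contra hcon
  push Not at hcon
  have h3 : ⟪x, ξ⟫ + 1 / 2 * R.Q D x < 0 := by
    by_contra h4
    push Not at h4
    have := mul_nonneg hα.le h4
    nlinarith
  nlinarith

/-- a point with negative value has nonzero force -/
theorem ne_zero {α c e : ℝ} {ξ x : H} {D : ℝ → ℝ} (hD : Adm e D)
    (h : Je R α c e ξ x D < 0) : x ≠ 0 := by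
  rintro rfl
  have h1 := Ent_nonneg hD
  unfold Je at h
  simp only [inner_zero_left, mul_zero, norm_zero, ne_eq, OfNat.ofNat_ne_zero, not_false_eq_true,
    zero_pow, add_zero, Res.Q, map_zero, zero_add] at h
  linarith

end Crest.Agent.R146.P5A_12
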