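import Crest.Agent.R146.JamAsm_576

/-!
Row 146, package P5: the structure `P5Out` (consumer side, helper576; producer side: helper12).

`P5Out M ξ αc η x D x0 D0 xJ DJ s`:
* `x α b`, `D α b` : force and profile at density `α`, inverse temperature `b`, in the SCALED form
  (`lam = b • x`, profile `b D`), so that the damping is `1`;
* `x0 α`, `D0 α`   : zero temperature, damping `1`;
* `xJ`, `DJ`       : jamming, damping `0`, `DJ 1 = 0`;
* `s α • x0 α → xJ`.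
The gap is `ξ + Dop D x` in all cases.
-/

set_option autoImplicit false

namespace Crest.Agent.R146.P5Out_576

open Set Filter Topology MeasureTheory ProbabilityTheory Crest.Agent.R146.Hilb
  Crest.Agent.R146.Lev_576 Crest.Agent.R146.Lev2_576 Crest.Agent.R146.Obs918
  Crest.Agent.R146.JamAsm_576
open scoped RealInnerProductSpace NNReal ENNReal

variable {H : Type*} [NormedAddCommGroup H] [InnerProductSpace ℝ H] [CompleteSpace H] {R : Res H}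
  {Ω : Type*} {mΩ : MeasurableSpace Ω} {P : Measure Ω} {B : ℝ≥0 → Ω → ℝ}
  {hBm : ∀ t, Measurable (B t)}

/-- **Output of package P5.** -/
structure P5Out (M : Model R P B hBm) (ξ : H) (αc η : ℝ) (x : ℝ → ℝ → H)
    (D : ℝ → ℝ → ℝ → ℝ) (x0 : ℝ → H) (D0 : ℝ → ℝ → ℝ) (xJ : H) (DJ : ℝ → ℝ) (s : ℝ → ℝ) :
    Prop where
  /-- the data vector is `1 + B_1` -/
  xi : M.J ξ =ᵐ[P] fun ω => 1 + B 1 ω
  η_pos : 0 < η
  /-- finite temperature -/
  temp : ∀ α, αc < α → α < αc + η → ∀ b, 0 < b → LCP M ξ 1 (D α b) (x α b)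
  /-- the cap of the profile (`D α b t ≤ b (1 - t)`, `D α b 1 = 0`) -/
  cap : ∀ α, αc < α → α < αc + η → ∀ b, 0 < b →
    ∃ L : ℝ, ∀ t ∈ Ico (0 : ℝ) 1, D α b t - D α b 1 ≤ L * (1 - t)
  /-- zero temperature -/
  zero : ∀ α, αc < α → α < αc + η → LCP M ξ 1 (D0 α) (x0 α)
  /-- Lipschitz bound (LIP) at zero temperature -/
  lip : ∀ α, αc < α → α < αc + η →
    ∃ C : ℝ, ∀ t ∈ Ico (0 : ℝ) 1, ‖x0 α - R.P t (x0 α)‖ ^ 2 ≤ C * (1 - t)
  /-- jamming -/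
  jam : LCP M ξ 0 DJ xJ
  jam_one : DJ 1 = 0
  /-- (4c) -/
  atomL : ∀ l : ℝ, 0 < l → P {ω | M.J xJ ω = l} = 0
  /-- (4d) -/
  compl : P {ω | M.J (ξ + R.Dop DJ xJ) ω = 0 ∧ M.J xJ ω = 0} = 0
  /-- node E -/
  limE : ∀ α, αc < α → α < αc + η →
    Tendsto (fun b => ξ + R.Dop (D α b) (x α b)) atTop (𝓝 (ξ + R.Dop (D0 α) (x0 α)))
  s_pos : ∀ α, αc < α → α < αc + η → 0 < s α
  /-- node F, force -/
  limL : Tendsto (fun α => s α • x0 α) (𝓝[>] αc) (𝓝 xJ)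
  /-- node F, gap -/
  limH : Tendsto (fun α => ξ + R.Dop (D0 α) (x0 α)) (𝓝[>] αc) (𝓝 (ξ + R.Dop DJ xJ))

/-- **Consumer side**: `P5Out` gives `JamData` with `X α b = J (ξ + Dop (D α b) (x α b))`. -/
theorem P5Out.jamData [IsProbabilityMeasure P] {M : Model R P B hBm}
    (hB : IsPreBrownianReal B P) {ξ : H} {αc η : ℝ} {x : ℝ → ℝ → H} {D : ℝ → ℝ → ℝ → ℝ}
    {x0 : ℝ → H} {D0 : ℝ → ℝ → ℝ} {xJ : H} {DJ : ℝ → ℝ} {s : ℝ → ℝ}
    (O : P5Out M ξ αc η x D x0 D0 xJ DJ s) :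
    JamData P αc η (fun α b => M.J (ξ + R.Dop (D α b) (x α b)))
      (fun α => M.J (ξ + R.Dop (D0 α) (x0 α))) (M.J (ξ + R.Dop DJ xJ)) (frc M xJ) s :=
  Crest.Agent.R146.JamAsm_576.jamData M hB O.xi O.η_pos (fun α h1 h2 b hb => ⟨O.temp α h1 h2 b hb, O.cap α h1 h2 b hb⟩)
    (fun α h1 h2 => ⟨O.zero α h1 h2, O.lip α h1 h2⟩) O.jam O.jam_one O.atomL O.compl O.limE
    O.s_pos O.limL O.limH

/-- restriction to a smaller `η` -/
theorem P5Out.mono {M : Model R P B hBm} {ξ : H} {αc η η' : ℝ} {x : ℝ → ℝ → H}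
    {D : ℝ → ℝ → ℝ → ℝ} {x0 : ℝ → H} {D0 : ℝ → ℝ → ℝ} {xJ : H} {DJ : ℝ → ℝ} {s : ℝ → ℝ}
    (O : P5Out M ξ αc η x D x0 D0 xJ DJ s) (h0 : 0 < η') (h : η' ≤ η) :
    P5Out M ξ αc η' x D x0 D0 xJ DJ s where
  xi := O.xi
  η_pos := h0
  temp α h1 h2 := O.temp α h1 (h2.trans_le (by linarith))
  cap α h1 h2 := O.cap α h1 (h2.trans_le (by linarith))
  zero α h1 h2 := O.zero α h1 (h2.trans_le (by linarith))
  lip α h1 h2 := O.lip α h1 (h2.trans_le (by linarith))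
  jam := O.jam
  jam_one := O.jam_one
  atomL := O.atomL
  compl := O.compl
  limE α h1 h2 := O.limE α h1 (h2.trans_le (by linarith))
  s_pos α h1 h2 := O.s_pos α h1 (h2.trans_le (by linarith))
  limL := O.limL
  limH := O.limH

end Crest.Agent.R146.P5Out_576
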