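import Crest.Agent.R146.P34_734
import Crest.Agent.R146.DualG2_256
import Crest.Agent.R146.P5Out_576
import Crest.Agent.R146.JamIface_776
import Crest.Agent.R146.P5A_12
import Crest.Agent.R146.HilbD_356

/-!
Row 146, package P5, PRODUCER SIDE (helper12): frozen Props at the literal Brownian instance.

For `W : BS`: Hilbert space `HW W` (node G), `RW W : Res`, `MW W : Model`, cone `KW W`,
`ξ = xiW W` (`J ξ = 1 + B_1`).  `IsMinW W α c e x D` = minimiser of `Je R α c e ξ` on `K × Adm e`.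

Nodes (each a `def NAME (W : BS) : Prop`):
* `MINB`, `MIN0` : existence of minimisers, `b < ∞` and `T = 0` (helper952);
* `ELIM` : node E, `b → ∞` (helper12);
* `FLIM` : node F, `α → αc+` (helper491);
* `LIPZ` : Lipschitz bound of the `T = 0` minimiser (helper861);
* `LEVC`, `LEVD` : (4c), (4d) for a jamming minimiser with `TipOut` (helper4);
* `LINKM` : minimiser ⟹ `OverlapProfile` attaining `Pv`, gap `= 1 + XP` (helper356);
* `LINKZ` : `ZeroE α (-1) ↔ ZeroH` (helper12/356);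
* `TIPW` : the tip theorem at this instance (PT).
-/

set_option autoImplicit false

namespace Crest.Agent.R146.P5Def_12

open Set Filter Topology MeasureTheory ProbabilityTheory Crest.ProbabilityR.Perceptron
open Crest.Agent.R146.Hilb Crest.Agent.R146.ProfB_540 Crest.Agent.R146.HilbE
open Crest.Agent.R146.Lev2_576 Crest.Agent.R146.P34_734 Crest.Agent.R146.DualG_256
open Crest.Agent.R146.DualL_256 Crest.Agent.R146.JamIface_776 Crest.Agent.R146.P5A_12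
open scoped RealInnerProductSpace NNReal

noncomputable section

/-- the Hilbert space of node G for `W` -/
abbrev HW (W : BS) : Submodule ℝ (Lp ℝ 2 W.P) := HH W.P W.B W.meas

abbrev RW (W : BS) : Res (HW W) := RB W.P W.B W.meas

abbrev MW (W : BS) : Model (RW W) W.P W.B W.meas := modelB W.P W.B W.meas

abbrev KW (W : BS) : Set (HW W) := KB W.P W.B W.meas

/-- `ξ = 1 + B_1` -/
def xiW (W : BS) : HW W := xi W.meas W.br 1

/-- minimiser of `Je R α c e ξ` on `K × Adm e` (helper356's `IsMin` at this instance) -/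
abbrev IsMinW (W : BS) (α c e : ℝ) (x : HW W) (D : ℝ → ℝ) : Prop :=
  HilbD.IsMin (RW W) α c e (xiW W) (KW W) x D

/-- (MINB) existence at finite temperature (scaled variables) -/
def MINB (W : BS) : Prop := ∀ α b : ℝ, 0 < α → 0 < b → ∃ x D, IsMinW W α 1 (1 / b) x D

/-- (MIN0) existence at zero temperature when the infimum is negative -/
def MIN0 (W : BS) : Prop := ∀ α : ℝ, 0 < α → ¬ JamNN (RW W) (KW W) (xiW W) α →
  ∃ x D, IsMinW W α 1 0 x D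

/-- (ELIM) node E: `b → ∞` -/
def ELIM (W : BS) : Prop := ∀ α : ℝ, 0 < α → ¬ JamNN (RW W) (KW W) (xiW W) α →
  ∀ (x : ℝ → HW W) (D : ℝ → ℝ → ℝ), (∀ b, 0 < b → IsMinW W α 1 (1 / b) (x b) (D b)) →
  ∀ (x0 : HW W) (D0 : ℝ → ℝ), IsMinW W α 1 0 x0 D0 →
    Tendsto (fun b => xiW W + (RW W).Dop (D b) (x b)) atTop (𝓝 (xiW W + (RW W).Dop D0 x0))

/-- (FLIM) node F: `α → αc+` -/
def FLIM (W : BS) : Prop := ∀ αc : ℝ, 0 < αc → JamNN (RW W) (KW W) (xiW W) αc →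
  (∀ α, αc < α → ¬ JamNN (RW W) (KW W) (xiW W) α) →
  ∀ (x0 : ℝ → HW W) (D0 : ℝ → ℝ → ℝ), (∀ α, αc < α → IsMinW W α 1 0 (x0 α) (D0 α)) →
  ∃ (s : ℝ → ℝ) (xJ : HW W) (DJ : ℝ → ℝ), (∀ α, αc < α → 0 < s α) ∧
    IsJam (RW W) (KW W) (xiW W) αc xJ DJ ∧
    Tendsto (fun α => s α • x0 α) (𝓝[>] αc) (𝓝 xJ) ∧
    Tendsto (fun α => xiW W + (RW W).Dop (D0 α) (x0 α)) (𝓝[>] αc)
      (𝓝 (xiW W + (RW W).Dop DJ xJ))

/-- (LIPZ) Lipschitz bound at zero temperature -/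
def LIPZ (W : BS) : Prop := ∀ α : ℝ, 0 < α → ∀ (x : HW W) (D : ℝ → ℝ), IsMinW W α 1 0 x D →
  ∃ C : ℝ, ∀ t ∈ Ico (0 : ℝ) 1, ‖x - (RW W).P t x‖ ^ 2 ≤ C * (1 - t)

/-- (TIPW) the tip theorem -/
def TIPW (W : BS) : Prop := ∀ αc : ℝ, 0 < αc → ∀ (x : HW W) (D : ℝ → ℝ),
  IsJam (RW W) (KW W) (xiW W) αc x D → ∃ ν : ℝ, TipOut (RW W) (xiW W) x D ν

/-- (LEVC) = (4c) -/
def LEVC (W : BS) : Prop := ∀ αc : ℝ, 0 < αc → ∀ (x : HW W) (D : ℝ → ℝ) (ν : ℝ),
  IsJam (RW W) (KW W) (xiW W) αc x D → TipOut (RW W) (xiW W) x D ν →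
  ∀ l : ℝ, 0 < l → W.P {ω | (MW W).J x ω = l} = 0

/-- (LEVD) = (4d) -/
def LEVD (W : BS) : Prop := ∀ αc : ℝ, 0 < αc → ∀ (x : HW W) (D : ℝ → ℝ) (ν : ℝ),
  IsJam (RW W) (KW W) (xiW W) αc x D → TipOut (RW W) (xiW W) x D ν →
  W.P {ω | (MW W).J (xiW W + (RW W).Dop D x) ω = 0 ∧ (MW W).J x ω = 0} = 0

/-- (LINKM) from the minimiser to the profile attaining `Pv` -/
def LINKM (W : BS) : Prop := ∀ (α b : ℝ), 0 < α → ∀ hb : 0 < b, ∀ (x : HW W) (D : ℝ → ℝ),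
  IsMinW W α 1 (1 / b) x D → ∃ m : OverlapProfile, m.entropy ≠ ⊤ ∧
    W.Pv α (fq b (-1)) = α * W.V (fq b (-1)) m + m.entropy.toReal ∧
    (MW W).J (xiW W + (RW W).Dop D x) =ᵐ[W.P]
      fun ω => 1 + (XP W.meas W.br m hb (-1) : W.Ω → ℝ) ω

/-- (LINKZ) vanishing ground state energy, literal and Hilbert forms -/
def LINKZ (W : BS) : Prop := ∀ α : ℝ, 0 < α →
  (W.ZeroE α (-1) ↔ ZeroH (RW W) (KW W) (xiW W) α)

end

end Crest.Agent.R146.P5Def_12
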