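import Crest.Agent.R146.GG_534

/-!
Row 146 (TIP-REG, helper534): `SG κ` = all derivatives in `GG κ`; heat flow on `SG κ`, semigroup
property, symmetry (Fubini), Gaussian density.
-/

set_option autoImplicit false

namespace Crest.Agent.R146.SG_534

open MeasureTheory ProbabilityTheory Filter Topology Set
open Crest.Agent.R146.Hg_534 Crest.Agent.R146.PB_534 Crest.Agent.R146.GG_534

noncomputable section

/-- `n` derivatives in `GG κ` -/
def GB (κ : ℝ) : ℕ → (ℝ → ℝ) → Prop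
  | 0, φ => GG κ φ
  | n + 1, φ => GG κ φ ∧ Differentiable ℝ φ ∧ GB κ n (deriv φ)

theorem GB.gg {κ : ℝ} : ∀ {n : ℕ} {φ : ℝ → ℝ}, GB κ n φ → GG κ φ
  | 0, _, h => h
  | _ + 1, _, h => h.1

theorem GB.pred {κ : ℝ} : ∀ {n : ℕ} {φ : ℝ → ℝ}, GB κ (n + 1) φ → GB κ n φ
  | 0, _, h => h.1
  | _ + 1, _, h => ⟨h.1, h.2.1, h.2.2.pred⟩

theorem GB.mono {κ κ' : ℝ} (hk : κ ≤ κ') : ∀ {n : ℕ} {φ : ℝ → ℝ}, GB κ n φ → GB κ' n φ
  | 0, _, h => GG.mono hk h
  | _ + 1, _, h => ⟨h.1.mono hk, h.2.1, h.2.2.mono hk⟩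

theorem GB.add {κ : ℝ} : ∀ {n : ℕ} {φ ψ : ℝ → ℝ}, GB κ n φ → GB κ n ψ →
    GB κ n (fun x => φ x + ψ x)
  | 0, _, _, h, h' => GG.add h h'
  | n + 1, φ, ψ, h, h' => ⟨h.1.add h'.1, h.2.1.add h'.2.1, by
      have e : deriv (fun x => φ x + ψ x) = fun x => deriv φ x + deriv ψ x := by
        funext x
        exact deriv_fun_add (h.2.1 x) (h'.2.1 x)
      rw [e]; exact GB.add h.2.2 h'.2.2⟩

theorem GB.mul {κ κ' : ℝ} : ∀ {n : ℕ} {φ ψ : ℝ → ℝ}, GB κ n φ → GB κ' n ψ →
    GB (κ + κ') n (fun x => φ x * ψ x)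
  | 0, _, _, h, h' => GG.mul h h'
  | n + 1, φ, ψ, h, h' => ⟨h.1.mul h'.1, h.2.1.mul h'.2.1, by
      have e : deriv (fun x => φ x * ψ x) = fun x => deriv φ x * ψ x + φ x * deriv ψ x := by
        funext x
        exact deriv_fun_mul (h.2.1 x) (h'.2.1 x)
      rw [e]; exact GB.add (GB.mul h.2.2 h'.pred) (GB.mul h.pred h'.2.2)⟩

theorem GB.of_pb : ∀ {n : ℕ} {φ : ℝ → ℝ}, PB n φ → GB 0 n φ
  | 0, _, h => GG.of_eg (PG.eg h)
  | _ + 1, _, h => ⟨GG.of_eg h.1.eg, h.2.1, GB.of_pb h.2.2⟩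

/-- all derivatives in `GG κ` -/
def SG (κ : ℝ) (φ : ℝ → ℝ) : Prop := ∀ n, GB κ n φ

theorem SG.gg {κ : ℝ} {φ : ℝ → ℝ} (h : SG κ φ) : GG κ φ := (h 0).gg
theorem SG.cont {κ : ℝ} {φ : ℝ → ℝ} (h : SG κ φ) : Continuous φ := h.gg.cont
theorem SG.diff {κ : ℝ} {φ : ℝ → ℝ} (h : SG κ φ) : Differentiable ℝ φ := (h 1).2.1
theorem SG.deriv {κ : ℝ} {φ : ℝ → ℝ} (h : SG κ φ) : SG κ (deriv φ) := fun n => (h (n + 1)).2.2
theorem SG.hd {κ : ℝ} {φ : ℝ → ℝ} (h : SG κ φ) (x : ℝ) : HasDerivAt φ (_root_.deriv φ x) x :=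
  (h.diff x).hasDerivAt
theorem SG.mono {κ κ' : ℝ} (hk : κ ≤ κ') {φ : ℝ → ℝ} (h : SG κ φ) : SG κ' φ :=
  fun n => (h n).mono hk
theorem SG.add {κ : ℝ} {φ ψ : ℝ → ℝ} (h : SG κ φ) (h' : SG κ ψ) : SG κ (fun x => φ x + ψ x) :=
  fun n => (h n).add (h' n)
theorem SG.mul {κ κ' : ℝ} {φ ψ : ℝ → ℝ} (h : SG κ φ) (h' : SG κ' ψ) :
    SG (κ + κ') (fun x => φ x * ψ x) := fun n => (h n).mul (h' n)
theorem SG.of_sm {φ : ℝ → ℝ} (h : Sm φ) : SG 0 φ := fun n => GB.of_pb (h n)
theorem SG.sm_mul {κ : ℝ} {φ ψ : ℝ → ℝ} (h : Sm φ) (h' : SG κ ψ) : SG κ (fun x => φ x * ψ x) := by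
  have := (SG.of_sm h).mul h'
  rwa [zero_add] at this
theorem SG.const_mul {κ : ℝ} {φ : ℝ → ℝ} (h : SG κ φ) (c : ℝ) : SG κ (fun x => c * φ x) :=
  SG.sm_mul (Sm.const c) h
theorem SG.neg {κ : ℝ} {φ : ℝ → ℝ} (h : SG κ φ) : SG κ (fun x => -φ x) := by
  have := h.const_mul (-1)
  simpa using this
theorem SG.sub {κ : ℝ} {φ ψ : ℝ → ℝ} (h : SG κ φ) (h' : SG κ ψ) : SG κ (fun x => φ x - ψ x) := by
  have := h.add h'.neg
  simpa [sub_eq_add_neg] using this

/-- introduction by an explicit derivative -/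
theorem SG.of_deriv {κ : ℝ} {φ φ' : ℝ → ℝ} (hp : GG κ φ) (hd : ∀ x, HasDerivAt φ (φ' x) x)
    (h : SG κ φ') : SG κ φ := by
  intro n
  cases n with
  | zero => exact hp
  | succ n =>
    refine ⟨hp, fun x => (hd x).differentiableAt, ?_⟩
    have e : _root_.deriv φ = φ' := by
      funext x; exact (hd x).deriv
    rw [e]; exact h n

/-- exponential of a smooth function with a growth bound -/
theorem SG.exp_mul {κ : ℝ} {h : ℝ → ℝ} (hs : Sm h)
    (hb : ∃ K A : ℝ, 0 ≤ K ∧ 0 ≤ A ∧ ∀ x, Real.exp (h x) ≤ K * wt κ A x) {m : ℝ → ℝ} (hm : Sm m) :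
    SG κ (fun x => m x * Real.exp (h x)) := by
  have hE : GG κ (fun x => Real.exp (h x)) := by
    obtain ⟨K, A, hK, hA, hb⟩ := hb
    refine ⟨Real.continuous_exp.comp hs.cont, K, A, hK, hA, fun x => ?_⟩
    rw [abs_of_pos (Real.exp_pos _)]
    exact hb x
  intro n
  induction n generalizing m with
  | zero => exact GG.pg_mul hm.pg hE
  | succ n ih =>
    have hd : ∀ x, HasDerivAt (fun x => m x * Real.exp (h x))
        ((_root_.deriv m x + m x * _root_.deriv h x) * Real.exp (h x)) x := by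
      intro x
      have h1 := (hm.hd x).mul (hs.hd x).exp
      refine h1.congr_deriv ?_
      ring
    refine ⟨GG.pg_mul hm.pg hE, fun x => (hd x).differentiableAt, ?_⟩
    have e : _root_.deriv (fun x => m x * Real.exp (h x)) =
        fun x => (_root_.deriv m x + m x * _root_.deriv h x) * Real.exp (h x) := by
      funext x; exact (hd x).deriv
    rw [e]
    exact ih (hm.deriv.add (hm.mul hs.deriv))

theorem SG.exp {κ : ℝ} {h : ℝ → ℝ} (hs : Sm h)
    (hb : ∃ K A : ℝ, 0 ≤ K ∧ 0 ≤ A ∧ ∀ x, Real.exp (h x) ≤ K * wt κ A x) :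
    SG κ (fun x => Real.exp (h x)) := by
  have := SG.exp_mul hs hb (Sm.const 1)
  simpa using this

/-- exponential of a smooth function bounded above -/
theorem Sm.exp {h : ℝ → ℝ} (hs : Sm h) {c : ℝ} (hb : ∀ x, h x ≤ c) :
    Sm (fun x => Real.exp (h x)) := by
  have hE : PG (fun x => Real.exp (h x)) := by
    refine PG.of_bdd (Real.continuous_exp.comp hs.cont) (K := Real.exp c) fun x => ?_
    rw [abs_of_pos (Real.exp_pos _)]
    exact Real.exp_le_exp.2 (hb x)
  have key : ∀ n, ∀ m : ℝ → ℝ, Sm m → PB n (fun x => m x * Real.exp (h x)) := by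
    intro n
    induction n with
    | zero => exact fun m hm => PG.mul hm.pg hE
    | succ n ih =>
      intro m hm
      have hd : ∀ x, HasDerivAt (fun x => m x * Real.exp (h x))
          ((_root_.deriv m x + m x * _root_.deriv h x) * Real.exp (h x)) x := by
        intro x
        have h1 := (hm.hd x).mul (hs.hd x).exp
        refine h1.congr_deriv ?_
        ring
      refine ⟨PG.mul hm.pg hE, fun x => (hd x).differentiableAt, ?_⟩
      have e : _root_.deriv (fun x => m x * Real.exp (h x)) =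
          fun x => (_root_.deriv m x + m x * _root_.deriv h x) * Real.exp (h x) := by
        funext x; exact (hd x).deriv
      rw [e]
      exact ih _ (hm.deriv.add (hm.mul hs.deriv))
  intro n
  have := key n _ (Sm.const 1)
  simpa using this

theorem deriv_H {κ : ℝ} (hκ : 0 ≤ κ) {φ : ℝ → ℝ} (h : SG κ φ) {t : ℝ} (ht : κ * t ^ 2 < 1) :
    deriv (H t φ) = H t (deriv φ) := by
  funext x
  exact (H_deriv_x hκ h.gg h.deriv.gg h.hd ht x).deriv

theorem GB.H {κ : ℝ} (hκ : 0 ≤ κ) {t : ℝ} (ht : κ * t ^ 2 < 1) :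
    ∀ {n : ℕ} {φ : ℝ → ℝ}, SG κ φ → GB (κ / (1 - κ * t ^ 2)) n (H t φ)
  | 0, _, h => h.gg.H hκ ht
  | n + 1, φ, h => ⟨h.gg.H hκ ht, fun x =>
      (H_deriv_x hκ h.gg h.deriv.gg h.hd ht x).differentiableAt, by
        rw [deriv_H hκ h ht]
        exact GB.H hκ ht h.deriv⟩

theorem SG.H {κ : ℝ} (hκ : 0 ≤ κ) {t : ℝ} (ht : κ * t ^ 2 < 1) {φ : ℝ → ℝ} (h : SG κ φ) :
    SG (κ / (1 - κ * t ^ 2)) (H t φ) := fun _ => GB.H hκ ht h

/-- heat flow preserves polynomial growth -/
theorem PG.H {φ : ℝ → ℝ} (h : PG φ) (t : ℝ) : PG (H t φ) := by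
  obtain ⟨C, n, hC, hb⟩ := h.bd
  refine ⟨(H_continuous h.eg).comp (by fun_prop : Continuous fun x : ℝ => ((t, x) : ℝ × ℝ)),
    C * ∫ g, (1 + |t| * |g|) ^ n ∂gaussianReal 0 1, n,
    mul_nonneg hC (integral_nonneg fun g => by positivity), fun x => ?_⟩
  have hp : PG (fun g : ℝ => (1 + |t| * |g|) ^ n) :=
    PG.pow ((PG.const 1).add (PG.id.abs.const_mul |t|)) n
  have hI : Integrable (fun g : ℝ => (1 + |t| * |g|) ^ n) (gaussianReal 0 1) := by
    have := hp.eg.int 1 0
    simpa using this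
  unfold Crest.Agent.R146.Hg_534.H
  rw [← Real.norm_eq_abs, mul_comm C, mul_assoc, ← integral_mul_const]
  refine norm_integral_le_of_norm_le (hI.mul_const _) (Eventually.of_forall fun g => ?_)
  rw [Real.norm_eq_abs]
  refine (hb _).trans ?_
  have h1 : 1 + |x + t * g| ≤ (1 + |t| * |g|) * (1 + |x|) := by
    have h2 : |x + t * g| ≤ |x| + |t| * |g| := (abs_add_le _ _).trans_eq (by rw [abs_mul])
    have h3 : 0 ≤ |t| * |g| * |x| := by positivity
    nlinarith
  have h2 : (1 + |x + t * g|) ^ n ≤ ((1 + |t| * |g|) * (1 + |x|)) ^ n :=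
    pow_le_pow_left₀ (by positivity) h1 n
  rw [mul_pow] at h2
  have := mul_le_mul_of_nonneg_left h2 hC
  linarith

theorem PB.H : ∀ {n : ℕ} {φ : ℝ → ℝ}, Sm φ → ∀ t : ℝ, PB n (H t φ)
  | 0, _, h, t => PG.H h.pg t
  | n + 1, φ, h, t => ⟨PG.H h.pg t, fun x =>
      (Hg_534.H_deriv_x h.pg.eg h.deriv.pg.eg h.hd t x).differentiableAt, by
        have e : deriv (Hg_534.H t φ) = Hg_534.H t (deriv φ) := by
          funext x
          exact (Hg_534.H_deriv_x h.pg.eg h.deriv.pg.eg h.hd t x).deriv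
        rw [e]
        exact PB.H h.deriv t⟩

theorem Sm.H {φ : ℝ → ℝ} (h : Sm φ) (t : ℝ) : Sm (H t φ) := fun _ => PB.H h t

/-! ### semigroup property -/

theorem H_eq_gauss {φ : ℝ → ℝ} (hc : Continuous φ) (t x : ℝ) :
    H t φ x = ∫ y, φ (x + y) ∂gaussianReal 0 (NNReal.mk (t ^ 2) (sq_nonneg t)) := by
  have h1 : gaussianReal 0 (NNReal.mk (t ^ 2) (sq_nonneg t)) = (gaussianReal 0 1).map (t * ·) := by
    rw [gaussianReal_map_const_mul, mul_zero, mul_one]
  rw [h1, integral_map (by fun_prop)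
    (by fun_prop : Continuous fun y : ℝ => φ (x + y)).aestronglyMeasurable]
  rfl

theorem H_neg {φ : ℝ → ℝ} (hc : Continuous φ) (t x : ℝ) : H (-t) φ x = H t φ x := by
  rw [H_eq_gauss hc, H_eq_gauss hc]
  congr 2
  ext
  simp

theorem H_abs {φ : ℝ → ℝ} (hc : Continuous φ) (t x : ℝ) : H |t| φ x = H t φ x := by
  rcases le_total 0 t with h | h
  · rw [abs_of_nonneg h]
  · rw [abs_of_nonpos h, H_neg hc]

theorem H_semigroup {κ : ℝ} (hκ : 0 ≤ κ) {φ : ℝ → ℝ} (hφ : GG κ φ) {s t u : ℝ}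
    (hu : u ^ 2 = s ^ 2 + t ^ 2) (ht : κ * u ^ 2 < 1) (x : ℝ) :
    H s (H t φ) x = H u φ x := by
  have hc := hφ.cont
  have hIu : Integrable (fun y => φ (x + y)) (gaussianReal 0 (NNReal.mk (u ^ 2) (sq_nonneg u))) := by
    have h1 : gaussianReal 0 (NNReal.mk (u ^ 2) (sq_nonneg u)) = (gaussianReal 0 1).map (u * ·) := by
      rw [gaussianReal_map_const_mul, mul_zero, mul_one]
    rw [h1, integrable_map_measure
      (by fun_prop : Continuous fun y : ℝ => φ (x + y)).aestronglyMeasurable (by fun_prop)]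
    exact hφ.int hκ ht x
  have hconv : gaussianReal 0 (NNReal.mk (u ^ 2) (sq_nonneg u)) =
      (gaussianReal 0 (NNReal.mk (s ^ 2) (sq_nonneg s))) ∗ (gaussianReal 0 (NNReal.mk (t ^ 2) (sq_nonneg t))) := by
    rw [gaussianReal_conv_gaussianReal, add_zero]
    congr 1
    ext
    rw [NNReal.coe_add, NNReal.coe_mk, NNReal.coe_mk, NNReal.coe_mk]
    exact hu
  have h2 : H u φ x = ∫ y, ∫ z, φ (x + (y + z)) ∂gaussianReal 0 (NNReal.mk (t ^ 2) (sq_nonneg t))
      ∂gaussianReal 0 (NNReal.mk (s ^ 2) (sq_nonneg s)) := by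
    rw [H_eq_gauss hc u x, hconv]
    rw [hconv] at hIu
    exact integral_conv hIu
  have ht2 : κ * t ^ 2 < 1 := by
    have : t ^ 2 ≤ u ^ 2 := by rw [hu]; nlinarith [sq_nonneg s]
    nlinarith
  rw [h2, H_eq_gauss (H_cont hκ hφ ht2) s x]
  refine integral_congr_ae (Eventually.of_forall fun y => ?_)
  simp only []
  rw [H_eq_gauss hc]
  simp only [add_assoc]

/-! ### symmetry -/

theorem shear_mp (t : ℝ) : MeasurePreserving (fun p : ℝ × ℝ => (p.1, p.2 + t * p.1))
    ((gaussianReal 0 1).prod volume) ((gaussianReal 0 1).prod volume) := by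
  refine MeasurePreserving.skew_product (f := id) (g := fun a x => x + t * a)
    (MeasurePreserving.id _) (by fun_prop) (Eventually.of_forall fun a => ?_)
  exact (measurePreserving_add_right volume (t * a)).map_eq

/-- the product function is integrable as soon as `|F| * H t |φ|` is -/
theorem fubini_int {F φ : ℝ → ℝ} (hF : Continuous F) (hφ : Continuous φ) (t : ℝ)
    (hs : ∀ x, Integrable (fun g : ℝ => φ (x + t * g)) (gaussianReal 0 1))
    (hi : Integrable (fun x => |F x| * H t (fun y => |φ y|) x) volume) :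
    Integrable (fun p : ℝ × ℝ => F p.2 * φ (p.2 + t * p.1)) ((gaussianReal 0 1).prod volume) := by
  rw [integrable_prod_iff' (by fun_prop : Continuous fun p : ℝ × ℝ =>
    F p.2 * φ (p.2 + t * p.1)).aestronglyMeasurable]
  refine ⟨Eventually.of_forall fun x => (hs x).const_mul (F x), ?_⟩
  refine hi.congr (Eventually.of_forall fun x => ?_)
  simp only [norm_mul, Real.norm_eq_abs]
  rw [integral_const_mul]
  rfl

/-- **symmetry of the heat flow** -/
theorem fubini {F φ : ℝ → ℝ} (hF : Continuous F) (hφ : Continuous φ) (t : ℝ)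
    (hs : ∀ x, Integrable (fun g : ℝ => φ (x + t * g)) (gaussianReal 0 1))
    (hi : Integrable (fun x => |F x| * H t (fun y => |φ y|) x) volume) :
    Integrable (fun y => H t F y * φ y) volume ∧
      ∫ x, F x * H t φ x = ∫ y, H t F y * φ y := by
  have h1 := fubini_int hF hφ t hs hi
  set Φ : ℝ × ℝ → ℝ := fun p => F (p.2 - t * p.1) * φ p.2 with hΦ
  have hΦc : Continuous Φ := by fun_prop
  have e1 : (fun p : ℝ × ℝ => F p.2 * φ (p.2 + t * p.1)) =
      Φ ∘ (fun p : ℝ × ℝ => (p.1, p.2 + t * p.1)) := by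
    funext p
    simp [hΦ]
  have hm := shear_mp t
  have h2 : Integrable Φ ((gaussianReal 0 1).prod volume) := by
    rw [e1] at h1
    rw [← hm.map_eq]
    exact (integrable_map_measure hΦc.aestronglyMeasurable hm.measurable.aemeasurable).2 h1
  have h3 : ∫ p, Φ p ∂((gaussianReal 0 1).prod volume) =
      ∫ p : ℝ × ℝ, F p.2 * φ (p.2 + t * p.1) ∂((gaussianReal 0 1).prod volume) := by
    rw [e1]
    conv_lhs => rw [← hm.map_eq]
    rw [integral_map hm.measurable.aemeasurable hΦc.aestronglyMeasurable]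
    rfl
  have h4 : ∀ y, ∫ g, Φ (g, y) ∂gaussianReal 0 1 = H t F y * φ y := by
    intro y
    simp only [hΦ]
    rw [integral_mul_const, ← H_neg hF t y]
    congr 1
    unfold Crest.Agent.R146.Hg_534.H
    refine integral_congr_ae (Eventually.of_forall fun g => ?_)
    simp only []
    congr 1
    ring
  constructor
  · have h5 := h2.integral_prod_right
    refine h5.congr (Eventually.of_forall fun y => ?_)
    exact h4 y
  · have h6 : ∫ x, F x * H t φ x = ∫ p : ℝ × ℝ, F p.2 * φ (p.2 + t * p.1)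
        ∂((gaussianReal 0 1).prod volume) := by
      rw [integral_prod_symm _ h1]
      refine integral_congr_ae (Eventually.of_forall fun x => ?_)
      simp only []
      rw [integral_const_mul]
      rfl
    rw [h6, ← h3, integral_prod_symm _ h2]
    refine integral_congr_ae (Eventually.of_forall fun y => ?_)
    exact h4 y

/-! ### Gaussian density -/

/-- integral against the Gaussian density of mean `x` and variance `r` -/
theorem H_density {F : ℝ → ℝ} (hF : Continuous F) {r : NNReal} (hr : r ≠ 0) (x : ℝ) :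
    ∫ y, gaussianPDFReal x r y * F y = H (√r) F x := by
  have h1 : gaussianReal x r = (gaussianReal 0 1).map (fun g => x + √r * g) := by
    have e : (fun g : ℝ => x + √r * g) = (fun y => x + y) ∘ (fun g => √r * g) := rfl
    rw [e, ← Measure.map_map (by fun_prop) (by fun_prop), gaussianReal_map_const_mul,
      gaussianReal_map_const_add, mul_zero, zero_add, mul_one]
    congr 1
    ext
    simp
  have h2 : ∫ y, F y ∂gaussianReal x r = H (√r) F x := by
    rw [h1, integral_map (by fun_prop) hF.aestronglyMeasurable]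
    rfl
  rw [← h2, integral_gaussianReal_eq_integral_smul hr]
  rfl

theorem H_density_int {F : ℝ → ℝ} (hF : Continuous F) {r : NNReal} (hr : r ≠ 0) (x : ℝ)
    (hi : Integrable (fun g : ℝ => F (x + √r * g)) (gaussianReal 0 1)) :
    Integrable (fun y => gaussianPDFReal x r y * F y) volume := by
  have h1 : gaussianReal x r = (gaussianReal 0 1).map (fun g => x + √r * g) := by
    have e : (fun g : ℝ => x + √r * g) = (fun y => x + y) ∘ (fun g => √r * g) := rfl
    rw [e, ← Measure.map_map (by fun_prop) (by fun_prop), gaussianReal_map_const_mul,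
      gaussianReal_map_const_add, mul_zero, zero_add, mul_one]
    congr 1
    ext
    simp
  have h2 : Integrable F (gaussianReal x r) := by
    rw [h1, integrable_map_measure hF.aestronglyMeasurable (by fun_prop)]
    exact hi
  rw [gaussianReal_of_var_ne_zero x hr] at h2
  have h3 := (integrable_withDensity_iff_integrable_smul₀'
      (measurable_gaussianPDF x r).aemeasurable
      (Eventually.of_forall fun g => gaussianPDF_lt_top)).1 h2
  simpa only [toReal_gaussianPDF, smul_eq_mul] using h3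

end

end Crest.Agent.R146.SG_534
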