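import Crest.Agent.R146.HilbB_356

/-!
Row 146 (S0205), PT: limit of the step approximants in the Hilbert frame (helper45, STEP-HLIM).

`Kkt R K ξ D x` : `x ∈ K`, `⟪y, ξ + Dop D x⟫ ≥ 0` on `K`, `⟪x, ξ + Dop D x⟫ = 0`.
* `Kkt.pair`        : `Q D (y - x) + ½ Q (G - D) y ≤ ½ Q (G - D) x` for two KKT points
                      `(x, D)`, `(y, G)`;
* `Kkt.norm_P_le`   : `D t ‖P_t (y - x)‖² ≤ (e/2) ‖x‖²` if `D ≤ G ≤ D + e`;
* `Kkt.unique`      : uniqueness if `D ≥ d > 0`;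
* `Kkt.tendsto_P`, `Kkt.tendsto_Ph`, `Kkt.tendsto_norm`, `Kkt.tendsto_C` : limits along any filter.
-/

set_option autoImplicit false

namespace Crest.Agent.R146.PtHlim_45

open MeasureTheory Set Filter Topology
open Crest.Agent.R146.Hilb
open scoped RealInnerProductSpace

variable {H : Type*} [NormedAddCommGroup H] [InnerProductSpace ℝ H] [CompleteSpace H]

/-- the KKT conditions of `⟪x,ξ⟫ + ½ Q D x` on the cone `K` -/
structure Kkt (R : Res H) (K : Set H) (ξ : H) (D : ℝ → ℝ) (x : H) : Prop where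
  mem : x ∈ K
  nonneg : ∀ y ∈ K, 0 ≤ ⟪y, ξ + R.Dop D x⟫
  zero : ⟪x, ξ + R.Dop D x⟫ = 0

variable {R : Res H} {K : Set H} {ξ : H}

theorem Kkt.pair {D G : ℝ → ℝ} {x y : H} (hx : Kkt R K ξ D x) (hy : Kkt R K ξ G y)
    (hD : ContinuousOn D (Icc 0 1)) (hG : ContinuousOn G (Icc 0 1))
    (hle : ∀ t ∈ Icc (0:ℝ) 1, D t ≤ G t) :
    R.Q D (y - x) + 1 / 2 * R.Q (fun t => G t - D t) y ≤
      1 / 2 * R.Q (fun t => G t - D t) x := by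
  have h1 := hx.nonneg y hy.mem
  have h2 := hy.nonneg x hx.mem
  have h3 := hx.zero
  have h4 := hy.zero
  have hδ : ContinuousOn (fun t => G t - D t) (Icc 0 1) := hG.sub hD
  have hδ0 : 0 ≤ R.Q (fun t => G t - D t) (y - x) :=
    R.Q_nonneg hδ (fun t ht => sub_nonneg.2 (hle t ht)) _
  -- expand
  have e1 : R.Q D (y - x) = R.Q D y - 2 * ⟪y, R.Dop D x⟫ + R.Q D x := by
    have h5 : ⟪x, R.Dop D y⟫ = ⟪y, R.Dop D x⟫ := by
      rw [← R.Dop_symm hD, real_inner_comm]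
    simp only [Res.Q, map_sub, inner_sub_left, inner_sub_right, h5]; ring
  have e2 : R.Q (fun t => G t - D t) (y - x) =
      R.Q (fun t => G t - D t) y - 2 * ⟪x, R.Dop (fun t => G t - D t) y⟫ +
        R.Q (fun t => G t - D t) x := by
    have h5 : ⟪y, R.Dop (fun t => G t - D t) x⟫ = ⟪x, R.Dop (fun t => G t - D t) y⟫ := by
      rw [← R.Dop_symm hδ, real_inner_comm]
    simp only [Res.Q, map_sub, inner_sub_left, inner_sub_right, h5]; ring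
  have e3 : ⟪x, R.Dop (fun t => G t - D t) y⟫ = ⟪x, R.Dop G y⟫ - ⟪x, R.Dop D y⟫ := by
    rw [R.Dop_sub hG hD, sub_apply, inner_sub_right]
  have e4 : ⟪x, R.Dop D y⟫ = ⟪y, R.Dop D x⟫ := by
    rw [← R.Dop_symm hD, real_inner_comm]
  have e5 : R.Q (fun t => G t - D t) y = R.Q G y - R.Q D y := R.Q_sub hG hD y
  rw [inner_add_right] at h1 h2 h3 h4
  have h5 : ⟪x, R.Dop D x⟫ = R.Q D x := rfl
  have h6 : ⟪y, R.Dop G y⟫ = R.Q G y := rfl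
  rw [h5] at h3
  rw [h6] at h4
  -- `Q D (y-x) ≤ ⟪y - x, Dop (D - G) y⟫ = -Q δ y + ⟪x, Dop δ y⟫`
  rw [e3, e4] at e2
  linarith

theorem Kkt.norm_P_le {D G : ℝ → ℝ} {x y : H} (hx : Kkt R K ξ D x) (hy : Kkt R K ξ G y)
    (hD : ContinuousOn D (Icc 0 1)) (hG : ContinuousOn G (Icc 0 1))
    (ha : AntitoneOn D (Icc 0 1)) (h1 : 0 ≤ D 1)
    (hle : ∀ t ∈ Icc (0:ℝ) 1, D t ≤ G t) {e : ℝ} (hge : ∀ t ∈ Icc (0:ℝ) 1, G t ≤ D t + e)
    {t : ℝ} (ht : t ∈ Icc (0:ℝ) 1) : D t * ‖R.P t (y - x)‖ ^ 2 ≤ e / 2 * ‖x‖ ^ 2 := by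
  have h2 := hx.pair hy hD hG hle
  have hδ : ContinuousOn (fun t => G t - D t) (Icc 0 1) := hG.sub hD
  have h3 := R.Q_ge_norm_P hD ha h1 ht (y - x)
  have h4 : 0 ≤ R.Q (fun t => G t - D t) y :=
    R.Q_nonneg hδ (fun t ht => sub_nonneg.2 (hle t ht)) _
  have h5 : R.Q (fun t => G t - D t) x ≤ e * ‖x‖ ^ 2 :=
    R.Q_le hδ (fun t ht => by linarith [hge t ht]) x
  linarith

/-- uniqueness of the KKT point for `D ≥ d > 0` -/
theorem Kkt.unique {D : ℝ → ℝ} {x y : H} (hx : Kkt R K ξ D x) (hy : Kkt R K ξ D y)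
    (hD : ContinuousOn D (Icc 0 1)) {d : ℝ} (hd : 0 < d) (hd' : ∀ t ∈ Icc (0:ℝ) 1, d ≤ D t) :
    y = x := by
  have h2 := hx.pair hy hD hD (fun _ _ => le_rfl)
  have h3 : ∀ z : H, R.Q (fun t => D t - D t) z = 0 := fun z => by
    have : (fun t => D t - D t) = fun _ => (0:ℝ) := by funext t; ring
    rw [this, R.Q_const, zero_mul]
  rw [h3, h3] at h2
  have h4 := R.le_Q hD hd' (y - x)
  have h5 : d * ‖y - x‖ ^ 2 ≤ 0 := by linarith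
  have h6 : ‖y - x‖ ^ 2 ≤ 0 := by
    by_contra hcon
    push Not at hcon
    have := mul_pos hd hcon
    linarith
  have h7 : ‖y - x‖ = 0 := by
    have := sq_nonneg ‖y - x‖
    exact pow_eq_zero_iff (two_ne_zero) |>.1 (le_antisymm h6 this)
  exact sub_eq_zero.1 (norm_eq_zero.1 h7)

/-- bound of the norm -/
theorem Kkt.norm_le {D G : ℝ → ℝ} {x y : H} (hx : Kkt R K ξ D x) (hy : Kkt R K ξ G y)
    (hD : ContinuousOn D (Icc 0 1)) (hG : ContinuousOn G (Icc 0 1))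
    (h0 : ∀ t ∈ Icc (0:ℝ) 1, 0 ≤ D t)
    {c e : ℝ} (hc : 0 ≤ c) (hcG : ∀ t ∈ Icc (0:ℝ) 1, D t + c ≤ G t)
    (hge : ∀ t ∈ Icc (0:ℝ) 1, G t ≤ D t + e) : c * ‖y‖ ^ 2 ≤ e * ‖x‖ ^ 2 := by
  have hle : ∀ t ∈ Icc (0:ℝ) 1, D t ≤ G t := fun t ht => by linarith [hcG t ht]
  have h2 := hx.pair hy hD hG hle
  have hδ : ContinuousOn (fun t => G t - D t) (Icc 0 1) := hG.sub hD
  have h3 := R.Q_nonneg hD h0 (y - x)
  have h4 : c * ‖y‖ ^ 2 ≤ R.Q (fun t => G t - D t) y :=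
    R.le_Q hδ (fun t ht => by linarith [hcG t ht]) _
  have h5 : R.Q (fun t => G t - D t) x ≤ e * ‖x‖ ^ 2 :=
    R.Q_le hδ (fun t ht => by linarith [hge t ht]) x
  linarith

section lim

variable {ι : Type*} {l : Filter ι} {D : ℝ → ℝ} {x : H} {Dn : ι → ℝ → ℝ} {xn : ι → H} {e : ι → ℝ}

/-- convergence of `P_t x_n`, `t < 1` -/
theorem Kkt.tendsto_P (hx : Kkt R K ξ D x) (hxn : ∀ n, Kkt R K ξ (Dn n) (xn n))
    (hD : ContinuousOn D (Icc 0 1)) (hDn : ∀ n, ContinuousOn (Dn n) (Icc 0 1))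
    (ha : AntitoneOn D (Icc 0 1)) (h1 : 0 ≤ D 1)
    (hle : ∀ n, ∀ t ∈ Icc (0:ℝ) 1, D t ≤ Dn n t)
    (hge : ∀ n, ∀ t ∈ Icc (0:ℝ) 1, Dn n t ≤ D t + e n) (he : Tendsto e l (𝓝 0))
    {t : ℝ} (ht : t ∈ Icc (0:ℝ) 1) (hDt : 0 < D t) :
    Tendsto (fun n => R.P t (xn n)) l (𝓝 (R.P t x)) := by
  rw [tendsto_iff_norm_sub_tendsto_zero]
  have h2 : ∀ n, ‖R.P t (xn n) - R.P t x‖ ^ 2 ≤ e n * (‖x‖ ^ 2 / (2 * D t)) := by
    intro n
    have h3 := hx.norm_P_le (hxn n) hD (hDn n) ha h1 (hle n) (hge n) ht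
    rw [← map_sub]
    have h4 : ‖R.P t (xn n - x)‖ ^ 2 ≤ (e n / 2 * ‖x‖ ^ 2) / D t := by
      rw [le_div_iff₀ hDt]; linarith
    calc ‖R.P t (xn n - x)‖ ^ 2 ≤ (e n / 2 * ‖x‖ ^ 2) / D t := h4
      _ = e n * (‖x‖ ^ 2 / (2 * D t)) := by field_simp
  have h5 : Tendsto (fun n => e n * (‖x‖ ^ 2 / (2 * D t))) l (𝓝 0) := by
    simpa using he.mul_const (‖x‖ ^ 2 / (2 * D t))
  have h6 : Tendsto (fun n => ‖R.P t (xn n) - R.P t x‖ ^ 2) l (𝓝 0) :=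
    squeeze_zero (fun n => sq_nonneg _) h2 h5
  have h7 := (Real.continuous_sqrt.tendsto 0).comp h6
  rw [Real.sqrt_zero] at h7
  refine h7.congr fun n => ?_
  simp only [Function.comp]
  exact Real.sqrt_sq (norm_nonneg _)

theorem Kkt.tendsto_norm (hx : Kkt R K ξ D x) (hxn : ∀ n, Kkt R K ξ (Dn n) (xn n))
    (hD : ContinuousOn D (Icc 0 1)) (hDn : ∀ n, ContinuousOn (Dn n) (Icc 0 1))
    (ha : AntitoneOn D (Icc 0 1)) (h1 : 0 ≤ D 1)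
    (hle : ∀ n, ∀ t ∈ Icc (0:ℝ) 1, D t ≤ Dn n t)
    (hge : ∀ n, ∀ t ∈ Icc (0:ℝ) 1, Dn n t ≤ D t + e n) (he : Tendsto e l (𝓝 0))
    {t : ℝ} (ht : t ∈ Icc (0:ℝ) 1) (hDt : 0 < D t) :
    Tendsto (fun n => ‖R.P t (xn n)‖ ^ 2) l (𝓝 (‖R.P t x‖ ^ 2)) :=
  ((hx.tendsto_P hxn hD hDn ha h1 hle hge he ht hDt).norm).pow 2

/-- convergence of `P_t h_n`, `h_n = ξ + Dop D_n x_n` -/
theorem Kkt.tendsto_Ph (hx : Kkt R K ξ D x) (hxn : ∀ n, Kkt R K ξ (Dn n) (xn n))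
    (hD : ContinuousOn D (Icc 0 1)) (hDn : ∀ n, ContinuousOn (Dn n) (Icc 0 1))
    (ha : AntitoneOn D (Icc 0 1)) (h1 : 0 ≤ D 1)
    (hle : ∀ n, ∀ t ∈ Icc (0:ℝ) 1, D t ≤ Dn n t)
    (hge : ∀ n, ∀ t ∈ Icc (0:ℝ) 1, Dn n t ≤ D t + e n) (he : Tendsto e l (𝓝 0))
    {t : ℝ} (ht : t ∈ Icc (0:ℝ) 1) (hDt : 0 < D t) :
    Tendsto (fun n => R.P t (ξ + R.Dop (Dn n) (xn n))) l (𝓝 (R.P t (ξ + R.Dop D x))) := by
  have hP := hx.tendsto_P hxn hD hDn ha h1 hle hge he ht hDt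
  -- `Dop D_n (P_t x_n) → Dop D (P_t x)`
  have h3 : Tendsto (fun n => R.Dop (Dn n) (R.P t (xn n))) l (𝓝 (R.Dop D (R.P t x))) := by
    have h4 : Tendsto (fun n => R.Dop D (R.P t (xn n))) l (𝓝 (R.Dop D (R.P t x))) :=
      ((R.Dop D).continuous.tendsto _).comp hP
    have h5 : Tendsto (fun n => R.Dop (Dn n) (R.P t (xn n)) - R.Dop D (R.P t (xn n))) l (𝓝 0) := by
      have h6 : ∀ n, ‖R.Dop (Dn n) (R.P t (xn n)) - R.Dop D (R.P t (xn n))‖ ≤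
          e n * ‖R.P t (xn n)‖ := by
        intro n
        have h7 : R.Dop (Dn n) (R.P t (xn n)) - R.Dop D (R.P t (xn n)) =
            R.Dop (fun s => Dn n s - D s) (R.P t (xn n)) := by
          rw [R.Dop_sub (hDn n) hD, sub_apply]
        rw [h7]
        exact R.Dop_norm_apply_le (g := fun s => Dn n s - D s) ((hDn n).sub hD)
          (fun s hs => by
            rw [abs_of_nonneg (sub_nonneg.2 (hle n s hs))]; linarith [hge n s hs]) _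
      have h8 : Tendsto (fun n => e n * ‖R.P t (xn n)‖) l (𝓝 (0 * ‖R.P t x‖)) := he.mul hP.norm
      rw [zero_mul] at h8
      exact squeeze_zero_norm h6 h8
    have h9 := h5.add h4
    rw [zero_add] at h9
    refine h9.congr fun n => ?_
    abel
  have e1 : ∀ n, R.P t (ξ + R.Dop (Dn n) (xn n)) = R.P t ξ + R.Dop (Dn n) (R.P t (xn n)) := by
    intro n
    rw [map_add, R.P_Dop (hDn n)]
  rw [map_add, R.P_Dop hD]
  simp only [e1]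
  exact tendsto_const_nhds.add h3

/-- convergence of the charge `⟪P_t h_n, x_n⟫` -/
theorem Kkt.tendsto_C (hx : Kkt R K ξ D x) (hxn : ∀ n, Kkt R K ξ (Dn n) (xn n))
    (hD : ContinuousOn D (Icc 0 1)) (hDn : ∀ n, ContinuousOn (Dn n) (Icc 0 1))
    (ha : AntitoneOn D (Icc 0 1)) (h1 : 0 ≤ D 1)
    (hle : ∀ n, ∀ t ∈ Icc (0:ℝ) 1, D t ≤ Dn n t)
    (hge : ∀ n, ∀ t ∈ Icc (0:ℝ) 1, Dn n t ≤ D t + e n) (he : Tendsto e l (𝓝 0))
    {t : ℝ} (ht : t ∈ Icc (0:ℝ) 1) (hDt : 0 < D t) :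
    Tendsto (fun n => ⟪R.P t (ξ + R.Dop (Dn n) (xn n)), xn n⟫) l
      (𝓝 ⟪R.P t (ξ + R.Dop D x), x⟫) := by
  have h2 := hx.tendsto_Ph hxn hD hDn ha h1 hle hge he ht hDt
  have h3 := hx.tendsto_P hxn hD hDn ha h1 hle hge he ht hDt
  have h4 := Filter.Tendsto.inner (𝕜 := ℝ) h2 h3
  have e1 : ∀ (g z : H), ⟪R.P t g, z⟫ = ⟪R.P t g, R.P t z⟫ := fun g z => R.P_inner t g z
  rw [e1]
  simp only [e1 _ (xn _)]
  exact h4

end lim

end Crest.Agent.R146.PtHlim_45
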