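import Crest.Agent.R146.PtScalB_45
import Crest.Agent.R146.HilbB_356

/-!
Row 146 (S0205), tip of the jamming profile, part 3 (helper45): the bridge between the Hilbert
frame (`HilbA_356`, profiles `D` concave antitone continuous) and the scalar part
(`PtScalA_45.Prof`, `VI`).

* `exists_prof` : a concave antitone continuous `D` with `D 1 ≥ 0` is `P.D` of a `Prof`;
* `prof_concave`, `prof_anti`, `prof_cont` : the converse;
* `vi_of_kkt`   : the KKT inequality in `D` gives `1/D²` integrable and `VI`;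
* `tip_hilb`    : `α T = 1` and `S - T = c0 D` near `t = 1`.
-/

set_option autoImplicit false

namespace Crest.Agent.R146.PtScalC_45

open MeasureTheory Set Filter Topology intervalIntegral
open Crest.Agent.R146.PtScalA_45 Crest.Agent.R146.PtScalB_45 Crest.Agent.R146.Hilb
open scoped RealInnerProductSpace

/-! ### profiles -/

theorem exists_prof {D : ℝ → ℝ} (hc : ConcaveOn ℝ (Icc 0 1) D) (ha : AntitoneOn D (Icc 0 1))
    (hcont : ContinuousOn D (Icc 0 1)) (h1 : 0 ≤ D 1) :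
    ∃ P : Prof, P.d = D 1 ∧ (∀ t ∈ Icc (0:ℝ) 1, P.D t = D t) ∧
      ∀ t ∈ Ioo (0:ℝ) 1, HasDerivWithinAt D (-(P.m t)) (Ioi t) t := by
  classical
  set N : ℝ → ℝ := fun t => -D t with hN
  have hcv : ConvexOn ℝ (Icc 0 1) N := hc.neg
  set m : ℝ → ℝ := fun t => if 0 < t then derivWithin N (Ioi t) t else 0 with hm
  have hint : interior (Icc (0:ℝ) 1) = Ioo 0 1 := interior_Icc
  have hmt : ∀ t ∈ Ioo (0:ℝ) 1, m t = derivWithin N (Ioi t) t := by
    intro t ht
    simp [hm, ht.1]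
  have hderiv : ∀ t ∈ Ioo (0:ℝ) 1, HasDerivWithinAt N (m t) (Ioi t) t := by
    intro t ht
    rw [hmt t ht]
    exact hcv.hasDerivWithinAt_rightDeriv_of_mem_interior (by rw [hint]; exact ht)
  have hnn : ∀ t ∈ Ioo (0:ℝ) 1, 0 ≤ m t := by
    intro t ht
    have htend := (hasDerivWithinAt_iff_tendsto_slope' (by simp)).1 (hderiv t ht)
    refine ge_of_tendsto htend ?_
    have : Ioo t 1 ∈ 𝓝[>] t := Ioo_mem_nhdsGT ht.2
    filter_upwards [this] with s hs
    have h2 : D s ≤ D t := ha ⟨ht.1.le, ht.2.le⟩ ⟨ht.1.le.trans hs.1.le, hs.2.le⟩ hs.1.le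
    rw [slope_def_field]
    apply div_nonneg _ (by linarith [hs.1])
    simp only [hN]
    linarith
  have hmon : MonotoneOn (fun x => derivWithin N (Ioi x) x) (interior (Icc (0:ℝ) 1)) :=
    hcv.monotoneOn_rightDeriv
  have hmono : MonotoneOn m (Ico 0 1) := by
    intro x hx y hy hxy
    by_cases hx0 : 0 < x
    · have hy0 : 0 < y := lt_of_lt_of_le hx0 hxy
      have h2 := hmon (show x ∈ interior (Icc (0:ℝ) 1) by rw [hint]; exact ⟨hx0, hx.2⟩)
        (show y ∈ interior (Icc (0:ℝ) 1) by rw [hint]; exact ⟨hy0, hy.2⟩) hxy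
      rw [hmt x ⟨hx0, hx.2⟩, hmt y ⟨hy0, hy.2⟩]
      exact h2
    · have : m x = 0 := by simp [hm, hx0]
      rw [this]
      by_cases hy0 : 0 < y
      · exact hnn y ⟨hy0, hy.2⟩
      · simp [hm, hy0]
  have hNc : ContinuousOn N (Icc 0 1) := hcont.neg
  have hmI : IntervalIntegrable m volume 0 1 :=
    (intervalIntegrable_iff_integrableOn_Ioc_of_le zero_le_one).2
      (integrableOn_deriv_right_of_nonneg hNc hderiv hnn)
  have hF : ∀ t ∈ Ioo (0:ℝ) 1, HasDerivWithinAt D (-(m t)) (Ioi t) t := by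
    intro t ht
    have h2 := (hderiv t ht).neg
    have h3 : -N = D := by funext s; simp [hN]
    rwa [h3] at h2
  refine ⟨{ m := m
            d := D 1
            mono := hmono
            nonneg := fun t ht => by
              by_cases h0 : 0 < t
              · exact hnn t ⟨h0, ht.2⟩
              · simp [hm, h0]
            int := hmI
            d_nonneg := h1 }, rfl, ?_, hF⟩
  intro t ht
  have h2 := integral_eq_sub_of_hasDeriv_right_of_le (a := t) (b := 1) (f := N)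
    (f' := m) ht.2 (hNc.mono (Icc_subset_Icc_left ht.1))
    (fun s hs => hderiv s ⟨ht.1.trans_lt hs.1, hs.2⟩)
    (sub_int hmI ht.1 ht.2 zero_le_one le_rfl)
  unfold Prof.D
  simp only
  rw [h2]
  simp only [hN]
  ring

theorem prof_sub (P : Prof) {x y : ℝ} (hx : 0 ≤ x) (hxy : x ≤ y) (hy : y ≤ 1) :
    P.D x - P.D y = ∫ s in x..y, P.m s := by
  have e := intervalIntegral.integral_add_adjacent_intervals
    (sub_int P.int hx (hxy.trans hy) (hx.trans hxy) hy)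
    (sub_int P.int (hx.trans hxy) hy zero_le_one le_rfl)
  unfold Prof.D
  linarith

theorem prof_anti (P : Prof) : AntitoneOn P.D (Icc 0 1) := by
  intro x hx y hy hxy
  have h1 := prof_sub P hx.1 hxy hy.2
  have h2 : 0 ≤ ∫ s in x..y, P.m s := by
    rw [intervalIntegral.integral_of_le hxy, integral_Ioc_eq_integral_Ioo]
    exact setIntegral_nonneg measurableSet_Ioo fun s hs =>
      P.nonneg s ⟨hx.1.trans hs.1.le, hs.2.trans_le hy.2⟩
  linarith

theorem prof_one (P : Prof) : P.D 1 = P.d := by simp [Prof.D]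

theorem prof_nonneg (P : Prof) {t : ℝ} (ht : t ∈ Icc (0:ℝ) 1) : 0 ≤ P.D t := by
  have := prof_anti P ht ⟨zero_le_one, le_rfl⟩ ht.2
  rw [prof_one] at this
  exact P.d_nonneg.trans this

theorem prof_concave (P : Prof) : ConcaveOn ℝ (Icc 0 1) P.D := by
  apply concaveOn_of_slope_anti_adjacent (convex_Icc 0 1)
  intro x y z hx hz hxy hyz
  have hy0 : 0 ≤ y := hx.1.trans hxy.le
  have hy1 : y < 1 := hyz.trans_le hz.2
  have h1 := prof_sub P hx.1 hxy.le hy1.le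
  have h2 := prof_sub P hy0 hyz.le hz.2
  have h3 : ∫ s in x..y, P.m s ≤ P.m y * (y - x) := by
    have h4 : ∫ s in x..y, P.m s ≤ ∫ s in x..y, P.m y := by
      apply intervalIntegral.integral_mono_on hxy.le
        (sub_int P.int hx.1 (hxy.le.trans hy1.le) hy0 hy1.le) (by simp)
      intro s hs
      exact P.mono ⟨hx.1.trans hs.1, hs.2.trans_lt hy1⟩ ⟨hy0, hy1⟩ hs.2
    rw [intervalIntegral.integral_const, smul_eq_mul] at h4
    linarith
  have h5 : P.m y * (z - y) ≤ ∫ s in y..z, P.m s := by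
    have h4 : ∫ s in y..z, P.m y ≤ ∫ s in y..z, P.m s := by
      rw [intervalIntegral.integral_of_le hyz.le, intervalIntegral.integral_of_le hyz.le,
        integral_Ioc_eq_integral_Ioo, integral_Ioc_eq_integral_Ioo]
      apply setIntegral_mono_on
      · exact integrableOn_const (by simp)
      · exact ((intervalIntegrable_iff_integrableOn_Ioc_of_le hyz.le).1
          (sub_int P.int hy0 hy1.le (hy0.trans hyz.le) hz.2)).mono_set Ioo_subset_Ioc_self
      · exact measurableSet_Ioo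
      · intro s hs
        exact P.mono ⟨hy0, hy1⟩ ⟨hy0.trans hs.1.le, hs.2.trans_le hz.2⟩ hs.1.le
    rw [intervalIntegral.integral_const, smul_eq_mul] at h4
    linarith
  have e1 : P.D z - P.D y = -∫ s in y..z, P.m s := by linarith
  have e2 : P.D y - P.D x = -∫ s in x..y, P.m s := by linarith
  rw [e1, e2, div_le_div_iff₀ (by linarith) (by linarith)]
  have h6 : 0 < y - x := by linarith
  have h7 : 0 < z - y := by linarith
  nlinarith [mul_le_mul_of_nonneg_right h3 h7.le, mul_le_mul_of_nonneg_right h5 h6.le]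

/-- `P' + r P` -/
noncomputable def comb (P' P : Prof) {r : ℝ} (hr : 0 ≤ r) : Prof where
  m := fun t => P'.m t + r * P.m t
  d := P'.d + r * P.d
  mono := fun _ hx _ hy hxy =>
    add_le_add (P'.mono hx hy hxy) (mul_le_mul_of_nonneg_left (P.mono hx hy hxy) hr)
  nonneg := fun t ht => add_nonneg (P'.nonneg t ht) (mul_nonneg hr (P.nonneg t ht))
  int := P'.int.add (P.int.const_mul r)
  d_nonneg := add_nonneg P'.d_nonneg (mul_nonneg hr P.d_nonneg)

theorem comb_D (P' P : Prof) {r : ℝ} (hr : 0 ≤ r) {t : ℝ} (ht : t ∈ Icc (0:ℝ) 1) :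
    (comb P' P hr).D t = P'.D t + r * P.D t := by
  unfold Prof.D comb
  simp only
  rw [intervalIntegral.integral_add (sub_int P'.int ht.1 ht.2 zero_le_one le_rfl)
    ((sub_int P.int ht.1 ht.2 zero_le_one le_rfl).const_mul r),
    intervalIntegral.integral_const_mul]
  ring

theorem int_mul_cont {f g : ℝ → ℝ} (hg : IntervalIntegrable g volume 0 1)
    (hf : ContinuousOn f (Icc 0 1)) : IntervalIntegrable (fun t => f t * g t) volume 0 1 := by
  apply hg.continuousOn_mul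
  rwa [uIcc_of_le (zero_le_one' ℝ)]

/-! ### the Hilbert frame -/

section Hil

variable {H : Type*} [NormedAddCommGroup H] [InnerProductSpace ℝ H] [CompleteSpace H]

/-- the KKT inequality in `D` (the conclusion of `HilbD.kkt_D` at a minimiser, `e = 0`) -/
def KKTD (R : Res H) (α : ℝ) (x : H) (D : ℝ → ℝ) : Prop :=
  ∀ D' : ℝ → ℝ, ConcaveOn ℝ (Icc 0 1) D' → AntitoneOn D' (Icc 0 1) → ContinuousOn D' (Icc 0 1) →
    (∀ t ∈ Ico (0:ℝ) 1, 0 < D' t) → 0 ≤ D' 1 → IntervalIntegrable (fun t => 1 / D' t) volume 0 1 →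
    IntervalIntegrable (fun t => (D' t - D t) / D t ^ 2) volume 0 1 ∧
      ∫ t in (0:ℝ)..1, (D' t - D t) / D t ^ 2 ≤ α * (R.Q D' x - R.Q D x)

omit [CompleteSpace H] in
theorem KKTD.congr {R : Res H} {α : ℝ} {x : H} {D D2 : ℝ → ℝ} (h : KKTD R α x D)
    (he : ∀ t ∈ Icc (0:ℝ) 1, D2 t = D t) : KKTD R α x D2 := by
  intro D' h1 h2 h3 h4 h5 h6
  obtain ⟨h7, h8⟩ := h D' h1 h2 h3 h4 h5 h6
  have h9 : EqOn (fun t => (D' t - D t) / D t ^ 2) (fun t => (D' t - D2 t) / D2 t ^ 2)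
      (uIcc 0 1) := by
    intro t ht
    rw [uIcc_of_le (zero_le_one' ℝ)] at ht
    simp only [he t ht]
  refine ⟨h7.congr fun t ht => h9 (uIoc_subset_uIcc ht), ?_⟩
  rw [← intervalIntegral.integral_congr h9, R.Q_congr he]
  exact h8

omit [CompleteSpace H] in
theorem M_one {R : Res H} {α : ℝ} {x : H} {W : ℝ → ℝ} (hW : IntervalIntegrable W volume 0 1)
    (hM : ∀ t ∈ Ico (0:ℝ) 1, α * ‖R.P t x‖ ^ 2 = α * ‖R.P 0 x‖ ^ 2 + ∫ s in (0:ℝ)..t, W s) :
    I (α * ‖R.P 0 x‖ ^ 2) W 1 = α * ‖x‖ ^ 2 := by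
  have h1 : Tendsto (fun t => α * ‖R.P t x‖ ^ 2) (𝓝[<] 1) (𝓝 (α * ‖x‖ ^ 2)) :=
    ((R.left x).norm.pow 2).const_mul α
  have h2 : Tendsto (I (α * ‖R.P 0 x‖ ^ 2) W) (𝓝[<] 1) (𝓝 (I (α * ‖R.P 0 x‖ ^ 2) W 1)) := by
    have h3 : ContinuousWithinAt (I (α * ‖R.P 0 x‖ ^ 2) W) (Icc 0 1) 1 :=
      I_continuousOn hW 1 ⟨zero_le_one, le_rfl⟩
    refine h3.mono_left ?_
    rw [← nhdsWithin_Ioo_eq_nhdsLT (zero_lt_one' ℝ)]
    exact nhdsWithin_mono _ Ioo_subset_Icc_self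
  refine tendsto_nhds_unique h2 (h1.congr' ?_)
  filter_upwards [Ioo_mem_nhdsLT (zero_lt_one' ℝ)] with t ht
  rw [hM t ⟨ht.1.le, ht.2⟩]
  rfl

theorem Q_eq_ell {R : Res H} {α : ℝ} {x : H} {W : ℝ → ℝ} (hW : IntervalIntegrable W volume 0 1)
    (hM : ∀ t ∈ Ico (0:ℝ) 1, α * ‖R.P t x‖ ^ 2 = α * ‖R.P 0 x‖ ^ 2 + ∫ s in (0:ℝ)..t, W s)
    (P' : Prof) : α * R.Q P'.D x = ell (α * ‖R.P 0 x‖ ^ 2) W P'.D := by
  rw [ell_prof hW, M_one hW hM, R.Q_eq_integral (D_continuousOn P') P'.int (fun t _ => rfl) x,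
    mul_add, ← intervalIntegral.integral_const_mul]
  have : ∫ t in (0:ℝ)..1, α * (P'.m t * ‖R.P t x‖ ^ 2) =
      ∫ s in (0:ℝ)..1, P'.m s * I (α * ‖R.P 0 x‖ ^ 2) W s := by
    rw [intervalIntegral.integral_of_le zero_le_one, intervalIntegral.integral_of_le zero_le_one,
      integral_Ioc_eq_integral_Ioo, integral_Ioc_eq_integral_Ioo]
    apply setIntegral_congr_fun measurableSet_Ioo
    intro t ht
    simp only [I]
    rw [← hM t ⟨ht.1.le, ht.2⟩]
    ring
  rw [this]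
  ring

theorem vi_of_kkt {R : Res H} {α : ℝ} {x : H} (P : Prof)
    (hpos : ∀ t ∈ Ico (0:ℝ) 1, 0 < P.D t)
    (hi : IntervalIntegrable (fun t => 1 / P.D t) volume 0 1) (hk : KKTD R α x P.D)
    {T : ℝ → ℝ} (hT : ContinuousOn T (Ico 0 1)) (hTb : ∃ C, ∀ t ∈ Ico (0:ℝ) 1, |T t| ≤ C)
    (hM : ∀ t ∈ Ico (0:ℝ) 1, ‖R.P t x‖ ^ 2 = ‖R.P 0 x‖ ^ 2 + ∫ s in (0:ℝ)..t, T s / (P.D s) ^ 2) :
    IntervalIntegrable (fun t => 1 / (P.D t) ^ 2) volume 0 1 ∧
      VI (α * ‖R.P 0 x‖ ^ 2) (fun t => (α * T t - 1) / (P.D t) ^ 2) P := by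
  have hDc : ContinuousOn P.D (Icc 0 1) := D_continuousOn P
  have hDnn : ∀ t ∈ Icc (0:ℝ) 1, 0 ≤ P.D t := fun t ht => prof_nonneg P ht
  -- `1/D²` integrable
  have hE : IntervalIntegrable (fun t => 1 / (P.D t) ^ 2) volume 0 1 := by
    have h1 := hk (fun t => P.D t + 1) ((prof_concave P).add_const 1)
      ((prof_anti P).add_const 1) (hDc.add continuousOn_const)
      (fun t ht => by have := hpos t ht; linarith)
      (by have := hDnn 1 ⟨zero_le_one, le_rfl⟩; linarith)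
      (by
        apply ContinuousOn.intervalIntegrable
        rw [uIcc_of_le (zero_le_one' ℝ)]
        refine continuousOn_const.div (hDc.add continuousOn_const) ?_
        intro t ht
        have := hDnn t ht
        positivity)
    refine h1.1.congr ?_
    intro t _
    simp only [add_sub_cancel_left]
  refine ⟨hE, ?_⟩
  obtain ⟨C, hC⟩ := hTb
  -- `W = α T / D²`
  set W : ℝ → ℝ := fun t => α * T t / (P.D t) ^ 2 with hWdef
  have hW : IntervalIntegrable W volume 0 1 := by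
    have h1 := hE.const_mul (|α| * C)
    refine h1.mono_fun' ?_ ?_
    · rw [uIoc_of_le zero_le_one, Measure.restrict_congr_set Ioo_ae_eq_Ioc.symm]
      refine ContinuousOn.aestronglyMeasurable ?_ measurableSet_Ioo
      refine ContinuousOn.div (continuousOn_const.mul (hT.mono Ioo_subset_Ico_self))
        ((hDc.mono Ioo_subset_Icc_self).pow 2) ?_
      intro t ht
      exact (pow_pos (hpos t (Ioo_subset_Ico_self ht)) 2).ne'
    · rw [uIoc_of_le zero_le_one, Measure.restrict_congr_set Ioo_ae_eq_Ioc.symm]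
      filter_upwards [ae_restrict_mem measurableSet_Ioo] with t ht
      have ht' : t ∈ Ico (0:ℝ) 1 := Ioo_subset_Ico_self ht
      have h2 := hC t ht'
      have h3 := hpos t ht'
      rw [hWdef]
      simp only
      rw [norm_div, Real.norm_eq_abs, Real.norm_eq_abs, abs_of_pos (pow_pos h3 2),
        div_eq_mul_one_div, abs_mul]
      exact mul_le_mul_of_nonneg_right (mul_le_mul_of_nonneg_left h2 (abs_nonneg α))
        (by positivity)
  have hM' : ∀ t ∈ Ico (0:ℝ) 1,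
      α * ‖R.P t x‖ ^ 2 = α * ‖R.P 0 x‖ ^ 2 + ∫ s in (0:ℝ)..t, W s := by
    intro t ht
    rw [hM t ht, mul_add, ← intervalIntegral.integral_const_mul]
    congr 1
    apply intervalIntegral.integral_congr
    intro s _
    simp only [hWdef]
    ring
  -- `ell` with `ρ`
  have hell : ∀ P' : Prof, ell (α * ‖R.P 0 x‖ ^ 2) (fun t => (α * T t - 1) / (P.D t) ^ 2) P'.D =
      α * R.Q P'.D x - ∫ t in (0:ℝ)..1, P'.D t / (P.D t) ^ 2 := by
    intro P'
    have h1 : IntervalIntegrable (fun t => P'.D t * W t) volume 0 1 :=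
      int_mul_cont hW (D_continuousOn P')
    have h2 : IntervalIntegrable (fun t => P'.D t * (1 / (P.D t) ^ 2)) volume 0 1 :=
      int_mul_cont hE (D_continuousOn P')
    rw [Q_eq_ell hW hM' P']
    unfold ell
    rw [add_sub_assoc]
    congr 1
    have h3 : ∫ t in (0:ℝ)..1, P'.D t / (P.D t) ^ 2 =
        ∫ t in (0:ℝ)..1, P'.D t * (1 / (P.D t) ^ 2) := by
      congr 1
      ext t
      ring
    rw [h3, ← intervalIntegral.integral_sub h1 h2]
    congr 1
    ext t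
    simp only [hWdef]
    ring
  intro P'
  -- the inequality for `P' + r P`
  have key : ∀ r : ℝ, (hr : 0 < r) →
      ell (α * ‖R.P 0 x‖ ^ 2) (fun t => (α * T t - 1) / (P.D t) ^ 2) P.D ≤
        ell (α * ‖R.P 0 x‖ ^ 2) (fun t => (α * T t - 1) / (P.D t) ^ 2) P'.D +
        r * ell (α * ‖R.P 0 x‖ ^ 2) (fun t => (α * T t - 1) / (P.D t) ^ 2) P.D := by
    intro r hr
    set P2 := comb P' P hr.le with hP2
    have hD2 : ∀ t ∈ Icc (0:ℝ) 1, P2.D t = P'.D t + r * P.D t := fun t ht => comb_D P' P hr.le ht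
    have h1 := hk P2.D (prof_concave P2) (prof_anti P2) (D_continuousOn P2)
      (fun t ht => by
        rw [hD2 t (Ico_subset_Icc_self ht)]
        have := prof_nonneg P' (Ico_subset_Icc_self ht)
        have := mul_pos hr (hpos t ht)
        linarith)
      (prof_nonneg P2 ⟨zero_le_one, le_rfl⟩)
      (by
        have h2 := hi.const_mul (1 / r)
        refine h2.mono_fun' ?_ ?_
        · rw [uIoc_of_le zero_le_one, Measure.restrict_congr_set Ioo_ae_eq_Ioc.symm]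
          refine ContinuousOn.aestronglyMeasurable ?_ measurableSet_Ioo
          refine continuousOn_const.div ((D_continuousOn P2).mono Ioo_subset_Icc_self) ?_
          intro t ht
          rw [hD2 t (Ioo_subset_Icc_self ht)]
          have h3 := prof_nonneg P' (Ioo_subset_Icc_self ht)
          have h4 := mul_pos hr (hpos t (Ioo_subset_Ico_self ht))
          linarith
        · rw [uIoc_of_le zero_le_one, Measure.restrict_congr_set Ioo_ae_eq_Ioc.symm]
          filter_upwards [ae_restrict_mem measurableSet_Ioo] with t ht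
          rw [hD2 t (Ioo_subset_Icc_self ht)]
          have h3 := prof_nonneg P' (Ioo_subset_Icc_self ht)
          have h4 := hpos t (Ioo_subset_Ico_self ht)
          have h5 := mul_pos hr h4
          rw [Real.norm_eq_abs, abs_of_pos (by positivity), one_div_mul_one_div]
          exact one_div_le_one_div_of_le h5 (by linarith))
    have h6 : ∫ t in (0:ℝ)..1, (P2.D t - P.D t) / P.D t ^ 2 =
        (∫ t in (0:ℝ)..1, P2.D t / (P.D t) ^ 2) - ∫ t in (0:ℝ)..1, P.D t / (P.D t) ^ 2 := by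
      have h7 : IntervalIntegrable (fun t => P2.D t / (P.D t) ^ 2) volume 0 1 :=
        (int_mul_cont hE (D_continuousOn P2)).congr fun t _ => by ring
      have h8 : IntervalIntegrable (fun t => P.D t / (P.D t) ^ 2) volume 0 1 :=
        (int_mul_cont hE hDc).congr fun t _ => by ring
      rw [← intervalIntegral.integral_sub h7 h8]
      congr 1
      ext t
      ring
    rw [h6] at h1
    have h9 := hell P2
    have h10 := hell P
    have h11 : ell (α * ‖R.P 0 x‖ ^ 2) (fun t => (α * T t - 1) / (P.D t) ^ 2) P2.D =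
        ell (α * ‖R.P 0 x‖ ^ 2) (fun t => (α * T t - 1) / (P.D t) ^ 2) P'.D +
        r * ell (α * ‖R.P 0 x‖ ^ 2) (fun t => (α * T t - 1) / (P.D t) ^ 2) P.D := by
      have hρ : IntervalIntegrable (fun t => (α * T t - 1) / (P.D t) ^ 2) volume 0 1 :=
        (hW.sub hE).congr fun t _ => by simp only [hWdef]; ring
      unfold ell
      rw [hD2 0 ⟨le_rfl, zero_le_one⟩]
      have h12 : ∫ t in (0:ℝ)..1, P2.D t * ((α * T t - 1) / (P.D t) ^ 2) =
          (∫ t in (0:ℝ)..1, P'.D t * ((α * T t - 1) / (P.D t) ^ 2)) +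
          r * ∫ t in (0:ℝ)..1, P.D t * ((α * T t - 1) / (P.D t) ^ 2) := by
        rw [← intervalIntegral.integral_const_mul, ← intervalIntegral.integral_add
          (int_mul_cont hρ (D_continuousOn P')) ((int_mul_cont hρ hDc).const_mul r)]
        apply intervalIntegral.integral_congr
        intro t ht
        rw [uIcc_of_le (zero_le_one' ℝ)] at ht
        simp only [hD2 t ht]
        ring
      rw [h12]
      ring
    rw [← h11, h9, h10]
    linarith [h1.2]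
  have hlim : Tendsto (fun r : ℝ =>
      ell (α * ‖R.P 0 x‖ ^ 2) (fun t => (α * T t - 1) / (P.D t) ^ 2) P'.D +
        r * ell (α * ‖R.P 0 x‖ ^ 2) (fun t => (α * T t - 1) / (P.D t) ^ 2) P.D) (𝓝[>] 0)
      (𝓝 (ell (α * ‖R.P 0 x‖ ^ 2) (fun t => (α * T t - 1) / (P.D t) ^ 2) P'.D +
        0 * ell (α * ‖R.P 0 x‖ ^ 2) (fun t => (α * T t - 1) / (P.D t) ^ 2) P.D)) :=
    (tendsto_const_nhds.add (tendsto_id.mul_const _)).mono_left nhdsWithin_le_nhds
  rw [zero_mul, add_zero] at hlim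
  refine ge_of_tendsto hlim ?_
  filter_upwards [self_mem_nhdsWithin] with r hr using key r hr

/-- **the tip in the Hilbert frame**: at a jamming minimiser (`KKTD` is `HilbD.kkt_D`), with the
limit identities for `‖P_t x‖²` and `S/D`, and the quasi-convexity of `T` on affine pieces of `D`. -/
theorem tip_hilb {R : Res H} {α : ℝ} (hα : 0 < α) {x : H} {D : ℝ → ℝ} (P : Prof)
    (hP : ∀ t ∈ Icc (0:ℝ) 1, P.D t = D t) (hd : D 1 = 0)
    (hpos : ∀ t ∈ Ico (0:ℝ) 1, 0 < D t)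
    (hi : IntervalIntegrable (fun t => 1 / D t) volume 0 1) (hk : KKTD R α x D)
    {S T : ℝ → ℝ} (hT : ContinuousOn T (Ico 0 1))
    (hT0 : ∀ t ∈ Ico (0:ℝ) 1, 0 ≤ T t) (hTS : ∀ t ∈ Ico (0:ℝ) 1, T t < S t)
    (hS1 : ∀ t ∈ Ico (0:ℝ) 1, S t ≤ 1)
    (hM : ∀ t ∈ Ico (0:ℝ) 1, ‖R.P t x‖ ^ 2 = ‖R.P 0 x‖ ^ 2 + ∫ s in (0:ℝ)..t, T s / (D s) ^ 2)
    (hR2 : ∀ t ∈ Ico (0:ℝ) 1,
      S t / D t = S 0 / D 0 + ∫ s in (0:ℝ)..t, P.m s * T s / (D s) ^ 2)
    {t0 : ℝ} (ht0 : t0 < 1)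
    (hQC : ∀ a b, t0 ≤ a → 0 ≤ a → a < b → b < 1 → (∀ t ∈ Icc a b, P.m t = P.m a) →
      ∀ x y z, a ≤ x → x ≤ y → y ≤ z → z ≤ b → T y ≤ max (T x) (T z)) :
    ∃ t1 c0, t0 ≤ t1 ∧ 0 < t1 ∧ t1 < 1 ∧ 0 < c0 ∧ (∀ t ∈ Ico t1 1, α * T t = 1) ∧
      ∀ t ∈ Ico t1 1, S t - T t = c0 * D t := by
  have hd' : P.d = 0 := by rw [← prof_one P, hP 1 ⟨zero_le_one, le_rfl⟩, hd]
  have hpos' : ∀ t ∈ Ico (0:ℝ) 1, 0 < P.D t := fun t ht => by
    rw [hP t (Ico_subset_Icc_self ht)]; exact hpos t ht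
  have hcg : ∀ (f : ℝ → ℝ → ℝ) {t : ℝ}, t ∈ Ico (0:ℝ) 1 →
      ∫ s in (0:ℝ)..t, f s (D s) = ∫ s in (0:ℝ)..t, f s (P.D s) := by
    intro f t ht
    apply intervalIntegral.integral_congr
    intro s hs
    rw [uIcc_of_le ht.1] at hs
    simp only [hP s ⟨hs.1, hs.2.trans ht.2.le⟩]
  obtain ⟨hE, hVI⟩ := vi_of_kkt (R := R) (α := α) (x := x) P hpos'
    (hi.congr fun t ht => by
      rw [uIoc_of_le zero_le_one] at ht
      simp only [hP t ⟨ht.1.le, ht.2⟩]) (hk.congr hP) hT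
    ⟨1, fun t ht => by
      rw [abs_of_nonneg (hT0 t ht)]
      exact (hTS t ht).le.trans (hS1 t ht)⟩
    (fun t ht => by rw [hM t ht, hcg (fun s y => T s / y ^ 2) ht])
  obtain ⟨t1, c0, h1, h2, h3, h4, h5, h6⟩ := tip_full hα P S T hd' hpos' hT hT0 hTS hS1 hE hVI
    (fun t ht => by
      rw [hP t (Ico_subset_Icc_self ht), hP 0 ⟨le_rfl, zero_le_one⟩, hR2 t ht,
        hcg (fun s y => P.m s * T s / y ^ 2) ht]) ht0 hQC
  refine ⟨t1, c0, h1, h2, h3, h4, h5, fun t ht => ?_⟩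
  rw [← hP t ⟨h2.le.trans ht.1, ht.2.le⟩]
  exact h6 t ht

/-- non-strict form (`T ≤ S`, `0 ≤ c0`) of **the tip in the Hilbert frame**: at a jamming minimiser (`KKTD` is `HilbD.kkt_D`), with the
limit identities for `‖P_t x‖²` and `S/D`, and the quasi-convexity of `T` on affine pieces of `D`. -/
theorem tip_hilb_le {R : Res H} {α : ℝ} (hα : 0 < α) {x : H} {D : ℝ → ℝ} (P : Prof)
    (hP : ∀ t ∈ Icc (0:ℝ) 1, P.D t = D t) (hd : D 1 = 0)
    (hpos : ∀ t ∈ Ico (0:ℝ) 1, 0 < D t)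
    (hi : IntervalIntegrable (fun t => 1 / D t) volume 0 1) (hk : KKTD R α x D)
    {S T : ℝ → ℝ} (hT : ContinuousOn T (Ico 0 1))
    (hT0 : ∀ t ∈ Ico (0:ℝ) 1, 0 ≤ T t) (hTS : ∀ t ∈ Ico (0:ℝ) 1, T t ≤ S t)
    (hS1 : ∀ t ∈ Ico (0:ℝ) 1, S t ≤ 1)
    (hM : ∀ t ∈ Ico (0:ℝ) 1, ‖R.P t x‖ ^ 2 = ‖R.P 0 x‖ ^ 2 + ∫ s in (0:ℝ)..t, T s / (D s) ^ 2)
    (hR2 : ∀ t ∈ Ico (0:ℝ) 1,
      S t / D t = S 0 / D 0 + ∫ s in (0:ℝ)..t, P.m s * T s / (D s) ^ 2)
    {t0 : ℝ} (ht0 : t0 < 1)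
    (hQC : ∀ a b, t0 ≤ a → 0 ≤ a → a < b → b < 1 → (∀ t ∈ Icc a b, P.m t = P.m a) →
      ∀ x y z, a ≤ x → x ≤ y → y ≤ z → z ≤ b → T y ≤ max (T x) (T z)) :
    ∃ t1 c0, t0 ≤ t1 ∧ 0 < t1 ∧ t1 < 1 ∧ 0 ≤ c0 ∧ (∀ t ∈ Ico t1 1, α * T t = 1) ∧
      ∀ t ∈ Ico t1 1, S t - T t = c0 * D t := by
  have hd' : P.d = 0 := by rw [← prof_one P, hP 1 ⟨zero_le_one, le_rfl⟩, hd]
  have hpos' : ∀ t ∈ Ico (0:ℝ) 1, 0 < P.D t := fun t ht => by
    rw [hP t (Ico_subset_Icc_self ht)]; exact hpos t ht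
  have hcg : ∀ (f : ℝ → ℝ → ℝ) {t : ℝ}, t ∈ Ico (0:ℝ) 1 →
      ∫ s in (0:ℝ)..t, f s (D s) = ∫ s in (0:ℝ)..t, f s (P.D s) := by
    intro f t ht
    apply intervalIntegral.integral_congr
    intro s hs
    rw [uIcc_of_le ht.1] at hs
    simp only [hP s ⟨hs.1, hs.2.trans ht.2.le⟩]
  obtain ⟨hE, hVI⟩ := vi_of_kkt (R := R) (α := α) (x := x) P hpos'
    (hi.congr fun t ht => by
      rw [uIoc_of_le zero_le_one] at ht
      simp only [hP t ⟨ht.1.le, ht.2⟩]) (hk.congr hP) hT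
    ⟨1, fun t ht => by
      rw [abs_of_nonneg (hT0 t ht)]
      exact (hTS t ht).trans (hS1 t ht)⟩
    (fun t ht => by rw [hM t ht, hcg (fun s y => T s / y ^ 2) ht])
  obtain ⟨t1, c0, h1, h2, h3, h4, h5, h6⟩ := tip_full_le hα P S T hd' hpos' hT hT0 hTS hS1 hE hVI
    (fun t ht => by
      rw [hP t (Ico_subset_Icc_self ht), hP 0 ⟨le_rfl, zero_le_one⟩, hR2 t ht,
        hcg (fun s y => P.m s * T s / y ^ 2) ht]) ht0 hQC
  refine ⟨t1, c0, h1, h2, h3, h4, h5, fun t ht => ?_⟩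
  rw [← hP t ⟨h2.le.trans ht.1, ht.2.le⟩]
  exact h6 t ht

end Hil

end Crest.Agent.R146.PtScalC_45
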