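import Mathlib

/-!
Row 146, package PT, task 73 (helper489), part S1: STEP APPROXIMANTS OF A PROFILE.

`IsProf D m`: `D x = D 1 + ∫_x^1 m`, `m ≥ 0` nondecreasing on `[0,1)`, integrable, `0 ≤ D 1`.
For a grid `0 = t 0 < ... < t K = 1` the chord slopes are `mu D t i` and
`Dst e K t μ x = e + Σ_{i<K} μ i * |[x,1] ∩ [t i, t (i+1)]|`.
`exists_step`: step approximants with all the bounds needed for the window argument.
-/

set_option autoImplicit false

namespace Crest.Agent.R146.PtS1_489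

open Set MeasureTheory Finset

noncomputable section

/-- `m` is the (right) slope of the concave antitone profile `D` on `[0,1]`. -/
structure IsProf (D m : ℝ → ℝ) : Prop where
  mono : MonotoneOn m (Set.Ico (0 : ℝ) 1)
  nonneg : ∀ x ∈ Set.Ico (0 : ℝ) 1, 0 ≤ m x
  int : IntervalIntegrable m volume 0 1
  eq : ∀ x ∈ Set.Icc (0 : ℝ) 1, D x = D 1 + ∫ y in x..1, m y
  end_nonneg : 0 ≤ D 1

/-- chord slope of the cell `i` -/
def mu (D : ℝ → ℝ) (t : ℕ → ℝ) (i : ℕ) : ℝ := (D (t i) - D (t (i + 1))) / (t (i + 1) - t i)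

/-- the piecewise affine function with slope `-μ i` on `[t i, t (i+1)]` and value `e` at `t K`. -/
def Dst (e : ℝ) (K : ℕ) (t μ : ℕ → ℝ) (x : ℝ) : ℝ :=
  e + ∑ i ∈ range K, μ i * max 0 (t (i + 1) - max x (t i))

/-- a grid of `[0,1]` -/
structure IsGrid (K : ℕ) (t : ℕ → ℝ) : Prop where
  pos : 0 < K
  zero : t 0 = 0
  one : t K = 1
  lt : ∀ i < K, t i < t (i + 1)

namespace IsGrid

variable {K : ℕ} {t : ℕ → ℝ} (h : IsGrid K t)
include h

theorem mono {i j : ℕ} (hij : i ≤ j) (hj : j ≤ K) : t i ≤ t j := by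
  induction j, hij using Nat.le_induction with
  | base => exact le_rfl
  | succ j hij ih => exact (ih (by omega)).trans (h.lt j (by omega)).le

theorem nonneg {i : ℕ} (hi : i ≤ K) : 0 ≤ t i := by
  rw [← h.zero]; exact h.mono (Nat.zero_le i) hi

theorem le_one {i : ℕ} (hi : i ≤ K) : t i ≤ 1 := by
  rw [← h.one]; exact h.mono hi le_rfl

theorem lt_one {i : ℕ} (hi : i < K) : t i < 1 :=
  (h.lt i hi).trans_le (h.le_one hi)

/-- every point of `[0,1)` lies in a cell. -/
theorem exists_cell {x : ℝ} (hx : x ∈ Set.Ico (0 : ℝ) 1) : ∃ i < K, t i ≤ x ∧ x < t (i + 1) := by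
  classical
  have hex : ∃ j, x < t (j + 1) ∨ K ≤ j + 1 := ⟨K, Or.inr (by omega)⟩
  refine ⟨Nat.find hex, ?_, ?_, ?_⟩
  · by_contra hcon
    push Not at hcon
    have hm : K - 1 < Nat.find hex := by have := h.pos; omega
    have := Nat.find_min hex hm
    push Not at this
    have := h.pos
    omega
  · by_cases h0 : Nat.find hex = 0
    · rw [h0, h.zero]; exact hx.1
    · have := Nat.find_min hex (Nat.sub_lt (Nat.pos_of_ne_zero h0) one_pos)
      push Not at this
      have h2 : Nat.find hex - 1 + 1 = Nat.find hex := by omega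
      rw [h2] at this
      exact this.1
  · rcases Nat.find_spec hex with h1 | h1
    · exact h1
    · have hlt : Nat.find hex < K := by
        by_contra hcon
        push Not at hcon
        have hm : K - 1 < Nat.find hex := by have := h.pos; omega
        have := Nat.find_min hex hm
        push Not at this
        have := h.pos
        omega
      have h2 : Nat.find hex + 1 = K := by omega
      rw [h2, h.one]; exact hx.2

end IsGrid

namespace IsProf

variable {D m : ℝ → ℝ} (h : IsProf D m)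
include h

theorem int' {x y : ℝ} (hx : x ∈ Set.Icc (0 : ℝ) 1) (hy : y ∈ Set.Icc (0 : ℝ) 1) :
    IntervalIntegrable m volume x y := by
  refine h.int.mono_set ?_
  rw [Set.uIcc_of_le zero_le_one]
  exact Set.uIcc_subset_Icc hx hy

theorem sub_eq {x y : ℝ} (hx : x ∈ Set.Icc (0 : ℝ) 1) (hy : y ∈ Set.Icc (0 : ℝ) 1) :
    D x - D y = ∫ z in x..y, m z := by
  rw [h.eq x hx, h.eq y hy]
  have h1 : (∫ z in x..y, m z) + ∫ z in y..1, m z = ∫ z in x..1, m z :=
    intervalIntegral.integral_add_adjacent_intervals (h.int' hx hy)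
      (h.int' hy ⟨zero_le_one, le_rfl⟩)
  linarith

/-- lower bound of the chord by any lower bound of the slope -/
theorem le_sub {x y c : ℝ} (hx : 0 ≤ x) (hxy : x ≤ y) (hy : y ≤ 1)
    (hc : ∀ z ∈ Set.Ico x y, c ≤ m z) : c * (y - x) ≤ D x - D y := by
  rw [h.sub_eq ⟨hx, hxy.trans hy⟩ ⟨hx.trans hxy, hy⟩]
  have h1 : ∫ _ in x..y, c = c * (y - x) := by simp [mul_comm]
  rw [← h1]
  refine intervalIntegral.integral_mono_on_of_le_Ioo hxy intervalIntegrable_const
    (h.int' ⟨hx, hxy.trans hy⟩ ⟨hx.trans hxy, hy⟩) fun z hz => hc z ⟨hz.1.le, hz.2⟩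

theorem sub_le {x y c : ℝ} (hx : 0 ≤ x) (hxy : x ≤ y) (hy : y ≤ 1)
    (hc : ∀ z ∈ Set.Ico x y, m z ≤ c) : D x - D y ≤ c * (y - x) := by
  rw [h.sub_eq ⟨hx, hxy.trans hy⟩ ⟨hx.trans hxy, hy⟩]
  have h1 : ∫ _ in x..y, c = c * (y - x) := by simp [mul_comm]
  rw [← h1]
  refine intervalIntegral.integral_mono_on_of_le_Ioo hxy
    (h.int' ⟨hx, hxy.trans hy⟩ ⟨hx.trans hxy, hy⟩) intervalIntegrable_const
    fun z hz => hc z ⟨hz.1.le, hz.2⟩

theorem anti : AntitoneOn D (Set.Icc 0 1) := by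
  intro x hx y hy hxy
  have := h.le_sub (c := 0) hx.1 hxy hy.2 fun z hz => h.nonneg z ⟨hx.1.trans hz.1, hz.2.trans_le hy.2⟩
  linarith

theorem continuousOn : ContinuousOn D (Set.Icc 0 1) := by
  have h1 : ContinuousOn (fun x => D 1 + ∫ y in x..1, m y) (Set.Icc 0 1) := by
    refine continuousOn_const.add ?_
    have h2 : ContinuousOn (fun x => ∫ y in (1 : ℝ)..x, m y) (Set.uIcc 1 0) :=
      intervalIntegral.continuousOn_primitive_interval' h.int.symm (by simp)
    rw [Set.uIcc_of_ge zero_le_one] at h2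
    refine h2.neg.congr fun x _ => ?_
    show (∫ y in x..1, m y) = -∫ y in (1 : ℝ)..x, m y
    rw [intervalIntegral.integral_symm]
  exact h1.congr fun x hx => h.eq x hx

theorem one_le {x : ℝ} (hx : x ∈ Set.Icc (0 : ℝ) 1) : D 1 ≤ D x :=
  h.anti hx ⟨zero_le_one, le_rfl⟩ hx.2

theorem nonneg' {x : ℝ} (hx : x ∈ Set.Icc (0 : ℝ) 1) : 0 ≤ D x := h.end_nonneg.trans (h.one_le hx)

end IsProf

section mu

variable {D m : ℝ → ℝ} (h : IsProf D m) {K : ℕ} {t : ℕ → ℝ} (hg : IsGrid K t)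
include h hg

theorem mu_nonneg {i : ℕ} (hi : i < K) : 0 ≤ mu D t i := by
  unfold mu
  refine div_nonneg ?_ (sub_nonneg.2 (hg.lt i hi).le)
  have := h.anti ⟨hg.nonneg hi.le, hg.le_one hi.le⟩ ⟨hg.nonneg (i := i + 1) hi, hg.le_one (i := i + 1) hi⟩
    (hg.lt i hi).le
  linarith

theorem mu_le_of {i : ℕ} (hi : i < K) {c : ℝ} (hc : ∀ z ∈ Set.Ico (t i) (t (i + 1)), m z ≤ c) :
    mu D t i ≤ c := by
  unfold mu
  rw [div_le_iff₀ (sub_pos.2 (hg.lt i hi))]
  exact h.sub_le (hg.nonneg hi.le) (hg.lt i hi).le (hg.le_one (i := i + 1) hi) hc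

theorem le_mu_of {i : ℕ} (hi : i < K) {c : ℝ} (hc : ∀ z ∈ Set.Ico (t i) (t (i + 1)), c ≤ m z) :
    c ≤ mu D t i := by
  unfold mu
  rw [le_div_iff₀ (sub_pos.2 (hg.lt i hi))]
  exact h.le_sub (hg.nonneg hi.le) (hg.lt i hi).le (hg.le_one (i := i + 1) hi) hc

theorem mu_succ {i : ℕ} (hi : i + 1 < K) : mu D t i ≤ mu D t (i + 1) := by
  have h1 : t (i + 1) ∈ Set.Ico (0 : ℝ) 1 := ⟨hg.nonneg hi.le, hg.lt_one hi⟩
  refine (mu_le_of h hg (by omega) (c := m (t (i + 1))) fun z hz => ?_).trans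
    (le_mu_of h hg hi fun z hz => ?_)
  · exact h.mono ⟨(hg.nonneg (by omega)).trans hz.1, hz.2.trans h1.2⟩ h1 hz.2.le
  · exact h.mono h1 ⟨h1.1.trans hz.1, hz.2.trans_le (hg.le_one (by omega))⟩ hz.1

theorem mu_mono {i j : ℕ} (hij : i ≤ j) (hj : j < K) : mu D t i ≤ mu D t j := by
  induction j, hij using Nat.le_induction with
  | base => exact le_rfl
  | succ j hij ih => exact (ih (by omega)).trans (mu_succ h hg hj)

end mu

section Dst

variable {e : ℝ} {K : ℕ} {t μ : ℕ → ℝ}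

/-- the value on a cell -/
theorem Dst_cell (hg : IsGrid K t) {i : ℕ} (hi : i < K) {x : ℝ} (hx : x ∈ Set.Icc (t i) (t (i + 1))) :
    Dst e K t μ x = e + μ i * (t (i + 1) - x) +
      ∑ j ∈ Finset.Ico (i + 1) K, μ j * (t (j + 1) - t j) := by
  unfold Dst
  rw [Finset.range_eq_Ico, ← Finset.sum_Ico_consecutive _ (Nat.zero_le i) hi.le,
    Finset.sum_eq_sum_Ico_succ_bot hi]
  have h1 : ∑ j ∈ Finset.Ico 0 i, μ j * max 0 (t (j + 1) - max x (t j)) = 0 := by
    refine Finset.sum_eq_zero fun j hj => ?_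
    rw [Finset.mem_Ico] at hj
    have h2 : t (j + 1) ≤ t i := hg.mono (by omega) hi.le
    have h3 : x ≤ max x (t j) := le_max_left _ _
    rw [max_eq_left (by linarith [hx.1]), mul_zero]
  have h4 : max 0 (t (i + 1) - max x (t i)) = t (i + 1) - x := by
    rw [max_eq_left hx.1, max_eq_right (by linarith [hx.2])]
  have h5 : ∑ j ∈ Finset.Ico (i + 1) K, μ j * max 0 (t (j + 1) - max x (t j)) =
      ∑ j ∈ Finset.Ico (i + 1) K, μ j * (t (j + 1) - t j) := by
    refine Finset.sum_congr rfl fun j hj => ?_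
    rw [Finset.mem_Ico] at hj
    have h6 : t (i + 1) ≤ t j := hg.mono hj.1 hj.2.le
    have h7 := hg.lt j hj.2
    rw [max_eq_right (a := x) (by linarith [hx.2]), max_eq_right (by linarith)]
  rw [h1, h4, h5]
  ring

theorem tel (f : ℕ → ℝ) {i K : ℕ} (h : i ≤ K) :
    ∑ j ∈ Finset.Ico i K, (f j - f (j + 1)) = f i - f K := by
  induction K, h using Nat.le_induction with
  | base => simp
  | succ k hk ih => rw [Finset.sum_Ico_succ_top hk, ih]; ring

theorem sum_mu (D : ℝ → ℝ) (hg : IsGrid K t) {i : ℕ} (hi : i ≤ K) :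
    ∑ j ∈ Finset.Ico i K, mu D t j * (t (j + 1) - t j) = D (t i) - D 1 := by
  have h1 : ∀ j ∈ Finset.Ico i K, mu D t j * (t (j + 1) - t j) =
      (fun j => D (t j)) j - (fun j => D (t j)) (j + 1) := by
    intro j hj
    rw [Finset.mem_Ico] at hj
    have := hg.lt j hj.2
    unfold mu
    rw [div_mul_cancel₀ _ (sub_ne_zero.2 this.ne')]
  rw [Finset.sum_congr rfl h1, tel _ hi]
  simp only [hg.one]

/-- value of the interpolation on a cell -/
theorem Dst_mu (D : ℝ → ℝ) (hg : IsGrid K t) {i : ℕ} (hi : i < K) {x : ℝ}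
    (hx : x ∈ Set.Icc (t i) (t (i + 1))) :
    Dst (D 1 + e) K t (mu D t) x = e + D (t (i + 1)) + mu D t i * (t (i + 1) - x) := by
  rw [Dst_cell hg hi hx, sum_mu D hg (Nat.succ_le_of_lt hi)]
  ring

theorem Dst_one (hg : IsGrid K t) : Dst e K t μ 1 = e := by
  unfold Dst
  rw [Finset.sum_eq_zero, add_zero]
  intro j hj
  rw [Finset.mem_range] at hj
  have h2 : t (j + 1) ≤ 1 := hg.le_one (by omega)
  have h3 : (1 : ℝ) ≤ max 1 (t j) := le_max_left _ _
  rw [max_eq_left (by linarith), mul_zero]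

theorem Dst_continuous : Continuous (Dst e K t μ) := by
  unfold Dst
  fun_prop

theorem le_Dst (hμ : ∀ i < K, 0 ≤ μ i) (x : ℝ) : e ≤ Dst e K t μ x := by
  unfold Dst
  have : 0 ≤ ∑ i ∈ range K, μ i * max 0 (t (i + 1) - max x (t i)) :=
    Finset.sum_nonneg fun i hi => mul_nonneg (hμ i (Finset.mem_range.1 hi)) (le_max_left _ _)
  linarith

theorem Dst_anti (hμ : ∀ i < K, 0 ≤ μ i) : Antitone (Dst e K t μ) := by
  intro x y hxy
  unfold Dst
  have : ∑ i ∈ range K, μ i * max 0 (t (i + 1) - max y (t i)) ≤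
      ∑ i ∈ range K, μ i * max 0 (t (i + 1) - max x (t i)) :=
    Finset.sum_le_sum fun i hi => mul_le_mul_of_nonneg_left
      (max_le_max le_rfl (sub_le_sub_left (max_le_max hxy le_rfl) _)) (hμ i (Finset.mem_range.1 hi))
  linarith

/-- derivative in the open cell -/
theorem Dst_hasDerivAt (hg : IsGrid K t) {i : ℕ} (hi : i < K) {x : ℝ}
    (hx : x ∈ Set.Ioo (t i) (t (i + 1))) : HasDerivAt (Dst e K t μ) (-μ i) x := by
  have h1 : HasDerivAt (fun y => e + μ i * (t (i + 1) - y) +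
      ∑ j ∈ Finset.Ico (i + 1) K, μ j * (t (j + 1) - t j)) (-μ i) x := by
    have h2 : HasDerivAt (fun y : ℝ => t (i + 1) - y) (-1) x := by
      simpa using (hasDerivAt_id x).const_sub (t (i + 1))
    have h3 := ((h2.const_mul (μ i)).const_add e).add_const
      (∑ j ∈ Finset.Ico (i + 1) K, μ j * (t (j + 1) - t j))
    simpa using h3
  refine h1.congr_of_eventuallyEq ?_
  filter_upwards [Ioo_mem_nhds hx.1 hx.2] with y hy
  exact Dst_cell hg hi ⟨hy.1.le, hy.2.le⟩

end Dst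

section main

variable {D m : ℝ → ℝ} (h : IsProf D m) {K : ℕ} {t : ℕ → ℝ} (hg : IsGrid K t)
include h hg

omit h in
theorem node_mem {i : ℕ} (hi : i ≤ K) : t i ∈ Set.Icc (0 : ℝ) 1 := ⟨hg.nonneg hi, hg.le_one hi⟩

/-- chords lie below `D`, and the defect is at most the drop of the cell. -/
theorem chord_le {i : ℕ} (hi : i < K) {x : ℝ} (hx : x ∈ Set.Icc (t i) (t (i + 1))) :
    D (t (i + 1)) + mu D t i * (t (i + 1) - x) ≤ D x := by
  -- slope on `[t i, x]` is at most the slope on `[x, t (i+1)]`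
  have h0 := hg.nonneg hi.le
  have h1 := hg.le_one (i := i + 1) hi
  rcases eq_or_lt_of_le hx.2 with h2 | h2
  · rw [h2]; simp
  have hxI : x ∈ Set.Ico (0 : ℝ) 1 := ⟨h0.trans hx.1, h2.trans_le h1⟩
  have ha : D (t i) - D x ≤ m x * (x - t i) := h.sub_le h0 hx.1 hxI.2.le fun z hz =>
    h.mono ⟨h0.trans hz.1, hz.2.trans hxI.2⟩ hxI hz.2.le
  have hb : m x * (t (i + 1) - x) ≤ D x - D (t (i + 1)) := h.le_sub hxI.1 h2.le h1 fun z hz =>
    h.mono hxI ⟨hxI.1.trans hz.1, hz.2.trans_le h1⟩ hz.1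
  have hlt := hg.lt i hi
  have hmu : mu D t i * (t (i + 1) - t i) = D (t i) - D (t (i + 1)) := by
    unfold mu
    rw [div_mul_cancel₀ _ (sub_ne_zero.2 hlt.ne')]
  -- multiply by the positive length
  have hL : 0 < t (i + 1) - t i := sub_pos.2 hlt
  have key : (D (t (i + 1)) + mu D t i * (t (i + 1) - x)) * (t (i + 1) - t i) ≤
      D x * (t (i + 1) - t i) := by
    have e1 : (D (t (i + 1)) + mu D t i * (t (i + 1) - x)) * (t (i + 1) - t i) =
        D (t (i + 1)) * (t (i + 1) - t i) + (D (t i) - D (t (i + 1))) * (t (i + 1) - x) := by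
      rw [← hmu]; ring
    rw [e1]
    have hxi : 0 ≤ x - t i := sub_nonneg.2 hx.1
    have hxj : 0 ≤ t (i + 1) - x := sub_nonneg.2 h2.le
    nlinarith [mul_le_mul_of_nonneg_right ha hxj, mul_le_mul_of_nonneg_right hb hxi]
  exact le_of_mul_le_mul_right key hL

theorem Dst_le {e : ℝ} {i : ℕ} (hi : i < K) {x : ℝ} (hx : x ∈ Set.Icc (t i) (t (i + 1))) :
    Dst (D 1 + e) K t (mu D t) x ≤ D x + e := by
  rw [Dst_mu D hg hi hx]
  linarith [chord_le h hg hi hx]

theorem le_Dst' {e : ℝ} {i : ℕ} (hi : i < K) (he : D (t i) - D (t (i + 1)) ≤ e) {x : ℝ}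
    (hx : x ∈ Set.Icc (t i) (t (i + 1))) :
    D x ≤ Dst (D 1 + e) K t (mu D t) x := by
  rw [Dst_mu D hg hi hx]
  have h1 : D x ≤ D (t i) := h.anti (node_mem hg hi.le)
    ⟨(hg.nonneg hi.le).trans hx.1, hx.2.trans (hg.le_one (i := i + 1) hi)⟩ hx.1
  have h2 := mul_nonneg (mu_nonneg h hg hi) (sub_nonneg.2 hx.2)
  linarith

/-- `(1 - x) * slope ≤ value`. -/
theorem tau_mu_le {e : ℝ} (he : 0 ≤ e) {i : ℕ} (hi : i < K) {x : ℝ}
    (hx : x ∈ Set.Icc (t i) (t (i + 1))) :
    (1 - x) * mu D t i ≤ Dst (D 1 + e) K t (mu D t) x := by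
  rw [Dst_mu D hg hi hx]
  have h1 : mu D t i * (1 - t (i + 1)) ≤ D (t (i + 1)) - D 1 := by
    rcases eq_or_lt_of_le (hg.le_one (i := i + 1) hi) with h2 | h2
    · rw [h2]; simp
    · refine h.le_sub (hg.nonneg hi) h2.le le_rfl fun z hz => ?_
      refine mu_le_of h hg hi fun w hw => ?_
      exact h.mono ⟨(hg.nonneg hi.le).trans hw.1, hw.2.trans h2⟩
        ⟨(hg.nonneg (i := i + 1) hi).trans hz.1, hz.2⟩ (hw.2.le.trans hz.1)
  have := h.end_nonneg
  nlinarith

end main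

/-- a finite set of points of `[0,1]` containing `0` and `1` as a grid -/
theorem exists_grid (S : Finset ℝ) (h0 : (0 : ℝ) ∈ S) (h1 : (1 : ℝ) ∈ S)
    (hS : ∀ x ∈ S, x ∈ Set.Icc (0 : ℝ) 1) :
    ∃ (K : ℕ) (t : ℕ → ℝ), IsGrid K t ∧ (∀ x ∈ S, ∃ i ≤ K, t i = x) ∧ (∀ i ≤ K, t i ∈ S) ∧
      (∀ i < K, ∀ x ∈ S, t i < x → t (i + 1) ≤ x) := by
  classical
  set n := S.card with hn
  have hn0 : 1 < n := by
    rw [hn, Finset.one_lt_card]
    exact ⟨0, h0, 1, h1, zero_ne_one⟩
  let f := S.orderEmbOfFin hn.symm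
  have hf : ∀ i, f i ∈ S := fun i => S.orderEmbOfFin_mem hn.symm i
  have hsurj : ∀ x ∈ S, ∃ i, f i = x := by
    intro x hx
    have : x ∈ Set.range f := by
      rw [show Set.range f = (S : Set ℝ) from S.range_orderEmbOfFin hn.symm]
      exact hx
    exact this
  let t : ℕ → ℝ := fun i => if hi : i < n then f ⟨i, hi⟩ else 1
  have ht : ∀ (i : ℕ) (hi : i < n), t i = f ⟨i, hi⟩ := fun i hi => dif_pos hi
  refine ⟨n - 1, t, ⟨by omega, ?_, ?_, ?_⟩, ?_, fun i hi => ?_, ?_⟩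
  · obtain ⟨i, hi⟩ := hsurj 0 h0
    rw [ht 0 (by omega)]
    refine le_antisymm ?_ (hS _ (hf _)).1
    rw [← hi]
    exact f.monotone (Fin.mk_le_of_le_val (Nat.zero_le _))
  · obtain ⟨i, hi⟩ := hsurj 1 h1
    rw [ht (n - 1) (by omega)]
    refine le_antisymm (hS _ (hf _)).2 ?_
    rw [← hi]
    refine f.monotone ?_
    rw [Fin.le_def]
    have := i.2
    simp only
    omega
  · intro i hi
    rw [ht i (by omega), ht (i + 1) (by omega)]
    exact f.strictMono (by rw [Fin.lt_def]; simp)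
  · intro x hx
    obtain ⟨i, hi⟩ := hsurj x hx
    exact ⟨i, by have := i.2; omega, by rw [ht i i.2]; exact hi⟩
  · rw [ht i (by omega)]; exact hf _
  · intro i hi x hx hlt
    obtain ⟨j, hj⟩ := hsurj x hx
    rw [ht i (by omega)] at hlt
    rw [ht (i + 1) (by omega), ← hj]
    rw [← hj] at hlt
    refine f.monotone ?_
    have := f.lt_iff_lt.1 hlt
    rw [Fin.lt_def] at this
    rw [Fin.le_def]
    simp only at this ⊢
    omega

theorem upper_alg {b η ε : ℝ} (hb : 0 ≤ b) (h0 : 0 ≤ η) (h1 : η ≤ 1)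
    (h2 : 8 * (b + 1) * η ≤ ε) : (1 + η) * (b * (1 + η)) ≤ b + ε := by
  have h3 : b * η * η ≤ b * η * 1 := mul_le_mul_of_nonneg_left h1 (mul_nonneg hb h0)
  have h4 : 0 ≤ b * η := mul_nonneg hb h0
  nlinarith

theorem lower_alg {a b η ε : ℝ} (ha : 0 ≤ a) (hab : a ≤ b) (h0 : 0 ≤ η) (h1 : η ≤ 1)
    (h2 : 8 * (b + 1) * η ≤ ε) (h5 : ε < a) : (a - ε) * ((1 + 2 * η) * (1 + η)) ≤ a := by
  have e1 : (1 + 2 * η) * (1 + η) ≤ 1 + 5 * η := by nlinarith
  have e2 : (a - ε) * ((1 + 2 * η) * (1 + η)) ≤ (a - ε) * (1 + 5 * η) :=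
    mul_le_mul_of_nonneg_left e1 (by linarith)
  have e3 : a * η ≤ b * η := mul_le_mul_of_nonneg_right hab h0
  have hb : 0 ≤ b := ha.trans hab
  have e4 : 0 ≤ ε * η := mul_nonneg (le_trans (by positivity) h2) h0
  nlinarith

set_option maxHeartbeats 1000000 in
/-- **Step approximants.**  `D` a profile with slope `m`, positive on `[0,1)`;
`a ≤ (1-x) m / D ≤ b` on `[t0, 1)`.  For every `ε > 0`, `t1 < 1` and finite set `F ⊆ [0,1]` there
is a grid containing `F, t0, t1` such that the interpolation (plus a constant `e`) satisfies the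
same bounds up to `ε`: the upper one on all of `[t0, 1]`, the lower one on `[t0, t1]`. -/
theorem exists_step {D m : ℝ → ℝ} (h : IsProf D m) (hpos : ∀ x ∈ Set.Ico (0 : ℝ) 1, 0 < D x)
    {a b t0 t1 ε : ℝ} (ht0 : t0 ∈ Set.Ico (0 : ℝ) 1) (ht1 : t1 ∈ Set.Ico (0 : ℝ) 1)
    (ha : 0 ≤ a) (hab : a ≤ b) (hε : 0 < ε)
    (hw : ∀ x ∈ Set.Ico t0 1, a * D x ≤ (1 - x) * m x ∧ (1 - x) * m x ≤ b * D x)
    (F : Finset ℝ) (hF : ∀ x ∈ F, x ∈ Set.Icc (0 : ℝ) 1) :
    ∃ (K : ℕ) (t : ℕ → ℝ) (e : ℝ), IsGrid K t ∧ 0 < e ∧ e ≤ ε ∧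
      (∀ x ∈ F, ∃ i ≤ K, t i = x) ∧ (∃ i ≤ K, t i = t0) ∧ (∃ i ≤ K, t i = t1) ∧
      (∀ i < K, t (i + 1) - t i ≤ ε) ∧ (∀ i < K, D (t i) - D (t (i + 1)) ≤ e) ∧
      (∀ i < K, 0 ≤ mu D t i) ∧ (∀ i j, i ≤ j → j < K → mu D t i ≤ mu D t j) ∧
      (∀ x ∈ Set.Icc (0 : ℝ) 1, D x ≤ Dst (D 1 + e) K t (mu D t) x ∧
        Dst (D 1 + e) K t (mu D t) x ≤ D x + e) ∧
      (∀ i < K, ∀ x ∈ Set.Icc (t i) (t (i + 1)),
        (1 - x) * mu D t i ≤ Dst (D 1 + e) K t (mu D t) x ∧
        (t0 ≤ t i → (1 - x) * mu D t i ≤ (b + ε) * Dst (D 1 + e) K t (mu D t) x) ∧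
        (t0 ≤ t i → t (i + 1) ≤ t1 →
          (a - ε) * Dst (D 1 + e) K t (mu D t) x ≤ (1 - x) * mu D t i)) := by
  classical
  have hb : 0 ≤ b := ha.trans hab
  -- constants
  obtain ⟨η, hη0, hη1, hη2⟩ : ∃ η : ℝ, 0 < η ∧ η ≤ 1 ∧ 8 * (b + 1) * η ≤ ε := by
    refine ⟨min 1 (ε / (8 * (b + 1))), lt_min one_pos (by positivity), min_le_left _ _, ?_⟩
    have h1 : min 1 (ε / (8 * (b + 1))) ≤ ε / (8 * (b + 1)) := min_le_right _ _
    rw [le_div_iff₀ (by positivity)] at h1
    linarith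
  have hDt1 : 0 < D t1 := hpos t1 ht1
  obtain ⟨e, he0, heε, heη⟩ : ∃ e : ℝ, 0 < e ∧ e ≤ ε ∧ e ≤ η * D t1 :=
    ⟨min ε (η * D t1), lt_min hε (mul_pos hη0 hDt1), min_le_left _ _, min_le_right _ _⟩
  -- uniform continuity
  have huc : UniformContinuousOn D (Set.Icc 0 1) :=
    isCompact_Icc.uniformContinuousOn_of_continuous h.continuousOn
  rw [Metric.uniformContinuousOn_iff_le] at huc
  -- the point T
  obtain ⟨T, hTI, hT0, hT1, hTF, hTD, hTε⟩ : ∃ T : ℝ, T ∈ Set.Ico (0 : ℝ) 1 ∧ t0 ≤ T ∧ t1 ≤ T ∧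
      (∀ x ∈ F, x ≤ T ∨ x = 1) ∧ D T - D 1 ≤ min e (ε * e) ∧ 1 - T ≤ ε := by
    obtain ⟨δ, hδ0, hδ⟩ := huc (min e (ε * e)) (lt_min he0 (mul_pos hε he0))
    set S : Finset ℝ := (insert t0 (insert t1 (F.filter fun x => x < 1))) ∪ {0} with hS
    have hSne : S.Nonempty := ⟨0, by simp [hS]⟩
    set T0 := max (S.max' hSne) (max (1 - δ) (1 - ε)) with hT0
    have hSlt : ∀ x ∈ S, x < 1 := by
      intro x hx
      simp only [hS, Finset.mem_union, Finset.mem_insert, Finset.mem_filter,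
        Finset.mem_singleton] at hx
      rcases hx with (h1 | h1 | h1) | h1
      · rw [h1]; exact ht0.2
      · rw [h1]; exact ht1.2
      · exact h1.2
      · rw [h1]; exact one_pos
    have hle : ∀ x ∈ S, x ≤ T0 := fun x hx => (S.le_max' x hx).trans (le_max_left _ _)
    have hTlt : T0 < 1 := by
      rw [hT0]
      refine max_lt (hSlt _ (S.max'_mem hSne)) (max_lt (by linarith) (by linarith))
    have h0T : 0 ≤ T0 := hle 0 (by simp [hS])
    refine ⟨T0, ⟨h0T, hTlt⟩, hle t0 (by simp [hS]), hle t1 (by simp [hS]), ?_, ?_, ?_⟩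
    · intro x hx
      rcases lt_or_ge x 1 with h1 | h1
      · exact Or.inl (hle x (by simp [hS, hx, h1]))
      · exact Or.inr (le_antisymm (hF x hx).2 h1)
    · have h2 := hδ T0 ⟨h0T, hTlt.le⟩ 1 ⟨zero_le_one, le_rfl⟩ (by
        rw [Real.dist_eq, abs_le]
        have : 1 - δ ≤ T0 := (le_max_left _ _).trans (le_max_right _ _)
        constructor <;> linarith)
      rw [Real.dist_eq] at h2
      exact (le_abs_self _).trans h2
    · have : 1 - ε ≤ T0 := (le_max_right _ _).trans (le_max_right _ _)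
      linarith
  have hDT : 0 < D T := hpos T hTI
  -- the mesh
  obtain ⟨δ, hδ0, hδ⟩ := huc (min e (η * D T)) (lt_min he0 (mul_pos hη0 hDT))
  obtain ⟨n, hn⟩ := exists_nat_gt (T / min (min δ ε) (η * (1 - T)))
  have hc0 : 0 < min (min δ ε) (η * (1 - T)) :=
    lt_min (lt_min hδ0 hε) (mul_pos hη0 (sub_pos.2 hTI.2))
  have hn0 : (0 : ℝ) < n := lt_of_le_of_lt (div_nonneg hTI.1 hc0.le) hn
  have hmesh : T / n < min (min δ ε) (η * (1 - T)) := by
    rw [div_lt_iff₀ hn0]
    rw [div_lt_iff₀ hc0] at hn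
    linarith
  have hn0' : 0 < n := by exact_mod_cast hn0
  set S : Finset ℝ := F ∪ {t0, t1, 1} ∪ (Finset.range (n + 1)).image (fun j : ℕ => (j : ℝ) * T / n)
    with hS
  have hSj : ∀ j : ℕ, j ≤ n → (j : ℝ) * T / n ∈ S := by
    intro j hj
    rw [hS, Finset.mem_union]
    exact Or.inr (Finset.mem_image.2 ⟨j, Finset.mem_range.2 (by omega), rfl⟩)
  have hSI : ∀ x ∈ S, x ∈ Set.Icc (0 : ℝ) 1 := by
    intro x hx
    simp only [hS, Finset.mem_union, Finset.mem_insert, Finset.mem_singleton, Finset.mem_image,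
      Finset.mem_range] at hx
    rcases hx with (h1 | h1 | h1 | h1) | ⟨j, hj, h1⟩
    · exact hF x h1
    · rw [h1]; exact ⟨ht0.1, ht0.2.le⟩
    · rw [h1]; exact ⟨ht1.1, ht1.2.le⟩
    · rw [h1]; exact ⟨zero_le_one, le_rfl⟩
    · rw [← h1]
      refine ⟨div_nonneg (mul_nonneg (Nat.cast_nonneg j) hTI.1) hn0.le, ?_⟩
      rw [div_le_one hn0]
      have h2 : (j : ℝ) ≤ n := by exact_mod_cast (by omega : j ≤ n)
      calc (j : ℝ) * T ≤ (n : ℝ) * 1 := mul_le_mul h2 hTI.2.le hTI.1 hn0.le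
        _ = n := mul_one _
  have hST : ∀ x ∈ S, x ≤ T ∨ x = 1 := by
    intro x hx
    simp only [hS, Finset.mem_union, Finset.mem_insert, Finset.mem_singleton, Finset.mem_image,
      Finset.mem_range] at hx
    rcases hx with (h1 | h1 | h1 | h1) | ⟨j, hj, h1⟩
    · exact hTF x h1
    · rw [h1]; exact Or.inl hT0
    · rw [h1]; exact Or.inl hT1
    · exact Or.inr h1
    · left
      rw [← h1, div_le_iff₀ hn0, mul_comm]
      exact mul_le_mul_of_nonneg_left (by exact_mod_cast (by omega : j ≤ n)) hTI.1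
  have h0S : (0 : ℝ) ∈ S := by simpa using hSj 0 (Nat.zero_le n)
  have hTS : T ∈ S := by
    have := hSj n le_rfl
    rwa [mul_comm, mul_div_assoc, div_self hn0.ne', mul_one] at this
  have h1S : (1 : ℝ) ∈ S := by simp [hS]
  obtain ⟨K, t, hg, hgS, hmem, hgap⟩ := exists_grid S h0S h1S hSI
  -- every cell either ends before `T` and is short, or is `[T, 1]`
  have hcell : ∀ i < K, (t (i + 1) = 1 ∧ t i = T) ∨ (t (i + 1) ≤ T ∧ t (i + 1) - t i ≤ T / n) := by
    intro i hi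
    have hi1 : t i < 1 := hg.lt_one hi
    have hiT : t i ≤ T := (hST _ (hmem i hi.le)).resolve_right hi1.ne
    rcases hST _ (hmem (i + 1) hi) with h1 | h1
    · right
      refine ⟨h1, ?_⟩
      have hlt := hg.lt i hi
      have hTpos : 0 < T := by linarith [hg.nonneg hi.le]
      have h2 : 0 ≤ t i * n / T := div_nonneg (mul_nonneg (hg.nonneg hi.le) hn0.le) hTpos.le
      have h3 : t i * n / T < n := by
        rw [div_lt_iff₀ hTpos, mul_comm (n : ℝ) T]
        exact mul_lt_mul_of_pos_right (hlt.trans_le h1) hn0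
      have h4 : ⌊t i * n / T⌋₊ < n := (Nat.floor_lt h2).2 h3
      have h5 : t i * n / T < (⌊t i * n / T⌋₊ : ℝ) + 1 := Nat.lt_floor_add_one _
      have h6 : (⌊t i * n / T⌋₊ : ℝ) ≤ t i * n / T := Nat.floor_le h2
      have h7 := hgap i hi _ (hSj (⌊t i * n / T⌋₊ + 1) h4) (by
        rw [lt_div_iff₀ hn0]
        rw [div_lt_iff₀ hTpos] at h5
        push_cast
        exact h5)
      have h8 : ((⌊t i * n / T⌋₊ + 1 : ℕ) : ℝ) * T / n ≤ t i + T / n := by
        push_cast
        rw [le_div_iff₀ hTpos] at h6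
        have h9 : (⌊t i * n / T⌋₊ : ℝ) * T / n ≤ t i := by rw [div_le_iff₀ hn0]; exact h6
        have h10 : ((⌊t i * n / T⌋₊ : ℝ) + 1) * T / n = (⌊t i * n / T⌋₊ : ℝ) * T / n + T / n := by
          ring
        rw [h10]
        linarith
      linarith
    · left
      refine ⟨h1, le_antisymm hiT ?_⟩
      by_contra hcon
      push Not at hcon
      have := hgap i hi T hTS hcon
      linarith [hTI.2]
  have hdrop : ∀ i < K, D (t i) - D (t (i + 1)) ≤ e := by
    intro i hi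
    rcases hcell i hi with ⟨h1, h2⟩ | ⟨h1, h2⟩
    · rw [h1, h2]; exact hTD.trans (min_le_left _ _)
    · have h3 := hδ (t i) (node_mem hg hi.le) (t (i + 1)) (node_mem hg hi) (by
        rw [Real.dist_eq, abs_sub_comm, abs_of_pos (sub_pos.2 (hg.lt i hi))]
        exact h2.trans (hmesh.le.trans ((min_le_left _ _).trans (min_le_left _ _))))
      rw [Real.dist_eq] at h3
      exact (le_abs_self _).trans (h3.trans (min_le_left _ _))
  have hdrop' : ∀ i < K, t (i + 1) - t i ≤ T / n → D (t i) - D (t (i + 1)) ≤ η * D T := by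
    intro i hi h2
    have h3 := hδ (t i) (node_mem hg hi.le) (t (i + 1)) (node_mem hg hi) (by
      rw [Real.dist_eq, abs_sub_comm, abs_of_pos (sub_pos.2 (hg.lt i hi))]
      exact h2.trans (hmesh.le.trans ((min_le_left _ _).trans (min_le_left _ _))))
    rw [Real.dist_eq] at h3
    exact (le_abs_self _).trans (h3.trans (min_le_right _ _))
  refine ⟨K, t, e, hg, he0, heε, ?_, hgS t0 (by simp [hS]), hgS t1 (by simp [hS]), ?_, ?_,
    fun i hi => mu_nonneg h hg hi, fun i j hij hj => mu_mono h hg hij hj, ?_, ?_⟩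
  · intro x hx
    exact hgS x (by simp [hS, hx])
  · intro i hi
    rcases hcell i hi with ⟨h1, h2⟩ | ⟨h1, h2⟩
    · rw [h1, h2]; exact hTε
    · exact h2.trans (hmesh.le.trans ((min_le_left _ _).trans (min_le_right _ _)))
  · exact hdrop
  · intro x hx
    rcases eq_or_lt_of_le hx.2 with h1 | h1
    · rw [h1, Dst_one hg]
      constructor <;> linarith
    · obtain ⟨i, hi, h2, h3⟩ := hg.exists_cell (x := x) ⟨hx.1, h1⟩
      exact ⟨le_Dst' h hg hi (hdrop i hi) ⟨h2, h3.le⟩, Dst_le h hg hi ⟨h2, h3.le⟩⟩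
  · intro i hi x hx
    have hx01 : x ∈ Set.Icc (0 : ℝ) 1 :=
      ⟨(hg.nonneg hi.le).trans hx.1, hx.2.trans (hg.le_one (i := i + 1) hi)⟩
    have hDx : D x ≤ Dst (D 1 + e) K t (mu D t) x := le_Dst' h hg hi (hdrop i hi) hx
    have hDx' : Dst (D 1 + e) K t (mu D t) x ≤ D x + e := Dst_le h hg hi hx
    have hDpos : 0 ≤ D x := h.nonneg' hx01
    have heD : e ≤ Dst (D 1 + e) K t (mu D t) x := by
      have := le_Dst (e := D 1 + e) (K := K) (t := t) (μ := mu D t)
        (fun i hi => mu_nonneg h hg hi) x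
      linarith [h.end_nonneg]
    refine ⟨tau_mu_le h hg he0.le hi hx, fun h0i => ?_, fun h0i h1i => ?_⟩
    · -- upper bound
      rcases hcell i hi with ⟨h1, h2⟩ | ⟨h1, h2⟩
      · -- last cell
        have h3 : (1 - x) * mu D t i ≤ D T - D 1 := by
          have h4 : mu D t i * (t (i + 1) - t i) = D (t i) - D (t (i + 1)) := by
            unfold mu
            rw [div_mul_cancel₀ _ (sub_ne_zero.2 (hg.lt i hi).ne')]
          rw [h1, h2] at h4
          have h5 := mu_nonneg h hg hi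
          have h6 : T ≤ x := h2 ▸ hx.1
          have h7 : (1 - x) * mu D t i ≤ (1 - T) * mu D t i :=
            mul_le_mul_of_nonneg_right (by linarith) h5
          linarith
        have h4 : D T - D 1 ≤ ε * e := hTD.trans (min_le_right _ _)
        have h5 : ε * e ≤ ε * Dst (D 1 + e) K t (mu D t) x := mul_le_mul_of_nonneg_left heD hε.le
        have h6 : 0 ≤ b * Dst (D 1 + e) K t (mu D t) x := mul_nonneg hb (he0.le.trans heD)
        linarith
      · -- short cell
        have hti1 : t (i + 1) < 1 := h1.trans_lt hTI.2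
        have hDj : D T ≤ D (t (i + 1)) := h.anti (node_mem hg hi) ⟨hTI.1, hTI.2.le⟩ h1
        have hDi : D (t i) ≤ (1 + η) * D (t (i + 1)) := by
          have h3 := hdrop' i hi h2
          have h4 : η * D T ≤ η * D (t (i + 1)) := mul_le_mul_of_nonneg_left hDj hη0.le
          linarith
        have h1t : 1 - t i ≤ (1 + η) * (1 - t (i + 1)) := by
          have h3 : t (i + 1) - t i ≤ η * (1 - T) := h2.trans (hmesh.le.trans (min_le_right _ _))
          have h4 : η * (1 - T) ≤ η * (1 - t (i + 1)) :=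
            mul_le_mul_of_nonneg_left (by linarith) hη0.le
          linarith
        have hDi0 : 0 ≤ D (t i) := h.nonneg' (node_mem hg hi.le)
        have hq : 0 < 1 - t (i + 1) := sub_pos.2 hti1
        have hmu : mu D t i * (1 - t (i + 1)) ≤ b * D (t i) := by
          rw [← le_div_iff₀ hq]
          refine mu_le_of h hg hi fun z hz => ?_
          have hz1 : z < 1 := hz.2.trans hti1
          have hzI : z ∈ Set.Icc (0 : ℝ) 1 := ⟨(hg.nonneg hi.le).trans hz.1, hz1.le⟩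
          have h5 := (hw z ⟨h0i.trans hz.1, hz1⟩).2
          have h6 : D z ≤ D (t i) := h.anti (node_mem hg hi.le) hzI hz.1
          rw [le_div_iff₀ hq]
          have h7 : 0 ≤ m z := h.nonneg z ⟨hzI.1, hz1⟩
          have h8 : m z * (1 - t (i + 1)) ≤ (1 - z) * m z := by
            rw [mul_comm]
            exact mul_le_mul_of_nonneg_right (by linarith [hz.2]) h7
          have h9 : b * D z ≤ b * D (t i) := mul_le_mul_of_nonneg_left h6 hb
          linarith
        have hmu0 := mu_nonneg h hg hi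
        have e1 : (1 - x) * mu D t i ≤ (1 + η) * (b * D (t i)) := by
          calc (1 - x) * mu D t i ≤ ((1 + η) * (1 - t (i + 1))) * mu D t i :=
                mul_le_mul_of_nonneg_right (by linarith [hx.1]) hmu0
            _ = (1 + η) * (mu D t i * (1 - t (i + 1))) := by ring
            _ ≤ (1 + η) * (b * D (t i)) := mul_le_mul_of_nonneg_left hmu (by linarith)
        have e2 : (1 + η) * (b * D (t i)) ≤ (1 + η) * (b * ((1 + η) * D (t (i + 1)))) :=
          mul_le_mul_of_nonneg_left (mul_le_mul_of_nonneg_left hDi hb) (by linarith)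
        have e3 : (1 + η) * (b * ((1 + η) * D (t (i + 1)))) ≤ (b + ε) * D (t (i + 1)) := by
          have h5 : (1 + η) * (b * (1 + η)) ≤ b + ε := upper_alg hb hη0.le hη1 hη2
          have h6 : 0 ≤ D (t (i + 1)) := hDT.le.trans hDj
          calc (1 + η) * (b * ((1 + η) * D (t (i + 1)))) =
                ((1 + η) * (b * (1 + η))) * D (t (i + 1)) := by ring
            _ ≤ (b + ε) * D (t (i + 1)) := mul_le_mul_of_nonneg_right h5 h6
        have e4 : D (t (i + 1)) ≤ D x := h.anti hx01 (node_mem hg hi) hx.2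
        have e5 : (b + ε) * D (t (i + 1)) ≤ (b + ε) * Dst (D 1 + e) K t (mu D t) x :=
          mul_le_mul_of_nonneg_left (e4.trans hDx) (by linarith)
        linarith
    · -- lower bound
      rcases hcell i hi with ⟨h1, h2⟩ | ⟨h1, h2⟩
      · exact absurd h1 (by linarith [ht1.2])
      · have hti1 : t (i + 1) < 1 := h1.trans_lt hTI.2
        have hDj : D T ≤ D (t (i + 1)) := h.anti (node_mem hg hi) ⟨hTI.1, hTI.2.le⟩ h1
        have hDj1 : D t1 ≤ D (t (i + 1)) := h.anti (node_mem hg hi) ⟨ht1.1, ht1.2.le⟩ h1i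
        have hDi : D (t i) ≤ (1 + η) * D (t (i + 1)) := by
          have h3 := hdrop' i hi h2
          have h4 : η * D T ≤ η * D (t (i + 1)) := mul_le_mul_of_nonneg_left hDj hη0.le
          linarith
        have h1t : 1 - t i ≤ (1 + η) * (1 - t (i + 1)) := by
          have h3 : t (i + 1) - t i ≤ η * (1 - T) := h2.trans (hmesh.le.trans (min_le_right _ _))
          have h4 : η * (1 - T) ≤ η * (1 - t (i + 1)) :=
            mul_le_mul_of_nonneg_left (by linarith) hη0.le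
          linarith
        have hq : 0 < 1 - t i := sub_pos.2 (hg.lt_one hi)
        have hDj0 : 0 ≤ D (t (i + 1)) := hDT.le.trans hDj
        have hmu : a * D (t (i + 1)) ≤ mu D t i * (1 - t i) := by
          rw [← div_le_iff₀ hq]
          refine le_mu_of h hg hi fun z hz => ?_
          have hz1 : z < 1 := hz.2.trans hti1
          have hzI : z ∈ Set.Icc (0 : ℝ) 1 := ⟨(hg.nonneg hi.le).trans hz.1, hz1.le⟩
          have h5 := (hw z ⟨h0i.trans hz.1, hz1⟩).1
          have h6 : D (t (i + 1)) ≤ D z := h.anti hzI (node_mem hg hi) hz.2.le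
          rw [div_le_iff₀ hq]
          have h7 : 0 ≤ m z := h.nonneg z ⟨hzI.1, hz1⟩
          have h8 : (1 - z) * m z ≤ m z * (1 - t i) := by
            rw [mul_comm]
            exact mul_le_mul_of_nonneg_left (by linarith [hz.1]) h7
          have h9 : a * D (t (i + 1)) ≤ a * D z := mul_le_mul_of_nonneg_left h6 ha
          linarith
        have hmu0 := mu_nonneg h hg hi
        have e1 : a * D (t (i + 1)) ≤ (1 + η) * ((1 - x) * mu D t i) := by
          calc a * D (t (i + 1)) ≤ mu D t i * (1 - t i) := hmu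
            _ ≤ mu D t i * ((1 + η) * (1 - t (i + 1))) := mul_le_mul_of_nonneg_left h1t hmu0
            _ ≤ mu D t i * ((1 + η) * (1 - x)) := by
                refine mul_le_mul_of_nonneg_left ?_ hmu0
                exact mul_le_mul_of_nonneg_left (by linarith [hx.2]) (by linarith)
            _ = (1 + η) * ((1 - x) * mu D t i) := by ring
        have e2 : Dst (D 1 + e) K t (mu D t) x ≤ (1 + 2 * η) * D (t (i + 1)) := by
          have h5 : D x ≤ D (t i) := h.anti (node_mem hg hi.le) hx01 hx.1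
          have h6 : η * D t1 ≤ η * D (t (i + 1)) := mul_le_mul_of_nonneg_left hDj1 hη0.le
          linarith
        rcases le_or_gt a ε with h5 | h5
        · have h6 : 0 ≤ (1 - x) * mu D t i := mul_nonneg (by linarith [hx01.2]) hmu0
          have h7 : 0 ≤ Dst (D 1 + e) K t (mu D t) x := he0.le.trans heD
          exact (mul_nonpos_of_nonpos_of_nonneg (sub_nonpos.2 h5) h7).trans h6
        · have h6 : (a - ε) * ((1 + 2 * η) * (1 + η)) ≤ a := lower_alg ha hab hη0.le hη1 hη2 h5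
          have h7 : (a - ε) * Dst (D 1 + e) K t (mu D t) x ≤
              (a - ε) * ((1 + 2 * η) * D (t (i + 1))) :=
            mul_le_mul_of_nonneg_left e2 (by linarith)
          have h8 : (1 + η) * ((a - ε) * Dst (D 1 + e) K t (mu D t) x) ≤
              (1 + η) * ((1 - x) * mu D t i) := by
            calc (1 + η) * ((a - ε) * Dst (D 1 + e) K t (mu D t) x) ≤
                  (1 + η) * ((a - ε) * ((1 + 2 * η) * D (t (i + 1)))) :=
                  mul_le_mul_of_nonneg_left h7 (by linarith)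
              _ = ((a - ε) * ((1 + 2 * η) * (1 + η))) * D (t (i + 1)) := by ring
              _ ≤ a * D (t (i + 1)) := mul_le_mul_of_nonneg_right h6 hDj0
              _ ≤ _ := e1
          exact le_of_mul_le_mul_left h8 (by linarith)

/-- slopes with last slope `0` and all others `≥ e`. -/
def mu0 (D : ℝ → ℝ) (K : ℕ) (t : ℕ → ℝ) (e : ℝ) (i : ℕ) : ℝ :=
  if i + 1 = K then 0 else mu D t i + e

theorem Dst0_cell (D : ℝ → ℝ) {e : ℝ} {K : ℕ} {t : ℕ → ℝ} (hg : IsGrid K t) {i : ℕ}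
    (hi : i + 1 < K) {x : ℝ} (hx : x ∈ Set.Icc (t i) (t (i + 1))) :
    Dst (D (t (K - 1)) + e) K t (mu0 D K t e) x =
      Dst (D 1 + e) K t (mu D t) x + e * (t (K - 1) - x) := by
  have hK : K = (K - 1) + 1 := by omega
  rw [Dst_cell hg (by omega) hx, Dst_mu D hg (by omega) hx]
  have h1 : ∑ j ∈ Finset.Ico (i + 1) K, mu0 D K t e j * (t (j + 1) - t j) =
      (D (t (i + 1)) - D (t (K - 1))) + e * (t (K - 1) - t (i + 1)) := by
    have h2 : ∑ j ∈ Finset.Ico (i + 1) K, mu0 D K t e j * (t (j + 1) - t j) =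
        ∑ j ∈ Finset.Ico (i + 1) (K - 1), mu0 D K t e j * (t (j + 1) - t j) +
          mu0 D K t e (K - 1) * (t (K - 1 + 1) - t (K - 1)) := by
      conv_lhs => rw [hK]
      rw [Finset.sum_Ico_succ_top (by omega)]
      rw [← hK]
    have h3 : mu0 D K t e (K - 1) = 0 := by
      unfold mu0; rw [if_pos (by omega)]
    have h4 : ∀ j ∈ Finset.Ico (i + 1) (K - 1), mu0 D K t e j * (t (j + 1) - t j) =
        (fun j => D (t j) - e * t j) j - (fun j => D (t j) - e * t j) (j + 1) := by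
      intro j hj
      rw [Finset.mem_Ico] at hj
      have h5 := hg.lt j (by omega)
      have h6 : mu D t j * (t (j + 1) - t j) = D (t j) - D (t (j + 1)) := by
        unfold mu
        rw [div_mul_cancel₀ _ (sub_ne_zero.2 h5.ne')]
      unfold mu0
      rw [if_neg (by omega), add_mul, h6]
      ring
    rw [h2, h3, zero_mul, add_zero, Finset.sum_congr rfl h4, tel _ (by omega)]
    ring
  rw [h1]
  unfold mu0
  rw [if_neg (by omega)]
  ring

theorem Dst0_last (D : ℝ → ℝ) {e : ℝ} {K : ℕ} {t : ℕ → ℝ} (hg : IsGrid K t) {x : ℝ}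
    (hx : x ∈ Set.Icc (t (K - 1)) 1) :
    Dst (D (t (K - 1)) + e) K t (mu0 D K t e) x = D (t (K - 1)) + e := by
  have hK : K - 1 + 1 = K := by have := hg.pos; omega
  rw [Dst_cell hg (i := K - 1) (by have := hg.pos; omega) (by rwa [hK, hg.one]), hK]
  have h3 : mu0 D K t e (K - 1) = 0 := by
    unfold mu0; rw [if_pos hK]
  rw [h3]
  simp

/-- **Step approximants, second form**: last slope `0`, all other slopes positive. -/
theorem exists_step0 {D m : ℝ → ℝ} (h : IsProf D m) (hpos : ∀ x ∈ Set.Ico (0 : ℝ) 1, 0 < D x)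
    {a b t0 t1 ε : ℝ} (ht0 : t0 ∈ Set.Ico (0 : ℝ) 1) (ht1 : t1 ∈ Set.Ico (0 : ℝ) 1)
    (ha : 0 ≤ a) (hab : a ≤ b) (hε : 0 < ε)
    (hw : ∀ x ∈ Set.Ico t0 1, a * D x ≤ (1 - x) * m x ∧ (1 - x) * m x ≤ b * D x)
    (F : Finset ℝ) (hF : ∀ x ∈ F, x ∈ Set.Icc (0 : ℝ) 1) :
    ∃ (K : ℕ) (t μ : ℕ → ℝ) (e : ℝ), IsGrid K t ∧ 0 < e ∧
      (∀ x ∈ F, ∃ i ≤ K, t i = x) ∧ (∃ i ≤ K, t i = t0) ∧ (∃ i ≤ K, t i = t1) ∧
      (∀ i < K, t (i + 1) - t i ≤ ε) ∧ t1 ≤ t (K - 1) ∧
      μ (K - 1) = 0 ∧ (∀ i, i + 1 < K → 0 < μ i) ∧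
      (∀ i j, i ≤ j → j + 1 < K → μ i ≤ μ j) ∧
      (∀ x ∈ Set.Icc (0 : ℝ) 1, D x ≤ Dst e K t μ x ∧ Dst e K t μ x ≤ D x + ε) ∧
      (∀ i < K, ∀ x ∈ Set.Icc (t i) (t (i + 1)),
        (1 - x) * μ i ≤ Dst e K t μ x ∧
        (t0 ≤ t i → (1 - x) * μ i ≤ (b + ε) * Dst e K t μ x) ∧
        (t0 ≤ t i → t (i + 1) ≤ t1 → (a - ε) * Dst e K t μ x ≤ (1 - x) * μ i)) ∧
      (∀ i, i + 1 < K → ∃ c, c ≤ ε ∧ 0 < c ∧ μ i = mu D t i + c) := by
  have hb : 0 ≤ b := ha.trans hab
  have hD0 : 0 < D 0 := hpos 0 ⟨le_rfl, one_pos⟩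
  have hDt1 : 0 < D t1 := hpos t1 ht1
  obtain ⟨ε', hε'0, hε'1, hε'2, hε'3⟩ : ∃ ε' : ℝ, 0 < ε' ∧ ε' ≤ ε / 4 ∧ ε' ≤ ε / 4 * D 0 ∧
      (b + 1) * ε' ≤ ε / 4 * D t1 := by
    refine ⟨min (ε / 4) (min (ε / 4 * D 0) (ε / 4 * D t1 / (b + 1))), by positivity,
      min_le_left _ _, (min_le_right _ _).trans (min_le_left _ _), ?_⟩
    have h1 : min (ε / 4) (min (ε / 4 * D 0) (ε / 4 * D t1 / (b + 1))) ≤
        ε / 4 * D t1 / (b + 1) := (min_le_right _ _).trans (min_le_right _ _)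
    rw [le_div_iff₀ (by positivity)] at h1
    linarith
  obtain ⟨K, t, e, hg, he0, heε, hF', hT0, hT1, hmesh, hdrop, hmu0, hmum, hbd, hcell⟩ :=
    exists_step h hpos ht0 ht1 ha hab hε'0 hw F hF
  have hKpos := hg.pos
  have hK : K - 1 + 1 = K := by omega
  have hlast : D (t (K - 1)) - D 1 ≤ e := by
    have := hdrop (K - 1) (by omega)
    rwa [hK, hg.one] at this
  have hD1 := h.end_nonneg
  have hT1' : t1 ≤ t (K - 1) := by
    obtain ⟨i, hi, hi'⟩ := hT1
    have : i ≠ K := by rintro rfl; rw [hg.one] at hi'; linarith [ht1.2]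
    rw [← hi']
    exact hg.mono (by omega) (by omega)
  have hTI : ∀ i ≤ K - 1, t i ≤ t (K - 1) := fun i hi => hg.mono hi (by omega)
  have hlinD : ∀ x ∈ Set.Icc (0 : ℝ) 1, D 0 * (1 - x) ≤ D x := by
    intro x hx
    rcases eq_or_lt_of_le hx.2 with h1 | h1
    · rw [h1]; simp [hD1]
    have e1 : D 0 - D x ≤ m x * (x - 0) := h.sub_le le_rfl hx.1 hx.2 fun z hz =>
      h.mono ⟨hz.1, hz.2.trans h1⟩ ⟨hx.1, h1⟩ hz.2.le
    have e2 : m x * (1 - x) ≤ D x - D 1 := h.le_sub hx.1 h1.le le_rfl fun z hz =>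
      h.mono ⟨hx.1, h1⟩ ⟨hx.1.trans hz.1, hz.2⟩ hz.1
    nlinarith [hx.1]
  refine ⟨K, t, mu0 D K t e, D (t (K - 1)) + e, hg,
    add_pos_of_nonneg_of_pos (h.nonneg' (node_mem hg (by omega))) he0, hF', hT0, hT1,
    fun i hi => (hmesh i hi).trans (by linarith), hT1', ?_, ?_, ?_, ?_, ?_, ?_⟩
  · unfold mu0; rw [if_pos hK]
  · intro i hi
    unfold mu0
    rw [if_neg (by omega)]
    linarith [hmu0 i (by omega)]
  · intro i j hij hj
    unfold mu0
    rw [if_neg (by omega), if_neg (by omega)]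
    linarith [hmum i j hij (by omega)]
  · intro x hx
    rcases le_or_gt (t (K - 1)) x with h1 | h1
    · rw [Dst0_last D hg ⟨h1, hx.2⟩]
      have h2 := h.anti (node_mem hg (i := K - 1) (by omega)) hx h1
      have h3 := h.one_le hx
      constructor <;> linarith
    · obtain ⟨i, hi, h2, h3⟩ := hg.exists_cell (x := x) ⟨hx.1, h1.trans_le (hg.le_one (by omega))⟩
      have hi1 : i + 1 < K := by
        by_contra hcon
        have : i = K - 1 := by omega
        rw [this] at h2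
        linarith
      rw [Dst0_cell D hg hi1 ⟨h2, h3.le⟩]
      have h4 := hbd x hx
      have h5 : 0 ≤ e * (t (K - 1) - x) := mul_nonneg he0.le (by linarith)
      have h6 : e * (t (K - 1) - x) ≤ e * 1 :=
        mul_le_mul_of_nonneg_left (by linarith [hg.le_one (i := K - 1) (by omega), hx.1]) he0.le
      constructor <;> linarith
  · intro i hi x hx
    have hx01 : x ∈ Set.Icc (0 : ℝ) 1 :=
      ⟨(hg.nonneg hi.le).trans hx.1, hx.2.trans (hg.le_one (i := i + 1) hi)⟩
    rcases eq_or_lt_of_le (Nat.succ_le_of_lt hi) with h1 | h1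
    · -- last cell
      have hi' : i = K - 1 := by omega
      have e0 : mu0 D K t e i = 0 := by unfold mu0; rw [if_pos h1]
      have hxl : x ∈ Set.Icc (t (K - 1)) 1 := ⟨hi' ▸ hx.1, hx01.2⟩
      rw [Dst0_last D hg hxl, e0, mul_zero]
      have h2 : 0 ≤ D (t (K - 1)) + e :=
        add_nonneg (h.nonneg' (node_mem hg (by omega))) he0.le
      refine ⟨h2, fun _ => mul_nonneg (by linarith) h2, fun _ h3 => ?_⟩
      rw [show i + 1 = K from h1, hg.one] at h3
      linarith [ht1.2]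
    · rw [Dst0_cell D hg h1 hx]
      have e0 : mu0 D K t e i = mu D t i + e := by unfold mu0; rw [if_neg (by omega)]
      rw [e0]
      obtain ⟨c1, c2, c3⟩ := hcell i hi x hx
      have c1' : (1 - x) * mu D t i ≤ Dst (D 1 + 0) K t (mu D t) x := tau_mu_le h hg le_rfl hi hx
      have c4 : Dst (D 1 + 0) K t (mu D t) x + e = Dst (D 1 + e) K t (mu D t) x := by
        rw [Dst_mu D hg hi hx, Dst_mu D hg hi hx]; ring
      have hxT : x ≤ t (K - 1) := hx.2.trans (hTI _ (by omega))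
      have hT1'' : t (K - 1) ≤ 1 := hg.le_one (by omega)
      have hex : e * (1 - x) ≤ e * 1 := mul_le_mul_of_nonneg_left (by linarith [hx01.1]) he0.le
      have hex0 : 0 ≤ e * (t (K - 1) - x) := mul_nonneg he0.le (by linarith)
      set A := Dst (D 1 + e) K t (mu D t) x with hA
      have hDA : D x ≤ A := (hbd x hx01).1
      have hA0 : 0 ≤ A := (h.nonneg' hx01).trans hDA
      refine ⟨?_, fun h2 => ?_, fun h2 h3 => ?_⟩
      · have : e * (1 - x) ≤ e + e * (t (K - 1) - x) := by linarith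
        linarith
      · have d1 := c2 h2
        have d2 : (1 - x) * e ≤ ε / 4 * A := by
          have d3 : e * (1 - x) ≤ ε / 4 * D 0 * (1 - x) :=
            mul_le_mul_of_nonneg_right (heε.trans hε'2) (by linarith [hx01.2])
          have d4 : ε / 4 * (D 0 * (1 - x)) ≤ ε / 4 * A :=
            mul_le_mul_of_nonneg_left ((hlinD x hx01).trans hDA) (by linarith)
          linarith
        have d5 : ε' * A ≤ ε / 4 * A := mul_le_mul_of_nonneg_right hε'1 hA0
        have d6 : 0 ≤ (b + ε) * (e * (t (K - 1) - x)) := mul_nonneg (by linarith) hex0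
        nlinarith
      · have d1 := c3 h2 h3
        have hxt1 : x ≤ t1 := hx.2.trans h3
        have d2 : D t1 ≤ A := (h.anti hx01 ⟨ht1.1, ht1.2.le⟩ hxt1).trans hDA
        have d3 : 0 ≤ (1 - x) * e := mul_nonneg (by linarith [hx01.2]) he0.le
        have d4 : e * (t (K - 1) - x) ≤ e * 1 :=
          mul_le_mul_of_nonneg_left (by linarith [hx01.1]) he0.le
        rcases le_or_gt a ε with h5 | h5
        · have d5 : 0 ≤ (1 - x) * (mu D t i + e) :=
            mul_nonneg (by linarith [hx01.2]) (by linarith [hmu0 i hi])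
          exact (mul_nonpos_of_nonpos_of_nonneg (sub_nonpos.2 h5) (by linarith)).trans d5
        · have d5 : (a - ε) * (e * (t (K - 1) - x)) ≤ (a - ε) * (e * 1) :=
            mul_le_mul_of_nonneg_left d4 (by linarith)
          have d6 : (a - ε) * e ≤ (b + 1) * ε' := by
            calc (a - ε) * e ≤ (b + 1) * e := mul_le_mul_of_nonneg_right (by linarith) he0.le
              _ ≤ (b + 1) * ε' := mul_le_mul_of_nonneg_left heε (by linarith)
          have d7 : ε / 4 * D t1 ≤ ε / 4 * A := mul_le_mul_of_nonneg_left d2 (by linarith)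
          have d8 : ε' * A ≤ ε / 4 * A := mul_le_mul_of_nonneg_right hε'1 hA0
          have d9 : (a - ε) * A + (ε / 2) * A ≤ (a - ε') * A := by
            have : (a - ε') * A = a * A - ε' * A := by ring
            rw [this]
            nlinarith
          have d10 : (a - ε) * (A + e * (t (K - 1) - x)) =
              (a - ε) * A + (a - ε) * (e * (t (K - 1) - x)) := by ring
          rw [d10]
          nlinarith
  · intro i hi
    refine ⟨e, heε.trans (by linarith), he0, ?_⟩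
    unfold mu0
    rw [if_neg (by omega)]

end

end Crest.Agent.R146.PtS1_489
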