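import Crest.Agent.R146.StepDef_791
import Crest.Agent.R146.PtS1_489

/-!
Row 146, package PT-STEP, task 121 (STEP-APX), helper856: FROM A PROFILE TO STEP DATA.

`exists_SD`: for a profile `D x = D 1 + ∫_x^1 m` (`IsProf` of `PtS1_489`: `m ≥ 0` nondecreasing on
`[0,1)`), positive on `[0,1)`, with `1/D` integrable on `(0,1)`, for every `ε > 0` and finite `F`
there are step data `A : SD` on a grid containing the points of `F` below `1` with
* `D ≤ A.D ≤ D + ε` on `[0,1]`, `1 - ε ≤ A.T`, `A.d = D T + e`;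
* `A.m = e + cell average of m` on every cell (`0 < e ≤ ε`), `A.m` nondecreasing on `[0,T)`;
* `∫_x^1 1/D - ε ≤ A.K0 x ≤ ∫_x^1 1/D`;
* windows for `m(x) ∫_x^1 1/D` pass to `A.m x * A.K0 x` up to `ε` (upper one up to `A.T`);
* `(1 - x) A.b x ≤ 1`.
-/

set_option autoImplicit false

namespace Crest.Agent.R146.StepApx_856

open Set MeasureTheory
open Crest.Agent.R146.StepDef_791
open Crest.Agent.R146.PtS1_489 (IsProf IsGrid mu exists_grid mu_nonneg mu_mono mu_le_of le_mu_of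
  chord_le node_mem)

noncomputable section

/-- the cells of the grid `t 0 < ... < t k` with weights `μ i` on `[t i, t (i+1))`, from right to
left -/
def cells (t μ : ℕ → ℝ) : ℕ → Cells
  | 0 => []
  | k + 1 => (t k, μ k) :: cells t μ k

section cells

variable {t μ : ℕ → ℝ} {k : ℕ}

theorem mono_of_lt (ht : ∀ i < k, t i < t (i + 1)) {i j : ℕ} (hij : i ≤ j) (hj : j ≤ k) :
    t i ≤ t j := by
  induction j, hij using Nat.le_induction with
  | base => exact le_rfl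
  | succ j hij ih => exact (ih (by omega)).trans (ht j (by omega)).le

theorem valid_cells (h0 : t 0 = 0) (ht : ∀ i < k, t i < t (i + 1)) (hμ : ∀ i < k, 0 < μ i) :
    Valid (t k) (cells t μ k) := by
  induction k with
  | zero => exact h0
  | succ k ih =>
    exact ⟨ht k (by omega), hμ k (by omega),
      ih (fun i hi => ht i (by omega)) (fun i hi => hμ i (by omega))⟩

theorem mrc_cells (ht : ∀ i < k, t i < t (i + 1)) {i : ℕ} (hi : i < k) {x : ℝ}
    (hx : x ∈ Ico (t i) (t (i + 1))) : mrc (t k) (cells t μ k) x = μ i := by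
  induction k with
  | zero => omega
  | succ k ih =>
    show (if t k ≤ x then (if x < t (k + 1) then μ k else 0) else mrc (t k) (cells t μ k) x) = μ i
    rcases Nat.lt_succ_iff_lt_or_eq.1 hi with h | h
    · have h1 : t (i + 1) ≤ t k := mono_of_lt ht (by omega) (by omega)
      rw [if_neg (not_le.2 (hx.2.trans_le h1))]
      exact ih (fun i hi => ht i (by omega)) h
    · subst h
      rw [if_pos hx.1, if_pos hx.2]

theorem mlc_cells (ht : ∀ i < k, t i < t (i + 1)) {i : ℕ} (hi : i < k) {x : ℝ}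
    (hx : x ∈ Ioc (t i) (t (i + 1))) : mlc (t k) (cells t μ k) x = μ i := by
  induction k with
  | zero => omega
  | succ k ih =>
    show (if t k < x then (if x ≤ t (k + 1) then μ k else 0) else mlc (t k) (cells t μ k) x) = μ i
    rcases Nat.lt_succ_iff_lt_or_eq.1 hi with h | h
    · have h1 : t (i + 1) ≤ t k := mono_of_lt ht (by omega) (by omega)
      rw [if_neg (not_lt.2 (hx.2.trans h1))]
      exact ih (fun i hi => ht i (by omega)) h
    · subst h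
      rw [if_pos hx.1, if_pos hx.2]

theorem mrc_right {T x : ℝ} : ∀ {cs : Cells}, Valid T cs → T ≤ x → mrc T cs x = 0
  | [], _, _ => rfl
  | c :: cs, h, hx => by
      show (if c.1 ≤ x then (if x < T then c.2 else 0) else mrc c.1 cs x) = 0
      rw [if_pos (h.1.le.trans hx), if_neg (not_lt.2 hx)]

theorem mlc_right {T x : ℝ} : ∀ {cs : Cells}, Valid T cs → T < x → mlc T cs x = 0
  | [], _, _ => rfl
  | c :: cs, h, hx => by
      show (if c.1 < x then (if x ≤ T then c.2 else 0) else mlc c.1 cs x) = 0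
      rw [if_pos (h.1.trans hx), if_neg (not_le.2 hx)]

theorem Dc_cells (D : ℝ → ℝ) (e S : ℝ) (ht : ∀ i < k, t i < t (i + 1)) {i : ℕ} (hi : i < k)
    {x : ℝ} (hx : x ∈ Icc (t i) (t (i + 1))) :
    Dc (t k) (D (t k) + e * (1 + S - t k)) (cells t (fun i => e + mu D t i) k) x =
      D (t (i + 1)) + mu D t i * (t (i + 1) - x) + e * (1 + S - x) := by
  induction k with
  | zero => omega
  | succ k ih =>
    have hlt := ht k (by omega)
    have hm : mu D t k * (t (k + 1) - t k) = D (t k) - D (t (k + 1)) := by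
      unfold mu
      rw [div_mul_cancel₀ _ (sub_ne_zero.2 hlt.ne')]
    show (if t k ≤ x then D (t (k + 1)) + e * (1 + S - t (k + 1)) +
        (e + mu D t k) * (t (k + 1) - x) else Dc (t k) (D (t (k + 1)) + e * (1 + S - t (k + 1)) +
        (e + mu D t k) * (t (k + 1) - t k)) (cells t (fun i => e + mu D t i) k) x) = _
    rcases Nat.lt_succ_iff_lt_or_eq.1 hi with h | h
    · have h1 : t (i + 1) ≤ t k := mono_of_lt ht (by omega) (by omega)
      have h2 : D (t (k + 1)) + e * (1 + S - t (k + 1)) + (e + mu D t k) * (t (k + 1) - t k) =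
          D (t k) + e * (1 + S - t k) := by
        rw [add_mul, hm]; ring
      rw [h2]
      split_ifs with h3
      · have h4 : x = t (i + 1) := le_antisymm hx.2 (h1.trans h3)
        have h5 : t (i + 1) = t k := le_antisymm h1 (h3.trans hx.2)
        rw [h4, h5, add_mul, hm]
        ring
      · exact ih (fun i hi => ht i (by omega)) h
    · subst h
      rw [if_pos hx.1]
      ring

theorem measurable_Dc : ∀ (cs : Cells) (T d : ℝ), Measurable (Dc T d cs)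
  | [], _, _ => measurable_const
  | c :: cs, T, d => by
      have h1 : Dc T d (c :: cs) = fun t => if c.1 ≤ t then d + c.2 * (T - t)
          else Dc c.1 (d + c.2 * (T - c.1)) cs t := rfl
      rw [h1]
      refine Measurable.ite measurableSet_Ici (by fun_prop) (measurable_Dc cs _ _)

theorem measurable_D (A : SD) : Measurable A.D := by
  unfold SD.D
  exact Measurable.ite measurableSet_Iic (measurable_Dc _ _ _) measurable_const

theorem measurable_E (A : SD) : Measurable A.E := (measurable_D A).inv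

theorem E_le (A : SD) (x : ℝ) : A.E x ≤ A.d⁻¹ := inv_anti₀ A.hd (A.d_le_D x)

theorem integrable_E (A : SD) (a b : ℝ) : IntervalIntegrable A.E volume a b := by
  refine (intervalIntegrable_const (c := A.d⁻¹)).mono_fun' (measurable_E A).aestronglyMeasurable
    (Filter.Eventually.of_forall fun x => ?_)
  show ‖A.E x‖ ≤ A.d⁻¹
  rw [Real.norm_eq_abs, abs_of_pos (A.E_pos x)]
  exact E_le A x

end cells

/-- a grid of `[0,T] ∪ {1}` -/
theorem exists_grid' {T δ : ℝ} (hT0 : 0 < T) (hT1 : T < 1) (hδ : 0 < δ) (F : Finset ℝ)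
    (hF : ∀ x ∈ F, x ∈ Icc (0 : ℝ) T) :
    ∃ (K : ℕ) (t : ℕ → ℝ), IsGrid (K + 1) t ∧ 0 < K ∧ t K = T ∧ (∀ x ∈ F, ∃ i ≤ K, t i = x) ∧
      ∀ i < K, t (i + 1) - t i ≤ δ := by
  classical
  obtain ⟨n, hn⟩ := exists_nat_gt (T / δ)
  have hn0 : (0 : ℝ) < n := lt_of_le_of_lt (div_nonneg hT0.le hδ.le) hn
  have hmesh : T / n ≤ δ := by
    rw [div_le_iff₀ hn0]
    rw [div_lt_iff₀ hδ] at hn
    linarith
  have hn0' : 0 < n := by exact_mod_cast hn0
  set S : Finset ℝ := F ∪ {1} ∪ (Finset.range (n + 1)).image (fun j : ℕ => (j : ℝ) * (T / n))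
    with hS
  have hSj : ∀ j : ℕ, j ≤ n → (j : ℝ) * (T / n) ∈ S := by
    intro j hj
    rw [hS, Finset.mem_union]
    exact Or.inr (Finset.mem_image.2 ⟨j, Finset.mem_range.2 (by omega), rfl⟩)
  have hTn : (n : ℝ) * (T / n) = T := by field_simp
  have hSI : ∀ x ∈ S, x ∈ Icc (0 : ℝ) T ∨ x = 1 := by
    intro x hx
    simp only [hS, Finset.mem_union, Finset.mem_singleton, Finset.mem_image,
      Finset.mem_range] at hx
    rcases hx with (h1 | h1) | ⟨j, hj, h1⟩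
    · exact Or.inl (hF x h1)
    · exact Or.inr h1
    · left
      rw [← h1]
      refine ⟨by positivity, ?_⟩
      calc (j : ℝ) * (T / n) ≤ n * (T / n) := by
            refine mul_le_mul_of_nonneg_right ?_ (by positivity)
            exact_mod_cast (by omega : j ≤ n)
        _ = T := hTn
  have h0S : (0 : ℝ) ∈ S := by simpa using hSj 0 (Nat.zero_le n)
  have hTS : T ∈ S := by
    have := hSj n le_rfl
    rwa [hTn] at this
  have h1S : (1 : ℝ) ∈ S := by simp [hS]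
  obtain ⟨K', t, hg, hgS, hmem, hgap⟩ := exists_grid S h0S h1S (fun x hx => by
    rcases hSI x hx with h | h
    · exact ⟨h.1, h.2.trans hT1.le⟩
    · rw [h]; exact ⟨zero_le_one, le_rfl⟩)
  obtain ⟨K, hKK, hK⟩ := hgS T hTS
  have hKlt : K < K' := by
    rcases Nat.lt_or_ge K K' with h | h
    · exact h
    · have : K = K' := le_antisymm hKK h
      rw [this, hg.one] at hK
      linarith
  have hK1 : t (K + 1) = 1 := by
    rcases hSI _ (hmem (K + 1) hKlt) with h | h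
    · have := hg.lt K hKlt
      linarith [h.2]
    · exact h
  have hKK' : K + 1 = K' := by
    by_contra hcon
    have h1 : K + 1 < K' := by omega
    have h2 := hg.lt (K + 1) h1
    have h3 := hg.le_one (i := K + 1 + 1) h1
    linarith
  subst hKK'
  refine ⟨K, t, hg, ?_, hK, ?_, ?_⟩
  · rcases Nat.eq_zero_or_pos K with h | h
    · rw [h, hg.zero] at hK; linarith
    · exact h
  · intro x hx
    obtain ⟨i, hi, hi'⟩ := hgS x (by simp [hS, hx])
    refine ⟨i, ?_, hi'⟩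
    rcases Nat.lt_or_ge K i with h | h
    · have h1 : i = K + 1 := by omega
      rw [h1, hg.one] at hi'
      have := (hF x hx).2
      linarith
    · exact h
  · intro i hi
    refine le_trans ?_ hmesh
    have hi0 := hg.nonneg (i := i) (by omega)
    have hiT : t i < T := by
      rw [← hK]
      exact (hg.lt i (by omega)).trans_le (hg.mono (by omega) (by omega))
    have hc : 0 < T / n := div_pos hT0 hn0
    obtain ⟨j, hj⟩ : ∃ j : ℕ, j = Nat.floor (t i / (T / n)) + 1 := ⟨_, rfl⟩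
    have hj1 : t i < (j : ℝ) * (T / n) := by
      rw [← div_lt_iff₀ hc, hj]
      push_cast
      exact Nat.lt_floor_add_one _
    have hj2 : (j : ℝ) * (T / n) ≤ t i + T / n := by
      rw [hj]
      push_cast
      have h1 : (Nat.floor (t i / (T / n)) : ℝ) ≤ t i / (T / n) :=
        Nat.floor_le (div_nonneg hi0 hc.le)
      have h2 : (Nat.floor (t i / (T / n)) : ℝ) * (T / n) ≤ t i := by
        rwa [le_div_iff₀ hc] at h1
      linarith
    have hjn : j ≤ n := by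
      rw [hj]
      have h1 : t i / (T / n) < n := by
        rw [div_lt_iff₀ hc, hTn]; exact hiT
      have h2 : Nat.floor (t i / (T / n)) < n := by
        rw [Nat.floor_lt (div_nonneg hi0 hc.le)]; exact h1
      omega
    have h3 := hgap i (by omega) _ (hSj j hjn) hj1
    linarith

section main

variable {D m : ℝ → ℝ}

/-- `∫_x^1 1/D` -/
def Ks (D : ℝ → ℝ) (x : ℝ) : ℝ := ∫ s in x..1, (D s)⁻¹

theorem int_sub (hint : IntervalIntegrable (fun x => (D x)⁻¹) volume 0 1) {x y : ℝ}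
    (hx : x ∈ Icc (0 : ℝ) 1) (hy : y ∈ Icc (0 : ℝ) 1) :
    IntervalIntegrable (fun x => (D x)⁻¹) volume x y := by
  refine hint.mono_set ?_
  rw [uIcc_of_le zero_le_one]
  exact uIcc_subset_Icc hx hy

theorem Ks_sub (hint : IntervalIntegrable (fun x => (D x)⁻¹) volume 0 1) {x y : ℝ}
    (hx : x ∈ Icc (0 : ℝ) 1) (hy : y ∈ Icc (0 : ℝ) 1) : Ks D x - Ks D y = ∫ s in x..y, (D s)⁻¹ := by
  unfold Ks
  have h1 := intervalIntegral.integral_add_adjacent_intervals (int_sub hint hx hy)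
    (int_sub hint hy ⟨zero_le_one, le_rfl⟩)
  linarith

theorem Ks_anti (h : IsProf D m) (hint : IntervalIntegrable (fun x => (D x)⁻¹) volume 0 1) {x y : ℝ}
    (hx : 0 ≤ x) (hxy : x ≤ y) (hy : y ≤ 1) : Ks D y ≤ Ks D x := by
  have h1 := Ks_sub hint (x := x) (y := y) ⟨hx, hxy.trans hy⟩ ⟨hx.trans hxy, hy⟩
  have h2 : 0 ≤ ∫ s in x..y, (D s)⁻¹ := intervalIntegral.integral_nonneg hxy fun s hs =>
    inv_nonneg.2 (h.nonneg' ⟨hx.trans hs.1, hs.2.trans hy⟩)
  linarith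

theorem Ks_nonneg (h : IsProf D m) {x : ℝ} (hx : x ∈ Icc (0 : ℝ) 1) : 0 ≤ Ks D x :=
  intervalIntegral.integral_nonneg hx.2 fun _ hs =>
    inv_nonneg.2 (h.nonneg' ⟨hx.1.trans hs.1, hs.2⟩)

/-- oscillation of `Ks` on a cell left of `T` -/
theorem Ks_osc (h : IsProf D m) (hpos : ∀ x ∈ Ico (0 : ℝ) 1, 0 < D x)
    (hint : IntervalIntegrable (fun x => (D x)⁻¹) volume 0 1) {x y T : ℝ}
    (hx : 0 ≤ x) (hxy : x ≤ y) (hyT : y ≤ T) (hT : T < 1) :
    Ks D x - Ks D y ≤ (y - x) * (D T)⁻¹ := by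
  have hT0 : 0 ≤ T := hx.trans (hxy.trans hyT)
  rw [Ks_sub hint ⟨hx, hxy.trans (hyT.trans hT.le)⟩ ⟨hx.trans hxy, hyT.trans hT.le⟩]
  have h1 : ∫ _ in x..y, (D T)⁻¹ = (y - x) * (D T)⁻¹ := by simp
  rw [← h1]
  refine intervalIntegral.integral_mono_on hxy
    (int_sub hint ⟨hx, hxy.trans (hyT.trans hT.le)⟩ ⟨hx.trans hxy, hyT.trans hT.le⟩)
    intervalIntegrable_const fun s hs => ?_
  refine inv_anti₀ (hpos T ⟨hT0, hT⟩) ?_
  exact h.anti ⟨hx.trans hs.1, (hs.2.trans hyT).trans hT.le⟩ ⟨hT0, hT.le⟩ (hs.2.trans hyT)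

/-- choice of the height: `1/(D+c)` is close to `1/D` in `L¹` -/
theorem exists_height (h : IsProf D m) (hpos : ∀ x ∈ Ico (0 : ℝ) 1, 0 < D x)
    (hint : IntervalIntegrable (fun x => (D x)⁻¹) volume 0 1) {ε : ℝ} (hε : 0 < ε) :
    ∃ c : ℝ, 0 < c ∧ c ≤ ε ∧ IntervalIntegrable (fun x => (D x + c)⁻¹) volume 0 1 ∧
      ∫ x in (0 : ℝ)..1, ((D x)⁻¹ - (D x + c)⁻¹) ≤ ε := by
  have hcont : ∀ c : ℝ, 0 < c → ContinuousOn (fun x => (D x + c)⁻¹) (Icc 0 1) := by
    intro c hc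
    refine (h.continuousOn.add continuousOn_const).inv₀ fun x hx => ?_
    have h1 := h.nonneg' hx
    have h2 : 0 < D x + c := by linarith
    exact h2.ne'
  have hii : ∀ c : ℝ, 0 < c → IntervalIntegrable (fun x => (D x + c)⁻¹) volume 0 1 := by
    intro c hc
    refine ContinuousOn.intervalIntegrable ?_
    rw [uIcc_of_le zero_le_one]
    exact hcont c hc
  have hlim : Filter.Tendsto (fun n : ℕ => ∫ x in (0 : ℝ)..1, (D x + 1 / ((n : ℝ) + 1))⁻¹)
      Filter.atTop (nhds (∫ x in (0 : ℝ)..1, (D x)⁻¹)) := by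
    refine intervalIntegral.tendsto_integral_filter_of_dominated_convergence
      (fun x => (D x)⁻¹) ?_ ?_ hint ?_
    · refine Filter.Eventually.of_forall fun n => ?_
      have h1 := hii (1 / ((n : ℝ) + 1)) (by positivity)
      rw [intervalIntegrable_iff] at h1
      exact h1.aestronglyMeasurable
    · refine Filter.Eventually.of_forall fun n => ?_
      have hne : ∀ᵐ x : ℝ ∂volume, x ≠ 1 := by
        rw [MeasureTheory.ae_iff]
        simp
      filter_upwards [hne] with x hx1 hx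
      rw [uIoc_of_le zero_le_one] at hx
      have h1 : 0 < D x := hpos x ⟨hx.1.le, lt_of_le_of_ne hx.2 hx1⟩
      have h2 : (0 : ℝ) < 1 / ((n : ℝ) + 1) := by positivity
      rw [Real.norm_eq_abs, abs_of_pos (inv_pos.2 (by linarith))]
      exact inv_anti₀ h1 (by linarith)
    · have hne : ∀ᵐ x : ℝ ∂volume, x ≠ 1 := by
        rw [MeasureTheory.ae_iff]
        simp
      filter_upwards [hne] with x hx1 hx
      rw [uIoc_of_le zero_le_one] at hx
      have h1 : 0 < D x := hpos x ⟨hx.1.le, lt_of_le_of_ne hx.2 hx1⟩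
      have h2 : Filter.Tendsto (fun n : ℕ => D x + 1 / ((n : ℝ) + 1)) Filter.atTop
          (nhds (D x + 0)) := tendsto_const_nhds.add tendsto_one_div_add_atTop_nhds_zero_nat
      rw [add_zero] at h2
      exact h2.inv₀ h1.ne'
  have h1 : ∀ᶠ n : ℕ in Filter.atTop, (∫ x in (0 : ℝ)..1, (D x)⁻¹) - ε <
      ∫ x in (0 : ℝ)..1, (D x + 1 / ((n : ℝ) + 1))⁻¹ :=
    hlim.eventually (lt_mem_nhds (by linarith))
  obtain ⟨n, hn⟩ := h1.exists
  refine ⟨min ε (1 / ((n : ℝ) + 1)), lt_min hε (by positivity), min_le_left _ _,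
    hii _ (lt_min hε (by positivity)), ?_⟩
  rw [intervalIntegral.integral_sub hint (hii _ (lt_min hε (by positivity)))]
  have h2 : ∫ x in (0 : ℝ)..1, (D x + 1 / ((n : ℝ) + 1))⁻¹ ≤
      ∫ x in (0 : ℝ)..1, (D x + min ε (1 / ((n : ℝ) + 1)))⁻¹ := by
    refine intervalIntegral.integral_mono_on zero_le_one (hii _ (by positivity))
      (hii _ (lt_min hε (by positivity))) fun x hx => ?_
    have h3 := h.nonneg' hx
    have h4 : 0 < min ε (1 / ((n : ℝ) + 1)) := lt_min hε (by positivity)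
    exact inv_anti₀ (by linarith) (by linarith [min_le_right ε (1 / ((n : ℝ) + 1))])
  linarith

/-- the result of the approximation; `A` lives on the grid `0 = t 0 < ... < t K = A.T`, with weight
`e + mu D t i` (`mu D t i` = cell average of `m`) on the cell `i`. -/
structure Apx (D m : ℝ → ℝ) (ε : ℝ) (F : Finset ℝ) (A : SD) (K : ℕ) (t : ℕ → ℝ) (e : ℝ) :
    Prop where
  K_pos : 0 < K
  t_zero : t 0 = 0
  t_K : t K = A.T
  t_lt : ∀ i < K, t i < t (i + 1)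
  mesh : ∀ i < K, t (i + 1) - t i ≤ ε
  e_pos : 0 < e
  e_le : e ≤ ε
  /-- all points of `F` below `1` are grid points -/
  F_mem : ∀ x ∈ F, x < 1 → ∃ i ≤ K, t i = x
  T_gt : 1 - ε < A.T
  d_eq : A.d = D A.T + e
  mu_nonneg : ∀ i < K, 0 ≤ mu D t i
  mu_mono : ∀ i j, i ≤ j → j < K → mu D t i ≤ mu D t j
  /-- cell averages lie between the values of `m` at the ends -/
  le_mu : ∀ i < K, m (t i) ≤ mu D t i
  mu_le : ∀ i < K, mu D t i ≤ m (t (i + 1))
  m_eq : ∀ i < K, ∀ x ∈ Ico (t i) (t (i + 1)), A.m x = e + mu D t i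
  ml_eq : ∀ i < K, ∀ x ∈ Ioc (t i) (t (i + 1)), A.ml x = e + mu D t i
  D_eq : ∀ i < K, ∀ x ∈ Icc (t i) (t (i + 1)),
    A.D x = D (t (i + 1)) + mu D t i * (t (i + 1) - x) + e * (1 + A.T - x)
  D_T : ∀ x, A.T ≤ x → A.D x = A.d
  D_le : ∀ x ∈ Icc (0 : ℝ) 1, D x ≤ A.D x
  le_D : ∀ x ∈ Icc (0 : ℝ) 1, A.D x ≤ D x + ε
  K0_le : ∀ x ∈ Icc (0 : ℝ) 1, A.K0 x ≤ Ks D x
  le_K0 : ∀ x ∈ Icc (0 : ℝ) 1, Ks D x - ε ≤ A.K0 x
  /-- upper window, on closed cells -/
  win_up : ∀ t0 ∈ Ico (0 : ℝ) 1, ∀ y, (∀ x ∈ Ico t0 1, m x * Ks D x ≤ y) →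
    ∀ i < K, t0 ≤ t i → ∀ x ∈ Icc (t i) (t (i + 1)), (e + mu D t i) * A.K0 x ≤ y + ε
  /-- lower window, on closed cells starting before `1 - ε` -/
  win_lo : ∀ t0 ∈ Ico (0 : ℝ) 1, ∀ y, (∀ x ∈ Ico t0 1, y ≤ m x * Ks D x) →
    ∀ i < K, t0 ≤ t i → t i ≤ 1 - ε → ∀ x ∈ Icc (t i) (t (i + 1)),
      y - ε ≤ (e + mu D t i) * A.K0 x
  /-- upper window in the old clock `(1 - x) m / D`, on closed cells -/
  nu_up : ∀ t0 ∈ Ico (0 : ℝ) 1, ∀ y, (∀ x ∈ Ico t0 1, (1 - x) * m x ≤ y * D x) →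
    ∀ i < K, t0 ≤ t i → ∀ x ∈ Icc (t i) (t (i + 1)), (1 - x) * (e + mu D t i) ≤ (y + ε) * A.D x
  /-- lower window in the old clock, on closed cells starting before `1 - ε` -/
  nu_lo : ∀ t0 ∈ Ico (0 : ℝ) 1, ∀ y, (∀ x ∈ Ico t0 1, y * D x ≤ (1 - x) * m x) →
    ∀ i < K, t0 ≤ t i → t i ≤ 1 - ε → ∀ x ∈ Icc (t i) (t (i + 1)),
      (y - ε) * A.D x ≤ (1 - x) * (e + mu D t i)
  /-- `(1 - x) weight ≤ D` on closed cells -/
  apri : ∀ i < K, ∀ x ∈ Icc (t i) (t (i + 1)), (1 - x) * (e + mu D t i) ≤ A.D x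

set_option maxHeartbeats 1000000 in
/-- **STEP-APX** -/
theorem exists_SD (h : IsProf D m) (hpos : ∀ x ∈ Ico (0 : ℝ) 1, 0 < D x)
    (hint : IntervalIntegrable (fun x => (D x)⁻¹) volume 0 1) {ε : ℝ} (hε : 0 < ε) (F : Finset ℝ)
    (hF : ∀ x ∈ F, x ∈ Icc (0 : ℝ) 1) :
    ∃ (A : SD) (K : ℕ) (t : ℕ → ℝ) (e : ℝ), Apx D m ε F A K t e := by
  classical
  -- the left region of the lower window
  obtain ⟨r0, hr00, hr01, hr0⟩ : ∃ r0 : ℝ, 0 ≤ r0 ∧ r0 < 1 ∧ 1 - ε ≤ r0 :=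
    ⟨max 0 (1 - ε), le_max_left _ _, max_lt one_pos (by linarith), le_max_right _ _⟩
  have hM0 : 0 ≤ m r0 := h.nonneg r0 ⟨hr00, hr01⟩
  obtain ⟨ε2, hε20, hε2ε, hε2M⟩ : ∃ ε2 : ℝ, 0 < ε2 ∧ ε2 ≤ ε ∧ m r0 * ε2 ≤ ε / 4 := by
    refine ⟨min ε (ε / (4 * (m r0 + 1))), lt_min hε (by positivity), min_le_left _ _, ?_⟩
    have h1 : min ε (ε / (4 * (m r0 + 1))) ≤ ε / (4 * (m r0 + 1)) := min_le_right _ _
    have h2 : m r0 * (ε / (4 * (m r0 + 1))) ≤ ε / 4 := by
      rw [← mul_div_assoc, div_le_iff₀ (by positivity)]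
      nlinarith
    exact (mul_le_mul_of_nonneg_left h1 hM0).trans h2
  obtain ⟨c, hc0, hcε, hci, hcint⟩ := exists_height h hpos hint hε20
  -- uniform continuity
  have huc : UniformContinuousOn D (Set.Icc 0 1) :=
    isCompact_Icc.uniformContinuousOn_of_continuous h.continuousOn
  rw [Metric.uniformContinuousOn_iff_le] at huc
  -- the point T
  obtain ⟨T, hT0, hT1, hTr, hTε, hTF, hTD⟩ : ∃ T : ℝ, 0 < T ∧ T < 1 ∧ r0 ≤ T ∧ 1 - ε < T ∧
      (∀ x ∈ F, x < 1 → x ≤ T) ∧ D T - D 1 ≤ c / 2 := by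
    obtain ⟨δ, hδ0, hδ⟩ := huc (c / 2) (by positivity)
    set S : Finset ℝ := insert r0 (F.filter fun x => x < 1) with hS
    have hSne : S.Nonempty := ⟨r0, by simp [hS]⟩
    have hSlt : ∀ x ∈ S, x < 1 := by
      intro x hx
      simp only [hS, Finset.mem_insert, Finset.mem_filter] at hx
      rcases hx with h1 | h1
      · rw [h1]; exact hr01
      · exact h1.2
    obtain ⟨T, hT⟩ : ∃ T, T = max (S.max' hSne) (max (1 - δ) (max (1 - ε / 2) (1 / 2))) := ⟨_, rfl⟩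
    have hle : ∀ x ∈ S, x ≤ T := fun x hx => by
      rw [hT]; exact (S.le_max' x hx).trans (le_max_left _ _)
    have h2 : 1 - δ ≤ T := by
      rw [hT]; exact (le_max_left _ _).trans (le_max_right _ _)
    have h3 : 1 - ε / 2 ≤ T := by
      rw [hT]; exact (le_max_left _ _).trans ((le_max_right _ _).trans (le_max_right _ _))
    have h4 : 1 / 2 ≤ T := by
      rw [hT]; exact (le_max_right _ _).trans ((le_max_right _ _).trans (le_max_right _ _))
    have hTlt : T < 1 := by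
      rw [hT]
      exact max_lt (hSlt _ (S.max'_mem hSne))
        (max_lt (by linarith) (max_lt (by linarith) (by norm_num)))
    refine ⟨T, by linarith, hTlt, hle r0 (by simp [hS]), by linarith, ?_, ?_⟩
    · intro x hx hx1
      exact hle x (by simp [hS, hx, hx1])
    · have h5 := hδ T ⟨by linarith, hTlt.le⟩ 1 ⟨zero_le_one, le_rfl⟩ (by
        rw [Real.dist_eq, abs_le]
        constructor <;> linarith)
      rw [Real.dist_eq] at h5
      exact (le_abs_self _).trans h5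
  have hDT : 0 < D T := hpos T ⟨hT0.le, hT1⟩
  have hmT : 0 ≤ m T := h.nonneg T ⟨hT0.le, hT1⟩
  have hK00 : 0 ≤ Ks D 0 := Ks_nonneg h ⟨le_rfl, zero_le_one⟩
  -- constants of the old clock
  obtain ⟨η, hη0, hη1, hηε⟩ : ∃ η : ℝ, 0 < η ∧ η ≤ 1 / 2 ∧ η ≤ ε / 4 :=
    ⟨min (1 / 2) (ε / 4), lt_min (by norm_num) (by positivity), min_le_left _ _, min_le_right _ _⟩
  obtain ⟨r1, hr10, hr11, hr1⟩ : ∃ r1 : ℝ, 0 ≤ r1 ∧ r1 < 1 ∧ 1 - ε / 2 ≤ r1 :=
    ⟨max 0 (1 - ε / 2), le_max_left _ _, max_lt one_pos (by linarith), le_max_right _ _⟩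
  have hDr1 : 0 < D r1 := hpos r1 ⟨hr10, hr11⟩
  have hD0 : 0 < D 0 := hpos 0 ⟨le_rfl, one_pos⟩
  have hlinD : ∀ x ∈ Icc (0 : ℝ) 1, D 0 * (1 - x) ≤ D x := by
    intro x hx
    have hD1 := h.end_nonneg
    rcases eq_or_lt_of_le hx.2 with h1 | h1
    · rw [h1]; simp [hD1]
    have e1 : D 0 - D x ≤ m x * (x - 0) := h.sub_le le_rfl hx.1 hx.2 fun z hz =>
      h.mono ⟨hz.1, hz.2.trans h1⟩ ⟨hx.1, h1⟩ hz.2.le
    have e2 : m x * (1 - x) ≤ D x - D 1 := h.le_sub hx.1 h1.le le_rfl fun z hz =>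
      h.mono ⟨hx.1, h1⟩ ⟨hx.1.trans hz.1, hz.2⟩ hz.1
    nlinarith [hx.1]
  -- the small slope
  obtain ⟨e, he0, hec, heK, heD, her⟩ : ∃ e : ℝ, 0 < e ∧ e ≤ c / 2 ∧ e * Ks D 0 ≤ ε / 2 ∧
      e ≤ ε / 2 * D 0 ∧ 2 * e ≤ η * D r1 := by
    refine ⟨min (min (c / 2) (ε / (2 * (Ks D 0 + 1)))) (min (ε / 2 * D 0) (η * D r1 / 2)),
      lt_min (lt_min (by positivity) (by positivity)) (lt_min (by positivity) (by positivity)),
      (min_le_left _ _).trans (min_le_left _ _), ?_,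
      (min_le_right _ _).trans (min_le_left _ _), by
        linarith [(min_le_right (min (c / 2) (ε / (2 * (Ks D 0 + 1))))
          (min (ε / 2 * D 0) (η * D r1 / 2))).trans (min_le_right _ _)]⟩
    have h1 : min (min (c / 2) (ε / (2 * (Ks D 0 + 1)))) (min (ε / 2 * D 0) (η * D r1 / 2)) ≤
        ε / (2 * (Ks D 0 + 1)) := (min_le_left _ _).trans (min_le_right _ _)
    have h2 : ε / (2 * (Ks D 0 + 1)) * Ks D 0 ≤ ε / 2 := by
      rw [div_mul_eq_mul_div, div_le_iff₀ (by positivity)]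
      nlinarith
    exact (mul_le_mul_of_nonneg_right h1 hK00).trans h2
  -- the mesh
  obtain ⟨ω, hω0, hω1, hω2⟩ : ∃ ω : ℝ, 0 < ω ∧ m r0 * ω ≤ ε / 4 ∧ m T * ω ≤ ε / 4 := by
    refine ⟨ε / (4 * (m r0 + m T + 1)), by positivity, ?_, ?_⟩
    · rw [← mul_div_assoc, div_le_iff₀ (by positivity)]
      nlinarith
    · rw [← mul_div_assoc, div_le_iff₀ (by positivity)]
      nlinarith
  obtain ⟨δ1, hδ10, hδ1⟩ := huc e he0
  obtain ⟨δ, hδ⟩ : ∃ δ, δ = min (min δ1 (ε / 2)) (min (ω * D T) (η * (1 - T))) := ⟨_, rfl⟩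
  have hδ0 : 0 < δ := by
    rw [hδ]
    exact lt_min (lt_min hδ10 (by positivity))
      (lt_min (mul_pos hω0 hDT) (mul_pos hη0 (by linarith)))
  obtain ⟨K, t, hg, hK, htK, htF, htδ⟩ := exists_grid' hT0 hT1 hδ0 (F.filter fun x => x < 1)
    (fun x hx => by
      rw [Finset.mem_filter] at hx
      exact ⟨(hF x hx.1).1, hTF x hx.1 hx.2⟩)
  have hmesh1 : ∀ i < K, t (i + 1) - t i ≤ δ1 := fun i hi => by
    have := htδ i hi
    rw [hδ] at this
    exact this.trans ((min_le_left _ _).trans (min_le_left _ _))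
  have hmesh2 : ∀ i < K, t (i + 1) - t i ≤ ε / 2 := fun i hi => by
    have := htδ i hi
    rw [hδ] at this
    exact this.trans ((min_le_left _ _).trans (min_le_right _ _))
  have hmesh3 : ∀ i < K, t (i + 1) - t i ≤ ω * D T := fun i hi => by
    have := htδ i hi
    rw [hδ] at this
    exact this.trans ((min_le_right _ _).trans (min_le_left _ _))
  have hmesh4 : ∀ i < K, t (i + 1) - t i ≤ η * (1 - T) := fun i hi => by
    have := htδ i hi
    rw [hδ] at this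
    exact this.trans ((min_le_right _ _).trans (min_le_right _ _))
  have htlt : ∀ i < K, t i < t (i + 1) := fun i hi => hg.lt i (by omega)
  have htT : ∀ i ≤ K, t i ≤ T := fun i hi => by
    rw [← htK]; exact hg.mono hi (by omega)
  have htn : ∀ i ≤ K, 0 ≤ t i := fun i hi => hg.nonneg (by omega)
  have ht01 : ∀ i ≤ K, t i ∈ Icc (0 : ℝ) 1 := fun i hi => ⟨htn i hi, (htT i hi).trans hT1.le⟩
  have hmu0 : ∀ i < K, 0 ≤ mu D t i := fun i hi => mu_nonneg h hg (by omega)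
  have hdrop : ∀ i < K, D (t i) - D (t (i + 1)) ≤ e := by
    intro i hi
    have h5 := hδ1 (t i) (ht01 i hi.le) (t (i + 1)) (ht01 (i + 1) hi) (by
      rw [Real.dist_eq, abs_le]
      have := hmesh1 i hi
      have := htlt i hi
      constructor <;> linarith)
    rw [Real.dist_eq] at h5
    exact (le_abs_self _).trans h5
  -- the step data
  let A : SD :=
    { T := T
      d := D T + e
      cs := cells t (fun i => e + mu D t i) K
      hT0 := hT0
      hT1 := hT1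
      hd := by linarith
      hv := by
        have := valid_cells (t := t) (μ := fun i => e + mu D t i) (k := K) hg.zero htlt
          (fun i hi => by have := hmu0 i hi; show 0 < e + mu D t i; linarith)
        rwa [htK] at this }
  have hAT : A.T = T := rfl
  have hAd : A.d = D T + e := rfl
  have hm_eq : ∀ i < K, ∀ x ∈ Ico (t i) (t (i + 1)), A.m x = e + mu D t i := by
    intro i hi x hx
    have := mrc_cells (t := t) (μ := fun i => e + mu D t i) (k := K) htlt hi hx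
    rwa [htK] at this
  have hml_eq : ∀ i < K, ∀ x ∈ Ioc (t i) (t (i + 1)), A.ml x = e + mu D t i := by
    intro i hi x hx
    have := mlc_cells (t := t) (μ := fun i => e + mu D t i) (k := K) htlt hi hx
    rwa [htK] at this
  have hD_eq : ∀ i < K, ∀ x ∈ Icc (t i) (t (i + 1)),
      A.D x = D (t (i + 1)) + mu D t i * (t (i + 1) - x) + e * (1 + T - x) := by
    intro i hi x hx
    have h1 := Dc_cells (t := t) (k := K) D e T htlt hi hx
    rw [htK, add_sub_cancel_right, mul_one] at h1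
    rw [← h1]
    show (if x ≤ T then Dc T (D T + e) (cells t (fun i => e + mu D t i) K) x else D T + e) = _
    rw [if_pos (hx.2.trans (htT (i + 1) hi))]
  have hD_T : ∀ x, T ≤ x → A.D x = D T + e := by
    intro x hx
    rcases eq_or_lt_of_le hx with h1 | h1
    · rw [← h1]
      obtain ⟨k, hk⟩ : ∃ k, K = k + 1 := ⟨K - 1, by omega⟩
      have h2 := hD_eq k (by omega) T ⟨htT k (by omega), by rw [← hk, htK]⟩
      rw [h2, ← hk, htK]
      ring
    · show (if x ≤ T then Dc T (D T + e) (cells t (fun i => e + mu D t i) K) x else D T + e) = _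
      rw [if_neg (not_le.2 h1)]
  have hcell : ∀ x ∈ Ico (0 : ℝ) T, ∃ i < K, t i ≤ x ∧ x < t (i + 1) := by
    intro x hx
    obtain ⟨i, hi, h1, h2⟩ := hg.exists_cell (x := x) ⟨hx.1, hx.2.trans hT1⟩
    refine ⟨i, ?_, h1, h2⟩
    by_contra hcon
    have : i = K := by omega
    rw [this, htK] at h1
    linarith [hx.2]
  have hD_le : ∀ x ∈ Icc (0 : ℝ) 1, D x ≤ A.D x := by
    intro x hx
    rcases le_or_gt T x with h1 | h1
    · rw [hD_T x h1]
      have := h.anti ⟨hT0.le, hT1.le⟩ hx h1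
      linarith
    · obtain ⟨i, hi, h2, h3⟩ := hcell x ⟨hx.1, h1⟩
      rw [hD_eq i hi x ⟨h2, h3.le⟩]
      have h4 := h.anti (ht01 i hi.le) hx h2
      have h5 := hdrop i hi
      have h6 := mul_nonneg (hmu0 i hi) (sub_nonneg.2 h3.le)
      have h7 : e * 1 ≤ e * (1 + T - x) := mul_le_mul_of_nonneg_left (by linarith) he0.le
      linarith
  have hDc : ∀ x ∈ Icc (0 : ℝ) 1, A.D x ≤ D x + c := by
    intro x hx
    rcases le_or_gt T x with h1 | h1
    · rw [hD_T x h1]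
      have := h.one_le hx
      linarith
    · obtain ⟨i, hi, h2, h3⟩ := hcell x ⟨hx.1, h1⟩
      rw [hD_eq i hi x ⟨h2, h3.le⟩]
      have h4 := chord_le h hg (i := i) (by omega) (x := x) ⟨h2, h3.le⟩
      have h7 : e * (1 + T - x) ≤ e * 2 :=
        mul_le_mul_of_nonneg_left (by linarith [hx.1]) he0.le
      linarith
  -- the clock
  have hiE : ∀ a b, IntervalIntegrable A.E volume a b := integrable_E A
  have hiD : ∀ x ∈ Icc (0 : ℝ) 1, IntervalIntegrable (fun x => (D x)⁻¹) volume x 1 := fun x hx =>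
    int_sub hint hx ⟨zero_le_one, le_rfl⟩
  have hElt : ∀ s ∈ Ioo (0 : ℝ) 1, A.E s ≤ (D s)⁻¹ := fun s hs =>
    inv_anti₀ (hpos s ⟨hs.1.le, hs.2⟩) (hD_le s ⟨hs.1.le, hs.2.le⟩)
  have hK0_le : ∀ x ∈ Icc (0 : ℝ) 1, A.K0 x ≤ Ks D x := by
    intro x hx
    exact intervalIntegral.integral_mono_on_of_le_Ioo hx.2 (hiE x 1) (hiD x hx)
      fun s hs => hElt s ⟨hx.1.trans_lt hs.1, hs.2⟩
  have hK0_nn : ∀ x ∈ Icc (0 : ℝ) 1, 0 ≤ A.K0 x := fun x hx =>
    intervalIntegral.integral_nonneg hx.2 fun s _ => (A.E_pos s).le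
  have hle_K0 : ∀ x ∈ Icc (0 : ℝ) 1, Ks D x - ε2 ≤ A.K0 x := by
    intro x hx
    have h1 : Ks D x - A.K0 x = ∫ s in x..1, ((D s)⁻¹ - A.E s) := by
      rw [intervalIntegral.integral_sub (hiD x hx) (hiE x 1)]
      rfl
    have h2 : ∫ s in (0 : ℝ)..1, ((D s)⁻¹ - A.E s) =
        (∫ s in (0 : ℝ)..x, ((D s)⁻¹ - A.E s)) + ∫ s in x..1, ((D s)⁻¹ - A.E s) :=
      (intervalIntegral.integral_add_adjacent_intervals
        ((int_sub hint ⟨le_rfl, zero_le_one⟩ hx).sub (hiE 0 x)) ((hiD x hx).sub (hiE x 1))).symm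
    have h3 : 0 ≤ ∫ s in (0 : ℝ)..x, ((D s)⁻¹ - A.E s) := by
      have h4 : ∫ _ in (0 : ℝ)..x, (0 : ℝ) ≤ ∫ s in (0 : ℝ)..x, ((D s)⁻¹ - A.E s) := by
        refine intervalIntegral.integral_mono_on_of_le_Ioo hx.1 intervalIntegrable_const
          ((int_sub hint ⟨le_rfl, zero_le_one⟩ hx).sub (hiE 0 x)) fun s hs => ?_
        exact sub_nonneg.2 (hElt s ⟨hs.1, hs.2.trans_le hx.2⟩)
      simpa using h4
    have h5 : ∫ s in (0 : ℝ)..1, ((D s)⁻¹ - A.E s) ≤
        ∫ s in (0 : ℝ)..1, ((D s)⁻¹ - (D s + c)⁻¹) := by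
      refine intervalIntegral.integral_mono_on_of_le_Ioo zero_le_one
        (hint.sub (hiE 0 1)) (hint.sub hci) fun s hs => ?_
      have h6 : (D s + c)⁻¹ ≤ A.E s := inv_anti₀ (A.D_pos s) (hDc s ⟨hs.1.le, hs.2.le⟩)
      linarith
    linarith
  have hKosc : ∀ i < K, Ks D (t i) - Ks D (t (i + 1)) ≤ ω := by
    intro i hi
    refine (Ks_osc h hpos hint (htn i hi.le) (htlt i hi).le (htT (i + 1) hi) hT1).trans ?_
    rw [← div_eq_mul_inv, div_le_iff₀ hDT]
    exact hmesh3 i hi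
  have hapri : ∀ i < K, ∀ x ∈ Icc (t i) (t (i + 1)), (1 - x) * (e + mu D t i) ≤ A.D x := by
    intro i hi x hx
    have c1 := PtS1_489.tau_mu_le h hg (e := 0) le_rfl (i := i) (by omega) hx
    rw [PtS1_489.Dst_mu D hg (by omega) hx] at c1
    rw [hD_eq i hi x hx]
    have c2 : (1 - x) * e ≤ e * (1 + T - x) := by
      rw [mul_comm]
      exact mul_le_mul_of_nonneg_left (by linarith) he0.le
    linarith
  refine ⟨A, K, t, e, ?_⟩
  refine
    { K_pos := hK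
      t_zero := hg.zero
      t_K := htK
      t_lt := htlt
      mesh := fun i hi => by have := hmesh2 i hi; linarith
      e_pos := he0
      e_le := by linarith
      F_mem := fun x hx hx1 => htF x (by simp [hx, hx1])
      T_gt := hTε
      d_eq := rfl
      mu_nonneg := hmu0
      mu_mono := fun i j hij hj => mu_mono h hg hij (by omega)
      le_mu := fun i hi => ?_
      mu_le := fun i hi => ?_
      m_eq := hm_eq
      ml_eq := hml_eq
      D_eq := hD_eq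
      D_T := hD_T
      D_le := hD_le
      le_D := fun x hx => by have := hDc x hx; linarith
      K0_le := hK0_le
      le_K0 := fun x hx => by have := hle_K0 x hx; linarith
      win_up := ?_
      win_lo := ?_
      nu_up := ?_
      nu_lo := ?_
      apri := hapri }
  · refine le_mu_of h hg (by omega) fun z hz => ?_
    exact h.mono ⟨htn i hi.le, (htT i hi.le).trans_lt hT1⟩
      ⟨(htn i hi.le).trans hz.1, hz.2.trans_le ((htT (i + 1) hi).trans hT1.le)⟩ hz.1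
  · refine mu_le_of h hg (by omega) fun z hz => ?_
    exact h.mono ⟨(htn i hi.le).trans hz.1, hz.2.trans_le ((htT (i + 1) hi).trans hT1.le)⟩
      ⟨htn (i + 1) hi, (htT (i + 1) hi).trans_lt hT1⟩ hz.2.le
  · intro t0 ht0 y hy i hi hti x hx
    have hx01 : x ∈ Icc (0 : ℝ) 1 :=
      ⟨(htn i hi.le).trans hx.1, hx.2.trans (ht01 (i + 1) hi).2⟩
    have a1 : A.K0 x ≤ Ks D (t i) :=
      (hK0_le x hx01).trans (Ks_anti h hint (htn i hi.le) hx.1 hx01.2)
    have a2 : Ks D (t i) ≤ Ks D 0 := Ks_anti h hint le_rfl (htn i hi.le) (ht01 i hi.le).2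
    have a3 : e * A.K0 x ≤ ε / 2 :=
      (mul_le_mul_of_nonneg_left (a1.trans a2) he0.le).trans heK
    have a4 : mu D t i ≤ m T := by
      refine mu_le_of h hg (by omega) fun z hz => ?_
      exact h.mono ⟨(htn i hi.le).trans hz.1, hz.2.trans_le ((htT (i + 1) hi).trans hT1.le)⟩
        ⟨hT0.le, hT1⟩ (hz.2.le.trans (htT (i + 1) hi))
    have a5 : mu D t i * (Ks D (t i) - Ks D (t (i + 1))) ≤ ε / 4 :=
      (mul_le_mul_of_nonneg_left (hKosc i hi) (hmu0 i hi)).trans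
        ((mul_le_mul_of_nonneg_right a4 hω0.le).trans hω2)
    have hKpos : 0 < Ks D (t (i + 1)) := by
      refine intervalIntegral.intervalIntegral_pos_of_pos_on (hiD _ (ht01 (i + 1) hi))
        (fun s hs => inv_pos.2 (hpos s ⟨(htn (i + 1) hi).trans hs.1.le, hs.2⟩))
        ((htT (i + 1) hi).trans_lt hT1)
    have a6 : mu D t i * Ks D (t (i + 1)) ≤ y := by
      rw [← le_div_iff₀ hKpos]
      refine mu_le_of h hg (by omega) fun z hz => ?_
      rw [le_div_iff₀ hKpos]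
      have hz1 : z < 1 := hz.2.trans_le (ht01 (i + 1) hi).2
      have hz0 : 0 ≤ z := (htn i hi.le).trans hz.1
      refine le_trans ?_ (hy z ⟨hti.trans hz.1, hz1⟩)
      exact mul_le_mul_of_nonneg_left (Ks_anti h hint hz0 hz.2.le (ht01 (i + 1) hi).2)
        (h.nonneg z ⟨hz0, hz1⟩)
    have a7 : mu D t i * A.K0 x ≤ mu D t i * Ks D (t i) := mul_le_mul_of_nonneg_left a1 (hmu0 i hi)
    calc (e + mu D t i) * A.K0 x = e * A.K0 x + mu D t i * A.K0 x := by ring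
      _ ≤ ε / 2 + mu D t i * Ks D (t i) := add_le_add a3 a7
      _ = ε / 2 + (mu D t i * (Ks D (t i) - Ks D (t (i + 1))) + mu D t i * Ks D (t (i + 1))) := by
          ring
      _ ≤ ε / 2 + (ε / 4 + y) := by linarith
      _ ≤ y + ε := by linarith
  · intro t0 ht0 y hy i hi hti hti2 x hx
    have hx01 : x ∈ Icc (0 : ℝ) 1 :=
      ⟨(htn i hi.le).trans hx.1, hx.2.trans (ht01 (i + 1) hi).2⟩
    have hti1 : t i < 1 := (htT i hi.le).trans_lt hT1
    have b0 : m (t i) ≤ mu D t i := by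
      refine le_mu_of h hg (by omega) fun z hz => ?_
      exact h.mono ⟨htn i hi.le, hti1⟩
        ⟨(htn i hi.le).trans hz.1, hz.2.trans_le ((htT (i + 1) hi).trans hT1.le)⟩ hz.1
    have b1 : 0 ≤ m (t i) := h.nonneg _ ⟨htn i hi.le, hti1⟩
    have b2 : m (t i) ≤ m r0 := h.mono ⟨htn i hi.le, hti1⟩ ⟨hr00, hr01⟩ (hti2.trans hr0)
    have b3 : Ks D (t i) - (ω + ε2) ≤ A.K0 x := by
      have c1 := hle_K0 x hx01
      have c2 := Ks_anti h hint hx01.1 hx.2 (ht01 (i + 1) hi).2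
      have c3 := hKosc i hi
      linarith
    have b4 : m (t i) * (ω + ε2) ≤ ε / 2 := by
      have c1 : m (t i) * (ω + ε2) ≤ m r0 * (ω + ε2) :=
        mul_le_mul_of_nonneg_right b2 (by linarith)
      linarith
    have b5 : y ≤ m (t i) * Ks D (t i) := hy (t i) ⟨hti, hti1⟩
    have b6 : m (t i) * (Ks D (t i) - (ω + ε2)) ≤ m (t i) * A.K0 x :=
      mul_le_mul_of_nonneg_left b3 b1
    have b7 : m (t i) * A.K0 x ≤ (e + mu D t i) * A.K0 x :=
      mul_le_mul_of_nonneg_right (by linarith) (hK0_nn x hx01)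
    have b8 : m (t i) * (Ks D (t i) - (ω + ε2)) =
        m (t i) * Ks D (t i) - m (t i) * (ω + ε2) := by ring
    linarith
  · -- old clock, upper
    intro t0 ht0 y hy i hi hti x hx
    have hx01 : x ∈ Icc (0 : ℝ) 1 :=
      ⟨(htn i hi.le).trans hx.1, hx.2.trans (ht01 (i + 1) hi).2⟩
    have hApos := A.D_pos x
    rcases le_or_gt 1 y with hy1 | hy1
    · refine (hapri i hi x hx).trans ?_
      nlinarith
    have hs'1 : t (i + 1) < 1 := (htT (i + 1) hi).trans_lt hT1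
    have a1 : D (t i) ≤ A.D x := by
      have c1 := hdrop i hi
      rw [hD_eq i hi x hx]
      have c2 := mul_nonneg (hmu0 i hi) (sub_nonneg.2 hx.2)
      have c3 : e * 1 ≤ e * (1 + T - x) :=
        mul_le_mul_of_nonneg_left (by linarith [htT (i + 1) hi, hx.2]) he0.le
      linarith
    have hy0 : 0 ≤ y := by
      have c1 := hy (t i) ⟨hti, (htT i hi.le).trans_lt hT1⟩
      have c2 : 0 ≤ (1 - t i) * m (t i) := mul_nonneg (by linarith [(ht01 i hi.le).2])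
        (h.nonneg _ ⟨htn i hi.le, (htT i hi.le).trans_lt hT1⟩)
      have c3 := hpos (t i) ⟨htn i hi.le, (htT i hi.le).trans_lt hT1⟩
      by_contra hcon
      push Not at hcon
      have := mul_neg_of_neg_of_pos hcon c3
      linarith
    have a2 : mu D t i * (1 - t (i + 1)) ≤ y * D (t i) := by
      rw [← le_div_iff₀ (by linarith)]
      refine mu_le_of h hg (by omega) fun z hz => ?_
      rw [le_div_iff₀ (by linarith)]
      have hz1 : z < 1 := hz.2.trans hs'1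
      have hz0 : 0 ≤ z := (htn i hi.le).trans hz.1
      have c1 := hy z ⟨hti.trans hz.1, hz1⟩
      have c2 : m z * (1 - t (i + 1)) ≤ (1 - z) * m z := by
        rw [mul_comm]
        exact mul_le_mul_of_nonneg_right (by linarith [hz.2]) (h.nonneg z ⟨hz0, hz1⟩)
      have c3 : y * D z ≤ y * D (t i) :=
        mul_le_mul_of_nonneg_left (h.anti (ht01 i hi.le) ⟨hz0, hz1.le⟩ hz.1) hy0
      linarith
    have a3 : 1 - x ≤ (1 + η) * (1 - t (i + 1)) := by
      have c1 := hmesh4 i hi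
      have c2 : η * (1 - T) ≤ η * (1 - t (i + 1)) :=
        mul_le_mul_of_nonneg_left (by linarith [htT (i + 1) hi]) hη0.le
      linarith [hx.1]
    have a4 : (1 - x) * mu D t i ≤ (1 + η) * (y * A.D x) := by
      calc (1 - x) * mu D t i ≤ ((1 + η) * (1 - t (i + 1))) * mu D t i :=
            mul_le_mul_of_nonneg_right a3 (hmu0 i hi)
        _ = (1 + η) * (mu D t i * (1 - t (i + 1))) := by ring
        _ ≤ (1 + η) * (y * D (t i)) := mul_le_mul_of_nonneg_left a2 (by linarith)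
        _ ≤ (1 + η) * (y * A.D x) :=
            mul_le_mul_of_nonneg_left (mul_le_mul_of_nonneg_left a1 hy0) (by linarith)
    have a5 : (1 - x) * e ≤ ε / 2 * A.D x := by
      have c1 := hlinD x hx01
      have c2 := hD_le x hx01
      calc (1 - x) * e ≤ (1 - x) * (ε / 2 * D 0) :=
            mul_le_mul_of_nonneg_left heD (by linarith [hx01.2])
        _ = ε / 2 * (D 0 * (1 - x)) := by ring
        _ ≤ ε / 2 * A.D x := mul_le_mul_of_nonneg_left (c1.trans c2) (by linarith)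
    have a6 : η * (y * A.D x) ≤ ε / 4 * A.D x := by
      have c1 : y * A.D x ≤ 1 * A.D x := mul_le_mul_of_nonneg_right hy1.le hApos.le
      have c2 : η * (y * A.D x) ≤ η * (1 * A.D x) := mul_le_mul_of_nonneg_left c1 hη0.le
      have c3 : η * A.D x ≤ ε / 4 * A.D x := mul_le_mul_of_nonneg_right hηε hApos.le
      linarith
    have a7 : 0 ≤ ε / 4 * A.D x := by positivity
    nlinarith
  · -- old clock, lower
    intro t0 ht0 y hy i hi hti hti2 x hx
    have hx01 : x ∈ Icc (0 : ℝ) 1 :=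
      ⟨(htn i hi.le).trans hx.1, hx.2.trans (ht01 (i + 1) hi).2⟩
    have hApos := A.D_pos x
    have hs1 : t i < 1 := (htT i hi.le).trans_lt hT1
    have hw0 : 0 ≤ (1 - x) * (e + mu D t i) :=
      mul_nonneg (by linarith [hx01.2]) (by linarith [hmu0 i hi])
    rcases le_or_gt y 0 with hy0 | hy0
    · have : (y - ε) * A.D x ≤ 0 := mul_nonpos_of_nonpos_of_nonneg (by linarith) hApos.le
      linarith
    have b0 : m (t i) ≤ mu D t i := by
      refine le_mu_of h hg (by omega) fun z hz => ?_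
      exact h.mono ⟨htn i hi.le, hs1⟩
        ⟨(htn i hi.le).trans hz.1, hz.2.trans_le ((htT (i + 1) hi).trans hT1.le)⟩ hz.1
    have b1 : y * D (t i) ≤ (1 - t i) * m (t i) := hy (t i) ⟨hti, hs1⟩
    have b2 : (1 - t i) * m (t i) ≤ D (t i) := by
      have c1 : m (t i) * (1 - t i) ≤ D (t i) - D 1 :=
        h.le_sub (htn i hi.le) hs1.le le_rfl fun z hz =>
          h.mono ⟨htn i hi.le, hs1⟩ ⟨(htn i hi.le).trans hz.1, hz.2⟩ hz.1
      have := h.end_nonneg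
      linarith
    have hDs : 0 < D (t i) := hpos (t i) ⟨htn i hi.le, hs1⟩
    have hy1 : y ≤ 1 := by
      by_contra hcon
      push Not at hcon
      have : 1 * D (t i) < y * D (t i) := mul_lt_mul_of_pos_right hcon hDs
      linarith
    have b3 : (1 - η) * (1 - t i) ≤ 1 - x := by
      have c1 := hmesh4 i hi
      have c2 : η * (1 - T) ≤ η * (1 - t i) :=
        mul_le_mul_of_nonneg_left (by linarith [htT i hi.le]) hη0.le
      linarith [hx.2]
    have b4 : (1 - η) * A.D x ≤ D (t i) := by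
      have c1 : x ≤ r1 := by
        have := hmesh2 i hi
        linarith [hx.2]
      have c2 : D r1 ≤ A.D x := (h.anti hx01 ⟨hr10, hr11.le⟩ c1).trans (hD_le x hx01)
      have c3 : A.D x ≤ D x + 2 * e := by
        rw [hD_eq i hi x hx]
        have d1 := chord_le h hg (i := i) (by omega) hx
        have d2 : e * (1 + T - x) ≤ e * 2 :=
          mul_le_mul_of_nonneg_left (by linarith [hx01.1]) he0.le
        linarith
      have c4 : D x ≤ D (t i) := h.anti (ht01 i hi.le) hx01 hx.1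
      have c5 : η * D r1 ≤ η * A.D x := mul_le_mul_of_nonneg_left c2 hη0.le
      linarith
    have b5 : y * ((1 - η) * ((1 - η) * A.D x)) ≤ (1 - x) * mu D t i := by
      calc y * ((1 - η) * ((1 - η) * A.D x)) ≤ y * ((1 - η) * D (t i)) :=
            mul_le_mul_of_nonneg_left (mul_le_mul_of_nonneg_left b4 (by linarith)) hy0.le
        _ = (1 - η) * (y * D (t i)) := by ring
        _ ≤ (1 - η) * ((1 - t i) * m (t i)) := mul_le_mul_of_nonneg_left b1 (by linarith)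
        _ = ((1 - η) * (1 - t i)) * m (t i) := by ring
        _ ≤ (1 - x) * m (t i) := mul_le_mul_of_nonneg_right b3
            (h.nonneg _ ⟨htn i hi.le, hs1⟩)
        _ ≤ (1 - x) * mu D t i := mul_le_mul_of_nonneg_left b0 (by linarith [hx01.2])
    have b6 : (y - ε) * A.D x ≤ y * ((1 - η) * ((1 - η) * A.D x)) := by
      have c1 : y - ε ≤ y * ((1 - η) * (1 - η)) := by
        have d1 : y * η ≤ 1 * η := mul_le_mul_of_nonneg_right hy1 hη0.le
        have d2 : 0 ≤ y * (η * η) := mul_nonneg hy0.le (mul_nonneg hη0.le hη0.le)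
        have d3 : y * ((1 - η) * (1 - η)) = y - 2 * (y * η) + y * (η * η) := by ring
        linarith
      calc (y - ε) * A.D x ≤ (y * ((1 - η) * (1 - η))) * A.D x :=
            mul_le_mul_of_nonneg_right c1 hApos.le
        _ = y * ((1 - η) * ((1 - η) * A.D x)) := by ring
    have b7 : (1 - x) * mu D t i ≤ (1 - x) * (e + mu D t i) :=
      mul_le_mul_of_nonneg_left (by linarith) (by linarith [hx01.2])
    linarith

namespace Apx

variable {ε : ℝ} {F : Finset ℝ} {A : SD} {K : ℕ} {t : ℕ → ℝ} {e : ℝ}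
  (H : Apx D m ε F A K t e)
include H

theorem t_mono {i j : ℕ} (hij : i ≤ j) (hj : j ≤ K) : t i ≤ t j := mono_of_lt H.t_lt hij hj

theorem t_nonneg {i : ℕ} (hi : i ≤ K) : 0 ≤ t i := by
  rw [← H.t_zero]; exact H.t_mono (Nat.zero_le i) hi

theorem t_le {i : ℕ} (hi : i ≤ K) : t i ≤ A.T := by
  rw [← H.t_K]; exact H.t_mono hi le_rfl

/-- cell of a point, half open to the right -/
theorem cell {x : ℝ} (hx : x ∈ Ico (0 : ℝ) A.T) : ∃ i < K, x ∈ Ico (t i) (t (i + 1)) := by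
  classical
  have hex : ∃ j, x < t (j + 1) ∨ K ≤ j + 1 := ⟨K, Or.inr (by omega)⟩
  have hKp := H.K_pos
  have hlt : Nat.find hex < K := by
    by_contra hcon
    have hm : K - 1 < Nat.find hex := by omega
    have := Nat.find_min hex hm
    push Not at this
    omega
  refine ⟨Nat.find hex, hlt, ?_, ?_⟩
  · by_cases h0 : Nat.find hex = 0
    · rw [h0, H.t_zero]; exact hx.1
    · have := Nat.find_min hex (Nat.sub_lt (Nat.pos_of_ne_zero h0) one_pos)
      push Not at this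
      have h2 : Nat.find hex - 1 + 1 = Nat.find hex := by omega
      rw [h2] at this
      exact this.1
  · rcases Nat.find_spec hex with h1 | h1
    · exact h1
    · have h2 : Nat.find hex + 1 = K := by omega
      rw [h2, H.t_K]; exact hx.2

/-- cell of a point, half open to the left -/
theorem celll {x : ℝ} (hx : x ∈ Ioc (0 : ℝ) A.T) : ∃ i < K, x ∈ Ioc (t i) (t (i + 1)) := by
  classical
  have hex : ∃ j, x ≤ t (j + 1) ∨ K ≤ j + 1 := ⟨K, Or.inr (by omega)⟩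
  have hKp := H.K_pos
  have hlt : Nat.find hex < K := by
    by_contra hcon
    have hm : K - 1 < Nat.find hex := by omega
    have := Nat.find_min hex hm
    push Not at this
    omega
  refine ⟨Nat.find hex, hlt, ?_, ?_⟩
  · by_cases h0 : Nat.find hex = 0
    · rw [h0, H.t_zero]; exact hx.1
    · have := Nat.find_min hex (Nat.sub_lt (Nat.pos_of_ne_zero h0) one_pos)
      push Not at this
      have h2 : Nat.find hex - 1 + 1 = Nat.find hex := by omega
      rw [h2] at this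
      exact this.1
  · rcases Nat.find_spec hex with h1 | h1
    · exact h1
    · have h2 : Nat.find hex + 1 = K := by omega
      rw [h2, H.t_K]; exact hx.2

/-- a grid point to the left of `x` is to the left of its cell -/
theorem le_left {j i : ℕ} (hj : j ≤ K) (hi : i < K) {x : ℝ} (h1 : t j ≤ x) (h2 : x < t (i + 1)) :
    t j ≤ t i := by
  refine H.t_mono ?_ hi.le
  by_contra hcon
  have := H.t_mono (i := i + 1) (j := j) (by omega) hj
  linarith

theorem le_left' {j i : ℕ} (hj : j ≤ K) (hi : i < K) {x : ℝ} (h1 : t j < x) (h2 : x ≤ t (i + 1)) :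
    t j ≤ t i := by
  refine H.t_mono ?_ hi.le
  by_contra hcon
  have := H.t_mono (i := i + 1) (j := j) (by omega) hj
  linarith

/-- a grid point to the right of `x` is to the right of its cell -/
theorem right_le {j i : ℕ} (hi : i < K) {x : ℝ} (h1 : x < t j) (h2 : t i ≤ x) :
    t (i + 1) ≤ t j ∨ K < j := by
  rcases Nat.lt_or_ge K j with h3 | h3
  · exact Or.inr h3
  · left
    refine H.t_mono ?_ h3
    by_contra hcon
    have := H.t_mono (i := j) (j := i) (by omega) hi.le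
    linarith

theorem grid0 {t0 : ℝ} (h1 : t0 ∈ Ico (0 : ℝ) 1) (h0 : t0 = 0 ∨ t0 ∈ F) : ∃ j ≤ K, t j = t0 := by
  rcases h0 with h | h
  · exact ⟨0, Nat.zero_le _, by rw [H.t_zero, h]⟩
  · exact H.F_mem t0 h h1.2

/-- **(f)**, upper window -/
theorem m_win_up {t0 : ℝ} (h1 : t0 ∈ Ico (0 : ℝ) 1) (h0 : t0 = 0 ∨ t0 ∈ F) {y : ℝ}
    (hy : ∀ x ∈ Ico t0 1, m x * Ks D x ≤ y) {x : ℝ} (hx : x ∈ Ico t0 A.T) :
    A.m x * A.K0 x ≤ y + ε := by
  obtain ⟨i, hi, hxi⟩ := H.cell (x := x) ⟨h1.1.trans hx.1, hx.2⟩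
  obtain ⟨j, hj, hjt⟩ := H.grid0 h1 h0
  rw [H.m_eq i hi x hxi]
  refine H.win_up t0 h1 y hy i hi ?_ x ⟨hxi.1, hxi.2.le⟩
  rw [← hjt]
  exact H.le_left hj hi (hjt.le.trans hx.1) hxi.2

theorem ml_win_up {t0 : ℝ} (h1 : t0 ∈ Ico (0 : ℝ) 1) (h0 : t0 = 0 ∨ t0 ∈ F) {y : ℝ}
    (hy : ∀ x ∈ Ico t0 1, m x * Ks D x ≤ y) {x : ℝ} (hx : x ∈ Ioc t0 A.T) :
    A.ml x * A.K0 x ≤ y + ε := by
  obtain ⟨i, hi, hxi⟩ := H.celll (x := x) ⟨h1.1.trans_lt hx.1, hx.2⟩
  obtain ⟨j, hj, hjt⟩ := H.grid0 h1 h0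
  rw [H.ml_eq i hi x hxi]
  refine H.win_up t0 h1 y hy i hi ?_ x ⟨hxi.1.le, hxi.2⟩
  rw [← hjt]
  exact H.le_left' hj hi (hjt.le.trans_lt hx.1) hxi.2

/-- **(f)**, lower window -/
theorem m_win_lo {t0 : ℝ} (h1 : t0 ∈ Ico (0 : ℝ) 1) (h0 : t0 = 0 ∨ t0 ∈ F) {y : ℝ}
    (hy : ∀ x ∈ Ico t0 1, y ≤ m x * Ks D x) {x : ℝ} (hx : x ∈ Icc t0 (1 - ε)) :
    y - ε ≤ A.m x * A.K0 x := by
  obtain ⟨i, hi, hxi⟩ := H.cell (x := x) ⟨h1.1.trans hx.1, hx.2.trans_lt H.T_gt⟩
  obtain ⟨j, hj, hjt⟩ := H.grid0 h1 h0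
  rw [H.m_eq i hi x hxi]
  refine H.win_lo t0 h1 y hy i hi ?_ (hxi.1.trans hx.2) x ⟨hxi.1, hxi.2.le⟩
  rw [← hjt]
  exact H.le_left hj hi (hjt.le.trans hx.1) hxi.2

theorem ml_win_lo {t0 : ℝ} (h1 : t0 ∈ Ico (0 : ℝ) 1) (h0 : t0 = 0 ∨ t0 ∈ F) {y : ℝ}
    (hy : ∀ x ∈ Ico t0 1, y ≤ m x * Ks D x) {x : ℝ} (hx : x ∈ Ioc t0 (1 - ε)) :
    y - ε ≤ A.ml x * A.K0 x := by
  obtain ⟨i, hi, hxi⟩ := H.celll (x := x) ⟨h1.1.trans_lt hx.1, hx.2.trans H.T_gt.le⟩
  obtain ⟨j, hj, hjt⟩ := H.grid0 h1 h0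
  rw [H.ml_eq i hi x hxi]
  refine H.win_lo t0 h1 y hy i hi ?_ (hxi.1.le.trans hx.2) x ⟨hxi.1.le, hxi.2⟩
  rw [← hjt]
  exact H.le_left' hj hi (hjt.le.trans_lt hx.1) hxi.2

/-- upper window with a moving left end (no condition on grid points) -/
theorem m_win_up' {t0 t0' : ℝ} (h1 : t0 ∈ Ico (0 : ℝ) 1) (h2 : t0 + ε ≤ t0') {y : ℝ}
    (hy : ∀ x ∈ Ico t0 1, m x * Ks D x ≤ y) {x : ℝ} (hx : x ∈ Ico t0' A.T) :
    A.m x * A.K0 x ≤ y + ε := by
  have hε : 0 < ε := H.e_pos.trans_le H.e_le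
  obtain ⟨i, hi, hxi⟩ := H.cell (x := x) ⟨by linarith [h1.1, hx.1], hx.2⟩
  rw [H.m_eq i hi x hxi]
  refine H.win_up t0 h1 y hy i hi ?_ x ⟨hxi.1, hxi.2.le⟩
  linarith [H.mesh i hi, hxi.2, hx.1]

theorem ml_win_up' {t0 t0' : ℝ} (h1 : t0 ∈ Ico (0 : ℝ) 1) (h2 : t0 + ε ≤ t0') {y : ℝ}
    (hy : ∀ x ∈ Ico t0 1, m x * Ks D x ≤ y) {x : ℝ} (hx : x ∈ Icc t0' A.T) :
    A.ml x * A.K0 x ≤ y + ε := by
  have hε : 0 < ε := H.e_pos.trans_le H.e_le
  obtain ⟨i, hi, hxi⟩ := H.celll (x := x) ⟨by linarith [h1.1, hx.1], hx.2⟩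
  rw [H.ml_eq i hi x hxi]
  refine H.win_up t0 h1 y hy i hi ?_ x ⟨hxi.1.le, hxi.2⟩
  linarith [H.mesh i hi, hxi.2, hx.1]

theorem m_win_lo' {t0 t0' : ℝ} (h1 : t0 ∈ Ico (0 : ℝ) 1) (h2 : t0 + ε ≤ t0') {y : ℝ}
    (hy : ∀ x ∈ Ico t0 1, y ≤ m x * Ks D x) {x : ℝ} (hx : x ∈ Icc t0' (1 - ε)) :
    y - ε ≤ A.m x * A.K0 x := by
  have hε : 0 < ε := H.e_pos.trans_le H.e_le
  obtain ⟨i, hi, hxi⟩ := H.cell (x := x) ⟨by linarith [h1.1, hx.1], hx.2.trans_lt H.T_gt⟩
  rw [H.m_eq i hi x hxi]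
  refine H.win_lo t0 h1 y hy i hi ?_ (hxi.1.trans hx.2) x ⟨hxi.1, hxi.2.le⟩
  linarith [H.mesh i hi, hxi.2, hx.1]

theorem ml_win_lo' {t0 t0' : ℝ} (h1 : t0 ∈ Ico (0 : ℝ) 1) (h2 : t0 + ε ≤ t0') {y : ℝ}
    (hy : ∀ x ∈ Ico t0 1, y ≤ m x * Ks D x) {x : ℝ} (hx : x ∈ Icc t0' (1 - ε)) :
    y - ε ≤ A.ml x * A.K0 x := by
  have hε : 0 < ε := H.e_pos.trans_le H.e_le
  obtain ⟨i, hi, hxi⟩ := H.celll (x := x) ⟨by linarith [h1.1, hx.1], hx.2.trans H.T_gt.le⟩
  rw [H.ml_eq i hi x hxi]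
  refine H.win_lo t0 h1 y hy i hi ?_ (hxi.1.le.trans hx.2) x ⟨hxi.1.le, hxi.2⟩
  linarith [H.mesh i hi, hxi.2, hx.1]

/-- old clock, upper window: `(1 - x) b ≤ y + ε` -/
theorem b_win_up {t0 t0' : ℝ} (h1 : t0 ∈ Ico (0 : ℝ) 1) (h2 : t0 + ε ≤ t0') {y : ℝ} (hy0 : 0 ≤ y)
    (hy : ∀ x ∈ Ico t0 1, (1 - x) * m x ≤ y * D x) {x : ℝ} (hx : x ∈ Icc t0' 1) :
    (1 - x) * A.b x ≤ y + ε := by
  have hε : 0 < ε := H.e_pos.trans_le H.e_le
  unfold SD.b
  rw [← mul_div_assoc, div_le_iff₀ (A.D_pos x)]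
  rcases le_or_gt A.T x with h3 | h3
  · have : A.m x = 0 := mrc_right A.hv h3
    rw [this, mul_zero]
    exact mul_nonneg (by linarith) (A.D_pos x).le
  · obtain ⟨i, hi, hxi⟩ := H.cell (x := x) ⟨by linarith [h1.1, hx.1], h3⟩
    rw [H.m_eq i hi x hxi]
    refine H.nu_up t0 h1 y hy i hi ?_ x ⟨hxi.1, hxi.2.le⟩
    linarith [H.mesh i hi, hxi.2, hx.1]

theorem bl_win_up {t0 t0' : ℝ} (h1 : t0 ∈ Ico (0 : ℝ) 1) (h2 : t0 + ε ≤ t0') {y : ℝ} (hy0 : 0 ≤ y)
    (hy : ∀ x ∈ Ico t0 1, (1 - x) * m x ≤ y * D x) {x : ℝ} (hx : x ∈ Icc t0' 1) :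
    (1 - x) * A.bl x ≤ y + ε := by
  have hε : 0 < ε := H.e_pos.trans_le H.e_le
  unfold SD.bl
  rw [← mul_div_assoc, div_le_iff₀ (A.D_pos x)]
  rcases lt_or_ge A.T x with h3 | h3
  · have : A.ml x = 0 := mlc_right A.hv h3
    rw [this, mul_zero]
    exact mul_nonneg (by linarith) (A.D_pos x).le
  · obtain ⟨i, hi, hxi⟩ := H.celll (x := x) ⟨by linarith [h1.1, hx.1], h3⟩
    rw [H.ml_eq i hi x hxi]
    refine H.nu_up t0 h1 y hy i hi ?_ x ⟨hxi.1.le, hxi.2⟩
    linarith [H.mesh i hi, hxi.2, hx.1]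

/-- old clock, lower window: `y - ε ≤ (1 - x) b` -/
theorem b_win_lo {t0 t0' : ℝ} (h1 : t0 ∈ Ico (0 : ℝ) 1) (h2 : t0 + ε ≤ t0') {y : ℝ}
    (hy : ∀ x ∈ Ico t0 1, y * D x ≤ (1 - x) * m x) {x : ℝ} (hx : x ∈ Icc t0' (1 - ε)) :
    y - ε ≤ (1 - x) * A.b x := by
  have hε : 0 < ε := H.e_pos.trans_le H.e_le
  unfold SD.b
  rw [← mul_div_assoc, le_div_iff₀ (A.D_pos x)]
  obtain ⟨i, hi, hxi⟩ := H.cell (x := x) ⟨by linarith [h1.1, hx.1], hx.2.trans_lt H.T_gt⟩
  rw [H.m_eq i hi x hxi]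
  refine H.nu_lo t0 h1 y hy i hi ?_ (hxi.1.trans hx.2) x ⟨hxi.1, hxi.2.le⟩
  linarith [H.mesh i hi, hxi.2, hx.1]

theorem bl_win_lo {t0 t0' : ℝ} (h1 : t0 ∈ Ico (0 : ℝ) 1) (h2 : t0 + ε ≤ t0') {y : ℝ}
    (hy : ∀ x ∈ Ico t0 1, y * D x ≤ (1 - x) * m x) {x : ℝ} (hx : x ∈ Icc t0' (1 - ε)) :
    y - ε ≤ (1 - x) * A.bl x := by
  have hε : 0 < ε := H.e_pos.trans_le H.e_le
  unfold SD.bl
  rw [← mul_div_assoc, le_div_iff₀ (A.D_pos x)]
  obtain ⟨i, hi, hxi⟩ := H.celll (x := x) ⟨by linarith [h1.1, hx.1], hx.2.trans H.T_gt.le⟩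
  rw [H.ml_eq i hi x hxi]
  refine H.nu_lo t0 h1 y hy i hi ?_ (hxi.1.le.trans hx.2) x ⟨hxi.1.le, hxi.2⟩
  linarith [H.mesh i hi, hxi.2, hx.1]

/-- **(g)** -/
theorem b_le {x : ℝ} (hx : x ∈ Icc (0 : ℝ) 1) : (1 - x) * A.b x ≤ 1 := by
  unfold SD.b
  rw [← mul_div_assoc, div_le_one (A.D_pos x)]
  rcases le_or_gt A.T x with h1 | h1
  · have : A.m x = 0 := mrc_right A.hv h1
    rw [this, mul_zero]
    exact (A.D_pos x).le
  · obtain ⟨i, hi, hxi⟩ := H.cell (x := x) ⟨hx.1, h1⟩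
    rw [H.m_eq i hi x hxi]
    exact H.apri i hi x ⟨hxi.1, hxi.2.le⟩

theorem bl_le {x : ℝ} (hx : x ∈ Ioc (0 : ℝ) 1) : (1 - x) * A.bl x ≤ 1 := by
  unfold SD.bl
  rw [← mul_div_assoc, div_le_one (A.D_pos x)]
  rcases lt_or_ge A.T x with h1 | h1
  · have : A.ml x = 0 := mlc_right A.hv h1
    rw [this, mul_zero]
    exact (A.D_pos x).le
  · obtain ⟨i, hi, hxi⟩ := H.celll (x := x) ⟨hx.1, h1⟩
    rw [H.ml_eq i hi x hxi]
    exact H.apri i hi x ⟨hxi.1.le, hxi.2⟩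

/-- the weight is bounded below by `e` and nondecreasing on `[0,T)` -/
theorem e_le_m {x : ℝ} (hx : x ∈ Ico (0 : ℝ) A.T) : e ≤ A.m x := by
  obtain ⟨i, hi, hxi⟩ := H.cell hx
  rw [H.m_eq i hi x hxi]
  linarith [H.mu_nonneg i hi]

theorem m_mono {x y : ℝ} (hx : 0 ≤ x) (hxy : x ≤ y) (hy : y < A.T) : A.m x ≤ A.m y := by
  obtain ⟨i, hi, hxi⟩ := H.cell (x := x) ⟨hx, hxy.trans_lt hy⟩
  obtain ⟨j, hj, hyj⟩ := H.cell (x := y) ⟨hx.trans hxy, hy⟩
  rw [H.m_eq i hi x hxi, H.m_eq j hj y hyj]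
  have : i ≤ j := by
    by_contra hcon
    have := H.t_mono (i := j + 1) (j := i) (by omega) hi.le
    linarith [hxi.1, hyj.2]
  linarith [H.mu_mono i j this hj]

/-- **(c)**: on an interval with ends in `F ∪ {0}` where `D` is affine with slope `-z`, the weight
is `z + e` -/
theorem m_affine {a b z : ℝ} (ha : a ∈ Ico (0 : ℝ) 1) (ha0 : a = 0 ∨ a ∈ F)
    (hb : b ∈ Ico (0 : ℝ) 1) (hbF : b ∈ F) (haf : ∀ x ∈ Icc a b, D x = D b + z * (b - x)) {x : ℝ}
    (hx : x ∈ Ico a b) : A.m x = z + e := by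
  obtain ⟨j, hj, hjt⟩ := H.grid0 ha ha0
  obtain ⟨l, hl, hlt⟩ := H.grid0 hb (Or.inr hbF)
  have hbT : b ≤ A.T := by rw [← hlt]; exact H.t_le hl
  obtain ⟨i, hi, hxi⟩ := H.cell (x := x) ⟨ha.1.trans hx.1, hx.2.trans_le hbT⟩
  rw [H.m_eq i hi x hxi]
  have h1 : a ≤ t i := by
    rw [← hjt]
    exact H.le_left hj hi (hjt.le.trans hx.1) hxi.2
  have h2 : t (i + 1) ≤ b := by
    rcases H.right_le (j := l) hi (hx.2.trans_le hlt.ge) hxi.1 with h | h
    · rwa [hlt] at h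
    · omega
  have h3 := H.t_lt i hi
  have h4 : mu D t i = z := by
    unfold mu
    rw [haf (t i) ⟨h1, h3.le.trans h2⟩, haf (t (i + 1)) ⟨h1.trans h3.le, h2⟩,
      div_eq_iff (sub_ne_zero.2 h3.ne')]
    ring
  rw [h4, add_comm]

theorem ml_affine {a b z : ℝ} (ha : a ∈ Ico (0 : ℝ) 1) (ha0 : a = 0 ∨ a ∈ F)
    (hb : b ∈ Ico (0 : ℝ) 1) (hbF : b ∈ F) (haf : ∀ x ∈ Icc a b, D x = D b + z * (b - x)) {x : ℝ}
    (hx : x ∈ Ioc a b) : A.ml x = z + e := by
  obtain ⟨j, hj, hjt⟩ := H.grid0 ha ha0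
  obtain ⟨l, hl, hlt⟩ := H.grid0 hb (Or.inr hbF)
  have hbT : b ≤ A.T := by rw [← hlt]; exact H.t_le hl
  obtain ⟨i, hi, hxi⟩ := H.celll (x := x) ⟨ha.1.trans_lt hx.1, hx.2.trans hbT⟩
  rw [H.ml_eq i hi x hxi]
  have h1 : a ≤ t i := by
    rw [← hjt]
    exact H.le_left' hj hi (hjt.le.trans_lt hx.1) hxi.2
  have h3 := H.t_lt i hi
  have h2 : t (i + 1) ≤ b := by
    rw [← hlt]
    refine H.t_mono ?_ hl
    by_contra hcon
    have := H.t_mono (i := l) (j := i) (by omega) hi.le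
    linarith [hxi.1, hx.2]
  have h4 : mu D t i = z := by
    unfold mu
    rw [haf (t i) ⟨h1, h3.le.trans h2⟩, haf (t (i + 1)) ⟨h1.trans h3.le, h2⟩,
      div_eq_iff (sub_ne_zero.2 h3.ne')]
    ring
  rw [h4, add_comm]

/-- the weight at `x` is between `m` at the left and right ends of its cell; in particular
`m (x - ε) ≤ A.m x ≤ m (x + ε) + ε` -/
theorem le_m_of (hm : IsProf D m) {x y : ℝ} (hx : x ∈ Ico (0 : ℝ) A.T) (hy0 : 0 ≤ y)
    (hy : y ≤ x - ε) : m y ≤ A.m x := by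
  obtain ⟨i, hi, hxi⟩ := H.cell hx
  rw [H.m_eq i hi x hxi]
  have h1 := H.mesh i hi
  have h2 := H.le_mu i hi
  have h3 := H.e_pos
  have h4 : m y ≤ m (t i) := hm.mono ⟨hy0, by linarith [hxi.2, hx.2, A.hT1, H.e_le]⟩
    ⟨H.t_nonneg hi.le, (H.t_le hi.le).trans_lt A.hT1⟩ (by linarith [hxi.2])
  linarith

theorem m_le_of (hm : IsProf D m) {x y : ℝ} (hx : x ∈ Ico (0 : ℝ) A.T) (hy1 : y < 1)
    (hy : x + ε ≤ y) : A.m x ≤ m y + ε := by
  obtain ⟨i, hi, hxi⟩ := H.cell hx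
  rw [H.m_eq i hi x hxi]
  have h1 := H.mesh i hi
  have h2 := H.mu_le i hi
  have h3 := H.e_le
  have h4 : m (t (i + 1)) ≤ m y := hm.mono
    ⟨H.t_nonneg (i := i + 1) hi, (H.t_le (i := i + 1) hi).trans_lt A.hT1⟩
    ⟨by linarith [hx.1, H.e_pos, H.e_le], hy1⟩ (by linarith [hxi.1])
  linarith

end Apx

/-- a slope that is constant on `[a,b)` gives an affine piece -/
theorem affine_of_const (h : IsProf D m) {a b z : ℝ} (ha : 0 ≤ a) (hb : b ≤ 1)
    (hz : ∀ x ∈ Ico a b, m x = z) : ∀ x ∈ Icc a b, D x = D b + z * (b - x) := by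
  intro x hx
  have hx0 : 0 ≤ x := ha.trans hx.1
  have h1 := h.le_sub (c := z) hx0 hx.2 hb fun y hy => (hz y ⟨hx.1.trans hy.1, hy.2⟩).ge
  have h2 := h.sub_le (c := z) hx0 hx.2 hb fun y hy => (hz y ⟨hx.1.trans hy.1, hy.2⟩).le
  linarith

/-- **sequence form** -/
theorem exists_seq (h : IsProf D m) (hpos : ∀ x ∈ Ico (0 : ℝ) 1, 0 < D x)
    (hint : IntervalIntegrable (fun x => (D x)⁻¹) volume 0 1) (F : Finset ℝ)
    (hF : ∀ x ∈ F, x ∈ Icc (0 : ℝ) 1) :
    ∃ (A : ℕ → SD) (K : ℕ → ℕ) (t : ℕ → ℕ → ℝ) (e : ℕ → ℝ),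
      ∀ n : ℕ, Apx D m (1 / ((n : ℝ) + 1)) F (A n) (K n) (t n) (e n) := by
  have h1 : ∀ n : ℕ, ∃ (A : SD) (K : ℕ) (t : ℕ → ℝ) (e : ℝ),
      Apx D m (1 / ((n : ℝ) + 1)) F A K t e := fun n =>
    exists_SD h hpos hint (by positivity) F hF
  choose A K t e h2 using h1
  exact ⟨A, K, t, e, h2⟩

/-- **sequence form**, growing finite sets -/
theorem exists_seq' (h : IsProf D m) (hpos : ∀ x ∈ Ico (0 : ℝ) 1, 0 < D x)
    (hint : IntervalIntegrable (fun x => (D x)⁻¹) volume 0 1) (F : ℕ → Finset ℝ)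
    (hF : ∀ n, ∀ x ∈ F n, x ∈ Icc (0 : ℝ) 1) :
    ∃ (A : ℕ → SD) (K : ℕ → ℕ) (t : ℕ → ℕ → ℝ) (e : ℕ → ℝ),
      ∀ n : ℕ, Apx D m (1 / ((n : ℝ) + 1)) (F n) (A n) (K n) (t n) (e n) := by
  have h1 : ∀ n : ℕ, ∃ (A : SD) (K : ℕ) (t : ℕ → ℝ) (e : ℝ),
      Apx D m (1 / ((n : ℝ) + 1)) (F n) A K t e := fun n =>
    exists_SD h hpos hint (by positivity) (F n) (hF n)
  choose A K t e h2 using h1
  exact ⟨A, K, t, e, h2⟩

section limits

open Filter Topology

variable {ε : ℕ → ℝ} {F : ℕ → Finset ℝ} {A : ℕ → SD} {K : ℕ → ℕ} {t : ℕ → ℕ → ℝ} {e : ℕ → ℝ}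
  (H : ∀ n, Apx D m (ε n) (F n) (A n) (K n) (t n) (e n)) (hε : Tendsto ε atTop (𝓝 0))
include H hε

theorem tendsto_T : Tendsto (fun n => (A n).T) atTop (𝓝 1) := by
  have h1 : Tendsto (fun n => 1 - ε n) atTop (𝓝 (1 - 0)) := tendsto_const_nhds.sub hε
  rw [sub_zero] at h1
  exact tendsto_of_tendsto_of_tendsto_of_le_of_le h1 tendsto_const_nhds
    (fun n => (H n).T_gt.le) (fun n => (A n).hT1.le)

theorem tendsto_e : Tendsto e atTop (𝓝 0) :=
  tendsto_of_tendsto_of_tendsto_of_le_of_le tendsto_const_nhds hε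
    (fun n => (H n).e_pos.le) (fun n => (H n).e_le)

theorem tendsto_D {x : ℝ} (hx : x ∈ Icc (0 : ℝ) 1) :
    Tendsto (fun n => (A n).D x) atTop (𝓝 (D x)) := by
  have h1 : Tendsto (fun n => D x + ε n) atTop (𝓝 (D x + 0)) := tendsto_const_nhds.add hε
  rw [add_zero] at h1
  exact tendsto_of_tendsto_of_tendsto_of_le_of_le tendsto_const_nhds h1
    (fun n => (H n).D_le x hx) (fun n => (H n).le_D x hx)

theorem tendsto_K0 {x : ℝ} (hx : x ∈ Icc (0 : ℝ) 1) :
    Tendsto (fun n => (A n).K0 x) atTop (𝓝 (Ks D x)) := by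
  have h1 : Tendsto (fun n => Ks D x - ε n) atTop (𝓝 (Ks D x - 0)) := tendsto_const_nhds.sub hε
  rw [sub_zero] at h1
  exact tendsto_of_tendsto_of_tendsto_of_le_of_le h1 tendsto_const_nhds
    (fun n => (H n).le_K0 x hx) (fun n => (H n).K0_le x hx)

/-- the weights converge at every continuity point of `m` -/
theorem tendsto_m (hm : IsProf D m) {x : ℝ} (hx : x ∈ Ioo (0 : ℝ) 1) (hc : ContinuousAt m x) :
    Tendsto (fun n => (A n).m x) atTop (𝓝 (m x)) := by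
  have h1 : Tendsto (fun n => m (x - ε n)) atTop (𝓝 (m x)) := by
    have h2 : Tendsto (fun n => x - ε n) atTop (𝓝 (x - 0)) := tendsto_const_nhds.sub hε
    rw [sub_zero] at h2
    exact hc.tendsto.comp h2
  have h3 : Tendsto (fun n => m (x + ε n) + ε n) atTop (𝓝 (m x + 0)) := by
    have h2 : Tendsto (fun n => x + ε n) atTop (𝓝 (x + 0)) := tendsto_const_nhds.add hε
    rw [add_zero] at h2
    exact (hc.tendsto.comp h2).add hε
  rw [add_zero] at h3
  have h4 : ∀ᶠ n in atTop, x < (A n).T := (tendsto_T H hε).eventually (lt_mem_nhds hx.2)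
  have h5 : ∀ᶠ n in atTop, ε n < min x (1 - x) :=
    hε.eventually (gt_mem_nhds (lt_min hx.1 (by linarith [hx.2])))
  refine tendsto_of_tendsto_of_tendsto_of_le_of_le' h1 h3 ?_ ?_
  · filter_upwards [h4, h5] with n hn hn'
    exact (H n).le_m_of hm ⟨hx.1.le, hn⟩ (by linarith [hn'.trans_le (min_le_left _ _)]) le_rfl
  · filter_upwards [h4, h5] with n hn hn'
    exact (H n).m_le_of hm ⟨hx.1.le, hn⟩ (by linarith [hn'.trans_le (min_le_right _ _)]) le_rfl

/-! ### windows of the sequence (STEP-WIN): moving left end, any `δ > 0` -/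

/-- upper window: eventually for all `x ∈ [t0', T_n)` -/
theorem ev_win_up {t0 t0' : ℝ} (h0 : 0 ≤ t0) (h01 : t0 < t0') (h1 : t0' < 1) {y : ℝ}
    (hy : ∀ x ∈ Ico t0 1, m x * Ks D x ≤ y) {δ : ℝ} (hδ : 0 < δ) :
    ∀ᶠ n in atTop, (∀ x ∈ Ico t0' (A n).T, (A n).m x * (A n).K0 x ≤ y + δ) ∧
      ∀ x ∈ Icc t0' (A n).T, (A n).ml x * (A n).K0 x ≤ y + δ := by
  have h5 : ∀ᶠ n in atTop, ε n < min δ (t0' - t0) :=
    hε.eventually (gt_mem_nhds (lt_min hδ (by linarith)))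
  filter_upwards [h5] with n hn
  have h6 : ε n < δ := hn.trans_le (min_le_left _ _)
  have h7 : ε n < t0' - t0 := hn.trans_le (min_le_right _ _)
  refine ⟨fun x hx => ?_, fun x hx => ?_⟩
  · have := (H n).m_win_up' ⟨h0, by linarith⟩ (by linarith) hy hx
    linarith
  · have := (H n).ml_win_up' ⟨h0, by linarith⟩ (by linarith) hy hx
    linarith

/-- lower window: eventually for all `x ∈ [t0', q]`, `q < 1` -/
theorem ev_win_lo {t0 t0' q : ℝ} (h0 : 0 ≤ t0) (h01 : t0 < t0') (h1 : t0' < 1) (hq : q < 1) {y : ℝ}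
    (hy : ∀ x ∈ Ico t0 1, y ≤ m x * Ks D x) {δ : ℝ} (hδ : 0 < δ) :
    ∀ᶠ n in atTop, ∀ x ∈ Icc t0' q, y - δ ≤ (A n).m x * (A n).K0 x ∧
      y - δ ≤ (A n).ml x * (A n).K0 x := by
  have h5 : ∀ᶠ n in atTop, ε n < min (min δ (1 - q)) (t0' - t0) :=
    hε.eventually (gt_mem_nhds (lt_min (lt_min hδ (by linarith)) (by linarith)))
  filter_upwards [h5] with n hn x hx
  have h6 : ε n < δ := hn.trans_le ((min_le_left _ _).trans (min_le_left _ _))
  have h8 : ε n < 1 - q := hn.trans_le ((min_le_left _ _).trans (min_le_right _ _))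
  have h7 : ε n < t0' - t0 := hn.trans_le (min_le_right _ _)
  have h9 : x ∈ Icc t0' (1 - ε n) := ⟨hx.1, by linarith [hx.2]⟩
  refine ⟨?_, ?_⟩
  · have := (H n).m_win_lo' ⟨h0, by linarith⟩ (by linarith) hy h9
    linarith
  · have := (H n).ml_win_lo' ⟨h0, by linarith⟩ (by linarith) hy h9
    linarith

/-- old clock: upper window on `[t0', 1]` -/
theorem ev_b_up {t0 t0' : ℝ} (h0 : 0 ≤ t0) (h01 : t0 < t0') (h1 : t0' < 1) {y : ℝ} (hy0 : 0 ≤ y)
    (hy : ∀ x ∈ Ico t0 1, (1 - x) * m x ≤ y * D x) {δ : ℝ} (hδ : 0 < δ) :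
    ∀ᶠ n in atTop, ∀ x ∈ Icc t0' 1, (1 - x) * (A n).b x ≤ y + δ ∧ (1 - x) * (A n).bl x ≤ y + δ := by
  have h5 : ∀ᶠ n in atTop, ε n < min δ (t0' - t0) :=
    hε.eventually (gt_mem_nhds (lt_min hδ (by linarith)))
  filter_upwards [h5] with n hn x hx
  have h6 : ε n < δ := hn.trans_le (min_le_left _ _)
  have h7 : ε n < t0' - t0 := hn.trans_le (min_le_right _ _)
  refine ⟨?_, ?_⟩
  · have := (H n).b_win_up ⟨h0, by linarith⟩ (by linarith) hy0 hy hx
    linarith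
  · have := (H n).bl_win_up ⟨h0, by linarith⟩ (by linarith) hy0 hy hx
    linarith

/-- old clock: lower window on `[t0', q]`, `q < 1` -/
theorem ev_b_lo {t0 t0' q : ℝ} (h0 : 0 ≤ t0) (h01 : t0 < t0') (h1 : t0' < 1) (hq : q < 1) {y : ℝ}
    (hy : ∀ x ∈ Ico t0 1, y * D x ≤ (1 - x) * m x) {δ : ℝ} (hδ : 0 < δ) :
    ∀ᶠ n in atTop, ∀ x ∈ Icc t0' q, y - δ ≤ (1 - x) * (A n).b x ∧
      y - δ ≤ (1 - x) * (A n).bl x := by
  have h5 : ∀ᶠ n in atTop, ε n < min (min δ (1 - q)) (t0' - t0) :=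
    hε.eventually (gt_mem_nhds (lt_min (lt_min hδ (by linarith)) (by linarith)))
  filter_upwards [h5] with n hn x hx
  have h6 : ε n < δ := hn.trans_le ((min_le_left _ _).trans (min_le_left _ _))
  have h8 : ε n < 1 - q := hn.trans_le ((min_le_left _ _).trans (min_le_right _ _))
  have h7 : ε n < t0' - t0 := hn.trans_le (min_le_right _ _)
  have h9 : x ∈ Icc t0' (1 - ε n) := ⟨hx.1, by linarith [hx.2]⟩
  refine ⟨?_, ?_⟩
  · have := (H n).b_win_lo ⟨h0, by linarith⟩ (by linarith) hy h9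
    linarith
  · have := (H n).bl_win_lo ⟨h0, by linarith⟩ (by linarith) hy h9
    linarith

/-- nearness: for `x < x'` in `[0,1)`: eventually `m y ≤ (A n).m x'` for `y ≤ x` and
`(A n).m x ≤ m x' + δ` -/
theorem ev_near (hm : IsProf D m) {x x' : ℝ} (hx : 0 ≤ x) (hxx : x < x') (hx' : x' < 1) {δ : ℝ}
    (hδ : 0 < δ) : ∀ᶠ n in atTop, m x ≤ (A n).m x' ∧ (A n).m x ≤ m x' + δ := by
  have h4 : ∀ᶠ n in atTop, x' < (A n).T := (tendsto_T H hε).eventually (lt_mem_nhds hx')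
  have h5 : ∀ᶠ n in atTop, ε n < min δ (x' - x) :=
    hε.eventually (gt_mem_nhds (lt_min hδ (by linarith)))
  filter_upwards [h4, h5] with n hn hn'
  have h6 : ε n < δ := hn'.trans_le (min_le_left _ _)
  have h7 : ε n < x' - x := hn'.trans_le (min_le_right _ _)
  refine ⟨(H n).le_m_of hm ⟨by linarith, hn⟩ hx (by linarith), ?_⟩
  have := (H n).m_le_of hm ⟨hx, by linarith⟩ hx' (by linarith : x + ε n ≤ x')
  linarith

/-- the weights are bounded uniformly in `n` on every `[0,q]`, `q < 1` -/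
theorem ev_m_le (hm : IsProf D m) {q q' : ℝ} (hqq : q < q') (hq' : q' < 1) {δ : ℝ} (hδ : 0 < δ) :
    ∀ᶠ n in atTop, ∀ x ∈ Icc 0 q, (A n).m x ≤ m q' + δ := by
  have h4 : ∀ᶠ n in atTop, q < (A n).T :=
    (tendsto_T H hε).eventually (lt_mem_nhds (by linarith))
  have h5 : ∀ᶠ n in atTop, ε n < min δ (q' - q) :=
    hε.eventually (gt_mem_nhds (lt_min hδ (by linarith)))
  filter_upwards [h4, h5] with n hn hn' x hx
  have h6 : ε n < δ := hn'.trans_le (min_le_left _ _)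
  have h7 : ε n < q' - q := hn'.trans_le (min_le_right _ _)
  have := (H n).m_le_of hm ⟨hx.1, hx.2.trans_lt hn⟩ hq' (by linarith [hx.2])
  linarith

end limits

end main

end

end Crest.Agent.R146.StepApx_856
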