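import Crest.Agent.R146.StepDef_791

/-!
Row 146, PT-STEP, task 116 (helper900): `clock (A : SD) : Clock A` and elementary facts on the step
functions `A.m, A.ml, A.D, A.E, A.b, A.bl, A.K0, A.chi`.

Main names (all for `A : SD`, no side condition on `t` unless displayed):
* `right_struct A t`, `left_struct A t` : local structure (weights locally constant, `D` locally affine);
* `D_r, D_l, E_r, E_l, b_r, bl_l, chi_r, chi_l, K0_t` : one-sided derivatives at EVERY real `t`;
* `m_meas, ml_meas, m_bdd, ml_bdd, b_bdd, bl_bdd, m_intble`;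
* `D_cont, D_anti, E_cont, E_mono, K0_cont, K0_anti, chi_cont, chi_anti, D_le, D_sub_eq`;
* `D_of_ge, m_of_ge, ml_of_gt, m_of_neg, ml_of_nonpos, E_le, K0_of_ge, chi_of_ge, dl_le_chi`;
* `clock A : Clock A`.
-/

set_option autoImplicit false

namespace Crest.Agent.R146.StepClk_900

open MeasureTheory ProbabilityTheory Set Filter Topology
open Crest.Agent.R146.StepDef_791

noncomputable section

/-! ### Cells -/

theorem Dc_end : ∀ {cs : Cells} {T d : ℝ}, Valid T cs → Dc T d cs T = d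
  | [], _, _, _ => rfl
  | c :: cs, T, d, h => by
      unfold Dc
      rw [if_pos h.1.le, sub_self, mul_zero, add_zero]

theorem Dc_below {c : ℝ × ℝ} {cs : Cells} {T d t : ℝ} (h : Valid T (c :: cs)) (ht : t ≤ c.1) :
    Dc T d (c :: cs) t = Dc c.1 (d + c.2 * (T - c.1)) cs t := by
  rcases ht.lt_or_eq with ht | ht
  · rw [Dc, if_neg (not_le.2 ht)]
  · rw [ht, Dc, if_pos le_rfl, Dc_end h.2.2]

theorem mrc_ge : ∀ {cs : Cells} {T t : ℝ}, Valid T cs → T ≤ t → mrc T cs t = 0
  | [], _, _, _, _ => rfl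
  | c :: cs, T, t, h, ht => by
      unfold mrc
      rw [if_pos (h.1.le.trans ht), if_neg (not_lt.2 ht)]

theorem mlc_gt : ∀ {cs : Cells} {T t : ℝ}, Valid T cs → T < t → mlc T cs t = 0
  | [], _, _, _, _ => rfl
  | c :: cs, T, t, h, ht => by
      unfold mlc
      rw [if_pos (h.1.trans ht), if_neg (not_le.2 ht)]

theorem mrc_neg : ∀ {cs : Cells} {T t : ℝ}, Valid T cs → t < 0 → mrc T cs t = 0
  | [], _, _, _, _ => rfl
  | c :: cs, T, t, h, ht => by
      unfold mrc
      have h1 := h.2.2.nonneg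
      rw [if_neg (not_le.2 (ht.trans_le h1))]
      exact mrc_neg h.2.2 ht

theorem mlc_nonpos : ∀ {cs : Cells} {T t : ℝ}, Valid T cs → t ≤ 0 → mlc T cs t = 0
  | [], _, _, _, _ => rfl
  | c :: cs, T, t, h, ht => by
      unfold mlc
      have h1 := h.2.2.nonneg
      rw [if_neg (not_lt.2 (ht.trans h1))]
      exact mlc_nonpos h.2.2 ht

theorem mrc_pos : ∀ {cs : Cells} {T t : ℝ}, Valid T cs → 0 ≤ t → t < T → 0 < mrc T cs t
  | [], T, t, h, h0, ht => absurd (h0.trans_lt ht) (by rw [show T = 0 from h]; exact lt_irrefl _)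
  | c :: cs, T, t, h, h0, ht => by
      unfold mrc
      split_ifs with h1
      · exact h.2.1
      · exact mrc_pos h.2.2 h0 (not_le.1 h1)

theorem mlc_pos : ∀ {cs : Cells} {T t : ℝ}, Valid T cs → 0 < t → t ≤ T → 0 < mlc T cs t
  | [], T, t, h, h0, ht => absurd (h0.trans_le ht) (by rw [show T = 0 from h]; exact lt_irrefl _)
  | c :: cs, T, t, h, h0, ht => by
      unfold mlc
      split_ifs with h1
      · exact h.2.1
      · exact mlc_pos h.2.2 h0 (not_lt.1 h1)

theorem mrc_meas : ∀ (cs : Cells) (T : ℝ), Measurable (mrc T cs)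
  | [], _ => measurable_const
  | c :: cs, T => by
      have h : mrc T (c :: cs) = fun t => if c.1 ≤ t then (if t < T then c.2 else 0)
          else mrc c.1 cs t := by
        funext t; rfl
      rw [h]
      exact Measurable.ite measurableSet_Ici
        (Measurable.ite measurableSet_Iio measurable_const measurable_const) (mrc_meas cs c.1)

theorem mlc_meas : ∀ (cs : Cells) (T : ℝ), Measurable (mlc T cs)
  | [], _ => measurable_const
  | c :: cs, T => by
      have h : mlc T (c :: cs) = fun t => if c.1 < t then (if t ≤ T then c.2 else 0)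
          else mlc c.1 cs t := by
        funext t; rfl
      rw [h]
      exact Measurable.ite measurableSet_Ioi
        (Measurable.ite measurableSet_Iic measurable_const measurable_const) (mlc_meas cs c.1)

theorem mrc_bdd : ∀ (cs : Cells) (T : ℝ), ∃ M, 0 ≤ M ∧ ∀ t, |mrc T cs t| ≤ M
  | [], _ => ⟨0, le_rfl, fun t => by simp [mrc]⟩
  | c :: cs, T => by
      obtain ⟨M, hM, h⟩ := mrc_bdd cs c.1
      refine ⟨max |c.2| M, hM.trans (le_max_right _ _), fun t => ?_⟩
      unfold mrc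
      split_ifs with h1 h2
      · exact le_max_left _ _
      · rw [abs_zero]; exact hM.trans (le_max_right _ _)
      · exact (h t).trans (le_max_right _ _)

theorem mlc_bdd : ∀ (cs : Cells) (T : ℝ), ∃ M, 0 ≤ M ∧ ∀ t, |mlc T cs t| ≤ M
  | [], _ => ⟨0, le_rfl, fun t => by simp [mlc]⟩
  | c :: cs, T => by
      obtain ⟨M, hM, h⟩ := mlc_bdd cs c.1
      refine ⟨max |c.2| M, hM.trans (le_max_right _ _), fun t => ?_⟩
      unfold mlc
      split_ifs with h1 h2
      · exact le_max_left _ _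
      · rw [abs_zero]; exact hM.trans (le_max_right _ _)
      · exact (h t).trans (le_max_right _ _)

/-- local structure to the right of `t < T` -/
theorem right_cells : ∀ {cs : Cells} {T t : ℝ}, Valid T cs → t < T → ∃ η > 0, t + η ≤ T ∧
    (∀ s ∈ Ico t (t + η), mrc T cs s = mrc T cs t) ∧
    (∀ s ∈ Ioc t (t + η), mlc T cs s = mrc T cs t) ∧
    ∀ d, ∀ s ∈ Icc t (t + η), Dc T d cs s = Dc T d cs t - mrc T cs t * (s - t)
  | [], T, t, _, ht => by
      refine ⟨T - t, sub_pos.2 ht, by linarith, fun _ _ => rfl, fun _ _ => rfl, fun d s _ => ?_⟩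
      simp [Dc, mrc]
  | c :: cs, T, t, h, ht => by
      by_cases h1 : c.1 ≤ t
      · have hm : mrc T (c :: cs) t = c.2 := by rw [mrc, if_pos h1, if_pos ht]
        refine ⟨T - t, sub_pos.2 ht, by linarith, fun s hs => ?_, fun s hs => ?_, fun d s hs => ?_⟩
        · have hs2 : s < T := by have := hs.2; linarith
          rw [hm, mrc, if_pos (h1.trans hs.1), if_pos hs2]
        · have hs2 : s ≤ T := by have := hs.2; linarith
          rw [hm, mlc, if_pos (h1.trans_lt hs.1), if_pos hs2]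
        · rw [hm, Dc, if_pos (h1.trans hs.1), Dc, if_pos h1]
          ring
      · have h2 : t < c.1 := not_le.1 h1
        obtain ⟨η, hη, hT, hr, hl, hD⟩ := right_cells h.2.2 h2
        have hm : ∀ s, s < c.1 → mrc T (c :: cs) s = mrc c.1 cs s := fun s hs => by
          rw [mrc, if_neg (not_le.2 hs)]
        refine ⟨η, hη, hT.trans h.1.le, fun s hs => ?_, fun s hs => ?_, fun d s hs => ?_⟩
        · rw [hm s (hs.2.trans_le hT), hm t h2]
          exact hr s hs
        · rw [hm t h2, mlc, if_neg (not_lt.2 (hs.2.trans hT))]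
          exact hl s hs
        · rw [hm t h2, Dc_below h (hs.2.trans hT), Dc_below h h2.le]
          exact hD _ s hs

/-- local structure to the left of `t ≤ T` -/
theorem left_cells : ∀ {cs : Cells} {T t : ℝ}, Valid T cs → t ≤ T → ∃ η > 0,
    (∀ s ∈ Ioc (t - η) t, mlc T cs s = mlc T cs t) ∧
    (∀ s ∈ Ico (t - η) t, mrc T cs s = mlc T cs t) ∧
    ∀ d, ∀ s ∈ Icc (t - η) t, Dc T d cs s = Dc T d cs t + mlc T cs t * (t - s)
  | [], T, t, _, ht => by
      refine ⟨1, one_pos, fun _ _ => rfl, fun _ _ => rfl, fun d s _ => ?_⟩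
      simp [Dc, mlc]
  | c :: cs, T, t, h, ht => by
      by_cases h1 : c.1 < t
      · have hm : mlc T (c :: cs) t = c.2 := by rw [mlc, if_pos h1, if_pos ht]
        refine ⟨t - c.1, sub_pos.2 h1, fun s hs => ?_, fun s hs => ?_, fun d s hs => ?_⟩
        · have hs1 : c.1 < s := by have := hs.1; linarith
          rw [hm, mlc, if_pos hs1, if_pos (hs.2.trans ht)]
        · have hs1 : c.1 ≤ s := by have := hs.1; linarith
          rw [hm, mrc, if_pos hs1, if_pos (hs.2.trans_le ht)]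
        · have hs1 : c.1 ≤ s := by have := hs.1; linarith
          rw [hm, Dc, if_pos hs1, Dc, if_pos h1.le]
          ring
      · have h2 : t ≤ c.1 := not_lt.1 h1
        obtain ⟨η, hη, hl, hr, hD⟩ := left_cells h.2.2 h2
        have hm : ∀ s, s ≤ c.1 → mlc T (c :: cs) s = mlc c.1 cs s := fun s hs => by
          rw [mlc, if_neg (not_lt.2 hs)]
        refine ⟨η, hη, fun s hs => ?_, fun s hs => ?_, fun d s hs => ?_⟩
        · rw [hm s (hs.2.trans h2), hm t h2]
          exact hl s hs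
        · rw [hm t h2, mrc, if_neg (not_le.2 (hs.2.trans_le h2))]
          exact hr s hs
        · rw [hm t h2, Dc_below h (hs.2.trans h2), Dc_below h h2]
          exact hD _ s hs

variable (A : SD)

/-! ### Values outside `[0, T)` -/

theorem D_of_ge {t : ℝ} (ht : A.T ≤ t) : A.D t = A.d := by
  rcases ht.eq_or_lt with ht | ht
  · rw [← ht, SD.D, if_pos le_rfl, Dc_end A.hv]
  · rw [SD.D, if_neg (not_le.2 ht)]

theorem D_of_le {t : ℝ} (ht : t ≤ A.T) : A.D t = Dc A.T A.d A.cs t := by rw [SD.D, if_pos ht]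

theorem m_of_ge {t : ℝ} (ht : A.T ≤ t) : A.m t = 0 := mrc_ge A.hv ht
theorem ml_of_gt {t : ℝ} (ht : A.T < t) : A.ml t = 0 := mlc_gt A.hv ht
theorem m_of_neg {t : ℝ} (ht : t < 0) : A.m t = 0 := mrc_neg A.hv ht
theorem ml_of_nonpos {t : ℝ} (ht : t ≤ 0) : A.ml t = 0 := mlc_nonpos A.hv ht
theorem m_pos {t : ℝ} (h0 : 0 ≤ t) (ht : t < A.T) : 0 < A.m t := mrc_pos A.hv h0 ht
theorem ml_pos {t : ℝ} (h0 : 0 < t) (ht : t ≤ A.T) : 0 < A.ml t := mlc_pos A.hv h0 ht

/-! ### Local structure -/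

/-- to the right of any `t`: weights constant, `D` affine. If `t < T` one may take `t + η ≤ T`. -/
theorem right_struct (t : ℝ) : ∃ η > 0, (t < A.T → t + η ≤ A.T) ∧
    (∀ s ∈ Ico t (t + η), A.m s = A.m t) ∧
    (∀ s ∈ Ioc t (t + η), A.ml s = A.m t) ∧
    ∀ s ∈ Icc t (t + η), A.D s = A.D t - A.m t * (s - t) := by
  rcases lt_or_ge t A.T with h | h
  · obtain ⟨η, hη, hT, hr, hl, hD⟩ := right_cells A.hv h
    refine ⟨η, hη, fun _ => hT, hr, hl, fun s hs => ?_⟩
    rw [D_of_le A (hs.2.trans hT), D_of_le A h.le]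
    exact hD _ s hs
  · refine ⟨1, one_pos, fun h' => absurd h (not_le.2 h'), fun s hs => ?_, fun s hs => ?_,
      fun s hs => ?_⟩
    · rw [m_of_ge A h, m_of_ge A (h.trans hs.1)]
    · rw [m_of_ge A h, ml_of_gt A (h.trans_lt hs.1)]
    · rw [m_of_ge A h, D_of_ge A h, D_of_ge A (h.trans hs.1)]
      ring

/-- to the left of any `t`: weights constant, `D` affine. -/
theorem left_struct (t : ℝ) : ∃ η > 0,
    (∀ s ∈ Ioc (t - η) t, A.ml s = A.ml t) ∧
    (∀ s ∈ Ico (t - η) t, A.m s = A.ml t) ∧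
    ∀ s ∈ Icc (t - η) t, A.D s = A.D t + A.ml t * (t - s) := by
  rcases le_or_gt t A.T with h | h
  · obtain ⟨η, hη, hl, hr, hD⟩ := left_cells A.hv h
    refine ⟨η, hη, hl, hr, fun s hs => ?_⟩
    rw [D_of_le A (hs.2.trans h), D_of_le A h]
    exact hD _ s hs
  · refine ⟨t - A.T, sub_pos.2 h, fun s hs => ?_, fun s hs => ?_, fun s hs => ?_⟩
    · have hs1 : A.T < s := by have := hs.1; linarith
      rw [ml_of_gt A h, ml_of_gt A hs1]
    · have hs1 : A.T ≤ s := by have := hs.1; linarith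
      rw [ml_of_gt A h, m_of_ge A hs1]
    · have hs1 : A.T ≤ s := by have := hs.1; linarith
      rw [ml_of_gt A h, D_of_ge A h.le, D_of_ge A hs1]
      ring

/-! ### `D` -/

theorem D_r (t : ℝ) : HasDerivWithinAt A.D (-A.m t) (Ici t) t := by
  obtain ⟨η, hη, -, -, -, hD⟩ := right_struct A t
  have h1 : HasDerivWithinAt (fun s => A.D t - A.m t * (s - t)) (-A.m t) (Ici t) t := by
    have := (((hasDerivAt_id t).sub_const t).const_mul (A.m t)).const_sub (A.D t)
    simpa using this.hasDerivWithinAt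
  refine h1.congr_of_eventuallyEq ?_ (by simp)
  have h2 : Icc t (t + η) ∈ 𝓝[Ici t] t := Icc_mem_nhdsGE (by linarith)
  filter_upwards [h2] with s hs using hD s hs

theorem D_l (t : ℝ) : HasDerivWithinAt A.D (-A.ml t) (Iic t) t := by
  obtain ⟨η, hη, -, -, hD⟩ := left_struct A t
  have h1 : HasDerivWithinAt (fun s => A.D t + A.ml t * (t - s)) (-A.ml t) (Iic t) t := by
    have := (((hasDerivAt_id t).const_sub t).const_mul (A.ml t)).const_add (A.D t)
    simpa using this.hasDerivWithinAt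
  refine h1.congr_of_eventuallyEq ?_ (by simp)
  have h2 : Icc (t - η) t ∈ 𝓝[Iic t] t := Icc_mem_nhdsLE (by linarith)
  filter_upwards [h2] with s hs using hD s hs

theorem D_cont : Continuous A.D :=
  continuous_iff_continuousAt.2 fun t =>
    continuousAt_iff_continuous_left_right.2
      ⟨(D_l A t).continuousWithinAt, (D_r A t).continuousWithinAt⟩

theorem m_meas : Measurable A.m := mrc_meas _ _
theorem ml_meas : Measurable A.ml := mlc_meas _ _
theorem m_bdd : ∃ M, 0 ≤ M ∧ ∀ t, A.m t ≤ M := by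
  obtain ⟨M, hM, h⟩ := mrc_bdd A.cs A.T
  exact ⟨M, hM, fun t => (le_abs_self _).trans (h t)⟩
theorem ml_bdd : ∃ M, 0 ≤ M ∧ ∀ t, A.ml t ≤ M := by
  obtain ⟨M, hM, h⟩ := mlc_bdd A.cs A.T
  exact ⟨M, hM, fun t => (le_abs_self _).trans (h t)⟩

theorem b_bdd : ∃ M, 0 ≤ M ∧ ∀ t, A.b t ≤ M := by
  obtain ⟨M, hM, h⟩ := m_bdd A
  refine ⟨M / A.d, div_nonneg hM A.hd.le, fun t => ?_⟩
  exact div_le_div₀ hM (h t) A.hd (A.d_le_D t)

theorem bl_bdd : ∃ M, 0 ≤ M ∧ ∀ t, A.bl t ≤ M := by
  obtain ⟨M, hM, h⟩ := ml_bdd A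
  refine ⟨M / A.d, div_nonneg hM A.hd.le, fun t => ?_⟩
  exact div_le_div₀ hM (h t) A.hd (A.d_le_D t)

theorem m_intble (s t : ℝ) : IntervalIntegrable A.m volume s t := by
  obtain ⟨M, hM, h⟩ := m_bdd A
  rw [intervalIntegrable_iff]
  refine Measure.integrableOn_of_bounded (M := M) (by simp) (m_meas A).aestronglyMeasurable ?_
  filter_upwards with x
  rw [Real.norm_of_nonneg (A.m_nonneg x)]
  exact h x

/-- `D(t) - D(s) = -∫_s^t m` for all real `s, t` -/
theorem D_sub_eq (s t : ℝ) : A.D t - A.D s = -∫ r in s..t, A.m r := by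
  have key : ∀ a b : ℝ, a ≤ b → A.D b - A.D a = -∫ r in a..b, A.m r := by
    intro a b hab
    have h := intervalIntegral.integral_eq_sub_of_hasDeriv_right_of_le hab
      (D_cont A).continuousOn (f' := fun r => -A.m r)
      (fun r _ => (D_r A r).mono Ioi_subset_Ici_self) (m_intble A a b).neg
    rw [← h, intervalIntegral.integral_neg]
  rcases le_total s t with h | h
  · exact key s t h
  · have h2 := key t s h
    rw [intervalIntegral.integral_symm] at h2
    linarith

theorem D_anti : Antitone A.D := by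
  intro s t hst
  have h1 := D_sub_eq A s t
  have h2 : 0 ≤ ∫ r in s..t, A.m r :=
    intervalIntegral.integral_nonneg hst fun r _ => A.m_nonneg r
  linarith

theorem D_le {t : ℝ} (ht : 0 ≤ t) : A.D t ≤ A.D 0 := D_anti A ht

/-! ### `E`, `b` -/

theorem E_cont : Continuous A.E := (D_cont A).inv₀ fun t => (A.D_pos t).ne'

theorem E_mono : Monotone A.E := fun s t hst => inv_anti₀ (A.D_pos t) (D_anti A hst)

theorem E_le (t : ℝ) : A.E t ≤ A.d⁻¹ := inv_anti₀ A.hd (A.d_le_D t)

theorem E_of_ge {t : ℝ} (ht : A.T ≤ t) : A.E t = A.d⁻¹ := by rw [SD.E, D_of_ge A ht]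

theorem E_r (t : ℝ) : HasDerivWithinAt A.E (A.b t * A.E t) (Ici t) t := by
  have h := (D_r A t).inv (A.D_pos t).ne'
  refine h.congr_deriv ?_
  have := (A.D_pos t).ne'
  rw [SD.b, SD.E]
  field_simp

theorem E_l (t : ℝ) : HasDerivWithinAt A.E (A.bl t * A.E t) (Iic t) t := by
  have h := (D_l A t).inv (A.D_pos t).ne'
  refine h.congr_deriv ?_
  have := (A.D_pos t).ne'
  rw [SD.bl, SD.E]
  field_simp

/-- on a cell `b' = b²` -/
theorem b_r (t : ℝ) : HasDerivWithinAt A.b (A.b t ^ 2) (Ici t) t := by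
  obtain ⟨η, hη, -, hm, -, -⟩ := right_struct A t
  have h1 : HasDerivWithinAt (fun s => A.m t * A.E s) (A.m t * (A.b t * A.E t)) (Ici t) t :=
    (E_r A t).const_mul _
  have h2 : A.m t * (A.b t * A.E t) = A.b t ^ 2 := by
    rw [SD.b, SD.E]
    have := (A.D_pos t).ne'
    field_simp
  rw [h2] at h1
  refine h1.congr_of_eventuallyEq ?_ (by rw [SD.b, SD.E, div_eq_mul_inv])
  have h3 : Ico t (t + η) ∈ 𝓝[Ici t] t := Ico_mem_nhdsGE (by linarith)
  filter_upwards [h3] with s hs
  rw [SD.b, SD.E, hm s hs, div_eq_mul_inv]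

theorem bl_l (t : ℝ) : HasDerivWithinAt A.bl (A.bl t ^ 2) (Iic t) t := by
  obtain ⟨η, hη, hm, -, -⟩ := left_struct A t
  have h1 : HasDerivWithinAt (fun s => A.ml t * A.E s) (A.ml t * (A.bl t * A.E t)) (Iic t) t :=
    (E_l A t).const_mul _
  have h2 : A.ml t * (A.bl t * A.E t) = A.bl t ^ 2 := by
    rw [SD.bl, SD.E]
    have := (A.D_pos t).ne'
    field_simp
  rw [h2] at h1
  refine h1.congr_of_eventuallyEq ?_ (by rw [SD.bl, SD.E, div_eq_mul_inv])
  have h3 : Ioc (t - η) t ∈ 𝓝[Iic t] t := Ioc_mem_nhdsLE (by linarith)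
  filter_upwards [h3] with s hs
  rw [SD.bl, SD.E, hm s hs, div_eq_mul_inv]

/-! ### `K0`, `chi` -/

theorem E_intble (s t : ℝ) : IntervalIntegrable A.E volume s t := (E_cont A).intervalIntegrable s t

theorem K0_t (t : ℝ) : HasDerivAt A.K0 (-A.E t) t :=
  intervalIntegral.integral_hasDerivAt_left (E_intble A t 1)
    ((E_cont A).stronglyMeasurableAtFilter _ _) (E_cont A).continuousAt

theorem K0_cont : Continuous A.K0 :=
  continuous_iff_continuousAt.2 fun t => (K0_t A t).continuousAt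

theorem K0_anti : StrictAnti A.K0 :=
  strictAnti_of_deriv_neg fun t => by
    rw [(K0_t A t).deriv]
    exact neg_lt_zero.2 (A.E_pos t)

theorem K0_one : A.K0 1 = 0 := by rw [SD.K0, intervalIntegral.integral_same]

theorem K0_pos {t : ℝ} (ht : t < 1) : 0 < A.K0 t := by
  have := K0_anti A ht
  rwa [K0_one] at this

theorem K0_of_ge {t : ℝ} (ht : A.T ≤ t) (ht1 : t ≤ 1) : A.K0 t = (1 - t) / A.d := by
  have h : A.K0 t = ∫ _ in t..1, A.d⁻¹ := by
    rw [SD.K0]
    refine intervalIntegral.integral_congr fun s hs => ?_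
    rw [uIcc_of_le ht1] at hs
    exact E_of_ge A (ht.trans hs.1)
  rw [h, intervalIntegral.integral_const, smul_eq_mul, div_eq_mul_inv]

theorem K0_T : A.K0 A.T = A.dl / A.d := K0_of_ge A le_rfl A.hT1.le

theorem chi_pos {t : ℝ} (ht : t < 1) : 0 < A.chi t := mul_pos (A.D_pos t) (K0_pos A ht)

theorem chi_of_ge {t : ℝ} (ht : A.T ≤ t) (ht1 : t ≤ 1) : A.chi t = 1 - t := by
  rw [SD.chi, D_of_ge A ht, K0_of_ge A ht ht1]
  have := A.hd.ne'
  field_simp

theorem chi_T : A.chi A.T = A.dl := chi_of_ge A le_rfl A.hT1.le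

theorem chi_r (t : ℝ) : HasDerivWithinAt A.chi (-(1 + A.m t * A.K0 t)) (Ici t) t := by
  have h := (D_r A t).mul (K0_t A t).hasDerivWithinAt
  refine h.congr_deriv ?_
  have := (A.D_pos t).ne'
  rw [SD.E]
  field_simp
  ring

theorem chi_l (t : ℝ) : HasDerivWithinAt A.chi (-(1 + A.ml t * A.K0 t)) (Iic t) t := by
  have h := (D_l A t).mul (K0_t A t).hasDerivWithinAt
  refine h.congr_deriv ?_
  have := (A.D_pos t).ne'
  rw [SD.E]
  field_simp
  ring

theorem chi_cont : Continuous A.chi := (D_cont A).mul (K0_cont A)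

theorem chi_anti : Antitone A.chi := by
  intro s t hst
  rcases le_or_gt t 1 with ht | ht
  · exact mul_le_mul (D_anti A hst) ((K0_anti A).antitone hst)
      (by
        rcases ht.lt_or_eq with h | h
        · exact (K0_pos A h).le
        · rw [h, K0_one]) (A.D_pos s).le
  · have hK : A.K0 t < 0 := by
      have := K0_anti A ht
      rwa [K0_one] at this
    rcases le_or_gt s 1 with hs | hs
    · have h1 : 0 ≤ A.chi s := by
        refine mul_nonneg (A.D_pos s).le ?_
        rcases hs.lt_or_eq with h | h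
        · exact (K0_pos A h).le
        · rw [h, K0_one]
      exact (mul_nonpos_of_nonneg_of_nonpos (A.D_pos t).le hK.le).trans h1
    · have h1 : A.D t = A.D s := by
        rw [D_of_ge A (A.hT1.le.trans ht.le), D_of_ge A (A.hT1.le.trans hs.le)]
      rw [SD.chi, SD.chi, h1]
      exact mul_le_mul_of_nonneg_left ((K0_anti A).antitone hst) (A.D_pos s).le

theorem dl_le_chi {t : ℝ} (ht : t ≤ A.T) : A.dl ≤ A.chi t := by
  rw [← chi_T A]
  exact chi_anti A ht

/-- `chi(t) ≥ 1 - t` (because `E` is nondecreasing) -/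
theorem one_sub_le_chi {t : ℝ} (ht : t ≤ 1) : 1 - t ≤ A.chi t := by
  have h1 : (1 - t) * A.E t ≤ A.K0 t := by
    have h2 : ∫ _ in t..1, A.E t ≤ ∫ s in t..1, A.E s :=
      intervalIntegral.integral_mono_on ht intervalIntegrable_const (E_intble A t 1)
        fun s hs => E_mono A hs.1
    rwa [intervalIntegral.integral_const, smul_eq_mul] at h2
  have h3 := mul_le_mul_of_nonneg_left h1 (A.D_pos t).le
  have h4 : A.D t * ((1 - t) * A.E t) = 1 - t := by
    rw [SD.E]
    have := (A.D_pos t).ne'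
    field_simp
  rwa [h4] at h3

/-- **CLK** -/
theorem clock : Clock A where
  D_cont := D_cont A
  D_anti := D_anti A
  D_t t _ := D_r A t
  D_tl t _ := D_l A t
  K0_t t _ := K0_t A t
  K0_pos t ht := K0_pos A ht
  K0_T := K0_T A
  chi_pos t ht := chi_pos A ht
  chi_T := chi_T A
  chi_t t _ := chi_r A t
  chi_tl t _ := chi_l A t

end

end Crest.Agent.R146.StepClk_900
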