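import Crest.Agent.R146.StepTest_692

/-!
Row 146, package PT-STEP, task 119 (helper692): the identity `K_t` of `Scal`.

With `N = E[P²]`, `Z = E[(1-V)²V]`, `K = N - 2bZ`, `L = E[Px² + 6b(1-2V)P² + 6b²V²(1-V)²]`:

* `Ns_t`, `Zs_t` : `N' = E[Px² + 2b(2-3V)P²]`, `Z' = E[bV(1-V)²(1-3V) + (3V-2)P²]`, right and left;
* `K_t` : `K' = 2bK + L` (right derivative, weight `b`), `K_tl` : the left version (weight `bl`);
* `KD_t`, `KD_tl` : `(K D²)' = D² L`.
-/

set_option autoImplicit false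

namespace Crest.Agent.R146.StepK_692

open MeasureTheory ProbabilityTheory Set Filter Topology
open Crest.Agent.R146.StepDef_791
open Crest.Agent.R146.StepTest_692
open Crest.Agent.R146.MaxPCmp_371 (BSys)

variable {A : SD} {x0 : ℝ} {p Y Yx Yxx : ℝ → ℝ → ℝ}

/-! ### linear combinations -/

theorem ex_lin3 (hL : Law A x0 p Y Yx Yxx) {t : ℝ} (ht : t ∈ Icc 0 A.T) {f1 f2 f3 : ℝ → ℝ}
    (h1 : Adm f1) (h2 : Adm f2) (h3 : Adm f3) (a b c : ℝ) :
    ex x0 p t (fun x => a * f1 x + b * f2 x + c * f3 x) =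
      a * ex x0 p t f1 + b * ex x0 p t f2 + c * ex x0 p t f3 := by
  rw [ex_add hL ht ((h1.cmul a).add (h2.cmul b)) (h3.cmul c),
    ex_add hL ht (h1.cmul a) (h2.cmul b), ex_cmul, ex_cmul, ex_cmul]

theorem ex_lin4 (hL : Law A x0 p Y Yx Yxx) {t : ℝ} (ht : t ∈ Icc 0 A.T) {f1 f2 f3 f4 : ℝ → ℝ}
    (h1 : Adm f1) (h2 : Adm f2) (h3 : Adm f3) (h4 : Adm f4) (a b c d : ℝ) :
    ex x0 p t (fun x => a * f1 x + b * f2 x + c * f3 x + d * f4 x) =
      a * ex x0 p t f1 + b * ex x0 p t f2 + c * ex x0 p t f3 + d * ex x0 p t f4 := by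
  rw [ex_add hL ht (((h1.cmul a).add (h2.cmul b)).add (h3.cmul c)) (h4.cmul d),
    ex_lin3 hL ht h1 h2 h3, ex_cmul]

theorem adm_V (hB : Back A) {t : ℝ} (ht : t ∈ Icc 0 A.T) : Adm (A.V t) :=
  adm_of (V_cont hB) (V_pg hB) ht

theorem adm_P (hB : Back A) {t : ℝ} (ht : t ∈ Icc 0 A.T) : Adm (A.P t) :=
  adm_of (P_cont hB) (P_pg hB) ht

theorem adm_Px (hB : Back A) {t : ℝ} (ht : t ∈ Icc 0 A.T) : Adm (A.Px t) :=
  adm_of hB.Px_cont (Px_pg hB) ht

theorem adm_u (hB : Back A) {t : ℝ} (ht : t ∈ Icc 0 A.T) : Adm (A.u t) :=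
  adm_of (u_cont hB) (u_pg hB) ht

/-! ### the integrands -/

/-- integrand of `N'` with weight `c` -/
noncomputable def gN (A : SD) (c t x : ℝ) : ℝ :=
  A.Px t x ^ 2 + 2 * c * (2 - 3 * A.V t x) * A.P t x ^ 2

/-- integrand of `Z'` with weight `c` -/
noncomputable def gZ (A : SD) (c t x : ℝ) : ℝ :=
  c * A.V t x * (1 - A.V t x) ^ 2 * (1 - 3 * A.V t x) + (3 * A.V t x - 2) * A.P t x ^ 2

/-- integrand of `L` with weight `c` -/
noncomputable def gL (A : SD) (c t x : ℝ) : ℝ :=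
  A.Px t x ^ 2 + 6 * c * (1 - 2 * A.V t x) * A.P t x ^ 2 +
    6 * c ^ 2 * A.V t x ^ 2 * (1 - A.V t x) ^ 2

/-- `L` with weight `c` -/
noncomputable def Lc (A : SD) (x0 : ℝ) (p : ℝ → ℝ → ℝ) (c t : ℝ) : ℝ := ex x0 p t (gL A c t)

theorem Ls_eq (t : ℝ) : Ls A x0 p t = Lc A x0 p (A.b t) t := rfl

theorem ex_gN (hB : Back A) (hL : Law A x0 p Y Yx Yxx) {t : ℝ} (ht : t ∈ Icc 0 A.T) (c : ℝ) :
    ex x0 p t (gN A c t) = ex x0 p t (fun x => A.Px t x ^ 2) +
      4 * c * ex x0 p t (fun x => A.P t x ^ 2) -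
      6 * c * ex x0 p t (fun x => A.V t x * A.P t x ^ 2) := by
  have h1 := (adm_Px hB ht).pow 2
  have h2 := (adm_P hB ht).pow 2
  have h3 := (adm_V hB ht).mul h2
  rw [ex_congr t (g := fun x => 1 * A.Px t x ^ 2 + 4 * c * A.P t x ^ 2 +
    (-6 * c) * (A.V t x * A.P t x ^ 2)) fun x => by unfold gN; ring, ex_lin3 hL ht h1 h2 h3]
  ring

theorem ex_gZ (hB : Back A) (hL : Law A x0 p Y Yx Yxx) {t : ℝ} (ht : t ∈ Icc 0 A.T) (c : ℝ) :
    ex x0 p t (gZ A c t) = c * Zs A x0 p t -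
      3 * c * ex x0 p t (fun x => A.V t x ^ 2 * (1 - A.V t x) ^ 2) +
      3 * ex x0 p t (fun x => A.V t x * A.P t x ^ 2) -
      2 * ex x0 p t (fun x => A.P t x ^ 2) := by
  have hV := adm_V hB ht
  have hR : Adm (fun x => (1 - A.V t x) ^ 2) := ((Adm.const 1).sub hV).pow 2
  have h1 : Adm (fun x => (1 - A.V t x) ^ 2 * A.V t x) := hR.mul hV
  have h2 : Adm (fun x => A.V t x ^ 2 * (1 - A.V t x) ^ 2) := (hV.pow 2).mul hR
  have h4 := (adm_P hB ht).pow 2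
  have h3 := hV.mul h4
  rw [ex_congr t (g := fun x => c * ((1 - A.V t x) ^ 2 * A.V t x) +
    (-3 * c) * (A.V t x ^ 2 * (1 - A.V t x) ^ 2) + 3 * (A.V t x * A.P t x ^ 2) +
    (-2) * A.P t x ^ 2) fun x => by unfold gZ; ring, ex_lin4 hL ht h1 h2 h3 h4]
  unfold Zs
  ring

theorem Lc_eq (hB : Back A) (hL : Law A x0 p Y Yx Yxx) {t : ℝ} (ht : t ∈ Icc 0 A.T) (c : ℝ) :
    Lc A x0 p c t = ex x0 p t (fun x => A.Px t x ^ 2) +
      6 * c * ex x0 p t (fun x => A.P t x ^ 2) -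
      12 * c * ex x0 p t (fun x => A.V t x * A.P t x ^ 2) +
      6 * c ^ 2 * ex x0 p t (fun x => A.V t x ^ 2 * (1 - A.V t x) ^ 2) := by
  have hV := adm_V hB ht
  have hR : Adm (fun x => (1 - A.V t x) ^ 2) := ((Adm.const 1).sub hV).pow 2
  have h1 := (adm_Px hB ht).pow 2
  have h2 := (adm_P hB ht).pow 2
  have h3 := hV.mul h2
  have h4 : Adm (fun x => A.V t x ^ 2 * (1 - A.V t x) ^ 2) := (hV.pow 2).mul hR
  unfold Lc
  rw [ex_congr t (g := fun x => 1 * A.Px t x ^ 2 + 6 * c * A.P t x ^ 2 +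
    (-12 * c) * (A.V t x * A.P t x ^ 2) + 6 * c ^ 2 * (A.V t x ^ 2 * (1 - A.V t x) ^ 2))
    fun x => by unfold gL; ring, ex_lin4 hL ht h1 h2 h3 h4]
  ring

/-! ### derivatives of `N` and `Z` -/

theorem Ns_t (hB : Back A) (hC : Clock A) (hL : Law A x0 p Y Yx Yxx) {t : ℝ} (ht : t ∈ Ico 0 A.T) :
    HasDerivWithinAt (Ns A x0 p) (ex x0 p t (gN A (A.b t) t)) (Ici t) t := by
  have h := hL.ex_r _ _ _ _ _ (Test.mul (test_P hB hC) (test_P hB hC)) t ht
  have e1 : Ns A x0 p = fun s => ex x0 p s (fun x => A.P s x * A.P s x) := by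
    funext s; unfold Ns; exact ex_congr s fun x => by ring
  rw [e1]
  convert h using 1
  exact ex_congr t fun x => by unfold gN; ring

theorem Ns_tl (hB : Back A) (hC : Clock A) (hL : Law A x0 p Y Yx Yxx) {t : ℝ}
    (ht : t ∈ Ioc 0 A.T) :
    HasDerivWithinAt (Ns A x0 p) (ex x0 p t (gN A (A.bl t) t)) (Iic t) t := by
  have h := hL.ex_l _ _ _ _ _ (Test.mul (test_P hB hC) (test_P hB hC)) t ht
  have e1 : Ns A x0 p = fun s => ex x0 p s (fun x => A.P s x * A.P s x) := by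
    funext s; unfold Ns; exact ex_congr s fun x => by ring
  rw [e1]
  convert h using 1
  exact ex_congr t fun x => by unfold gN; ring

theorem Zs_t (hB : Back A) (hC : Clock A) (hL : Law A x0 p Y Yx Yxx) {t : ℝ} (ht : t ∈ Ico 0 A.T) :
    HasDerivWithinAt (Zs A x0 p) (ex x0 p t (gZ A (A.b t) t)) (Ici t) t := by
  have hR := Test.add (Test.const A 1) (Test.cmul (-1) (test_V hB hC))
  have h := hL.ex_r _ _ _ _ _ (Test.mul (Test.mul hR hR) (test_V hB hC)) t ht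
  have e1 : Zs A x0 p = fun s => ex x0 p s (fun x => ((1 + -1 * A.V s x) * (1 + -1 * A.V s x)) *
      A.V s x) := by
    funext s; unfold Zs; exact ex_congr s fun x => by ring
  rw [e1]
  convert h using 1
  exact ex_congr t fun x => by unfold gZ; ring

theorem Zs_tl (hB : Back A) (hC : Clock A) (hL : Law A x0 p Y Yx Yxx) {t : ℝ}
    (ht : t ∈ Ioc 0 A.T) :
    HasDerivWithinAt (Zs A x0 p) (ex x0 p t (gZ A (A.bl t) t)) (Iic t) t := by
  have hR := Test.add (Test.const A 1) (Test.cmul (-1) (test_V hB hC))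
  have h := hL.ex_l _ _ _ _ _ (Test.mul (Test.mul hR hR) (test_V hB hC)) t ht
  have e1 : Zs A x0 p = fun s => ex x0 p s (fun x => ((1 + -1 * A.V s x) * (1 + -1 * A.V s x)) *
      A.V s x) := by
    funext s; unfold Zs; exact ex_congr s fun x => by ring
  rw [e1]
  convert h using 1
  exact ex_congr t fun x => by unfold gZ; ring

/-- algebra of the identity -/
theorem K_alg (hB : Back A) (hL : Law A x0 p Y Yx Yxx) {t : ℝ} (ht : t ∈ Icc 0 A.T) (c : ℝ) :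
    ex x0 p t (gN A c t) - (2 * c ^ 2 * Zs A x0 p t + 2 * c * ex x0 p t (gZ A c t)) =
      2 * c * (Ns A x0 p t - 2 * c * Zs A x0 p t) + Lc A x0 p c t := by
  rw [ex_gN hB hL ht, ex_gZ hB hL ht, Lc_eq hB hL ht]
  unfold Ns
  ring

/-- **K_t**: field `K_t` of `Scal` -/
theorem K_t (hB : Back A) (hC : Clock A) (hL : Law A x0 p Y Yx Yxx) : ∀ t ∈ Ico 0 A.T,
    HasDerivWithinAt (fun s => Ns A x0 p s - 2 * A.b s * Zs A x0 p s)
      (2 * A.b t * (Ns A x0 p t - 2 * A.b t * Zs A x0 p t) + Ls A x0 p t) (Ici t) t := by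
  intro t ht
  have h := (Ns_t hB hC hL ht).sub (((b_t hC ht).const_mul 2).mul (Zs_t hB hC hL ht))
  have e : (2 * A.b t * (Ns A x0 p t - 2 * A.b t * Zs A x0 p t) + Ls A x0 p t) =
      ex x0 p t (gN A (A.b t) t) -
        (2 * A.b t ^ 2 * Zs A x0 p t + 2 * A.b t * ex x0 p t (gZ A (A.b t) t)) := by
    rw [Ls_eq, K_alg hB hL ⟨ht.1, ht.2.le⟩]
  rw [e]
  exact h

/-- `bl' = bl²` (left derivative) -/
theorem bl_tl (hC : Clock A) {t : ℝ} (ht : t ∈ Ioc 0 A.T) :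
    HasDerivWithinAt A.bl (A.bl t ^ 2) (Iic t) t := by
  have h1 : HasDerivWithinAt (fun s => A.ml t / A.D s) (A.bl t ^ 2) (Iic t) t := by
    have h2 := ((hC.D_tl t ht).inv (A.D_pos t).ne').const_mul (A.ml t)
    have h3 : A.ml t * (-(-A.ml t) / A.D t ^ 2) = A.bl t ^ 2 := by
      unfold SD.bl
      have := (A.D_pos t).ne'
      field_simp
    rw [h3] at h2
    simpa only [div_eq_mul_inv, Pi.inv_apply] using h2
  refine h1.congr_of_eventuallyEq ?_ rfl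
  filter_upwards [ml_left_ev ht] with s hs
  unfold SD.bl
  rw [hs]

/-- **K_tl**: the left version, weight `bl` -/
theorem K_tl (hB : Back A) (hC : Clock A) (hL : Law A x0 p Y Yx Yxx) : ∀ t ∈ Ioc 0 A.T,
    HasDerivWithinAt (fun s => Ns A x0 p s - 2 * A.bl s * Zs A x0 p s)
      (2 * A.bl t * (Ns A x0 p t - 2 * A.bl t * Zs A x0 p t) + Lc A x0 p (A.bl t) t) (Iic t) t := by
  intro t ht
  have h := (Ns_tl hB hC hL ht).sub (((bl_tl hC ht).const_mul 2).mul (Zs_tl hB hC hL ht))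
  have e : (2 * A.bl t * (Ns A x0 p t - 2 * A.bl t * Zs A x0 p t) + Lc A x0 p (A.bl t) t) =
      ex x0 p t (gN A (A.bl t) t) -
        (2 * A.bl t ^ 2 * Zs A x0 p t + 2 * A.bl t * ex x0 p t (gZ A (A.bl t) t)) := by
    rw [K_alg hB hL ⟨ht.1.le, ht.2⟩]
  rw [e]
  exact h

theorem b_mul_D (A : SD) (t : ℝ) : A.b t * A.D t = A.m t := by
  unfold SD.b
  exact div_mul_cancel₀ _ (A.D_pos t).ne'

theorem bl_mul_D (A : SD) (t : ℝ) : A.bl t * A.D t = A.ml t := by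
  unfold SD.bl
  exact div_mul_cancel₀ _ (A.D_pos t).ne'

/-- `(K D²)' = D² L`, right derivative -/
theorem KD_t (hB : Back A) (hC : Clock A) (hL : Law A x0 p Y Yx Yxx) : ∀ t ∈ Ico 0 A.T,
    HasDerivWithinAt (fun s => (Ns A x0 p s - 2 * A.b s * Zs A x0 p s) * A.D s ^ 2)
      (A.D t ^ 2 * Ls A x0 p t) (Ici t) t := by
  intro t ht
  have h : HasDerivWithinAt (fun s => (Ns A x0 p s - 2 * A.b s * Zs A x0 p s) * A.D s ^ 2)
    ((2 * A.b t * (Ns A x0 p t - 2 * A.b t * Zs A x0 p t) + Ls A x0 p t) * A.D t ^ 2 +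
      (Ns A x0 p t - 2 * A.b t * Zs A x0 p t) * (((2 : ℕ) : ℝ) * A.D t ^ (2 - 1) * -A.m t))
    (Ici t) t := (K_t hB hC hL t ht).mul ((hC.D_t t ht).pow 2)
  have e : ((2 * A.b t * (Ns A x0 p t - 2 * A.b t * Zs A x0 p t) + Ls A x0 p t) * A.D t ^ 2 +
      (Ns A x0 p t - 2 * A.b t * Zs A x0 p t) * (((2 : ℕ) : ℝ) * A.D t ^ (2 - 1) * -A.m t)) =
      A.D t ^ 2 * Ls A x0 p t := by
    rw [← b_mul_D A t]
    push_cast
    ring
  rw [← e]
  exact h

/-- `(K D²)' = D² L`, left derivative -/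
theorem KD_tl (hB : Back A) (hC : Clock A) (hL : Law A x0 p Y Yx Yxx) : ∀ t ∈ Ioc 0 A.T,
    HasDerivWithinAt (fun s => (Ns A x0 p s - 2 * A.bl s * Zs A x0 p s) * A.D s ^ 2)
      (A.D t ^ 2 * Lc A x0 p (A.bl t) t) (Iic t) t := by
  intro t ht
  have h : HasDerivWithinAt (fun s => (Ns A x0 p s - 2 * A.bl s * Zs A x0 p s) * A.D s ^ 2)
    ((2 * A.bl t * (Ns A x0 p t - 2 * A.bl t * Zs A x0 p t) + Lc A x0 p (A.bl t) t) * A.D t ^ 2 +
      (Ns A x0 p t - 2 * A.bl t * Zs A x0 p t) * (((2 : ℕ) : ℝ) * A.D t ^ (2 - 1) * -A.ml t))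
    (Iic t) t := (K_tl hB hC hL t ht).mul ((hC.D_tl t ht).pow 2)
  have e : ((2 * A.bl t * (Ns A x0 p t - 2 * A.bl t * Zs A x0 p t) + Lc A x0 p (A.bl t) t) *
        A.D t ^ 2 +
      (Ns A x0 p t - 2 * A.bl t * Zs A x0 p t) * (((2 : ℕ) : ℝ) * A.D t ^ (2 - 1) * -A.ml t)) =
      A.D t ^ 2 * Lc A x0 p (A.bl t) t := by
    rw [← bl_mul_D A t]
    push_cast
    ring
  rw [← e]
  exact h

/-! ### integrated forms -/

/-- FTC for a bounded right derivative -/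
theorem ftc_right {f f' : ℝ → ℝ} {a b C : ℝ} (hab : a ≤ b) (hf : ContinuousOn f (Icc a b))
    (hd : ∀ t ∈ Ioo a b, HasDerivWithinAt f (f' t) (Ici t) t) (hC : ∀ t ∈ Ioo a b, |f' t| ≤ C) :
    IntervalIntegrable f' volume a b ∧ ∫ t in a..b, f' t = f b - f a := by
  have hint : IntervalIntegrable f' volume a b := by
    rw [intervalIntegrable_iff_integrableOn_Ioo_of_le hab]
    have hm : AEStronglyMeasurable f' (volume.restrict (Ioo a b)) := by
      refine (stronglyMeasurable_derivWithin_Ici f).aestronglyMeasurable.congr ?_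
      filter_upwards [self_mem_ae_restrict measurableSet_Ioo] with t ht
      exact (hd t ht).derivWithin (uniqueDiffWithinAt_Ici t)
    refine ⟨hm, .restrict_of_bounded (C := C) (by simp) ?_⟩
    filter_upwards [self_mem_ae_restrict measurableSet_Ioo] with t ht
    exact hC t ht
  refine ⟨hint, intervalIntegral.integral_eq_sub_of_hasDeriv_right ?_ ?_ hint⟩
  · rwa [uIcc_of_le hab]
  · intro t ht
    rw [min_eq_left hab, max_eq_right hab] at ht
    exact (hd t ht).mono Ioi_subset_Ici_self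

/-- uniform bound of expectations of functions of polynomial growth -/
theorem ex_bdd (hL : Law A x0 p Y Yx Yxx) {F : ℝ → ℝ → ℝ} (hF : PG A F) :
    ∃ C : ℝ, ∀ t ∈ Icc 0 A.T, |ex x0 p t (F t)| ≤ C := by
  obtain ⟨C, n, hC, h⟩ := hF
  obtain ⟨M, hM⟩ := hL.mom n
  refine ⟨max (C * (1 + |x0|) ^ n) (C * M), fun t ht => ?_⟩
  unfold ex
  split_ifs with h0
  · exact (h t ht x0).trans (le_max_left _ _)
  · have ht' : t ∈ Ioc 0 A.T := ⟨not_le.1 h0, ht.2⟩
    refine le_trans ?_ (le_max_right _ _)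
    have h1 := norm_integral_le_of_norm_le ((hM t ht').1.const_mul C)
      (f := fun x => p t x * F t x) (Eventually.of_forall fun x => ?_)
    · rw [Real.norm_eq_abs] at h1
      refine h1.trans ?_
      rw [integral_const_mul]
      exact mul_le_mul_of_nonneg_left (hM t ht').2 hC
    · rw [Real.norm_eq_abs, abs_mul, abs_of_pos (hL.p_pos t ht' x)]
      calc p t x * |F t x| ≤ p t x * (C * (1 + |x|) ^ n) :=
            mul_le_mul_of_nonneg_left (h t ht x) (hL.p_pos t ht' x).le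
        _ = _ := by ring

/-- **Dynkin formula**: integrated form of `ex_r` for a test function -/
theorem dynkin (hB : Back A) (hL : Law A x0 p Y Yx Yxx) {F Fr Fl Fx Fxx : ℝ → ℝ → ℝ}
    (hT : Test A F Fr Fl Fx Fxx) {s1 s2 : ℝ} (h0 : 0 ≤ s1) (h12 : s1 ≤ s2) (h2 : s2 ≤ A.T) :
    IntervalIntegrable
      (fun t => ex x0 p t (fun x => Fr t x + Fxx t x / 2 + A.b t * A.u t x * Fx t x)) volume s1 s2 ∧
    ∫ t in s1..s2, ex x0 p t (fun x => Fr t x + Fxx t x / 2 + A.b t * A.u t x * Fx t x) =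
      ex x0 p s2 (F s2) - ex x0 p s1 (F s1) := by
  obtain ⟨q1, q2, q3, q4, q5⟩ := Test.pg hT
  have hg : PG A (fun t x => Fr t x + Fxx t x / 2 + A.b t * A.u t x * Fx t x) := by
    have h5 : PG A (fun t x => Fxx t x / 2) := by
      simpa only [div_eq_mul_inv] using q5.mul (PG.const (2 : ℝ)⁻¹)
    exact (q2.add h5).add ((bu_pg hB).mul q4)
  obtain ⟨C, hC⟩ := ex_bdd hL hg
  refine ftc_right (f := fun t => ex x0 p t (F t)) (C := C) h12
    ((hL.ex_cont F Fr Fl Fx Fxx hT).mono (Icc_subset_Icc h0 h2)) (fun t ht => ?_) (fun t ht => ?_)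
  · exact hL.ex_r F Fr Fl Fx Fxx hT t ⟨h0.trans ht.1.le, ht.2.trans_le h2⟩
  · exact hC t ⟨h0.trans ht.1.le, ht.2.le.trans h2⟩

theorem Ns_cont (hB : Back A) (hC : Clock A) (hL : Law A x0 p Y Yx Yxx) :
    ContinuousOn (Ns A x0 p) (Icc 0 A.T) := by
  have h := hL.ex_cont _ _ _ _ _ (Test.mul (test_P hB hC) (test_P hB hC))
  have e1 : Ns A x0 p = fun s => ex x0 p s (fun x => A.P s x * A.P s x) := by
    funext s; unfold Ns; exact ex_congr s fun x => by ring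
  rw [e1]
  exact h

theorem Zs_cont (hB : Back A) (hC : Clock A) (hL : Law A x0 p Y Yx Yxx) :
    ContinuousOn (Zs A x0 p) (Icc 0 A.T) := by
  have hR := Test.add (Test.const A 1) (Test.cmul (-1) (test_V hB hC))
  have h := hL.ex_cont _ _ _ _ _ (Test.mul (Test.mul hR hR) (test_V hB hC))
  have e1 : Zs A x0 p = fun s => ex x0 p s (fun x => ((1 + -1 * A.V s x) * (1 + -1 * A.V s x)) *
      A.V s x) := by
    funext s; unfold Zs; exact ex_congr s fun x => by ring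
  rw [e1]
  exact h

theorem gL_pg (hB : Back A) : PG A (fun t x => gL A (A.b t) t x) := by
  have hb := b_pg A
  have hV := V_pg hB
  have hP := P_pg hB
  have hQ := Px_pg hB
  have h1 : PG A (fun t x => A.Px t x * A.Px t x) := hQ.mul hQ
  have h2 : PG A (fun t x => (6 * A.b t) * (1 - 2 * A.V t x) * (A.P t x * A.P t x)) :=
    ((hb.cmul 6).mul ((PG.const 1).sub (hV.cmul 2))).mul (hP.mul hP)
  have h3 : PG A (fun t x => 6 * (A.b t * A.b t) * (A.V t x * A.V t x) *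
      ((1 - A.V t x) * (1 - A.V t x))) :=
    (((hb.mul hb).cmul 6).mul (hV.mul hV)).mul
      (((PG.const 1).sub hV).mul ((PG.const 1).sub hV))
  refine ((h1.add h2).add h3).of_le fun t _ x => le_of_eq ?_
  unfold gL
  congr 1
  ring

/-- `L` is bounded on `[0,T]` -/
theorem Ls_bdd (hB : Back A) (hL : Law A x0 p Y Yx Yxx) :
    ∃ C : ℝ, ∀ t ∈ Icc 0 A.T, |Ls A x0 p t| ≤ C := ex_bdd hL (gL_pg hB)

/-- on `[s1, s2)`, where the weight is `z`: the integrated identity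
`K(s2-)D(s2)² - K(s1)D(s1)² = ∫ D² L` (`K` with weight `z/D`) -/
theorem K_cell (hB : Back A) (hC : Clock A) (hL : Law A x0 p Y Yx Yxx) {s1 s2 z : ℝ}
    (h0 : 0 ≤ s1) (h12 : s1 ≤ s2) (h2 : s2 ≤ A.T) (hz : ∀ s ∈ Ico s1 s2, A.m s = z) :
    IntervalIntegrable (fun s => A.D s ^ 2 * Ls A x0 p s) volume s1 s2 ∧
    ∫ s in s1..s2, A.D s ^ 2 * Ls A x0 p s =
      (Ns A x0 p s2 - 2 * (z / A.D s2) * Zs A x0 p s2) * A.D s2 ^ 2 -
      (Ns A x0 p s1 - 2 * (z / A.D s1) * Zs A x0 p s1) * A.D s1 ^ 2 := by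
  obtain ⟨C, hC1⟩ := Ls_bdd hB hL
  have hD : ∀ t, 0 ≤ t → A.D t ≤ A.D 0 := fun t ht => hC.D_anti ht
  have hsub : Icc s1 s2 ⊆ Icc 0 A.T := Icc_subset_Icc h0 h2
  refine ftc_right (f := fun s => (Ns A x0 p s - 2 * (z / A.D s) * Zs A x0 p s) * A.D s ^ 2)
    (C := A.D 0 ^ 2 * C) h12 ?_ (fun t ht => ?_) (fun t ht => ?_)
  · have c1 := (Ns_cont hB hC hL).mono hsub
    have c2 := (Zs_cont hB hC hL).mono hsub
    have c3 : ContinuousOn (fun s => z / A.D s) (Icc s1 s2) :=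
      (continuous_const.div hC.D_cont fun s => (A.D_pos s).ne').continuousOn
    exact (c1.sub ((continuousOn_const.mul c3).mul c2)).mul (hC.D_cont.continuousOn.pow 2)
  · have h := KD_t hB hC hL t ⟨h0.trans ht.1.le, ht.2.trans_le h2⟩
    refine h.congr_of_eventuallyEq ?_ ?_
    · filter_upwards [Ico_mem_nhdsGE ht.2] with s hs
      unfold SD.b
      rw [hz s ⟨ht.1.le.trans hs.1, hs.2⟩]
    · unfold SD.b
      rw [hz t ⟨ht.1.le, ht.2⟩]
  · rw [abs_mul, abs_of_nonneg (sq_nonneg _)]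
    have h3 := hC1 t ⟨h0.trans ht.1.le, ht.2.le.trans h2⟩
    have h4 : A.D t ^ 2 ≤ A.D 0 ^ 2 :=
      pow_le_pow_left₀ (A.D_pos t).le (hD t (h0.trans ht.1.le)) 2
    exact mul_le_mul h4 h3 (abs_nonneg _) (sq_nonneg _)

end Crest.Agent.R146.StepK_692
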