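import Crest.Agent.R146.StepDef_791

/-!
Row 146, task 118 (STEP-SCAL, helper774): scalar identities of the step system, from
`Back`, `Clock`, `Law` of `StepDef_791`.

Library:
* `mrc_right`, `mlc_left`, `mlc_bdd`      : local constancy / boundedness of the weights;
* `Fac A`                                 : collected facts (continuity, growth) on the fields;
* `Test.const/add/neg/sub/mul/...`        : closure of `Test`;
* `tX, tU, tW, tV, tR, tP, tE`            : the basic tests;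
* `Law.integrable`, `ex_add`, `ex_smul`   : linearity of `ex` on `PG` functions;
* `Ts_t, Qs_t, Lams_t, Cs_t, mean_lam, mean_h, cont`, `scal`.
-/

set_option autoImplicit false

namespace Crest.Agent.R146.StepScal_774

open MeasureTheory ProbabilityTheory Set Filter Topology
open Crest.Agent.R146.StepDef_791 Crest.Agent.R146.PB_534
open Crest.Agent.R146.MaxPCmp_371 (BSys strip)

noncomputable section

/-! ### local constancy of the weights -/

theorem mrc_right : ∀ (cs : Cells) (T t : ℝ),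
    ∃ η : ℝ, 0 < η ∧ ∀ s ∈ Ico t (t + η), mrc T cs s = mrc T cs t
  | [], _, _ => ⟨1, one_pos, fun _ _ => rfl⟩
  | c :: cs, T, t => by
      by_cases h1 : c.1 ≤ t
      · by_cases h2 : t < T
        · refine ⟨T - t, sub_pos.2 h2, fun s hs => ?_⟩
          have h3 : s < T := by linarith [hs.2]
          have h4 : c.1 ≤ s := h1.trans hs.1
          simp only [mrc, if_pos h1, if_pos h2, if_pos h3, if_pos h4]
        · refine ⟨1, one_pos, fun s hs => ?_⟩
          have h3 : ¬ s < T := by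
            intro h; exact h2 (hs.1.trans_lt h)
          have h4 : c.1 ≤ s := h1.trans hs.1
          simp only [mrc, if_pos h1, if_neg h2, if_neg h3, if_pos h4]
      · obtain ⟨η, hη, h⟩ := mrc_right cs c.1 t
        refine ⟨min η (c.1 - t), lt_min hη (sub_pos.2 (not_le.1 h1)), fun s hs => ?_⟩
        have h5 := min_le_right η (c.1 - t)
        have h6 := min_le_left η (c.1 - t)
        have h3 : ¬ c.1 ≤ s := by
          have := hs.2
          rw [not_le]; linarith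
        simp only [mrc, if_neg h1, if_neg h3]
        exact h s ⟨hs.1, by have := hs.2; linarith⟩

theorem mlc_left : ∀ (cs : Cells) (T t : ℝ),
    ∃ η : ℝ, 0 < η ∧ ∀ s ∈ Ioc (t - η) t, mlc T cs s = mlc T cs t
  | [], _, _ => ⟨1, one_pos, fun _ _ => rfl⟩
  | c :: cs, T, t => by
      by_cases h1 : c.1 < t
      · by_cases h2 : t ≤ T
        · refine ⟨t - c.1, sub_pos.2 h1, fun s hs => ?_⟩
          have h3 : s ≤ T := hs.2.trans h2
          have h4 : c.1 < s := by linarith [hs.1]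
          simp only [mlc, if_pos h1, if_pos h2, if_pos h3, if_pos h4]
        · have h2' := not_le.1 h2
          refine ⟨min (t - c.1) (t - T), lt_min (sub_pos.2 h1) (sub_pos.2 h2'), fun s hs => ?_⟩
          have h5 := min_le_right (t - c.1) (t - T)
          have h6 := min_le_left (t - c.1) (t - T)
          have h3 : ¬ s ≤ T := by
            have := hs.1
            rw [not_le]; linarith
          have h4 : c.1 < s := by linarith [hs.1]
          simp only [mlc, if_pos h1, if_neg h2, if_neg h3, if_pos h4]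
      · obtain ⟨η, hη, h⟩ := mlc_left cs c.1 t
        refine ⟨η, hη, fun s hs => ?_⟩
        have h3 : ¬ c.1 < s := by
          rw [not_lt] at h1 ⊢
          exact hs.2.trans h1
        simp only [mlc, if_neg h1, if_neg h3]
        exact h s hs

theorem mlc_bdd : ∀ (cs : Cells), ∃ M : ℝ, 0 ≤ M ∧ ∀ T t : ℝ, mlc T cs t ≤ M
  | [] => ⟨0, le_rfl, fun _ _ => le_rfl⟩
  | c :: cs => by
      obtain ⟨M, hM, h⟩ := mlc_bdd cs
      refine ⟨M + |c.2|, by positivity, fun T t => ?_⟩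
      unfold mlc
      split_ifs with h1 h2
      · have := le_abs_self c.2
        linarith
      · positivity
      · have := h c.1 t
        have := abs_nonneg c.2
        linarith

theorem m_cont (A : SD) (t : ℝ) : ContinuousWithinAt A.m (Ici t) t := by
  obtain ⟨η, hη, h⟩ := mrc_right A.cs A.T t
  have h1 : A.m =ᶠ[𝓝[Ici t] t] fun _ => A.m t := by
    have h2 : Ico t (t + η) ∈ 𝓝[Ici t] t := Ico_mem_nhdsGE (by linarith)
    filter_upwards [h2] with s hs
    exact h s hs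
  exact (continuousWithinAt_const.congr_of_eventuallyEq h1 rfl)

theorem ml_cont (A : SD) (t : ℝ) : ContinuousWithinAt A.ml (Iic t) t := by
  obtain ⟨η, hη, h⟩ := mlc_left A.cs A.T t
  have h1 : A.ml =ᶠ[𝓝[Iic t] t] fun _ => A.ml t := by
    have h2 : Ioc (t - η) t ∈ 𝓝[Iic t] t := Ioc_mem_nhdsLE (by linarith)
    filter_upwards [h2] with s hs
    exact h s hs
  exact (continuousWithinAt_const.congr_of_eventuallyEq h1 rfl)

theorem E_cont {A : SD} (hC : Clock A) : Continuous A.E :=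
  hC.D_cont.inv₀ fun t => (A.D_pos t).ne'

theorem b_cont {A : SD} (hC : Clock A) (t : ℝ) : ContinuousWithinAt A.b (Ici t) t :=
  (m_cont A t).div hC.D_cont.continuousWithinAt (A.D_pos t).ne'

theorem bl_cont {A : SD} (hC : Clock A) (t : ℝ) : ContinuousWithinAt A.bl (Iic t) t :=
  (ml_cont A t).div hC.D_cont.continuousWithinAt (A.D_pos t).ne'

theorem bl_bdd (A : SD) : ∃ M : ℝ, 0 ≤ M ∧ ∀ t, |A.bl t| ≤ M := by
  obtain ⟨M, hM, h⟩ := mlc_bdd A.cs
  refine ⟨M / A.d, div_nonneg hM A.hd.le, fun t => ?_⟩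
  rw [abs_of_nonneg (A.bl_nonneg t)]
  unfold SD.bl
  exact div_le_div₀ hM (h A.T t) A.hd (A.d_le_D t)

theorem E_le (A : SD) (t : ℝ) : |A.E t| ≤ 1 / A.d := by
  rw [abs_of_pos (A.E_pos t), one_div]
  exact inv_anti₀ A.hd (A.d_le_D t)

theorem E_r {A : SD} (hC : Clock A) {t : ℝ} (ht : t ∈ Ico 0 A.T) :
    HasDerivWithinAt A.E (A.b t * A.E t) (Ici t) t := by
  have h := (hC.D_t t ht).fun_inv (A.D_pos t).ne'
  have e : A.b t * A.E t = - -A.m t / A.D t ^ 2 := by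
    have := (A.D_pos t).ne'
    simp only [SD.b, SD.E]
    field_simp
  rw [e]
  exact h

theorem E_l {A : SD} (hC : Clock A) {t : ℝ} (ht : t ∈ Ioc 0 A.T) :
    HasDerivWithinAt A.E (A.bl t * A.E t) (Iic t) t := by
  have h := (hC.D_tl t ht).fun_inv (A.D_pos t).ne'
  have e : A.bl t * A.E t = - -A.ml t / A.D t ^ 2 := by
    have := (A.D_pos t).ne'
    simp only [SD.bl, SD.E]
    field_simp
  rw [e]
  exact h

/-! ### polynomial growth, uniformly on `[0,T]` -/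

/-- growth of one field -/
def Gr (A : SD) (F : ℝ → ℝ → ℝ) : Prop :=
  ∃ C : ℝ, ∃ n : ℕ, 0 ≤ C ∧ ∀ t ∈ Icc 0 A.T, ∀ x, |F t x| ≤ C * (1 + |x|) ^ n

theorem Gr.const (A : SD) (c : ℝ) : Gr A (fun _ _ => c) :=
  ⟨|c|, 0, abs_nonneg c, fun t _ x => by simp⟩

theorem Gr.of_t {A : SD} {f : ℝ → ℝ} {M : ℝ} (h : ∀ t ∈ Icc 0 A.T, |f t| ≤ M) :
    Gr A (fun t _ => f t) := by
  refine ⟨|M|, 0, abs_nonneg M, fun t ht x => ?_⟩
  simpa using (h t ht).trans (le_abs_self M)

theorem Gr.id (A : SD) : Gr A (fun _ x => x) := by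
  refine ⟨1, 1, zero_le_one, fun t _ x => ?_⟩
  have := abs_nonneg x
  rw [pow_one, one_mul]
  linarith

theorem Gr.add {A : SD} {F G : ℝ → ℝ → ℝ} (hF : Gr A F) (hG : Gr A G) :
    Gr A (fun t x => F t x + G t x) := by
  obtain ⟨C, n, hC, h⟩ := hF
  obtain ⟨C', n', hC', h'⟩ := hG
  refine ⟨C + C', max n n', by positivity, fun t ht x => ?_⟩
  have h1 : (1 + |x|) ^ n ≤ (1 + |x|) ^ max n n' :=
    pow_le_pow_right₀ (one_le_base x) (le_max_left _ _)
  have h2 : (1 + |x|) ^ n' ≤ (1 + |x|) ^ max n n' :=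
    pow_le_pow_right₀ (one_le_base x) (le_max_right _ _)
  calc |F t x + G t x| ≤ |F t x| + |G t x| := abs_add_le _ _
    _ ≤ C * (1 + |x|) ^ n + C' * (1 + |x|) ^ n' := add_le_add (h t ht x) (h' t ht x)
    _ ≤ C * (1 + |x|) ^ max n n' + C' * (1 + |x|) ^ max n n' :=
        add_le_add (mul_le_mul_of_nonneg_left h1 hC) (mul_le_mul_of_nonneg_left h2 hC')
    _ = _ := by ring

theorem Gr.mul {A : SD} {F G : ℝ → ℝ → ℝ} (hF : Gr A F) (hG : Gr A G) :
    Gr A (fun t x => F t x * G t x) := by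
  obtain ⟨C, n, hC, h⟩ := hF
  obtain ⟨C', n', hC', h'⟩ := hG
  refine ⟨C * C', n + n', by positivity, fun t ht x => ?_⟩
  have hx := one_le_base x
  calc |F t x * G t x| = |F t x| * |G t x| := abs_mul _ _
    _ ≤ (C * (1 + |x|) ^ n) * (C' * (1 + |x|) ^ n') :=
        mul_le_mul (h t ht x) (h' t ht x) (abs_nonneg _) (by positivity)
    _ = _ := by rw [pow_add]; ring

theorem Gr.neg {A : SD} {F : ℝ → ℝ → ℝ} (hF : Gr A F) : Gr A (fun t x => -F t x) := by
  obtain ⟨C, n, hC, h⟩ := hF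
  exact ⟨C, n, hC, fun t ht x => by rw [abs_neg]; exact h t ht x⟩

theorem Gr.sub {A : SD} {F G : ℝ → ℝ → ℝ} (hF : Gr A F) (hG : Gr A G) :
    Gr A (fun t x => F t x - G t x) := by
  simpa [sub_eq_add_neg] using hF.add hG.neg

theorem Gr.const_mul {A : SD} {F : ℝ → ℝ → ℝ} (hF : Gr A F) (c : ℝ) :
    Gr A (fun t x => c * F t x) := (Gr.const A c).mul hF

theorem Gr.div_two {A : SD} {F : ℝ → ℝ → ℝ} (hF : Gr A F) : Gr A (fun t x => F t x / 2) := by
  have := hF.const_mul (1 / 2)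
  refine (by simpa [div_eq_inv_mul] using this)

theorem Gr.pow {A : SD} {F : ℝ → ℝ → ℝ} (hF : Gr A F) (n : ℕ) : Gr A (fun t x => F t x ^ n) := by
  induction n with
  | zero => simpa using Gr.const A 1
  | succ n ih => simpa [pow_succ] using ih.mul hF

theorem Gr.congr {A : SD} {F G : ℝ → ℝ → ℝ} (hF : Gr A F) (h : ∀ t x, F t x = G t x) : Gr A G := by
  have : F = G := by funext t x; exact h t x
  exact this ▸ hF

/-- five growth bounds at once -/
theorem Gr.five {A : SD} {F1 F2 F3 F4 F5 : ℝ → ℝ → ℝ} (h1 : Gr A F1) (h2 : Gr A F2) (h3 : Gr A F3)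
    (h4 : Gr A F4) (h5 : Gr A F5) :
    ∃ C : ℝ, ∃ n : ℕ, 0 ≤ C ∧ ∀ t ∈ Icc 0 A.T, ∀ x, |F1 t x| ≤ C * (1 + |x|) ^ n ∧
    |F2 t x| ≤ C * (1 + |x|) ^ n ∧ |F3 t x| ≤ C * (1 + |x|) ^ n ∧
    |F4 t x| ≤ C * (1 + |x|) ^ n ∧ |F5 t x| ≤ C * (1 + |x|) ^ n := by
  obtain ⟨C1, n1, hC1, h1⟩ := h1
  obtain ⟨C2, n2, hC2, h2⟩ := h2
  obtain ⟨C3, n3, hC3, h3⟩ := h3
  obtain ⟨C4, n4, hC4, h4⟩ := h4
  obtain ⟨C5, n5, hC5, h5⟩ := h5
  have key : ∀ (x C : ℝ) (n : ℕ), 0 ≤ C → C ≤ C1 + C2 + C3 + C4 + C5 → n ≤ n1 + n2 + n3 + n4 + n5 →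
      C * (1 + |x|) ^ n ≤ (C1 + C2 + C3 + C4 + C5) * (1 + |x|) ^ (n1 + n2 + n3 + n4 + n5) := by
    intro x C n hC hle hn
    have h6 : (1 + |x|) ^ n ≤ (1 + |x|) ^ (n1 + n2 + n3 + n4 + n5) :=
      pow_le_pow_right₀ (one_le_base x) hn
    have h7 : 0 ≤ (1 + |x|) ^ (n1 + n2 + n3 + n4 + n5) := by positivity
    exact (mul_le_mul_of_nonneg_left h6 hC).trans (mul_le_mul_of_nonneg_right hle h7)
  refine ⟨C1 + C2 + C3 + C4 + C5, n1 + n2 + n3 + n4 + n5, by positivity, fun t ht x =>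
    ⟨(h1 t ht x).trans (key x C1 n1 hC1 (by linarith) (by omega)),
     (h2 t ht x).trans (key x C2 n2 hC2 (by linarith) (by omega)),
     (h3 t ht x).trans (key x C3 n3 hC3 (by linarith) (by omega)),
     (h4 t ht x).trans (key x C4 n4 hC4 (by linarith) (by omega)),
     (h5 t ht x).trans (key x C5 n5 hC5 (by linarith) (by omega))⟩⟩

section growth
variable {A : SD} {F Fr Fl Fx Fxx : ℝ → ℝ → ℝ} (h : Test A F Fr Fl Fx Fxx)
include h

theorem gF : Gr A F := by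
  obtain ⟨C, n, hC, hh⟩ := h.growth; exact ⟨C, n, hC, fun t ht x => (hh t ht x).1⟩
theorem gFr : Gr A Fr := by
  obtain ⟨C, n, hC, hh⟩ := h.growth; exact ⟨C, n, hC, fun t ht x => (hh t ht x).2.1⟩
theorem gFl : Gr A Fl := by
  obtain ⟨C, n, hC, hh⟩ := h.growth; exact ⟨C, n, hC, fun t ht x => (hh t ht x).2.2.1⟩
theorem gFx : Gr A Fx := by
  obtain ⟨C, n, hC, hh⟩ := h.growth; exact ⟨C, n, hC, fun t ht x => (hh t ht x).2.2.2.1⟩
theorem gFxx : Gr A Fxx := by
  obtain ⟨C, n, hC, hh⟩ := h.growth; exact ⟨C, n, hC, fun t ht x => (hh t ht x).2.2.2.2⟩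

end growth

/-! ### continuity within half strips -/

theorem cw_r {A : SD} {G : ℝ → ℝ → ℝ}
    (h : ContinuousOn (fun q : ℝ × ℝ => G q.1 q.2) (Icc 0 A.T ×ˢ univ)) {t : ℝ}
    (ht : t ∈ Ico 0 A.T) (x : ℝ) :
    ContinuousWithinAt (fun q : ℝ × ℝ => G q.1 q.2) (Ici t ×ˢ univ) (t, x) := by
  have h1 := h (t, x) ⟨⟨ht.1, ht.2.le⟩, mem_univ _⟩
  refine h1.mono_of_mem_nhdsWithin ?_
  rw [nhdsWithin_prod_eq]
  refine prod_mem_prod ?_ univ_mem
  have h2 : Ico t A.T ∈ 𝓝[Ici t] t := Ico_mem_nhdsGE ht.2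
  filter_upwards [h2] with s hs
  exact ⟨ht.1.trans hs.1, hs.2.le⟩

theorem cw_l {A : SD} {G : ℝ → ℝ → ℝ}
    (h : ContinuousOn (fun q : ℝ × ℝ => G q.1 q.2) (Icc 0 A.T ×ˢ univ)) {t : ℝ}
    (ht : t ∈ Ioc 0 A.T) (x : ℝ) :
    ContinuousWithinAt (fun q : ℝ × ℝ => G q.1 q.2) (Iic t ×ˢ univ) (t, x) := by
  have h1 := h (t, x) ⟨⟨ht.1.le, ht.2⟩, mem_univ _⟩
  refine h1.mono_of_mem_nhdsWithin ?_
  rw [nhdsWithin_prod_eq]
  refine prod_mem_prod ?_ univ_mem
  have h2 : Ioc 0 t ∈ 𝓝[Iic t] t := Ioc_mem_nhdsLE ht.1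
  filter_upwards [h2] with s hs
  exact ⟨hs.1.le, hs.2.trans ht.2⟩

theorem ct_r {f : ℝ → ℝ} {t : ℝ} (h : ContinuousWithinAt f (Ici t) t) (x : ℝ) :
    ContinuousWithinAt (fun q : ℝ × ℝ => f q.1) (Ici t ×ˢ (univ : Set ℝ)) (t, x) :=
  ContinuousWithinAt.comp (t := Ici t) (f := fun q : ℝ × ℝ => q.1) (x := (t, x)) h
    continuousWithinAt_fst (fun _ hq => hq.1)

theorem ct_l {f : ℝ → ℝ} {t : ℝ} (h : ContinuousWithinAt f (Iic t) t) (x : ℝ) :
    ContinuousWithinAt (fun q : ℝ × ℝ => f q.1) (Iic t ×ˢ (univ : Set ℝ)) (t, x) :=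
  ContinuousWithinAt.comp (t := Iic t) (f := fun q : ℝ × ℝ => q.1) (x := (t, x)) h
    continuousWithinAt_fst (fun _ hq => hq.1)

/-! ### closure of `Test` -/

theorem tConst (A : SD) (c : ℝ) : Test A (fun _ _ => c) (fun _ _ => 0) (fun _ _ => 0)
    (fun _ _ => 0) (fun _ _ => 0) where
  cF := continuousOn_const
  hx := fun _ _ x => hasDerivAt_const x c
  hxx := fun _ _ x => hasDerivAt_const x 0
  hr := fun t _ _ => hasDerivWithinAt_const t _ c
  hl := fun t _ _ => hasDerivWithinAt_const t _ c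
  cr := fun _ _ _ => continuousWithinAt_const
  cl := fun _ _ _ => continuousWithinAt_const
  cx := continuousOn_const
  cxx := continuousOn_const
  growth := Gr.five (Gr.const A c) (Gr.const A 0) (Gr.const A 0) (Gr.const A 0) (Gr.const A 0)

theorem tX (A : SD) : Test A (fun _ x => x) (fun _ _ => 0) (fun _ _ => 0)
    (fun _ _ => 1) (fun _ _ => 0) where
  cF := continuousOn_snd
  hx := fun _ _ x => hasDerivAt_id x
  hxx := fun _ _ x => hasDerivAt_const x 1
  hr := fun t _ x => hasDerivWithinAt_const t _ x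
  hl := fun t _ x => hasDerivWithinAt_const t _ x
  cr := fun _ _ _ => continuousWithinAt_const
  cl := fun _ _ _ => continuousWithinAt_const
  cx := continuousOn_const
  cxx := continuousOn_const
  growth := Gr.five (Gr.id A) (Gr.const A 0) (Gr.const A 0) (Gr.const A 1) (Gr.const A 0)

theorem tAdd {A : SD} {F Fr Fl Fx Fxx G Gr' Gl Gx Gxx : ℝ → ℝ → ℝ} (h : Test A F Fr Fl Fx Fxx)
    (k : Test A G Gr' Gl Gx Gxx) : Test A (fun t x => F t x + G t x) (fun t x => Fr t x + Gr' t x)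
    (fun t x => Fl t x + Gl t x) (fun t x => Fx t x + Gx t x) (fun t x => Fxx t x + Gxx t x) where
  cF := h.cF.add k.cF
  hx := fun t ht x => (h.hx t ht x).add (k.hx t ht x)
  hxx := fun t ht x => (h.hxx t ht x).add (k.hxx t ht x)
  hr := fun t ht x => (h.hr t ht x).add (k.hr t ht x)
  hl := fun t ht x => (h.hl t ht x).add (k.hl t ht x)
  cr := fun t ht x => (h.cr t ht x).add (k.cr t ht x)
  cl := fun t ht x => (h.cl t ht x).add (k.cl t ht x)
  cx := h.cx.add k.cx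
  cxx := h.cxx.add k.cxx
  growth := Gr.five ((gF h).add (gF k)) ((gFr h).add (gFr k)) ((gFl h).add (gFl k))
    ((gFx h).add (gFx k)) ((gFxx h).add (gFxx k))

theorem tMul {A : SD} {F Fr Fl Fx Fxx G Gr' Gl Gx Gxx : ℝ → ℝ → ℝ} (h : Test A F Fr Fl Fx Fxx)
    (k : Test A G Gr' Gl Gx Gxx) : Test A (fun t x => F t x * G t x)
    (fun t x => Fr t x * G t x + F t x * Gr' t x) (fun t x => Fl t x * G t x + F t x * Gl t x)
    (fun t x => Fx t x * G t x + F t x * Gx t x)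
    (fun t x => Fxx t x * G t x + 2 * (Fx t x * Gx t x) + F t x * Gxx t x) where
  cF := h.cF.mul k.cF
  hx := fun t ht x => (h.hx t ht x).mul (k.hx t ht x)
  hxx := fun t ht x => by
    have h1 := ((h.hxx t ht x).mul (k.hx t ht x)).add ((h.hx t ht x).mul (k.hxx t ht x))
    have e : Fxx t x * G t x + 2 * (Fx t x * Gx t x) + F t x * Gxx t x =
        Fxx t x * G t x + Fx t x * Gx t x + (Fx t x * Gx t x + F t x * Gxx t x) := by ring
    rw [e]
    exact h1
  hr := fun t ht x => (h.hr t ht x).mul (k.hr t ht x)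
  hl := fun t ht x => (h.hl t ht x).mul (k.hl t ht x)
  cr := fun t ht x => ((h.cr t ht x).mul (cw_r k.cF ht x)).add ((cw_r h.cF ht x).mul (k.cr t ht x))
  cl := fun t ht x => ((h.cl t ht x).mul (cw_l k.cF ht x)).add ((cw_l h.cF ht x).mul (k.cl t ht x))
  cx := (h.cx.mul k.cF).add (h.cF.mul k.cx)
  cxx := ((h.cxx.mul k.cF).add (continuousOn_const.mul (h.cx.mul k.cx))).add (h.cF.mul k.cxx)
  growth := Gr.five ((gF h).mul (gF k))
    (((gFr h).mul (gF k)).add ((gF h).mul (gFr k)))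
    (((gFl h).mul (gF k)).add ((gF h).mul (gFl k)))
    (((gFx h).mul (gF k)).add ((gF h).mul (gFx k)))
    ((((gFxx h).mul (gF k)).add (((gFx h).mul (gFx k)).const_mul 2)).add ((gF h).mul (gFxx k)))

/-- change of the representatives -/
theorem tCongr {A : SD} {F Fr Fl Fx Fxx G Gr' Gl Gx Gxx : ℝ → ℝ → ℝ} (h : Test A F Fr Fl Fx Fxx)
    (e : ∀ t x, F t x = G t x) (er : ∀ t x, Fr t x = Gr' t x) (el : ∀ t x, Fl t x = Gl t x)
    (ex : ∀ t x, Fx t x = Gx t x) (exx : ∀ t x, Fxx t x = Gxx t x) : Test A G Gr' Gl Gx Gxx := by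
  have e1 : F = G := by funext t x; exact e t x
  have e2 : Fr = Gr' := by funext t x; exact er t x
  have e3 : Fl = Gl := by funext t x; exact el t x
  have e4 : Fx = Gx := by funext t x; exact ex t x
  have e5 : Fxx = Gxx := by funext t x; exact exx t x
  subst e1 e2 e3 e4 e5
  exact h

theorem tSmul {A : SD} {F Fr Fl Fx Fxx : ℝ → ℝ → ℝ} (c : ℝ) (h : Test A F Fr Fl Fx Fxx) :
    Test A (fun t x => c * F t x) (fun t x => c * Fr t x) (fun t x => c * Fl t x)
    (fun t x => c * Fx t x) (fun t x => c * Fxx t x) :=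
  tCongr (tMul (tConst A c) h) (fun _ _ => rfl) (fun _ _ => by ring) (fun _ _ => by ring)
    (fun _ _ => by ring) (fun _ _ => by ring)

theorem tNeg {A : SD} {F Fr Fl Fx Fxx : ℝ → ℝ → ℝ} (h : Test A F Fr Fl Fx Fxx) :
    Test A (fun t x => -F t x) (fun t x => -Fr t x) (fun t x => -Fl t x)
    (fun t x => -Fx t x) (fun t x => -Fxx t x) :=
  tCongr (tSmul (-1) h) (fun _ _ => by ring) (fun _ _ => by ring) (fun _ _ => by ring)
    (fun _ _ => by ring) (fun _ _ => by ring)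

theorem tSub {A : SD} {F Fr Fl Fx Fxx G Gr' Gl Gx Gxx : ℝ → ℝ → ℝ} (h : Test A F Fr Fl Fx Fxx)
    (k : Test A G Gr' Gl Gx Gxx) : Test A (fun t x => F t x - G t x) (fun t x => Fr t x - Gr' t x)
    (fun t x => Fl t x - Gl t x) (fun t x => Fx t x - Gx t x) (fun t x => Fxx t x - Gxx t x) :=
  tCongr (tAdd h (tNeg k)) (fun _ _ => by ring) (fun _ _ => by ring) (fun _ _ => by ring)
    (fun _ _ => by ring) (fun _ _ => by ring)

/-- a function of time only -/
theorem tTime {A : SD} {f fr fl : ℝ → ℝ} {M : ℝ} (hc : ContinuousOn f (Icc 0 A.T))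
    (hr : ∀ t ∈ Ico 0 A.T, HasDerivWithinAt f (fr t) (Ici t) t)
    (hl : ∀ t ∈ Ioc 0 A.T, HasDerivWithinAt f (fl t) (Iic t) t)
    (cr : ∀ t ∈ Ico 0 A.T, ContinuousWithinAt fr (Ici t) t)
    (cl : ∀ t ∈ Ioc 0 A.T, ContinuousWithinAt fl (Iic t) t)
    (hM : ∀ t ∈ Icc 0 A.T, |f t| ≤ M ∧ |fr t| ≤ M ∧ |fl t| ≤ M) :
    Test A (fun t _ => f t) (fun t _ => fr t) (fun t _ => fl t) (fun _ _ => 0) (fun _ _ => 0) where
  cF := hc.comp continuousOn_fst (fun _ hq => hq.1)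
  hx := fun _ _ x => hasDerivAt_const x _
  hxx := fun _ _ x => hasDerivAt_const x _
  hr := fun t ht _ => hr t ht
  hl := fun t ht _ => hl t ht
  cr := fun t ht x => ct_r (cr t ht) x
  cl := fun t ht x => ct_l (cl t ht) x
  cx := continuousOn_const
  cxx := continuousOn_const
  growth := Gr.five (Gr.of_t fun t ht => (hM t ht).1) (Gr.of_t fun t ht => (hM t ht).2.1)
    (Gr.of_t fun t ht => (hM t ht).2.2) (Gr.const A 0) (Gr.const A 0)

/-! ### growth and continuity of the fields -/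

section fields
variable {A : SD} (hB : Back A) (hC : Clock A)

include hB in
theorem gU : Gr A A.u := by
  obtain ⟨M, hM⟩ := hB.bsys
  refine ⟨|M|, 1, abs_nonneg M, fun t ht x => ?_⟩
  rw [abs_of_nonneg (hM.u_nonneg t ht x), pow_one]
  exact (hM.u_le t ht x).trans (mul_le_mul_of_nonneg_right (le_abs_self M) (by positivity))

include hB in
theorem gV : Gr A A.V := by
  obtain ⟨M, hM⟩ := hB.bsys
  refine ⟨1, 0, zero_le_one, fun t ht x => ?_⟩
  rw [abs_of_pos (hM.V_pos t ht x)]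
  simpa using (hM.V_lt t ht x).le

include hB in
theorem gP : Gr A A.P := by
  obtain ⟨M, hM⟩ := hB.bsys
  refine ⟨|M|, 0, abs_nonneg M, fun t ht x => ?_⟩
  rw [abs_of_nonneg (hM.P_nonneg t ht x)]
  simpa using (hM.P_le t ht x).trans (le_abs_self M)

include hB in
theorem gPx : Gr A A.Px := by
  obtain ⟨C, n, hC, h⟩ := hB.growth
  exact ⟨C, n, hC, fun t ht x => (h t ht x).2.1⟩

include hB in
theorem gPxx : Gr A A.Pxx := by
  obtain ⟨C, n, hC, h⟩ := hB.growth
  exact ⟨C, n, hC, fun t ht x => (h t ht x).2.2⟩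

include hB in
theorem gb : Gr A (fun t _ => A.b t) := by
  obtain ⟨M, hM⟩ := hB.bsys
  refine Gr.of_t (M := M) fun t ht => ?_
  rw [abs_of_nonneg (hM.b_nonneg t ht)]
  exact hM.b_le t ht

theorem gbl : Gr A (fun t _ => A.bl t) := by
  obtain ⟨M, _, hM⟩ := bl_bdd A
  exact Gr.of_t (M := M) fun t _ => hM t

theorem gE : Gr A (fun t _ => A.E t) := Gr.of_t (M := 1 / A.d) fun t _ => E_le A t

include hB in
theorem cU : ContinuousOn (fun q : ℝ × ℝ => A.u q.1 q.2) (Icc 0 A.T ×ˢ univ) := by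
  obtain ⟨M, hM⟩ := hB.bsys; exact hM.cu
include hB in
theorem cV : ContinuousOn (fun q : ℝ × ℝ => A.V q.1 q.2) (Icc 0 A.T ×ˢ univ) := by
  obtain ⟨M, hM⟩ := hB.bsys; exact hM.cV
include hB in
theorem cP : ContinuousOn (fun q : ℝ × ℝ => A.P q.1 q.2) (Icc 0 A.T ×ˢ univ) := by
  obtain ⟨M, hM⟩ := hB.bsys; exact hM.cP

include hC in
theorem cb {t : ℝ} (x : ℝ) :
    ContinuousWithinAt (fun q : ℝ × ℝ => A.b q.1) (Ici t ×ˢ (univ : Set ℝ)) (t, x) :=
  ct_r (b_cont hC t) x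
include hC in
theorem cbl {t : ℝ} (x : ℝ) :
    ContinuousWithinAt (fun q : ℝ × ℝ => A.bl q.1) (Iic t ×ˢ (univ : Set ℝ)) (t, x) :=
  ct_l (bl_cont hC t) x

/-! ### the basic tests -/

include hB hC in
theorem tU : Test A A.u (fun t x => -(A.P t x / 2 + A.b t * A.u t x * A.V t x))
    (fun t x => -(A.P t x / 2 + A.bl t * A.u t x * A.V t x)) (fun t x => A.V t x - 1) A.P where
  cF := cU hB
  hx := hB.u_x
  hxx := fun t ht x => (hB.V_x t ht x).sub_const 1
  hr := by obtain ⟨M, hM⟩ := hB.bsys; exact hM.hut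
  hl := hB.u_tl
  cr := fun t ht x => (((cw_r (cP hB) ht x).div_const 2).add
    (((cb hC x).mul (cw_r (cU hB) ht x)).mul (cw_r (cV hB) ht x))).neg
  cl := fun t ht x => (((cw_l (cP hB) ht x).div_const 2).add
    (((cbl hC x).mul (cw_l (cU hB) ht x)).mul (cw_l (cV hB) ht x))).neg
  cx := (cV hB).sub continuousOn_const
  cxx := cP hB
  growth := Gr.five (gU hB) ((gP hB).div_two.add (((gb hB).mul (gU hB)).mul (gV hB))).neg
    ((gP hB).div_two.add ((gbl.mul (gU hB)).mul (gV hB))).neg ((gV hB).sub (Gr.const A 1)) (gP hB)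

include hB hC in
theorem tV : Test A A.V
    (fun t x => -(A.Px t x / 2 + A.b t * A.u t x * A.P t x) + A.b t * A.V t x * (1 - A.V t x))
    (fun t x => -(A.Px t x / 2 + A.bl t * A.u t x * A.P t x) + A.bl t * A.V t x * (1 - A.V t x))
    A.P A.Px where
  cF := cV hB
  hx := hB.V_x
  hxx := hB.P_x
  hr := by obtain ⟨M, hM⟩ := hB.bsys; exact hM.hVt
  hl := hB.V_tl
  cr := fun t ht x => ((((cw_r hB.Px_cont ht x).div_const 2).add
    (((cb hC x).mul (cw_r (cU hB) ht x)).mul (cw_r (cP hB) ht x))).neg).add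
    (((cb hC x).mul (cw_r (cV hB) ht x)).mul (continuousWithinAt_const.sub (cw_r (cV hB) ht x)))
  cl := fun t ht x => ((((cw_l hB.Px_cont ht x).div_const 2).add
    (((cbl hC x).mul (cw_l (cU hB) ht x)).mul (cw_l (cP hB) ht x))).neg).add
    (((cbl hC x).mul (cw_l (cV hB) ht x)).mul (continuousWithinAt_const.sub (cw_l (cV hB) ht x)))
  cx := cP hB
  cxx := hB.Px_cont
  growth := Gr.five (gV hB)
    (((gPx hB).div_two.add (((gb hB).mul (gU hB)).mul (gP hB))).neg.add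
      (((gb hB).mul (gV hB)).mul ((Gr.const A 1).sub (gV hB))))
    (((gPx hB).div_two.add ((gbl.mul (gU hB)).mul (gP hB))).neg.add
      ((gbl.mul (gV hB)).mul ((Gr.const A 1).sub (gV hB)))) (gP hB) (gPx hB)

include hB hC in
theorem tP : Test A A.P
    (fun t x => -(A.Pxx t x / 2 + A.b t * A.u t x * A.Px t x) +
      A.b t * (2 - 3 * A.V t x) * A.P t x)
    (fun t x => -(A.Pxx t x / 2 + A.bl t * A.u t x * A.Px t x) +
      A.bl t * (2 - 3 * A.V t x) * A.P t x)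
    A.Px A.Pxx where
  cF := cP hB
  hx := hB.P_x
  hxx := hB.Px_x
  hr := by obtain ⟨M, hM⟩ := hB.bsys; exact hM.hPt
  hl := hB.P_tl
  cr := fun t ht x => ((((cw_r hB.Pxx_cont ht x).div_const 2).add
    (((cb hC x).mul (cw_r (cU hB) ht x)).mul (cw_r hB.Px_cont ht x))).neg).add
    (((cb hC x).mul (continuousWithinAt_const.sub
      (continuousWithinAt_const.mul (cw_r (cV hB) ht x)))).mul (cw_r (cP hB) ht x))
  cl := fun t ht x => ((((cw_l hB.Pxx_cont ht x).div_const 2).add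
    (((cbl hC x).mul (cw_l (cU hB) ht x)).mul (cw_l hB.Px_cont ht x))).neg).add
    (((cbl hC x).mul (continuousWithinAt_const.sub
      (continuousWithinAt_const.mul (cw_l (cV hB) ht x)))).mul (cw_l (cP hB) ht x))
  cx := hB.Px_cont
  cxx := hB.Pxx_cont
  growth := Gr.five (gP hB)
    (((gPxx hB).div_two.add (((gb hB).mul (gU hB)).mul (gPx hB))).neg.add
      (((gb hB).mul ((Gr.const A 2).sub ((gV hB).const_mul 3))).mul (gP hB)))
    (((gPxx hB).div_two.add ((gbl.mul (gU hB)).mul (gPx hB))).neg.add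
      ((gbl.mul ((Gr.const A 2).sub ((gV hB).const_mul 3))).mul (gP hB))) (gPx hB) (gPxx hB)

include hB hC in
theorem tE : Test A (fun t _ => A.E t) (fun t _ => A.b t * A.E t) (fun t _ => A.bl t * A.E t)
    (fun _ _ => 0) (fun _ _ => 0) := by
  obtain ⟨C1, n1, hC1, h1⟩ := gb hB
  obtain ⟨M, hM0, hM⟩ := bl_bdd A
  have hd : 0 < 1 / A.d := one_div_pos.2 A.hd
  refine tTime (M := 1 / A.d + C1 * (1 / A.d) + M * (1 / A.d)) (E_cont hC).continuousOn
    (fun t ht => E_r hC ht) (fun t ht => E_l hC ht)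
    (fun t _ => (b_cont hC t).mul (E_cont hC).continuousWithinAt)
    (fun t _ => (bl_cont hC t).mul (E_cont hC).continuousWithinAt) (fun t ht => ?_)
  have h2 : |A.b t| ≤ C1 := by simpa using h1 t ht 0
  have h3 := hM t
  have h4 := E_le A t
  have h5 : |A.b t * A.E t| ≤ C1 * (1 / A.d) := by
    rw [abs_mul]; exact mul_le_mul h2 h4 (abs_nonneg _) hC1
  have h6 : |A.bl t * A.E t| ≤ M * (1 / A.d) := by
    rw [abs_mul]; exact mul_le_mul h3 h4 (abs_nonneg _) hM0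
  have h7 : 0 ≤ C1 * (1 / A.d) := mul_nonneg hC1 hd.le
  have h8 : 0 ≤ M * (1 / A.d) := mul_nonneg hM0 hd.le
  exact ⟨by linarith, by linarith, by linarith⟩

/-- `w = x + u` -/
theorem tW (hB : Back A) (hC : Clock A) : Test A A.w
    (fun t x => -(A.P t x / 2 + A.b t * A.u t x * A.V t x))
    (fun t x => -(A.P t x / 2 + A.bl t * A.u t x * A.V t x)) A.V A.P :=
  tCongr (tAdd (tX A) (tU hB hC)) (fun _ _ => rfl) (fun _ _ => by ring) (fun _ _ => by ring)
    (fun _ _ => by ring) (fun _ _ => by ring)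

/-- `R = 1 - V` -/
theorem tR (hB : Back A) (hC : Clock A) : Test A (fun t x => 1 - A.V t x)
    (fun t x => (A.Px t x / 2 + A.b t * A.u t x * A.P t x) - A.b t * A.V t x * (1 - A.V t x))
    (fun t x => (A.Px t x / 2 + A.bl t * A.u t x * A.P t x) - A.bl t * A.V t x * (1 - A.V t x))
    (fun t x => -A.P t x) (fun t x => -A.Px t x) :=
  tCongr (tSub (tConst A 1) (tV hB hC)) (fun _ _ => rfl) (fun _ _ => by ring)
    (fun _ _ => by ring) (fun _ _ => by ring) (fun _ _ => by ring)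

/-! ### `PG` of the slices -/

theorem pgU (hB : Back A) {t : ℝ} (ht : t ∈ Icc 0 A.T) : PG (A.u t) := by
  obtain ⟨C, n, hC, h⟩ := gU hB
  exact ⟨continuous_iff_continuousAt.2 fun x => (hB.u_x t ht x).continuousAt, C, n, hC, h t ht⟩

theorem pgV (hB : Back A) {t : ℝ} (ht : t ∈ Icc 0 A.T) : PG (A.V t) := by
  obtain ⟨C, n, hC, h⟩ := gV hB
  exact ⟨continuous_iff_continuousAt.2 fun x => (hB.V_x t ht x).continuousAt, C, n, hC, h t ht⟩

theorem pgP (hB : Back A) {t : ℝ} (ht : t ∈ Icc 0 A.T) : PG (A.P t) := by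
  obtain ⟨C, n, hC, h⟩ := gP hB
  exact ⟨continuous_iff_continuousAt.2 fun x => (hB.P_x t ht x).continuousAt, C, n, hC, h t ht⟩

theorem pgPx (hB : Back A) {t : ℝ} (ht : t ∈ Icc 0 A.T) : PG (A.Px t) := by
  obtain ⟨C, n, hC, h⟩ := gPx hB
  exact ⟨continuous_iff_continuousAt.2 fun x => (hB.Px_x t ht x).continuousAt, C, n, hC, h t ht⟩

theorem pgPxx (hB : Back A) {t : ℝ} (ht : t ∈ Icc 0 A.T) : PG (A.Pxx t) := by
  obtain ⟨C, n, hC, h⟩ := gPxx hB
  refine ⟨?_, C, n, hC, h t ht⟩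
  have h1 : ContinuousOn (fun x => A.Pxx t x) univ :=
    hB.Pxx_cont.comp (f := fun x : ℝ => (t, x)) (by fun_prop) (fun x _ => ⟨ht, mem_univ _⟩)
  exact continuousOn_univ.1 h1

theorem pgR (hB : Back A) {t : ℝ} (ht : t ∈ Icc 0 A.T) : PG (fun x => 1 - A.V t x) :=
  (PG.const 1).sub (pgV hB ht)

theorem pgW (hB : Back A) {t : ℝ} (ht : t ∈ Icc 0 A.T) : PG (A.w t) := PG.id.add (pgU hB ht)

end fields

/-! ### linearity of `ex` -/

section linear
variable {A : SD} {x0 : ℝ} {p Y Yx Yxx : ℝ → ℝ → ℝ}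

theorem integrable_of_pg (hL : Law A x0 p Y Yx Yxx) {t : ℝ} (ht : t ∈ Ioc 0 A.T) {f : ℝ → ℝ}
    (hf : PG f) : Integrable (fun x => p t x * f x) := by
  obtain ⟨C, n, hC, h⟩ := hf.bd
  obtain ⟨_, h1⟩ := hL.mom n
  have h2 := ((h1 t ht).1).const_mul C
  have hp : Continuous (p t) := continuous_iff_continuousAt.2 fun x => (hL.p_x t ht x).continuousAt
  refine h2.mono' (hp.mul hf.cont).aestronglyMeasurable (Eventually.of_forall fun x => ?_)
  have h3 := hL.p_pos t ht x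
  rw [Real.norm_eq_abs, abs_mul, abs_of_pos h3]
  calc p t x * |f x| ≤ p t x * (C * (1 + |x|) ^ n) := mul_le_mul_of_nonneg_left (h x) h3.le
    _ = C * (p t x * (1 + |x|) ^ n) := by ring

theorem ex_add (hL : Law A x0 p Y Yx Yxx) {t : ℝ} (ht : t ∈ Icc 0 A.T) {f g : ℝ → ℝ}
    (hf : PG f) (hg : PG g) :
    ex x0 p t (fun x => f x + g x) = ex x0 p t f + ex x0 p t g := by
  unfold ex
  split_ifs with h
  · rfl
  · have ht' : t ∈ Ioc 0 A.T := ⟨not_le.1 h, ht.2⟩
    rw [← integral_add (integrable_of_pg hL ht' hf) (integrable_of_pg hL ht' hg)]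
    congr 1
    funext x
    ring

theorem ex_smul (x0 : ℝ) (p : ℝ → ℝ → ℝ) (t c : ℝ) (f : ℝ → ℝ) :
    ex x0 p t (fun x => c * f x) = c * ex x0 p t f := by
  unfold ex
  split_ifs with h
  · rfl
  · rw [← integral_const_mul]
    congr 1
    funext x
    ring

theorem ex_congr {x0 : ℝ} {p : ℝ → ℝ → ℝ} {t : ℝ} {f g : ℝ → ℝ} (h : ∀ x, f x = g x) :
    ex x0 p t f = ex x0 p t g := by
  have : f = g := funext h
  rw [this]

theorem ex_sub (hL : Law A x0 p Y Yx Yxx) {t : ℝ} (ht : t ∈ Icc 0 A.T) {f g : ℝ → ℝ}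
    (hf : PG f) (hg : PG g) :
    ex x0 p t (fun x => f x - g x) = ex x0 p t f - ex x0 p t g := by
  have h1 := ex_add hL ht hf (hg.const_mul (-1))
  rw [ex_smul] at h1
  rw [sub_eq_add_neg, ← neg_one_mul, ← h1]
  exact ex_congr fun x => by ring

theorem ex_zero_time (x0 : ℝ) (p : ℝ → ℝ → ℝ) (f : ℝ → ℝ) : ex x0 p 0 f = f x0 := by
  simp [ex]

theorem ex_const (hL : Law A x0 p Y Yx Yxx) {t : ℝ} (ht : t ∈ Icc 0 A.T) (c : ℝ) :
    ex x0 p t (fun _ => c) = c := by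
  unfold ex
  split_ifs with h
  · rfl
  · have ht' : t ∈ Ioc 0 A.T := ⟨not_le.1 h, ht.2⟩
    rw [integral_mul_const, hL.mass t ht', one_mul]

/-- two one-sided derivatives -/
theorem two_sided {T : ℝ} {f f' : ℝ → ℝ} (hr : ∀ t ∈ Ico 0 T, HasDerivWithinAt f (f' t) (Ici t) t)
    (hl : ∀ t ∈ Ioc 0 T, HasDerivWithinAt f (f' t) (Iic t) t) (hT : 0 < T) :
    ∀ t ∈ Icc 0 T, HasDerivWithinAt f (f' t) (Icc 0 T) t := by
  intro t ht
  rcases eq_or_lt_of_le ht.1 with h0 | h0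
  · subst h0
    exact (hr 0 ⟨le_rfl, hT⟩).mono (fun s hs => hs.1)
  · rcases eq_or_lt_of_le ht.2 with h1 | h1
    · have h2 := hl t ⟨h0, ht.2⟩
      exact h2.mono (fun s hs => by rw [mem_Iic, h1]; exact hs.2)
    · have h2 := (hl t ⟨h0, ht.2⟩).union (hr t ⟨ht.1, h1⟩)
      rw [Iic_union_Ici] at h2
      exact h2.mono (subset_univ _)

end linear

/-! ### the scalar identities -/

section scal
variable {A : SD} {x0 : ℝ} {p Y Yx Yxx : ℝ → ℝ → ℝ}
  (hB : Back A) (hC : Clock A) (hL : Law A x0 p Y Yx Yxx)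

theorem Ico_sub {T t : ℝ} (ht : t ∈ Ico 0 T) : t ∈ Icc 0 T := ⟨ht.1, ht.2.le⟩
theorem Ioc_sub {T t : ℝ} (ht : t ∈ Ioc 0 T) : t ∈ Icc 0 T := ⟨ht.1.le, ht.2⟩

include hB hC hL

theorem Ts_t : ∀ t ∈ Ico 0 A.T,
    HasDerivWithinAt (Ts A x0 p) (Ns A x0 p t - 2 * A.b t * Zs A x0 p t) (Ici t) t := by
  intro t ht
  have ht' := Ico_sub ht
  have h := hL.ex_r _ _ _ _ _ (tMul (tR hB hC) (tR hB hC)) t ht
  have e1 : (fun s => ex x0 p s (fun x => (1 - A.V s x) * (1 - A.V s x))) = Ts A x0 p := by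
    funext s
    exact ex_congr fun x => by ring
  have h1 := ex_sub hL ht' ((pgP hB ht').pow 2)
    ((((pgR hB ht').pow 2).mul (pgV hB ht')).const_mul (2 * A.b t))
  rw [ex_smul] at h1
  rw [e1] at h
  refine h.congr_deriv ?_
  rw [show Ns A x0 p t - 2 * A.b t * Zs A x0 p t = _ from h1.symm]
  exact ex_congr fun x => by ring

theorem Qs_t : ∀ t ∈ Ico 0 A.T, HasDerivWithinAt (Qs A x0 p)
    (-A.b t * Qs A x0 p t - (Ns A x0 p t - 2 * A.b t * Zs A x0 p t)) (Ici t) t := by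
  intro t ht
  have ht' := Ico_sub ht
  have h := hL.ex_r _ _ _ _ _ (tMul (tR hB hC) (tV hB hC)) t ht
  have e1 : (fun s => ex x0 p s (fun x => (1 - A.V s x) * A.V s x)) = Qs A x0 p := rfl
  have h1 := ex_sub hL ht' ((pgP hB ht').pow 2)
    ((((pgR hB ht').pow 2).mul (pgV hB ht')).const_mul (2 * A.b t))
  have h2 := ex_sub hL ht' (((pgR hB ht').mul (pgV hB ht')).const_mul (-A.b t))
    (((pgP hB ht').pow 2).sub
      ((((pgR hB ht').pow 2).mul (pgV hB ht')).const_mul (2 * A.b t)))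
  rw [ex_smul] at h1 h2
  rw [h1] at h2
  rw [e1] at h
  refine h.congr_deriv ?_
  rw [show -A.b t * Qs A x0 p t - (Ns A x0 p t - 2 * A.b t * Zs A x0 p t) = _ from h2.symm]
  exact ex_congr fun x => by ring

theorem Lams_t : ∀ t ∈ Icc 0 A.T,
    HasDerivWithinAt (Lams A x0 p) (A.E t ^ 2 * Ts A x0 p t) (Icc 0 A.T) t := by
  have hT := tMul (tMul (tE hB hC) (tE hB hC)) (tMul (tU hB hC) (tU hB hC))
  have e1 : (fun s => ex x0 p s (fun x => A.E s * A.E s * (A.u s x * A.u s x))) =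
      Lams A x0 p := by
    funext s
    rw [show Lams A x0 p s = _ from (ex_smul x0 p s (A.E s ^ 2) _).symm]
    exact ex_congr fun x => by ring
  refine two_sided (fun t ht => ?_) (fun t ht => ?_) A.hT0
  · have h := hL.ex_r _ _ _ _ _ hT t ht
    rw [e1] at h
    refine h.congr_deriv ?_
    rw [show A.E t ^ 2 * Ts A x0 p t = _ from (ex_smul x0 p t (A.E t ^ 2) _).symm]
    exact ex_congr fun x => by ring
  · have h := hL.ex_l _ _ _ _ _ hT t ht
    rw [e1] at h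
    refine h.congr_deriv ?_
    rw [show A.E t ^ 2 * Ts A x0 p t = _ from (ex_smul x0 p t (A.E t ^ 2) _).symm]
    exact ex_congr fun x => by ring

theorem Cs_t : ∀ t ∈ Icc 0 A.T,
    HasDerivWithinAt (Cs A x0 p) (-(A.E t * Qs A x0 p t)) (Icc 0 A.T) t := by
  have hT := tMul (tE hB hC) (tMul (tW hB hC) (tU hB hC))
  have e1 : (fun s => ex x0 p s (fun x => A.E s * (A.w s x * A.u s x))) = Cs A x0 p := by
    funext s
    exact ex_smul x0 p s (A.E s) _
  refine two_sided (fun t ht => ?_) (fun t ht => ?_) A.hT0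
  · have h := hL.ex_r _ _ _ _ _ hT t ht
    rw [e1] at h
    refine h.congr_deriv ?_
    rw [← neg_mul, show -A.E t * Qs A x0 p t = _ from (ex_smul x0 p t (-A.E t) _).symm]
    exact ex_congr fun x => by simp only [SD.w]; ring
  · have h := hL.ex_l _ _ _ _ _ hT t ht
    rw [e1] at h
    refine h.congr_deriv ?_
    rw [← neg_mul, show -A.E t * Qs A x0 p t = _ from (ex_smul x0 p t (-A.E t) _).symm]
    exact ex_congr fun x => by simp only [SD.w]; ring

theorem mean_lam : ∀ t ∈ Icc 0 A.T, A.E t * ex x0 p t (A.u t) = A.E 0 * A.u 0 x0 := by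
  have hT := tMul (tE hB hC) (tU hB hC)
  have e1 : ∀ s, ex x0 p s (fun x => A.E s * A.u s x) = A.E s * ex x0 p s (A.u s) := fun s =>
    ex_smul x0 p s (A.E s) _
  have hc := hL.ex_cont _ _ _ _ _ hT
  have key := constant_of_has_deriv_right_zero hc (fun t ht => by
    have h := hL.ex_r _ _ _ _ _ hT t ht
    refine h.congr_deriv (Eq.trans (ex_congr (g := fun _ => (0 : ℝ)) fun x => ?_)
      (ex_const hL (Ico_sub ht) 0))
    ring)
  intro t ht
  have h1 := key t ht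
  simp only [e1] at h1
  rw [h1, ex_zero_time]

theorem mean_h : ∀ t ∈ Icc 0 A.T, ex x0 p t (A.w t) = A.w 0 x0 := by
  have hT := tW hB hC
  have hc := hL.ex_cont _ _ _ _ _ hT
  have key := constant_of_has_deriv_right_zero hc (fun t ht => by
    have h := hL.ex_r _ _ _ _ _ hT t ht
    refine h.congr_deriv (Eq.trans (ex_congr (g := fun _ => (0 : ℝ)) fun x => ?_)
      (ex_const hL (Ico_sub ht) 0))
    ring)
  intro t ht
  have h1 := key t ht
  rw [h1, ex_zero_time]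

theorem cont : ContinuousOn (Ts A x0 p) (Icc 0 A.T) ∧ ContinuousOn (Qs A x0 p) (Icc 0 A.T) ∧
    ContinuousOn (Ns A x0 p) (Icc 0 A.T) ∧ ContinuousOn (Zs A x0 p) (Icc 0 A.T) := by
  refine ⟨?_, ?_, ?_, ?_⟩
  · refine (hL.ex_cont _ _ _ _ _ (tMul (tR hB hC) (tR hB hC))).congr fun t _ => ?_
    exact ex_congr fun x => by ring
  · exact hL.ex_cont _ _ _ _ _ (tMul (tR hB hC) (tV hB hC))
  · refine (hL.ex_cont _ _ _ _ _ (tMul (tP hB hC) (tP hB hC))).congr fun t _ => ?_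
    exact ex_congr fun x => by ring
  · refine (hL.ex_cont _ _ _ _ _
      (tMul (tMul (tR hB hC) (tR hB hC)) (tV hB hC))).congr fun t _ => ?_
    exact ex_congr fun x => by ring

end scal

/-- all fields of `Scal` except `K_t` (task 119) -/
theorem scal (A : SD) (x0 : ℝ) (p Y Yx Yxx : ℝ → ℝ → ℝ) (hB : Back A) (hC : Clock A)
    (hL : Law A x0 p Y Yx Yxx)
    (hK : ∀ t ∈ Ico 0 A.T, HasDerivWithinAt (fun s => Ns A x0 p s - 2 * A.b s * Zs A x0 p s)
      (2 * A.b t * (Ns A x0 p t - 2 * A.b t * Zs A x0 p t) + Ls A x0 p t) (Ici t) t) :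
    Scal A x0 p where
  Ts_t := Ts_t hB hC hL
  Qs_t := Qs_t hB hC hL
  Lams_t := Lams_t hB hC hL
  Cs_t := Cs_t hB hC hL
  mean_lam := mean_lam hB hC hL
  mean_h := mean_h hB hC hL
  cont := cont hB hC hL
  K_t := hK

end

end Crest.Agent.R146.StepScal_774
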