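import Crest.Agent.R146.StepDef_791

/-!
Row 146, package PT-STEP: the library of TEST FUNCTIONS for the step system (helper168).

* `ex` calculus: `Law.integrable`, `ex_add`, `ex_sub`, `ex_neg`, `ex_const_mul`, `ex_const`, `ex_mono`,
  `ex_nonneg`, `ex_pos`, `abs_ex_le`, `ex_sum`;
* right/left continuity and boundedness of the weights `m, ml, b, bl`;
* `TF A`: bundled test functions (`F, Fr, Fl, Fx, Fxx` and the proof of `Test`), with
  `const, tfun, add, sub, neg, smul, mul, pow`, and the instances `tx, tu, tw, tV, tR, tP, tE`;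
* generators `gr` (right), `gl` (left): product rule `mul_gr`, `mul_gl`, and
  `gr_u = -b u`, `gr_w = 0`, `gr_V = b V (1-V)`, `gr_P = b (2-3V) P`, `gr_E = b E`, ...
* `TF.ex_r`, `TF.ex_l`, `TF.ex_cont`: the expectation identities of `Law` in this form.
-/

set_option autoImplicit false
set_option linter.unusedVariables false

namespace Crest.Agent.R146.StepTest_168

open MeasureTheory ProbabilityTheory Set Filter Topology
open Crest.Agent.R146.StepDef_791
open Crest.Agent.R146.Hg_534 Crest.Agent.R146.PB_534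
open Crest.Agent.R146.MaxPCmp_371 (BSys)

noncomputable section

/-! ### `ex` calculus -/

section exx

variable {A : SD} {x0 : ℝ} {p Y Yx Yxx : ℝ → ℝ → ℝ}

theorem ex_of_le {t : ℝ} (ht : t ≤ 0) (f : ℝ → ℝ) : ex x0 p t f = f x0 := by
  unfold ex; rw [if_pos ht]

theorem ex_of_pos {t : ℝ} (ht : 0 < t) (f : ℝ → ℝ) : ex x0 p t f = ∫ x, p t x * f x := by
  unfold ex; rw [if_neg (not_le.2 ht)]

theorem ex_congr (t : ℝ) {f g : ℝ → ℝ} (h : ∀ x, f x = g x) : ex x0 p t f = ex x0 p t g := by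
  rw [show f = g from funext h]

theorem law_p_continuous (hL : Law A x0 p Y Yx Yxx) {t : ℝ} (ht : t ∈ Ioc 0 A.T) :
    Continuous (p t) :=
  continuous_iff_continuousAt.2 fun x => (hL.p_x t ht x).continuousAt

/-- integrability of functions of polynomial growth against the law -/
theorem law_integrable (hL : Law A x0 p Y Yx Yxx) {t : ℝ} (ht : t ∈ Ioc 0 A.T) {f : ℝ → ℝ}
    (hf : PG f) : Integrable (fun x => p t x * f x) := by
  obtain ⟨C, n, hC, hb⟩ := hf.bd
  obtain ⟨C', hC'⟩ := hL.mom n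
  have h1 := ((hC' t ht).1).const_mul C
  refine h1.mono' (((law_p_continuous hL ht).mul hf.cont).aestronglyMeasurable) ?_
  refine Eventually.of_forall fun x => ?_
  have hp := (hL.p_pos t ht x).le
  rw [Real.norm_eq_abs, abs_mul, abs_of_nonneg hp]
  calc p t x * |f x| ≤ p t x * (C * (1 + |x|) ^ n) := mul_le_mul_of_nonneg_left (hb x) hp
    _ = C * (p t x * (1 + |x|) ^ n) := by ring

theorem ex_add (hL : Law A x0 p Y Yx Yxx) {t : ℝ} (ht : t ≤ A.T) {f g : ℝ → ℝ}
    (hf : PG f) (hg : PG g) :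
    ex x0 p t (fun x => f x + g x) = ex x0 p t f + ex x0 p t g := by
  rcases le_or_gt t 0 with h | h
  · simp only [ex_of_le h]
  · simp only [ex_of_pos h]
    rw [← integral_add (law_integrable hL ⟨h, ht⟩ hf) (law_integrable hL ⟨h, ht⟩ hg)]
    congr 1; funext x; ring

theorem ex_const_mul (t c : ℝ) (f : ℝ → ℝ) :
    ex x0 p t (fun x => c * f x) = c * ex x0 p t f := by
  rcases le_or_gt t 0 with h | h
  · simp only [ex_of_le h]
  · simp only [ex_of_pos h]
    rw [← integral_const_mul]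
    congr 1; funext x; ring

theorem ex_mul_const (t c : ℝ) (f : ℝ → ℝ) :
    ex x0 p t (fun x => f x * c) = ex x0 p t f * c := by
  rw [mul_comm, ← ex_const_mul]
  exact ex_congr t fun x => mul_comm _ _

theorem ex_div_const (t c : ℝ) (f : ℝ → ℝ) :
    ex x0 p t (fun x => f x / c) = ex x0 p t f / c := by
  simp only [div_eq_mul_inv]; exact ex_mul_const t _ f

theorem ex_neg (t : ℝ) (f : ℝ → ℝ) : ex x0 p t (fun x => -f x) = -ex x0 p t f := by
  have := ex_const_mul (x0 := x0) (p := p) t (-1) f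
  simpa using this

theorem ex_sub (hL : Law A x0 p Y Yx Yxx) {t : ℝ} (ht : t ≤ A.T) {f g : ℝ → ℝ}
    (hf : PG f) (hg : PG g) :
    ex x0 p t (fun x => f x - g x) = ex x0 p t f - ex x0 p t g := by
  have h1 := ex_add hL ht hf hg.neg
  rw [ex_neg] at h1
  simpa [sub_eq_add_neg] using h1

theorem ex_const (hL : Law A x0 p Y Yx Yxx) {t : ℝ} (ht : t ≤ A.T) (c : ℝ) :
    ex x0 p t (fun _ => c) = c := by
  rcases le_or_gt t 0 with h | h
  · simp only [ex_of_le h]
  · simp only [ex_of_pos h]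
    rw [integral_mul_const, hL.mass t ⟨h, ht⟩, one_mul]

theorem ex_zero (t : ℝ) : ex x0 p t (fun _ => (0:ℝ)) = 0 := by
  have := ex_const_mul (x0 := x0) (p := p) t 0 (fun _ => (0:ℝ))
  simpa using this

theorem ex_nonneg (hL : Law A x0 p Y Yx Yxx) {t : ℝ} (ht : t ≤ A.T) {f : ℝ → ℝ}
    (hf : ∀ x, 0 ≤ f x) : 0 ≤ ex x0 p t f := by
  rcases le_or_gt t 0 with h | h
  · rw [ex_of_le h]; exact hf _
  · rw [ex_of_pos h]
    exact integral_nonneg fun x => mul_nonneg (hL.p_pos t ⟨h, ht⟩ x).le (hf x)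

theorem ex_mono (hL : Law A x0 p Y Yx Yxx) {t : ℝ} (ht : t ≤ A.T) {f g : ℝ → ℝ}
    (hf : PG f) (hg : PG g) (hfg : ∀ x, f x ≤ g x) : ex x0 p t f ≤ ex x0 p t g := by
  have h1 := ex_nonneg hL ht (f := fun x => g x - f x) fun x => sub_nonneg.2 (hfg x)
  rw [ex_sub hL ht hg hf] at h1
  linarith

theorem ex_pos (hL : Law A x0 p Y Yx Yxx) {t : ℝ} (ht : t ≤ A.T) {f : ℝ → ℝ} (hf : PG f)
    (hpos : ∀ x, 0 < f x) : 0 < ex x0 p t f := by
  rcases le_or_gt t 0 with h | h
  · rw [ex_of_le h]; exact hpos _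
  · rw [ex_of_pos h]
    have hc : Continuous fun x => p t x * f x := (law_p_continuous hL ⟨h, ht⟩).mul hf.cont
    have h2 : ∀ x, 0 < p t x * f x := fun x => mul_pos (hL.p_pos t ⟨h, ht⟩ x) (hpos x)
    exact integral_pos_of_integrable_nonneg_nonzero (x := 0) hc (law_integrable hL ⟨h, ht⟩ hf)
      (fun x => (h2 x).le) (h2 0).ne'

theorem abs_ex_le (hL : Law A x0 p Y Yx Yxx) {t : ℝ} (ht : t ≤ A.T) {f : ℝ → ℝ} (hf : PG f) :
    |ex x0 p t f| ≤ ex x0 p t (fun x => |f x|) := by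
  rw [abs_le]
  constructor
  · rw [← ex_neg]
    exact ex_mono hL ht hf.abs.neg hf fun x => neg_abs_le _
  · exact ex_mono hL ht hf hf.abs fun x => le_abs_self _

theorem ex_abs_le_of (hL : Law A x0 p Y Yx Yxx) {t : ℝ} (ht : t ≤ A.T) {f g : ℝ → ℝ} (hf : PG f)
    (hg : PG g) (h : ∀ x, |f x| ≤ g x) : |ex x0 p t f| ≤ ex x0 p t g :=
  (abs_ex_le hL ht hf).trans (ex_mono hL ht hf.abs hg h)

theorem ex_le_const (hL : Law A x0 p Y Yx Yxx) {t : ℝ} (ht : t ≤ A.T) {f : ℝ → ℝ} (hf : PG f)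
    {c : ℝ} (h : ∀ x, f x ≤ c) : ex x0 p t f ≤ c := by
  have := ex_mono hL ht hf (PG.const c) h
  rwa [ex_const hL ht] at this

theorem const_le_ex (hL : Law A x0 p Y Yx Yxx) {t : ℝ} (ht : t ≤ A.T) {f : ℝ → ℝ} (hf : PG f)
    {c : ℝ} (h : ∀ x, c ≤ f x) : c ≤ ex x0 p t f := by
  have := ex_mono hL ht (PG.const c) hf h
  rwa [ex_const hL ht] at this

/-- Cauchy–Schwarz -/
theorem ex_mul_sq_le (hL : Law A x0 p Y Yx Yxx) {t : ℝ} (ht : t ≤ A.T) {f g : ℝ → ℝ}
    (hf : PG f) (hg : PG g) :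
    ex x0 p t (fun x => f x * g x) ^ 2 ≤
      ex x0 p t (fun x => f x ^ 2) * ex x0 p t (fun x => g x ^ 2) := by
  set a := ex x0 p t (fun x => f x ^ 2) with ha
  set b := ex x0 p t (fun x => f x * g x) with hb
  set c := ex x0 p t (fun x => g x ^ 2) with hc
  have hquad : ∀ s : ℝ, 0 ≤ a * (s * s) + (2 * b) * s + c := by
    intro s
    have h1 := ex_nonneg hL ht (f := fun x => (s * f x + g x) ^ 2) fun x => sq_nonneg _
    have h2 : ex x0 p t (fun x => (s * f x + g x) ^ 2) = a * (s * s) + (2 * b) * s + c := by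
      have e1 : ex x0 p t (fun x => (s * f x + g x) ^ 2) =
          ex x0 p t (fun x => ((s * s) * f x ^ 2 + (2 * s) * (f x * g x)) + g x ^ 2) :=
        ex_congr t fun x => by ring
      rw [e1, ex_add hL ht (((hf.pow 2).const_mul _).add ((hf.mul hg).const_mul _)) (hg.pow 2),
        ex_add hL ht ((hf.pow 2).const_mul _) ((hf.mul hg).const_mul _), ex_const_mul, ex_const_mul]
      ring
    rwa [h2] at h1
  have hd := discrim_le_zero hquad
  unfold discrim at hd
  nlinarith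

theorem PG_sum {ι : Type*} (s : Finset ι) {f : ι → ℝ → ℝ} (hf : ∀ i ∈ s, PG (f i)) :
    PG (fun x => ∑ i ∈ s, f i x) := by
  classical
  induction s using Finset.induction_on with
  | empty => simpa using PG.const 0
  | insert i s hi ih =>
    have h1 := (hf i (Finset.mem_insert_self i s)).add
      (ih fun j hj => hf j (Finset.mem_insert_of_mem hj))
    simpa only [Finset.sum_insert hi] using h1

theorem ex_sum (hL : Law A x0 p Y Yx Yxx) {t : ℝ} (ht : t ≤ A.T) {ι : Type*} (s : Finset ι)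
    {f : ι → ℝ → ℝ} (hf : ∀ i ∈ s, PG (f i)) :
    ex x0 p t (fun x => ∑ i ∈ s, f i x) = ∑ i ∈ s, ex x0 p t (f i) := by
  classical
  induction s using Finset.induction_on with
  | empty => simpa using ex_zero t
  | insert i s hi ih =>
    have h1 : ∀ j ∈ s, PG (f j) := fun j hj => hf j (Finset.mem_insert_of_mem hj)
    simp only [Finset.sum_insert hi]
    rw [ex_add hL ht (hf i (Finset.mem_insert_self i s)) (PG_sum s h1), ih h1]

end exx

/-! ### The weights: one-sided continuity and bounds -/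

section weights

theorem mrc_le : ∀ (cs : Cells) (T : ℝ), Valid T cs → ∃ M : ℝ, 0 ≤ M ∧ ∀ t, mrc T cs t ≤ M
  | [], _, _ => ⟨0, le_rfl, fun _ => le_rfl⟩
  | c :: cs, T, h => by
      obtain ⟨M, hM0, hM⟩ := mrc_le cs c.1 h.2.2
      refine ⟨max M c.2, hM0.trans (le_max_left _ _), fun t => ?_⟩
      unfold mrc
      split_ifs with h1 h2
      · exact le_max_right _ _
      · exact hM0.trans (le_max_left _ _)
      · exact (hM t).trans (le_max_left _ _)

theorem mlc_le : ∀ (cs : Cells) (T : ℝ), Valid T cs → ∃ M : ℝ, 0 ≤ M ∧ ∀ t, mlc T cs t ≤ M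
  | [], _, _ => ⟨0, le_rfl, fun _ => le_rfl⟩
  | c :: cs, T, h => by
      obtain ⟨M, hM0, hM⟩ := mlc_le cs c.1 h.2.2
      refine ⟨max M c.2, hM0.trans (le_max_left _ _), fun t => ?_⟩
      unfold mlc
      split_ifs with h1 h2
      · exact le_max_right _ _
      · exact hM0.trans (le_max_left _ _)
      · exact (hM t).trans (le_max_left _ _)

/-- the weight is locally constant to the right -/
theorem mrc_ev : ∀ (cs : Cells) (T t : ℝ), ∀ᶠ s in 𝓝[≥] t, mrc T cs s = mrc T cs t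
  | [], _, _ => Eventually.of_forall fun _ => rfl
  | c :: cs, T, t => by
      rcases le_or_gt c.1 t with h | h
      · rcases lt_or_ge t T with h2 | h2
        · have e1 : ∀ᶠ s in 𝓝[≥] t, s < T := (eventually_lt_nhds h2).filter_mono nhdsWithin_le_nhds
          filter_upwards [e1, self_mem_nhdsWithin] with s hs hst
          unfold mrc
          rw [if_pos (h.trans hst), if_pos h, if_pos hs, if_pos h2]
        · filter_upwards [self_mem_nhdsWithin] with s hst
          unfold mrc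
          rw [if_pos (h.trans hst), if_pos h, if_neg (not_lt.2 (h2.trans hst)), if_neg (not_lt.2 h2)]
      · have e1 : ∀ᶠ s in 𝓝[≥] t, s < c.1 := (eventually_lt_nhds h).filter_mono nhdsWithin_le_nhds
        filter_upwards [e1, mrc_ev cs c.1 t] with s hs hs2
        unfold mrc
        rw [if_neg (not_le.2 hs), if_neg (not_le.2 h)]
        exact hs2

/-- the weight is locally constant to the left -/
theorem mlc_ev : ∀ (cs : Cells) (T t : ℝ), ∀ᶠ s in 𝓝[≤] t, mlc T cs s = mlc T cs t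
  | [], _, _ => Eventually.of_forall fun _ => rfl
  | c :: cs, T, t => by
      rcases lt_or_ge c.1 t with h | h
      · have e0 : ∀ᶠ s in 𝓝[≤] t, c.1 < s := (eventually_gt_nhds h).filter_mono nhdsWithin_le_nhds
        rcases le_or_gt t T with h2 | h2
        · filter_upwards [e0, self_mem_nhdsWithin] with s hs hst
          unfold mlc
          rw [if_pos hs, if_pos h, if_pos (le_trans hst h2), if_pos h2]
        · have e1 : ∀ᶠ s in 𝓝[≤] t, T < s := (eventually_gt_nhds h2).filter_mono nhdsWithin_le_nhds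
          filter_upwards [e0, e1] with s hs hst
          unfold mlc
          rw [if_pos hs, if_pos h, if_neg (not_le.2 hst), if_neg (not_le.2 h2)]
      · filter_upwards [self_mem_nhdsWithin, mlc_ev cs c.1 t] with s hs hs2
        unfold mlc
        rw [if_neg (not_lt.2 (le_trans hs h)), if_neg (not_lt.2 h)]
        exact hs2

variable (A : SD)

theorem m_ev (t : ℝ) : ∀ᶠ s in 𝓝[≥] t, A.m s = A.m t := mrc_ev A.cs A.T t
theorem ml_ev (t : ℝ) : ∀ᶠ s in 𝓝[≤] t, A.ml s = A.ml t := mlc_ev A.cs A.T t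

theorem m_cont_right (t : ℝ) : ContinuousWithinAt A.m (Ici t) t :=
  (tendsto_const_nhds (x := A.m t)).congr' ((m_ev A t).mono fun _ h => h.symm)

theorem ml_cont_left (t : ℝ) : ContinuousWithinAt A.ml (Iic t) t :=
  (tendsto_const_nhds (x := A.ml t)).congr' ((ml_ev A t).mono fun _ h => h.symm)

theorem b_cont_right (hD : Continuous A.D) (t : ℝ) : ContinuousWithinAt A.b (Ici t) t :=
  (m_cont_right A t).div hD.continuousWithinAt (A.D_pos t).ne'

theorem bl_cont_left (hD : Continuous A.D) (t : ℝ) : ContinuousWithinAt A.bl (Iic t) t :=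
  (ml_cont_left A t).div hD.continuousWithinAt (A.D_pos t).ne'

/-- one bound for all weights -/
theorem weights_le : ∃ M : ℝ, 0 ≤ M ∧ ∀ t, A.m t ≤ M ∧ A.ml t ≤ M ∧ A.b t ≤ M ∧ A.bl t ≤ M := by
  obtain ⟨M1, h10, h1⟩ := mrc_le A.cs A.T A.hv
  obtain ⟨M2, h20, h2⟩ := mlc_le A.cs A.T A.hv
  have hd := A.hd
  refine ⟨max (max M1 M2) (max M1 M2 / A.d), ?_, fun t => ?_⟩
  · exact h10.trans ((le_max_left _ _).trans (le_max_left _ _))
  · have hM0 : 0 ≤ max M1 M2 := h10.trans (le_max_left _ _)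
    have e1 : A.m t ≤ max M1 M2 := (h1 t).trans (le_max_left _ _)
    have e2 : A.ml t ≤ max M1 M2 := (h2 t).trans (le_max_right _ _)
    refine ⟨e1.trans (le_max_left _ _), e2.trans (le_max_left _ _), ?_, ?_⟩
    · refine le_trans ?_ (le_max_right _ _)
      exact div_le_div₀ hM0 e1 hd (A.d_le_D t)
    · refine le_trans ?_ (le_max_right _ _)
      exact div_le_div₀ hM0 e2 hd (A.d_le_D t)

end weights

/-! ### Bundled test functions -/

/-- right neighbourhoods in the strip -/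
theorem cwa_right {T t x : ℝ} {f : ℝ × ℝ → ℝ} (ht : t ∈ Ico 0 T)
    (h : ContinuousOn f (Icc 0 T ×ˢ univ)) : ContinuousWithinAt f (Ici t ×ˢ univ) (t, x) := by
  have h1 : ContinuousWithinAt f (Icc 0 T ×ˢ univ) (t, x) := h (t, x) ⟨⟨ht.1, ht.2.le⟩, mem_univ _⟩
  refine h1.mono_of_mem_nhdsWithin ?_
  rw [nhdsWithin_prod_eq]
  refine prod_mem_prod ?_ univ_mem
  have e1 : ∀ᶠ s in 𝓝[≥] t, s < T := (eventually_lt_nhds ht.2).filter_mono nhdsWithin_le_nhds
  filter_upwards [e1, self_mem_nhdsWithin] with s hs hst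
  exact ⟨ht.1.trans hst, hs.le⟩

/-- left neighbourhoods in the strip -/
theorem cwa_left {T t x : ℝ} {f : ℝ × ℝ → ℝ} (ht : t ∈ Ioc 0 T)
    (h : ContinuousOn f (Icc 0 T ×ˢ univ)) : ContinuousWithinAt f (Iic t ×ˢ univ) (t, x) := by
  have h1 : ContinuousWithinAt f (Icc 0 T ×ˢ univ) (t, x) := h (t, x) ⟨⟨ht.1.le, ht.2⟩, mem_univ _⟩
  refine h1.mono_of_mem_nhdsWithin ?_
  rw [nhdsWithin_prod_eq]
  refine prod_mem_prod ?_ univ_mem
  have e1 : ∀ᶠ s in 𝓝[≤] t, 0 < s := (eventually_gt_nhds ht.1).filter_mono nhdsWithin_le_nhds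
  filter_upwards [e1, self_mem_nhdsWithin] with s hs hst
  exact ⟨hs.le, le_trans hst ht.2⟩

theorem cwa_fst_right {t x : ℝ} {f : ℝ → ℝ} (h : ContinuousWithinAt f (Ici t) t) :
    ContinuousWithinAt (fun q : ℝ × ℝ => f q.1) (Ici t ×ˢ univ) (t, x) :=
  ContinuousWithinAt.comp (t := Ici t) (g := f) (f := Prod.fst) h
    continuous_fst.continuousWithinAt fun _ hq => hq.1

theorem cwa_fst_left {t x : ℝ} {f : ℝ → ℝ} (h : ContinuousWithinAt f (Iic t) t) :
    ContinuousWithinAt (fun q : ℝ × ℝ => f q.1) (Iic t ×ˢ univ) (t, x) :=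
  ContinuousWithinAt.comp (t := Iic t) (g := f) (f := Prod.fst) h
    continuous_fst.continuousWithinAt fun _ hq => hq.1

/-- growth on the strip -/
def GR (A : SD) (F : ℝ → ℝ → ℝ) : Prop :=
  ∃ C : ℝ, ∃ n : ℕ, 0 ≤ C ∧ ∀ t ∈ Icc 0 A.T, ∀ x, |F t x| ≤ C * (1 + |x|) ^ n

section gr
variable {A : SD} {F G : ℝ → ℝ → ℝ}

theorem GR.const (c : ℝ) : GR A fun _ _ => c :=
  ⟨|c|, 0, abs_nonneg c, fun t _ x => by simp⟩

theorem GR.idx : GR A fun _ x => x :=
  ⟨1, 1, zero_le_one, fun t _ x => by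
    have := abs_nonneg x
    rw [pow_one, one_mul]; linarith⟩

theorem GR.of_le (h : ∃ C : ℝ, ∃ n : ℕ, ∀ t ∈ Icc 0 A.T, ∀ x, |F t x| ≤ C * (1 + |x|) ^ n) :
    GR A F := by
  obtain ⟨C, n, h⟩ := h
  refine ⟨|C|, n, abs_nonneg C, fun t ht x => (h t ht x).trans ?_⟩
  have := one_le_base x
  exact mul_le_mul_of_nonneg_right (le_abs_self C) (by positivity)

theorem GR.tbdd {g : ℝ → ℝ} {C : ℝ} (h : ∀ t ∈ Icc 0 A.T, |g t| ≤ C) : GR A fun t _ => g t :=
  GR.of_le ⟨C, 0, fun t ht x => by simpa using h t ht⟩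

theorem GR.bdd {C : ℝ} (h : ∀ t ∈ Icc 0 A.T, ∀ x, |F t x| ≤ C) : GR A F :=
  GR.of_le ⟨C, 0, fun t ht x => by simpa using h t ht x⟩

theorem GR.add (hF : GR A F) (hG : GR A G) : GR A fun t x => F t x + G t x := by
  obtain ⟨C, n, hC, h⟩ := hF
  obtain ⟨C', n', hC', h'⟩ := hG
  refine ⟨C + C', max n n', by positivity, fun t ht x => ?_⟩
  have h1 : (1 + |x|) ^ n ≤ (1 + |x|) ^ max n n' :=
    pow_le_pow_right₀ (one_le_base x) (le_max_left _ _)
  have h2 : (1 + |x|) ^ n' ≤ (1 + |x|) ^ max n n' :=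
    pow_le_pow_right₀ (one_le_base x) (le_max_right _ _)
  calc |F t x + G t x| ≤ |F t x| + |G t x| := abs_add_le _ _
    _ ≤ C * (1 + |x|) ^ n + C' * (1 + |x|) ^ n' := add_le_add (h t ht x) (h' t ht x)
    _ ≤ C * (1 + |x|) ^ max n n' + C' * (1 + |x|) ^ max n n' :=
        add_le_add (mul_le_mul_of_nonneg_left h1 hC) (mul_le_mul_of_nonneg_left h2 hC')
    _ = _ := by ring

theorem GR.mul (hF : GR A F) (hG : GR A G) : GR A fun t x => F t x * G t x := by
  obtain ⟨C, n, hC, h⟩ := hF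
  obtain ⟨C', n', hC', h'⟩ := hG
  refine ⟨C * C', n + n', by positivity, fun t ht x => ?_⟩
  have hx := one_le_base x
  calc |F t x * G t x| = |F t x| * |G t x| := abs_mul _ _
    _ ≤ (C * (1 + |x|) ^ n) * (C' * (1 + |x|) ^ n') :=
        mul_le_mul (h t ht x) (h' t ht x) (abs_nonneg _) (by positivity)
    _ = _ := by rw [pow_add]; ring

theorem GR.const_mul (hF : GR A F) (c : ℝ) : GR A fun t x => c * F t x := (GR.const c).mul hF

theorem GR.neg (hF : GR A F) : GR A fun t x => -F t x := by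
  have := hF.const_mul (-1)
  simpa using this

theorem GR.sub (hF : GR A F) (hG : GR A G) : GR A fun t x => F t x - G t x := by
  have := hF.add hG.neg
  simpa [sub_eq_add_neg] using this

/-- assembling the growth field of `Test` -/
theorem growth_of {Fr Fl Fx Fxx : ℝ → ℝ → ℝ} (h1 : GR A F) (h2 : GR A Fr) (h3 : GR A Fl)
    (h4 : GR A Fx) (h5 : GR A Fxx) :
    ∃ C : ℝ, ∃ n : ℕ, 0 ≤ C ∧ ∀ t ∈ Icc 0 A.T, ∀ x, |F t x| ≤ C * (1 + |x|) ^ n ∧
    |Fr t x| ≤ C * (1 + |x|) ^ n ∧ |Fl t x| ≤ C * (1 + |x|) ^ n ∧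
    |Fx t x| ≤ C * (1 + |x|) ^ n ∧ |Fxx t x| ≤ C * (1 + |x|) ^ n := by
  obtain ⟨C1, n1, hC1, k1⟩ := h1
  obtain ⟨C2, n2, hC2, k2⟩ := h2
  obtain ⟨C3, n3, hC3, k3⟩ := h3
  obtain ⟨C4, n4, hC4, k4⟩ := h4
  obtain ⟨C5, n5, hC5, k5⟩ := h5
  set C := C1 + C2 + C3 + C4 + C5 with hC
  set n := n1 + n2 + n3 + n4 + n5 with hn
  have key : ∀ (x C' : ℝ) (n' : ℕ), 0 ≤ C' → C' ≤ C → n' ≤ n →
      C' * (1 + |x|) ^ n' ≤ C * (1 + |x|) ^ n := by
    intro x C' n' h0 h1 h2
    have hx := one_le_base x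
    have h3 : (1 + |x|) ^ n' ≤ (1 + |x|) ^ n := pow_le_pow_right₀ hx h2
    exact mul_le_mul h1 h3 (by positivity) (h0.trans h1)
  refine ⟨C, n, by positivity, fun t ht x => ⟨?_, ?_, ?_, ?_, ?_⟩⟩
  · exact (k1 t ht x).trans (key x C1 n1 hC1 (by rw [hC]; linarith) (by omega))
  · exact (k2 t ht x).trans (key x C2 n2 hC2 (by rw [hC]; linarith) (by omega))
  · exact (k3 t ht x).trans (key x C3 n3 hC3 (by rw [hC]; linarith) (by omega))
  · exact (k4 t ht x).trans (key x C4 n4 hC4 (by rw [hC]; linarith) (by omega))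
  · exact (k5 t ht x).trans (key x C5 n5 hC5 (by rw [hC]; linarith) (by omega))

end gr

section testGR
variable {A : SD} {F Fr Fl Fx Fxx : ℝ → ℝ → ℝ}

theorem test_grF (h : Test A F Fr Fl Fx Fxx) : GR A F := by
  obtain ⟨C, n, hC, k⟩ := h.growth; exact ⟨C, n, hC, fun t ht x => (k t ht x).1⟩
theorem test_grFr (h : Test A F Fr Fl Fx Fxx) : GR A Fr := by
  obtain ⟨C, n, hC, k⟩ := h.growth; exact ⟨C, n, hC, fun t ht x => (k t ht x).2.1⟩
theorem test_grFl (h : Test A F Fr Fl Fx Fxx) : GR A Fl := by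
  obtain ⟨C, n, hC, k⟩ := h.growth; exact ⟨C, n, hC, fun t ht x => (k t ht x).2.2.1⟩
theorem test_grFx (h : Test A F Fr Fl Fx Fxx) : GR A Fx := by
  obtain ⟨C, n, hC, k⟩ := h.growth; exact ⟨C, n, hC, fun t ht x => (k t ht x).2.2.2.1⟩
theorem test_grFxx (h : Test A F Fr Fl Fx Fxx) : GR A Fxx := by
  obtain ⟨C, n, hC, k⟩ := h.growth; exact ⟨C, n, hC, fun t ht x => (k t ht x).2.2.2.2⟩

end testGR

/-- bundled test functions -/
structure TF (A : SD) where
  F : ℝ → ℝ → ℝ
  Fr : ℝ → ℝ → ℝ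
  Fl : ℝ → ℝ → ℝ
  Fx : ℝ → ℝ → ℝ
  Fxx : ℝ → ℝ → ℝ
  test : Test A F Fr Fl Fx Fxx

namespace TF

variable {A : SD}

/-- generator, right: `F_t + F_xx/2 + b u F_x` -/
def gr (f : TF A) (t x : ℝ) : ℝ := f.Fr t x + f.Fxx t x / 2 + A.b t * A.u t x * f.Fx t x

/-- generator, left -/
def gl (f : TF A) (t x : ℝ) : ℝ := f.Fl t x + f.Fxx t x / 2 + A.bl t * A.u t x * f.Fx t x

/-- functions of time only -/
def tfun (g gR gL : ℝ → ℝ) (hc : ContinuousOn g (Icc 0 A.T))
    (hr : ∀ t ∈ Ico 0 A.T, HasDerivWithinAt g (gR t) (Ici t) t)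
    (hl : ∀ t ∈ Ioc 0 A.T, HasDerivWithinAt g (gL t) (Iic t) t)
    (cr : ∀ t ∈ Ico 0 A.T, ContinuousWithinAt gR (Ici t) t)
    (cl : ∀ t ∈ Ioc 0 A.T, ContinuousWithinAt gL (Iic t) t)
    (hb : ∃ C : ℝ, ∀ t ∈ Icc 0 A.T, |gR t| ≤ C ∧ |gL t| ≤ C) : TF A where
  F t _ := g t
  Fr t _ := gR t
  Fl t _ := gL t
  Fx _ _ := 0
  Fxx _ _ := 0
  test := by
    obtain ⟨C, hC⟩ := hb
    obtain ⟨C', hC'⟩ := isCompact_Icc.exists_bound_of_continuousOn hc
    exact {
      cF := hc.comp continuousOn_fst fun q hq => hq.1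
      hx := fun t _ x => hasDerivAt_const x (g t)
      hxx := fun t _ x => hasDerivAt_const x 0
      hr := fun t ht x => hr t ht
      hl := fun t ht x => hl t ht
      cr := fun t ht x => cwa_fst_right (cr t ht)
      cl := fun t ht x => cwa_fst_left (cl t ht)
      cx := continuousOn_const
      cxx := continuousOn_const
      growth := growth_of (GR.tbdd (C := C') fun t ht => hC' t ht)
        (GR.tbdd fun t ht => (hC t ht).1) (GR.tbdd fun t ht => (hC t ht).2)
        (GR.const 0) (GR.const 0) }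

/-- constants -/
def const (c : ℝ) : TF A where
  F _ _ := c
  Fr _ _ := 0
  Fl _ _ := 0
  Fx _ _ := 0
  Fxx _ _ := 0
  test := {
    cF := continuousOn_const
    hx := fun t _ x => hasDerivAt_const x c
    hxx := fun t _ x => hasDerivAt_const x 0
    hr := fun t _ x => hasDerivWithinAt_const t (Ici t) c
    hl := fun t _ x => hasDerivWithinAt_const t (Iic t) c
    cr := fun t ht x => continuousWithinAt_const
    cl := fun t ht x => continuousWithinAt_const
    cx := continuousOn_const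
    cxx := continuousOn_const
    growth := growth_of (GR.const c) (GR.const 0) (GR.const 0) (GR.const 0) (GR.const 0) }

/-- the coordinate `x` -/
def tx : TF A where
  F _ x := x
  Fr _ _ := 0
  Fl _ _ := 0
  Fx _ _ := 1
  Fxx _ _ := 0
  test := {
    cF := continuousOn_snd
    hx := fun t _ x => hasDerivAt_id x
    hxx := fun t _ x => hasDerivAt_const x 1
    hr := fun t _ x => hasDerivWithinAt_const t (Ici t) x
    hl := fun t _ x => hasDerivWithinAt_const t (Iic t) x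
    cr := fun t ht x => continuousWithinAt_const
    cl := fun t ht x => continuousWithinAt_const
    cx := continuousOn_const
    cxx := continuousOn_const
    growth := growth_of GR.idx (GR.const 0) (GR.const 0) (GR.const 1) (GR.const 0) }

/-- sums -/
def add (f g : TF A) : TF A where
  F t x := f.F t x + g.F t x
  Fr t x := f.Fr t x + g.Fr t x
  Fl t x := f.Fl t x + g.Fl t x
  Fx t x := f.Fx t x + g.Fx t x
  Fxx t x := f.Fxx t x + g.Fxx t x
  test := {
    cF := f.test.cF.add g.test.cF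
    hx := fun t ht x => (f.test.hx t ht x).add (g.test.hx t ht x)
    hxx := fun t ht x => (f.test.hxx t ht x).add (g.test.hxx t ht x)
    hr := fun t ht x => (f.test.hr t ht x).add (g.test.hr t ht x)
    hl := fun t ht x => (f.test.hl t ht x).add (g.test.hl t ht x)
    cr := fun t ht x => (f.test.cr t ht x).add (g.test.cr t ht x)
    cl := fun t ht x => (f.test.cl t ht x).add (g.test.cl t ht x)
    cx := f.test.cx.add g.test.cx
    cxx := f.test.cxx.add g.test.cxx
    growth := growth_of ((test_grF f.test).add (test_grF g.test))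
      ((test_grFr f.test).add (test_grFr g.test)) ((test_grFl f.test).add (test_grFl g.test))
      ((test_grFx f.test).add (test_grFx g.test)) ((test_grFxx f.test).add (test_grFxx g.test)) }

/-- products -/
def mul (f g : TF A) : TF A where
  F t x := f.F t x * g.F t x
  Fr t x := f.Fr t x * g.F t x + f.F t x * g.Fr t x
  Fl t x := f.Fl t x * g.F t x + f.F t x * g.Fl t x
  Fx t x := f.Fx t x * g.F t x + f.F t x * g.Fx t x
  Fxx t x := f.Fxx t x * g.F t x + 2 * (f.Fx t x * g.Fx t x) + f.F t x * g.Fxx t x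
  test := {
    cF := f.test.cF.mul g.test.cF
    hx := fun t ht x => (f.test.hx t ht x).mul (g.test.hx t ht x)
    hxx := fun t ht x => by
      have h := ((f.test.hxx t ht x).mul (g.test.hx t ht x)).add
        ((f.test.hx t ht x).mul (g.test.hxx t ht x))
      exact h.congr_deriv (by ring)
    hr := fun t ht x => (f.test.hr t ht x).mul (g.test.hr t ht x)
    hl := fun t ht x => (f.test.hl t ht x).mul (g.test.hl t ht x)
    cr := fun t ht x => ((f.test.cr t ht x).mul (cwa_right ht g.test.cF)).add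
      ((cwa_right ht f.test.cF).mul (g.test.cr t ht x))
    cl := fun t ht x => ((f.test.cl t ht x).mul (cwa_left ht g.test.cF)).add
      ((cwa_left ht f.test.cF).mul (g.test.cl t ht x))
    cx := (f.test.cx.mul g.test.cF).add (f.test.cF.mul g.test.cx)
    cxx := ((f.test.cxx.mul g.test.cF).add
      (continuousOn_const.mul (f.test.cx.mul g.test.cx))).add (f.test.cF.mul g.test.cxx)
    growth := growth_of ((test_grF f.test).mul (test_grF g.test))
      (((test_grFr f.test).mul (test_grF g.test)).add ((test_grF f.test).mul (test_grFr g.test)))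
      (((test_grFl f.test).mul (test_grF g.test)).add ((test_grF f.test).mul (test_grFl g.test)))
      (((test_grFx f.test).mul (test_grF g.test)).add ((test_grF f.test).mul (test_grFx g.test)))
      ((((test_grFxx f.test).mul (test_grF g.test)).add
        (((test_grFx f.test).mul (test_grFx g.test)).const_mul 2)).add
        ((test_grF f.test).mul (test_grFxx g.test))) }

/-- scalar multiples -/
def smul (c : ℝ) (f : TF A) : TF A := (const c).mul f

/-- negation -/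
def neg (f : TF A) : TF A := smul (-1) f

/-- differences -/
def sub (f g : TF A) : TF A := f.add g.neg

/-- squares -/
def sq (f : TF A) : TF A := f.mul f

/-- powers -/
def pow (f : TF A) : ℕ → TF A
  | 0 => const 1
  | n + 1 => (pow f n).mul f

@[simp] theorem const_F (c t x : ℝ) : (const c : TF A).F t x = c := rfl
@[simp] theorem const_Fx (c t x : ℝ) : (const c : TF A).Fx t x = 0 := rfl
@[simp] theorem const_Fxx (c t x : ℝ) : (const c : TF A).Fxx t x = 0 := rfl
@[simp] theorem const_gr (c t x : ℝ) : (const c : TF A).gr t x = 0 := by simp [gr, const]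
@[simp] theorem const_gl (c t x : ℝ) : (const c : TF A).gl t x = 0 := by simp [gl, const]
@[simp] theorem tx_F (t x : ℝ) : (tx : TF A).F t x = x := rfl
@[simp] theorem tx_Fx (t x : ℝ) : (tx : TF A).Fx t x = 1 := rfl
@[simp] theorem tx_Fxx (t x : ℝ) : (tx : TF A).Fxx t x = 0 := rfl
@[simp] theorem tx_gr (t x : ℝ) : (tx : TF A).gr t x = A.b t * A.u t x := by simp [gr, tx]
@[simp] theorem tx_gl (t x : ℝ) : (tx : TF A).gl t x = A.bl t * A.u t x := by simp [gl, tx]
@[simp] theorem add_F (f g : TF A) (t x : ℝ) : (f.add g).F t x = f.F t x + g.F t x := rfl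
@[simp] theorem add_Fx (f g : TF A) (t x : ℝ) : (f.add g).Fx t x = f.Fx t x + g.Fx t x := rfl
@[simp] theorem add_Fxx (f g : TF A) (t x : ℝ) : (f.add g).Fxx t x = f.Fxx t x + g.Fxx t x := rfl
@[simp] theorem add_gr (f g : TF A) (t x : ℝ) : (f.add g).gr t x = f.gr t x + g.gr t x := by
  simp only [gr, add]; ring
@[simp] theorem add_gl (f g : TF A) (t x : ℝ) : (f.add g).gl t x = f.gl t x + g.gl t x := by
  simp only [gl, add]; ring
@[simp] theorem mul_F (f g : TF A) (t x : ℝ) : (f.mul g).F t x = f.F t x * g.F t x := rfl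
@[simp] theorem mul_Fx (f g : TF A) (t x : ℝ) :
    (f.mul g).Fx t x = f.Fx t x * g.F t x + f.F t x * g.Fx t x := rfl
@[simp] theorem mul_Fxx (f g : TF A) (t x : ℝ) :
    (f.mul g).Fxx t x = f.Fxx t x * g.F t x + 2 * (f.Fx t x * g.Fx t x) + f.F t x * g.Fxx t x := rfl
/-- product rule for the generator -/
@[simp] theorem mul_gr (f g : TF A) (t x : ℝ) :
    (f.mul g).gr t x = f.gr t x * g.F t x + f.F t x * g.gr t x + f.Fx t x * g.Fx t x := by
  simp only [gr, mul]; ring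
@[simp] theorem mul_gl (f g : TF A) (t x : ℝ) :
    (f.mul g).gl t x = f.gl t x * g.F t x + f.F t x * g.gl t x + f.Fx t x * g.Fx t x := by
  simp only [gl, mul]; ring
@[simp] theorem smul_F (c : ℝ) (f : TF A) (t x : ℝ) : (smul c f).F t x = c * f.F t x := rfl
@[simp] theorem smul_Fx (c : ℝ) (f : TF A) (t x : ℝ) : (smul c f).Fx t x = c * f.Fx t x := by
  simp [smul]
@[simp] theorem smul_Fxx (c : ℝ) (f : TF A) (t x : ℝ) : (smul c f).Fxx t x = c * f.Fxx t x := by
  simp [smul]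
@[simp] theorem smul_gr (c : ℝ) (f : TF A) (t x : ℝ) : (smul c f).gr t x = c * f.gr t x := by
  simp [smul]
@[simp] theorem smul_gl (c : ℝ) (f : TF A) (t x : ℝ) : (smul c f).gl t x = c * f.gl t x := by
  simp [smul]
@[simp] theorem neg_F (f : TF A) (t x : ℝ) : f.neg.F t x = -f.F t x := by simp [neg]
@[simp] theorem neg_Fx (f : TF A) (t x : ℝ) : f.neg.Fx t x = -f.Fx t x := by simp [neg]
@[simp] theorem neg_Fxx (f : TF A) (t x : ℝ) : f.neg.Fxx t x = -f.Fxx t x := by simp [neg]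
@[simp] theorem neg_gr (f : TF A) (t x : ℝ) : f.neg.gr t x = -f.gr t x := by simp [neg]
@[simp] theorem neg_gl (f : TF A) (t x : ℝ) : f.neg.gl t x = -f.gl t x := by simp [neg]
@[simp] theorem sub_F (f g : TF A) (t x : ℝ) : (f.sub g).F t x = f.F t x - g.F t x := by
  simp [sub, sub_eq_add_neg]
@[simp] theorem sub_Fx (f g : TF A) (t x : ℝ) : (f.sub g).Fx t x = f.Fx t x - g.Fx t x := by
  simp [sub, sub_eq_add_neg]
@[simp] theorem sub_Fxx (f g : TF A) (t x : ℝ) : (f.sub g).Fxx t x = f.Fxx t x - g.Fxx t x := by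
  simp [sub, sub_eq_add_neg]
@[simp] theorem sub_gr (f g : TF A) (t x : ℝ) : (f.sub g).gr t x = f.gr t x - g.gr t x := by
  simp [sub, sub_eq_add_neg]
@[simp] theorem sub_gl (f g : TF A) (t x : ℝ) : (f.sub g).gl t x = f.gl t x - g.gl t x := by
  simp [sub, sub_eq_add_neg]
@[simp] theorem sq_F (f : TF A) (t x : ℝ) : f.sq.F t x = f.F t x ^ 2 := by simp [sq]; ring
@[simp] theorem sq_Fx (f : TF A) (t x : ℝ) : f.sq.Fx t x = 2 * (f.F t x * f.Fx t x) := by
  simp [sq]; ring
@[simp] theorem sq_gr (f : TF A) (t x : ℝ) :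
    f.sq.gr t x = 2 * (f.F t x * f.gr t x) + f.Fx t x ^ 2 := by simp [sq]; ring
@[simp] theorem sq_gl (f : TF A) (t x : ℝ) :
    f.sq.gl t x = 2 * (f.F t x * f.gl t x) + f.Fx t x ^ 2 := by simp [sq]; ring
theorem pow_F (f : TF A) (n : ℕ) (t x : ℝ) : (f.pow n).F t x = f.F t x ^ n := by
  induction n with
  | zero => simp [pow]
  | succ n ih => rw [pow_succ]; simp [pow, ih]
@[simp] theorem tfun_F (g gR gL : ℝ → ℝ) (hc hr hl cr cl hb) (t x : ℝ) :
    (tfun (A := A) g gR gL hc hr hl cr cl hb).F t x = g t := rfl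
@[simp] theorem tfun_Fx (g gR gL : ℝ → ℝ) (hc hr hl cr cl hb) (t x : ℝ) :
    (tfun (A := A) g gR gL hc hr hl cr cl hb).Fx t x = 0 := rfl
@[simp] theorem tfun_gr (g gR gL : ℝ → ℝ) (hc hr hl cr cl hb) (t x : ℝ) :
    (tfun (A := A) g gR gL hc hr hl cr cl hb).gr t x = gR t := by simp [gr, tfun]
@[simp] theorem tfun_gl (g gR gL : ℝ → ℝ) (hc hr hl cr cl hb) (t x : ℝ) :
    (tfun (A := A) g gR gL hc hr hl cr cl hb).gl t x = gL t := by simp [gl, tfun]

section law

variable {x0 : ℝ} {p Y Yx Yxx : ℝ → ℝ → ℝ}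

theorem ex_cont (f : TF A) (hL : Law A x0 p Y Yx Yxx) :
    ContinuousOn (fun t => ex x0 p t (f.F t)) (Icc 0 A.T) := hL.ex_cont _ _ _ _ _ f.test

/-- **expectation identity, right derivative** -/
theorem ex_r (f : TF A) (hL : Law A x0 p Y Yx Yxx) {t : ℝ} (ht : t ∈ Ico 0 A.T) :
    HasDerivWithinAt (fun s => ex x0 p s (f.F s)) (ex x0 p t (f.gr t)) (Ici t) t :=
  hL.ex_r _ _ _ _ _ f.test t ht

/-- **expectation identity, left derivative** -/
theorem ex_l (f : TF A) (hL : Law A x0 p Y Yx Yxx) {t : ℝ} (ht : t ∈ Ioc 0 A.T) :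
    HasDerivWithinAt (fun s => ex x0 p s (f.F s)) (ex x0 p t (f.gl t)) (Iic t) t :=
  hL.ex_l _ _ _ _ _ f.test t ht

theorem ex_cont' (f : TF A) (hL : Law A x0 p Y Yx Yxx) {G : ℝ → ℝ → ℝ}
    (hF : ∀ s x, f.F s x = G s x) : ContinuousOn (fun t => ex x0 p t (G t)) (Icc 0 A.T) := by
  have h := f.ex_cont hL
  have e : f.F = G := by funext s x; exact hF s x
  rwa [e] at h

theorem ex_r' (f : TF A) (hL : Law A x0 p Y Yx Yxx) {t : ℝ} (ht : t ∈ Ico 0 A.T) {G : ℝ → ℝ → ℝ}
    {g : ℝ → ℝ} (hF : ∀ s x, f.F s x = G s x) (hg : ∀ x, f.gr t x = g x) :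
    HasDerivWithinAt (fun s => ex x0 p s (G s)) (ex x0 p t g) (Ici t) t := by
  have h := f.ex_r hL ht
  have e : f.F = G := by funext s x; exact hF s x
  have e2 : f.gr t = g := funext hg
  rwa [e, e2] at h

theorem ex_l' (f : TF A) (hL : Law A x0 p Y Yx Yxx) {t : ℝ} (ht : t ∈ Ioc 0 A.T) {G : ℝ → ℝ → ℝ}
    {g : ℝ → ℝ} (hF : ∀ s x, f.F s x = G s x) (hg : ∀ x, f.gl t x = g x) :
    HasDerivWithinAt (fun s => ex x0 p s (G s)) (ex x0 p t g) (Iic t) t := by
  have h := f.ex_l hL ht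
  have e : f.F = G := by funext s x; exact hF s x
  have e2 : f.gl t = g := funext hg
  rwa [e, e2] at h

end law

section pg

/-- joint continuity gives continuity in `x` -/
theorem cont_of_strip {G : ℝ → ℝ → ℝ} {T : ℝ}
    (h : ContinuousOn (fun q : ℝ × ℝ => G q.1 q.2) (Icc 0 T ×ˢ univ)) {t : ℝ} (ht : t ∈ Icc 0 T) :
    Continuous (G t) := by
  have h1 : Continuous fun x : ℝ => ((t, x) : ℝ × ℝ) := Continuous.prodMk_right t
  have h2 := h.comp_continuous h1 fun x => ⟨ht, mem_univ _⟩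
  exact h2

theorem pg_of {G : ℝ → ℝ → ℝ} (hG : GR A G) {t : ℝ} (ht : t ∈ Icc 0 A.T) (hc : Continuous (G t)) :
    PG (G t) := by
  obtain ⟨C, n, hC, h⟩ := hG
  exact ⟨hc, C, n, hC, fun x => h t ht x⟩

theorem pg_F (f : TF A) {t : ℝ} (ht : t ∈ Icc 0 A.T) : PG (f.F t) :=
  pg_of (test_grF f.test) ht (cont_of_strip f.test.cF ht)

theorem pg_Fx (f : TF A) {t : ℝ} (ht : t ∈ Icc 0 A.T) : PG (f.Fx t) :=
  pg_of (test_grFx f.test) ht (cont_of_strip f.test.cx ht)

theorem pg_Fxx (f : TF A) {t : ℝ} (ht : t ∈ Icc 0 A.T) : PG (f.Fxx t) :=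
  pg_of (test_grFxx f.test) ht (cont_of_strip f.test.cxx ht)

theorem pg_Fr (f : TF A) {t : ℝ} (ht : t ∈ Ico 0 A.T) : PG (f.Fr t) := by
  refine pg_of (test_grFr f.test) ⟨ht.1, ht.2.le⟩ (continuous_iff_continuousAt.2 fun x => ?_)
  have h1 := f.test.cr t ht x
  have h2 : ContinuousWithinAt (fun y : ℝ => ((t, y) : ℝ × ℝ)) univ x :=
    (Continuous.prodMk_right t).continuousWithinAt
  have h3 := ContinuousWithinAt.comp (t := Ici t ×ˢ univ) (g := fun q : ℝ × ℝ => f.Fr q.1 q.2)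
    (f := fun y : ℝ => ((t, y) : ℝ × ℝ)) h1 h2 fun y _ => ⟨mem_Ici.2 le_rfl, mem_univ _⟩
  exact (continuousWithinAt_univ _ _).1 h3

theorem pg_Fl (f : TF A) {t : ℝ} (ht : t ∈ Ioc 0 A.T) : PG (f.Fl t) := by
  refine pg_of (test_grFl f.test) ⟨ht.1.le, ht.2⟩ (continuous_iff_continuousAt.2 fun x => ?_)
  have h1 := f.test.cl t ht x
  have h2 : ContinuousWithinAt (fun y : ℝ => ((t, y) : ℝ × ℝ)) univ x :=
    (Continuous.prodMk_right t).continuousWithinAt
  have h3 := ContinuousWithinAt.comp (t := Iic t ×ˢ univ) (g := fun q : ℝ × ℝ => f.Fl q.1 q.2)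
    (f := fun y : ℝ => ((t, y) : ℝ × ℝ)) h1 h2 fun y _ => ⟨mem_Iic.2 le_rfl, mem_univ _⟩
  exact (continuousWithinAt_univ _ _).1 h3

theorem pg_gr (f : TF A) {t : ℝ} (ht : t ∈ Ico 0 A.T) (hu : PG (A.u t)) : PG (f.gr t) := by
  have hI : t ∈ Icc 0 A.T := ⟨ht.1, ht.2.le⟩
  have h := ((f.pg_Fr ht).add ((f.pg_Fxx hI).mul (PG.const (1 / 2)))).add
    ((hu.const_mul (A.b t)).mul (f.pg_Fx hI))
  have e : f.gr t = fun x => f.Fr t x + f.Fxx t x * (1 / 2) + A.b t * A.u t x * f.Fx t x := by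
    funext x; simp only [gr]; ring
  rw [e]; exact h

theorem pg_gl (f : TF A) {t : ℝ} (ht : t ∈ Ioc 0 A.T) (hu : PG (A.u t)) : PG (f.gl t) := by
  have hI : t ∈ Icc 0 A.T := ⟨ht.1.le, ht.2⟩
  have h := ((f.pg_Fl ht).add ((f.pg_Fxx hI).mul (PG.const (1 / 2)))).add
    ((hu.const_mul (A.bl t)).mul (f.pg_Fx hI))
  have e : f.gl t = fun x => f.Fl t x + f.Fxx t x * (1 / 2) + A.bl t * A.u t x * f.Fx t x := by
    funext x; simp only [gl]; ring
  rw [e]; exact h

end pg

end TF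

/-! ### Instances -/

section inst

variable {A : SD}

theorem gr_b : GR A fun t _ => A.b t := by
  obtain ⟨M, _, h⟩ := weights_le A
  exact GR.tbdd fun t _ => by rw [abs_of_nonneg (A.b_nonneg t)]; exact (h t).2.2.1

theorem gr_bl : GR A fun t _ => A.bl t := by
  obtain ⟨M, _, h⟩ := weights_le A
  exact GR.tbdd fun t _ => by rw [abs_of_nonneg (A.bl_nonneg t)]; exact (h t).2.2.2

theorem gr_m : GR A fun t _ => A.m t := by
  obtain ⟨M, _, h⟩ := weights_le A
  exact GR.tbdd fun t _ => by rw [abs_of_nonneg (A.m_nonneg t)]; exact (h t).1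

theorem gr_ml : GR A fun t _ => A.ml t := by
  obtain ⟨M, _, h⟩ := weights_le A
  exact GR.tbdd fun t _ => by rw [abs_of_nonneg (A.ml_nonneg t)]; exact (h t).2.1

theorem gr_E : GR A fun t _ => A.E t :=
  GR.tbdd (C := A.d⁻¹) fun t _ => by
    rw [abs_of_pos (A.E_pos t)]
    exact inv_anti₀ A.hd (A.d_le_D t)

theorem gr_u (hB : Back A) : GR A A.u := by
  obtain ⟨M, h⟩ := hB.bsys
  exact GR.of_le ⟨M, 1, fun t ht x => by
    rw [abs_of_nonneg (h.u_nonneg t ht x), pow_one]; exact h.u_le t ht x⟩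

theorem gr_V (hB : Back A) : GR A A.V := by
  obtain ⟨M, h⟩ := hB.bsys
  exact GR.bdd (C := 1) fun t ht x => by
    rw [abs_of_pos (h.V_pos t ht x)]; exact (h.V_lt t ht x).le

theorem gr_P (hB : Back A) : GR A A.P := by
  obtain ⟨M, h⟩ := hB.bsys
  exact GR.bdd (C := M) fun t ht x => by
    rw [abs_of_nonneg (h.P_nonneg t ht x)]; exact h.P_le t ht x

theorem gr_Px (hB : Back A) : GR A A.Px := by
  obtain ⟨C, n, hC, h⟩ := hB.growth
  exact ⟨C, n, hC, fun t ht x => (h t ht x).2.1⟩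

theorem gr_Pxx (hB : Back A) : GR A A.Pxx := by
  obtain ⟨C, n, hC, h⟩ := hB.growth
  exact ⟨C, n, hC, fun t ht x => (h t ht x).2.2⟩

theorem gr_psi (hB : Back A) : GR A A.psi := by
  obtain ⟨C, n, hC, h⟩ := hB.growth
  exact ⟨C, n, hC, fun t ht x => (h t ht x).1⟩

theorem cont_u (hB : Back A) : ContinuousOn (fun q : ℝ × ℝ => A.u q.1 q.2) (Icc 0 A.T ×ˢ univ) := by
  obtain ⟨M, h⟩ := hB.bsys; exact h.cu
theorem cont_V (hB : Back A) : ContinuousOn (fun q : ℝ × ℝ => A.V q.1 q.2) (Icc 0 A.T ×ˢ univ) := by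
  obtain ⟨M, h⟩ := hB.bsys; exact h.cV
theorem cont_P (hB : Back A) : ContinuousOn (fun q : ℝ × ℝ => A.P q.1 q.2) (Icc 0 A.T ×ˢ univ) := by
  obtain ⟨M, h⟩ := hB.bsys; exact h.cP

theorem pg_u (hB : Back A) {t : ℝ} (ht : t ∈ Icc 0 A.T) : PG (A.u t) :=
  TF.pg_of (gr_u hB) ht (TF.cont_of_strip (cont_u hB) ht)
theorem pg_V (hB : Back A) {t : ℝ} (ht : t ∈ Icc 0 A.T) : PG (A.V t) :=
  TF.pg_of (gr_V hB) ht (TF.cont_of_strip (cont_V hB) ht)
theorem pg_P (hB : Back A) {t : ℝ} (ht : t ∈ Icc 0 A.T) : PG (A.P t) :=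
  TF.pg_of (gr_P hB) ht (TF.cont_of_strip (cont_P hB) ht)
theorem pg_Px (hB : Back A) {t : ℝ} (ht : t ∈ Icc 0 A.T) : PG (A.Px t) :=
  TF.pg_of (gr_Px hB) ht (TF.cont_of_strip hB.Px_cont ht)
theorem pg_Pxx (hB : Back A) {t : ℝ} (ht : t ∈ Icc 0 A.T) : PG (A.Pxx t) :=
  TF.pg_of (gr_Pxx hB) ht (TF.cont_of_strip hB.Pxx_cont ht)
theorem pg_psi (hB : Back A) {t : ℝ} (ht : t ∈ Icc 0 A.T) : PG (A.psi t) :=
  TF.pg_of (gr_psi hB) ht (TF.cont_of_strip hB.psi_cont ht)

theorem E_cont (hC : Clock A) : Continuous A.E := hC.D_cont.inv₀ fun t => (A.D_pos t).ne'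

theorem K0_contOn (hC : Clock A) : ContinuousOn A.K0 (Icc 0 A.T) :=
  fun t ht => (hC.K0_t t ht).continuousAt.continuousWithinAt

theorem E_r (hC : Clock A) {t : ℝ} (ht : t ∈ Ico 0 A.T) :
    HasDerivWithinAt A.E (A.b t * A.E t) (Ici t) t := by
  have h := (hC.D_t t ht).inv (A.D_pos t).ne'
  refine h.congr_deriv ?_
  have := (A.D_pos t).ne'
  unfold SD.b SD.E; field_simp

theorem E_l (hC : Clock A) {t : ℝ} (ht : t ∈ Ioc 0 A.T) :
    HasDerivWithinAt A.E (A.bl t * A.E t) (Iic t) t := by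
  have h := (hC.D_tl t ht).inv (A.D_pos t).ne'
  refine h.congr_deriv ?_
  have := (A.D_pos t).ne'
  unfold SD.bl SD.E; field_simp

theorem E_le (t : ℝ) : A.E t ≤ A.d⁻¹ := inv_anti₀ A.hd (A.d_le_D t)

namespace TF

/-- `u` -/
def tu (hB : Back A) (hC : Clock A) : TF A where
  F := A.u
  Fr t x := -(A.P t x / 2 + A.b t * A.u t x * A.V t x)
  Fl t x := -(A.P t x / 2 + A.bl t * A.u t x * A.V t x)
  Fx t x := A.V t x - 1
  Fxx := A.P
  test := {
    cF := cont_u hB
    hx := hB.u_x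
    hxx := fun t ht x => by simpa using (hB.V_x t ht x).sub_const 1
    hr := fun t ht x => by obtain ⟨M, h⟩ := hB.bsys; exact h.hut t ht x
    hl := hB.u_tl
    cr := fun t ht x => (((cwa_right ht (cont_P hB)).div_const 2).add
      (((cwa_fst_right (b_cont_right A hC.D_cont t)).mul (cwa_right ht (cont_u hB))).mul
        (cwa_right ht (cont_V hB)))).neg
    cl := fun t ht x => (((cwa_left ht (cont_P hB)).div_const 2).add
      (((cwa_fst_left (bl_cont_left A hC.D_cont t)).mul (cwa_left ht (cont_u hB))).mul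
        (cwa_left ht (cont_V hB)))).neg
    cx := (cont_V hB).sub continuousOn_const
    cxx := cont_P hB
    growth := growth_of (gr_u hB)
      (by
        have h := (((gr_P hB).mul (GR.const (2⁻¹))).add ((gr_b.mul (gr_u hB)).mul (gr_V hB))).neg
        simpa only [div_eq_mul_inv] using h)
      (by
        have h := (((gr_P hB).mul (GR.const (2⁻¹))).add ((gr_bl.mul (gr_u hB)).mul (gr_V hB))).neg
        simpa only [div_eq_mul_inv] using h)
      ((gr_V hB).sub (GR.const 1)) (gr_P hB) }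

/-- `V` -/
def tV (hB : Back A) (hC : Clock A) : TF A where
  F := A.V
  Fr t x := -(A.Px t x / 2 + A.b t * A.u t x * A.P t x) + A.b t * A.V t x * (1 - A.V t x)
  Fl t x := -(A.Px t x / 2 + A.bl t * A.u t x * A.P t x) + A.bl t * A.V t x * (1 - A.V t x)
  Fx := A.P
  Fxx := A.Px
  test := {
    cF := cont_V hB
    hx := hB.V_x
    hxx := hB.P_x
    hr := fun t ht x => by obtain ⟨M, h⟩ := hB.bsys; exact h.hVt t ht x
    hl := hB.V_tl
    cr := fun t ht x => ((((cwa_right ht hB.Px_cont).div_const 2).add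
      (((cwa_fst_right (b_cont_right A hC.D_cont t)).mul (cwa_right ht (cont_u hB))).mul
        (cwa_right ht (cont_P hB)))).neg).add
      (((cwa_fst_right (b_cont_right A hC.D_cont t)).mul (cwa_right ht (cont_V hB))).mul
        (continuousWithinAt_const.sub (cwa_right ht (cont_V hB))))
    cl := fun t ht x => ((((cwa_left ht hB.Px_cont).div_const 2).add
      (((cwa_fst_left (bl_cont_left A hC.D_cont t)).mul (cwa_left ht (cont_u hB))).mul
        (cwa_left ht (cont_P hB)))).neg).add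
      (((cwa_fst_left (bl_cont_left A hC.D_cont t)).mul (cwa_left ht (cont_V hB))).mul
        (continuousWithinAt_const.sub (cwa_left ht (cont_V hB))))
    cx := cont_P hB
    cxx := hB.Px_cont
    growth := growth_of (gr_V hB)
      (by
        have h := (((gr_Px hB).mul (GR.const (2⁻¹))).add ((gr_b.mul (gr_u hB)).mul (gr_P hB))).neg.add
          ((gr_b.mul (gr_V hB)).mul ((GR.const 1).sub (gr_V hB)))
        simpa only [div_eq_mul_inv] using h)
      (by
        have h := (((gr_Px hB).mul (GR.const (2⁻¹))).add ((gr_bl.mul (gr_u hB)).mul (gr_P hB))).neg.add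
          ((gr_bl.mul (gr_V hB)).mul ((GR.const 1).sub (gr_V hB)))
        simpa only [div_eq_mul_inv] using h)
      (gr_P hB) (gr_Px hB) }

/-- `P` -/
def tP (hB : Back A) (hC : Clock A) : TF A where
  F := A.P
  Fr t x := -(A.Pxx t x / 2 + A.b t * A.u t x * A.Px t x) + A.b t * (2 - 3 * A.V t x) * A.P t x
  Fl t x := -(A.Pxx t x / 2 + A.bl t * A.u t x * A.Px t x) + A.bl t * (2 - 3 * A.V t x) * A.P t x
  Fx := A.Px
  Fxx := A.Pxx
  test := {
    cF := cont_P hB
    hx := hB.P_x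
    hxx := hB.Px_x
    hr := fun t ht x => by obtain ⟨M, h⟩ := hB.bsys; exact h.hPt t ht x
    hl := hB.P_tl
    cr := fun t ht x => ((((cwa_right ht hB.Pxx_cont).div_const 2).add
      (((cwa_fst_right (b_cont_right A hC.D_cont t)).mul (cwa_right ht (cont_u hB))).mul
        (cwa_right ht hB.Px_cont))).neg).add
      (((cwa_fst_right (b_cont_right A hC.D_cont t)).mul
        (continuousWithinAt_const.sub (continuousWithinAt_const.mul (cwa_right ht (cont_V hB))))).mul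
        (cwa_right ht (cont_P hB)))
    cl := fun t ht x => ((((cwa_left ht hB.Pxx_cont).div_const 2).add
      (((cwa_fst_left (bl_cont_left A hC.D_cont t)).mul (cwa_left ht (cont_u hB))).mul
        (cwa_left ht hB.Px_cont))).neg).add
      (((cwa_fst_left (bl_cont_left A hC.D_cont t)).mul
        (continuousWithinAt_const.sub (continuousWithinAt_const.mul (cwa_left ht (cont_V hB))))).mul
        (cwa_left ht (cont_P hB)))
    cx := hB.Px_cont
    cxx := hB.Pxx_cont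
    growth := growth_of (gr_P hB)
      (by
        have h := (((gr_Pxx hB).mul (GR.const (2⁻¹))).add ((gr_b.mul (gr_u hB)).mul (gr_Px hB))).neg.add
          ((gr_b.mul ((GR.const 2).sub ((gr_V hB).const_mul 3))).mul (gr_P hB))
        simpa only [div_eq_mul_inv] using h)
      (by
        have h := (((gr_Pxx hB).mul (GR.const (2⁻¹))).add ((gr_bl.mul (gr_u hB)).mul (gr_Px hB))).neg.add
          ((gr_bl.mul ((GR.const 2).sub ((gr_V hB).const_mul 3))).mul (gr_P hB))
        simpa only [div_eq_mul_inv] using h)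
      (gr_Px hB) (gr_Pxx hB) }

/-- `w = x + u` -/
def tw (hB : Back A) (hC : Clock A) : TF A := tx.add (tu hB hC)

/-- `R = 1 - V` -/
def tR (hB : Back A) (hC : Clock A) : TF A := (const 1).sub (tV hB hC)

/-- `E = 1/D` -/
def tE (hC : Clock A) : TF A :=
  tfun A.E (fun t => A.b t * A.E t) (fun t => A.bl t * A.E t) (E_cont hC).continuousOn
    (fun t ht => E_r hC ht) (fun t ht => E_l hC ht)
    (fun t ht => (b_cont_right A hC.D_cont t).mul (E_cont hC).continuousWithinAt)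
    (fun t ht => (bl_cont_left A hC.D_cont t).mul (E_cont hC).continuousWithinAt)
    (by
      obtain ⟨M, hM0, h⟩ := weights_le A
      refine ⟨M * A.d⁻¹, fun t _ => ?_⟩
      constructor
      · rw [abs_of_nonneg (mul_nonneg (A.b_nonneg t) (A.E_pos t).le)]
        exact mul_le_mul (h t).2.2.1 (E_le t) (A.E_pos t).le hM0
      · rw [abs_of_nonneg (mul_nonneg (A.bl_nonneg t) (A.E_pos t).le)]
        exact mul_le_mul (h t).2.2.2 (E_le t) (A.E_pos t).le hM0)

/-- `D` -/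
def tD (hC : Clock A) : TF A :=
  tfun A.D (fun t => -A.m t) (fun t => -A.ml t) hC.D_cont.continuousOn hC.D_t hC.D_tl
    (fun t _ => (m_cont_right A t).neg) (fun t _ => (ml_cont_left A t).neg)
    (by
      obtain ⟨M, hM0, h⟩ := weights_le A
      refine ⟨M, fun t _ => ?_⟩
      rw [abs_neg, abs_neg, abs_of_nonneg (A.m_nonneg t), abs_of_nonneg (A.ml_nonneg t)]
      exact ⟨(h t).1, (h t).2.1⟩)

/-- `K0` -/
def tK0 (hC : Clock A) : TF A :=
  tfun A.K0 (fun t => -A.E t) (fun t => -A.E t) (K0_contOn hC)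
    (fun t ht => (hC.K0_t t ⟨ht.1, ht.2.le⟩).hasDerivWithinAt)
    (fun t ht => (hC.K0_t t ⟨ht.1.le, ht.2⟩).hasDerivWithinAt)
    (fun t _ => (E_cont hC).continuousWithinAt.neg)
    (fun t _ => (E_cont hC).continuousWithinAt.neg)
    (by
      refine ⟨A.d⁻¹, fun t _ => ?_⟩
      rw [abs_neg, abs_of_pos (A.E_pos t)]
      exact ⟨E_le t, E_le t⟩)

/-- `chi = D K0` -/
def tchi (hC : Clock A) : TF A := (tD hC).mul (tK0 hC)

@[simp] theorem tu_F (hB : Back A) (hC : Clock A) (t x : ℝ) : (tu hB hC).F t x = A.u t x := rfl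
@[simp] theorem tu_Fx (hB : Back A) (hC : Clock A) (t x : ℝ) :
    (tu hB hC).Fx t x = A.V t x - 1 := rfl
@[simp] theorem tu_Fxx (hB : Back A) (hC : Clock A) (t x : ℝ) : (tu hB hC).Fxx t x = A.P t x := rfl
@[simp] theorem tu_gr (hB : Back A) (hC : Clock A) (t x : ℝ) :
    (tu hB hC).gr t x = -(A.b t * A.u t x) := by simp only [gr, tu]; ring
@[simp] theorem tu_gl (hB : Back A) (hC : Clock A) (t x : ℝ) :
    (tu hB hC).gl t x = -(A.bl t * A.u t x) := by simp only [gl, tu]; ring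
@[simp] theorem tV_F (hB : Back A) (hC : Clock A) (t x : ℝ) : (tV hB hC).F t x = A.V t x := rfl
@[simp] theorem tV_Fx (hB : Back A) (hC : Clock A) (t x : ℝ) : (tV hB hC).Fx t x = A.P t x := rfl
@[simp] theorem tV_Fxx (hB : Back A) (hC : Clock A) (t x : ℝ) :
    (tV hB hC).Fxx t x = A.Px t x := rfl
@[simp] theorem tV_gr (hB : Back A) (hC : Clock A) (t x : ℝ) :
    (tV hB hC).gr t x = A.b t * A.V t x * (1 - A.V t x) := by simp only [gr, tV]; ring
@[simp] theorem tV_gl (hB : Back A) (hC : Clock A) (t x : ℝ) :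
    (tV hB hC).gl t x = A.bl t * A.V t x * (1 - A.V t x) := by simp only [gl, tV]; ring
@[simp] theorem tP_F (hB : Back A) (hC : Clock A) (t x : ℝ) : (tP hB hC).F t x = A.P t x := rfl
@[simp] theorem tP_Fx (hB : Back A) (hC : Clock A) (t x : ℝ) : (tP hB hC).Fx t x = A.Px t x := rfl
@[simp] theorem tP_Fxx (hB : Back A) (hC : Clock A) (t x : ℝ) :
    (tP hB hC).Fxx t x = A.Pxx t x := rfl
@[simp] theorem tP_gr (hB : Back A) (hC : Clock A) (t x : ℝ) :
    (tP hB hC).gr t x = A.b t * (2 - 3 * A.V t x) * A.P t x := by simp only [gr, tP]; ring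
@[simp] theorem tP_gl (hB : Back A) (hC : Clock A) (t x : ℝ) :
    (tP hB hC).gl t x = A.bl t * (2 - 3 * A.V t x) * A.P t x := by simp only [gl, tP]; ring
@[simp] theorem tw_F (hB : Back A) (hC : Clock A) (t x : ℝ) : (tw hB hC).F t x = A.w t x := rfl
@[simp] theorem tw_Fx (hB : Back A) (hC : Clock A) (t x : ℝ) :
    (tw hB hC).Fx t x = A.V t x := by simp [tw]
@[simp] theorem tw_gr (hB : Back A) (hC : Clock A) (t x : ℝ) : (tw hB hC).gr t x = 0 := by
  simp [tw]
@[simp] theorem tw_gl (hB : Back A) (hC : Clock A) (t x : ℝ) : (tw hB hC).gl t x = 0 := by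
  simp [tw]
@[simp] theorem tR_F (hB : Back A) (hC : Clock A) (t x : ℝ) :
    (tR hB hC).F t x = 1 - A.V t x := by simp [tR]
@[simp] theorem tR_Fx (hB : Back A) (hC : Clock A) (t x : ℝ) :
    (tR hB hC).Fx t x = -A.P t x := by simp [tR]
@[simp] theorem tR_gr (hB : Back A) (hC : Clock A) (t x : ℝ) :
    (tR hB hC).gr t x = -(A.b t * A.V t x * (1 - A.V t x)) := by simp [tR]
@[simp] theorem tR_gl (hB : Back A) (hC : Clock A) (t x : ℝ) :
    (tR hB hC).gl t x = -(A.bl t * A.V t x * (1 - A.V t x)) := by simp [tR]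
@[simp] theorem tE_F (hC : Clock A) (t x : ℝ) : (tE hC).F t x = A.E t := rfl
@[simp] theorem tE_Fx (hC : Clock A) (t x : ℝ) : (tE hC).Fx t x = 0 := rfl
@[simp] theorem tE_gr (hC : Clock A) (t x : ℝ) : (tE hC).gr t x = A.b t * A.E t := by
  unfold tE; rw [tfun_gr]
@[simp] theorem tE_gl (hC : Clock A) (t x : ℝ) : (tE hC).gl t x = A.bl t * A.E t := by
  unfold tE; rw [tfun_gl]
@[simp] theorem tD_F (hC : Clock A) (t x : ℝ) : (tD hC).F t x = A.D t := rfl
@[simp] theorem tD_Fx (hC : Clock A) (t x : ℝ) : (tD hC).Fx t x = 0 := rfl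
@[simp] theorem tD_gr (hC : Clock A) (t x : ℝ) : (tD hC).gr t x = -A.m t := by
  unfold tD; rw [tfun_gr]
@[simp] theorem tD_gl (hC : Clock A) (t x : ℝ) : (tD hC).gl t x = -A.ml t := by
  unfold tD; rw [tfun_gl]
@[simp] theorem tK0_F (hC : Clock A) (t x : ℝ) : (tK0 hC).F t x = A.K0 t := rfl
@[simp] theorem tK0_Fx (hC : Clock A) (t x : ℝ) : (tK0 hC).Fx t x = 0 := rfl
@[simp] theorem tK0_gr (hC : Clock A) (t x : ℝ) : (tK0 hC).gr t x = -A.E t := by
  unfold tK0; rw [tfun_gr]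
@[simp] theorem tK0_gl (hC : Clock A) (t x : ℝ) : (tK0 hC).gl t x = -A.E t := by
  unfold tK0; rw [tfun_gl]
@[simp] theorem tchi_F (hC : Clock A) (t x : ℝ) : (tchi hC).F t x = A.chi t := rfl
@[simp] theorem tchi_Fx (hC : Clock A) (t x : ℝ) : (tchi hC).Fx t x = 0 := by simp [tchi]
@[simp] theorem tchi_gr (hC : Clock A) (t x : ℝ) :
    (tchi hC).gr t x = -(1 + A.m t * A.K0 t) := by
  have h : A.D t * A.E t = 1 := mul_inv_cancel₀ (A.D_pos t).ne'
  simp [tchi]; linarith
@[simp] theorem tchi_gl (hC : Clock A) (t x : ℝ) :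
    (tchi hC).gl t x = -(1 + A.ml t * A.K0 t) := by
  have h : A.D t * A.E t = 1 := mul_inv_cancel₀ (A.D_pos t).ne'
  simp [tchi]; linarith

end TF

end inst

end

end Crest.Agent.R146.StepTest_168
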