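import Crest.Agent.R146.PtS4b_489
import Crest.Agent.R146.StepApx_856
import Crest.Agent.R146.StepTest_168
import Crest.Agent.R146.StepScal_774
import Crest.Agent.R146.StepK_692
import Crest.Agent.R146.StepClk_900

/-!
Row 146, package PT-STEP, (L2) STEP-APPR (helper522): the approximating step data of
`StepApx_856` satisfy `PtS4b_489.Appr`.

* `isProf` : a `PtScalA_45.Prof` is a `PtS1_489.IsProf`;
* `scal_full` : all fields of `Scal` from `Back` and `Law`;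
* `Ts_nonneg, Qs_nonneg, TQ_le, Zs_abs, Ns_le` : bounds of the scalars;
* `appr_of` : `Appr P A x0 p L0 C0`.
-/

set_option autoImplicit false

namespace Crest.Agent.R146.StepAppr_522

open Set MeasureTheory Filter Topology
open Crest.Agent.R146.StepDef_791 Crest.Agent.R146.PB_534
open Crest.Agent.R146.StepTest_168 (pg_V pg_P ex_nonneg ex_le_const ex_abs_le_of ex_add ex_congr)
open Crest.Agent.R146.PtScalA_45 (Prof)
open Crest.Agent.R146.PtS1_489 (IsProf)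
open Crest.Agent.R146.StepApx_856 (Apx)
open Crest.Agent.R146.PtS4b_489 (Appr)

noncomputable section

/-! ### profiles -/

theorem isProf (P : Prof) : IsProf P.D P.m where
  mono := P.mono
  nonneg := P.nonneg
  int := P.int
  eq := fun x _ => by simp [Prof.D]
  end_nonneg := by simpa [Prof.D] using P.d_nonneg

/-! ### scalars of one step datum -/

section one

variable {A : SD} {x0 : ℝ} {p Y Yx Yxx : ℝ → ℝ → ℝ}

/-- all fields of `Scal` -/
theorem scal_full (hB : Back A) (hL : Law A x0 p Y Yx Yxx) : Scal A x0 p :=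
  StepScal_774.scal A x0 p Y Yx Yxx hB (StepClk_900.clock A) hL
    (StepK_692.K_t hB (StepClk_900.clock A) hL)

theorem V_bd (hB : Back A) {t : ℝ} (ht : t ∈ Icc 0 A.T) (x : ℝ) : 0 < A.V t x ∧ A.V t x < 1 := by
  obtain ⟨M, hM⟩ := hB.bsys
  exact ⟨hM.V_pos t ht x, hM.V_lt t ht x⟩

theorem pg_R (hB : Back A) {t : ℝ} (ht : t ∈ Icc 0 A.T) : PG (fun x => 1 - A.V t x) :=
  (PG.const 1).sub (pg_V hB ht)

theorem Ts_nonneg (hL : Law A x0 p Y Yx Yxx) {t : ℝ} (ht : t ∈ Icc 0 A.T) :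
    0 ≤ Ts A x0 p t := ex_nonneg hL ht.2 fun _ => sq_nonneg _

theorem Qs_nonneg (hB : Back A) (hL : Law A x0 p Y Yx Yxx) {t : ℝ} (ht : t ∈ Icc 0 A.T) :
    0 ≤ Qs A x0 p t := by
  refine ex_nonneg hL ht.2 fun x => ?_
  have := V_bd hB ht x
  exact mul_nonneg (by linarith) this.1.le

theorem TQ_eq (hB : Back A) (hL : Law A x0 p Y Yx Yxx) {t : ℝ} (ht : t ∈ Icc 0 A.T) :
    Ts A x0 p t + Qs A x0 p t = ex x0 p t (fun x => 1 - A.V t x) := by
  unfold Ts Qs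
  rw [← ex_add hL ht.2 ((pg_R hB ht).pow 2) ((pg_R hB ht).mul (pg_V hB ht))]
  exact ex_congr t fun x => by ring

theorem TQ_le (hB : Back A) (hL : Law A x0 p Y Yx Yxx) {t : ℝ} (ht : t ∈ Icc 0 A.T) :
    Ts A x0 p t + Qs A x0 p t ≤ 1 := by
  rw [TQ_eq hB hL ht]
  exact ex_le_const hL ht.2 (pg_R hB ht) fun x => by linarith [(V_bd hB ht x).1]

theorem Zs_nonneg (hB : Back A) (hL : Law A x0 p Y Yx Yxx) {t : ℝ} (ht : t ∈ Icc 0 A.T) :
    0 ≤ Zs A x0 p t :=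
  ex_nonneg hL ht.2 fun x => mul_nonneg (sq_nonneg _) (V_bd hB ht x).1.le

theorem Zs_abs (hB : Back A) (hL : Law A x0 p Y Yx Yxx) {t : ℝ} (ht : t ∈ Icc 0 A.T) :
    |Zs A x0 p t| ≤ 1 := by
  rw [abs_of_nonneg (Zs_nonneg hB hL ht)]
  refine ex_le_const hL ht.2 (((pg_R hB ht).pow 2).mul (pg_V hB ht)) fun x => ?_
  have h := V_bd hB ht x
  have h1 : (1 - A.V t x) ^ 2 ≤ 1 := by nlinarith
  have h2 : 0 ≤ (1 - A.V t x) ^ 2 := sq_nonneg _
  nlinarith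

theorem Ns_nonneg (hL : Law A x0 p Y Yx Yxx) {t : ℝ} (ht : t ∈ Icc 0 A.T) :
    0 ≤ Ns A x0 p t := ex_nonneg hL ht.2 fun _ => sq_nonneg _

theorem Ns_le (hB : Back A) (hL : Law A x0 p Y Yx Yxx) {t : ℝ} (ht : t ∈ Icc 0 A.T)
    (hP : ∀ x, (1 - t) * A.P t x ^ 2 ≤ 2 * A.V t x * (1 - A.V t x)) :
    Ns A x0 p t ≤ 1 / (2 * (1 - t)) := by
  have ht1 : 0 < 1 - t := by linarith [ht.2, A.hT1]
  refine ex_le_const hL ht.2 ((pg_P hB ht).pow 2) fun x => ?_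
  have h := V_bd hB ht x
  rw [le_div_iff₀ (by linarith)]
  have h1 := hP x
  nlinarith [sq_nonneg (A.V t x - 1 / 2)]

end one

/-! ### the sequence -/

theorem mono_cont_ae (P : Prof) :
    ∀ᵐ t ∂(volume : Measure ℝ), t ∈ Ico (0 : ℝ) 1 → t ∈ Ioo (0 : ℝ) 1 ∧ ContinuousAt P.m t := by
  have h1 : ({x ∈ Ico (0:ℝ) 1 | ¬ ContinuousWithinAt P.m (Ico 0 1) x}).Countable :=
    P.mono.countable_not_continuousWithinAt
  have h2 : ∀ᵐ t ∂(volume : Measure ℝ), t ∉ {x ∈ Ico (0:ℝ) 1 | ¬ ContinuousWithinAt P.m (Ico 0 1) x} :=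
    h1.ae_notMem _
  have h3 : ∀ᵐ t ∂(volume : Measure ℝ), t ∉ ({0} : Set ℝ) := (countable_singleton 0).ae_notMem _
  filter_upwards [h2, h3] with t ht2 ht3 ht
  have h0 : 0 < t := lt_of_le_of_ne ht.1 fun h => ht3 h.symm
  refine ⟨⟨h0, ht.2⟩, ?_⟩
  have h4 : ContinuousWithinAt P.m (Ico 0 1) t := by
    by_contra hcon
    exact ht2 ⟨ht, hcon⟩
  exact h4.continuousAt (mem_of_superset (Ioo_mem_nhds h0 ht.2) Ioo_subset_Ico_self)

theorem appr_of {P : Prof} {ε : ℕ → ℝ} {F : ℕ → Finset ℝ} {A : ℕ → SD} {K : ℕ → ℕ}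
    {g : ℕ → ℕ → ℝ} {e : ℕ → ℝ}
    (hA : ∀ n, Apx P.D P.m (ε n) (F n) (A n) (K n) (g n) (e n)) (hε : Tendsto ε atTop (𝓝 0))
    {x0 : ℝ} {p Y Yx Yxx : ℕ → ℝ → ℝ → ℝ} (hB : ∀ n, Back (A n))
    (hL : ∀ n, Law (A n) x0 (p n) (Y n) (Yx n) (Yxx n))
    (hP : ∀ n, ∀ t ∈ Icc 0 (A n).T, ∀ x,
      (1 - t) * (A n).P t x ^ 2 ≤ 2 * (A n).V t x * (1 - (A n).V t x))
    {L0 C0 : ℝ → ℝ}
    (hLL : ∀ t ∈ Ico (0 : ℝ) 1, Tendsto (fun n => Lams (A n) x0 (p n) t) atTop (𝓝 (L0 t)))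
    (hCL : ∀ t ∈ Ico (0 : ℝ) 1, Tendsto (fun n => Cs (A n) x0 (p n) t) atTop (𝓝 (C0 t))) :
    Appr P A x0 p L0 C0 where
  clk n := StepClk_900.clock (A n)
  scal n := scal_full (hB n) (hL n)
  T1 q hq := (StepApx_856.tendsto_T hA hε).eventually (lt_mem_nhds hq)
  DL q hq := by
    rw [Metric.tendstoUniformlyOn_iff]
    intro δ hδ
    filter_upwards [hε.eventually (gt_mem_nhds hδ)] with n hn x hx
    have hx1 : x ∈ Icc (0:ℝ) 1 := ⟨hx.1, hx.2.trans hq.2.le⟩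
    have h1 := (hA n).D_le x hx1
    have h2 := (hA n).le_D x hx1
    rw [Real.dist_eq, abs_lt]
    constructor <;> linarith
  mL := by
    filter_upwards [mono_cont_ae P] with t ht ht0
    exact StepApx_856.tendsto_m hA hε (isProf P) (ht ht0).1 (ht ht0).2
  mb q hq := by
    refine ⟨P.m ((1 + q) / 2) + 1, ?_⟩
    have hq2 : 0 < (1 - q) / 2 := by linarith [hq.2]
    filter_upwards [hε.eventually (gt_mem_nhds hq2), hε.eventually (gt_mem_nhds one_pos),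
      (StepApx_856.tendsto_T hA hε).eventually (lt_mem_nhds hq.2)] with n h1 h2 h3 t ht
    have h4 := (hA n).m_le_of (isProf P) (x := t) (y := (1 + q) / 2) ⟨ht.1, ht.2.trans_lt h3⟩
      (by linarith [hq.2]) (by linarith [ht.2])
    linarith
  Nb q hq := by
    refine ⟨1 / (2 * (1 - q)), ?_⟩
    filter_upwards [(StepApx_856.tendsto_T hA hε).eventually (lt_mem_nhds hq.2)] with n h3 t ht
    have ht' : t ∈ Icc 0 (A n).T := ⟨ht.1, ht.2.trans h3.le⟩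
    rw [abs_of_nonneg (Ns_nonneg (hL n) ht')]
    refine (Ns_le (hB n) (hL n) ht' (hP n t ht')).trans ?_
    have h5 : 0 < 1 - q := by linarith [hq.2]
    exact one_div_le_one_div_of_le (by linarith) (by linarith [ht.2])
  Tb n t ht := Ts_nonneg (hL n) ht
  Qb n t ht := Qs_nonneg (hB n) (hL n) ht
  TQb n t ht := TQ_le (hB n) (hL n) ht
  Zb n t ht := Zs_abs (hB n) (hL n) ht
  LL := hLL
  CL := hCL

end

end Crest.Agent.R146.StepAppr_522
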