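import Crest.Agent.R146.TipSeq_791
import Crest.Agent.R146.StepAppr_522
import Crest.Agent.R146.PtHlim_45
import Crest.Agent.R146.PtScalC_45
import Crest.Agent.R146.Cell_534

/-!
Row 146, package PT-STEP, ASSEMBLY (helper791): from a jamming minimiser in the Hilbert frame to
`TipSeq P`.

Open inputs are hypotheses (Props):
* `PLAW` (R2, helper534), `START` (helper384), `PUB` (bound of `V_x`), `Bridge R K ξ` (R3, helper256),
  `NOGAP` (PT-APRI).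
`tipSeq_of` : conclusion.
-/

set_option autoImplicit false

namespace Crest.Agent.R146.StepAsm_791

open MeasureTheory ProbabilityTheory Set Filter Topology
open Crest.Agent.R146.StepDef_791 Crest.Agent.R146.StepApx_856 Crest.Agent.R146.TipSeq_791
open Crest.Agent.R146.StepAppr_522 Crest.Agent.R146.PtS4b_489
open Crest.Agent.R146.PtHlim_45 Crest.Agent.R146.PtScalC_45
open Crest.Agent.R146.PtScalA_45 (Prof)
open Crest.Agent.R146.Cell_534 (pd)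
open Crest.Agent.R146.Hilb
open scoped RealInnerProductSpace

noncomputable section

/-- **R2** (helper534): the law with density `pd A 1` of `Cell_534`, started at `1`, with the explicit
slope on the first cell, and the universal lower bound of the slope for nondecreasing weights -/
def PLAW : Prop := ∃ Y Yx Yxx : SD → ℝ → ℝ → ℝ, ∀ A : SD,
  Law A 1 (pd A 1) (Y A) (Yx A) (Yxx A) ∧
  (∃ s1 ∈ Ioc 0 A.T, ∀ t ∈ Ioc 0 s1, ∀ x, Y A t x = (x - 1) / t - A.bl t * A.u t x) ∧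
  ((∀ x y, 0 ≤ x → x ≤ y → y < A.T → A.m x ≤ A.m y) →
    ∀ t ∈ Ioc 0 A.T, ∀ x, (x - 1) / t - A.bl t * A.u t x ≤ Y A t x)

/-- **START** (helper384): one-sided bounds of the slope at a fixed time, uniform in the datum -/
def START : Prop := ∀ t0 ∈ Ioo (0 : ℝ) 1, ∀ B : ℝ, ∃ C : ℝ, ∀ (A : SD) (p Y Yx Yxx : ℝ → ℝ → ℝ),
  Law A 1 p Y Yx Yxx →
  (∃ s1 ∈ Ioc 0 A.T, ∀ t ∈ Ioc 0 s1, ∀ x, Y t x = (x - 1) / t - A.bl t * A.u t x) →
  t0 < A.T → (∀ t ∈ Ico 0 A.T, (1 - t) * A.b t ≤ 1) → (∀ t ∈ Icc 0 t0, A.b t ≤ B) →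
  ∀ x, -(C * (1 + A.u t0 x)) ≤ Y t0 x ∧ Y t0 x ≤ C * (1 + A.w t0 x)

/-- bound of `V_x` -/
def PUB : Prop := ∀ A : SD, (∀ t ∈ Ico 0 A.T, (1 - t) * A.b t ≤ 1) →
  ∀ t ∈ Icc 0 A.T, ∀ x, (1 - t) * A.P t x ^ 2 ≤ 2 * A.V t x * (1 - A.V t x)

/-- **R3** (helper256), for the density `pd A 1` -/
def Bridge {H : Type*} [NormedAddCommGroup H] [InnerProductSpace ℝ H] [CompleteSpace H]
    (R : Res H) (K : Set H) (ξ : H) : Prop :=
  ∀ A : SD, ∃ l : H, Kkt R K ξ A.D l ∧ (∀ t ∈ Icc 0 A.T, ‖R.P t l‖ ^ 2 = Lams A 1 (pd A 1) t) ∧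
    ∀ t ∈ Icc 0 A.T, ⟪R.P t (ξ + R.Dop A.D l), l⟫ = Cs A 1 (pd A 1) t

section

variable {H : Type*} [NormedAddCommGroup H] [InnerProductSpace ℝ H] [CompleteSpace H]
  {R : Res H} {K : Set H} {ξ x : H}

/-- dyadic grids -/
def dyads (n : ℕ) : Finset ℝ := (Finset.range (2 ^ n + 1)).image fun k : ℕ => (k : ℝ) / 2 ^ n

theorem mem_dyads {n k : ℕ} (hk : k ≤ 2 ^ n) : ((k : ℝ) / 2 ^ n) ∈ dyads n :=
  Finset.mem_image.2 ⟨k, Finset.mem_range.2 (by omega), rfl⟩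

theorem dyads_sub {n : ℕ} {y : ℝ} (hy : y ∈ dyads n) : y ∈ Icc (0 : ℝ) 1 := by
  obtain ⟨k, hk, rfl⟩ := Finset.mem_image.1 hy
  have hk' : k ≤ 2 ^ n := by
    have := Finset.mem_range.1 hk
    omega
  have h2 : (k : ℝ) ≤ 2 ^ n := by exact_mod_cast hk'
  exact ⟨by positivity, by rw [div_le_one (by positivity)]; exact h2⟩

theorem S_unique {P : Prof} (hpos : ∀ t ∈ Ico (0 : ℝ) 1, 0 < P.D t) {C0 q q' : ℝ → ℝ}
    (hq : ContinuousOn q (Ico 0 1)) (hq' : ContinuousOn q' (Ico 0 1))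
    (h : ∀ x y : ℝ, 0 ≤ x → x ≤ y → y < 1 → C0 x - C0 y = ∫ z in x..y, q z / P.D z)
    (h' : ∀ x y : ℝ, 0 ≤ x → x ≤ y → y < 1 → C0 x - C0 y = ∫ z in x..y, q' z / P.D z) :
    ∀ t ∈ Ico (0 : ℝ) 1, q t = q' t := by
  have hDc : ContinuousOn P.D (Ico 0 1) := (D_contOn P).mono Ico_subset_Icc_self
  have key : ∀ r : ℝ → ℝ, (∀ x y : ℝ, 0 ≤ x → x ≤ y → y < 1 →
      C0 x - C0 y = ∫ z in x..y, r z / P.D z) →
      ∀ x y : ℝ, 0 ≤ x → x ≤ y → y < 1 →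
        (fun t => -C0 t) y - (fun t => -C0 t) x = ∫ z in x..y, (r z * P.D z) / (P.D z) ^ 2 := by
    intro r hr x y hx hxy hy
    have h1 : (fun t => -C0 t) y - (fun t => -C0 t) x = C0 x - C0 y := by ring
    rw [h1, hr x y hx hxy hy]
    refine intervalIntegral.integral_congr fun z hz => ?_
    rw [uIcc_of_le hxy] at hz
    have h2 := (hpos z ⟨hx.trans hz.1, hz.2.trans_lt hy⟩).ne'
    show r z / P.D z = r z * P.D z / P.D z ^ 2
    field_simp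
  have h3 := T_unique hpos (L0 := fun t => -C0 t) (hq.mul hDc) (hq'.mul hDc) (key q h) (key q' h')
  intro t ht
  have h4 := h3 t ht
  exact mul_right_cancel₀ (hpos t ht).ne' h4

/-- all approximating sequences with given grid points -/
theorem exists_pre {D : ℝ → ℝ} (hk : Kkt R K ξ D x) (hcont : ContinuousOn D (Icc 0 1))
    (hanti : AntitoneOn D (Icc 0 1)) (P : Prof) (hP : ∀ t ∈ Icc (0:ℝ) 1, P.D t = D t)
    (hpos : ∀ t ∈ Ico (0 : ℝ) 1, 0 < P.D t)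
    (hint : IntervalIntegrable (fun t => (P.D t)⁻¹) volume 0 1)
    (hback : ∀ A : SD, Back A) (hlaw : PLAW) (hst : START) (hpub : PUB) (hbr : Bridge R K ξ) :
    ∃ CY : ℝ → ℝ, ∀ (F0 : Finset ℝ), (∀ y ∈ F0, y ∈ Icc (0 : ℝ) 1) →
    ∃ (A : ℕ → SD) (ε : ℕ → ℝ) (F : ℕ → Finset ℝ) (Kn : ℕ → ℕ) (g : ℕ → ℕ → ℝ) (e : ℕ → ℝ)
      (p Y Yx Yxx : ℕ → ℝ → ℝ → ℝ),
      (∀ n, Apx P.D P.m (ε n) (F n) (A n) (Kn n) (g n) (e n)) ∧ Tendsto ε atTop (𝓝 0) ∧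
      (∀ n k : ℕ, k ≤ 2 ^ n → ((k : ℝ) / 2 ^ n) ∈ F n) ∧ (∀ n, F0 ⊆ F n) ∧
      (∀ n, Law (A n) 1 (p n) (Y n) (Yx n) (Yxx n)) ∧
      (∀ t0 ∈ Ioo (0 : ℝ) 1, ∀ᶠ n in atTop, ∀ x,
        -(CY t0 * (1 + (A n).u t0 x)) ≤ Y n t0 x ∧ Y n t0 x ≤ CY t0 * (1 + (A n).w t0 x)) ∧
      (∀ n, ∀ t ∈ Ioc 0 (A n).T, ∀ x, (x - 1) / t - (A n).bl t * (A n).u t x ≤ Y n t x) ∧
      Appr P A 1 p (fun t => ‖R.P t x‖ ^ 2) (fun t => ⟪R.P t (ξ + R.Dop D x), x⟫) := by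
  classical
  obtain ⟨YA, YxA, YxxA, hlawA⟩ := hlaw
  -- the universal constant
  let q : ℝ → ℝ := fun t0 => (1 + t0) / 2
  let B : ℝ → ℝ := fun t0 => (P.m (q t0) + 1) / P.D t0
  have hq0 : ∀ t0 ∈ Ioo (0:ℝ) 1, 0 < q t0 := fun t0 ht0 => by simp only [q]; linarith [ht0.1]
  have hq1 : ∀ t0 ∈ Ioo (0:ℝ) 1, q t0 < 1 := fun t0 ht0 => by simp only [q]; linarith [ht0.2]
  have hCex : ∀ t0 : ℝ, ∃ C : ℝ, t0 ∈ Ioo (0:ℝ) 1 → ∀ (A : SD) (p Y Yx Yxx : ℝ → ℝ → ℝ),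
      Law A 1 p Y Yx Yxx →
      (∃ s1 ∈ Ioc 0 A.T, ∀ t ∈ Ioc 0 s1, ∀ x, Y t x = (x - 1) / t - A.bl t * A.u t x) →
      t0 < A.T → (∀ t ∈ Ico 0 A.T, (1 - t) * A.b t ≤ 1) → (∀ t ∈ Icc 0 t0, A.b t ≤ B t0) →
      ∀ x, -(C * (1 + A.u t0 x)) ≤ Y t0 x ∧ Y t0 x ≤ C * (1 + A.w t0 x) := by
    intro t0
    by_cases ht0 : t0 ∈ Ioo (0:ℝ) 1
    · obtain ⟨C, hC⟩ := hst t0 ht0 (B t0)
      exact ⟨C, fun _ => hC⟩
    · exact ⟨0, fun h => absurd h ht0⟩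
  choose CY hCY using hCex
  refine ⟨CY, fun F0 hF0 => ?_⟩
  have h1 : ∀ n : ℕ, ∃ (A : SD) (K : ℕ) (t : ℕ → ℝ) (e : ℝ),
      Apx P.D P.m (1 / ((n : ℝ) + 1)) (F0 ∪ dyads n) A K t e := fun n =>
    exists_SD (isProf P) hpos hint (by positivity) _ (fun y hy => by
      rcases Finset.mem_union.1 hy with h | h
      · exact hF0 y h
      · exact dyads_sub h)
  choose A Kn g e hA using h1
  have hε : Tendsto (fun n : ℕ => 1 / ((n : ℝ) + 1)) atTop (𝓝 0) :=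
    tendsto_one_div_add_atTop_nhds_zero_nat
  have hT := StepApx_856.tendsto_T hA hε
  choose l hl hlam hC using fun n => hbr (A n)
  have hev : ∀ t ∈ Ico (0 : ℝ) 1, ∀ᶠ n in atTop, t ∈ Icc 0 (A n).T := by
    intro t ht
    filter_upwards [hT.eventually (lt_mem_nhds ht.2)] with n hn using ⟨ht.1, hn.le⟩
  have hDc : ∀ n, ContinuousOn (A n).D (Icc 0 1) := fun n =>
    (StepClk_900.clock (A n)).D_cont.continuousOn
  have hle : ∀ n, ∀ t ∈ Icc (0:ℝ) 1, D t ≤ (A n).D t := fun n t ht => by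
    rw [← hP t ht]; exact (hA n).D_le t ht
  have hge : ∀ n, ∀ t ∈ Icc (0:ℝ) 1, (A n).D t ≤ D t + 1 / ((n : ℝ) + 1) := fun n t ht => by
    rw [← hP t ht]; exact (hA n).le_D t ht
  have hD1 : 0 ≤ D 1 := by
    rw [← hP 1 ⟨zero_le_one, le_rfl⟩]
    exact prof_nonneg P ⟨zero_le_one, le_rfl⟩
  have hDpos : ∀ t ∈ Ico (0 : ℝ) 1, 0 < D t := fun t ht => by
    rw [← hP t (Ico_subset_Icc_self ht)]; exact hpos t ht
  refine ⟨A, fun n => 1 / ((n : ℝ) + 1), fun n => F0 ∪ dyads n, Kn, g, e, fun n => pd (A n) 1,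
    fun n => YA (A n), fun n => YxA (A n), fun n => YxxA (A n), hA, hε,
    fun n k hk => Finset.mem_union_right _ (mem_dyads hk), fun n => Finset.subset_union_left,
    fun n => (hlawA (A n)).1, ?_,
    fun n => (hlawA (A n)).2.2 fun x y hx hxy hy => (hA n).m_mono hx hxy hy, ?_⟩
  · -- uniform slope bound
    intro t0 ht0
    have hq1' := hq1 t0 ht0
    have hDt0 : 0 < P.D t0 := hpos t0 ⟨ht0.1.le, ht0.2⟩
    filter_upwards [hT.eventually (lt_mem_nhds ht0.2), hε.eventually (gt_mem_nhds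
      (show (0:ℝ) < q t0 - t0 by simp only [q]; linarith [ht0.2]))] with n hn1 hn2 y
    refine hCY t0 ht0 (A n) _ _ _ _ (hlawA (A n)).1 (hlawA (A n)).2.1 hn1
      (fun t ht => (hA n).b_le ⟨ht.1, ht.2.le.trans (A n).hT1.le⟩) (fun t ht => ?_) y
    have ht1 : t ∈ Icc (0:ℝ) 1 := ⟨ht.1, ht.2.trans ht0.2.le⟩
    have hn3 : 1 / ((n : ℝ) + 1) ≤ 1 := by
      rw [div_le_one (by positivity)]
      linarith [(Nat.cast_nonneg n : (0:ℝ) ≤ n)]
    have h2 := (hA n).m_le_of (isProf P) (x := t) (y := q t0) ⟨ht.1, ht.2.trans_lt hn1⟩ hq1'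
      (by linarith [ht.2])
    have h3 := (hA n).D_le t ht1
    have h4 := prof_anti P ht1 ⟨ht0.1.le, ht0.2.le⟩ ht.2
    have h5 := (A n).m_nonneg t
    show (A n).m t / (A n).D t ≤ (P.m (q t0) + 1) / P.D t0
    exact div_le_div₀ (by linarith) (by linarith) hDt0 (by linarith)
  · -- the scalar limits
    refine appr_of hA hε (fun n => hback (A n)) (fun n => (hlawA (A n)).1) ?_ ?_ ?_
    · intro n
      refine hpub (A n) fun t ht => ?_
      exact (hA n).b_le ⟨ht.1, ht.2.le.trans (A n).hT1.le⟩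
    · intro t ht
      have h2 := hk.tendsto_norm hl hcont hDc hanti hD1 hle hge hε
        (Ico_subset_Icc_self ht) (hDpos t ht)
      refine h2.congr' ?_
      filter_upwards [hev t ht] with n hn using hlam n t hn
    · intro t ht
      have h2 := hk.tendsto_C hl hcont hDc hanti hD1 hle hge hε
        (Ico_subset_Icc_self ht) (hDpos t ht)
      refine h2.congr' ?_
      filter_upwards [hev t ht] with n hn using hC n t hn

/-- **PT-STEP assembly** -/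
theorem tipSeq_of {α : ℝ} (hα : 0 < α) {D : ℝ → ℝ} (hk : Kkt R K ξ D x) (hkd : KKTD R α x D)
    (hconc : ConcaveOn ℝ (Icc 0 1) D) (hanti : AntitoneOn D (Icc 0 1))
    (hcont : ContinuousOn D (Icc 0 1)) (hD1 : D 1 = 0) (hDpos : ∀ t ∈ Ico (0 : ℝ) 1, 0 < D t)
    (hint : IntervalIntegrable (fun t => 1 / D t) volume 0 1)
    (hcp : ∀ t ∈ Ico (0 : ℝ) 1, 0 < ⟪R.P t (ξ + R.Dop D x), x⟫)
    (hback : ∀ A : SD, Back A) (hlaw : PLAW) (hst : START) (hpub : PUB) (hbr : Bridge R K ξ)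
    (hng : NOGAP) :
    ∃ P : Prof, (∀ t ∈ Icc (0:ℝ) 1, P.D t = D t) ∧ ∃ τ : TipSeq P,
      ∀ t ∈ Ico τ.t1 1, ⟪R.P t (ξ + R.Dop D x), x⟫ = τ.c0 * (1 - t) := by
  obtain ⟨P, hPd, hP, -⟩ := exists_prof hconc hanti hcont hD1.ge
  have hd : P.d = 0 := by rw [hPd, hD1]
  have hpos : ∀ t ∈ Ico (0 : ℝ) 1, 0 < P.D t := fun t ht => by
    rw [hP t (Ico_subset_Icc_self ht)]; exact hDpos t ht
  have hint' : IntervalIntegrable (fun t => 1 / P.D t) volume 0 1 := hint.congr fun t ht => by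
    rw [uIoc_of_le zero_le_one] at ht
    simp only [hP t ⟨ht.1.le, ht.2⟩]
  have hint'' : IntervalIntegrable (fun t => (P.D t)⁻¹) volume 0 1 := by
    simpa only [one_div] using hint'
  obtain ⟨CY, hpre⟩ := exists_pre hk hcont hanti P hP hpos hint'' hback hlaw hst hpub hbr
  -- the base sequence
  obtain ⟨A, ε, F, Kn, g, e, p, Y, Yx, Yxx, hA, hε, hdy, -, hL, -, -, hap⟩ := hpre ∅ (by simp)
  obtain ⟨T, S, hTc, hSc, hT, hQ, hT0, hTS, hS1, hLint, hCint, hR2⟩ := hap.limit hpos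
  have hM : ∀ t ∈ Ico (0:ℝ) 1, ‖R.P t x‖ ^ 2 = ‖R.P 0 x‖ ^ 2 +
      ∫ s in (0:ℝ)..t, T s / (P.D s) ^ 2 := fun t ht => by
    have h1 : ‖R.P t x‖ ^ 2 - ‖R.P 0 x‖ ^ 2 = ∫ s in (0:ℝ)..t, T s / (P.D s) ^ 2 :=
      hLint 0 t le_rfl ht.1 ht.2
    linarith
  have hTb : ∃ C, ∀ t ∈ Ico (0:ℝ) 1, |T t| ≤ C := ⟨1, fun t ht => by
    rw [abs_of_nonneg (hT0 t ht)]; exact (hTS t ht).trans (hS1 t ht)⟩
  have hkdP : KKTD R α x P.D := hkd.congr hP
  obtain ⟨hint2, -⟩ := vi_of_kkt (R := R) (α := α) (x := x) P hpos hint' hkdP hTc hTb hM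
  -- all sequences have the same limits
  have hall : ∀ F0 : Finset ℝ, (∀ y ∈ F0, y ∈ Icc (0 : ℝ) 1) →
      ∃ Q : PreSeq P T S, (∀ n, F0 ⊆ Q.F n) ∧
        ∀ t0 ∈ Ioo (0 : ℝ) 1, ∀ᶠ n in atTop, ∀ x,
          -(CY t0 * (1 + (Q.A n).u t0 x)) ≤ Q.Y n t0 x ∧
            Q.Y n t0 x ≤ CY t0 * (1 + (Q.A n).w t0 x) := by
    intro F0 hF0
    obtain ⟨A', ε', F', Kn', g', e', p', Y', Yx', Yxx', hA', hε', hdy', hF', hL', hY', hYst',
      hap'⟩ :=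
      hpre F0 hF0
    obtain ⟨T', S', hTc', hSc', hT', hQ', hT0', hTS', hS1', hLint', hCint', hR2'⟩ :=
      hap'.limit hpos
    have hTT : ∀ t ∈ Ico (0 : ℝ) 1, T' t = T t := T_unique hpos hTc' hTc hLint' hLint
    have hSS : ∀ t ∈ Ico (0 : ℝ) 1, S' t - T' t = S t - T t :=
      S_unique hpos (hSc'.sub hTc') (hSc.sub hTc) hCint' hCint
    refine ⟨{ A := A', ε := ε', F := F', K := Kn', g := g', e := e', p := p', Y := Y', Yx := Yx'
              Yxx := Yxx', d0 := hd, pos := hpos, int1 := hint'', int2 := hint2, apx := hA'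
              ε_lim := hε', dyad := hdy', back := fun n => hback (A' n)
              clock := fun n => StepClk_900.clock (A' n), law := hL'
              scal := fun n => scal_full (hback (A' n)) (hL' n), Ys := fun t0 ht0 => ⟨CY t0, hY' t0 ht0⟩, Yst := hYst'
              T_cont := hTc
              S_cont := hSc, T_nonneg := hT0, T_le_S := hTS, S_le := hS1
              T_lim := fun q hq => (hT' q hq).congr_right fun t ht =>
                hTT t ⟨ht.1, ht.2.trans_lt hq.2⟩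
              Q_lim := fun q hq => (hQ' q hq).congr_right fun t ht =>
                hSS t ⟨ht.1, ht.2.trans_lt hq.2⟩ }, hF', hY'⟩
  obtain ⟨t0, ht0, hQC⟩ := hng P T S CY hall
  have hcgi : ∀ (f : ℝ → ℝ → ℝ) {t : ℝ}, t ∈ Ico (0:ℝ) 1 →
      ∫ s in (0:ℝ)..t, f s (P.D s) = ∫ s in (0:ℝ)..t, f s (D s) := by
    intro f t ht
    apply intervalIntegral.integral_congr
    intro s hs
    rw [uIcc_of_le ht.1] at hs
    simp only [hP s ⟨hs.1, hs.2.trans ht.2.le⟩]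
  obtain ⟨t1, c0, h1, h2, h3, h4, h5, h6⟩ := tip_hilb_le (R := R) hα P hP hD1 hDpos hint hkd hTc
    hT0 hTS hS1 (fun t ht => by rw [hM t ht, hcgi (fun s y => T s / y ^ 2) ht])
    (fun t ht => by
      rw [← hP t (Ico_subset_Icc_self ht), ← hP 0 ⟨le_rfl, zero_le_one⟩, hR2 t ht,
        hcgi (fun s y => P.m s * T s / y ^ 2) ht]) ht0 hQC
  -- the charge
  have hchg : ∀ t ∈ Ico t1 1, ⟪R.P t (ξ + R.Dop D x), x⟫ = c0 * (1 - t) := by
    intro t ht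
    have ht0' : 0 ≤ t := h2.le.trans ht.1
    have hlim : Tendsto (fun y => ⟪R.P y (ξ + R.Dop D x), x⟫) (𝓝[<] 1) (𝓝 0) := by
      have h7 : Tendsto (fun y => ⟪R.P y (ξ + R.Dop D x), x⟫) (𝓝[<] 1)
          (𝓝 ⟪ξ + R.Dop D x, x⟫) :=
        (R.left (ξ + R.Dop D x)).inner (tendsto_const_nhds (x := x)) (𝕜 := ℝ)
      rwa [real_inner_comm, hk.zero] at h7
    have hlim2 : Tendsto (fun y => ⟪R.P t (ξ + R.Dop D x), x⟫ - c0 * (y - t)) (𝓝[<] 1)
        (𝓝 (⟪R.P t (ξ + R.Dop D x), x⟫ - c0 * (1 - t))) := by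
      have : Continuous fun y : ℝ => ⟪R.P t (ξ + R.Dop D x), x⟫ - c0 * (y - t) := by fun_prop
      exact (this.tendsto 1).mono_left nhdsWithin_le_nhds
    have heq : (fun y => ⟪R.P t (ξ + R.Dop D x), x⟫ - c0 * (y - t)) =ᶠ[𝓝[<] 1]
        fun y => ⟪R.P y (ξ + R.Dop D x), x⟫ := by
      filter_upwards [Ioo_mem_nhdsLT ht.2] with y hy
      have h8 := hCint t y ht0' hy.1.le hy.2
      have h9 : ∫ z in t..y, (S z - T z) / P.D z = ∫ z in t..y, c0 := by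
        refine intervalIntegral.integral_congr fun z hz => ?_
        rw [uIcc_of_le hy.1.le] at hz
        have hz' : z ∈ Ico t1 1 := ⟨ht.1.trans hz.1, hz.2.trans_lt hy.2⟩
        have hz0 : z ∈ Ico (0:ℝ) 1 := ⟨ht0'.trans hz.1, hz.2.trans_lt hy.2⟩
        show (S z - T z) / P.D z = c0
        rw [h6 z hz', ← hP z (Ico_subset_Icc_self hz0), mul_div_assoc, div_self (hpos z hz0).ne',
          mul_one]
      rw [h9, intervalIntegral.integral_const, smul_eq_mul] at h8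
      linarith
    have := tendsto_nhds_unique (hlim2.congr' heq) hlim
    linarith
  have hc0 : 0 < c0 := by
    have h7 := hcp t1 ⟨h2.le, h3⟩
    rw [hchg t1 ⟨le_rfl, h3⟩] at h7
    exact pos_of_mul_pos_left h7 (by linarith)
  obtain ⟨Q, -⟩ := hall ∅ (by simp)
  refine ⟨P, hP, { T := T, S := S, seq := Q, c := 1 / α, c0 := c0, t1 := t1, hc := by positivity
                   hc0 := hc0, ht1 := ⟨h2.le, h3⟩, T_eq := ?_, Q_eq := ?_ }, hchg⟩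
  · intro t ht
    have := h5 t ht
    field_simp
    linarith
  · intro t ht
    rw [h6 t ht, hP t ⟨h2.le.trans ht.1, ht.2.le⟩]

end

end

end Crest.Agent.R146.StepAsm_791
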