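import Crest.Agent.R146.Br4_256
import Crest.Agent.R146.BrUp_52
import Crest.Agent.R146.BrLB_952
import Crest.Agent.R146.BrEq_151
import Crest.Agent.R146.BrId_109
import Crest.Agent.R146.BrLt_168
import Crest.Agent.R146.BrEx_952
import Crest.Agent.R146.BrFin_861
import Crest.Agent.R146.StepAsm_791
import Crest.Agent.R146.P5Def_12

/-!
# Row 146, R3 bridge (helper256): ASSEMBLY
-/

set_option autoImplicit false

noncomputable section

open MeasureTheory Set Filter Topology ProbabilityTheory
open scoped InnerProductSpace RealInnerProductSpace NNReal ENNReal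

namespace Crest.Agent.R146.BrAll_256

open Crest.ProbabilityR.Perceptron
open Crest.Agent.R146.DualG_256 Crest.Agent.R146.Br_256 Crest.Agent.R146.StepDef_791
open Crest.Agent.R146.P34_734 (BS)

variable {Ω : Type*} [mΩ : MeasurableSpace Ω] {P : Measure Ω} [IsProbabilityMeasure P]
  {B : ℝ≥0 → Ω → ℝ} (hBm : ∀ t, Measurable (B t)) (hB : IsBrownianReal B P)

theorem up : UP hBm hB := BrUp_52.up hBm hB (cell hBm hB)
theorem lb : LB hBm hB := fun A x0 _ hx => BrLB_952.psi_le_QQ hBm hB A x0 hx
theorem eqt : EQT hBm hB := BrEq_151.eqt_of (up hBm hB) (lb hBm hB)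
theorem idt : IDT hBm hB := BrId_109.idt_of hBm hB (up hBm hB) (eqt hBm hB)
theorem lawt : LAWT hBm hB := BrLt_168.lawt_of hBm hB (cell hBm hB) (eqt hBm hB)
theorem exl : EXL hBm hB := BrEx_952.exl hBm hB
theorem fin : FIN hBm hB := BrFin_861.fin_of hBm hB (exl hBm hB) (idt hBm hB) (lawt hBm hB)

/-- **R3** in the form of `StepAsm_791.Bridge` -/
theorem bridge (W : BS) : StepAsm_791.Bridge (P5Def_12.RW W) (P5Def_12.KW W) (P5Def_12.xiW W) :=
  fun A => fin W.meas W.br A 1

end Crest.Agent.R146.BrAll_256
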