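import Crest.Agent.R146.DualG2_256

/-!
Row 146 (helper106): fullness of the Brownian Hilbert space of helper256.

`mem_HH` : every `x ∈ L²(P)` which is a.e. `F_1`-measurable belongs to `HH P B hBm`
(i.e. `E_t x → x` as `t ↑ 1`), for the NATURAL filtration.  `full`: function form for `modelB`.
-/

set_option autoImplicit false

open MeasureTheory ProbabilityTheory Set Filter Topology
open scoped NNReal ENNReal

namespace Crest.Agent.R146.BrFull_106

open Crest.ProbabilityR.Perceptron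
open Crest.Agent.R146.DualC1_256 Crest.Agent.R146.DualG_256 Crest.Agent.R146.DualV_256
open Crest.Agent.R146.DualL_256

lemma sm_lim {Ω : Type*} {m : MeasurableSpace Ω} {f : ℕ → Ω → ℝ}
    (hf : ∀ n, StronglyMeasurable[m] (f n)) :
    StronglyMeasurable[m] (fun ω => limUnder atTop (fun n => f n ω)) :=
  StronglyMeasurable.limUnder hf

lemma sm_comp {Ω E : Type*} {m : MeasurableSpace Ω} {mE : MeasurableSpace E} {Φ : E → ℝ}
    {p : Ω → E} (hΦ : StronglyMeasurable Φ) (hp : Measurable[m] p) :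
    StronglyMeasurable[m] (Φ ∘ p) := hΦ.comp_measurable hp

lemma meas_pi {Ω ι : Type*} {m : MeasurableSpace Ω} {p : Ω → ι → ℝ}
    (h : ∀ j, Measurable[m] (fun ω => p ω j)) : Measurable[m] p := measurable_pi_iff.2 h

variable {Ω : Type*} {mΩ : MeasurableSpace Ω} {P : Measure Ω} [IsProbabilityMeasure P]
  {B : ℝ≥0 → Ω → ℝ}

/-- `t_n = n/(n+1)`. -/
noncomputable def tn (n : ℕ) : ℝ≥0 := (n : ℝ≥0) / ((n : ℝ≥0) + 1)

lemma tn_lt (n : ℕ) : tn n < 1 := by
  unfold tn
  rw [div_lt_one (by positivity)]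
  exact lt_add_of_pos_right _ one_pos

lemma tn_mono : Monotone tn := by
  intro n k h
  unfold tn
  rw [div_le_div_iff₀ (by positivity) (by positivity)]
  have h1 : (n : ℝ≥0) ≤ k := by exact_mod_cast h
  calc (n : ℝ≥0) * (k + 1) = n * k + n := by ring
    _ ≤ n * k + k := by gcongr
    _ = k * (n + 1) := by ring

lemma tn_tendsto : Tendsto tn atTop (𝓝 1) := by
  rw [← NNReal.tendsto_coe]
  have : (fun n : ℕ => ((tn n : ℝ≥0) : ℝ)) = fun n : ℕ => (n : ℝ) / ((n : ℝ) + 1) := by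
    funext n; simp [tn]
  rw [this]
  simpa using tendsto_natCast_div_add_atTop (1 : ℝ)

section

variable (𝓕 : Filtration ℝ≥0 mΩ)

/-- the discrete filtration `𝓕 (t_n)` -/
noncomputable def Gn : Filtration ℕ mΩ where
  seq n := 𝓕 (tn n)
  mono' _ _ h := 𝓕.mono (tn_mono h)
  le' n := 𝓕.le _

lemma le_iSup_Gn {s : ℝ≥0} (hs : s < 1) : 𝓕 s ≤ ⨆ n, Gn 𝓕 n := by
  have h1 : ∀ᶠ n in atTop, s < tn n := tn_tendsto.eventually (lt_mem_nhds hs)
  obtain ⟨n, hn⟩ := h1.exists
  exact (𝓕.mono hn.le).trans (le_iSup (fun n => (Gn 𝓕 n : MeasurableSpace Ω)) n)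

/-- bounded functions measurable for `⨆ 𝓕 (t_n)` are in `HB` -/
lemma bdd_mem_HB {f : Ω → ℝ} {C : ℝ} (hf : StronglyMeasurable[⨆ n, Gn 𝓕 n] f)
    (hC : ∀ ω, |f ω| ≤ C) (hm : MemLp f 2 P) : hm.toLp f ∈ HB P 𝓕 := by
  have hle : (⨆ n, Gn 𝓕 n : MeasurableSpace Ω) ≤ mΩ := iSup_le fun n => (Gn 𝓕).le n
  have hC0 : 0 ≤ C := by
    obtain ⟨ω⟩ : Nonempty Ω := nonempty_of_isProbabilityMeasure P
    exact (abs_nonneg _).trans (hC ω)
  have hint : Integrable f P := hm.integrable one_le_two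
  have hconv := hint.tendsto_eLpNorm_condExp (ℱ := Gn 𝓕) hf
  -- the norm of `f - E_t f` is antitone in t
  rw [mem_HB, tendsto_iff_norm_sub_tendsto_zero]
  have key : Tendsto (fun n : ℕ => ‖condPi 𝓕 P (tn n) (hm.toLp f) - hm.toLp f‖ ^ 2) atTop
      (𝓝 0) := by
    have hb : ∀ n, ‖condPi 𝓕 P (tn n) (hm.toLp f) - hm.toLp f‖ ^ 2
        ≤ 2 * C * (eLpNorm (P[f|Gn 𝓕 n] - f) 1 P).toReal := by
      intro n
      have h1 : (condPi 𝓕 P (tn n) (hm.toLp f) : Ω → ℝ) =ᵐ[P] P[f|Gn 𝓕 n] := by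
        refine (condPi_coe (𝓕 := 𝓕) (tn n : ℝ) (hm.toLp f)).trans ?_
        rw [Real.toNNReal_coe]
        exact condExp_congr_ae hm.coeFn_toLp
      have h2 : ∀ᵐ ω ∂P, |(P[f|Gn 𝓕 n]) ω| ≤ C := by
        have h0 : ∀ᵐ ω ∂P, ‖f ω‖ ≤ C := ae_of_all _ hC
        exact ae_bdd_norm_condExp_of_ae_bdd_norm h0
      have h3 : (eLpNorm (P[f|Gn 𝓕 n] - f) 1 P).toReal
          = ∫ ω, |(P[f|Gn 𝓕 n]) ω - f ω| ∂P := by
        rw [eLpNorm_one_eq_lintegral_enorm, ← integral_norm_eq_lintegral_enorm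
          (integrable_condExp.sub hint).aestronglyMeasurable]
        rfl
      rw [norm_sq_eq, h3, ← integral_const_mul]
      refine integral_mono_of_nonneg (ae_of_all _ fun ω => sq_nonneg _)
        ((integrable_condExp.sub hint).abs.const_mul _) ?_
      filter_upwards [h1, h2, hm.coeFn_toLp, Lp.coeFn_sub (condPi 𝓕 P (tn n) (hm.toLp f))
        (hm.toLp f)] with ω h4 h5 h6 h7
      rw [h7, Pi.sub_apply, h4, h6, ← sq_abs, pow_two]
      have h8 : |(P[f|Gn 𝓕 n]) ω - f ω| ≤ 2 * C := by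
        have := abs_sub ((P[f|Gn 𝓕 n]) ω) (f ω)
        have := hC ω
        linarith
      exact mul_le_mul_of_nonneg_right h8 (abs_nonneg _)
    have hz : Tendsto (fun n : ℕ => 2 * C * (eLpNorm (P[f|Gn 𝓕 n] - f) 1 P).toReal) atTop
        (𝓝 0) := by
      have h1 := (ENNReal.tendsto_toReal ENNReal.zero_ne_top).comp hconv
      simpa using h1.const_mul (2 * C)
    exact squeeze_zero (fun n => sq_nonneg _) hb hz
  have key2 : Tendsto (fun n : ℕ => ‖condPi 𝓕 P (tn n) (hm.toLp f) - hm.toLp f‖) atTop (𝓝 0) := by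
    have := (Real.continuous_sqrt.tendsto 0).comp key
    simpa [Function.comp_def, Real.sqrt_sq (norm_nonneg _)] using this
  rw [Metric.tendsto_nhds]
  intro ε hε
  obtain ⟨n, hn⟩ := ((Metric.tendsto_nhds.1 key2) ε hε).exists
  have hn' : ‖condPi 𝓕 P (tn n) (hm.toLp f) - hm.toLp f‖ < ε := by
    simpa [Real.dist_eq, abs_of_nonneg (norm_nonneg _)] using hn
  have htn : ((tn n : ℝ≥0) : ℝ) < 1 := by exact_mod_cast tn_lt n
  filter_upwards [Ioo_mem_nhdsLT htn] with t ht
  rw [Real.dist_eq, sub_zero, abs_of_nonneg (norm_nonneg _)]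
  refine lt_of_le_of_lt ?_ hn'
  rw [norm_sub_rev, norm_sub_rev (condPi 𝓕 P (tn n) (hm.toLp f))]
  have h9 : condPi 𝓕 P t (condPi 𝓕 P (tn n) (hm.toLp f)) = condPi 𝓕 P (tn n) (hm.toLp f) := by
    refine condPi_of_meas _ _ _ ?_
    have h10 := condPi_meas (P := P) 𝓕 (tn n : ℝ) (hm.toLp f)
    refine AEStronglyMeasurable.mono (𝓕.mono ?_) h10
    exact Real.toNNReal_le_toNNReal ht.1.le
  exact norm_sub_condPi_le (𝓕 := 𝓕) (P := P) t h9

/-- functions measurable for `⨆ 𝓕 (t_n)` are in `HB` -/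
lemma mem_HB_of_sup {f : Ω → ℝ} (hf : StronglyMeasurable[⨆ n, Gn 𝓕 n] f)
    (hm : MemLp f 2 P) : hm.toLp f ∈ HB P 𝓕 := by
  have hle : (⨆ n, Gn 𝓕 n : MeasurableSpace Ω) ≤ mΩ := iSup_le fun n => (Gn 𝓕).le n
  set g : ℕ → Ω → ℝ := fun k ω => max (-(k : ℝ)) (min (k : ℝ) (f ω)) with hg
  have hgm : ∀ k, StronglyMeasurable[⨆ n, Gn 𝓕 n] (g k) := by
    intro k
    have h1 : Measurable[⨆ n, Gn 𝓕 n] (g k) :=
      Measurable.max measurable_const (Measurable.min measurable_const hf.measurable)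
    exact h1.stronglyMeasurable
  have hgb : ∀ k ω, |g k ω| ≤ k := by
    intro k ω
    have hk : (0 : ℝ) ≤ k := Nat.cast_nonneg k
    rw [abs_le]
    exact ⟨le_max_left _ _, max_le (by linarith) (min_le_left _ _)⟩
  have hgf : ∀ k ω, |f ω - g k ω| ≤ |f ω| := by
    intro k ω
    have hk : (0 : ℝ) ≤ k := Nat.cast_nonneg k
    simp only [hg]
    rcases le_total (f ω) 0 with h | h
    · rw [min_eq_right (by linarith), abs_of_nonpos h]
      rcases le_total (-(k : ℝ)) (f ω) with h1 | h1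
      · rw [max_eq_right h1, sub_self, abs_zero]; linarith
      · rw [max_eq_left h1, abs_of_nonpos (by linarith)]; linarith
    · rw [abs_of_nonneg h]
      rcases le_total (k : ℝ) (f ω) with h1 | h1
      · rw [min_eq_left h1, max_eq_right (by linarith), abs_of_nonneg (by linarith)]; linarith
      · rw [min_eq_right h1, max_eq_right (by linarith), sub_self, abs_zero]; linarith
  have hgL : ∀ k, MemLp (g k) 2 P := fun k =>
    MemLp.of_bound ((hgm k).mono hle).aestronglyMeasurable (k : ℝ) (ae_of_all _ (hgb k))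
  have hmem : ∀ k, (hgL k).toLp (g k) ∈ HB P 𝓕 := fun k => bdd_mem_HB 𝓕 (hgm k) (hgb k) (hgL k)
  have hlim : Tendsto (fun k => (hgL k).toLp (g k)) atTop (𝓝 (hm.toLp f)) := by
    rw [tendsto_iff_norm_sub_tendsto_zero]
    have h1 : Tendsto (fun k : ℕ => ∫ ω, (g k ω - f ω) ^ 2 ∂P) atTop (𝓝 (∫ _, (0 : ℝ) ∂P)) := by
      refine tendsto_integral_of_dominated_convergence (fun ω => f ω ^ 2) ?_ hm.integrable_sq ?_ ?_
      · intro k
        exact ((hgL k).aestronglyMeasurable.sub hm.aestronglyMeasurable).pow 2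
      · intro k
        refine ae_of_all _ fun ω => ?_
        rw [Real.norm_eq_abs, abs_of_nonneg (sq_nonneg _)]
        have := hgf k ω
        rw [← sq_abs, ← sq_abs (f ω), abs_sub_comm]
        exact pow_le_pow_left₀ (abs_nonneg _) this 2
      · refine ae_of_all _ fun ω => ?_
        refine tendsto_const_nhds.congr' ?_
        obtain ⟨k0, hk0⟩ := exists_nat_ge |f ω|
        filter_upwards [eventually_ge_atTop k0] with k hk
        have h2 : |f ω| ≤ k := hk0.trans (by exact_mod_cast hk)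
        have h3 := abs_le.1 h2
        simp only [hg]
        rw [min_eq_right h3.2, max_eq_right h3.1, sub_self]
        norm_num
    rw [integral_zero] at h1
    have h2 : ∀ k, ‖(hgL k).toLp (g k) - hm.toLp f‖ = √(∫ ω, (g k ω - f ω) ^ 2 ∂P) := by
      intro k
      rw [← Real.sqrt_sq (norm_nonneg ((hgL k).toLp (g k) - hm.toLp f)), norm_sq_eq]
      congr 1
      refine integral_congr_ae ?_
      filter_upwards [(hgL k).coeFn_toLp, hm.coeFn_toLp,
        Lp.coeFn_sub ((hgL k).toLp (g k)) (hm.toLp f)] with ω h3 h4 h5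
      rw [h5, Pi.sub_apply, h3, h4]
    simp_rw [h2]
    have := (Real.continuous_sqrt.tendsto 0).comp h1
    simpa [Function.comp_def] using this
  exact HB_closed.mem_of_tendsto hlim (Eventually.of_forall hmem)

end

section Brownian

variable (hBm : ∀ t, Measurable (B t)) (hB : IsBrownianReal B P)

/-- `B_1` is a.e. equal to a function measurable for `⨆ 𝓕 (t_n)` -/
lemma exists_B1 (hB : IsBrownianReal B P) :
    ∃ Y : Ω → ℝ, StronglyMeasurable[⨆ n, Gn (brownianFiltration B hBm) n] Y ∧ Y =ᵐ[P] B 1 := by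
  refine ⟨fun ω => limUnder atTop (fun n => B (tn n) ω), ?_, ?_⟩
  · refine sm_lim fun n => ?_
    have h1 : StronglyMeasurable[brownianFiltration B hBm (tn n)] (B (tn n)) :=
      Filtration.stronglyAdapted_natural (fun t => (hBm t).stronglyMeasurable) _
    exact h1.mono (le_iSup (fun n => (Gn (brownianFiltration B hBm) n : MeasurableSpace Ω)) n)
  · filter_upwards [hB.cont] with ω hω
    exact ((hω.tendsto 1).comp tn_tendsto).limUnder_eq

/-- **Fullness**: everything `F_1`-measurable is in the Hilbert space. -/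
theorem mem_HH (hB : IsBrownianReal B P) (x : Ω →₂[P] ℝ)
    (hx : AEStronglyMeasurable[brownianFiltration B hBm 1] (x : Ω → ℝ) P) :
    x ∈ HH P B hBm := by
  obtain ⟨f, hf, hxf⟩ := hx
  obtain ⟨Y, hY, hYB⟩ := exists_B1 hBm hB
  -- factor through the path
  have hf2 : StronglyMeasurable[(inferInstance : MeasurableSpace (Iic (1 : ℝ≥0) → ℝ)).comap
      (fun ω (j : Iic (1 : ℝ≥0)) => B j ω)] f := by
    have e := Filtration.natural_eq_comap (fun t => B t) (fun t => (hBm t).stronglyMeasurable) 1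
    have e2 : brownianFiltration B hBm 1
        = (inferInstance : MeasurableSpace (Iic (1 : ℝ≥0) → ℝ)).comap
          (fun ω (j : Iic (1 : ℝ≥0)) => B j ω) := e
    rw [e2] at hf
    exact hf
  obtain ⟨Φ, hΦ, hfΦ⟩ := hf2.exists_eq_measurable_comp
  set path' : Ω → (Iic (1 : ℝ≥0) → ℝ) := fun ω j => if (j : ℝ≥0) < 1 then B j ω else Y ω with hp
  have hpm : Measurable[⨆ n, Gn (brownianFiltration B hBm) n] path' := by
    refine meas_pi fun j => ?_
    by_cases hj : (j : ℝ≥0) < 1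
    · have e : (fun ω => path' ω j) = B j := by
        funext ω; simp only [hp, if_pos hj]
      rw [e]
      have h1 : StronglyMeasurable[brownianFiltration B hBm (j : ℝ≥0)] (B j) :=
        Filtration.stronglyAdapted_natural (fun t => (hBm t).stronglyMeasurable) _
      exact (h1.mono (le_iSup_Gn _ hj)).measurable
    · have e : (fun ω => path' ω j) = Y := by
        funext ω; simp only [hp, if_neg hj]
      rw [e]
      exact hY.measurable
  have hf' : StronglyMeasurable[⨆ n, Gn (brownianFiltration B hBm) n] (Φ ∘ path') :=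
    sm_comp hΦ hpm
  have hae : (x : Ω → ℝ) =ᵐ[P] Φ ∘ path' := by
    filter_upwards [hxf, hYB] with ω h1 h2
    rw [h1, hfΦ]
    simp only [Function.comp_apply]
    congr 1
    funext j
    simp only [hp]
    split_ifs with hj
    · rfl
    · have hj1 : (j : ℝ≥0) = 1 := le_antisymm j.2 (not_lt.1 hj)
      rw [hj1, h2]
  have hm : MemLp (Φ ∘ path') 2 P := (memLp_congr_ae hae).1 (Lp.memLp x)
  have e : x = hm.toLp (Φ ∘ path') := by
    refine Lp.ext ?_
    exact hae.trans hm.coeFn_toLp.symm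
  rw [e]
  exact mem_HB_of_sup _ hf' hm

/-- function form of fullness for `modelB` -/
theorem full (hB : IsBrownianReal B P) (f : Ω → ℝ) (hf : MemLp f 2 P)
    (hfm : StronglyMeasurable[brownianFiltration B hBm 1] f) :
    ∃ z : HH P B hBm, (modelB P B hBm).J z =ᵐ[P] f := by
  refine ⟨⟨hf.toLp f, mem_HH hBm hB _ ?_⟩, ?_⟩
  · exact ⟨f, hfm, hf.coeFn_toLp⟩
  · rw [modelB_J]
    exact hf.coeFn_toLp

end Brownian

end Crest.Agent.R146.BrFull_106
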