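import Crest.Agent.R146.TiltC_534

/-!
Row 146 (PT-STEP, helper534): the density `pd A x0 t`: smooth (`SG 0`), positive, mass one, moments,
base formula on a cell.
-/

set_option autoImplicit false

namespace Crest.Agent.R146.PD_534

open MeasureTheory ProbabilityTheory Filter Topology Set
open Crest.ProbabilityR.InvariantGlass
open Crest.Agent.R146.Hg_534 Crest.Agent.R146.PB_534 Crest.Agent.R146.GG_534 Crest.Agent.R146.SG_534
open Crest.Agent.R146.StepDef_791 Crest.Agent.R146.Cell_534 Crest.Agent.R146.TiltA_534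
open Crest.Agent.R146.TiltB_534 Crest.Agent.R146.TiltC_534

noncomputable section

/-! ### growth of `ψ` -/

/-- `ψ(t,x) = -(min x 0)²/(2D) + O(1+|x|)` -/
theorem psi_quad {A : SD} (hB : Back A) {t : ℝ} (ht : t ∈ Icc 0 A.T) (x : ℝ) :
    |A.psi t x + (min x 0) ^ 2 / (2 * A.D t)| ≤ |A.psi t 0| + A.u t 0 / A.D t * |x| := by
  have hD := A.D_pos t
  obtain ⟨M, hb⟩ := hB.bsys
  have hu0 := hB.u_pos t ht
  have hanti := u_anti hB ht
  have hw : Monotone (A.w t) := by
    have hwd : ∀ x, HasDerivAt (A.w t) (A.V t x) x := by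
      intro x
      have h1 := (hasDerivAt_id' x).add (hB.u_x t ht x)
      have e : (1:ℝ) + (A.V t x - 1) = A.V t x := by ring
      rw [e] at h1
      exact h1
    refine monotone_of_deriv_nonneg (fun x => (hwd x).differentiableAt) fun x => ?_
    rw [(hwd x).deriv]
    exact (hb.V_pos t ht x).le
  rcases le_total x 0 with hx | hx
  · rw [min_eq_left hx]
    have hd : ∀ y ∈ Iic (0:ℝ), HasDerivWithinAt (fun y => A.psi t y + y ^ 2 / (2 * A.D t))
        (A.w t y / A.D t) (Iic 0) y := by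
      intro y _
      have h1 := psi_x hB ht y
      have h2 : HasDerivAt (fun y : ℝ => y ^ 2 / (2 * A.D t)) (y / A.D t) y := by
        have h3 := ((hasDerivAt_id' y).fun_pow 2).div_const (2 * A.D t)
        refine h3.congr_deriv ?_
        simp only [Nat.cast_ofNat, Nat.add_one_sub_one, pow_one, mul_one]
        field_simp
      refine ((h1.add h2).congr_deriv ?_).hasDerivWithinAt
      unfold SD.w
      field_simp
      ring
    have hbd : ∀ y ∈ Iic (0:ℝ), ‖A.w t y / A.D t‖ ≤ A.u t 0 / A.D t := by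
      intro y hy
      rw [Real.norm_eq_abs, abs_div, abs_of_pos hD, abs_of_pos (hB.w_pos t ht y)]
      refine div_le_div_of_nonneg_right ?_ hD.le
      have h1 := hw (mem_Iic.1 hy)
      have h2 : A.w t 0 = A.u t 0 := by unfold SD.w; ring
      linarith
    have h1 := (convex_Iic (0:ℝ)).norm_image_sub_le_of_norm_hasDerivWithin_le hd hbd
      (mem_Iic.2 le_rfl) (mem_Iic.2 hx)
    rw [Real.norm_eq_abs, Real.norm_eq_abs] at h1
    have h2 : A.psi t x + x ^ 2 / (2 * A.D t) = A.psi t 0 +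
        (A.psi t x + x ^ 2 / (2 * A.D t) - (A.psi t 0 + 0 ^ 2 / (2 * A.D t))) := by ring
    rw [h2]
    refine (abs_add_le _ _).trans (add_le_add le_rfl ?_)
    rwa [sub_zero] at h1
  · rw [min_eq_right hx]
    have hd : ∀ y ∈ Ici (0:ℝ), HasDerivWithinAt (A.psi t) (A.u t y / A.D t) (Ici 0) y :=
      fun y _ => (psi_x hB ht y).hasDerivWithinAt
    have hbd : ∀ y ∈ Ici (0:ℝ), ‖A.u t y / A.D t‖ ≤ A.u t 0 / A.D t := by
      intro y hy
      rw [Real.norm_eq_abs, abs_div, abs_of_pos hD, abs_of_pos (hu0 y)]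
      exact div_le_div_of_nonneg_right (hanti (mem_Ici.1 hy)) hD.le
    have h1 := (convex_Ici (0:ℝ)).norm_image_sub_le_of_norm_hasDerivWithin_le hd hbd
      (mem_Ici.2 le_rfl) (mem_Ici.2 hx)
    rw [Real.norm_eq_abs, Real.norm_eq_abs, sub_zero] at h1
    have h2 : A.psi t x + 0 ^ 2 / (2 * A.D t) = A.psi t 0 + (A.psi t x - A.psi t 0) := by ring
    rw [h2]
    exact (abs_add_le _ _).trans (add_le_add le_rfl h1)

theorem exp_psi_sg {A : SD} (hB : Back A) {t : ℝ} (ht : t ∈ Icc 0 A.T) (c : ℝ) :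
    SG (-c / A.D t) (fun x => Real.exp (c * A.psi t x)) := by
  refine SG.exp ((hB.sm t ht).const_mul c) ⟨Real.exp (|c| * |A.psi t 0|),
    |c| * (A.u t 0 / A.D t), (Real.exp_pos _).le, ?_, fun x => ?_⟩
  · have := (hB.u_pos t ht 0).le
    have := (A.D_pos t).le
    positivity
  · unfold wt
    rw [← Real.exp_add]
    refine Real.exp_le_exp.2 ?_
    have h1 := psi_quad hB ht x
    have h2 : c * (A.psi t x + (min x 0) ^ 2 / (2 * A.D t)) ≤
        |c| * (|A.psi t 0| + A.u t 0 / A.D t * |x|) := by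
      calc c * (A.psi t x + (min x 0) ^ 2 / (2 * A.D t))
          ≤ |c * (A.psi t x + (min x 0) ^ 2 / (2 * A.D t))| := le_abs_self _
        _ = |c| * |A.psi t x + (min x 0) ^ 2 / (2 * A.D t)| := abs_mul _ _
        _ ≤ _ := mul_le_mul_of_nonneg_left h1 (abs_nonneg c)
    have hD := A.D_pos t
    have h3 : -c / A.D t / 2 * (min x 0) ^ 2 = -(c * ((min x 0) ^ 2 / (2 * A.D t))) := by
      field_simp
    rw [h3]
    linarith

theorem gaussPDF_sg {x0 : ℝ} {v : NNReal} (hv : v ≠ 0) : SG 0 (gaussianPDFReal x0 v) := by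
  have h1 : Sm (fun x : ℝ => -(x - x0) ^ 2 / (2 * (v : ℝ))) := by
    have h2 := (((Sm.id.sub_const x0).pow 2).neg).const_mul ((2 * (v : ℝ))⁻¹)
    refine (congrArg Sm ?_).mp h2
    funext x
    rw [div_eq_inv_mul]
  have h2 : Sm (fun x : ℝ => Real.exp (-(x - x0) ^ 2 / (2 * (v : ℝ)))) := by
    refine Sm.exp h1 (c := 0) fun x => ?_
    have : 0 ≤ (x - x0) ^ 2 / (2 * (v : ℝ)) := by positivity
    have e : -(x - x0) ^ 2 / (2 * (v : ℝ)) = -((x - x0) ^ 2 / (2 * (v : ℝ))) := neg_div _ _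
    rw [e]
    linarith
  have h3 := (SG.of_sm h2).const_mul ((√(2 * Real.pi * v))⁻¹)
  exact h3

/-! ### regularity and positivity of the density -/

section cell

variable {A : SD} {x0 a b z : ℝ}

/-- the free part at the left end of a cell -/
def qa (A : SD) (x0 z a y : ℝ) : ℝ := pd A x0 a y / Gz A z a y

theorem qa_sg (hB : Back A) (hc : IsCell A a b z) (h : SG 0 (pd A x0 a)) :
    SG (z / A.D a) (qa A x0 z a) := by
  have h1 := h.mul (exp_psi_sg hB (hc.mem hc.aI) (-z))
  rw [zero_add, neg_neg] at h1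
  refine (congrArg (SG (z / A.D a)) ?_).mp h1
  funext y
  unfold qa Gz
  rw [neg_mul, Real.exp_neg, div_eq_mul_inv]

theorem kappa_lt (hc : IsCell A a b z) {t : ℝ} (ht : t ∈ Icc a b) :
    z / A.D a * Real.sqrt (t - a) ^ 2 < 1 := by
  rw [Real.sq_sqrt (by linarith [ht.1]), div_mul_eq_mul_div, div_lt_one (A.D_pos a),
    hc.D_eq a hc.aI]
  have h1 := A.D_pos b
  have h2 := mul_le_mul_of_nonneg_left (by linarith [ht.2] : t - a ≤ b - a) hc.z0.le
  linarith

theorem kappa_nonneg (hc : IsCell A a b z) : 0 ≤ z / A.D a := div_nonneg hc.z0.le (A.D_pos a).le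

theorem kappa_eq (hc : IsCell A a b z) {t : ℝ} (ht : t ∈ Icc a b) :
    z / A.D a / (1 - z / A.D a * Real.sqrt (t - a) ^ 2) = z / A.D t := by
  have h1 := kappa_lt hc ht
  have hDa := A.D_pos a
  have hDt := A.D_pos t
  have e : A.D a - z * (t - a) = A.D t := by
    rw [hc.D_eq a hc.aI, hc.D_eq t ht]
    ring
  rw [Real.sq_sqrt (by linarith [ht.1])] at h1 ⊢
  have h2 : 1 - z / A.D a * (t - a) = A.D t / A.D a := by
    rw [← e]
    field_simp
  rw [h2]
  field_simp

theorem pd_sg_cell (hB : Back A) (hc : IsCell A a b z) (hp : PCell A x0 a b z)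
    (ih : 0 < a → SG 0 (pd A x0 a) ∧ ∀ x, 0 < pd A x0 a x) {t : ℝ} (ht : t ∈ Ioc a b) :
    SG 0 (pd A x0 t) ∧ ∀ x, 0 < pd A x0 t x := by
  have htI : t ∈ Icc a b := ⟨ht.1.le, ht.2⟩
  rcases eq_or_lt_of_le hc.a0 with h0 | h0
  · have h1 := hp.zero h0.symm t ht
    have htp : 0 < t := by linarith [ht.1, hc.a0]
    have hv : Real.toNNReal t ≠ 0 := (Real.toNNReal_pos.2 htp).ne'
    constructor
    · have h2 := (SG.of_sm (Gz_sm hB hc.z0.le (hc.mem htI))).mul
        ((gaussPDF_sg (x0 := x0) hv).const_mul ((Gz A z 0 x0)⁻¹))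
      rw [zero_add] at h2
      refine (congrArg (SG 0) ?_).mp h2
      funext x
      rw [h1 x]
      field_simp
    · intro x
      rw [h1 x]
      have h3 := gaussianPDFReal_pos x0 _ x hv
      have h4 := Gz_pos A z t x
      have h5 := Gz_pos A z 0 x0
      positivity
  · obtain ⟨hsg, hpos⟩ := ih h0
    have h1 := hp.pos h0 t ht
    have hq := qa_sg (z := z) hB hc hsg
    have hk := kappa_lt hc htI
    constructor
    · have h2 := SG.H (kappa_nonneg hc) hk hq
      rw [kappa_eq hc htI] at h2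
      have h3 := (exp_psi_sg hB (hc.mem htI) z).mul h2
      have e : -z / A.D t + z / A.D t = 0 := by ring
      rw [e] at h3
      refine (congrArg (SG 0) ?_).mp h3
      funext x
      rw [h1 x]
      rfl
    · intro x
      rw [h1 x]
      refine mul_pos (Gz_pos A z t x) ?_
      exact GG_534.H_pos (kappa_nonneg hc) hq.gg
        (fun y => div_pos (hpos y) (Gz_pos A z a y)) hk x

end cell

theorem pd_sg {A : SD} (hB : Back A) (x0 : ℝ) : ∀ t ∈ Ioc 0 A.T,
    SG 0 (pd A x0 t) ∧ ∀ x, 0 < pd A x0 t x := by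
  refine cells_induct A x0 (fun s => ∀ t ∈ Ioc 0 s, SG 0 (pd A x0 t) ∧ ∀ x, 0 < pd A x0 t x) ?_ ?_
  · intro t ht
    exact absurd ht.1 (not_lt.2 ht.2)
  · intro a b z hc hp ih t ht
    rcases le_or_gt t a with h | h
    · exact ih t ⟨ht.1, h⟩
    · exact pd_sg_cell hB hc hp (fun ha => ih a ⟨ha, le_rfl⟩) ⟨h, ht.2⟩

/-! ### the law as a measure, base formula -/

/-- the law at time `t` -/
def muA (A : SD) (x0 t : ℝ) : Measure ℝ :=
  if t ≤ 0 then Measure.dirac x0 else volume.withDensity (fun x => ENNReal.ofReal (pd A x0 t x))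

theorem int_muA {A : SD} (hB : Back A) (x0 : ℝ) {t : ℝ} (ht : t ∈ Icc 0 A.T) (f : ℝ → ℝ) :
    ∫ x, f x ∂muA A x0 t = ex x0 (pd A x0) t f := by
  unfold muA ex
  split_ifs with h
  · exact integral_dirac f x0
  · have hm := pd_sg hB x0 t ⟨not_le.1 h, ht.2⟩
    have e := integral_withDensity_eq_integral_toReal_smul (μ := volume)
      (f := fun x => ENNReal.ofReal (pd A x0 t x)) (by
        exact (hm.1.cont.measurable).ennreal_ofReal)
      (Eventually.of_forall fun x => ENNReal.ofReal_lt_top) f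
    rw [e]
    refine integral_congr_ae (Eventually.of_forall fun x => ?_)
    simp only [smul_eq_mul]
    rw [ENNReal.toReal_ofReal (hm.2 x).le]

theorem integrable_muA {A : SD} (hB : Back A) (x0 : ℝ) {t : ℝ} (ht : t ∈ Ioc 0 A.T) (f : ℝ → ℝ) :
    Integrable f (muA A x0 t) ↔ Integrable (fun x => pd A x0 t x * f x) volume := by
  have hm := pd_sg hB x0 t ht
  unfold muA
  rw [if_neg (not_le.2 ht.1)]
  rw [integrable_withDensity_iff_integrable_smul₀' (hm.1.cont.measurable.ennreal_ofReal).aemeasurable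
    (Eventually.of_forall fun x => ENNReal.ofReal_lt_top)]
  have e : (fun x => (ENNReal.ofReal (pd A x0 t x)).toReal • f x) =
      fun x => pd A x0 t x * f x := by
    funext x
    rw [ENNReal.toReal_ofReal (hm.2 x).le, smul_eq_mul]
  rw [e]

section cell

variable {A : SD} {x0 a b z : ℝ}

theorem tv_self (_hc : IsCell A a b z) (φ : ℝ → ℝ) (x : ℝ) : tv A z a a φ x = φ x := by
  unfold tv
  rw [sub_self, Real.sqrt_zero, H_zero]
  field_simp [(Gz_pos A z a x).ne']

/-- base formula and integrability on a cell with positive left end -/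
theorem base_pos (hB : Back A) (hc : IsCell A a b z) (hp : PCell A x0 a b z) (ha : 0 < a)
    (hmom : ∀ n : ℕ, Integrable (fun x => pd A x0 a x * (1 + |x|) ^ n) volume) {t : ℝ}
    (ht : t ∈ Ioc a b) {φ : ℝ → ℝ} (hφ : PG φ) :
    Integrable (fun x => pd A x0 t x * φ x) volume ∧
      ∫ x, pd A x0 t x * φ x = ∫ x, pd A x0 a x * tv A z a t φ x := by
  have htI : t ∈ Icc a b := ⟨ht.1.le, ht.2⟩
  have haT : a ∈ Ioc 0 A.T := ⟨ha, hc.ab.le.trans hc.bT⟩
  obtain ⟨hsg, hpos⟩ := pd_sg hB x0 a haT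
  have hq := qa_sg (z := z) hB hc hsg
  have hG := Gz_sm hB hc.z0.le (hc.mem htI)
  obtain ⟨C, n, hC, hb⟩ := hφ.bd
  obtain ⟨K, hK, hK2⟩ := tv_abs hB hc n
  have hφG : PG (fun y => φ y * Gz A z t y) := hφ.mul hG.pg
  have hi : Integrable (fun x => |qa A x0 z a x| *
      H (Real.sqrt (t - a)) (fun y => |φ y * Gz A z t y|) x) volume := by
    refine Integrable.mono' ((hmom (3 * n)).const_mul (C * K)) ?_ (Eventually.of_forall fun x => ?_)
    · have h1 : Continuous (fun x => H (Real.sqrt (t - a)) (fun y => |φ y * Gz A z t y|) x) :=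
        (H_continuous hφG.abs.eg).comp (by fun_prop :
          Continuous fun x : ℝ => ((Real.sqrt (t - a), x) : ℝ × ℝ))
      exact (hq.cont.abs.mul h1).aestronglyMeasurable
    · have h1 := hK2 C hC φ hφ.cont hb t htI x
      have h0 : 0 ≤ H (Real.sqrt (t - a)) (fun y => |φ y * Gz A z t y|) x := by
        unfold H
        exact integral_nonneg fun g => abs_nonneg _
      rw [Real.norm_eq_abs, abs_mul, abs_abs, abs_of_nonneg h0]
      have hqp : 0 < qa A x0 z a x := div_pos (hpos x) (Gz_pos A z a x)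
      rw [abs_of_pos hqp]
      calc qa A x0 z a x * H (Real.sqrt (t - a)) (fun y => |φ y * Gz A z t y|) x
          ≤ qa A x0 z a x * (C * K * (1 + |x|) ^ (3 * n) * Gz A z a x) :=
            mul_le_mul_of_nonneg_left h1 hqp.le
        _ = C * K * (pd A x0 a x * (1 + |x|) ^ (3 * n)) := by
            unfold qa
            field_simp [(Gz_pos A z a x).ne']
  have hf := fubini hq.cont hφG.cont (Real.sqrt (t - a)) (fun x => hφG.eg.int _ x) hi
  have e1 : (fun y => H (Real.sqrt (t - a)) (qa A x0 z a) y * (φ y * Gz A z t y)) =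
      fun y => pd A x0 t y * φ y := by
    funext y
    rw [hp.pos ha t ht y]
    have e0 : (fun y => pd A x0 a y / Gz A z a y) = qa A x0 z a := rfl
    rw [e0]
    ring
  rw [e1] at hf
  refine ⟨hf.1, ?_⟩
  rw [← hf.2]
  refine integral_congr_ae (Eventually.of_forall fun x => ?_)
  simp only []
  unfold tv qa
  ring

/-- base formula on the first cell -/
theorem base_zero (hB : Back A) (hc : IsCell A a b z) (hp : PCell A x0 a b z) (ha : a = 0)
    {t : ℝ} (ht : t ∈ Ioc a b) {φ : ℝ → ℝ} (hφ : PG φ) :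
    Integrable (fun x => pd A x0 t x * φ x) volume ∧
      ∫ x, pd A x0 t x * φ x = tv A z a t φ x0 := by
  have htI : t ∈ Icc a b := ⟨ht.1.le, ht.2⟩
  have htp : 0 < t := by rw [ha] at ht; exact ht.1
  have hv : Real.toNNReal t ≠ 0 := (Real.toNNReal_pos.2 htp).ne'
  have hG := Gz_sm hB hc.z0.le (hc.mem htI)
  have hφG : PG (fun y => φ y * Gz A z t y) := hφ.mul hG.pg
  have hs : Real.sqrt (Real.toNNReal t) = Real.sqrt (t - a) := by
    rw [Real.coe_toNNReal t htp.le, ha, sub_zero]
  have h1 := H_density (F := fun y => φ y * Gz A z t y) hφG.cont hv x0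
  have h2 := H_density_int (F := fun y => φ y * Gz A z t y) hφG.cont hv x0 (hφG.eg.int _ x0)
  have e1 : (fun x => pd A x0 t x * φ x) = fun y => (Gz A z a x0)⁻¹ *
      (gaussianPDFReal x0 (Real.toNNReal t) y * (φ y * Gz A z t y)) := by
    funext y
    rw [hp.zero ha t ht y, ha]
    field_simp
  rw [e1]
  refine ⟨h2.const_mul _, ?_⟩
  rw [integral_const_mul, h1, hs]
  unfold tv
  rw [div_eq_inv_mul]

end cell

/-- the law is a probability measure with all moments, uniformly in time -/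
theorem muA_mom {A : SD} (hB : Back A) (x0 : ℝ) : ∀ t ∈ Icc 0 A.T,
    IsProbabilityMeasure (muA A x0 t) ∧
    ∀ n : ℕ, Integrable (fun x : ℝ => (1 + |x|) ^ n) (muA A x0 t) := by
  have hdir : IsProbabilityMeasure (muA A x0 0) ∧
      ∀ n : ℕ, Integrable (fun x : ℝ => (1 + |x|) ^ n) (muA A x0 0) := by
    unfold muA
    rw [if_pos le_rfl]
    refine ⟨inferInstance, fun n => ?_⟩
    exact integrable_dirac (by finiteness)
  refine cells_induct A x0 (fun s => ∀ t ∈ Icc 0 s, IsProbabilityMeasure (muA A x0 t) ∧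
    ∀ n : ℕ, Integrable (fun x : ℝ => (1 + |x|) ^ n) (muA A x0 t)) ?_ ?_
  · intro t ht
    have : t = 0 := le_antisymm ht.2 ht.1
    rw [this]
    exact hdir
  · intro a b z hc hp ih t ht
    rcases le_or_gt t a with h | h
    · exact ih t ⟨ht.1, h⟩
    · have htI : t ∈ Icc a b := ⟨h.le, ht.2⟩
      have htp : 0 < t := lt_of_le_of_lt hc.a0 h
      have htT : t ∈ Ioc 0 A.T := ⟨htp, ht.2.trans hc.bT⟩
      have hpg : ∀ n : ℕ, PG (fun x : ℝ => (1 + |x|) ^ n) := fun n =>
        PG.pow ((PG.const 1).add PG.id.abs) n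
      have hone : ∀ x, tv A z a t (fun _ => 1) x = 1 := by
        intro x
        unfold tv
        have e : (fun y => (1:ℝ) * Gz A z t y) = Gz A z t := by funext y; ring
        rw [e, Gz_semi hB hc hc.aI htI h.le, div_self (Gz_pos A z a x).ne']
      have key : (∀ φ : ℝ → ℝ, PG φ → Integrable (fun x => pd A x0 t x * φ x) volume) ∧
          ∫ x, pd A x0 t x * (1:ℝ) = 1 := by
        rcases eq_or_lt_of_le hc.a0 with h0 | h0
        · refine ⟨fun φ hφ => (base_zero hB hc hp h0.symm ⟨h, ht.2⟩ hφ).1, ?_⟩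
          rw [(base_zero hB hc hp h0.symm ⟨h, ht.2⟩ (PG.const 1)).2, hone]
        · have haT : a ∈ Ioc 0 A.T := ⟨h0, hc.ab.le.trans hc.bT⟩
          obtain ⟨ip, im⟩ := ih a ⟨h0.le, le_rfl⟩
          have hmom : ∀ n : ℕ, Integrable (fun x => pd A x0 a x * (1 + |x|) ^ n) volume :=
            fun n => (integrable_muA hB x0 haT _).1 (im n)
          refine ⟨fun φ hφ => (base_pos hB hc hp h0 hmom ⟨h, ht.2⟩ hφ).1, ?_⟩
          rw [(base_pos hB hc hp h0 hmom ⟨h, ht.2⟩ (PG.const 1)).2]
          simp only [hone]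
          have e1 := int_muA hB x0 (t := a) ⟨h0.le, haT.2⟩ (fun _ => (1:ℝ))
          unfold ex at e1
          rw [if_neg (not_le.2 h0)] at e1
          rw [← e1]
          simp
      constructor
      · have e1 := int_muA hB x0 (t := t) ⟨htp.le, htT.2⟩ (fun _ => (1:ℝ))
        unfold ex at e1
        rw [if_neg (not_le.2 htp), key.2] at e1
        -- total mass
        have hfin : Integrable (fun _ : ℝ => (1:ℝ)) (muA A x0 t) :=
          (integrable_muA hB x0 htT _).2 (key.1 _ (PG.const 1))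
        have hfm : IsFiniteMeasure (muA A x0 t) := by
          rcases (integrable_const_iff.1 hfin) with h1 | h1
          · exact absurd h1 one_ne_zero
          · exact h1
        refine ⟨?_⟩
        rw [integral_const, smul_eq_mul, mul_one] at e1
        have h2 : (muA A x0 t univ).toReal = 1 := e1
        rw [← ENNReal.ofReal_toReal (measure_ne_top (muA A x0 t) univ), h2, ENNReal.ofReal_one]
      · intro n
        exact (integrable_muA hB x0 htT _).2 (key.1 _ (hpg n))

/-- **base formula** -/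
theorem base {A : SD} {x0 a b z : ℝ} (hB : Back A) (hc : IsCell A a b z) (hp : PCell A x0 a b z)
    {t : ℝ} (ht : t ∈ Icc a b) {φ : ℝ → ℝ} (hφ : PG φ) :
    ex x0 (pd A x0) t φ = ev A z a (muA A x0 a) t φ := by
  have haT : a ∈ Icc 0 A.T := hc.mem hc.aI
  rcases eq_or_lt_of_le ht.1 with h | h
  · subst h
    unfold ev
    simp only [tv_self hc]
    rw [int_muA hB x0 haT]
  · have htp : 0 < t := lt_of_le_of_lt hc.a0 h
    unfold ev
    rw [int_muA hB x0 haT]
    rcases eq_or_lt_of_le hc.a0 with h0 | h0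
    · unfold ex
      rw [if_neg (not_le.2 htp), if_pos h0.symm.le,
        (base_zero hB hc hp h0.symm ⟨h, ht.2⟩ hφ).2]
    · unfold ex
      rw [if_neg (not_le.2 htp), if_neg (not_le.2 h0)]
      refine (base_pos hB hc hp h0 ?_ ⟨h, ht.2⟩ hφ).2
      intro n
      exact (integrable_muA hB x0 ⟨h0, haT.2⟩ _).1 ((muA_mom hB x0 a haT).2 n)

end

end Crest.Agent.R146.PD_534
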