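import Crest.Agent.R146.Br3_256
import Crest.Agent.R146.PD_534
import Crest.Agent.R146.StepClk_900
import Crest.Agent.R146.PtHlim_45

/-!
# Row 146, R3 bridge (helper256): INTERFACE

`A : SD`, a Brownian space, `lam : L2`.  Notation:
* `EP t = condPi (brownianFiltration B hBm) P t` conditional expectation at time `t` on `L2`;
* `Go A lam s t Y = Y + (B_t - B_s) + ∫_s^t m_r E_r lam dr`, `Xp A x0 lam t = Go A lam 0 t x0`;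
* `Cq A lam s t = ∫_s^t m_r ‖E_r lam‖² dr`;
* `fA d x = -(x_-)²/(2d)`.

PROPS (leaves): `CELL`, `UP`, `LB`, `EQT`, `IDT`, `LAWT`, `FIN`.
-/

set_option autoImplicit false

noncomputable section

open MeasureTheory Set Filter Topology ProbabilityTheory
open scoped InnerProductSpace RealInnerProductSpace NNReal ENNReal

namespace Crest.Agent.R146.Br_256

open Crest.ProbabilityR.Perceptron Crest.ProbabilityR.InvariantGlass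
open Crest.Agent.R146.DualQ_256 Crest.Agent.R146.DualC1_256 Crest.Agent.R146.DualV_256
  Crest.Agent.R146.DualL_256 Crest.Agent.R146.DualG_256 Crest.Agent.R146.CtlC_130
open Crest.Agent.R146.StepDef_791 Crest.Agent.R146.Cell_534 Crest.Agent.R146.PD_534
open Crest.Agent.R164.GC (H)

theorem wA_wt (A : SD) : Wt A.m where
  meas := StepClk_900.mrc_meas A.cs A.T
  int := by
    have := StepClk_900.m_intble A 0 1
    rw [intervalIntegrable_iff_integrableOn_Icc_of_le zero_le_one] at this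
    exact this
  nonneg := fun t _ => A.m_nonneg t

theorem wA (A : SD) : PF.IsWeight A.m := (wA_wt A).isWeight

/-- terminal function (soft wall) -/
def fA (d x : ℝ) : ℝ := -(1 / (2 * d)) * (max (-x) 0) ^ 2

section

variable {Ω : Type*} [mΩ : MeasurableSpace Ω] {P : Measure Ω} [IsProbabilityMeasure P]
  {B : ℝ≥0 → Ω → ℝ} (hBm : ∀ t, Measurable (B t)) (hB : IsBrownianReal B P)

/-- the family of conditional expectations on `L2` -/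
abbrev FB (P : Measure Ω) [IsProbabilityMeasure P] (B : ℝ≥0 → Ω → ℝ)
    (hBm : ∀ t, Measurable (B t)) : PF (Ω →₂[P] ℝ) := fam (brownianFiltration B hBm) P

/-- the increment `B_t - B_s` -/
def dZ (s t : ℝ) : Ω →₂[P] ℝ := Zt hB t.toNNReal - Zt hB s.toNNReal

/-- `Y + (B_t - B_s) + ∫_s^t m_r E_r lam dr` -/
def Go (A : SD) (lam : Ω →₂[P] ℝ) (s t : ℝ) (Y : Ω →₂[P] ℝ) : Ω →₂[P] ℝ :=
  Y + dZ hB s t + OO (FB P B hBm) (wA A) s t lam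

/-- the process -/
def Xp (A : SD) (x0 : ℝ) (lam : Ω →₂[P] ℝ) (t : ℝ) : Ω →₂[P] ℝ := Go hBm hB A lam 0 t (cst P x0)

/-- the cost -/
def Cq (A : SD) (lam : Ω →₂[P] ℝ) (s t : ℝ) : ℝ := ∫ r in s..t, A.m r * (FB P B hBm).q lam r

/-- **CELL** (helper256) -/
def CELL : Prop := ∀ (A : SD) (lam : Ω →₂[P] ℝ) (a b z : ℝ), 0 ≤ a → a ≤ b → b ≤ A.T → 0 < z →
  (∀ r ∈ Ioo a b, A.m r = z) → ∀ Y : Ω →₂[P] ℝ, condPi (brownianFiltration B hBm) P a Y = Y →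
  ∀ (g : ℝ → ℝ) (C K : ℝ), QL g C → (∀ x, g x ≤ K) →
    ∫ ω, g ((Go hBm hB A lam a b Y : Ω →₂[P] ℝ) ω) ∂P - 1 / 2 * Cq hBm A lam a b ≤
      ∫ ω, gaussOp z (b - a) g (Y ω) ∂P

/-- **UP** -/
def UP : Prop := ∀ (A : SD) (lam : Ω →₂[P] ℝ),
  (∀ s t : ℝ, 0 ≤ s → s ≤ t → t ≤ A.T → ∀ Y : Ω →₂[P] ℝ,
    condPi (brownianFiltration B hBm) P s Y = Y →
    ∫ ω, A.psi t ((Go hBm hB A lam s t Y : Ω →₂[P] ℝ) ω) ∂P - 1 / 2 * Cq hBm A lam s t ≤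
      ∫ ω, A.psi s (Y ω) ∂P) ∧
  (∀ s : ℝ, 0 ≤ s → s ≤ A.T → ∀ Y : Ω →₂[P] ℝ,
    condPi (brownianFiltration B hBm) P s Y = Y →
    ∫ ω, fA A.d ((Go hBm hB A lam s 1 Y : Ω →₂[P] ℝ) ω) ∂P - 1 / 2 * Cq hBm A lam s 1 ≤
      ∫ ω, A.psi s (Y ω) ∂P)

/-- **LB** (helper952 / helper522, `psi_le_QQ`) -/
def LB : Prop := ∀ (A : SD) (x0 : ℝ) (x : Ω →₂[P] ℝ),
  x ∈ cone P →
  A.psi 0 x0 ≤ QQ (brownianFiltration B hBm) A.m (1 / A.d) (-x0) (ZB hB) x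

/-- the optimal dual variable: `lam ≥ 0`, `lam` = negative part of `X_1` divided by `d` -/
structure LK (A : SD) (x0 : ℝ) (lam : Ω →₂[P] ℝ) : Prop where
  mem : lam ∈ cone P
  kkt : (lam : Ω → ℝ) =ᵐ[P] fun ω => 1 / A.d * max (-((Xp hBm hB A x0 lam 1 : Ω →₂[P] ℝ) ω)) 0

/-- **EQT**: equality at every time -/
def EQT : Prop := ∀ (A : SD) (x0 : ℝ) (lam : Ω →₂[P] ℝ), LK hBm hB A x0 lam →
  ∀ t ∈ Icc 0 A.T,
    (∫ ω, A.psi t ((Xp hBm hB A x0 lam t : Ω →₂[P] ℝ) ω) ∂P - 1 / 2 * Cq hBm A lam 0 t =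
      A.psi 0 x0) ∧
    (∫ ω, fA A.d ((Xp hBm hB A x0 lam 1 : Ω →₂[P] ℝ) ω) ∂P - 1 / 2 * Cq hBm A lam t 1 =
      ∫ ω, A.psi t ((Xp hBm hB A x0 lam t : Ω →₂[P] ℝ) ω) ∂P)

/-- **IDT**: `E_t lam = ψ_x(t, X_t)` -/
def IDT : Prop := ∀ (A : SD) (x0 : ℝ) (lam : Ω →₂[P] ℝ), LK hBm hB A x0 lam →
  ∀ t ∈ Icc 0 A.T, (condPi (brownianFiltration B hBm) P t lam : Ω → ℝ) =ᵐ[P]
    fun ω => A.u t ((Xp hBm hB A x0 lam t : Ω →₂[P] ℝ) ω) / A.D t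

/-- **LAWT**: the law of `X_t` is `muA` (density `pd`) -/
def LAWT : Prop := ∀ (A : SD) (x0 : ℝ) (lam : Ω →₂[P] ℝ), LK hBm hB A x0 lam →
  ∀ t ∈ Icc 0 A.T, P.map (fun ω => (Xp hBm hB A x0 lam t : Ω →₂[P] ℝ) ω) = muA A x0 t

/-- **EXL**: existence of the optimal dual variable in the frame -/
def EXL : Prop := ∀ (A : SD) (x0 : ℝ), ∃ l : HH P B hBm,
  LK hBm hB A x0 (l : Ω →₂[P] ℝ) ∧
  PtHlim_45.Kkt (RB P B hBm) (KB P B hBm) (xi hBm hB x0) A.D l ∧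
  ∀ t ∈ Icc (0 : ℝ) 1, (((RB P B hBm).P t (xi hBm hB x0 + (RB P B hBm).Dop A.D l) :
      HH P B hBm) : Ω →₂[P] ℝ) =
    Xp hBm hB A x0 (l : Ω →₂[P] ℝ) t + A.D t • condPi (brownianFiltration B hBm) P t l

/-- **FIN**: the bridge -/
def FIN : Prop := ∀ (A : SD) (x0 : ℝ), ∃ l : HH P B hBm,
  PtHlim_45.Kkt (RB P B hBm) (KB P B hBm) (xi hBm hB x0) A.D l ∧
  (∀ t ∈ Icc 0 A.T, ‖(RB P B hBm).P t l‖ ^ 2 = Lams A x0 (pd A x0) t) ∧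
  (∀ t ∈ Icc 0 A.T, ⟪(RB P B hBm).P t (xi hBm hB x0 + (RB P B hBm).Dop A.D l), l⟫_ℝ =
    Cs A x0 (pd A x0) t)

end

end Crest.Agent.R146.Br_256
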