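import Mathlib

/-!
# Row 146, package DUAL (helper256), file 1: quadratic programmes for a family of projections

`H` a real Hilbert space with an increasing family of orthogonal projections `Pi t` (`t : ℝ`).
For a weight `m : ℝ → ℝ` (nonnegative, integrable on `[0,1]`)

* `F.bil m x y = ∫_0^1 m t * ⟪Pi t x, y⟫ dt`, `F.op m` the operator with `⟪F.op m x, y⟫ = F.bil m x y`;
* `F.Q c m g x = ⟪g, x⟫ + c/2 * ‖x‖² + 1/2 * F.bil m x x`;
* for a nonempty closed convex cone `K` and `c > 0`: unique minimiser, KKT conditions, growth.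
-/

set_option autoImplicit false

noncomputable section

open MeasureTheory Set Filter Topology
open scoped InnerProductSpace RealInnerProductSpace

namespace Crest.Agent.R146.DualQ_256

variable {H : Type*} [NormedAddCommGroup H] [InnerProductSpace ℝ H]

/-- increasing family of orthogonal projections -/
structure PF (H : Type*) [NormedAddCommGroup H] [InnerProductSpace ℝ H] where
  /-- the projection at time `t` -/
  Pi : ℝ → H →L[ℝ] H
  sa : ∀ t x y, ⟪Pi t x, y⟫_ℝ = ⟪x, Pi t y⟫_ℝ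
  comp : ∀ s t, s ≤ t → ∀ x, Pi s (Pi t x) = Pi s x

namespace PF

variable (F : PF H)

theorem idem (t : ℝ) (x : H) : F.Pi t (F.Pi t x) = F.Pi t x := F.comp t t le_rfl x

theorem comp' {s t : ℝ} (h : s ≤ t) (x : H) : F.Pi t (F.Pi s x) = F.Pi s x := by
  refine ext_inner_right ℝ fun y => ?_
  rw [F.sa, F.sa, F.comp s t h, ← F.sa]

/-- the increasing function `q_x(t) = ‖Pi t x‖²` -/
def q (x : H) (t : ℝ) : ℝ := ⟪F.Pi t x, x⟫_ℝ

theorem q_eq (x : H) (t : ℝ) : F.q x t = ‖F.Pi t x‖ ^ 2 := by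
  rw [q, ← real_inner_self_eq_norm_sq]
  conv_lhs => rw [← F.idem t x]
  rw [F.sa]

theorem q_nonneg (x : H) (t : ℝ) : 0 ≤ F.q x t := by rw [q_eq]; positivity

theorem norm_Pi_le (t : ℝ) (x : H) : ‖F.Pi t x‖ ≤ ‖x‖ := by
  by_cases h : ‖F.Pi t x‖ = 0
  · rw [h]; exact norm_nonneg _
  · have h0 : 0 < ‖F.Pi t x‖ := lt_of_le_of_ne (norm_nonneg _) (Ne.symm h)
    have h1 : ‖F.Pi t x‖ ^ 2 ≤ ‖F.Pi t x‖ * ‖x‖ := by
      rw [← F.q_eq, q]; exact real_inner_le_norm _ _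
    rw [pow_two] at h1
    exact le_of_mul_le_mul_left h1 h0

theorem q_le (x : H) (t : ℝ) : F.q x t ≤ ‖x‖ ^ 2 := by
  rw [q_eq]; exact pow_le_pow_left₀ (norm_nonneg _) (F.norm_Pi_le t x) 2

theorem q_mono (x : H) : Monotone (F.q x) := by
  intro s t h
  rw [q_eq, q_eq]
  have : F.Pi s x = F.Pi s (F.Pi t x) := (F.comp s t h x).symm
  rw [this]
  exact pow_le_pow_left₀ (norm_nonneg _) (F.norm_Pi_le s _) 2

theorem inner_symm (t : ℝ) (x y : H) : ⟪F.Pi t x, y⟫_ℝ = ⟪F.Pi t y, x⟫_ℝ := by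
  rw [F.sa, real_inner_comm]

theorem inner_eq_q (t : ℝ) (x y : H) :
    ⟪F.Pi t x, y⟫_ℝ = (F.q (x + y) t - F.q (x - y) t) / 4 := by
  have h := F.inner_symm t x y
  simp only [q, map_add, map_sub, inner_add_left, inner_add_right, inner_sub_left,
    inner_sub_right]
  rw [← h]; ring

theorem norm_sub_sq {s t : ℝ} (h : s ≤ t) (x : H) :
    ‖F.Pi t x - F.Pi s x‖ ^ 2 = F.q x t - F.q x s := by
  have e1 : ⟪F.Pi t x, F.Pi s x⟫_ℝ = F.q x s := by
    rw [F.sa, F.comp' h, q, real_inner_comm]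
  rw [← real_inner_self_eq_norm_sq]
  simp only [inner_sub_left, inner_sub_right]
  rw [real_inner_comm (F.Pi t x) (F.Pi s x)] 
  rw [e1, real_inner_self_eq_norm_sq, real_inner_self_eq_norm_sq, ← F.q_eq, ← F.q_eq]
  ring

theorem abs_inner_le (t : ℝ) (x y : H) : |⟪F.Pi t x, y⟫_ℝ| ≤ ‖x‖ * ‖y‖ :=
  (abs_real_inner_le_norm _ _).trans
    (mul_le_mul_of_nonneg_right (F.norm_Pi_le t x) (norm_nonneg _))

theorem measurable_q (x : H) : Measurable (F.q x) := (F.q_mono x).measurable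

theorem measurable_inner (x y : H) : Measurable fun t => ⟪F.Pi t x, y⟫_ℝ := by
  have : (fun t => ⟪F.Pi t x, y⟫_ℝ) = fun t => (F.q (x + y) t - F.q (x - y) t) / 4 := by
    funext t; exact F.inner_eq_q t x y
  rw [this]
  exact ((F.measurable_q _).sub (F.measurable_q _)).div_const 4

/-- a weight: integrable on `[0,1]`, nonnegative there -/
structure IsWeight (m : ℝ → ℝ) : Prop where
  int : IntegrableOn m (Icc 0 1)
  nonneg : ∀ t ∈ Icc (0 : ℝ) 1, 0 ≤ m t

/-- the bilinear form -/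
def bil (m : ℝ → ℝ) (x y : H) : ℝ := ∫ t in Icc (0 : ℝ) 1, m t * ⟪F.Pi t x, y⟫_ℝ

theorem integrable_bil {m : ℝ → ℝ} (hm : IntegrableOn m (Icc 0 1)) (x y : H) :
    IntegrableOn (fun t => m t * ⟪F.Pi t x, y⟫_ℝ) (Icc 0 1) :=
  Integrable.mul_bdd hm (F.measurable_inner x y).aestronglyMeasurable
    (Eventually.of_forall fun t => by rw [Real.norm_eq_abs]; exact F.abs_inner_le t x y)

theorem bil_symm (m : ℝ → ℝ) (x y : H) : F.bil m x y = F.bil m y x := by
  unfold bil; congr 1; funext t; rw [F.inner_symm]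

theorem bil_add_left {m : ℝ → ℝ} (hm : IntegrableOn m (Icc 0 1)) (x x' y : H) :
    F.bil m (x + x') y = F.bil m x y + F.bil m x' y := by
  unfold bil
  rw [← integral_add (F.integrable_bil hm x y) (F.integrable_bil hm x' y)]
  congr 1; funext t; rw [map_add, inner_add_left]; ring

theorem bil_smul_left (m : ℝ → ℝ) (c : ℝ) (x y : H) :
    F.bil m (c • x) y = c * F.bil m x y := by
  unfold bil
  rw [← integral_const_mul]
  congr 1; funext t; rw [map_smul, real_inner_smul_left]; ring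

theorem bil_add_right {m : ℝ → ℝ} (hm : IntegrableOn m (Icc 0 1)) (x y y' : H) :
    F.bil m x (y + y') = F.bil m x y + F.bil m x y' := by
  rw [F.bil_symm m x, F.bil_add_left hm, F.bil_symm m y, F.bil_symm m y']

theorem bil_smul_right (m : ℝ → ℝ) (c : ℝ) (x y : H) :
    F.bil m x (c • y) = c * F.bil m x y := by
  rw [F.bil_symm, bil_smul_left, F.bil_symm m y]

theorem bil_sub_left {m : ℝ → ℝ} (hm : IntegrableOn m (Icc 0 1)) (x x' y : H) :
    F.bil m (x - x') y = F.bil m x y - F.bil m x' y := by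
  rw [sub_eq_add_neg, F.bil_add_left hm, ← neg_one_smul ℝ x', bil_smul_left]; ring

theorem bil_sub_right {m : ℝ → ℝ} (hm : IntegrableOn m (Icc 0 1)) (x y y' : H) :
    F.bil m x (y - y') = F.bil m x y - F.bil m x y' := by
  rw [F.bil_symm m x, F.bil_sub_left hm, F.bil_symm m y, F.bil_symm m y']

theorem bil_self (m : ℝ → ℝ) (x : H) :
    F.bil m x x = ∫ t in Icc (0 : ℝ) 1, m t * F.q x t := rfl

theorem bil_self_nonneg {m : ℝ → ℝ} (hm : ∀ t ∈ Icc (0 : ℝ) 1, 0 ≤ m t) (x : H) :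
    0 ≤ F.bil m x x := by
  rw [bil_self]
  exact setIntegral_nonneg measurableSet_Icc fun t ht => mul_nonneg (hm t ht) (F.q_nonneg x t)

theorem abs_bil_le {m : ℝ → ℝ} (hm : IsWeight m) (x y : H) :
    |F.bil m x y| ≤ (∫ t in Icc (0 : ℝ) 1, m t) * (‖x‖ * ‖y‖) := by
  unfold bil
  rw [← integral_mul_const]
  refine abs_integral_le_integral_abs.trans ?_
  refine setIntegral_mono_on (F.integrable_bil hm.int x y).abs (hm.int.mul_const _)
    measurableSet_Icc fun t ht => ?_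
  rw [abs_mul, abs_of_nonneg (hm.nonneg t ht)]
  exact mul_le_mul_of_nonneg_left (F.abs_inner_le t x y) (hm.nonneg t ht)

theorem mass_nonneg {m : ℝ → ℝ} (hm : IsWeight m) : 0 ≤ ∫ t in Icc (0 : ℝ) 1, m t :=
  setIntegral_nonneg measurableSet_Icc hm.nonneg

/-- the continuous bilinear form of a weight -/
def bilC {m : ℝ → ℝ} (hm : IsWeight m) : H →L[ℝ] H →L[ℝ] ℝ :=
  LinearMap.mkContinuous₂
    { toFun := fun x =>
        { toFun := fun y => F.bil m x y
          map_add' := fun y y' => F.bil_add_right hm.int x y y'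
          map_smul' := fun c y => F.bil_smul_right m c x y }
      map_add' := fun x x' => by ext y; exact F.bil_add_left hm.int x x' y
      map_smul' := fun c x => by ext y; exact F.bil_smul_left m c x y }
    (∫ t in Icc (0 : ℝ) 1, m t)
    (fun x y => by
      rw [Real.norm_eq_abs, mul_assoc]
      exact F.abs_bil_le hm x y)

@[simp] theorem bilC_apply {m : ℝ → ℝ} (hm : IsWeight m) (x y : H) :
    F.bilC hm x y = F.bil m x y := rfl

section complete
variable [CompleteSpace H]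

/-- the operator `A_m = ∫ m(t) Pi_t dt` -/
def op {m : ℝ → ℝ} (hm : IsWeight m) : H →L[ℝ] H :=
  InnerProductSpace.continuousLinearMapOfBilin (𝕜 := ℝ) (F.bilC hm)

theorem inner_op {m : ℝ → ℝ} (hm : IsWeight m) (x y : H) :
    ⟪F.op hm x, y⟫_ℝ = F.bil m x y := by
  unfold op
  rw [InnerProductSpace.continuousLinearMapOfBilin_apply]
  rfl

theorem norm_op_le {m : ℝ → ℝ} (hm : IsWeight m) (x : H) :
    ‖F.op hm x‖ ≤ (∫ t in Icc (0 : ℝ) 1, m t) * ‖x‖ := by
  by_cases h : ‖F.op hm x‖ = 0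
  · rw [h]; exact mul_nonneg (mass_nonneg hm) (norm_nonneg _)
  · have h0 : 0 < ‖F.op hm x‖ := lt_of_le_of_ne (norm_nonneg _) (Ne.symm h)
    have h1 : ‖F.op hm x‖ * ‖F.op hm x‖ ≤
        ‖F.op hm x‖ * ((∫ t in Icc (0 : ℝ) 1, m t) * ‖x‖) := by
      rw [← real_inner_self_eq_norm_mul_norm, F.inner_op hm]
      refine (le_abs_self _).trans ((F.abs_bil_le hm _ _).trans (le_of_eq ?_))
      ring
    exact le_of_mul_le_mul_left h1 h0

end complete

/-- the quadratic functional -/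
def Q (c : ℝ) (m : ℝ → ℝ) (g x : H) : ℝ := ⟪g, x⟫_ℝ + c / 2 * ‖x‖ ^ 2 + F.bil m x x / 2

/-- parallelogram identity for `Q` -/
theorem Q_mid (c : ℝ) {m : ℝ → ℝ} (hm : IntegrableOn m (Icc 0 1)) (g x y : H) :
    F.Q c m g ((1 / 2 : ℝ) • (x + y)) =
      F.Q c m g x / 2 + F.Q c m g y / 2 -
        (c * ‖x - y‖ ^ 2 + F.bil m (x - y) (x - y)) / 8 := by
  unfold Q
  have h1 : ‖(1 / 2 : ℝ) • (x + y)‖ ^ 2 = (1 / 4) * ‖x + y‖ ^ 2 := by
    rw [norm_smul]; norm_num; ring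
  have h2 := parallelogram_law_with_norm ℝ x y
  rw [h1, real_inner_smul_right, inner_add_right, F.bil_smul_left, F.bil_smul_right,
    F.bil_add_left hm, F.bil_add_right hm, F.bil_add_right hm, F.bil_sub_left hm,
    F.bil_sub_right hm, F.bil_sub_right hm, F.bil_symm m y x]
  have h3 : ‖x + y‖ ^ 2 = 2 * (‖x‖ ^ 2 + ‖y‖ ^ 2) - ‖x - y‖ ^ 2 := by nlinarith [h2]
  rw [h3]; ring

/-- expansion of `Q` -/
theorem Q_add (c : ℝ) {m : ℝ → ℝ} (hm : IntegrableOn m (Icc 0 1)) (g x d : H) :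
    F.Q c m g (x + d) = F.Q c m g x + (⟪g, d⟫_ℝ + c * ⟪x, d⟫_ℝ + F.bil m x d) +
      (c * ‖d‖ ^ 2 + F.bil m d d) / 2 := by
  unfold Q
  rw [inner_add_right, norm_add_sq_real, F.bil_add_left hm, F.bil_add_right hm,
    F.bil_add_right hm, F.bil_symm m d x]
  ring

theorem Q_lower {c : ℝ} (hc : 0 < c) {m : ℝ → ℝ} (hm : IsWeight m) (g x : H) :
    -(‖g‖ ^ 2 / (2 * c)) ≤ F.Q c m g x := by
  unfold Q
  have h1 : -(‖g‖ * ‖x‖) ≤ ⟪g, x⟫_ℝ := by
    have := abs_real_inner_le_norm g x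
    exact (neg_le_neg this).trans (neg_abs_le _)
  have h2 := F.bil_self_nonneg hm.nonneg x
  have h3 : ‖g‖ * ‖x‖ ≤ ‖g‖ ^ 2 / (2 * c) + c / 2 * ‖x‖ ^ 2 := by
    have : 0 ≤ (‖g‖ - c * ‖x‖) ^ 2 / (2 * c) := by positivity
    have e : (‖g‖ - c * ‖x‖) ^ 2 / (2 * c) =
        ‖g‖ ^ 2 / (2 * c) + c / 2 * ‖x‖ ^ 2 - ‖g‖ * ‖x‖ := by
      field_simp; ring
    linarith
  linarith

theorem continuous_Q (c : ℝ) {m : ℝ → ℝ} (hm : IsWeight m) (g : H) :
    Continuous (F.Q c m g) := by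
  have h : Continuous fun x => F.bilC hm x x := by fun_prop
  unfold Q
  have h' : (fun x => ⟪g, x⟫_ℝ + c / 2 * ‖x‖ ^ 2 + F.bil m x x / 2) =
      fun x => ⟪g, x⟫_ℝ + c / 2 * ‖x‖ ^ 2 + F.bilC hm x x / 2 := by
    funext x; rw [bilC_apply]
  rw [h']
  fun_prop

section minimiser
variable [CompleteSpace H]

/-- **existence of the minimiser** on a nonempty closed convex set -/
theorem exists_min {c : ℝ} (hc : 0 < c) {m : ℝ → ℝ} (hm : IsWeight m) (g : H)
    {K : Set H} (hK : IsClosed K) (hKc : Convex ℝ K) (hKn : K.Nonempty) :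
    ∃ x ∈ K, ∀ y ∈ K, F.Q c m g x ≤ F.Q c m g y := by
  classical
  set I : ℝ := sInf (F.Q c m g '' K) with hI
  have hbdd : BddBelow (F.Q c m g '' K) :=
    ⟨-(‖g‖ ^ 2 / (2 * c)), by rintro _ ⟨x, _, rfl⟩; exact F.Q_lower hc hm g x⟩
  have hne : (F.Q c m g '' K).Nonempty := hKn.image _
  have hIle : ∀ y ∈ K, I ≤ F.Q c m g y := fun y hy => csInf_le hbdd ⟨y, hy, rfl⟩
  have hex : ∀ n : ℕ, ∃ x ∈ K, F.Q c m g x < I + 1 / ((n : ℝ) + 1) := by
    intro n
    have : I < I + 1 / ((n : ℝ) + 1) := by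
      have : (0 : ℝ) < 1 / ((n : ℝ) + 1) := by positivity
      linarith
    obtain ⟨_, ⟨x, hx, rfl⟩, hlt⟩ := exists_lt_of_csInf_lt hne this
    exact ⟨x, hx, hlt⟩
  choose x hxK hx using hex
  have key : ∀ i j : ℕ, c * ‖x i - x j‖ ^ 2 ≤ 4 * (1 / ((i : ℝ) + 1) + 1 / ((j : ℝ) + 1)) := by
    intro i j
    have hmid : (1 / 2 : ℝ) • (x i + x j) ∈ K := by
      have := hKc (hxK i) (hxK j) (show (0 : ℝ) ≤ 1 / 2 by norm_num)
        (show (0 : ℝ) ≤ 1 / 2 by norm_num) (by norm_num)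
      rwa [← smul_add] at this
    have h1 := hIle _ hmid
    rw [F.Q_mid c hm.int] at h1
    have h2 := F.bil_self_nonneg hm.nonneg (x i - x j)
    have h3 := hx i
    have h4 := hx j
    linarith
  have hcau : CauchySeq x := by
    rw [Metric.cauchySeq_iff']
    intro ε hε
    obtain ⟨N, hN⟩ := exists_nat_gt (8 / (c * ε ^ 2))
    refine ⟨N, fun n hn => ?_⟩
    rw [dist_eq_norm]
    have h1 := key n N
    have hNpos : (0 : ℝ) < (N : ℝ) + 1 := by positivity
    have h2 : 1 / ((n : ℝ) + 1) ≤ 1 / ((N : ℝ) + 1) := by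
      apply one_div_le_one_div_of_le hNpos
      have : (N : ℝ) ≤ n := by exact_mod_cast hn
      linarith
    have h3 : 8 * (1 / ((N : ℝ) + 1)) < c * ε ^ 2 := by
      have hcε : 0 < c * ε ^ 2 := by positivity
      rw [mul_one_div, div_lt_iff₀ hNpos]
      rw [div_lt_iff₀ hcε] at hN
      nlinarith
    have h4 : c * ‖x n - x N‖ ^ 2 < c * ε ^ 2 := by linarith
    have h5 : ‖x n - x N‖ ^ 2 < ε ^ 2 := lt_of_mul_lt_mul_left h4 hc.le
    exact lt_of_pow_lt_pow_left₀ 2 hε.le h5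
  obtain ⟨z, hz⟩ := cauchySeq_tendsto_of_complete hcau
  refine ⟨z, hK.mem_of_tendsto hz (Eventually.of_forall hxK), fun y hy => ?_⟩
  have hQ : Tendsto (fun n => F.Q c m g (x n)) atTop (𝓝 (F.Q c m g z)) :=
    ((F.continuous_Q c hm g).tendsto z).comp hz
  have hlim : Tendsto (fun n : ℕ => I + 1 / ((n : ℝ) + 1)) atTop (𝓝 (I + 0)) :=
    tendsto_const_nhds.add tendsto_one_div_add_atTop_nhds_zero_nat
  have := le_of_tendsto_of_tendsto hQ hlim (Eventually.of_forall fun n => (hx n).le)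
  rw [add_zero] at this
  exact this.trans (hIle y hy)

end minimiser

/-- first order condition at a minimiser on a convex set -/
theorem first_order {c : ℝ} (hc : 0 ≤ c) {m : ℝ → ℝ} (hm : IsWeight m) (g : H)
    {K : Set H} (hKc : Convex ℝ K) {x : H} (hx : x ∈ K)
    (hmin : ∀ y ∈ K, F.Q c m g x ≤ F.Q c m g y) {y : H} (hy : y ∈ K) :
    0 ≤ ⟪g, y - x⟫_ℝ + c * ⟪x, y - x⟫_ℝ + F.bil m x (y - x) := by
  set L : ℝ := ⟪g, y - x⟫_ℝ + c * ⟪x, y - x⟫_ℝ + F.bil m x (y - x) with hL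
  set S : ℝ := c * ‖y - x‖ ^ 2 + F.bil m (y - x) (y - x) with hS
  have hS0 : 0 ≤ S := by
    have := F.bil_self_nonneg hm.nonneg (y - x)
    positivity
  have key : ∀ t : ℝ, 0 < t → t ≤ 1 → 0 ≤ L + t * S / 2 := by
    intro t ht ht1
    have hmem : x + t • (y - x) ∈ K := by
      have := hKc hx hy (show 0 ≤ 1 - t by linarith) ht.le (by ring)
      have e : (1 - t) • x + t • y = x + t • (y - x) := by
        rw [sub_smul, one_smul, smul_sub]; abel
      rwa [e] at this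
    have h := hmin _ hmem
    rw [F.Q_add c hm.int, real_inner_smul_right, real_inner_smul_right, F.bil_smul_right,
      F.bil_smul_left, F.bil_smul_right, norm_smul, Real.norm_eq_abs, mul_pow, sq_abs] at h
    have h2 : 0 ≤ t * (L + t * S / 2) := by
      rw [hL, hS]; nlinarith
    exact nonneg_of_mul_nonneg_right h2 ht
  by_contra hneg
  push_neg at hneg
  by_cases hS' : S = 0
  · have := key 1 one_pos le_rfl
    rw [hS'] at this; linarith
  · have hSp : 0 < S := lt_of_le_of_ne hS0 (Ne.symm hS')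
    have h := key (min 1 (-L / S)) (lt_min one_pos (div_pos (by linarith) hSp)) (min_le_left _ _)
    have h1 : min 1 (-L / S) * S ≤ -L := by
      calc min 1 (-L / S) * S ≤ (-L / S) * S := mul_le_mul_of_nonneg_right (min_le_right _ _) hS0
        _ = -L := by field_simp
    linarith

/-- quadratic growth at a minimiser -/
theorem growth {c : ℝ} (hc : 0 ≤ c) {m : ℝ → ℝ} (hm : IsWeight m) (g : H)
    {K : Set H} (hKc : Convex ℝ K) {x : H} (hx : x ∈ K)
    (hmin : ∀ y ∈ K, F.Q c m g x ≤ F.Q c m g y) {y : H} (hy : y ∈ K) :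
    F.Q c m g x + (c * ‖y - x‖ ^ 2 + F.bil m (y - x) (y - x)) / 2 ≤ F.Q c m g y := by
  have h := F.first_order hc hm g hKc hx hmin hy
  have e : F.Q c m g y = F.Q c m g (x + (y - x)) := by rw [add_sub_cancel]
  rw [e, F.Q_add c hm.int]
  linarith

/-- complementarity on a cone -/
theorem compl {c : ℝ} (hc : 0 ≤ c) {m : ℝ → ℝ} (hm : IsWeight m) (g : H)
    {K : Set H} (hKc : Convex ℝ K) (hcone : ∀ r : ℝ, 0 ≤ r → ∀ x ∈ K, r • x ∈ K)
    {x : H} (hx : x ∈ K) (hmin : ∀ y ∈ K, F.Q c m g x ≤ F.Q c m g y) :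
    ⟪g, x⟫_ℝ + c * ‖x‖ ^ 2 + F.bil m x x = 0 := by
  have h0 := F.first_order hc hm g hKc hx hmin (hcone 0 le_rfl x hx)
  have h2 := F.first_order hc hm g hKc hx hmin (hcone 2 (by norm_num) x hx)
  rw [zero_smul, zero_sub, inner_neg_right, inner_neg_right, ← neg_one_smul ℝ x,
    F.bil_smul_right, real_inner_self_eq_norm_sq] at h0
  have e : (2 : ℝ) • x - x = x := by rw [two_smul]; abel
  rw [e, real_inner_self_eq_norm_sq] at h2
  linarith

/-- the gradient is in the dual cone -/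
theorem dual_cone {c : ℝ} (hc : 0 ≤ c) {m : ℝ → ℝ} (hm : IsWeight m) (g : H)
    {K : Set H} (hKc : Convex ℝ K) (hadd : ∀ x ∈ K, ∀ y ∈ K, x + y ∈ K)
    {x : H} (hx : x ∈ K) (hmin : ∀ y ∈ K, F.Q c m g x ≤ F.Q c m g y) {y : H} (hy : y ∈ K) :
    0 ≤ ⟪g, y⟫_ℝ + c * ⟪x, y⟫_ℝ + F.bil m x y := by
  have h := F.first_order hc hm g hKc hx hmin (hadd x hx y hy)
  rwa [add_sub_cancel_left] at h

/-- value at the minimiser -/
theorem min_value {c : ℝ} (hc : 0 ≤ c) {m : ℝ → ℝ} (hm : IsWeight m) (g : H)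
    {K : Set H} (hKc : Convex ℝ K) (hcone : ∀ r : ℝ, 0 ≤ r → ∀ x ∈ K, r • x ∈ K)
    {x : H} (hx : x ∈ K) (hmin : ∀ y ∈ K, F.Q c m g x ≤ F.Q c m g y) :
    F.Q c m g x = ⟪g, x⟫_ℝ / 2 := by
  have h := F.compl hc hm g hKc hcone hx hmin
  unfold Q; linarith

end PF

end Crest.Agent.R146.DualQ_256
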