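import Mathlib
import Crest.Prelude.Def_SphericalPressure
import Crest.Agent.R146.DualQ_256

/-!
# Row 146, package DUAL (helper256), file 2: conditional expectations and controls

* `fam 𝓕 P` : the family of conditional expectations on `L2(P)` as a `PF`;
* `wm w` : the finite measure `w(t) dt` on `[0,1]`;
* for a progressive `v` of finite cost: `II`, `⟪lam, II⟫ = ∫ E[lam v_t] w(t) dt`, and
  `norm_II_sub_sq_le` :
  `‖I(v) - A_w lam‖² ≤ (∫ w) (B_w(lam,lam) + cost(v) - 2⟪lam, I(v)⟫)`.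
-/

set_option autoImplicit false

noncomputable section

open MeasureTheory Set Filter Topology
open scoped InnerProductSpace RealInnerProductSpace NNReal ENNReal

namespace Crest.Agent.R146.DualC1_256

open Crest.Agent.R146.DualQ_256

variable {Ω : Type*} [mΩ : MeasurableSpace Ω] {P : Measure Ω} [IsProbabilityMeasure P]

/-! ### projections -/

/-- conditional expectation on `𝓕 t` as an operator of `L2` -/
def condPi (𝓕 : Filtration ℝ≥0 mΩ) (P : Measure Ω) (t : ℝ) : (Ω →₂[P] ℝ) →L[ℝ] (Ω →₂[P] ℝ) :=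
  (lpMeas ℝ ℝ (𝓕 t.toNNReal) 2 P).subtypeL.comp (condExpL2 ℝ ℝ (𝓕.le t.toNNReal))

theorem condPi_apply (𝓕 : Filtration ℝ≥0 mΩ) (t : ℝ) (x : Ω →₂[P] ℝ) :
    condPi 𝓕 P t x = (condExpL2 ℝ ℝ (𝓕.le t.toNNReal) x : Ω →₂[P] ℝ) := rfl

theorem condPi_meas (𝓕 : Filtration ℝ≥0 mΩ) (t : ℝ) (x : Ω →₂[P] ℝ) :
    AEStronglyMeasurable[𝓕 t.toNNReal] (condPi 𝓕 P t x : Ω → ℝ) P := by
  rw [condPi_apply]; exact aestronglyMeasurable_condExpL2 _ _

theorem condPi_sa (𝓕 : Filtration ℝ≥0 mΩ) (t : ℝ) (x y : Ω →₂[P] ℝ) :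
    ⟪condPi 𝓕 P t x, y⟫_ℝ = ⟪x, condPi 𝓕 P t y⟫_ℝ := by
  rw [condPi_apply, condPi_apply]; exact inner_condExpL2_left_eq_right _

theorem condPi_inner_of_meas (𝓕 : Filtration ℝ≥0 mΩ) (t : ℝ) (x y : Ω →₂[P] ℝ)
    (hy : AEStronglyMeasurable[𝓕 t.toNNReal] (y : Ω → ℝ) P) :
    ⟪condPi 𝓕 P t x, y⟫_ℝ = ⟪x, y⟫_ℝ := by
  rw [condPi_apply]; exact inner_condExpL2_eq_inner_fun _ x y hy

theorem condPi_of_meas (𝓕 : Filtration ℝ≥0 mΩ) (t : ℝ) (y : Ω →₂[P] ℝ)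
    (hy : AEStronglyMeasurable[𝓕 t.toNNReal] (y : Ω → ℝ) P) :
    condPi 𝓕 P t y = y := by
  refine ext_inner_left ℝ fun x => ?_
  rw [← condPi_sa, condPi_inner_of_meas 𝓕 t x y hy]

theorem condPi_comp (𝓕 : Filtration ℝ≥0 mΩ) (s t : ℝ) (h : s ≤ t) (x : Ω →₂[P] ℝ) :
    condPi 𝓕 P s (condPi 𝓕 P t x) = condPi 𝓕 P s x := by
  refine ext_inner_right ℝ fun y => ?_
  rw [condPi_sa, condPi_sa, condPi_sa]
  congr 1
  apply condPi_of_meas
  exact (condPi_meas 𝓕 s y).mono (𝓕.mono (Real.toNNReal_le_toNNReal h))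

/-- the family of conditional expectations -/
def fam (𝓕 : Filtration ℝ≥0 mΩ) (P : Measure Ω) [IsProbabilityMeasure P] :
    PF (Ω →₂[P] ℝ) where
  Pi := condPi 𝓕 P
  sa := condPi_sa 𝓕
  comp := condPi_comp 𝓕

@[simp] theorem fam_Pi (𝓕 : Filtration ℝ≥0 mΩ) (t : ℝ) :
    (fam 𝓕 P).Pi t = condPi 𝓕 P t := rfl

/-! ### weights as measures -/

/-- a weight: measurable, integrable on `[0,1]`, nonnegative there -/
structure Wt (w : ℝ → ℝ) : Prop where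
  meas : Measurable w
  int : IntegrableOn w (Icc 0 1)
  nonneg : ∀ t ∈ Icc (0 : ℝ) 1, 0 ≤ w t

theorem Wt.isWeight {w : ℝ → ℝ} (hw : Wt w) : PF.IsWeight w := ⟨hw.int, hw.nonneg⟩

/-- the measure `w(t) dt` on `[0,1]` -/
def wm (w : ℝ → ℝ) : Measure ℝ :=
  (volume.restrict (Icc (0 : ℝ) 1)).withDensity fun t => ENNReal.ofReal (w t)

theorem wm_lintegral {w : ℝ → ℝ} (hw : Wt w) {f : ℝ → ℝ≥0∞} (hf : Measurable f) :
    ∫⁻ t, f t ∂wm w = ∫⁻ t in Icc (0 : ℝ) 1, ENNReal.ofReal (w t) * f t := by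
  unfold wm
  rw [lintegral_withDensity_eq_lintegral_mul _ hw.meas.ennreal_ofReal hf]
  rfl

theorem wm_integral {w : ℝ → ℝ} (hw : Wt w) (f : ℝ → ℝ) :
    ∫ t, f t ∂wm w = ∫ t in Icc (0 : ℝ) 1, w t * f t := by
  unfold wm
  rw [integral_withDensity_eq_integral_toReal_smul hw.meas.ennreal_ofReal
    (Eventually.of_forall fun _ => ENNReal.ofReal_lt_top)]
  refine setIntegral_congr_fun measurableSet_Icc fun t ht => ?_
  simp only [smul_eq_mul]
  rw [ENNReal.toReal_ofReal (hw.nonneg t ht)]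

theorem wm_univ {w : ℝ → ℝ} (hw : Wt w) :
    wm w univ = ENNReal.ofReal (∫ t in Icc (0 : ℝ) 1, w t) := by
  rw [ofReal_integral_eq_lintegral_ofReal hw.int
    ((ae_restrict_iff' measurableSet_Icc).2 (Eventually.of_forall fun t ht => hw.nonneg t ht))]
  have := wm_lintegral hw (f := fun _ => 1) measurable_const
  simpa using this

theorem isFinite_wm {w : ℝ → ℝ} (hw : Wt w) : IsFiniteMeasure (wm w) :=
  ⟨by rw [wm_univ hw]; exact ENNReal.ofReal_lt_top⟩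

theorem wm_real_univ {w : ℝ → ℝ} (hw : Wt w) :
    (wm w).real univ = ∫ t in Icc (0 : ℝ) 1, w t := by
  rw [Measure.real, wm_univ hw, ENNReal.toReal_ofReal]
  exact setIntegral_nonneg measurableSet_Icc hw.nonneg

theorem wm_ae_mem (w : ℝ → ℝ) : ∀ᵐ t ∂wm w, t ∈ Icc (0 : ℝ) 1 := by
  unfold wm
  exact (withDensity_absolutelyContinuous _ _).ae_le
    ((ae_restrict_mem measurableSet_Icc))

/-- Cauchy-Schwarz for a finite measure -/
theorem sq_integral_le {α : Type*} [MeasurableSpace α] (ν : Measure α) [IsFiniteMeasure ν]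
    {f : α → ℝ} (hf : MemLp f 2 ν) :
    (∫ x, f x ∂ν) ^ 2 ≤ ν.real univ * ∫ x, f x ^ 2 ∂ν := by
  have hi : Integrable f ν := hf.integrable one_le_two
  have hs : Integrable (fun x => f x ^ 2) ν := hf.integrable_sq
  rcases eq_or_ne (ν.real univ) 0 with h0 | h0
  · have : ν = 0 := by
      rw [Measure.real, ENNReal.toReal_eq_zero_iff] at h0
      rcases h0 with h0 | h0
      · exact Measure.measure_univ_eq_zero.1 h0
      · exact absurd h0 (measure_ne_top _ _)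
    subst this
    simp
  · have hp : 0 < ν.real univ := lt_of_le_of_ne measureReal_nonneg (Ne.symm h0)
    set M := ν.real univ
    set c := (∫ x, f x ∂ν) / M with hc
    have h1 : 0 ≤ ∫ x, (f x - c) ^ 2 ∂ν := integral_nonneg fun x => sq_nonneg _
    have h2 : ∫ x, (f x - c) ^ 2 ∂ν = (∫ x, f x ^ 2 ∂ν) - 2 * c * (∫ x, f x ∂ν) + c ^ 2 * M := by
      have e : (fun x => (f x - c) ^ 2) = fun x => f x ^ 2 - 2 * c * f x + c ^ 2 := by
        funext x; ring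
      have i1 : Integrable (fun x => f x ^ 2 - 2 * c * f x) ν := hs.sub (hi.const_mul _)
      rw [e, integral_add i1 (integrable_const _),
        integral_sub hs (hi.const_mul _), integral_const_mul, integral_const]
      simp only [smul_eq_mul]
      ring
    rw [h2] at h1
    have h3 : c * M = ∫ x, f x ∂ν := by rw [hc]; field_simp
    have h4 : 0 ≤ M * ((∫ x, f x ^ 2 ∂ν) - 2 * c * (∫ x, f x ∂ν) + c ^ 2 * M) :=
      mul_nonneg hp.le h1
    nlinarith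

/-! ### controls -/

/-- admissible controls for a weight -/
structure Adm (𝓕 : Filtration ℝ≥0 mΩ) (P : Measure Ω) (w : ℝ → ℝ) (v : ℝ≥0 → Ω → ℝ) : Prop where
  prog : IsProgressive 𝓕 v
  fin : ∫⁻ ω, ∫⁻ t in Icc (0 : ℝ) 1,
    ENNReal.ofReal (w t * v (Real.toNNReal t) ω ^ 2) ∂volume ∂P < ⊤

/-- the truncated control as a function on `ℝ × Ω` -/
def vh (v : ℝ≥0 → Ω → ℝ) (p : ℝ × Ω) : ℝ := v (min p.1 1).toNNReal p.2

theorem vh_eq {v : ℝ≥0 → Ω → ℝ} {t : ℝ} (ht : t ∈ Icc (0 : ℝ) 1) (ω : Ω) :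
    vh v (t, ω) = v t.toNNReal ω := by
  unfold vh; simp only; rw [min_eq_left ht.2]

theorem measurable_vh1 {𝓕 : Filtration ℝ≥0 mΩ} {v : ℝ≥0 → Ω → ℝ} (hv : IsProgressive 𝓕 v) :
    @Measurable _ _ (@Prod.instMeasurableSpace _ _ _ (𝓕 1)) _ (vh v) := by
  have h := hv 1
  have hle : ∀ t : ℝ, (min t 1).toNNReal ∈ Iic (1 : ℝ≥0) := by
    intro t
    rw [mem_Iic, Real.toNNReal_le_one]
    exact min_le_right _ _
  have e : vh v = (fun p : Iic (1 : ℝ≥0) × Ω => v p.1 p.2) ∘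
      fun p : ℝ × Ω => (⟨(min p.1 1).toNNReal, hle p.1⟩, p.2) := rfl
  rw [e]
  refine h.comp ?_
  refine Measurable.prodMk ?_ measurable_snd
  refine Measurable.subtype_mk ?_
  exact (measurable_fst.min measurable_const).real_toNNReal

theorem measurable_vh {𝓕 : Filtration ℝ≥0 mΩ} {v : ℝ≥0 → Ω → ℝ} (hv : IsProgressive 𝓕 v) :
    Measurable (vh v) := by
  refine (measurable_vh1 hv).mono ?_ le_rfl
  exact sup_le_sup le_rfl (MeasurableSpace.comap_mono (𝓕.le 1))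

theorem vh_adapted {𝓕 : Filtration ℝ≥0 mΩ} {v : ℝ≥0 → Ω → ℝ} (hv : IsProgressive 𝓕 v)
    {t : ℝ} (ht : t ∈ Icc (0 : ℝ) 1) :
    Measurable[𝓕 t.toNNReal] fun ω => vh v (t, ω) := by
  have : (fun ω => vh v (t, ω)) = v t.toNNReal := by funext ω; exact vh_eq ht ω
  rw [this]
  exact hv.adapted _

theorem memLp_vh {𝓕 : Filtration ℝ≥0 mΩ} {w : ℝ → ℝ} (hw : Wt w) {v : ℝ≥0 → Ω → ℝ}
    (hv : Adm 𝓕 P w v) : MemLp (vh v) 2 ((wm w).prod P) := by
  have := isFinite_wm hw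
  have hm := measurable_vh hv.prog
  rw [memLp_two_iff_integrable_sq hm.aestronglyMeasurable]
  refine ⟨(hm.pow_const 2).aestronglyMeasurable, ?_⟩
  rw [hasFiniteIntegral_iff_ofReal (Eventually.of_forall fun _ => sq_nonneg _)]
  rw [lintegral_prod_symm _ (hm.pow_const 2).ennreal_ofReal.aemeasurable]
  refine lt_of_le_of_lt (lintegral_mono fun ω => ?_) hv.fin
  rw [wm_lintegral hw (f := fun t => ENNReal.ofReal (vh v (t, ω) ^ 2))
    ((hm.comp measurable_prodMk_right).pow_const 2).ennreal_ofReal]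
  refine setLIntegral_mono' measurableSet_Icc fun t ht => ?_
  rw [vh_eq ht, ← ENNReal.ofReal_mul (hw.nonneg t ht)]

/-- the cost as a real number -/
def cost (P : Measure Ω) (w : ℝ → ℝ) (v : ℝ≥0 → Ω → ℝ) : ℝ :=
  (∫⁻ ω, ∫⁻ t in Icc (0 : ℝ) 1,
    ENNReal.ofReal (w t * v (Real.toNNReal t) ω ^ 2) ∂volume ∂P).toReal

theorem cost_nonneg (P : Measure Ω) (w : ℝ → ℝ) (v : ℝ≥0 → Ω → ℝ) : 0 ≤ cost P w v :=
  ENNReal.toReal_nonneg

theorem cost_eq {𝓕 : Filtration ℝ≥0 mΩ} {w : ℝ → ℝ} (hw : Wt w) {v : ℝ≥0 → Ω → ℝ}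
    (hv : Adm 𝓕 P w v) : cost P w v = ∫ p, vh v p ^ 2 ∂(wm w).prod P := by
  have := isFinite_wm hw
  have hm := measurable_vh hv.prog
  rw [integral_eq_lintegral_of_nonneg_ae (Eventually.of_forall fun _ => sq_nonneg _)
    (hm.pow_const 2).aestronglyMeasurable,
    lintegral_prod_symm _ (hm.pow_const 2).ennreal_ofReal.aemeasurable]
  unfold cost
  congr 1
  refine lintegral_congr fun ω => ?_
  rw [wm_lintegral hw (f := fun t => ENNReal.ofReal (vh v (t, ω) ^ 2))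
    ((hm.comp measurable_prodMk_right).pow_const 2).ennreal_ofReal]
  refine setLIntegral_congr_fun measurableSet_Icc fun t ht => ?_
  show ENNReal.ofReal (w t * v t.toNNReal ω ^ 2) =
    ENNReal.ofReal (w t) * ENNReal.ofReal (vh v (t, ω) ^ 2)
  rw [vh_eq ht, ENNReal.ofReal_mul (hw.nonneg t ht)]

/-- the integrated control -/
def II (w : ℝ → ℝ) (v : ℝ≥0 → Ω → ℝ) (ω : Ω) : ℝ := ∫ t, vh v (t, ω) ∂wm w

theorem II_eq {w : ℝ → ℝ} (hw : Wt w) (v : ℝ≥0 → Ω → ℝ) (ω : Ω) :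
    II w v ω = ∫ t in (0 : ℝ)..1, w t * v (Real.toNNReal t) ω := by
  unfold II
  rw [wm_integral hw, intervalIntegral.integral_of_le zero_le_one, ← integral_Icc_eq_integral_Ioc]
  refine setIntegral_congr_fun measurableSet_Icc fun t ht => ?_
  show w t * vh v (t, ω) = _
  rw [vh_eq ht]

theorem sm_int {Ω' : Type*} [MeasurableSpace Ω'] {f : ℝ × Ω' → ℝ} (hf : Measurable f)
    (ν : Measure ℝ) [SFinite ν] : StronglyMeasurable fun ω => ∫ t, f (t, ω) ∂ν :=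
  hf.stronglyMeasurable.integral_prod_left'

theorem measurable_II1 {𝓕 : Filtration ℝ≥0 mΩ} {w : ℝ → ℝ} (hw : Wt w) {v : ℝ≥0 → Ω → ℝ}
    (hv : IsProgressive 𝓕 v) : StronglyMeasurable[𝓕 1] (II w v) := by
  have := isFinite_wm hw
  have h := measurable_vh1 hv
  exact @sm_int Ω (𝓕 1) (vh v) h (wm w) _

theorem measurable_II {𝓕 : Filtration ℝ≥0 mΩ} {w : ℝ → ℝ} (hw : Wt w) {v : ℝ≥0 → Ω → ℝ}
    (hv : IsProgressive 𝓕 v) : StronglyMeasurable (II w v) :=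
  (measurable_II1 hw hv).mono (𝓕.le 1)

theorem memLp_II {𝓕 : Filtration ℝ≥0 mΩ} {w : ℝ → ℝ} (hw : Wt w) {v : ℝ≥0 → Ω → ℝ}
    (hv : Adm 𝓕 P w v) : MemLp (II w v) 2 P := by
  have := isFinite_wm hw
  have hL := memLp_vh hw hv
  have hi : Integrable (fun p => vh v p ^ 2) ((wm w).prod P) := hL.integrable_sq
  have hm := measurable_II hw hv.prog
  rw [memLp_two_iff_integrable_sq hm.aestronglyMeasurable]
  have h1 : Integrable (fun ω => (wm w).real univ * ∫ t, vh v (t, ω) ^ 2 ∂wm w) P :=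
    (hi.integral_prod_right).const_mul _
  refine h1.mono' (hm.aestronglyMeasurable.pow 2) ?_
  filter_upwards [hi.prod_left_ae] with ω hω
  rw [Real.norm_eq_abs, abs_of_nonneg (sq_nonneg _)]
  have hmω : Measurable fun t => vh v (t, ω) := (measurable_vh hv.prog).comp measurable_prodMk_right
  exact sq_integral_le _ ((memLp_two_iff_integrable_sq hmω.aestronglyMeasurable).2 hω)

/-- the integrated control as an element of `L2` -/
def IL {𝓕 : Filtration ℝ≥0 mΩ} {w : ℝ → ℝ} (hw : Wt w) {v : ℝ≥0 → Ω → ℝ}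
    (hv : Adm 𝓕 P w v) : Ω →₂[P] ℝ := (memLp_II hw hv).toLp _

theorem IL_coe {𝓕 : Filtration ℝ≥0 mΩ} {w : ℝ → ℝ} (hw : Wt w) {v : ℝ≥0 → Ω → ℝ}
    (hv : Adm 𝓕 P w v) : (IL hw hv : Ω → ℝ) =ᵐ[P] II w v := (memLp_II hw hv).coeFn_toLp

/-- Fubini: `⟪lam, I(v)⟫ = ∫ E[lam v_t] w(t) dt` -/
theorem inner_IL {𝓕 : Filtration ℝ≥0 mΩ} {w : ℝ → ℝ} (hw : Wt w) {v : ℝ≥0 → Ω → ℝ}
    (hv : Adm 𝓕 P w v) (x : Ω →₂[P] ℝ) :
    ⟪x, IL hw hv⟫_ℝ = ∫ t, (∫ ω, x ω * vh v (t, ω) ∂P) ∂wm w := by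
  have := isFinite_wm hw
  have hL := memLp_vh hw hv
  have hx : MemLp (fun p : ℝ × Ω => x p.2) 2 ((wm w).prod P) := (Lp.memLp x).comp_snd _
  have hi : Integrable (fun p : ℝ × Ω => x p.2 * vh v p) ((wm w).prod P) :=
    MemLp.integrable_mul hx hL
  have hi' : Integrable (Function.uncurry fun (t : ℝ) (ω : Ω) => x ω * vh v (t, ω))
      ((wm w).prod P) := hi
  rw [integral_integral_swap hi', L2.inner_def]
  refine integral_congr_ae ?_
  filter_upwards [IL_coe hw hv] with ω hω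
  rw [integral_const_mul, hω]
  simp only [RCLike.inner_apply, conj_trivial]
  rw [mul_comm]; rfl

theorem integrable_inner {𝓕 : Filtration ℝ≥0 mΩ} {w : ℝ → ℝ} (hw : Wt w) {v : ℝ≥0 → Ω → ℝ}
    (hv : Adm 𝓕 P w v) (x : Ω →₂[P] ℝ) :
    Integrable (fun t => ∫ ω, x ω * vh v (t, ω) ∂P) (wm w) := by
  have := isFinite_wm hw
  have hL := memLp_vh hw hv
  have hx : MemLp (fun p : ℝ × Ω => x p.2) 2 ((wm w).prod P) := (Lp.memLp x).comp_snd _
  have hi : Integrable (fun p : ℝ × Ω => x p.2 * vh v p) ((wm w).prod P) :=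
    MemLp.integrable_mul hx hL
  exact hi.integral_prod_left

theorem integrable_wm_of_bdd {w : ℝ → ℝ} (hw : Wt w) {f : ℝ → ℝ} (hf : Measurable f) (C : ℝ)
    (hC : ∀ t, |f t| ≤ C) : Integrable f (wm w) := by
  have := isFinite_wm hw
  exact Integrable.of_bound hf.aestronglyMeasurable C
    (Eventually.of_forall fun t => by rw [Real.norm_eq_abs]; exact hC t)

theorem bil_eq_wm (𝓕 : Filtration ℝ≥0 mΩ) {w : ℝ → ℝ} (hw : Wt w) (x y : Ω →₂[P] ℝ) :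
    (fam 𝓕 P).bil w x y = ∫ t, ⟪condPi 𝓕 P t x, y⟫_ℝ ∂wm w := by
  rw [wm_integral hw]; rfl

/-- pointwise Cauchy-Schwarz -/
theorem key_pt {𝓕 : Filtration ℝ≥0 mΩ} {v : ℝ≥0 → Ω → ℝ} (hv : IsProgressive 𝓕 v)
    {t : ℝ} (ht : t ∈ Icc (0 : ℝ) 1) (hL : MemLp (fun ω => vh v (t, ω)) 2 P)
    (x y : Ω →₂[P] ℝ) :
    ((∫ ω, y ω * vh v (t, ω) ∂P) - ⟪condPi 𝓕 P t x, y⟫_ℝ) ^ 2 ≤
      ‖y‖ ^ 2 * ((∫ ω, vh v (t, ω) ^ 2 ∂P) - 2 * (∫ ω, x ω * vh v (t, ω) ∂P) +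
        (fam 𝓕 P).q x t) := by
  set u : Ω →₂[P] ℝ := hL.toLp _ with hu
  have huc : (u : Ω → ℝ) =ᵐ[P] fun ω => vh v (t, ω) := hL.coeFn_toLp
  have hum : AEStronglyMeasurable[𝓕 t.toNNReal] (u : Ω → ℝ) P :=
    ⟨fun ω => vh v (t, ω), (vh_adapted hv ht).stronglyMeasurable, huc⟩
  have e1 : ∀ z : Ω →₂[P] ℝ, ∫ ω, z ω * vh v (t, ω) ∂P = ⟪z, u⟫_ℝ := by
    intro z
    rw [L2.inner_def]
    refine integral_congr_ae ?_
    filter_upwards [huc] with ω hω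
    simp only [RCLike.inner_apply, conj_trivial]
    rw [hω, mul_comm]
  have e2 : ∫ ω, vh v (t, ω) ^ 2 ∂P = ‖u‖ ^ 2 := by
    rw [← real_inner_self_eq_norm_sq, L2.inner_def]
    refine integral_congr_ae ?_
    filter_upwards [huc] with ω hω
    simp only [RCLike.inner_apply, conj_trivial]
    rw [hω, sq]
  have e3 : ⟪x, u⟫_ℝ = ⟪condPi 𝓕 P t x, u⟫_ℝ := (condPi_inner_of_meas 𝓕 t x u hum).symm
  rw [e1, e1, e2]
  have e4 : ‖u‖ ^ 2 - 2 * ⟪x, u⟫_ℝ + (fam 𝓕 P).q x t = ‖u - condPi 𝓕 P t x‖ ^ 2 := by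
    rw [(fam 𝓕 P).q_eq, fam_Pi, norm_sub_sq_real, real_inner_comm (condPi 𝓕 P t x) u, e3]
  rw [e4]
  have e5 : ⟪y, u⟫_ℝ - ⟪condPi 𝓕 P t x, y⟫_ℝ = ⟪y, u - condPi 𝓕 P t x⟫_ℝ := by
    rw [inner_sub_right, real_inner_comm (condPi 𝓕 P t x) y]
  rw [e5, ← mul_pow, ← sq_abs]
  exact pow_le_pow_left₀ (abs_nonneg _) (abs_real_inner_le_norm _ _) 2

/-- **the fundamental inequality** -/
theorem norm_IL_sub_sq_le {𝓕 : Filtration ℝ≥0 mΩ} {w : ℝ → ℝ} (hw : Wt w) {v : ℝ≥0 → Ω → ℝ}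
    (hv : Adm 𝓕 P w v) (x : Ω →₂[P] ℝ) :
    ‖IL hw hv - (fam 𝓕 P).op hw.isWeight x‖ ^ 2 ≤
      (∫ t in Icc (0 : ℝ) 1, w t) *
        ((fam 𝓕 P).bil w x x + cost P w v - 2 * ⟪x, IL hw hv⟫_ℝ) := by
  have := isFinite_wm hw
  have hL := memLp_vh hw hv
  have hsq : Integrable (fun p => vh v p ^ 2) ((wm w).prod P) := hL.integrable_sq
  set y := IL hw hv - (fam 𝓕 P).op hw.isWeight x with hy
  set f : ℝ → ℝ := fun t => (∫ ω, y ω * vh v (t, ω) ∂P) - ⟪condPi 𝓕 P t x, y⟫_ℝ with hf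
  set r : ℝ → ℝ := fun t => (∫ ω, vh v (t, ω) ^ 2 ∂P) - 2 * (∫ ω, x ω * vh v (t, ω) ∂P) +
        (fam 𝓕 P).q x t with hr
  have hi2 : Integrable (fun t => ⟪condPi 𝓕 P t x, y⟫_ℝ) (wm w) :=
    integrable_wm_of_bdd hw ((fam 𝓕 P).measurable_inner x y) (‖x‖ * ‖y‖)
      fun t => (fam 𝓕 P).abs_inner_le t x y
  have hi3 : Integrable ((fam 𝓕 P).q x) (wm w) :=
    integrable_wm_of_bdd hw ((fam 𝓕 P).measurable_q x) (‖x‖ ^ 2) fun t => by
      rw [abs_of_nonneg ((fam 𝓕 P).q_nonneg x t)]; exact (fam 𝓕 P).q_le x t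
  have hfi : Integrable f (wm w) := (integrable_inner hw hv y).sub hi2
  have hsq1 : Integrable (fun t => ∫ ω, vh v (t, ω) ^ 2 ∂P) (wm w) := hsq.integral_prod_left
  have hri : Integrable r (wm w) :=
    (hsq1.sub ((integrable_inner hw hv x).const_mul 2)).add hi3
  have hfr : ∀ᵐ t ∂wm w, f t ^ 2 ≤ ‖y‖ ^ 2 * r t := by
    filter_upwards [wm_ae_mem w, hsq.prod_right_ae] with t ht h2
    have hmt : Measurable fun ω => vh v (t, ω) := (measurable_vh hv.prog).comp measurable_prodMk_left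
    exact key_pt hv.prog ht ((memLp_two_iff_integrable_sq hmt.aestronglyMeasurable).2 h2) x y
  have hf2 : Integrable (fun t => f t ^ 2) (wm w) := by
    refine (hri.const_mul (‖y‖ ^ 2)).mono' (hfi.aestronglyMeasurable.pow 2) ?_
    filter_upwards [hfr] with t ht
    rw [Real.norm_eq_abs, abs_of_nonneg (sq_nonneg _)]; exact ht
  have hfL : MemLp f 2 (wm w) := (memLp_two_iff_integrable_sq hfi.aestronglyMeasurable).2 hf2
  have h1 : ∫ t, f t ∂wm w = ‖y‖ ^ 2 := by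
    rw [hf, integral_sub (integrable_inner hw hv y) hi2, ← inner_IL hw hv y, ← bil_eq_wm 𝓕 hw,
      ← (fam 𝓕 P).inner_op hw.isWeight, ← real_inner_self_eq_norm_sq,
      real_inner_comm y ((fam 𝓕 P).op hw.isWeight x), ← inner_sub_right]
  have h2 : ∫ t, r t ∂wm w = (fam 𝓕 P).bil w x x + cost P w v - 2 * ⟪x, IL hw hv⟫_ℝ := by
    have i1 : Integrable (fun t => (∫ ω, vh v (t, ω) ^ 2 ∂P) - 2 * (∫ ω, x ω * vh v (t, ω) ∂P))
        (wm w) := hsq1.sub ((integrable_inner hw hv x).const_mul 2)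
    rw [hr]
    simp only
    rw [integral_add i1 hi3,
      integral_sub hsq1 ((integrable_inner hw hv x).const_mul 2), integral_const_mul,
      ← inner_IL hw hv x, ← integral_prod _ hsq, ← cost_eq hw hv]
    have : ∫ t, (fam 𝓕 P).q x t ∂wm w = (fam 𝓕 P).bil w x x := by
      rw [bil_eq_wm 𝓕 hw]; rfl
    rw [this]; ring
  have h3 := sq_integral_le (wm w) hfL
  rw [h1, wm_real_univ hw] at h3
  have h4 : ∫ t, f t ^ 2 ∂wm w ≤ ‖y‖ ^ 2 * ∫ t, r t ∂wm w := by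
    rw [← integral_const_mul]
    exact integral_mono_ae hf2 (hri.const_mul _) hfr
  rw [h2] at h4
  set R := (fam 𝓕 P).bil w x x + cost P w v - 2 * ⟪x, IL hw hv⟫_ℝ
  have hM : 0 ≤ ∫ t in Icc (0 : ℝ) 1, w t := setIntegral_nonneg measurableSet_Icc hw.nonneg
  by_cases hy0 : ‖y‖ = 0
  · have hR : 0 ≤ ∫ t, r t ∂wm w := by
      refine integral_nonneg_of_ae ?_
      filter_upwards [wm_ae_mem w, hsq.prod_right_ae] with t ht h2
      have hmt : Measurable fun ω => vh v (t, ω) :=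
        (measurable_vh hv.prog).comp measurable_prodMk_left
      have hLt := (memLp_two_iff_integrable_sq (μ := P) hmt.aestronglyMeasurable).2 h2
      by_cases hx0 : x = 0
      · subst hx0
        have hz : ∫ ω, (0 : Ω →₂[P] ℝ) ω * vh v (t, ω) ∂P = 0 := by
          rw [integral_eq_zero_of_ae]
          filter_upwards [Lp.coeFn_zero ℝ 2 P] with ω hω
          rw [hω]; simp
        simp only [hr, hz]
        have := (fam 𝓕 P).q_nonneg (0 : Ω →₂[P] ℝ) t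
        have h9 : 0 ≤ ∫ ω, vh v (t, ω) ^ 2 ∂P := integral_nonneg fun ω => sq_nonneg _
        simp only [Pi.zero_apply]
        nlinarith
      · have hk := key_pt hv.prog ht hLt x x
        have hxp : 0 < ‖x‖ ^ 2 := by
          have := norm_pos_iff.2 hx0; positivity
        by_contra hneg
        have hneg' : r t < 0 := not_le.1 hneg
        have : ‖x‖ ^ 2 * r t < 0 := mul_neg_of_pos_of_neg hxp hneg'
        exact absurd (le_trans (sq_nonneg _) hk) (not_le.2 this)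
    rw [h2] at hR
    rw [hy0]
    have := mul_nonneg hM hR
    simpa using this
  · have hyp : 0 < ‖y‖ ^ 2 := by
      have := lt_of_le_of_ne (norm_nonneg y) (Ne.symm hy0); positivity
    have h5 : ‖y‖ ^ 2 * ‖y‖ ^ 2 ≤ ‖y‖ ^ 2 * ((∫ t in Icc (0 : ℝ) 1, w t) * R) := by
      have h6 := mul_le_mul_of_nonneg_left h4 hM
      nlinarith [h3, h6]
    exact le_of_mul_le_mul_left h5 hyp

end Crest.Agent.R146.DualC1_256
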