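import Mathlib
import Crest.Agent.R146.DualC1_256

/-!
# Row 146, package DUAL (helper256), file 3: step controls `v_t = E[lam | F_{floor(nt)/n}]`

* `stepCtl 𝓕 P n x` : the piecewise constant control;
* `adm_step`, `inner_step`, `cost_step`, and the limits
  `IL_step_tendsto : I(v^n) -> A_w lam` in `L2`, `cost_step_tendsto : cost(v^n) -> B_w(lam,lam)`.
-/

set_option autoImplicit false

noncomputable section

open MeasureTheory Set Filter Topology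
open scoped InnerProductSpace RealInnerProductSpace NNReal ENNReal

namespace Crest.Agent.R146.DualC2_256

open Crest.Agent.R146.DualQ_256 Crest.Agent.R146.DualC1_256

variable {Ω : Type*} [mΩ : MeasurableSpace Ω] {P : Measure Ω} [IsProbabilityMeasure P]

/-- the grid point `⌊n t⌋ / n` (capped at `n - 1`) -/
def grid (n : ℕ) (t : ℝ) : ℝ := (min ⌊(n : ℝ) * t⌋₊ (n - 1) : ℕ) / n

theorem grid_le (n : ℕ) {t : ℝ} (ht : 0 ≤ t) : grid n t ≤ t := by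
  unfold grid
  rcases Nat.eq_zero_or_pos n with rfl | hn
  · simpa using ht
  · have hn' : (0 : ℝ) < n := by exact_mod_cast hn
    rw [div_le_iff₀ hn']
    have h1 : ((min ⌊(n : ℝ) * t⌋₊ (n - 1) : ℕ) : ℝ) ≤ (⌊(n : ℝ) * t⌋₊ : ℝ) := by
      exact_mod_cast min_le_left _ _
    have h2 : (⌊(n : ℝ) * t⌋₊ : ℝ) ≤ n * t := Nat.floor_le (by positivity)
    linarith

theorem grid_nonneg (n : ℕ) (t : ℝ) : 0 ≤ grid n t := by unfold grid; positivity

theorem grid_le_one (n : ℕ) (t : ℝ) : grid n t ≤ 1 := by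
  unfold grid
  rcases Nat.eq_zero_or_pos n with rfl | hn
  · simp
  · have hn' : (0 : ℝ) < n := by exact_mod_cast hn
    rw [div_le_one hn']
    have : min ⌊(n : ℝ) * t⌋₊ (n - 1) ≤ n := (min_le_right _ _).trans (Nat.sub_le _ _)
    exact_mod_cast this

theorem grid_gt (n : ℕ) (hn : 0 < n) {t : ℝ} (ht1 : t < 1) :
    t - 1 / n < grid n t := by
  unfold grid
  have hn' : (0 : ℝ) < n := by exact_mod_cast hn
  by_cases h0 : 0 ≤ t
  · have h1 : ⌊(n : ℝ) * t⌋₊ ≤ n - 1 := by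
      have : ⌊(n : ℝ) * t⌋₊ < n := by
        rw [Nat.floor_lt (by positivity)]
        nlinarith
      omega
    rw [min_eq_left h1, lt_div_iff₀ hn', sub_mul, one_div, inv_mul_cancel₀ hn'.ne']
    have := Nat.lt_floor_add_one ((n : ℝ) * t)
    linarith
  · push Not at h0
    have h2 : (0 : ℝ) ≤ ((min ⌊(n : ℝ) * t⌋₊ (n - 1) : ℕ) : ℝ) / n := by positivity
    have h3 : (0 : ℝ) < 1 / n := by positivity
    linarith

theorem measurable_grid (n : ℕ) : Measurable (grid n) := by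
  unfold grid
  refine Measurable.div_const ?_ _
  refine measurable_from_nat.comp ?_
  exact (Nat.measurable_floor.comp (measurable_id.const_mul _)).min measurable_const

theorem grid_mono (n : ℕ) : Monotone (grid n) := by
  intro s t h
  unfold grid
  have hn : (0 : ℝ) ≤ n := Nat.cast_nonneg n
  refine div_le_div_of_nonneg_right ?_ hn
  have : min ⌊(n : ℝ) * s⌋₊ (n - 1) ≤ min ⌊(n : ℝ) * t⌋₊ (n - 1) :=
    min_le_min_right _ (Nat.floor_le_floor (mul_le_mul_of_nonneg_left h hn))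
  exact_mod_cast this

theorem grid_tendsto {t : ℝ} (ht : 0 ≤ t) (ht1 : t < 1) :
    Tendsto (fun n : ℕ => grid n t) atTop (𝓝 t) := by
  have h1 : Tendsto (fun n : ℕ => t - 1 / (n : ℝ)) atTop (𝓝 (t - 0)) :=
    tendsto_const_nhds.sub tendsto_one_div_atTop_nhds_zero_nat
  rw [sub_zero] at h1
  refine tendsto_of_tendsto_of_tendsto_of_le_of_le' h1 tendsto_const_nhds ?_ ?_
  · filter_upwards [eventually_gt_atTop 0] with n hn using (grid_gt n hn ht1).le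
  · exact Eventually.of_forall fun n => grid_le n ht

/-- a measurable representative of `E[x | F_{k/n}]` -/
def rep (𝓕 : Filtration ℝ≥0 mΩ) (P : Measure Ω) [IsProbabilityMeasure P] (x : Ω →₂[P] ℝ)
    (s : ℝ) : Ω → ℝ := (condPi_meas 𝓕 s x).mk

theorem rep_meas (𝓕 : Filtration ℝ≥0 mΩ) (x : Ω →₂[P] ℝ) (s : ℝ) :
    StronglyMeasurable[𝓕 s.toNNReal] (rep 𝓕 P x s) := (condPi_meas 𝓕 s x).stronglyMeasurable_mk

theorem rep_ae (𝓕 : Filtration ℝ≥0 mΩ) (x : Ω →₂[P] ℝ) (s : ℝ) :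
    (condPi 𝓕 P s x : Ω → ℝ) =ᵐ[P] rep 𝓕 P x s := (condPi_meas 𝓕 s x).ae_eq_mk

/-- the step control -/
def stepCtl (𝓕 : Filtration ℝ≥0 mΩ) (P : Measure Ω) [IsProbabilityMeasure P] (n : ℕ)
    (x : Ω →₂[P] ℝ) (t : ℝ≥0) (ω : Ω) : ℝ := rep 𝓕 P x (grid n t) ω

theorem stepCtl_eq_sum (𝓕 : Filtration ℝ≥0 mΩ) {n : ℕ} (hn : 0 < n) (x : Ω →₂[P] ℝ) (t : ℝ≥0)
    (ω : Ω) : stepCtl 𝓕 P n x t ω =
      ∑ k ∈ Finset.range n, if min ⌊(n : ℝ) * t⌋₊ (n - 1) = k then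
        rep 𝓕 P x ((k : ℝ) / n) ω else 0 := by
  rw [Finset.sum_ite_eq]
  have : min ⌊(n : ℝ) * t⌋₊ (n - 1) ∈ Finset.range n := by
    rw [Finset.mem_range]
    have := min_le_right ⌊(n : ℝ) * t⌋₊ (n - 1)
    omega
  rw [if_pos this]
  rfl

theorem prog_step (𝓕 : Filtration ℝ≥0 mΩ) {n : ℕ} (hn : 0 < n) (x : Ω →₂[P] ℝ) :
    IsProgressive 𝓕 (stepCtl 𝓕 P n x) := by
  have e : stepCtl 𝓕 P n x = fun t ω => ∑ k ∈ Finset.range n,
      (fun (k : ℕ) (t : ℝ≥0) (ω : Ω) => if min ⌊(n : ℝ) * t⌋₊ (n - 1) = k then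
        rep 𝓕 P x ((k : ℝ) / n) ω else 0) k t ω := by
    funext t ω; exact stepCtl_eq_sum 𝓕 hn x t ω
  rw [e]
  refine IsProgressive.finsetSum fun k hk => ?_
  intro i
  have hn' : (0 : ℝ) < n := by exact_mod_cast hn
  by_cases hki : (k : ℝ) / n ≤ i
  · have hm : Measurable[𝓕 i] (rep 𝓕 P x ((k : ℝ) / n)) := by
      refine ((rep_meas 𝓕 x ((k : ℝ) / n)).measurable).mono (𝓕.mono ?_) le_rfl
      rw [Real.toNNReal_le_iff_le_coe]; exact hki
    refine Measurable.ite ?_ ?_ measurable_const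
    · have h1 : Measurable fun t : Iic i => min ⌊(n : ℝ) * ((t : ℝ≥0) : ℝ)⌋₊ (n - 1) := by
        refine Measurable.min ?_ measurable_const
        exact Nat.measurable_floor.comp ((measurable_subtype_coe.coe_nnreal_real).const_mul _)
      exact (h1 (measurableSet_singleton k)).preimage measurable_fst
    · exact hm.comp measurable_snd
  · have : (fun p : Iic i × Ω => if min ⌊(n : ℝ) * ((p.1 : ℝ≥0) : ℝ)⌋₊ (n - 1) = k then
        rep 𝓕 P x ((k : ℝ) / n) p.2 else 0) = fun _ => 0 := by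
      funext p
      rw [if_neg]
      intro h
      apply hki
      have h2 : (p.1 : ℝ≥0) ≤ i := p.1.2
      have h3 : grid n ((p.1 : ℝ≥0) : ℝ) = (k : ℝ) / n := by unfold grid; rw [h]
      rw [← h3]
      exact (grid_le n (p.1 : ℝ≥0).coe_nonneg).trans (by exact_mod_cast h2)
    rw [this]
    exact measurable_const

/-- joint lower integral of the squared step control at a fixed time -/
theorem lintegral_rep_sq (𝓕 : Filtration ℝ≥0 mΩ) (x : Ω →₂[P] ℝ) (s : ℝ) :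
    ∫⁻ ω, ENNReal.ofReal (rep 𝓕 P x s ω ^ 2) ∂P = ENNReal.ofReal ((fam 𝓕 P).q x s) := by
  have hL : MemLp (condPi 𝓕 P s x : Ω → ℝ) 2 P := Lp.memLp _
  have h1 : ∫⁻ ω, ENNReal.ofReal (rep 𝓕 P x s ω ^ 2) ∂P =
      ∫⁻ ω, ENNReal.ofReal ((condPi 𝓕 P s x : Ω → ℝ) ω ^ 2) ∂P := by
    refine lintegral_congr_ae ?_
    filter_upwards [rep_ae 𝓕 x s] with ω hω
    rw [hω]
  rw [h1, ← ofReal_integral_eq_lintegral_ofReal hL.integrable_sq
    (Eventually.of_forall fun _ => sq_nonneg _)]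
  congr 1
  rw [(fam 𝓕 P).q_eq, fam_Pi, ← real_inner_self_eq_norm_sq, L2.inner_def]
  refine integral_congr_ae (Eventually.of_forall fun ω => ?_)
  simp only [RCLike.inner_apply, conj_trivial]
  rw [sq]

theorem integral_mul_rep (𝓕 : Filtration ℝ≥0 mΩ) (y x : Ω →₂[P] ℝ) (s : ℝ) :
    ∫ ω, y ω * rep 𝓕 P x s ω ∂P = ⟪condPi 𝓕 P s x, y⟫_ℝ := by
  rw [L2.inner_def]
  refine integral_congr_ae ?_
  filter_upwards [rep_ae 𝓕 x s] with ω hω
  simp only [RCLike.inner_apply, conj_trivial]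
  rw [hω]

theorem measurable_stepfun (𝓕 : Filtration ℝ≥0 mΩ) {n : ℕ} (hn : 0 < n) (x : Ω →₂[P] ℝ) :
    Measurable (vh (stepCtl 𝓕 P n x)) := measurable_vh (prog_step 𝓕 hn x)

theorem vh_step (𝓕 : Filtration ℝ≥0 mΩ) (n : ℕ) (x : Ω →₂[P] ℝ) {t : ℝ}
    (ht : t ∈ Icc (0 : ℝ) 1) (ω : Ω) :
    vh (stepCtl 𝓕 P n x) (t, ω) = rep 𝓕 P x (grid n t) ω := by
  rw [vh_eq ht]; unfold stepCtl; rw [Real.coe_toNNReal t ht.1]

theorem lcost_step (𝓕 : Filtration ℝ≥0 mΩ) {w : ℝ → ℝ} (hw : Wt w) {n : ℕ} (hn : 0 < n)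
    (x : Ω →₂[P] ℝ) :
    ∫⁻ ω, ∫⁻ t in Icc (0 : ℝ) 1,
      ENNReal.ofReal (w t * stepCtl 𝓕 P n x (Real.toNNReal t) ω ^ 2) ∂volume ∂P =
    ENNReal.ofReal (∫ t in Icc (0 : ℝ) 1, w t * (fam 𝓕 P).q x (grid n t)) := by
  have hfin := isFinite_wm hw
  have hm := measurable_stepfun 𝓕 hn x
  have hq : Measurable fun t => (fam 𝓕 P).q x (grid n t) :=
    ((fam 𝓕 P).measurable_q x).comp (measurable_grid n)
  have h1 : ∫⁻ ω, ∫⁻ t in Icc (0 : ℝ) 1,
      ENNReal.ofReal (w t * stepCtl 𝓕 P n x (Real.toNNReal t) ω ^ 2) ∂volume ∂P =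
      ∫⁻ ω, ∫⁻ t, ENNReal.ofReal (vh (stepCtl 𝓕 P n x) (t, ω) ^ 2) ∂wm w ∂P := by
    refine lintegral_congr fun ω => ?_
    rw [wm_lintegral hw (f := fun t => ENNReal.ofReal (vh (stepCtl 𝓕 P n x) (t, ω) ^ 2))
      ((hm.comp measurable_prodMk_right).pow_const 2).ennreal_ofReal]
    refine setLIntegral_congr_fun measurableSet_Icc fun t ht => ?_
    show ENNReal.ofReal (w t * stepCtl 𝓕 P n x t.toNNReal ω ^ 2) =
      ENNReal.ofReal (w t) * ENNReal.ofReal (vh (stepCtl 𝓕 P n x) (t, ω) ^ 2)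
    rw [vh_eq ht, ENNReal.ofReal_mul (hw.nonneg t ht)]
  rw [h1, lintegral_lintegral_swap
    ((hm.comp measurable_swap).pow_const 2).ennreal_ofReal.aemeasurable]
  have h2 : ∫⁻ t, ∫⁻ ω, ENNReal.ofReal (vh (stepCtl 𝓕 P n x) (t, ω) ^ 2) ∂P ∂wm w =
      ∫⁻ t, ENNReal.ofReal ((fam 𝓕 P).q x (grid n t)) ∂wm w := by
    refine lintegral_congr_ae ?_
    filter_upwards [wm_ae_mem w] with t ht
    rw [← lintegral_rep_sq 𝓕 x (grid n t)]
    refine lintegral_congr fun ω => ?_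
    rw [vh_step 𝓕 n x ht]
  have hi : Integrable (fun t => (fam 𝓕 P).q x (grid n t)) (wm w) :=
    integrable_wm_of_bdd hw hq (‖x‖ ^ 2) fun t => by
      rw [abs_of_nonneg ((fam 𝓕 P).q_nonneg x _)]; exact (fam 𝓕 P).q_le x _
  rw [h2, ← ofReal_integral_eq_lintegral_ofReal hi
    (Eventually.of_forall fun t => (fam 𝓕 P).q_nonneg x _), wm_integral hw]

theorem adm_step (𝓕 : Filtration ℝ≥0 mΩ) {w : ℝ → ℝ} (hw : Wt w) {n : ℕ} (hn : 0 < n)
    (x : Ω →₂[P] ℝ) : Adm 𝓕 P w (stepCtl 𝓕 P n x) :=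
  ⟨prog_step 𝓕 hn x, by rw [lcost_step 𝓕 hw hn x]; exact ENNReal.ofReal_lt_top⟩

theorem cost_step (𝓕 : Filtration ℝ≥0 mΩ) {w : ℝ → ℝ} (hw : Wt w) {n : ℕ} (hn : 0 < n)
    (x : Ω →₂[P] ℝ) : cost P w (stepCtl 𝓕 P n x) =
      ∫ t in Icc (0 : ℝ) 1, w t * (fam 𝓕 P).q x (grid n t) := by
  unfold cost
  rw [lcost_step 𝓕 hw hn x, ENNReal.toReal_ofReal]
  exact setIntegral_nonneg measurableSet_Icc fun t ht =>
    mul_nonneg (hw.nonneg t ht) ((fam 𝓕 P).q_nonneg x _)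

theorem inner_step (𝓕 : Filtration ℝ≥0 mΩ) {w : ℝ → ℝ} (hw : Wt w) {n : ℕ} (hn : 0 < n)
    (x : Ω →₂[P] ℝ) : ⟪x, IL hw (adm_step 𝓕 hw hn x)⟫_ℝ =
      ∫ t in Icc (0 : ℝ) 1, w t * (fam 𝓕 P).q x (grid n t) := by
  rw [inner_IL, ← wm_integral hw]
  refine integral_congr_ae ?_
  filter_upwards [wm_ae_mem w] with t ht
  have : ∫ ω, x ω * vh (stepCtl 𝓕 P n x) (t, ω) ∂P = ∫ ω, x ω * rep 𝓕 P x (grid n t) ω ∂P := by
    refine integral_congr_ae (Eventually.of_forall fun ω => ?_)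
    show x ω * vh (stepCtl 𝓕 P n x) (t, ω) = x ω * rep 𝓕 P x (grid n t) ω
    rw [vh_step 𝓕 n x ht]
  rw [this, integral_mul_rep]
  rfl

/-- convergence of the step costs -/
theorem cost_step_tendsto (𝓕 : Filtration ℝ≥0 mΩ) {w : ℝ → ℝ} (hw : Wt w) (x : Ω →₂[P] ℝ) :
    Tendsto (fun n : ℕ => ∫ t in Icc (0 : ℝ) 1, w t * (fam 𝓕 P).q x (grid n t)) atTop
      (𝓝 ((fam 𝓕 P).bil w x x)) := by
  rw [(fam 𝓕 P).bil_self]
  have hq : ∀ n : ℕ, Measurable fun t => (fam 𝓕 P).q x (grid n t) := fun n =>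
    ((fam 𝓕 P).measurable_q x).comp (measurable_grid n)
  refine tendsto_integral_of_dominated_convergence (fun t => |w t| * ‖x‖ ^ 2)
    (fun n => (hw.meas.mul (hq n)).aestronglyMeasurable) (hw.int.abs.mul_const _) ?_ ?_
  · intro n
    refine Eventually.of_forall fun t => ?_
    rw [norm_mul, Real.norm_eq_abs, Real.norm_eq_abs, abs_of_nonneg ((fam 𝓕 P).q_nonneg x _)]
    exact mul_le_mul_of_nonneg_left ((fam 𝓕 P).q_le x _) (abs_nonneg _)
  · have hc : Set.Countable {t | ¬ ContinuousAt ((fam 𝓕 P).q x) t} :=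
      ((fam 𝓕 P).q_mono x).countable_not_continuousAt
    have h1 : ∀ᵐ t ∂(volume : Measure ℝ), ContinuousAt ((fam 𝓕 P).q x) t := by
      rw [ae_iff]; exact hc.measure_zero _
    have h2 : ∀ᵐ t ∂(volume : Measure ℝ), t ≠ 1 := by
      rw [ae_iff]; simp
    filter_upwards [ae_restrict_of_ae h1, ae_restrict_of_ae h2,
      ae_restrict_mem measurableSet_Icc] with t ht ht1 hmem
    exact ((ht.tendsto).comp (grid_tendsto hmem.1 (lt_of_le_of_ne hmem.2 ht1))).const_mul _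

/-- convergence of the integrated step controls -/
theorem IL_step_tendsto (𝓕 : Filtration ℝ≥0 mΩ) {w : ℝ → ℝ} (hw : Wt w) (x : Ω →₂[P] ℝ) :
    Tendsto (fun n : ℕ => IL hw (adm_step 𝓕 hw (Nat.succ_pos n) x)) atTop
      (𝓝 ((fam 𝓕 P).op hw.isWeight x)) := by
  rw [tendsto_iff_norm_sub_tendsto_zero]
  have h0 : Tendsto (fun n : ℕ => (∫ t in Icc (0 : ℝ) 1, w t) *
      ((fam 𝓕 P).bil w x x - ∫ t in Icc (0 : ℝ) 1, w t * (fam 𝓕 P).q x (grid (n + 1) t)))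
      atTop (𝓝 0) := by
    have := ((cost_step_tendsto 𝓕 hw x).comp (tendsto_add_atTop_nat 1)).const_sub
      ((fam 𝓕 P).bil w x x)
    rw [sub_self] at this
    simpa using this.const_mul (∫ t in Icc (0 : ℝ) 1, w t)
  have hsq : ∀ n : ℕ, ‖IL hw (adm_step 𝓕 hw (Nat.succ_pos n) x) -
      (fam 𝓕 P).op hw.isWeight x‖ ^ 2 ≤ (∫ t in Icc (0 : ℝ) 1, w t) *
      ((fam 𝓕 P).bil w x x - ∫ t in Icc (0 : ℝ) 1, w t * (fam 𝓕 P).q x (grid (n + 1) t)) := by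
    intro n
    have h := norm_IL_sub_sq_le hw (adm_step 𝓕 hw (Nat.succ_pos n) x) x
    rw [inner_step 𝓕 hw (Nat.succ_pos n) x, cost_step 𝓕 hw (Nat.succ_pos n) x] at h
    refine h.trans (le_of_eq ?_)
    simp only [Nat.succ_eq_add_one]
    ring
  have hs : Tendsto (fun n : ℕ => ‖IL hw (adm_step 𝓕 hw (Nat.succ_pos n) x) -
      (fam 𝓕 P).op hw.isWeight x‖ ^ 2) atTop (𝓝 0) :=
    squeeze_zero (fun n => sq_nonneg _) hsq h0
  have := hs.sqrt
  rw [Real.sqrt_zero] at this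
  refine this.congr fun n => ?_
  rw [Real.sqrt_sq (norm_nonneg _)]

end Crest.Agent.R146.DualC2_256
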