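import Mathlib
import Crest.Agent.R146.DualC2_256

/-!
# Row 146, package DUAL (helper256), file 4: the value of the quadratic control problem

`fbk b k x = -(b/2) * (max (k - x) 0)^2`.  `Z : L2(P)` (e.g. `B_1`), `w` a weight.
* `pay f Z w v` : payoff `E f(Z + I(v)) - cost/2`;
* `QQ b k Z w x = ⟪Z-k, x⟫ + ‖x‖²/(2b) + B_w(x,x)/2`; `lam*` its minimiser on `x >= 0`;
* `pay_le` (upper bound with growth), `pay_step_tendsto` (attained in the limit by step controls);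
* `kkt : lam* = b (k - X*)_+` a.e., `X* = Z + A_w lam*`.
-/

set_option autoImplicit false

noncomputable section

open MeasureTheory Set Filter Topology
open scoped InnerProductSpace RealInnerProductSpace NNReal ENNReal

namespace Crest.Agent.R146.DualV_256

open Crest.Agent.R146.DualQ_256 Crest.Agent.R146.DualC1_256 Crest.Agent.R146.DualC2_256

variable {Ω : Type*} [mΩ : MeasurableSpace Ω] {P : Measure Ω} [IsProbabilityMeasure P]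

/-- the quadratic penalty -/
def fbk (b k x : ℝ) : ℝ := -(b / 2) * (max (k - x) 0) ^ 2

theorem fbk_nonpos {b : ℝ} (hb : 0 ≤ b) (k x : ℝ) : fbk b k x ≤ 0 := by
  unfold fbk
  have : 0 ≤ (max (k - x) 0) ^ 2 := sq_nonneg _
  nlinarith

theorem continuous_fbk (b k : ℝ) : Continuous (fbk b k) := by unfold fbk; fun_prop

theorem measurable_fbk (b k : ℝ) : Measurable (fbk b k) := (continuous_fbk b k).measurable

theorem fbk_mono {b : ℝ} (hb : 0 ≤ b) (k : ℝ) : Monotone (fbk b k) := by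
  intro x y h
  unfold fbk
  have h1 : max (k - y) 0 ≤ max (k - x) 0 := max_le_max (by linarith) le_rfl
  have h2 : (max (k - y) 0) ^ 2 ≤ (max (k - x) 0) ^ 2 :=
    pow_le_pow_left₀ (le_max_right _ _) h1 2
  nlinarith

/-- Fenchel inequality -/
theorem fbk_le {b : ℝ} (hb : 0 < b) (k x l : ℝ) (hl : 0 ≤ l) :
    fbk b k x ≤ l * (x - k) + l ^ 2 / (2 * b) := by
  unfold fbk
  rcases le_total (k - x) 0 with h | h
  · rw [max_eq_right h]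
    have h1 : 0 ≤ l * (x - k) := mul_nonneg hl (by linarith)
    have h2 : 0 ≤ l ^ 2 / (2 * b) := by positivity
    simp only [ne_eq, OfNat.ofNat_ne_zero, not_false_eq_true, zero_pow, mul_zero]
    linarith
  · rw [max_eq_left h]
    have h1 : 0 ≤ (b * (k - x) - l) ^ 2 / (2 * b) := by positivity
    have h2 : (b * (k - x) - l) ^ 2 / (2 * b) =
        b / 2 * (k - x) ^ 2 - l * (k - x) + l ^ 2 / (2 * b) := by field_simp; ring
    nlinarith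

theorem fbk_eq {b : ℝ} (hb : 0 < b) (k x : ℝ) :
    fbk b k x = (b * max (k - x) 0) * (x - k) + (b * max (k - x) 0) ^ 2 / (2 * b) := by
  unfold fbk
  rcases le_total (k - x) 0 with h | h
  · rw [max_eq_right h]; simp
  · rw [max_eq_left h]; field_simp; ring

/-- payoff -/
def pay (P : Measure Ω) (f : ℝ → ℝ) (Z : Ω → ℝ) (w : ℝ → ℝ) (v : ℝ≥0 → Ω → ℝ) : ℝ :=
  (∫ ω, f (Z ω + II w v ω) ∂P) - cost P w v / 2

/-- constants in `L2` -/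
def cst (P : Measure Ω) [IsProbabilityMeasure P] (k : ℝ) : Ω →₂[P] ℝ :=
  (memLp_const (μ := P) (p := 2) k).toLp _

theorem cst_coe (k : ℝ) : (cst P k : Ω → ℝ) =ᵐ[P] fun _ => k := MemLp.coeFn_toLp _

/-- the quadratic functional -/
def QQ (𝓕 : Filtration ℝ≥0 mΩ) (w : ℝ → ℝ) (b k : ℝ) (Z x : Ω →₂[P] ℝ) : ℝ :=
  (fam 𝓕 P).Q (1 / b) w (Z - cst P k) x

theorem QQ_def (𝓕 : Filtration ℝ≥0 mΩ) (w : ℝ → ℝ) (b k : ℝ) (Z x : Ω →₂[P] ℝ) :
    QQ 𝓕 w b k Z x = ⟪Z - cst P k, x⟫_ℝ + 1 / b / 2 * ‖x‖ ^ 2 + (fam 𝓕 P).bil w x x / 2 := rfl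

/-- the cone of nonnegative elements -/
def cone (P : Measure Ω) : Set (Ω →₂[P] ℝ) := {x | 0 ≤ x}

theorem mem_cone {x : Ω →₂[P] ℝ} : x ∈ cone P ↔ 0 ≤ᵐ[P] (x : Ω → ℝ) := by
  show (0 : Ω →₂[P] ℝ) ≤ x ↔ _; rw [Lp.coeFn_nonneg]

theorem cone_closed : IsClosed (cone P) := isClosed_le continuous_const continuous_id

theorem cone_nonempty : (cone P).Nonempty :=
  ⟨0, show (0 : Ω →₂[P] ℝ) ≤ 0 from le_refl _⟩

theorem cone_smul (r : ℝ) (hr : 0 ≤ r) (x : Ω →₂[P] ℝ) (hx : x ∈ cone P) : r • x ∈ cone P := by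
  rw [mem_cone] at *
  filter_upwards [hx, Lp.coeFn_smul r x] with ω h1 h2
  rw [h2]; exact mul_nonneg hr h1

theorem cone_add (x : Ω →₂[P] ℝ) (hx : x ∈ cone P) (y : Ω →₂[P] ℝ) (hy : y ∈ cone P) :
    x + y ∈ cone P := by
  rw [mem_cone] at *
  filter_upwards [hx, hy, Lp.coeFn_add x y] with ω h1 h2 h3
  rw [h3]; exact add_nonneg h1 h2

theorem cone_convex : Convex ℝ (cone P) := by
  intro x hx y hy a b ha hb _
  exact cone_add _ (cone_smul a ha x hx) _ (cone_smul b hb y hy)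

/-- `∫ x y dP` as an inner product -/
theorem inner_eq (x y : Ω →₂[P] ℝ) : ⟪x, y⟫_ℝ = ∫ ω, x ω * y ω ∂P := by
  rw [L2.inner_def]
  refine integral_congr_ae (Eventually.of_forall fun ω => ?_)
  simp only [RCLike.inner_apply, conj_trivial]
  rw [mul_comm]

theorem norm_sq_eq (x : Ω →₂[P] ℝ) : ‖x‖ ^ 2 = ∫ ω, x ω ^ 2 ∂P := by
  rw [← real_inner_self_eq_norm_sq, inner_eq]
  refine integral_congr_ae (Eventually.of_forall fun ω => ?_)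
  show x ω * x ω = x ω ^ 2
  ring

theorem integrable_mul (x y : Ω →₂[P] ℝ) : Integrable (fun ω => x ω * y ω) P :=
  MemLp.integrable_mul (Lp.memLp x) (Lp.memLp y)

theorem integrable_sq (x : Ω →₂[P] ℝ) : Integrable (fun ω => x ω ^ 2) P :=
  (Lp.memLp x).integrable_sq

/-- the value of the quadratic penalty on `L2` -/
def Fq (b k : ℝ) (Y : Ω →₂[P] ℝ) : ℝ := -(b / 2) * ‖Lp.posPart (cst P k - Y)‖ ^ 2

theorem continuous_Fq (b k : ℝ) : Continuous (Fq (P := P) b k) := by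
  unfold Fq
  have h : Continuous fun Y : Ω →₂[P] ℝ => Lp.posPart (cst P k - Y) :=
    Lp.continuous_posPart.comp (continuous_const.sub continuous_id)
  fun_prop

theorem posPart_coe (k : ℝ) (Y : Ω →₂[P] ℝ) :
    (Lp.posPart (cst P k - Y) : Ω → ℝ) =ᵐ[P] fun ω => max (k - Y ω) 0 := by
  filter_upwards [Lp.coeFn_posPart (cst P k - Y), Lp.coeFn_sub (cst P k) Y, cst_coe (P := P) k]
    with ω h1 h2 h3
  rw [h1, h2, Pi.sub_apply, h3]

theorem integral_fbk (b k : ℝ) (Y : Ω →₂[P] ℝ) : ∫ ω, fbk b k (Y ω) ∂P = Fq b k Y := by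
  unfold Fq fbk
  rw [norm_sq_eq, integral_const_mul]
  congr 1
  refine integral_congr_ae ?_
  filter_upwards [posPart_coe k Y] with ω h
  rw [h]

theorem integrable_fbk (b k : ℝ) (Y : Ω →₂[P] ℝ) : Integrable (fun ω => fbk b k (Y ω)) P := by
  unfold fbk
  refine Integrable.const_mul ?_ _
  refine (integrable_sq (Lp.posPart (cst P k - Y))).congr ?_
  filter_upwards [posPart_coe k Y] with ω h
  rw [h]

/-- the terminal variable as an element of `L2` -/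
theorem coe_add_IL {𝓕 : Filtration ℝ≥0 mΩ} {w : ℝ → ℝ} (hw : Wt w) {v : ℝ≥0 → Ω → ℝ}
    (hv : Adm 𝓕 P w v) {Zf : Ω → ℝ} {Z : Ω →₂[P] ℝ} (hZ : (Z : Ω → ℝ) =ᵐ[P] Zf) :
    ((Z + IL hw hv : Ω →₂[P] ℝ) : Ω → ℝ) =ᵐ[P] fun ω => Zf ω + II w v ω := by
  filter_upwards [hZ, IL_coe hw hv, Lp.coeFn_add Z (IL hw hv)] with ω h1 h2 h3
  rw [h3, Pi.add_apply, h1, h2]

theorem integral_comp_eq {𝓕 : Filtration ℝ≥0 mΩ} {w : ℝ → ℝ} (hw : Wt w) {v : ℝ≥0 → Ω → ℝ}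
    (hv : Adm 𝓕 P w v) {Zf : Ω → ℝ} {Z : Ω →₂[P] ℝ} (hZ : (Z : Ω → ℝ) =ᵐ[P] Zf) (f : ℝ → ℝ) :
    ∫ ω, f (Zf ω + II w v ω) ∂P = ∫ ω, f ((Z + IL hw hv : Ω →₂[P] ℝ) ω) ∂P := by
  refine integral_congr_ae ?_
  filter_upwards [coe_add_IL hw hv hZ] with ω h
  rw [h]

/-- **upper bound (completing the square)** -/
theorem pay_le_aux {𝓕 : Filtration ℝ≥0 mΩ} {w : ℝ → ℝ} (hw : Wt w) {v : ℝ≥0 → Ω → ℝ}
    (hv : Adm 𝓕 P w v) {Zf : Ω → ℝ} {Z : Ω →₂[P] ℝ} (hZ : (Z : Ω → ℝ) =ᵐ[P] Zf)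
    {b : ℝ} (hb : 0 < b) (k : ℝ) {x : Ω →₂[P] ℝ} (hx : x ∈ cone P) :
    pay P (fbk b k) Zf w v ≤
      ⟪Z - cst P k, x⟫_ℝ + 1 / b / 2 * ‖x‖ ^ 2 + ⟪x, IL hw hv⟫_ℝ - cost P w v / 2 := by
  unfold pay
  rw [integral_comp_eq hw hv hZ]
  have h1 : ∫ ω, fbk b k ((Z + IL hw hv : Ω →₂[P] ℝ) ω) ∂P ≤
      ∫ ω, (x ω * ((Z - cst P k) + IL hw hv : Ω →₂[P] ℝ) ω + 1 / b / 2 * x ω ^ 2) ∂P := by
    refine integral_mono_ae (integrable_fbk b k _)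
      ((integrable_mul _ _).add ((integrable_sq x).const_mul _)) ?_
    filter_upwards [mem_cone.1 hx, Lp.coeFn_add Z (IL hw hv),
      Lp.coeFn_add (Z - cst P k) (IL hw hv), Lp.coeFn_sub Z (cst P k), cst_coe (P := P) k]
      with ω h1 h2 h3 h4 h5
    have h := fbk_le hb k ((Z + IL hw hv : Ω →₂[P] ℝ) ω) (x ω) h1
    rw [h3, Pi.add_apply, h4, Pi.sub_apply, h5]
    rw [h2, Pi.add_apply] at h ⊢
    refine h.trans (le_of_eq ?_)
    field_simp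
    ring
  have h2 : ∫ ω, (x ω * ((Z - cst P k) + IL hw hv : Ω →₂[P] ℝ) ω + 1 / b / 2 * x ω ^ 2) ∂P =
      ⟪Z - cst P k, x⟫_ℝ + 1 / b / 2 * ‖x‖ ^ 2 + ⟪x, IL hw hv⟫_ℝ := by
    rw [integral_add (integrable_mul _ _) ((integrable_sq x).const_mul _), integral_const_mul,
      ← inner_eq, ← norm_sq_eq, inner_add_right, real_inner_comm x (Z - cst P k)]
    ring
  linarith

/-- **upper bound with growth** -/
theorem growth {𝓕 : Filtration ℝ≥0 mΩ} {w : ℝ → ℝ} (hw : Wt w) {v : ℝ≥0 → Ω → ℝ}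
    (hv : Adm 𝓕 P w v) {Zf : Ω → ℝ} {Z : Ω →₂[P] ℝ} (hZ : (Z : Ω → ℝ) =ᵐ[P] Zf)
    {b : ℝ} (hb : 0 < b) (k : ℝ) {x : Ω →₂[P] ℝ} (hx : x ∈ cone P) :
    ‖IL hw hv - (fam 𝓕 P).op hw.isWeight x‖ ^ 2 ≤
      2 * (∫ t in Icc (0 : ℝ) 1, w t) * (QQ 𝓕 w b k Z x - pay P (fbk b k) Zf w v) := by
  have h1 := norm_IL_sub_sq_le hw hv x
  have h2 := pay_le_aux hw hv hZ hb k hx
  rw [QQ_def]
  have hM : 0 ≤ ∫ t in Icc (0 : ℝ) 1, w t := setIntegral_nonneg measurableSet_Icc hw.nonneg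
  refine h1.trans ?_
  have h3 : (fam 𝓕 P).bil w x x + cost P w v - 2 * ⟪x, IL hw hv⟫_ℝ ≤
      2 * (⟪Z - cst P k, x⟫_ℝ + 1 / b / 2 * ‖x‖ ^ 2 + (fam 𝓕 P).bil w x x / 2 -
        pay P (fbk b k) Zf w v) := by linarith
  calc _ ≤ (∫ t in Icc (0 : ℝ) 1, w t) *
      (2 * (⟪Z - cst P k, x⟫_ℝ + 1 / b / 2 * ‖x‖ ^ 2 + (fam 𝓕 P).bil w x x / 2 -
        pay P (fbk b k) Zf w v)) := mul_le_mul_of_nonneg_left h3 hM
    _ = _ := by ring

/-- **upper bound** -/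
theorem pay_le {𝓕 : Filtration ℝ≥0 mΩ} {w : ℝ → ℝ} (hw : Wt w) {v : ℝ≥0 → Ω → ℝ}
    (hv : Adm 𝓕 P w v) {Zf : Ω → ℝ} {Z : Ω →₂[P] ℝ} (hZ : (Z : Ω → ℝ) =ᵐ[P] Zf)
    {b : ℝ} (hb : 0 < b) (k : ℝ) {x : Ω →₂[P] ℝ} (hx : x ∈ cone P) :
    pay P (fbk b k) Zf w v ≤ QQ 𝓕 w b k Z x := by
  have h2 := pay_le_aux hw hv hZ hb k hx
  rw [QQ_def]
  have h1 : 0 ≤ (fam 𝓕 P).bil w x x + cost P w v - 2 * ⟪x, IL hw hv⟫_ℝ := by
    have h3 := norm_IL_sub_sq_le hw hv x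
    have hM : 0 ≤ ∫ t in Icc (0 : ℝ) 1, w t := setIntegral_nonneg measurableSet_Icc hw.nonneg
    rcases hM.lt_or_eq with hM | hM
    · by_contra hneg
      push Not at hneg
      have : (∫ t in Icc (0 : ℝ) 1, w t) *
          ((fam 𝓕 P).bil w x x + cost P w v - 2 * ⟪x, IL hw hv⟫_ℝ) < 0 :=
        mul_neg_of_pos_of_neg hM hneg
      have h4 := sq_nonneg ‖IL hw hv - (fam 𝓕 P).op hw.isWeight x‖
      linarith
    · rw [← hM, zero_mul] at h3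
      have h4 : IL hw hv - (fam 𝓕 P).op hw.isWeight x = 0 := by
        rw [← norm_eq_zero]
        have := sq_nonneg ‖IL hw hv - (fam 𝓕 P).op hw.isWeight x‖
        exact pow_eq_zero_iff (two_ne_zero) |>.1 (le_antisymm h3 this)
      have h5 : IL hw hv = (fam 𝓕 P).op hw.isWeight x := sub_eq_zero.1 h4
      have h6 := (fam 𝓕 P).norm_op_le hw.isWeight x
      rw [← hM, zero_mul] at h6
      have h7 : (fam 𝓕 P).op hw.isWeight x = 0 := norm_eq_zero.1 (le_antisymm h6 (norm_nonneg _))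
      rw [h5, h7, inner_zero_right]
      have := (fam 𝓕 P).bil_self_nonneg hw.nonneg x
      have := cost_nonneg P w v
      linarith
  linarith

/-! ### the minimiser -/

theorem exists_lam (𝓕 : Filtration ℝ≥0 mΩ) {w : ℝ → ℝ} (hw : Wt w) {b : ℝ} (hb : 0 < b) (k : ℝ)
    (Z : Ω →₂[P] ℝ) : ∃ x ∈ cone P, ∀ y ∈ cone P, QQ 𝓕 w b k Z x ≤ QQ 𝓕 w b k Z y :=
  (fam 𝓕 P).exists_min (by positivity) hw.isWeight _ cone_closed cone_convex cone_nonempty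

/-- the minimiser -/
def lam (𝓕 : Filtration ℝ≥0 mΩ) {w : ℝ → ℝ} (hw : Wt w) {b : ℝ} (hb : 0 < b) (k : ℝ)
    (Z : Ω →₂[P] ℝ) : Ω →₂[P] ℝ := (exists_lam 𝓕 hw hb k Z).choose

theorem lam_mem (𝓕 : Filtration ℝ≥0 mΩ) {w : ℝ → ℝ} (hw : Wt w) {b : ℝ} (hb : 0 < b) (k : ℝ)
    (Z : Ω →₂[P] ℝ) : lam 𝓕 hw hb k Z ∈ cone P := (exists_lam 𝓕 hw hb k Z).choose_spec.1

theorem lam_min (𝓕 : Filtration ℝ≥0 mΩ) {w : ℝ → ℝ} (hw : Wt w) {b : ℝ} (hb : 0 < b) (k : ℝ)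
    (Z : Ω →₂[P] ℝ) : ∀ y ∈ cone P, QQ 𝓕 w b k Z (lam 𝓕 hw hb k Z) ≤ QQ 𝓕 w b k Z y :=
  (exists_lam 𝓕 hw hb k Z).choose_spec.2

/-- KKT for any minimiser: `x = b (k - X)_+`, `X = Z + A x` -/
theorem kkt {𝓕 : Filtration ℝ≥0 mΩ} {w : ℝ → ℝ} (hw : Wt w) {b : ℝ} (hb : 0 < b) (k : ℝ)
    {Z x : Ω →₂[P] ℝ} (hx : x ∈ cone P) (hmin : ∀ y ∈ cone P, QQ 𝓕 w b k Z x ≤ QQ 𝓕 w b k Z y) :
    (x : Ω → ℝ) =ᵐ[P] fun ω =>
      b * max (k - (Z + (fam 𝓕 P).op hw.isWeight x : Ω →₂[P] ℝ) ω) 0 := by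
  have hc : (0 : ℝ) ≤ 1 / b := by positivity
  set g : Ω →₂[P] ℝ := Z - cst P k with hg
  set h : Ω →₂[P] ℝ := g + (1 / b) • x + (fam 𝓕 P).op hw.isWeight x with hh
  have inner_h : ∀ y : Ω →₂[P] ℝ,
      ⟪h, y⟫_ℝ = ⟪g, y⟫_ℝ + 1 / b * ⟪x, y⟫_ℝ + (fam 𝓕 P).bil w x y := by
    intro y
    rw [hh, inner_add_left, inner_add_left, real_inner_smul_left, (fam 𝓕 P).inner_op]
  have h1 : ∀ y ∈ cone P, 0 ≤ ⟪h, y⟫_ℝ := by
    intro y hy
    rw [inner_h]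
    exact (fam 𝓕 P).dual_cone hc hw.isWeight g cone_convex cone_add hx hmin hy
  have h2 : ⟪h, x⟫_ℝ = 0 := by
    rw [inner_h, real_inner_self_eq_norm_sq]
    exact (fam 𝓕 P).compl hc hw.isWeight g cone_convex cone_smul hx hmin
  -- `h ≥ 0`
  have hneg : Lp.negPart h ∈ cone P := by
    rw [mem_cone]
    filter_upwards [Lp.coeFn_negPart_eq_max h] with ω hω
    rw [hω]; exact le_max_right _ _
  have h3 : Lp.negPart h = 0 := by
    have e : ⟪h, Lp.negPart h⟫_ℝ = -‖Lp.negPart h‖ ^ 2 := by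
      rw [inner_eq, norm_sq_eq, ← integral_neg]
      refine integral_congr_ae ?_
      filter_upwards [Lp.coeFn_negPart_eq_max h] with ω hω
      rw [hω]
      rcases le_total (h ω) 0 with h0 | h0
      · rw [max_eq_left (by linarith)]; ring
      · rw [max_eq_right (by linarith)]; ring
    have h4 := h1 _ hneg
    rw [e] at h4
    have h5 : ‖Lp.negPart h‖ ^ 2 = 0 := le_antisymm (by linarith) (sq_nonneg _)
    exact norm_eq_zero.1 (pow_eq_zero_iff two_ne_zero |>.1 h5)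
  have hpos : ∀ᵐ ω ∂P, 0 ≤ h ω := by
    filter_upwards [Lp.coeFn_negPart_eq_max h, Lp.coeFn_zero ℝ 2 P] with ω hω h0
    rw [h3, h0] at hω
    simp only [Pi.zero_apply] at hω
    have := le_max_left (-(h ω)) 0
    rw [← hω] at this
    linarith
  have hprod : ∀ᵐ ω ∂P, h ω * x ω = 0 := by
    have hi := integrable_mul h x
    rw [inner_eq] at h2
    have hnn : 0 ≤ᵐ[P] fun ω => h ω * x ω := by
      filter_upwards [hpos, mem_cone.1 hx] with ω ha hb'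
      exact mul_nonneg ha hb'
    exact (integral_eq_zero_iff_of_nonneg_ae hnn hi).1 h2
  filter_upwards [hpos, hprod, mem_cone.1 hx,
    Lp.coeFn_add (g + (1 / b) • x) ((fam 𝓕 P).op hw.isWeight x),
    Lp.coeFn_add g ((1 / b) • x), Lp.coeFn_smul (1 / b) x, Lp.coeFn_sub Z (cst P k),
    cst_coe (P := P) k, Lp.coeFn_add Z ((fam 𝓕 P).op hw.isWeight x)]
    with ω e1 e2 e3 e4 e5 e6 e7 e8 e9
  have e10 : h ω = (Z + (fam 𝓕 P).op hw.isWeight x : Ω →₂[P] ℝ) ω - k + 1 / b * x ω := by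
    rw [hh, e4, Pi.add_apply, e5, Pi.add_apply, e6, Pi.smul_apply, smul_eq_mul, hg, e7,
      Pi.sub_apply, e8, e9, Pi.add_apply]
    ring
  set X : ℝ := (Z + (fam 𝓕 P).op hw.isWeight x : Ω →₂[P] ℝ) ω
  rw [e10] at e1 e2
  simp only [Pi.zero_apply] at e3
  rcases e3.lt_or_eq with hx0 | hx0
  · have h0 : X - k + 1 / b * x ω = 0 := by
      rcases mul_eq_zero.1 e2 with h | h
      · exact h
      · exact absurd h hx0.ne'
    have h6 : 1 / b * x ω = k - X := by linarith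
    have h7 : 0 ≤ k - X := by rw [← h6]; positivity
    rw [max_eq_left h7, ← h6]
    field_simp
  · rw [← hx0] at e1 ⊢
    rw [mul_zero, add_zero] at e1
    rw [max_eq_right (by linarith), mul_zero]

/-- value at the minimiser -/
theorem Fq_min {𝓕 : Filtration ℝ≥0 mΩ} {w : ℝ → ℝ} (hw : Wt w) {b : ℝ} (hb : 0 < b) (k : ℝ)
    {Z x : Ω →₂[P] ℝ} (hx : x ∈ cone P) (hmin : ∀ y ∈ cone P, QQ 𝓕 w b k Z x ≤ QQ 𝓕 w b k Z y) :
    Fq b k (Z + (fam 𝓕 P).op hw.isWeight x) - (fam 𝓕 P).bil w x x / 2 = QQ 𝓕 w b k Z x := by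
  have hk := kkt hw hb k hx hmin
  set X : Ω →₂[P] ℝ := Z + (fam 𝓕 P).op hw.isWeight x with hX
  have h1 : Fq b k X = ⟪X - cst P k, x⟫_ℝ + 1 / b / 2 * ‖x‖ ^ 2 := by
    rw [← integral_fbk, inner_eq, norm_sq_eq, ← integral_const_mul, ← integral_add
      (integrable_mul _ _) ((integrable_sq x).const_mul _)]
    refine integral_congr_ae ?_
    filter_upwards [hk, Lp.coeFn_sub X (cst P k), cst_coe (P := P) k] with ω e1 e2 e3
    rw [e2, Pi.sub_apply, e3, fbk_eq hb k (X ω), ← e1]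
    field_simp
  have h2 : ⟪X - cst P k, x⟫_ℝ = ⟪Z - cst P k, x⟫_ℝ + (fam 𝓕 P).bil w x x := by
    have : X - cst P k = (Z - cst P k) + (fam 𝓕 P).op hw.isWeight x := by rw [hX]; abel
    rw [this, inner_add_left, (fam 𝓕 P).inner_op]
  rw [h1, h2, QQ_def]; ring

/-- the step controls of the minimiser are asymptotically optimal -/
theorem pay_step_tendsto {𝓕 : Filtration ℝ≥0 mΩ} {w : ℝ → ℝ} (hw : Wt w) {b : ℝ} (hb : 0 < b)
    (k : ℝ) {Zf : Ω → ℝ} {Z x : Ω →₂[P] ℝ} (hZ : (Z : Ω → ℝ) =ᵐ[P] Zf) (hx : x ∈ cone P)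
    (hmin : ∀ y ∈ cone P, QQ 𝓕 w b k Z x ≤ QQ 𝓕 w b k Z y) :
    Tendsto (fun n : ℕ => pay P (fbk b k) Zf w (stepCtl 𝓕 P (n + 1) x)) atTop
      (𝓝 (QQ 𝓕 w b k Z x)) := by
  rw [← Fq_min hw hb k hx hmin]
  have h1 : Tendsto (fun n : ℕ => Fq b k (Z + IL hw (adm_step 𝓕 hw (Nat.succ_pos n) x))) atTop
      (𝓝 (Fq b k (Z + (fam 𝓕 P).op hw.isWeight x))) :=
    ((continuous_Fq b k).tendsto _).comp ((IL_step_tendsto 𝓕 hw x).const_add Z)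
  have h2 := (((cost_step_tendsto 𝓕 hw x).comp (tendsto_add_atTop_nat 1)).div_const 2)
  refine (h1.sub h2).congr fun n => ?_
  unfold pay
  rw [integral_comp_eq hw (adm_step 𝓕 hw (Nat.succ_pos n) x) hZ, integral_fbk,
    cost_step 𝓕 hw (Nat.succ_pos n) x]
  rfl

end Crest.Agent.R146.DualV_256
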