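import Mathlib
import Crest.Agent.R146.DualV_256

/-!
# Row 146, package DUAL (helper256), file 5: the literal control value

For `m : OverlapProfile`, `B` a Brownian motion with measurable coordinates:
* `value_fbk` : `controlValue P B hBm (fbk b k) m = QQ .. (lam ..)` (D1);
* `value_pert_ge`, `value_pert_le` : perturbation by `h * psi` (D3);
* `value_trunc` : truncation (D4).
-/

set_option autoImplicit false

noncomputable section

open MeasureTheory Set Filter Topology ProbabilityTheory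
open scoped InnerProductSpace RealInnerProductSpace NNReal ENNReal

namespace Crest.Agent.R146.DualL_256

open Crest.ProbabilityR.Perceptron
open Crest.Agent.R146.DualQ_256 Crest.Agent.R146.DualC1_256 Crest.Agent.R146.DualC2_256
  Crest.Agent.R146.DualV_256

variable {Ω : Type*} [mΩ : MeasurableSpace Ω] {P : Measure Ω} [IsProbabilityMeasure P]

/-! ### profiles as weights -/

theorem wt_profile (m : OverlapProfile) : Wt m.toFun where
  meas := m.mono.measurable
  int := by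
    refine Measure.integrableOn_of_bounded (M := 1) (by simp) m.mono.measurable.aestronglyMeasurable
      ((ae_restrict_iff' measurableSet_Icc).2 (Eventually.of_forall fun t ht => ?_))
    rw [Real.norm_eq_abs, abs_of_nonneg (m.nonneg t ht)]; exact m.le_one t ht
  nonneg := m.nonneg

theorem mass_le_one (m : OverlapProfile) : ∫ t in Icc (0 : ℝ) 1, m.toFun t ≤ 1 := by
  calc ∫ t in Icc (0 : ℝ) 1, m.toFun t ≤ ∫ t in Icc (0 : ℝ) 1, (1 : ℝ) :=
        setIntegral_mono_on (wt_profile m).int (by simp) measurableSet_Icc m.le_one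
    _ = 1 := by simp

theorem mass_nonneg (m : OverlapProfile) : 0 ≤ ∫ t in Icc (0 : ℝ) 1, m.toFun t :=
  setIntegral_nonneg measurableSet_Icc m.nonneg

/-! ### admissibility and payoff -/

theorem adm_iff {B : ℝ≥0 → Ω → ℝ} (hBm : ∀ t, Measurable (B t)) (m : OverlapProfile)
    (v : ℝ≥0 → Ω → ℝ) :
    IsAdmissibleControl P B hBm m v ↔ Adm (brownianFiltration B hBm) P m.toFun v :=
  ⟨fun h => ⟨h.1, h.2⟩, fun h => ⟨h.prog, h.fin⟩⟩

theorem payoff_eq (B : ℝ≥0 → Ω → ℝ) (f : ℝ → ℝ) (m : OverlapProfile) (v : ℝ≥0 → Ω → ℝ) :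
    controlPayoff P B f m v = pay P f (B 1) m.toFun v := by
  unfold controlPayoff pay
  congr 1
  refine integral_congr_ae (Eventually.of_forall fun ω => ?_)
  simp only
  rw [II_eq (wt_profile m)]

/-- the set of payoffs -/
def payoffs (P : Measure Ω) (B : ℝ≥0 → Ω → ℝ) (hBm : ∀ t, Measurable (B t)) (f : ℝ → ℝ)
    (m : OverlapProfile) : Set ℝ :=
  {x | ∃ v, Adm (brownianFiltration B hBm) P m.toFun v ∧ x = pay P f (B 1) m.toFun v}

theorem controlValue_eq (B : ℝ≥0 → Ω → ℝ) (hBm : ∀ t, Measurable (B t)) (f : ℝ → ℝ)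
    (m : OverlapProfile) : controlValue P B hBm f m = sSup (payoffs P B hBm f m) := by
  unfold controlValue payoffs
  congr 1
  ext x
  constructor
  · rintro ⟨v, hv, rfl⟩; exact ⟨v, (adm_iff hBm m v).1 hv, payoff_eq B f m v⟩
  · rintro ⟨v, hv, rfl⟩; exact ⟨v, (adm_iff hBm m v).2 hv, (payoff_eq B f m v).symm⟩

theorem payoffs_nonempty (B : ℝ≥0 → Ω → ℝ) (hBm : ∀ t, Measurable (B t)) (f : ℝ → ℝ)
    (m : OverlapProfile) : (payoffs P B hBm f m).Nonempty :=
  ⟨_, _, adm_step (brownianFiltration B hBm) (wt_profile m) one_pos 0, rfl⟩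

theorem value_le {B : ℝ≥0 → Ω → ℝ} {hBm : ∀ t, Measurable (B t)} {f : ℝ → ℝ}
    {m : OverlapProfile} {C : ℝ}
    (h : ∀ v, Adm (brownianFiltration B hBm) P m.toFun v → pay P f (B 1) m.toFun v ≤ C) :
    controlValue P B hBm f m ≤ C := by
  rw [controlValue_eq]
  refine csSup_le (payoffs_nonempty B hBm f m) ?_
  rintro _ ⟨v, hv, rfl⟩
  exact h v hv

theorem le_value {B : ℝ≥0 → Ω → ℝ} {hBm : ∀ t, Measurable (B t)} {f : ℝ → ℝ}
    {m : OverlapProfile} (hb : BddAbove (payoffs P B hBm f m)) {v : ℝ≥0 → Ω → ℝ}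
    (hv : Adm (brownianFiltration B hBm) P m.toFun v) :
    pay P f (B 1) m.toFun v ≤ controlValue P B hBm f m := by
  rw [controlValue_eq]
  exact le_csSup hb ⟨v, hv, rfl⟩

/-! ### the endpoint of the Brownian motion in `L2` -/

theorem memLp_B {B : ℝ≥0 → Ω → ℝ} (hB : IsBrownianReal B P) (t : ℝ≥0) : MemLp (B t) 2 P :=
  (hB.toIsPreBrownianReal.isGaussianProcess.hasGaussianLaw_eval t).memLp_two

/-- `B_1` in `L2` -/
def ZB {B : ℝ≥0 → Ω → ℝ} (hB : IsBrownianReal B P) : Ω →₂[P] ℝ := (memLp_B hB 1).toLp _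

theorem ZB_coe {B : ℝ≥0 → Ω → ℝ} (hB : IsBrownianReal B P) : (ZB hB : Ω → ℝ) =ᵐ[P] B 1 :=
  MemLp.coeFn_toLp _

variable {B : ℝ≥0 → Ω → ℝ} (hBm : ∀ t, Measurable (B t)) (hB : IsBrownianReal B P)

/-- the optimal dual variable of a profile -/
def lamP (m : OverlapProfile) {b : ℝ} (hb : 0 < b) (k : ℝ) : Ω →₂[P] ℝ :=
  lam (brownianFiltration B hBm) (wt_profile m) hb k (ZB hB)

/-- the value `min_{x >= 0} QQ` -/
def valP (m : OverlapProfile) {b : ℝ} (hb : 0 < b) (k : ℝ) : ℝ :=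
  QQ (brownianFiltration B hBm) m.toFun b k (ZB hB) (lamP hBm hB m hb k)

/-- the optimal terminal variable `X* = B_1 + A_m lam*` -/
def XP (m : OverlapProfile) {b : ℝ} (hb : 0 < b) (k : ℝ) : Ω →₂[P] ℝ :=
  ZB hB + (fam (brownianFiltration B hBm) P).op (wt_profile m).isWeight (lamP hBm hB m hb k)

theorem lamP_mem (m : OverlapProfile) {b : ℝ} (hb : 0 < b) (k : ℝ) :
    lamP hBm hB m hb k ∈ cone P := lam_mem _ _ _ _ _

theorem lamP_min (m : OverlapProfile) {b : ℝ} (hb : 0 < b) (k : ℝ) :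
    ∀ y ∈ cone P, valP hBm hB m hb k ≤ QQ (brownianFiltration B hBm) m.toFun b k (ZB hB) y :=
  lam_min _ _ _ _ _

/-- KKT: `lam* = b (k - X*)_+` -/
theorem lamP_kkt (m : OverlapProfile) {b : ℝ} (hb : 0 < b) (k : ℝ) :
    (lamP hBm hB m hb k : Ω → ℝ) =ᵐ[P] fun ω => b * max (k - XP hBm hB m hb k ω) 0 :=
  kkt (wt_profile m) hb k (lamP_mem hBm hB m hb k) (lamP_min hBm hB m hb k)

theorem pay_le_val (m : OverlapProfile) {b : ℝ} (hb : 0 < b) (k : ℝ) {v : ℝ≥0 → Ω → ℝ}
    (hv : Adm (brownianFiltration B hBm) P m.toFun v) :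
    pay P (fbk b k) (B 1) m.toFun v ≤ valP hBm hB m hb k :=
  pay_le (wt_profile m) hv (ZB_coe hB) hb k (lamP_mem hBm hB m hb k)

include hBm hB in
theorem bdd_fbk (m : OverlapProfile) {b : ℝ} (hb : 0 < b) (k : ℝ) :
    BddAbove (payoffs P B hBm (fbk b k) m) :=
  ⟨valP hBm hB m hb k, by rintro _ ⟨v, hv, rfl⟩; exact pay_le_val hBm hB m hb k hv⟩

/-- **(D1)** the control value of the quadratic penalty -/
theorem value_fbk (m : OverlapProfile) {b : ℝ} (hb : 0 < b) (k : ℝ) :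
    controlValue P B hBm (fbk b k) m = valP hBm hB m hb k := by
  refine le_antisymm (value_le fun v hv => pay_le_val hBm hB m hb k hv) ?_
  have h := pay_step_tendsto (wt_profile m) hb k (ZB_coe hB) (lamP_mem hBm hB m hb k)
    (lamP_min hBm hB m hb k)
  exact le_of_tendsto' h fun n => le_value (bdd_fbk hBm hB m hb k)
    (adm_step (brownianFiltration B hBm) (wt_profile m) (Nat.succ_pos n) _)

/-- **(D1)** as an infimum: lower bound for the dual -/
theorem value_fbk_le (m : OverlapProfile) {b : ℝ} (hb : 0 < b) (k : ℝ) {y : Ω →₂[P] ℝ}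
    (hy : y ∈ cone P) : controlValue P B hBm (fbk b k) m ≤
      QQ (brownianFiltration B hBm) m.toFun b k (ZB hB) y := by
  rw [value_fbk hBm hB m hb k]; exact lamP_min hBm hB m hb k y hy

/-! ### perturbation -/

/-- terminal variable of a control in `L2` -/
def XV (m : OverlapProfile) {v : ℝ≥0 → Ω → ℝ}
    (hv : Adm (brownianFiltration B hBm) P m.toFun v) : Ω →₂[P] ℝ :=
  ZB hB + IL (wt_profile m) hv

theorem XV_dist (m : OverlapProfile) {b : ℝ} (hb : 0 < b) (k : ℝ) {v : ℝ≥0 → Ω → ℝ}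
    (hv : Adm (brownianFiltration B hBm) P m.toFun v) :
    ‖XV hBm hB m hv - XP hBm hB m hb k‖ ^ 2 ≤
      2 * (valP hBm hB m hb k - pay P (fbk b k) (B 1) m.toFun v) := by
  have h := growth (wt_profile m) hv (ZB_coe hB) hb k (lamP_mem hBm hB m hb k)
  have h0 := pay_le_val hBm hB m hb k hv
  unfold XV XP
  rw [add_sub_add_left_eq_sub]
  refine h.trans ?_
  have h1 := mass_le_one m
  have h2 : 0 ≤ valP hBm hB m hb k - pay P (fbk b k) (B 1) m.toFun v := by linarith
  have h3 := mul_le_mul_of_nonneg_right h1 h2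
  show 2 * (∫ t in Icc (0 : ℝ) 1, m.toFun t) *
    (valP hBm hB m hb k - pay P (fbk b k) (B 1) m.toFun v) ≤ _
  linarith

theorem integrable_psi {psi : ℝ → ℝ} (hpsi : Measurable psi) {C : ℝ} (hC : ∀ x, |psi x| ≤ C)
    (Y : Ω →₂[P] ℝ) : Integrable (fun ω => psi (Y ω)) P :=
  Integrable.of_bound (hpsi.comp_aemeasurable (Lp.aestronglyMeasurable Y).aemeasurable
    |>.aestronglyMeasurable) C (Eventually.of_forall fun ω => by
      rw [Real.norm_eq_abs]; exact hC _)

theorem pay_add (m : OverlapProfile) (b k h : ℝ) {psi : ℝ → ℝ} (hpsi : Measurable psi)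
    {C : ℝ} (hC : ∀ x, |psi x| ≤ C) {v : ℝ≥0 → Ω → ℝ}
    (hv : Adm (brownianFiltration B hBm) P m.toFun v) :
    pay P (fun x => fbk b k x + h * psi x) (B 1) m.toFun v =
      pay P (fbk b k) (B 1) m.toFun v + h * ∫ ω, psi (XV hBm hB m hv ω) ∂P := by
  unfold pay
  rw [integral_comp_eq (wt_profile m) hv (ZB_coe hB) (fun x => fbk b k x + h * psi x),
    integral_comp_eq (wt_profile m) hv (ZB_coe hB) (fbk b k),
    integral_add (integrable_fbk b k _) ((integrable_psi hpsi hC _).const_mul h),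
    integral_const_mul]
  unfold XV
  ring

theorem abs_integral_psi_le {psi : ℝ → ℝ} {C : ℝ} (hC : ∀ x, |psi x| ≤ C) (Y : Ω → ℝ) :
    |∫ ω, psi (Y ω) ∂P| ≤ C := by
  have := norm_integral_le_of_norm_le_const (μ := P) (f := fun ω => psi (Y ω)) (C := C)
    (Eventually.of_forall fun ω => by rw [Real.norm_eq_abs]; exact hC _)
  simpa using this

include hBm hB in
theorem bdd_pert (m : OverlapProfile) {b : ℝ} (hb : 0 < b) (k h : ℝ) {psi : ℝ → ℝ}
    (hpsi : Measurable psi) {C : ℝ} (hC : ∀ x, |psi x| ≤ C) :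
    BddAbove (payoffs P B hBm (fun x => fbk b k x + h * psi x) m) := by
  refine ⟨valP hBm hB m hb k + |h| * C, ?_⟩
  rintro _ ⟨v, hv, rfl⟩
  rw [pay_add hBm hB m b k h hpsi hC hv]
  have h1 := pay_le_val hBm hB m hb k hv
  have h2 : h * ∫ ω, psi (XV hBm hB m hv ω) ∂P ≤ |h| * C := by
    refine (le_abs_self _).trans ?_
    rw [abs_mul]
    exact mul_le_mul_of_nonneg_left (abs_integral_psi_le hC _) (abs_nonneg h)
  linarith

/-- convergence of `∫ psi(Y_n)` under `L2` convergence, `psi` bounded continuous -/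
theorem tendsto_integral_psi {psi : ℝ → ℝ} (hpsi : Continuous psi) {C : ℝ}
    (hC : ∀ x, |psi x| ≤ C) {Y : Ω →₂[P] ℝ} {Yn : ℕ → Ω →₂[P] ℝ}
    (hY : Tendsto Yn atTop (𝓝 Y)) :
    Tendsto (fun n => ∫ ω, psi (Yn n ω) ∂P) atTop (𝓝 (∫ ω, psi (Y ω) ∂P)) := by
  refine tendsto_of_subseq_tendsto fun ns hns => ?_
  have h1 : TendstoInMeasure P (fun n => (Yn (ns n) : Ω → ℝ)) atTop (Y : Ω → ℝ) :=
    tendstoInMeasure_of_tendsto_Lp (hY.comp hns)
  obtain ⟨ms, _, hms⟩ := h1.exists_seq_tendsto_ae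
  refine ⟨ms, ?_⟩
  refine tendsto_integral_of_dominated_convergence (fun _ => C)
    (fun n => (integrable_psi hpsi.measurable hC _).aestronglyMeasurable) (integrable_const C)
    (fun n => Eventually.of_forall fun ω => by rw [Real.norm_eq_abs]; exact hC _) ?_
  filter_upwards [hms] with ω hω
  exact (hpsi.tendsto _).comp hω

/-- **(D3) lower bound** -/
theorem value_pert_ge (m : OverlapProfile) {b : ℝ} (hb : 0 < b) (k h : ℝ) {psi : ℝ → ℝ}
    (hpsi : Continuous psi) {C : ℝ} (hC : ∀ x, |psi x| ≤ C) :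
    valP hBm hB m hb k + h * ∫ ω, psi (XP hBm hB m hb k ω) ∂P ≤
      controlValue P B hBm (fun x => fbk b k x + h * psi x) m := by
  have h1 := pay_step_tendsto (wt_profile m) hb k (ZB_coe hB) (lamP_mem hBm hB m hb k)
    (lamP_min hBm hB m hb k)
  have h2 : Tendsto (fun n : ℕ => XV hBm hB m
      (adm_step (brownianFiltration B hBm) (wt_profile m) (Nat.succ_pos n)
        (lamP hBm hB m hb k))) atTop (𝓝 (XP hBm hB m hb k)) :=
    (IL_step_tendsto (brownianFiltration B hBm) (wt_profile m) (lamP hBm hB m hb k)).const_add _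
  have h3 := h1.add ((tendsto_integral_psi hpsi hC h2).const_mul h)
  refine le_of_tendsto' h3 fun n => ?_
  rw [← pay_add hBm hB m b k h hpsi.measurable hC]
  exact le_value (bdd_pert hBm hB m hb k h hpsi.measurable hC)
    (adm_step (brownianFiltration B hBm) (wt_profile m) (Nat.succ_pos n) _)

/-- **(D3) upper bound, general modulus** -/
theorem value_pert_le (m : OverlapProfile) {b : ℝ} (hb : 0 < b) (k h : ℝ) {psi : ℝ → ℝ}
    (hpsi : Measurable psi) {C : ℝ} (hC : ∀ x, |psi x| ≤ C) {rho : ℝ}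
    (hrho : ∀ Y : Ω →₂[P] ℝ, ‖Y - XP hBm hB m hb k‖ ^ 2 ≤ 4 * |h| * C →
      |∫ ω, psi (Y ω) ∂P - ∫ ω, psi (XP hBm hB m hb k ω) ∂P| ≤ rho) :
    controlValue P B hBm (fun x => fbk b k x + h * psi x) m ≤
      valP hBm hB m hb k + h * (∫ ω, psi (XP hBm hB m hb k ω) ∂P) + |h| * rho := by
  have hC0 : 0 ≤ C := (abs_nonneg _).trans (hC 0)
  have hhC : 0 ≤ |h| * C := mul_nonneg (abs_nonneg h) hC0
  have hrho0 : 0 ≤ rho := by
    have := hrho (XP hBm hB m hb k) (by rw [sub_self, norm_zero]; nlinarith)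
    rw [sub_self, abs_zero] at this; exact this
  refine value_le fun v hv => ?_
  rw [pay_add hBm hB m b k h hpsi hC hv]
  have h0 := pay_le_val hBm hB m hb k hv
  by_cases hcase : pay P (fbk b k) (B 1) m.toFun v ≤ valP hBm hB m hb k - 2 * (|h| * C)
  · have h1 : h * ∫ ω, psi (XV hBm hB m hv ω) ∂P ≤ |h| * C := by
      refine (le_abs_self _).trans ?_
      rw [abs_mul]
      exact mul_le_mul_of_nonneg_left (abs_integral_psi_le hC _) (abs_nonneg h)
    have h2 : -(|h| * C) ≤ h * ∫ ω, psi (XP hBm hB m hb k ω) ∂P := by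
      refine le_trans ?_ (neg_abs_le _)
      rw [abs_mul]
      exact neg_le_neg (mul_le_mul_of_nonneg_left (abs_integral_psi_le hC _) (abs_nonneg h))
    have h3 := mul_nonneg (abs_nonneg h) hrho0
    linarith
  · push Not at hcase
    have h1 := XV_dist hBm hB m hb k hv
    have h2 := hrho (XV hBm hB m hv) (h1.trans (by linarith))
    have h3 : h * (∫ ω, psi (XV hBm hB m hv ω) ∂P) -
        h * (∫ ω, psi (XP hBm hB m hb k ω) ∂P) ≤ |h| * rho := by
      rw [← mul_sub]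
      refine (le_abs_self _).trans ?_
      rw [abs_mul]
      exact mul_le_mul_of_nonneg_left h2 (abs_nonneg h)
    linarith

/-- Lipschitz modulus -/
theorem lip_modulus {psi : ℝ → ℝ} {l : ℝ} (hl : ∀ x y, |psi x - psi y| ≤ l * |x - y|)
    {C : ℝ} (hC : ∀ x, |psi x| ≤ C) (X Y : Ω →₂[P] ℝ) :
    |∫ ω, psi (Y ω) ∂P - ∫ ω, psi (X ω) ∂P| ≤ l * ‖Y - X‖ := by
  have hl0 : 0 ≤ l := by
    have := (abs_nonneg _).trans (hl 1 0)
    simpa using this
  have hcont : Continuous psi := by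
    refine LipschitzWith.continuous (K := l.toNNReal) (LipschitzWith.of_dist_le_mul fun x y => ?_)
    rw [Real.dist_eq, Real.dist_eq, Real.coe_toNNReal l hl0]; exact hl x y
  have hi : ∀ Y : Ω →₂[P] ℝ, Integrable (fun ω => psi (Y ω)) P :=
    fun Y => integrable_psi hcont.measurable hC Y
  rw [← integral_sub (hi Y) (hi X)]
  have h1 : |∫ ω, (psi (Y ω) - psi (X ω)) ∂P| ≤ ∫ ω, l * |(Y - X : Ω →₂[P] ℝ) ω| ∂P := by
    refine abs_integral_le_integral_abs.trans (integral_mono_ae ((hi Y).sub (hi X)).abs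
      ((((Lp.memLp (Y - X)).integrable one_le_two).abs).const_mul l) ?_)
    filter_upwards [Lp.coeFn_sub Y X] with ω hω
    rw [hω]; exact hl _ _
  refine h1.trans ?_
  rw [integral_const_mul]
  refine mul_le_mul_of_nonneg_left ?_ hl0
  have h2 := sq_integral_le P (f := fun ω => |(Y - X : Ω →₂[P] ℝ) ω|) (Lp.memLp (Y - X)).abs
  have h3 : ∫ ω, |(Y - X : Ω →₂[P] ℝ) ω| ^ 2 ∂P = ‖Y - X‖ ^ 2 := by
    rw [norm_sq_eq]
    refine integral_congr_ae (Eventually.of_forall fun ω => ?_)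
    simp only [sq_abs]
  rw [h3, probReal_univ, one_mul] at h2
  have h4 : 0 ≤ ∫ ω, |(Y - X : Ω →₂[P] ℝ) ω| ∂P := integral_nonneg fun ω => abs_nonneg _
  exact (abs_le_of_sq_le_sq' h2 (norm_nonneg _)).2

/-- **(D3) upper bound, Lipschitz observable** -/
theorem value_pert_le_lip (m : OverlapProfile) {b : ℝ} (hb : 0 < b) (k h : ℝ) {psi : ℝ → ℝ}
    {l : ℝ} (hl : ∀ x y, |psi x - psi y| ≤ l * |x - y|) {C : ℝ} (hC : ∀ x, |psi x| ≤ C) :
    controlValue P B hBm (fun x => fbk b k x + h * psi x) m ≤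
      valP hBm hB m hb k + h * (∫ ω, psi (XP hBm hB m hb k ω) ∂P) +
        |h| * (l * Real.sqrt (4 * |h| * C)) := by
  have hl0 : 0 ≤ l := by
    have := (abs_nonneg _).trans (hl 1 0)
    simpa using this
  have hcont : Continuous psi := by
    refine LipschitzWith.continuous (K := l.toNNReal) (LipschitzWith.of_dist_le_mul fun x y => ?_)
    rw [Real.dist_eq, Real.dist_eq, Real.coe_toNNReal l hl0]; exact hl x y
  refine value_pert_le hBm hB m hb k h hcont.measurable hC fun Y hY => ?_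
  refine (lip_modulus hl hC _ _).trans (mul_le_mul_of_nonneg_left ?_ hl0)
  exact Real.le_sqrt_of_sq_le hY

end Crest.Agent.R146.DualL_256
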