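import Crest.Agent.R146.PtS4_489
import Crest.Agent.R146.PtScalA_45
import Crest.Agent.R146.StepDef_791

/-!
Row 146, package PT, task 73 (helper489), part S4b: the limit of the scalar functions of a sequence
of step data `A n : SD` converging to a profile `P : Prof` (PtScalA_45), in the form consumed by
`PtScalB_45.tip_full`.
-/

set_option autoImplicit false

namespace Crest.Agent.R146.PtS4b_489

open Set MeasureTheory Filter Topology
open Crest.Agent.R146.PtS4_489 Crest.Agent.R146.PtScalA_45 Crest.Agent.R146.StepDef_791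

noncomputable section

theorem measurable_mrc : ∀ (T : ℝ) (cs : Cells), Measurable (mrc T cs)
  | T, [] => by
      have : mrc T [] = fun _ => (0 : ℝ) := by funext t; rfl
      rw [this]; exact measurable_const
  | T, c :: cs => by
      have : mrc T (c :: cs) = fun t => if c.1 ≤ t then (if t < T then c.2 else 0)
          else mrc c.1 cs t := by funext t; rfl
      rw [this]
      refine Measurable.ite (measurableSet_le measurable_const measurable_id) ?_
        (measurable_mrc c.1 cs)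
      exact Measurable.ite (measurableSet_lt measurable_id measurable_const) measurable_const
        measurable_const

theorem measurable_m (A : SD) : Measurable A.m := measurable_mrc A.T A.cs

theorem measurable_b (A : SD) (h : Clock A) : Measurable A.b :=
  (measurable_m A).div h.D_cont.measurable

theorem E_t {A : SD} (h : Clock A) {t : ℝ} (ht : t ∈ Ico 0 A.T) :
    HasDerivWithinAt A.E (A.b t * A.E t) (Ici t) t := by
  have h1 := (h.D_t t ht).inv (A.D_pos t).ne'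
  have h2 : A.E = A.D⁻¹ := by funext s; rfl
  rw [h2]
  refine h1.congr_deriv ?_
  simp only [SD.b, Pi.inv_apply, neg_neg]
  have := (A.D_pos t).ne'
  field_simp

theorem E_cont {A : SD} (h : Clock A) : Continuous A.E :=
  h.D_cont.inv₀ fun t => (A.D_pos t).ne'

/-- hypotheses on a sequence of step data with limit profile `P` -/
structure Appr (P : Prof) (A : ℕ → SD) (x0 : ℝ) (p : ℕ → ℝ → ℝ → ℝ) (L0 C0 : ℝ → ℝ) : Prop where
  clk : ∀ n, Clock (A n)
  scal : ∀ n, Scal (A n) x0 (p n)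
  T1 : ∀ q : ℝ, q < 1 → ∀ᶠ n in atTop, q < (A n).T
  /-- convergence of the profiles -/
  DL : ∀ q ∈ Ioo (0 : ℝ) 1, TendstoUniformlyOn (fun n => (A n).D) P.D atTop (Icc 0 q)
  /-- convergence of the weights -/
  mL : ∀ᵐ t ∂(volume : Measure ℝ), t ∈ Ico (0 : ℝ) 1 → Tendsto (fun n => (A n).m t) atTop (𝓝 (P.m t))
  mb : ∀ q ∈ Ioo (0 : ℝ) 1, ∃ B : ℝ, ∀ᶠ n in atTop, ∀ t ∈ Icc 0 q, (A n).m t ≤ B
  /-- bounds of the scalars -/
  Nb : ∀ q ∈ Ioo (0 : ℝ) 1, ∃ B : ℝ, ∀ᶠ n in atTop, ∀ t ∈ Icc 0 q, |Ns (A n) x0 (p n) t| ≤ B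
  Tb : ∀ n, ∀ t ∈ Icc 0 (A n).T, 0 ≤ Ts (A n) x0 (p n) t
  Qb : ∀ n, ∀ t ∈ Icc 0 (A n).T, 0 ≤ Qs (A n) x0 (p n) t
  TQb : ∀ n, ∀ t ∈ Icc 0 (A n).T, Ts (A n) x0 (p n) t + Qs (A n) x0 (p n) t ≤ 1
  Zb : ∀ n, ∀ t ∈ Icc 0 (A n).T, |Zs (A n) x0 (p n) t| ≤ 1
  /-- convergence of the two Hilbert scalars -/
  LL : ∀ t ∈ Ico (0 : ℝ) 1, Tendsto (fun n => Lams (A n) x0 (p n) t) atTop (𝓝 (L0 t))
  CL : ∀ t ∈ Ico (0 : ℝ) 1, Tendsto (fun n => Cs (A n) x0 (p n) t) atTop (𝓝 (C0 t))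

theorem D_contOn (P : Prof) : ContinuousOn P.D (Icc 0 1) := by
  have h1 : ContinuousOn (fun x => P.d + ∫ y in x..1, P.m y) (Icc 0 1) := by
    refine continuousOn_const.add ?_
    have h2 : ContinuousOn (fun x => ∫ y in (1 : ℝ)..x, P.m y) (uIcc 1 0) :=
      intervalIntegral.continuousOn_primitive_interval' P.int.symm (by simp)
    rw [uIcc_of_ge zero_le_one] at h2
    refine h2.neg.congr fun x _ => ?_
    show (∫ y in x..1, P.m y) = -∫ y in (1 : ℝ)..x, P.m y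
    rw [intervalIntegral.integral_symm]
  exact h1

/-- inverse of a uniformly convergent sequence with positive limit on a compact interval -/
theorem inv_unif {q : ℝ} {F : ℕ → ℝ → ℝ} {f : ℝ → ℝ}
    (hF : TendstoUniformlyOn F f atTop (Icc 0 q)) (hf : ContinuousOn f (Icc 0 q))
    (hpos : ∀ x ∈ Icc 0 q, 0 < f x) (hq : 0 ≤ q) (hFpos : ∀ n x, 0 < F n x) :
    TendstoUniformlyOn (fun n x => (F n x)⁻¹) (fun x => (f x)⁻¹) atTop (Icc 0 q) ∧
      ∃ B, ∀ᶠ n in atTop, ∀ x ∈ Icc 0 q, (F n x)⁻¹ ≤ B := by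
  obtain ⟨x0, hx0, hmin⟩ := isCompact_Icc.exists_isMinOn ⟨0, le_rfl, hq⟩ hf
  set c := f x0 with hc
  have hc0 : 0 < c := hpos x0 hx0
  have hcf : ∀ x ∈ Icc 0 q, c ≤ f x := fun x hx => hmin hx
  rw [Metric.tendstoUniformlyOn_iff] at hF
  have h1 : ∀ᶠ n in atTop, ∀ x ∈ Icc 0 q, c / 2 ≤ F n x := by
    filter_upwards [hF (c / 2) (by positivity)] with n hn x hx
    have := hn x hx
    rw [Real.dist_eq, abs_lt] at this
    linarith [hcf x hx]
  refine ⟨?_, 2 / c, ?_⟩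
  · rw [Metric.tendstoUniformlyOn_iff]
    intro ε hε
    filter_upwards [hF (ε * (c * c / 2)) (by positivity), h1] with n hn h1n x hx
    have a1 := hn x hx
    have a2 := h1n x hx
    have a3 := hcf x hx
    rw [Real.dist_eq] at a1 ⊢
    have hF0 := hFpos n x
    have hf0 := hpos x hx
    rw [inv_sub_inv hf0.ne' hF0.ne', abs_div, div_lt_iff₀ (by positivity), abs_sub_comm]
    have a4 : c * c / 2 ≤ |f x * F n x| := by
      rw [abs_of_pos (mul_pos hf0 hF0)]
      have : c * (c / 2) ≤ f x * F n x := mul_le_mul a3 a2 (by positivity) hf0.le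
      linarith
    exact a1.trans_le (mul_le_mul_of_nonneg_left a4 hε.le)
  · filter_upwards [h1] with n hn x hx
    have a2 := hn x hx
    rw [inv_le_comm₀ (hFpos n x) (by positivity)]
    calc (2 / c)⁻¹ = c / 2 := by rw [inv_div]
      _ ≤ F n x := a2

namespace Appr

variable {P : Prof} {A : ℕ → SD} {x0 : ℝ} {p : ℕ → ℝ → ℝ → ℝ} {L0 C0 : ℝ → ℝ}

theorem seq (h : Appr P A x0 p L0 C0) (hpos : ∀ t ∈ Ico (0 : ℝ) 1, 0 < P.D t) :
    Seq (fun t => (P.D t)⁻¹) (fun t => P.m t / P.D t) L0 C0 (fun n => (A n).E) (fun n => (A n).b)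
      (fun n => Ts (A n) x0 (p n)) (fun n => Qs (A n) x0 (p n))
      (fun n t => Ns (A n) x0 (p n) t - 2 * (A n).b t * Zs (A n) x0 (p n) t)
      (fun n => Lams (A n) x0 (p n)) (fun n => Cs (A n) x0 (p n)) := by
  have hDc : ContinuousOn P.D (Ico 0 1) := (D_contOn P).mono Ico_subset_Icc_self
  have hinv : ∀ q ∈ Ioo (0 : ℝ) 1, TendstoUniformlyOn (fun n => (A n).E)
      (fun t => (P.D t)⁻¹) atTop (Icc 0 q) ∧
      ∃ B, ∀ᶠ n in atTop, ∀ x ∈ Icc 0 q, (A n).E x ≤ B := by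
    intro q hq
    exact inv_unif (h.DL q hq) (hDc.mono fun x hx => ⟨hx.1, hx.2.trans_lt hq.2⟩)
      (fun x hx => hpos x ⟨hx.1, hx.2.trans_lt hq.2⟩) hq.1.le fun n x => (A n).D_pos x
  refine ⟨?_, ?_, ?_, fun q hq => (hinv q hq).1, ?_, h.LL, h.CL⟩
  · intro q hq
    obtain ⟨BE, hBE⟩ := (hinv q hq).2
    obtain ⟨Bm, hBm⟩ := h.mb q hq
    obtain ⟨BN, hBN⟩ := h.Nb q hq
    refine ⟨max (max BE 1) (max (|Bm| * |BE|) (|BN| + 2 * (|Bm| * |BE|))), ?_⟩
    filter_upwards [hBE, hBm, hBN, h.T1 q hq.2] with n hE hm hN hT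
    have hsub : Icc 0 q ⊆ Icc 0 (A n).T := Icc_subset_Icc_right hT.le
    have hsc := h.scal n
    have hb : ∀ t ∈ Ico 0 q, |(A n).b t| ≤ |Bm| * |BE| := by
      intro t ht
      have ht' : t ∈ Icc 0 q := ⟨ht.1, ht.2.le⟩
      have e1 : (A n).b t = (A n).m t * (A n).E t := by
        unfold SD.b SD.E; rw [div_eq_mul_inv]
      rw [e1, abs_mul]
      refine mul_le_mul ?_ ?_ (abs_nonneg _) (abs_nonneg _)
      · rw [abs_of_nonneg ((A n).m_nonneg t)]
        exact (hm t ht').trans (le_abs_self _)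
      · rw [abs_of_pos ((A n).E_pos t)]
        exact (hE t ht').trans (le_abs_self _)
    refine ⟨(E_cont (h.clk n)).continuousOn, hsc.cont.1.mono hsub, hsc.cont.2.1.mono hsub,
      fun t ht => (hsc.Lams_t t (hsub ht)).continuousWithinAt.mono hsub,
      fun t ht => (hsc.Cs_t t (hsub ht)).continuousWithinAt.mono hsub,
      (measurable_b (A n) (h.clk n)).aestronglyMeasurable, fun t ht => ?_, fun t ht => ?_⟩
    · have ht' : t ∈ Icc 0 q := ⟨ht.1, ht.2.le⟩
      have htT : t ∈ Ico 0 (A n).T := ⟨ht.1, ht.2.trans hT⟩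
      have hbt := hb t ht
      have hZ := h.Zb n t (hsub ht')
      refine ⟨?_, hbt.trans ((le_max_left _ _).trans (le_max_right _ _)), E_t (h.clk n) htT,
        hsc.Ts_t t htT, hsc.Qs_t t htT, ?_, ?_⟩
      · have e1 : |2 * (A n).b t * Zs (A n) x0 (p n) t| ≤ 2 * (|Bm| * |BE|) := by
          rw [abs_mul, abs_mul, abs_of_pos (two_pos (α := ℝ))]
          have : 2 * |(A n).b t| * |Zs (A n) x0 (p n) t| ≤ 2 * (|Bm| * |BE|) * 1 :=
            mul_le_mul (by linarith) hZ (abs_nonneg _) (by positivity)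
          linarith
        calc |Ns (A n) x0 (p n) t - 2 * (A n).b t * Zs (A n) x0 (p n) t| ≤
              |Ns (A n) x0 (p n) t| + |2 * (A n).b t * Zs (A n) x0 (p n) t| := abs_sub _ _
          _ ≤ |BN| + 2 * (|Bm| * |BE|) := add_le_add ((hN t ht').trans (le_abs_self _)) e1
          _ ≤ _ := (le_max_right _ _).trans (le_max_right _ _)
      · refine ((hsc.Lams_t t (hsub ht')).mono_of_mem_nhdsWithin ?_)
        rw [mem_nhdsWithin]
        exact ⟨Iio (A n).T, isOpen_Iio, htT.2, fun y hy => ⟨htT.1.trans hy.2, hy.1.le⟩⟩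
      · refine ((hsc.Cs_t t (hsub ht')).mono_of_mem_nhdsWithin ?_)
        rw [mem_nhdsWithin]
        exact ⟨Iio (A n).T, isOpen_Iio, htT.2, fun y hy => ⟨htT.1.trans hy.2, hy.1.le⟩⟩
    · have t1 := h.Tb n t (hsub ht)
      have t2 := h.Qb n t (hsub ht)
      have t3 := h.TQb n t (hsub ht)
      have hmax : (1 : ℝ) ≤ max (max BE 1) (max (|Bm| * |BE|) (|BN| + 2 * (|Bm| * |BE|))) :=
        (le_max_right _ _).trans (le_max_left _ _)
      refine ⟨?_, ?_, ?_⟩
      · rw [abs_of_nonneg t1]; linarith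
      · rw [abs_of_nonneg t2]; linarith
      · rw [abs_of_pos ((A n).E_pos t)]
        exact (hE t ht).trans ((le_max_left _ _).trans (le_max_left _ _))
  · exact hDc.inv₀ fun t ht => (hpos t ht).ne'
  · exact fun t ht => inv_pos.2 (hpos t ht)
  · filter_upwards [h.mL] with t ht ht'
    have hq : (t + 1) / 2 ∈ Ioo (0 : ℝ) 1 := ⟨by linarith [ht'.1], by linarith [ht'.2]⟩
    exact (ht ht').div ((h.DL _ hq).tendsto_at ⟨ht'.1, by linarith [ht'.2]⟩) (hpos t ht').ne'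

/-- **The limit system** in the form of `PtScalB_45.tip_full`. -/
theorem limit (h : Appr P A x0 p L0 C0) (hpos : ∀ t ∈ Ico (0 : ℝ) 1, 0 < P.D t) :
    ∃ T S : ℝ → ℝ, ContinuousOn T (Ico 0 1) ∧ ContinuousOn S (Ico 0 1) ∧
      (∀ q ∈ Ioo (0 : ℝ) 1, TendstoUniformlyOn (fun n => Ts (A n) x0 (p n)) T atTop (Icc 0 q)) ∧
      (∀ q ∈ Ioo (0 : ℝ) 1,
        TendstoUniformlyOn (fun n => Qs (A n) x0 (p n)) (fun t => S t - T t) atTop (Icc 0 q)) ∧
      (∀ t ∈ Ico (0 : ℝ) 1, 0 ≤ T t) ∧ (∀ t ∈ Ico (0 : ℝ) 1, T t ≤ S t) ∧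
      (∀ t ∈ Ico (0 : ℝ) 1, S t ≤ 1) ∧
      (∀ x y : ℝ, 0 ≤ x → x ≤ y → y < 1 → L0 y - L0 x = ∫ z in x..y, T z / (P.D z) ^ 2) ∧
      (∀ x y : ℝ, 0 ≤ x → x ≤ y → y < 1 → C0 x - C0 y = ∫ z in x..y, (S z - T z) / P.D z) ∧
      (∀ t ∈ Ico (0 : ℝ) 1,
        S t / P.D t = S 0 / P.D 0 + ∫ s in (0 : ℝ)..t, P.m s * T s / (P.D s) ^ 2) := by
  obtain ⟨T, Q, hTc, hQc, hT, hQ, hL, hC, hR⟩ := (h.seq hpos).limit
  have hev : ∀ t ∈ Ico (0 : ℝ) 1, ∀ᶠ n in atTop, t ∈ Icc 0 (A n).T := by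
    intro t ht
    filter_upwards [h.T1 t ht.2] with n hn using ⟨ht.1, hn.le⟩
  have hqq : ∀ t ∈ Ico (0 : ℝ) 1, (t + 1) / 2 ∈ Ioo (0 : ℝ) 1 ∧ t ∈ Icc 0 ((t + 1) / 2) :=
    fun t ht => ⟨⟨by linarith [ht.1], by linarith [ht.2]⟩, ⟨ht.1, by linarith [ht.2]⟩⟩
  have hTl : ∀ t ∈ Ico (0 : ℝ) 1, Tendsto (fun n => Ts (A n) x0 (p n) t) atTop (𝓝 (T t)) :=
    fun t ht => (hT _ (hqq t ht).1).tendsto_at (hqq t ht).2
  have hQl : ∀ t ∈ Ico (0 : ℝ) 1, Tendsto (fun n => Qs (A n) x0 (p n) t) atTop (𝓝 (Q t)) :=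
    fun t ht => (hQ _ (hqq t ht).1).tendsto_at (hqq t ht).2
  refine ⟨T, fun t => T t + Q t, hTc, hTc.add hQc, hT, ?_, ?_, ?_, ?_, ?_, ?_, ?_⟩
  · intro q hq
    refine (hQ q hq).congr_right fun t _ => ?_
    simp
  · intro t ht
    refine ge_of_tendsto (hTl t ht) ?_
    filter_upwards [hev t ht] with n hn using h.Tb n t hn
  · intro t ht
    have : 0 ≤ Q t := by
      refine ge_of_tendsto (hQl t ht) ?_
      filter_upwards [hev t ht] with n hn using h.Qb n t hn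
    show T t ≤ T t + Q t
    linarith
  · intro t ht
    refine le_of_tendsto ((hTl t ht).add (hQl t ht)) ?_
    filter_upwards [hev t ht] with n hn using h.TQb n t hn
  · intro x y hx hxy hy
    rw [hL x y hx hxy hy]
    refine intervalIntegral.integral_congr fun z _ => ?_
    simp only [div_eq_mul_inv]
    ring
  · intro x y hx hxy hy
    rw [hC x y hx hxy hy]
    refine intervalIntegral.integral_congr fun z _ => ?_
    simp only [div_eq_mul_inv, add_sub_cancel_left]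
    ring
  · intro t ht
    have e1 := hR 0 t le_rfl ht.1 ht.2
    have e2 : ∫ z in (0 : ℝ)..t, P.m z / P.D z * (P.D z)⁻¹ * T z =
        ∫ s in (0 : ℝ)..t, P.m s * T s / (P.D s) ^ 2 := by
      refine intervalIntegral.integral_congr fun z _ => ?_
      simp only [div_eq_mul_inv, inv_pow]
      ring
    rw [e2] at e1
    rw [← e1]
    simp only [div_eq_mul_inv]
    ring

end Appr

/-- the limit `T` is determined by `L0` -/
theorem T_unique {P : Prof} (hpos : ∀ t ∈ Ico (0 : ℝ) 1, 0 < P.D t) {L0 T T' : ℝ → ℝ}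
    (hT : ContinuousOn T (Ico 0 1)) (hT' : ContinuousOn T' (Ico 0 1))
    (h : ∀ x y : ℝ, 0 ≤ x → x ≤ y → y < 1 → L0 y - L0 x = ∫ z in x..y, T z / (P.D z) ^ 2)
    (h' : ∀ x y : ℝ, 0 ≤ x → x ≤ y → y < 1 → L0 y - L0 x = ∫ z in x..y, T' z / (P.D z) ^ 2) :
    ∀ t ∈ Ico (0 : ℝ) 1, T t = T' t := by
  have hDc : ContinuousOn P.D (Ico 0 1) := (D_contOn P).mono Ico_subset_Icc_self
  -- the difference has zero integrals
  set F : ℝ → ℝ := fun z => T z / (P.D z) ^ 2 - T' z / (P.D z) ^ 2 with hF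
  have hFc : ContinuousOn F (Ico 0 1) := by
    have h2 : ∀ z ∈ Ico (0 : ℝ) 1, (P.D z) ^ 2 ≠ 0 := fun z hz => (pow_pos (hpos z hz) 2).ne'
    exact (hT.div (hDc.pow 2) h2).sub (hT'.div (hDc.pow 2) h2)
  have hint : ∀ x y : ℝ, 0 ≤ x → x ≤ y → y < 1 → ∫ z in x..y, F z = 0 := by
    intro x y hx hxy hy
    have hsub : uIcc x y ⊆ Ico 0 1 := by
      rw [uIcc_of_le hxy]
      exact fun z hz => ⟨hx.trans hz.1, hz.2.trans_lt hy⟩
    have h2 : ∀ z ∈ Ico (0 : ℝ) 1, (P.D z) ^ 2 ≠ 0 := fun z hz => (pow_pos (hpos z hz) 2).ne'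
    have i1 : IntervalIntegrable (fun z => T z / (P.D z) ^ 2) volume x y :=
      ((hT.div (hDc.pow 2) h2).mono hsub).intervalIntegrable
    have i2 : IntervalIntegrable (fun z => T' z / (P.D z) ^ 2) volume x y :=
      ((hT'.div (hDc.pow 2) h2).mono hsub).intervalIntegrable
    have e3 : ∫ z in x..y, F z = (∫ z in x..y, T z / (P.D z) ^ 2) -
        ∫ z in x..y, T' z / (P.D z) ^ 2 := intervalIntegral.integral_sub i1 i2
    rw [e3, ← h x y hx hxy hy, ← h' x y hx hxy hy, sub_self]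
  have hzero : ∀ t ∈ Ioo (0 : ℝ) 1, F t = 0 := by
    intro t ht
    have hd : HasDerivAt (fun y => ∫ z in (0 : ℝ)..y, F z) (F t) t := by
      refine intervalIntegral.integral_hasDerivAt_right ?_ ?_ ?_
      · refine (hFc.mono ?_).intervalIntegrable
        rw [uIcc_of_le ht.1.le]
        exact fun z hz => ⟨hz.1, hz.2.trans_lt ht.2⟩
      · exact ContinuousOn.stronglyMeasurableAtFilter isOpen_Ioo
          (hFc.mono Ioo_subset_Ico_self) t ht
      · exact (hFc.mono Ioo_subset_Ico_self).continuousAt (isOpen_Ioo.mem_nhds ht)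
    have hd0 : HasDerivAt (fun y => ∫ z in (0 : ℝ)..y, F z) 0 t := by
      refine (hasDerivAt_const t (0 : ℝ)).congr_of_eventuallyEq ?_
      filter_upwards [isOpen_Ioo.mem_nhds ht] with y hy
      exact hint 0 y le_rfl hy.1.le hy.2
    exact hd.unique hd0
  have hTT : ∀ t ∈ Ioo (0 : ℝ) 1, T t = T' t := by
    intro t ht
    have h1 := hzero t ht
    rw [hF] at h1
    have h2 : (P.D t) ^ 2 ≠ 0 := (pow_pos (hpos t ⟨ht.1.le, ht.2⟩) 2).ne'
    have h3 : T t / (P.D t) ^ 2 = T' t / (P.D t) ^ 2 := sub_eq_zero.1 h1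
    exact (div_left_inj' h2).1 h3
  intro t ht
  rcases eq_or_lt_of_le ht.1 with h0 | h0
  · -- by continuity at `0`
    rw [← h0]
    have h1 : Tendsto T (𝓝[Ioo 0 1] 0) (𝓝 (T 0)) :=
      (hT 0 ⟨le_rfl, one_pos⟩).mono_left (nhdsWithin_mono _ Ioo_subset_Ico_self)
    have h2 : Tendsto T' (𝓝[Ioo 0 1] 0) (𝓝 (T' 0)) :=
      (hT' 0 ⟨le_rfl, one_pos⟩).mono_left (nhdsWithin_mono _ Ioo_subset_Ico_self)
    have hne : (𝓝[Ioo (0 : ℝ) 1] 0).NeBot := by
      rw [← mem_closure_iff_nhdsWithin_neBot, closure_Ioo zero_ne_one]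
      exact ⟨le_rfl, zero_le_one⟩
    refine tendsto_nhds_unique h1 (h2.congr' ?_)
    filter_upwards [self_mem_nhdsWithin] with y hy using (hTT y hy).symm
  · exact hTT t ⟨h0, ht.2⟩

/-- quasi-convexity of a function whose right derivative is `G / g` with `G` nondecreasing. -/
theorem qc_step {a b : ℝ} {T K g : ℝ → ℝ} (hc : ContinuousOn T (Icc a b))
    (hd : ∀ t ∈ Ico a b, HasDerivWithinAt T (K t) (Ici t) t) (hg : ∀ t ∈ Ico a b, 0 < g t)
    (hm : MonotoneOn (fun t => K t * g t) (Ico a b)) {x y z : ℝ} (hx : a ≤ x) (hxy : x ≤ y)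
    (hyz : y ≤ z) (hz : z ≤ b) : T y ≤ max (T x) (T z) := by
  rcases eq_or_lt_of_le hyz with h1 | h1
  · rw [h1]; exact le_max_right _ _
  have hyI : y ∈ Ico a b := ⟨hx.trans hxy, h1.trans_le hz⟩
  rcases le_or_gt (K y) 0 with h2 | h2
  · -- nonincreasing on `[x, y]`
    refine le_max_of_le_left ?_
    have h3 : ∀ t ∈ Ico x y, K t ≤ 0 := by
      intro t ht
      have htI : t ∈ Ico a b := ⟨hx.trans ht.1, ht.2.trans hyI.2⟩
      have h4 := hm htI hyI ht.2.le
      simp only at h4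
      have h5 : K y * g y ≤ 0 := mul_nonpos_of_nonpos_of_nonneg h2 (hg y hyI).le
      by_contra hcon
      push Not at hcon
      have := mul_pos hcon (hg t htI)
      linarith
    have h4 : ∀ s ∈ Icc x y, T s ≤ T x := by
      refine image_le_of_deriv_right_le_deriv_boundary (f := T) (f' := K) (B := fun _ => T x)
        (B' := fun _ => 0) (hc.mono (Icc_subset_Icc hx (hyI.2.le))) ?_ le_rfl
        continuousOn_const ?_ ?_
      · exact fun t ht => hd t ⟨hx.trans ht.1, ht.2.trans hyI.2⟩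
      · exact fun t _ => hasDerivWithinAt_const _ _ _
      · exact fun t ht => h3 t ht
    exact h4 y ⟨hxy, le_rfl⟩
  · refine le_max_of_le_right ?_
    have h3 : ∀ t ∈ Ico y z, 0 ≤ K t := by
      intro t ht
      have htI : t ∈ Ico a b := ⟨hyI.1.trans ht.1, ht.2.trans_le hz⟩
      have h4 := hm hyI htI ht.1
      simp only at h4
      have h5 : 0 < K y * g y := mul_pos h2 (hg y hyI)
      by_contra hcon
      push Not at hcon
      have := mul_neg_of_neg_of_pos hcon (hg t htI)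
      linarith
    have h4 : ∀ s ∈ Icc y z, -T s ≤ -T y := by
      refine image_le_of_deriv_right_le_deriv_boundary (f := fun s => -T s) (f' := fun s => -K s)
        (B := fun _ => -T y) (B' := fun _ => 0) (hc.mono (Icc_subset_Icc hyI.1 hz)).neg ?_ le_rfl
        continuousOn_const ?_ ?_
      · exact fun t ht => (hd t ⟨hyI.1.trans ht.1, ht.2.trans_le hz⟩).neg
      · exact fun t _ => hasDerivWithinAt_const _ _ _
      · intro t ht
        have := h3 t ht
        linarith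
    have := h4 z ⟨h1.le, le_rfl⟩
    linarith

end

end Crest.Agent.R146.PtS4b_489
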