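import Crest.Prelude.Def_SphericalPressure
import Crest.Agent.R146.RepairFin_840

/-!
Row 146, packages P3/P4 (S0203, S0204): DEFINITIONS and exact Props of the nodes (helper393).
Nothing is proved here; `Asm34_393` proves S0203 and S0204 from these Props.

Fixed Brownian data `(Ω, P, B)`; `Brown P B` collects the hypotheses.
`qp b k x = -(b/2) (k-x)_+^2` is the (unbounded, concave) quadratic potential.
`Zero P B hB α k`: the zero-energy phase at density `α`, margin `k`, in terms of the variational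
functional only: for every `δ > 0`, for all large `b`, `α V_{qp b k}(m) + S(m) ≥ -δ b` for every
profile `m`.
-/

set_option autoImplicit false

namespace Crest.Agent.R146.P34Def_393

open MeasureTheory ProbabilityTheory Filter Topology
open Crest.ProbabilityR.Perceptron

noncomputable section

/-- the quadratic potential of inverse temperature `b` and margin `k` -/
def qp (b k x : ℝ) : ℝ := -(b / 2) * max (k - x) 0 ^ 2

/-- the expected pressure of `β φ` under the mixture law -/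
def mixPressure (N : ℕ) (α β : ℝ) (φ : ℝ → ℝ) (ε : ℝ) : ℝ :=
  ∫ g, spherePressure N α β φ g ∂patternLawMix N α ε

/-- a smooth bounded antitone penalty below the quadratic one -/
structure Pen (k : ℝ) (h : ℝ → ℝ) : Prop where
  smooth : ∀ n : ℕ, ContDiff ℝ n h
  bdd : ∀ n : ℕ, ∃ C, ∀ x, |iteratedDeriv n h x| ≤ C
  nonneg : ∀ x, 0 ≤ h x
  le_one : ∀ x, h x ≤ 1
  anti : Antitone h
  le_quad : ∀ x, h x ≤ 1 / 2 * max (k - x) 0 ^ 2
  pos : ∀ x, x < k → 0 < h x

/-- (PEN) such a penalty exists. -/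
def PEN : Prop := ∀ k : ℝ, ∃ h : ℝ → ℝ, Pen k h

/-- the value functional `α V_{qp b k}(m) + S(m)` (meant for `m.entropy ≠ ⊤`) -/
def FF {Ω : Type} [MeasurableSpace Ω] (P : Measure Ω) (B : NNReal → Ω → ℝ)
    (hB : ∀ t, Measurable (B t)) (α b k : ℝ) (m : OverlapProfile) : ℝ :=
  α * controlValue P B hB (qp b k) m + m.entropy.toReal

/-- zero-energy phase -/
def Zero {Ω : Type} [MeasurableSpace Ω] (P : Measure Ω) (B : NNReal → Ω → ℝ)
    (hB : ∀ t, Measurable (B t)) (α k : ℝ) : Prop :=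
  ∀ δ : ℝ, 0 < δ → ∃ b0 : ℝ, 0 < b0 ∧ ∀ b, b0 ≤ b → ∀ m : OverlapProfile, m.entropy ≠ ⊤ →
    -δ * b ≤ FF P B hB α b k m

/-- the literal S0206 for given Brownian data -/
def S6 {Ω : Type} [MeasurableSpace Ω] (P : Measure Ω) (B : NNReal → Ω → ℝ)
    (hB : ∀ t, Measurable (B t)) : Prop :=
  ∀ (α β : ℝ), 0 < α → 0 < β → ∀ φ : ℝ → ℝ, Continuous φ → (∃ K : ℝ, ∀ x, abs (φ x) ≤ K) →
    ∃ p : ℝ,
      ⨅ m : OverlapProfile, variationalFunctional P B hB α β φ m = (p : EReal) ∧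
      Filter.Tendsto (fun N : ℕ => expectedPressure N α β φ) Filter.atTop (nhds p) ∧
      ∀ ε : ℝ, 0 < ε →
        Filter.Tendsto (fun N : ℕ => pressureTailProb N α β φ p ε) Filter.atTop (nhds 0)

/-! ### V-level nodes (literal `controlValue`, quadratic potential) -/

section V

variable {Ω : Type} [MeasurableSpace Ω] (P : Measure Ω) (B : NNReal → Ω → ℝ)
  (hB : ∀ t, Measurable (B t))

/-- (VB1) sign and lower bound (zero control) -/
def VB1 : Prop := ∀ b k : ℝ, 0 ≤ b → ∀ m : OverlapProfile,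
  controlValue P B hB (qp b k) m ≤ 0 ∧ -(b / 2) * (1 + |k|) ^ 2 ≤ controlValue P B hB (qp b k) m

/-- (VB2) comparison with a bounded potential above -/
def VB2 : Prop := ∀ b k : ℝ, 0 ≤ b → ∀ φ : ℝ → ℝ, Continuous φ → (∃ K, ∀ x, |φ x| ≤ K) →
  (∀ x, qp b k x ≤ φ x) → ∀ m : OverlapProfile,
  controlValue P B hB (qp b k) m ≤ controlValue P B hB φ m

/-- (VB3) monotone in the margin -/
def VB3 : Prop := ∀ b k k' : ℝ, 0 ≤ b → k ≤ k' → ∀ m : OverlapProfile,
  controlValue P B hB (qp b k') m ≤ controlValue P B hB (qp b k) m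

/-- (VB4) concave in the margin (the payoff is jointly concave in margin and control) -/
def VB4 : Prop := ∀ b : ℝ, 0 ≤ b → ∀ m : OverlapProfile,
  ConcaveOn ℝ Set.univ (fun k => controlValue P B hB (qp b k) m)

/-- (KER) zero energy at margin `0` for density `1`
(control `v_t = -X_t/(D(t)+1/b)`; V of `-(b/2)x²` is `-(1/2)∫ 1/(D+1/b)`). -/
def KER : Prop := ∀ b : ℝ, 1 ≤ b → ∀ m : OverlapProfile, m.entropy ≠ ⊤ →
  -(1 / 2) * Real.log (1 + b) ≤ FF P B hB 1 b 0 m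

/-- (FIN) positive energy at margin `-1` for large density -/
def FIN : Prop := ∃ α1 : ℝ, 0 < α1 ∧ ¬ Zero P B hB α1 (-1)

end V

/-! ### Finite-dimensional nodes -/

/-- (LIND2) Lindeberg lower bound: the mixture pressure is asymptotically at least the Gaussian
one. -/
def LIND2 : Prop := ∀ ε : ℝ, 0 ≤ ε → ε < 1 → ∀ α β : ℝ, 0 < α → 0 < β → ∀ φ : ℝ → ℝ,
  (∀ n : ℕ, ContDiff ℝ n φ) → (∀ n : ℕ, ∃ C, ∀ x, |iteratedDeriv n φ x| ≤ C) → ∀ p : ℝ,
  Tendsto (fun N : ℕ => expectedPressure N α β φ) atTop (𝓝 p) → ∀ δ : ℝ, 0 < δ →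
  ∀ᶠ N in atTop, p - δ ≤ mixPressure N α β φ ε

/-- (NEAR) pressure lower bounds give near solutions with high probability (convexity in `b`,
association trick for the tails, Markov). -/
def NEAR : Prop := ∀ ε : ℝ, 0 ≤ ε → ε < 1 → ∀ α : ℝ, 0 < α → ∀ η : ℝ, 0 < η → η ≤ 1 →
  ∀ h : ℝ → ℝ, Pen (-1 + η) h →
  (∀ δ : ℝ, 0 < δ → ∃ b : ℝ, 0 < b ∧ ∀ᶠ N in atTop,
    -δ * b ≤ mixPressure N α b (fun x => -h x) ε) →
  ∀ τ : ℝ, 0 < τ → Tendsto (fun N : ℕ => patternLawMix N α ε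
    {A | RepairFin_840.NearSat A η τ}) atTop (𝓝 1)

/-- (UNSAT) positive energy at margin `-1` kills the mixture, uniformly for `ε < ε₀(ᾱ)`. -/
def UNSAT {Ω : Type} [MeasurableSpace Ω] (P : Measure Ω) (B : NNReal → Ω → ℝ)
    (hB : ∀ t, Measurable (B t)) : Prop :=
  ∀ αlo αhi : ℝ, 0 < αlo → αlo ≤ αhi → ∃ ε0 : ℝ, 0 < ε0 ∧ ε0 < 1 ∧
  ∀ ε : ℝ, 0 ≤ ε → ε < ε0 → ∀ α : ℝ, αlo ≤ α → α ≤ αhi → ¬ Zero P B hB α (-1) →
  Tendsto (fun N : ℕ => satProbMix N α ε) atTop (𝓝 0)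

end

end Crest.Agent.R146.P34Def_393
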