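import Mathlib
import Crest.Agent.R146.Assoc5_323
import Crest.Agent.R146.P34Def_393

/-!
Row 146: the node NEAR of `P34Def_393` (pressure lower bounds for a smooth bounded penalty give
near solutions with high probability), by Jensen, the association trick and Markov.
-/

set_option autoImplicit false
set_option linter.unusedSectionVars false

namespace Crest.Agent.R146.Assoc_323

open MeasureTheory ProbabilityTheory Filter Topology
open Crest.ProbabilityR.Perceptron
open Crest.Agent.R146.RepairLaw_840 (Good good_mixtureLaw)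
open Crest.Agent.R146.RepairFin_840 (NearSat)
open Crest.Agent.R146.PressC_663 (logZ uSph crd measurable_crd isProb_uSph spherePressure_eq)

/-- Jensen: `⟨∑ (- ψ a)⟩ ≤ - log Z` over a probability space. -/
theorem sum_gav_neg_le {N M : ℕ} {Y : Type*} [MeasurableSpace Y] {μ : Measure Y}
    [IsProbabilityMeasure μ] {y : Y → Fin N → ℝ}
    (hy : Measurable y) (hy1 : ∀ ω, ∑ i, y ω i ^ 2 ≤ 1) {C : ℝ} (hC : 0 ≤ C)
    {ψ : Fin M → ℝ → ℝ} (hψm : ∀ a, Measurable (ψ a)) (hψ : QG C ψ) (A : Fin M × Fin N → ℝ) :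
    ∑ a, gav μ y ψ A (fun ω => -ψ a (fld y A a ω)) ≤ -Real.log (Zf μ y ψ A) := by
  have hμ : μ ≠ 0 := IsProbabilityMeasure.ne_zero _
  have h0m : ∀ a : Fin M, Measurable ((fun _ _ => 0 : Fin M → ℝ → ℝ) a) :=
    fun _ => measurable_const
  have h0q : QG C (fun _ _ => 0 : Fin M → ℝ → ℝ) := fun a x => by
    simp only [abs_zero]; positivity
  have h := log_Zf_sub_le hμ hy hy1 hC h0m h0q hψm hψ A
  have hZ0 : Zf μ y (fun _ _ => 0 : Fin M → ℝ → ℝ) A = 1 := by
    unfold Zf wt
    simp
  rw [hZ0, Real.log_one, sub_zero] at h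
  have hlin : ∀ a, gav μ y ψ A (fun ω => -ψ a (fld y A a ω)) =
      -gav μ y ψ A (fun ω => ψ a (fld y A a ω) - 0) := by
    intro a
    unfold gav
    rw [← neg_div, ← integral_neg]
    congr 1
    refine integral_congr_ae (ae_of_all _ fun ω => ?_)
    simp only [sub_zero]
    ring
  rw [Finset.sum_congr rfl fun a _ => hlin a, Finset.sum_neg_distrib]
  linarith

/-- the excess of the quadratic penalty over the level `R²`. -/
noncomputable def chiR (k R x : ℝ) : ℝ := 2 * (max (qp 1 k x) (-(R ^ 2 / 2)) - qp 1 k x)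

theorem chiR_nonneg (k R x : ℝ) : 0 ≤ chiR k R x := by
  unfold chiR
  have := le_max_left (qp 1 k x) (-(R ^ 2 / 2))
  linarith

theorem antitone_chiR (k R : ℝ) : Antitone (chiR k R) := by
  intro x z hxz
  have hm := monotone_qp (b := 1) zero_le_one k hxz
  have e : ∀ w, max (qp 1 k w) (-(R ^ 2 / 2)) - qp 1 k w = max 0 (-(R ^ 2 / 2) - qp 1 k w) := by
    intro w
    rcases le_total (-(R ^ 2 / 2)) (qp 1 k w) with h | h
    · rw [max_eq_left h, max_eq_left (by linarith)]; ring
    · rw [max_eq_right h, max_eq_right (by linarith)]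
  unfold chiR
  rw [e, e]
  have : max 0 (-(R ^ 2 / 2) - qp 1 k z) ≤ max 0 (-(R ^ 2 / 2) - qp 1 k x) :=
    max_le_max le_rfl (by linarith)
  linarith

theorem chiR_le (k : ℝ) {R : ℝ} (hR : 0 ≤ R) (x : ℝ) :
    chiR k R x ≤ (2 * Real.exp (2 * |k|) * Real.exp (-R)) *
      (Real.exp (2 * x) + Real.exp (-(2 * x))) := by
  have h := trunc_qp_le one_pos k (L := R ^ 2 / 2) (by positivity) x
  have e : Real.sqrt (2 * (R ^ 2 / 2) / 1) = R := by
    rw [show 2 * (R ^ 2 / 2) / 1 = R ^ 2 by ring, Real.sqrt_sq hR]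
  rw [e] at h
  unfold chiR
  nlinarith

/-- pointwise bound of the quadratic penalty. -/
theorem quad_le {k c R : ℝ} (hc : 0 < c) {h : ℝ → ℝ} (hanti : Antitone h)
    (h0 : ∀ x, 0 ≤ h x) (hpos : 0 < h (k - c)) (x : ℝ) :
    max (k - x) 0 ^ 2 ≤ c ^ 2 + R ^ 2 / h (k - c) * h x + chiR k R x := by
  have hq : qp 1 k x = -(1 / 2) * max (k - x) 0 ^ 2 := rfl
  have hχ := chiR_nonneg k R x
  have hhx : 0 ≤ R ^ 2 / h (k - c) * h x := mul_nonneg (by positivity) (h0 x)
  have hm0 := le_max_right (k - x) 0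
  rcases le_total (k - c) x with h1 | h1
  · have h2 : max (k - x) 0 ≤ c := max_le (by linarith) hc.le
    have h3 : max (k - x) 0 ^ 2 ≤ c ^ 2 := by gcongr
    linarith
  · have h2 : h (k - c) ≤ h x := hanti h1
    have h3 : 1 ≤ h x / h (k - c) := by rwa [one_le_div hpos]
    have h4 : R ^ 2 ≤ R ^ 2 / h (k - c) * h x := by
      have : R ^ 2 / h (k - c) * h x = R ^ 2 * (h x / h (k - c)) := by ring
      rw [this]
      nlinarith [sq_nonneg R]
    have h5 : max (k - x) 0 ^ 2 - R ^ 2 ≤ chiR k R x := by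
      unfold chiR
      have := le_max_right (qp 1 k x) (-(R ^ 2 / 2))
      rw [hq] at this ⊢
      linarith
    have := sq_nonneg c
    linarith

/-- the quantitative form of NEAR, any good law. -/
theorem near_measure {ν : Measure ℝ} (hν : Good ν) {α : ℝ} (hα : 0 ≤ α) {N : ℕ} (hN : 0 < N)
    {k b c R τ : ℝ} (hb : 0 < b) (hc : 0 < c) (hR : 0 ≤ R) (hτ : 0 < τ) {h : ℝ → ℝ}
    (hanti : Antitone h) (h0 : ∀ x, 0 ≤ h x) (h1 : ∀ x, h x ≤ 1) (hpos : 0 < h (k - c)) :
    (Measure.pi fun _ : Fin (numPatterns N α) × Fin N => ν) {A : Patterns N α |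
      ¬ ∃ y : Fin N → ℝ, ∑ i, y i ^ 2 = 1 ∧
        ∑ μ, max (k - ∑ i, A (μ, i) * y i) 0 ^ 2 ≤ τ * N} ≤
      ENNReal.ofReal ((α * c ^ 2 + R ^ 2 / (b * h (k - c)) *
        (-eP ν α (fun x => -(b * h x)) N) +
        α * (2 * Real.exp (2 * |k|) * Real.exp (-R) * (2 * Real.exp 4))) / τ) := by
  classical
  have hprob := hν.prob
  have := isProb_uSph hN
  have hN0 : (0 : ℝ) < N := by exact_mod_cast hN
  set M := numPatterns N α with hM
  have hMα : (M : ℝ) ≤ α * N := Nat.floor_le (by positivity)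
  set P := (Measure.pi fun _ : Fin M × Fin N => ν) with hP
  set ψ : Fin M → ℝ → ℝ := fun _ x => -(b * h x) with hψ
  have hψm : ∀ a, Measurable (ψ a) := fun _ => (hanti.measurable.const_mul b).neg
  have hQ : QG b ψ := by
    intro a x
    simp only [hψ]
    rw [abs_neg, abs_mul, abs_of_pos hb, abs_of_nonneg (h0 x)]
    have := h1 x
    have := h0 x
    nlinarith [mul_nonneg hb.le (sq_nonneg x)]
  have hy1 : ∀ u : UnitSphere N, ∑ i, crd N u i ^ 2 ≤ 1 := fun u => sum_crd_sq_le u
  set X : (Fin M × Fin N → ℝ) → Fin M → UnitSphere N → ℝ := fun A a u => fld (crd N) A a u with hX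
  -- boundedness of monotone functions of the fields
  have hbd : ∀ {g : ℝ → ℝ}, Antitone g → ∀ A a, ∃ B, ∀ u, |g (X A a u)| ≤ B := by
    intro g hg A a
    have hg' : Monotone fun x => -g x := fun a b h => neg_le_neg (hg h)
    exact ⟨_, fun u => by
      have := bdd_of_monotone hg' (abs_fld_le hy1 A a) u
      simpa using this⟩
  have iw := fun A => integrable_wt (uSph N) (measurable_crd N) hy1 hb.le hψm hQ A
  have iga : ∀ {g : ℝ → ℝ}, Antitone g → ∀ A a,
      Integrable (fun u => g (X A a u) * wt (crd N) ψ A u) (uSph N) := by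
    intro g hg A a
    obtain ⟨B, hB⟩ := hbd hg A a
    refine (iw A).bdd_mul (c := B)
      ((hg.measurable.comp (measurable_fld_right (measurable_crd N) A a)).aestronglyMeasurable)
      (ae_of_all _ fun u => ?_)
    rw [Real.norm_eq_abs]
    exact hB u
  have hZpos := fun A => Zf_pos (μ := uSph N) (IsProbabilityMeasure.ne_zero _)
    (measurable_crd N) hy1 hb.le hψm hQ A
  -- the quadratic penalty as an antitone function
  have hqa : Antitone fun x : ℝ => max (k - x) 0 ^ 2 := by
    intro x z hxz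
    have h2 : max (k - z) 0 ≤ max (k - x) 0 := max_le_max (by linarith) le_rfl
    have := le_max_right (k - z) 0
    show max (k - z) 0 ^ 2 ≤ max (k - x) 0 ^ 2
    gcongr
  -- pointwise inequality
  set K : ℝ := R ^ 2 / h (k - c) with hK
  have hK0 : 0 ≤ K := by positivity
  set G : (Fin M × Fin N → ℝ) → ℝ := fun A =>
    M * c ^ 2 + K / b * (-Real.log (Zf (uSph N) (crd N) ψ A)) +
      ∑ a, gav (uSph N) (crd N) ψ A (fun u => chiR k R (X A a u)) with hG
  have hGlow : ∀ A : Fin M × Fin N → ℝ, (¬ ∃ y : Fin N → ℝ, ∑ i, y i ^ 2 = 1 ∧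
        ∑ μ, max (k - ∑ i, A (μ, i) * y i) 0 ^ 2 ≤ τ * N) → τ * N ≤ G A := by
    intro A hA
    push Not at hA
    have e1 : τ * N ≤ ∑ a, gav (uSph N) (crd N) ψ A (fun u => max (k - X A a u) 0 ^ 2) := by
      unfold gav
      rw [← Finset.sum_div, ← integral_finsetSum _ fun a _ => iga hqa A a, le_div_iff₀ (hZpos A)]
      have e2 : τ * N * Zf (uSph N) (crd N) ψ A =
          ∫ u, τ * N * wt (crd N) ψ A u ∂(uSph N) := by
        rw [integral_const_mul]; rfl
      rw [e2]
      refine integral_mono ((iw A).const_mul _) (integrable_finsetSum _ fun a _ => iga hqa A a)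
        fun u => ?_
      show τ * N * wt (crd N) ψ A u ≤ ∑ a, max (k - X A a u) 0 ^ 2 * wt (crd N) ψ A u
      rw [← Finset.sum_mul]
      refine mul_le_mul_of_nonneg_right ?_ (wt_pos _ _ _ _).le
      exact (hA (crd N u) (sum_crd_sq u)).le
    refine e1.trans ?_
    have e3 : ∀ a, gav (uSph N) (crd N) ψ A (fun u => max (k - X A a u) 0 ^ 2) ≤
        c ^ 2 + K / b * gav (uSph N) (crd N) ψ A (fun u => -ψ a (X A a u)) +
          gav (uSph N) (crd N) ψ A (fun u => chiR k R (X A a u)) := by
      intro a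
      have hZ := hZpos A
      have i1 := iga hanti A a
      have i2 := iga (antitone_chiR k R) A a
      have i3 : Integrable (fun u => (-ψ a (X A a u)) * wt (crd N) ψ A u) (uSph N) := by
        refine (i1.const_mul b).congr (ae_of_all _ fun u => ?_)
        simp only [hψ]; ring
      unfold gav
      have e4 : c ^ 2 + K / b * ((∫ u, -ψ a (X A a u) * wt (crd N) ψ A u ∂(uSph N)) /
          Zf (uSph N) (crd N) ψ A) + (∫ u, chiR k R (X A a u) * wt (crd N) ψ A u ∂(uSph N)) /
          Zf (uSph N) (crd N) ψ A =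
          (c ^ 2 * Zf (uSph N) (crd N) ψ A + K / b *
            (∫ u, -ψ a (X A a u) * wt (crd N) ψ A u ∂(uSph N)) +
            ∫ u, chiR k R (X A a u) * wt (crd N) ψ A u ∂(uSph N)) /
          Zf (uSph N) (crd N) ψ A := by
        field_simp
      rw [e4]
      refine div_le_div_of_nonneg_right ?_ hZ.le
      have e5 : c ^ 2 * Zf (uSph N) (crd N) ψ A = ∫ u, c ^ 2 * wt (crd N) ψ A u ∂(uSph N) := by
        rw [integral_const_mul]; rfl
      have i4 : Integrable (fun u => c ^ 2 * wt (crd N) ψ A u +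
          K / b * (-ψ a (X A a u) * wt (crd N) ψ A u)) (uSph N) :=
        ((iw A).const_mul _).add (i3.const_mul _)
      rw [e5, ← integral_const_mul, ← integral_add ((iw A).const_mul _) (i3.const_mul _),
        ← integral_add i4 i2]
      refine integral_mono (iga hqa A a) (i4.add i2) fun u => ?_
      have h7 := quad_le (R := R) hc hanti h0 hpos (X A a u)
      have h8 := mul_le_mul_of_nonneg_right h7 (wt_pos (crd N) ψ A u).le
      refine h8.trans (le_of_eq ?_)
      simp only [hψ, hK]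
      field_simp
    refine (Finset.sum_le_sum fun a _ => e3 a).trans ?_
    rw [Finset.sum_add_distrib, Finset.sum_add_distrib, ← Finset.mul_sum, Finset.sum_const,
      Finset.card_univ, Fintype.card_fin, nsmul_eq_mul]
    have e6 := sum_gav_neg_le (μ := uSph N) (measurable_crd N) hy1 hb.le hψm hQ A
    have e7 : K / b * ∑ a, gav (uSph N) (crd N) ψ A (fun u => -ψ a (X A a u)) ≤
        K / b * (-Real.log (Zf (uSph N) (crd N) ψ A)) :=
      mul_le_mul_of_nonneg_left e6 (by positivity)
    simp only [hG]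
    linarith
  -- nonnegativity
  have hlog0 : ∀ A, 0 ≤ -Real.log (Zf (uSph N) (crd N) ψ A) := by
    intro A
    rw [neg_nonneg]
    refine Real.log_nonpos (hZpos A).le ?_
    have h2 : Zf (uSph N) (crd N) ψ A ≤ ∫ _u, (1 : ℝ) ∂(uSph N) := by
      refine integral_mono (iw A) (integrable_const _) fun u => ?_
      unfold wt
      rw [Real.exp_le_one_iff]
      refine Finset.sum_nonpos fun a _ => ?_
      simp only [hψ]
      have := mul_nonneg hb.le (h0 (fld (crd N) A a u))
      linarith
    simpa using h2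
  have gm : ∀ a, Measurable fun A : Fin M × Fin N → ℝ =>
      gav (uSph N) (crd N) ψ A (fun u => chiR k R (X A a u)) := fun a =>
    measurable_gav (uSph N) (measurable_crd N) hψm (G := fun A u => chiR k R (X A a u))
      ((antitone_chiR k R).measurable.comp (measurable_fld (measurable_crd N) a))
  have g0 : ∀ a (A : Fin M × Fin N → ℝ),
      0 ≤ gav (uSph N) (crd N) ψ A (fun u => chiR k R (X A a u)) := fun a A =>
    div_nonneg (integral_nonneg fun u => mul_nonneg (chiR_nonneg _ _ _) (wt_pos _ _ _ _).le)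
      (hZpos A).le
  have hlm : Measurable fun A : Fin M × Fin N → ℝ => -Real.log (Zf (uSph N) (crd N) ψ A) :=
    (Real.measurable_log.comp (measurable_Zf (uSph N) (measurable_crd N) hψm)).neg
  -- expectation bound
  set e := -eP ν α (fun x => -(b * h x)) N with he
  have ilog : Integrable (fun A => -Real.log (Zf (uSph N) (crd N) ψ A)) P :=
    (integrable_logZ hν (M := M) hN hb.le hψm hQ).neg
  have hElog : ∫ A, -Real.log (Zf (uSph N) (crd N) ψ A) ∂P = N * e := by
    rw [he, eP_eq, integral_neg]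
    have : ∫ A, Real.log (Zf (uSph N) (crd N) ψ A) ∂P =
      ∫ A, logZ (uSph N) (crd N) (fun _ x => -(b * h x)) A ∂(PL M N ν) := rfl
    rw [this]
    field_simp
    rfl
  have hχ : ∀ a, ∫⁻ A, ENNReal.ofReal (gav (uSph N) (crd N) ψ A
      (fun u => chiR k R (X A a u))) ∂P ≤
      ENNReal.ofReal (2 * Real.exp (2 * |k|) * Real.exp (-R) * (2 * Real.exp 4)) := by
    intro a
    have h3 := lintegral_gav_le (ρ := ν) (μ := uSph N) (IsProbabilityMeasure.ne_zero _)
      (measurable_crd N) hy1 hb.le hψm hQ a (f := ψ a) (T := 0)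
      (fun x z hxz => by
        simp only [hψ]
        have := mul_le_mul_of_nonneg_left (hanti hxz) hb.le
        linarith) (fun x => by simp) (antitone_chiR k R) (chiR_nonneg k R)
      (c := ENNReal.ofReal (2 * Real.exp (2 * |k|) * Real.exp (-R) * (2 * Real.exp 4)))
      (fun u => lintegral_exp_fld_le hν hy1 a u (by positivity) (chiR_le k hR))
    simpa using h3
  have hGE : ∫⁻ A, ENNReal.ofReal (G A) ∂P ≤
      ENNReal.ofReal (M * c ^ 2 + K / b * (N * e) +
        M * (2 * Real.exp (2 * |k|) * Real.exp (-R) * (2 * Real.exp 4))) := by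
    have hKb : 0 ≤ K / b := by positivity
    have hNe : 0 ≤ N * e := by
      rw [← hElog]; exact integral_nonneg hlog0
    calc ∫⁻ A, ENNReal.ofReal (G A) ∂P
        = ∫⁻ A, (ENNReal.ofReal (M * c ^ 2) +
            ENNReal.ofReal (K / b * (-Real.log (Zf (uSph N) (crd N) ψ A))) +
            ∑ a, ENNReal.ofReal (gav (uSph N) (crd N) ψ A (fun u => chiR k R (X A a u)))) ∂P := by
          refine lintegral_congr fun A => ?_
          simp only [hG]
          rw [ENNReal.ofReal_add (add_nonneg (by positivity) (mul_nonneg hKb (hlog0 A)))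
            (Finset.sum_nonneg fun a _ => g0 a A), ENNReal.ofReal_add (by positivity)
            (mul_nonneg hKb (hlog0 A)), ENNReal.ofReal_sum_of_nonneg fun a _ => g0 a A]
      _ = ENNReal.ofReal (M * c ^ 2) + ENNReal.ofReal (K / b * (N * e)) +
            ∑ a, ∫⁻ A, ENNReal.ofReal (gav (uSph N) (crd N) ψ A
              (fun u => chiR k R (X A a u))) ∂P := by
          rw [lintegral_add_right _ (Finset.measurable_sum _ fun a _ => (gm a).ennreal_ofReal),
            lintegral_add_left measurable_const, lintegral_const, measure_univ, mul_one,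
            lintegral_finsetSum _ fun a _ => (gm a).ennreal_ofReal]
          congr 2
          rw [← hElog, ← integral_const_mul,
            ofReal_integral_eq_lintegral_ofReal (ilog.const_mul _)
              (ae_of_all _ fun A => mul_nonneg hKb (hlog0 A))]
      _ ≤ ENNReal.ofReal (M * c ^ 2) + ENNReal.ofReal (K / b * (N * e)) +
            ∑ _a : Fin M, ENNReal.ofReal
              (2 * Real.exp (2 * |k|) * Real.exp (-R) * (2 * Real.exp 4)) := by
          gcongr with a _
          exact hχ a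
      _ = _ := by
          rw [Finset.sum_const, Finset.card_univ, Fintype.card_fin, nsmul_eq_mul,
            ENNReal.ofReal_add (add_nonneg (by positivity) (mul_nonneg hKb hNe)) (by positivity),
            ENNReal.ofReal_add (by positivity) (mul_nonneg hKb hNe)]
          simp only [ENNReal.ofReal_mul (Nat.cast_nonneg M), ENNReal.ofReal_natCast]
  have hGm : Measurable fun A => ENNReal.ofReal (G A) := by
    refine ENNReal.measurable_ofReal.comp ?_
    exact (measurable_const.add (hlm.const_mul _)).add (Finset.measurable_sum _ fun a _ => gm a)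
  have hτN : 0 < τ * N := by positivity
  have hmark := mul_meas_ge_le_lintegral (μ := P) hGm (ENNReal.ofReal (τ * N))
  have hsub : {A : Patterns N α | ¬ ∃ y : Fin N → ℝ, ∑ i, y i ^ 2 = 1 ∧
        ∑ μ, max (k - ∑ i, A (μ, i) * y i) 0 ^ 2 ≤ τ * N} ⊆
      {A | ENNReal.ofReal (τ * N) ≤ ENNReal.ofReal (G A)} := fun A hA =>
    ENNReal.ofReal_le_ofReal (hGlow A hA)
  have hlast := (mul_le_mul_right (measure_mono hsub) (ENNReal.ofReal (τ * N))).trans
    (hmark.trans hGE)
  have hdiv : P {A : Patterns N α | ¬ ∃ y : Fin N → ℝ, ∑ i, y i ^ 2 = 1 ∧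
        ∑ μ, max (k - ∑ i, A (μ, i) * y i) 0 ^ 2 ≤ τ * N} ≤
      ENNReal.ofReal (M * c ^ 2 + K / b * (N * e) +
        M * (2 * Real.exp (2 * |k|) * Real.exp (-R) * (2 * Real.exp 4))) /
        ENNReal.ofReal (τ * N) := by
    rw [ENNReal.le_div_iff_mul_le (Or.inl (by positivity)) (Or.inl ENNReal.ofReal_ne_top),
      mul_comm]
    exact hlast
  refine hdiv.trans ?_
  rw [← ENNReal.ofReal_div_of_pos hτN]
  refine ENNReal.ofReal_le_ofReal ?_
  rw [div_le_div_iff₀ hτN hτ]
  have hKb : K / b = R ^ 2 / (b * h (k - c)) := by rw [hK]; field_simp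
  rw [hKb]
  set t := 2 * Real.exp (2 * |k|) * Real.exp (-R) * (2 * Real.exp 4) with ht
  have ht0 : 0 ≤ t := by positivity
  have h9 : (M : ℝ) * c ^ 2 ≤ α * N * c ^ 2 := mul_le_mul_of_nonneg_right hMα (sq_nonneg c)
  have h10 : (M : ℝ) * t ≤ α * N * t := mul_le_mul_of_nonneg_right hMα ht0
  calc (M * c ^ 2 + R ^ 2 / (b * h (k - c)) * (N * e) + M * t) * τ
      ≤ (α * N * c ^ 2 + R ^ 2 / (b * h (k - c)) * (N * e) + α * N * t) * τ := by
        refine mul_le_mul_of_nonneg_right ?_ hτ.le
        linarith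
    _ = _ := by ring

/-- **NEAR** of `P34Def_393`. -/
theorem near : P34Def_393.NEAR := by
  intro ε hε0 hε1 α hα η hη hη1 h hPen hlow τ hτ
  have hG := good_mixtureLaw ε hε0 hε1.le
  have hprob := hG.prob
  have hprobN : ∀ N, IsProbabilityMeasure (patternLawMix N α ε) := fun N => by
    unfold patternLawMix; infer_instance
  -- it is enough to bound the complement
  have hcompl : Tendsto (fun N : ℕ => patternLawMix N α ε {A | ¬ NearSat A η τ}) atTop (𝓝 0) := by
    rw [ENNReal.tendsto_nhds_zero]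
    intro δ' hδ'
    obtain ⟨δ, hδ0, hδ⟩ : ∃ δ : ℝ, 0 < δ ∧ ENNReal.ofReal δ ≤ δ' := by
      rcases eq_or_ne δ' ⊤ with rfl | hne
      · exact ⟨1, one_pos, le_top⟩
      · exact ⟨δ'.toReal, ENNReal.toReal_pos hδ'.ne' hne, ENNReal.ofReal_toReal hne |>.le⟩
    set k : ℝ := -1 + η with hk
    -- choose c
    obtain ⟨c, hc0, hc⟩ : ∃ c : ℝ, 0 < c ∧ α * c ^ 2 ≤ δ * τ / 3 := by
      refine ⟨Real.sqrt (δ * τ / (3 * α)), Real.sqrt_pos.2 (by positivity), ?_⟩
      rw [Real.sq_sqrt (by positivity)]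
      refine le_of_eq ?_
      field_simp
    -- choose R
    obtain ⟨R, hR0, hR⟩ : ∃ R : ℝ, 0 ≤ R ∧
        α * (2 * Real.exp (2 * |k|) * Real.exp (-R) * (2 * Real.exp 4)) ≤ δ * τ / 3 := by
      have h1 : Tendsto (fun R : ℝ =>
          α * (2 * Real.exp (2 * |k|) * Real.exp (-R) * (2 * Real.exp 4))) atTop (𝓝 0) := by
        have h2 := (Real.tendsto_exp_neg_atTop_nhds_zero).const_mul
          (α * (2 * Real.exp (2 * |k|) * (2 * Real.exp 4)))
        rw [mul_zero] at h2
        refine h2.congr fun R => ?_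
        ring
      have h3 := h1.eventually_le_const (show (0 : ℝ) < δ * τ / 3 by positivity)
      obtain ⟨R, hR1, hR2⟩ := (h3.and (eventually_ge_atTop (0 : ℝ))).exists
      exact ⟨R, hR2, hR1⟩
    have hhpos : 0 < h (k - c) := hPen.pos _ (by linarith)
    -- choose δ₁
    obtain ⟨δ₁, hδ₁0, hδ₁⟩ : ∃ δ₁ : ℝ, 0 < δ₁ ∧ R ^ 2 / h (k - c) * δ₁ ≤ δ * τ / 3 := by
      refine ⟨δ * τ / 3 / (R ^ 2 / h (k - c) + 1), by positivity, ?_⟩
      rw [← mul_div_assoc, div_le_iff₀ (by positivity)]
      have : 0 ≤ R ^ 2 / h (k - c) := by positivity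
      nlinarith [mul_pos hδ0 hτ]
    obtain ⟨b, hb, hbN⟩ := hlow δ₁ hδ₁0
    filter_upwards [hbN, eventually_gt_atTop 0] with N hN1 hN0
    have hmain := near_measure hG hα.le hN0 (k := k) hb hc0 hR0 hτ hPen.anti hPen.nonneg
      hPen.le_one hhpos
    have hset : {A : Patterns N α | ¬ NearSat A η τ} = {A : Patterns N α |
      ¬ ∃ y : Fin N → ℝ, ∑ i, y i ^ 2 = 1 ∧
        ∑ μ, max (k - ∑ i, A (μ, i) * y i) 0 ^ 2 ≤ τ * N} := by
      ext A
      simp only [Set.mem_ofPred_eq, NearSat]
      have e : ∀ (y : Fin N → ℝ) (μ : Fin (numPatterns N α)),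
          -(∑ i, A (μ, i) * y i + 1 - η) = k - ∑ i, A (μ, i) * y i := by
        intro y μ; rw [hk]; ring
      simp only [e]
    rw [hset]
    refine hmain.trans (le_trans (ENNReal.ofReal_le_ofReal ?_) hδ)
    rw [div_le_iff₀ hτ]
    have hpress : P34Def_393.mixPressure N α b (fun x => -h x) ε =
        eP (mixtureLaw ε) α (fun x => -(b * h x)) N := by
      unfold P34Def_393.mixPressure eP
      refine integral_congr_ae (ae_of_all _ fun g => ?_)
      rw [spherePressure_beta]
      congr 1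
      funext x
      ring
    rw [hpress] at hN1
    have h5 : R ^ 2 / (b * h (k - c)) * (-eP (mixtureLaw ε) α (fun x => -(b * h x)) N) ≤
        R ^ 2 / h (k - c) * δ₁ := by
      have h6 : R ^ 2 / (b * h (k - c)) = R ^ 2 / h (k - c) / b := by field_simp
      rw [h6, div_mul_eq_mul_div, mul_div_assoc]
      refine mul_le_mul_of_nonneg_left ?_ (by positivity)
      rw [div_le_iff₀ hb]
      linarith
    linarith
  have h1 : Tendsto (fun N : ℕ => 1 - patternLawMix N α ε {A | ¬ NearSat A η τ}) atTop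
      (𝓝 (1 - 0)) := ENNReal.Tendsto.sub tendsto_const_nhds hcompl (Or.inl ENNReal.one_ne_top)
  rw [tsub_zero] at h1
  refine tendsto_of_tendsto_of_tendsto_of_le_of_le h1 tendsto_const_nhds (fun N => ?_)
    (fun N => prob_le_one)
  show 1 - patternLawMix N α ε {A | ¬ NearSat A η τ} ≤ patternLawMix N α ε {A | NearSat A η τ}
  rw [tsub_le_iff_right]
  calc (1 : ENNReal) = patternLawMix N α ε Set.univ := measure_univ.symm
    _ ≤ patternLawMix N α ε ({A | NearSat A η τ} ∪ {A | ¬ NearSat A η τ}) := by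
        refine measure_mono fun A _ => ?_
        by_cases hA : NearSat A η τ
        · exact Or.inl hA
        · exact Or.inr hA
    _ ≤ _ := measure_union_le _ _

end Crest.Agent.R146.Assoc_323
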