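import Crest.Agent.R146.P34_734
import Crest.Agent.R146.Near_323
import Crest.Agent.R146.Assoc6_323

/-!
Row 146: nodes PINT, CONCM, CAP, MARKOV of `P34_734`.
-/

set_option autoImplicit false
set_option linter.unusedSectionVars false

namespace Crest.Agent.R146.P34a_323

open MeasureTheory ProbabilityTheory Filter Topology
open Crest.ProbabilityR.Perceptron
open Crest.Agent.R146.Assoc_323
open Crest.Agent.R146.P34_734
open Crest.Agent.R146.RepairLaw_840 (Good good_mixtureLaw)
open Crest.Agent.R146.RepairFin_840 (NearSat)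
open Crest.Agent.R146.RepairNet_840 (vec)
open Crest.Agent.R146.PressC_663 (logZ uSph crd measurable_crd isProb_uSph spherePressure_eq)

instance (ε : ℝ) : IsProbabilityMeasure (mixtureLaw ε) := by
  constructor
  rw [mixtureLaw]
  simp only [Measure.coe_add, Pi.add_apply, Measure.coe_nnreal_smul_apply, measure_univ, mul_one]
  have : ((2⁻¹ : NNReal) : ENNReal) = 2⁻¹ := by
    rw [ENNReal.coe_inv (by norm_num)]; norm_num
  rw [this]
  exact ENNReal.inv_two_add_inv_two

instance (N : ℕ) (α ε : ℝ) : IsProbabilityMeasure (patternLawMix N α ε) := by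
  unfold patternLawMix; infer_instance

theorem fq_eq (b k : ℝ) : fq b k = qp b k := rfl

theorem pM_eq (N : ℕ) (α ε : ℝ) (f : ℝ → ℝ) : pM N α ε f = eP (mixtureLaw ε) α f N := rfl

/-- (PINT) -/
theorem pint : PINT := by
  rintro N α ε b k hα hε0 hε1 hb ψ hψ ⟨K, hK⟩
  rcases Nat.eq_zero_or_pos N with rfl | hN
  · have : (spherePressure 0 α 1 fun x => fq b k x + ψ x) = fun _ => 0 := by
      funext A
      unfold spherePressure
      simp
    rw [this]
    exact integrable_const _
  · exact integrable_sp_qp (good_mixtureLaw ε hε0 hε1.le) hb k hψ hK hN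

/-- (CONCM) -/
theorem concm : CONCM := by
  rintro α ε hα φ hφ ⟨K, hK⟩ t ht
  have hdev : Tendsto (fun N : ℕ => ENNReal.ofReal
      (α * (2 * (|1| * K)) ^ 2 / (N * t ^ 2))) atTop (𝓝 0) := by
    rw [← ENNReal.ofReal_zero]
    apply ENNReal.tendsto_ofReal
    have h3 : Tendsto (fun N : ℕ => (α * (2 * (|1| * K)) ^ 2 / t ^ 2) * ((N : ℝ))⁻¹)
        atTop (𝓝 ((α * (2 * (|1| * K)) ^ 2 / t ^ 2) * 0)) :=
      tendsto_const_nhds.mul (tendsto_inv_atTop_zero.comp tendsto_natCast_atTop_atTop)
    rw [mul_zero] at h3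
    refine h3.congr fun N => ?_
    by_cases hN : (N : ℝ) = 0
    · simp [hN]
    · field_simp
  refine tendsto_of_tendsto_of_tendsto_of_le_of_le' tendsto_const_nhds hdev
    (Eventually.of_forall fun N => zero_le) ?_
  filter_upwards [eventually_gt_atTop 0] with N hN
  exact PressC_663.meas_spherePressure_dev (β := 1) hN hα hφ hK (mixtureLaw ε) ht

/-- (CAP) -/
theorem cap : CAP := by
  intro α ε hα hε0 hε1
  set C : ℝ := 8 * √(α + 1) with hC
  have hC1 : 1 ≤ C := by
    have : 1 ≤ √(α + 1) := by rw [Real.one_le_sqrt]; linarith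
    linarith
  refine ⟨Real.log (8 * C) + 1 / 2, ?_⟩
  have hexp : Tendsto (fun N : ℕ => ENNReal.ofReal (Real.exp (-(N : ℝ)))) atTop (𝓝 0) := by
    rw [← ENNReal.ofReal_zero]
    exact ENNReal.tendsto_ofReal
      (Real.tendsto_exp_neg_atTop_nhds_zero.comp tendsto_natCast_atTop_atTop)
  refine tendsto_of_tendsto_of_tendsto_of_le_of_le' tendsto_const_nhds hexp
    (Eventually.of_forall fun N => zero_le) ?_
  filter_upwards [eventually_gt_atTop 0] with N hN
  have hop := op_event (good_mixtureLaw ε hε0 hε1.le) hα (numPatterns N α) N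
    (Nat.floor_le (by positivity))
  refine le_trans (measure_mono ?_) hop
  intro A hA hcon
  apply hA
  intro b k hb y hy hsol
  exact pressure_ge_of_sol hN hC1 hb A hcon y hy hsol

/-- (MARKOV) -/
theorem markov : MARKOV := by
  intro N α ε b η τ hN hα hε0 hε1 hb hτ
  have hν := good_mixtureLaw ε hε0 hε1.le
  have := isProb_uSph hN
  have hN0 : (0 : ℝ) < N := by exact_mod_cast hN
  set k : ℝ := -1 + η with hk
  set M := numPatterns N α with hM
  set P := (Measure.pi fun _ : Fin M × Fin N => mixtureLaw ε) with hP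
  set ψ : Fin M → ℝ → ℝ := fun _ => qp b k with hψ
  have hψm : ∀ a, Measurable (ψ a) := fun _ => (continuous_qp b k).measurable
  have hC0 : 0 ≤ b * (1 + k ^ 2) := by positivity
  have hQ : QG (b * (1 + k ^ 2)) ψ := fun _ x => abs_qp_le hb.le k x
  have hy1 : ∀ u : UnitSphere N, ∑ i, crd N u i ^ 2 ≤ 1 := fun u => sum_crd_sq_le u
  have iw := fun A => integrable_wt (uSph N) (measurable_crd N) hy1 hC0 hψm hQ A
  have hZpos := fun A => Zf_pos (μ := uSph N) (IsProbabilityMeasure.ne_zero _)
    (measurable_crd N) hy1 hC0 hψm hQ A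
  have hlog0 : ∀ A, 0 ≤ -Real.log (Zf (uSph N) (crd N) ψ A) := by
    intro A
    rw [neg_nonneg]
    refine Real.log_nonpos (hZpos A).le ?_
    have h2 : Zf (uSph N) (crd N) ψ A ≤ ∫ _u, (1 : ℝ) ∂(uSph N) := by
      refine integral_mono (iw A) (integrable_const _) fun u => ?_
      unfold wt
      rw [Real.exp_le_one_iff]
      exact Finset.sum_nonpos fun a _ => qp_nonpos hb.le k _
    simpa using h2
  -- lower bound off near satisfiability
  have hlow : ∀ A : Patterns N α, ¬ NearSat A η τ →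
      b / 2 * (τ * N) ≤ -Real.log (Zf (uSph N) (crd N) ψ A) := by
    intro A hA
    refine le_trans ?_ (sum_gav_neg_le (μ := uSph N) (measurable_crd N) hy1 hC0 hψm hQ A)
    have hA' : ∀ u : UnitSphere N,
        τ * N ≤ ∑ a, max (k - ∑ i, A (a, i) * crd N u i) 0 ^ 2 := by
      intro u
      by_contra hcon
      push Not at hcon
      refine hA ⟨crd N u, sum_crd_sq u, le_trans (le_of_eq ?_) hcon.le⟩
      refine Finset.sum_congr rfl fun μ _ => ?_
      congr 2
      rw [hk]; ring
    unfold gav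
    have iga : ∀ a, Integrable (fun u => -ψ a (fld (crd N) A a u) * wt (crd N) ψ A u)
        (uSph N) := by
      intro a
      have hmono : Monotone fun x => qp b k x := monotone_qp hb.le k
      refine (iw A).bdd_mul (c := |qp b k (Real.sqrt (rsq A a))| + |qp b k (-Real.sqrt (rsq A a))|)
        ((((continuous_qp b k).measurable).comp
          (measurable_fld_right (measurable_crd N) A a)).neg.aestronglyMeasurable)
        (ae_of_all _ fun u => ?_)
      rw [Real.norm_eq_abs, abs_neg]
      exact bdd_of_monotone hmono (abs_fld_le hy1 A a) u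
    rw [← Finset.sum_div, ← integral_finsetSum _ fun a _ => iga a, le_div_iff₀ (hZpos A)]
    have e2 : b / 2 * (τ * N) * Zf (uSph N) (crd N) ψ A =
        ∫ u, b / 2 * (τ * N) * wt (crd N) ψ A u ∂(uSph N) := by
      rw [integral_const_mul]; rfl
    rw [e2]
    refine integral_mono ((iw A).const_mul _) (integrable_finsetSum _ fun a _ => iga a)
      fun u => ?_
    show b / 2 * (τ * N) * wt (crd N) ψ A u ≤ ∑ a, -ψ a (fld (crd N) A a u) * wt (crd N) ψ A u
    rw [← Finset.sum_mul, Finset.sum_neg_distrib]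
    refine mul_le_mul_of_nonneg_right ?_ (wt_pos _ _ _ _).le
    have e3 : ∑ a, ψ a (fld (crd N) A a u) =
        -(b / 2) * ∑ a, max (k - ∑ i, A (a, i) * crd N u i) 0 ^ 2 := sum_qp_eq b k A u
    rw [e3]
    have := mul_le_mul_of_nonneg_left (hA' u) (by linarith : 0 ≤ b / 2)
    linarith
  have ilog : Integrable (fun A => -Real.log (Zf (uSph N) (crd N) ψ A)) P :=
    (integrable_logZ hν (M := M) hN hC0 hψm hQ).neg
  have hElog : ∫ A, -Real.log (Zf (uSph N) (crd N) ψ A) ∂P = N * (-pM N α ε (fq b k)) := by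
    rw [pM_eq, eP_eq, integral_neg]
    have : ∫ A, Real.log (Zf (uSph N) (crd N) ψ A) ∂P =
      ∫ A, logZ (uSph N) (crd N) (fun _ => fq b k) A ∂(PL (numPatterns N α) N (mixtureLaw ε)) := rfl
    rw [this]
    field_simp
  have h1 := mul_meas_ge_le_integral_of_nonneg (μ := P)
    (f := fun A => -Real.log (Zf (uSph N) (crd N) ψ A)) (ae_of_all _ hlog0) ilog (b / 2 * (τ * N))
  rw [hElog] at h1
  have hpos : 0 < b / 2 * (τ * N) := by positivity
  have hsub : {A : Patterns N α | ¬ NearSat A η τ} ⊆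
      {A | b / 2 * (τ * N) ≤ -Real.log (Zf (uSph N) (crd N) ψ A)} := fun A hA => hlow A hA
  have h2 : patternLawMix N α ε {A | ¬ NearSat A η τ} ≤
      P {A | b / 2 * (τ * N) ≤ -Real.log (Zf (uSph N) (crd N) ψ A)} := measure_mono hsub
  refine h2.trans ?_
  have hE0 : 0 ≤ N * (-pM N α ε (fq b k)) := by
    rw [← hElog]; exact integral_nonneg hlog0
  have hp0 : 0 ≤ -pM N α ε (fq b k) := by
    by_contra hcon
    push Not at hcon
    have := mul_neg_of_pos_of_neg hN0 hcon
    linarith
  rw [ENNReal.le_ofReal_iff_toReal_le (measure_ne_top _ _) (by positivity),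
    le_div_iff₀ (by positivity)]
  have h3 : b / 2 * (τ * N) * P.real {A | b / 2 * (τ * N) ≤
      -Real.log (Zf (uSph N) (crd N) ψ A)} ≤ N * (-pM N α ε (fq b k)) := h1
  have h4 : (P {A | b / 2 * (τ * N) ≤ -Real.log (Zf (uSph N) (crd N) ψ A)}).toReal * (b * τ) * N ≤
      2 * -pM N α ε (fq b k) * N := by
    have : P.real {A | b / 2 * (τ * N) ≤ -Real.log (Zf (uSph N) (crd N) ψ A)} =
      (P {A | b / 2 * (τ * N) ≤ -Real.log (Zf (uSph N) (crd N) ψ A)}).toReal := rfl
    rw [this] at h3
    linarith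
  exact le_of_mul_le_mul_right h4 hN0

end Crest.Agent.R146.P34a_323
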