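import Crest.Agent.R146.P34_734
import Crest.Agent.R146.P34a_323

/-!
Row 146: smooth bounded approximants from above of the quadratic penalty `fq b k`, with
nonincreasing difference, and the comparison of the pressures for every mixture law.
-/

set_option autoImplicit false
set_option linter.unusedSectionVars false

namespace Crest.Agent.R146.SmoothApx_323

open MeasureTheory ProbabilityTheory Filter Topology
open Crest.ProbabilityR.Perceptron
open Crest.Agent.R146.Assoc_323
open Crest.Agent.R146.P34_734
open Crest.Agent.R146.P34a_323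
open Crest.Agent.R146.RepairLaw_840 (Good good_mixtureLaw)
open Crest.Agent.R146.PressC_663 (logZ uSph crd measurable_crd isProb_uSph spherePressure_eq)
open Real (smoothTransition)

/-- a smooth compactly supported function, equal to `s` on `[2d, R]`, between `0` and `s₊`. -/
noncomputable def gchi (d R s : ℝ) : ℝ :=
  s * (smoothTransition ((s - d) / d) * smoothTransition (R + 1 - s))

theorem contDiff_gchi (d R : ℝ) (n : ℕ∞) : ContDiff ℝ n (gchi d R) := by
  unfold gchi
  refine contDiff_id.mul (ContDiff.mul ?_ ?_)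
  · exact Real.smoothTransition.contDiff.comp ((contDiff_id.sub contDiff_const).div_const d)
  · exact Real.smoothTransition.contDiff.comp (contDiff_const.sub contDiff_id)

theorem continuous_gchi (d R : ℝ) : Continuous (gchi d R) := (contDiff_gchi d R 0).continuous

theorem gchi_of_le {d : ℝ} (hd : 0 < d) (R : ℝ) {s : ℝ} (hs : s ≤ d) : gchi d R s = 0 := by
  unfold gchi
  rw [Real.smoothTransition.zero_of_nonpos (div_nonpos_of_nonpos_of_nonneg (by linarith) hd.le)]
  ring

theorem gchi_of_ge (d : ℝ) {R s : ℝ} (hs : R + 1 ≤ s) : gchi d R s = 0 := by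
  unfold gchi
  rw [Real.smoothTransition.zero_of_nonpos (by linarith : R + 1 - s ≤ 0)]
  ring

theorem gchi_nonneg {d : ℝ} (hd : 0 < d) (R s : ℝ) : 0 ≤ gchi d R s := by
  rcases le_total s d with h | h
  · rw [gchi_of_le hd R h]
  · unfold gchi
    exact mul_nonneg (hd.le.trans h) (mul_nonneg (Real.smoothTransition.nonneg _)
      (Real.smoothTransition.nonneg _))

theorem gchi_le {d : ℝ} (hd : 0 < d) (R s : ℝ) : gchi d R s ≤ max s 0 := by
  rcases le_total s d with h | h
  · rw [gchi_of_le hd R h]; exact le_max_right _ _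
  · have hs : 0 ≤ s := hd.le.trans h
    rw [max_eq_left hs]
    unfold gchi
    have h1 := Real.smoothTransition.le_one ((s - d) / d)
    have h2 := Real.smoothTransition.le_one (R + 1 - s)
    have h3 := Real.smoothTransition.nonneg ((s - d) / d)
    have h4 := Real.smoothTransition.nonneg (R + 1 - s)
    have h5 : smoothTransition ((s - d) / d) * smoothTransition (R + 1 - s) ≤ 1 := by nlinarith
    nlinarith

theorem gchi_eq {d : ℝ} (hd : 0 < d) {R s : ℝ} (h1 : 2 * d ≤ s) (h2 : s ≤ R) :
    gchi d R s = s := by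
  unfold gchi
  rw [Real.smoothTransition.one_of_one_le (by rw [le_div_iff₀ hd]; linarith),
    Real.smoothTransition.one_of_one_le (by linarith)]
  ring

theorem sub_gchi_le {d : ℝ} (hd : 0 < d) (R : ℝ) {s : ℝ} :
    s - gchi d R s ≤ 2 * d * Real.exp (2 * d - s) + Real.exp (2 * s - R) := by
  have e1 := Real.exp_pos (2 * d - s)
  have e2 := Real.exp_pos (2 * s - R)
  have h0 := gchi_nonneg hd R s
  rcases le_total s (2 * d) with h | h
  · have h1 : 1 ≤ Real.exp (2 * d - s) := Real.one_le_exp (by linarith)
    nlinarith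
  · rcases le_total s R with h2 | h2
    · rw [gchi_eq hd h h2]
      have : 0 ≤ 2 * d * Real.exp (2 * d - s) := by positivity
      linarith
    · have h3 : s ≤ Real.exp (2 * s - R) := by
        have := Real.add_one_le_exp (2 * s - R)
        linarith
      have : 0 ≤ 2 * d * Real.exp (2 * d - s) := by positivity
      linarith

/-- the primitive of `gchi`. -/
noncomputable def Gp (d R t : ℝ) : ℝ := ∫ s in (0 : ℝ)..t, gchi d R s

theorem hasDerivAt_Gp (d R t : ℝ) : HasDerivAt (Gp d R) (gchi d R t) t :=
  intervalIntegral.integral_hasDerivAt_right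
    ((continuous_gchi d R).intervalIntegrable _ _)
    ((continuous_gchi d R).stronglyMeasurableAtFilter _ _) (continuous_gchi d R).continuousAt

theorem Gp_of_nonpos {d : ℝ} (hd : 0 < d) (R : ℝ) {t : ℝ} (ht : t ≤ 0) : Gp d R t = 0 := by
  unfold Gp
  have : ∫ s in (0 : ℝ)..t, gchi d R s = ∫ _s in (0 : ℝ)..t, (0 : ℝ) := by
    refine intervalIntegral.integral_congr fun s hs => ?_
    rw [Set.uIcc_of_ge ht] at hs
    exact gchi_of_le hd R (hs.2.trans hd.le)
  rw [this]
  simp

/-- the difference `t₊²/2 - Gp t` as an integral. -/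
theorem diff_eq (d R t : ℝ) :
    max t 0 ^ 2 / 2 - Gp d R t = ∫ s in (0 : ℝ)..t, (max s 0 - gchi d R s) := by
  have hc : Continuous fun s : ℝ => max s 0 := continuous_id.max continuous_const
  rw [intervalIntegral.integral_sub (hc.intervalIntegrable _ _)
    ((continuous_gchi d R).intervalIntegrable _ _)]
  have h1 : ∫ s in (0 : ℝ)..t, max s 0 = max t 0 ^ 2 / 2 := by
    rcases le_total t 0 with h | h
    · have : ∫ s in (0 : ℝ)..t, max s 0 = ∫ _s in (0 : ℝ)..t, (0 : ℝ) := by
        refine intervalIntegral.integral_congr fun s hs => ?_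
        rw [Set.uIcc_of_ge h] at hs
        exact max_eq_right hs.2
      rw [this, max_eq_right h]
      simp
    · have : ∫ s in (0 : ℝ)..t, max s 0 = ∫ s in (0 : ℝ)..t, s := by
        refine intervalIntegral.integral_congr fun s hs => ?_
        rw [Set.uIcc_of_le h] at hs
        exact max_eq_left hs.1
      rw [this, integral_id, max_eq_left h]
      ring
  rw [h1]
  rfl

theorem diff_mono {d : ℝ} (hd : 0 < d) (R : ℝ) :
    Monotone fun t : ℝ => max t 0 ^ 2 / 2 - Gp d R t := by
  intro t t' h
  have hc : Continuous fun s : ℝ => max s 0 - gchi d R s :=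
    (continuous_id.max continuous_const).sub (continuous_gchi d R)
  simp only [diff_eq]
  rw [← sub_nonneg, intervalIntegral.integral_interval_sub_left
    (hc.intervalIntegrable _ _) (hc.intervalIntegrable _ _)]
  exact intervalIntegral.integral_nonneg h fun s _ => sub_nonneg.2 (gchi_le hd R s)

theorem diff_nonneg {d : ℝ} (hd : 0 < d) (R t : ℝ) : 0 ≤ max t 0 ^ 2 / 2 - Gp d R t := by
  rcases le_total t 0 with h | h
  · rw [Gp_of_nonpos hd R h, max_eq_right h]
    simp
  · rw [diff_eq]
    exact intervalIntegral.integral_nonneg h fun s _ => sub_nonneg.2 (gchi_le hd R s)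

theorem diff_le {d : ℝ} (hd : 0 < d) (R t : ℝ) :
    max t 0 ^ 2 / 2 - Gp d R t ≤ 2 * d * Real.exp (2 * d) + Real.exp (2 * t - R) / 2 := by
  rcases le_total t 0 with h | h
  · rw [Gp_of_nonpos hd R h, max_eq_right h]
    have := Real.exp_pos (2 * d)
    have := Real.exp_pos (2 * t - R)
    simp only [ne_eq, OfNat.ofNat_ne_zero, not_false_eq_true, zero_pow, zero_div, sub_zero]
    positivity
  · rw [diff_eq]
    have hc : Continuous fun s : ℝ => max s 0 - gchi d R s :=
      (continuous_id.max continuous_const).sub (continuous_gchi d R)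
    have hc2 : Continuous fun s : ℝ => 2 * d * Real.exp (2 * d - s) + Real.exp (2 * s - R) := by
      fun_prop
    have h1 : ∫ s in (0 : ℝ)..t, (max s 0 - gchi d R s) ≤
        ∫ s in (0 : ℝ)..t, (2 * d * Real.exp (2 * d - s) + Real.exp (2 * s - R)) := by
      refine intervalIntegral.integral_mono_on h (hc.intervalIntegrable _ _)
        (hc2.intervalIntegrable _ _) fun s hs => ?_
      rw [max_eq_left hs.1]
      exact sub_gchi_le hd R
    have hder : ∀ s : ℝ, HasDerivAt
        (fun s => -(2 * d * Real.exp (2 * d - s)) + Real.exp (2 * s - R) / 2)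
        (2 * d * Real.exp (2 * d - s) + Real.exp (2 * s - R)) s := by
      intro s
      have h2 : HasDerivAt (fun s : ℝ => 2 * d - s) (-1) s := by
        simpa using (hasDerivAt_id s).const_sub (2 * d)
      have h3 : HasDerivAt (fun s : ℝ => 2 * s - R) 2 s := by
        simpa using ((hasDerivAt_id s).const_mul 2).sub_const R
      have h4 := (h2.exp.const_mul (2 * d)).neg
      have h5 := h3.exp.div_const 2
      exact (h4.add h5).congr_deriv (by ring)
    rw [intervalIntegral.integral_eq_sub_of_hasDerivAt (fun s _ => hder s)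
      (hc2.intervalIntegrable _ _)] at h1
    refine h1.trans ?_
    have e1 := Real.exp_pos (2 * d - t)
    have e2 := Real.exp_pos (2 * 0 - R)
    have e3 : Real.exp (2 * d - 0) = Real.exp (2 * d) := by rw [sub_zero]
    rw [e3]
    have e4 : 0 ≤ 2 * d * Real.exp (2 * d - t) := by positivity
    generalize Real.exp (2 * d - t) = E1 at *
    generalize Real.exp (2 * 0 - R) = E2 at *
    generalize Real.exp (2 * t - R) = E3 at *
    generalize Real.exp (2 * d) = E4 at *
    nlinarith

/-- the smooth approximant. -/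
noncomputable def phi0 (d R b k x : ℝ) : ℝ := -(b * Gp d R (k - x))

theorem hasDerivAt_phi0 (d R b k x : ℝ) :
    HasDerivAt (phi0 d R b k) (b * gchi d R (k - x)) x := by
  have h1 : HasDerivAt (fun x : ℝ => k - x) (-1) x := by
    simpa using (hasDerivAt_id x).const_sub k
  have h2 := (((hasDerivAt_Gp d R (k - x)).comp x h1).const_mul b).neg
  exact h2.congr_deriv (by ring)

theorem deriv_phi0 (d R b k : ℝ) : deriv (phi0 d R b k) = fun x => b * gchi d R (k - x) :=
  funext fun x => (hasDerivAt_phi0 d R b k x).deriv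

theorem contDiff_dphi0 (d R b k : ℝ) (n : ℕ∞) :
    ContDiff ℝ n fun x => b * gchi d R (k - x) :=
  contDiff_const.mul ((contDiff_gchi d R n).comp (contDiff_const.sub contDiff_id))

theorem contDiff_phi0 (d R b k : ℝ) : ContDiff ℝ (⊤ : ℕ∞) (phi0 d R b k) := by
  rw [contDiff_infty_iff_deriv]
  refine ⟨fun x => (hasDerivAt_phi0 d R b k x).differentiableAt, ?_⟩
  rw [deriv_phi0]
  exact contDiff_dphi0 d R b k ⊤

theorem test_phi0 {d : ℝ} (hd : 0 < d) (R b k : ℝ) : Test (phi0 d R b k) where
  smooth n := (contDiff_phi0 d R b k).of_le (by exact_mod_cast le_top)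
  bd n := by
    rcases n with _ | n
    · -- bounded
      have hc : Continuous (phi0 d R b k) := (contDiff_phi0 d R b k).continuous
      obtain ⟨C, hC⟩ := (isCompact_Icc (a := k - |R + 1|) (b := k)).exists_bound_of_continuousOn
        hc.continuousOn
      refine ⟨C, fun x => ?_⟩
      rw [iteratedDeriv_zero, ← Real.norm_eq_abs]
      have hk0 : |R + 1| ≥ 0 := abs_nonneg _
      rcases le_total x k with h | h
      · rcases le_total (k - |R + 1|) x with h2 | h2
        · exact hC x ⟨h2, h⟩
        · -- constant to the left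
          have e : phi0 d R b k x = phi0 d R b k (k - |R + 1|) := by
            unfold phi0
            congr 2
            unfold Gp
            have e1 : k - (k - |R + 1|) = |R + 1| := by ring
            rw [e1]
            have hint : ∀ a c : ℝ, IntervalIntegrable (gchi d R) volume a c := fun a c =>
              (continuous_gchi d R).intervalIntegrable a c
            rw [← intervalIntegral.integral_add_adjacent_intervals (hint 0 |R + 1|)
              (hint |R + 1| (k - x))]
            have : ∫ s in |R + 1|..(k - x), gchi d R s = ∫ _s in |R + 1|..(k - x), (0 : ℝ) := by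
              refine intervalIntegral.integral_congr fun s hs => ?_
              rw [Set.uIcc_of_le (by linarith)] at hs
              exact gchi_of_ge d ((le_abs_self _).trans hs.1)
            rw [this]
            simp
          rw [e]
          exact hC _ ⟨le_rfl, by linarith⟩
      · have e : phi0 d R b k x = 0 := by
          unfold phi0
          rw [Gp_of_nonpos hd R (by linarith : k - x ≤ 0)]
          ring
        rw [e, norm_zero]
        exact (norm_nonneg _).trans (hC k ⟨by linarith, le_rfl⟩)
    · rw [iteratedDeriv_succ', deriv_phi0]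
      set g : ℝ → ℝ := fun x => b * gchi d R (k - x) with hg
      have hcs : HasCompactSupport g := by
        refine HasCompactSupport.intro (isCompact_Icc (a := k - (R + 1)) (b := k)) fun x hx => ?_
        rw [Set.mem_Icc, not_and_or, not_le, not_le] at hx
        rcases hx with h | h
        · simp only [hg]
          rw [gchi_of_ge d (by linarith)]; ring
        · simp only [hg]
          rw [gchi_of_le hd R (by linarith)]; ring
      have h1 := hcs.iteratedFDeriv (𝕜 := ℝ) n
      have h2 : Continuous (iteratedFDeriv ℝ n g) :=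
        (contDiff_dphi0 d R b k ⊤).continuous_iteratedFDeriv (by exact_mod_cast le_top)
      obtain ⟨C, hC⟩ := h1.exists_bound_of_continuous h2
      refine ⟨C, fun x => ?_⟩
      rw [← Real.norm_eq_abs, ← norm_iteratedFDeriv_eq_norm_iteratedDeriv]
      exact hC x

theorem monotone_phi0 {d : ℝ} (hd : 0 < d) (R : ℝ) {b : ℝ} (hb : 0 ≤ b) (k : ℝ) :
    Monotone (phi0 d R b k) := by
  refine monotone_of_deriv_nonneg (fun x => (hasDerivAt_phi0 d R b k x).differentiableAt)
    fun x => ?_
  rw [deriv_phi0]
  exact mul_nonneg hb (gchi_nonneg hd R _)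

theorem phi0_sub {d R b k : ℝ} (x : ℝ) :
    phi0 d R b k x - fq b k x = b * (max (k - x) 0 ^ 2 / 2 - Gp d R (k - x)) := by
  unfold phi0 fq
  ring

theorem le_phi0 {d : ℝ} (hd : 0 < d) (R : ℝ) {b : ℝ} (hb : 0 ≤ b) (k x : ℝ) :
    fq b k x ≤ phi0 d R b k x := by
  rw [← sub_nonneg, phi0_sub]
  exact mul_nonneg hb (diff_nonneg hd R _)

theorem antitone_phi0_sub {d : ℝ} (hd : 0 < d) (R : ℝ) {b : ℝ} (hb : 0 ≤ b) (k : ℝ) :
    Antitone fun x => phi0 d R b k x - fq b k x := by
  intro x z h
  simp only [phi0_sub]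
  exact mul_le_mul_of_nonneg_left (diff_mono hd R (by linarith : k - z ≤ k - x)) hb

theorem phi0_sub_le {d : ℝ} (hd : 0 < d) (R : ℝ) {b : ℝ} (hb : 0 ≤ b) (k x : ℝ) :
    phi0 d R b k x - fq b k x ≤ (b * (2 * d * Real.exp (2 * d) + Real.exp (2 * k - R))) *
      (Real.exp (2 * x) + Real.exp (-(2 * x))) := by
  rw [phi0_sub, mul_assoc]
  refine mul_le_mul_of_nonneg_left ?_ hb
  refine (diff_le hd R (k - x)).trans ?_
  have h1 : 1 ≤ Real.exp (2 * x) + Real.exp (-(2 * x)) := by
    rcases le_total 0 x with h | h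
    · have := Real.one_le_exp (by linarith : 0 ≤ 2 * x)
      have := Real.exp_pos (-(2 * x))
      linarith
    · have := Real.one_le_exp (by linarith : 0 ≤ -(2 * x))
      have := Real.exp_pos (2 * x)
      linarith
  have h2 : Real.exp (2 * (k - x) - R) = Real.exp (2 * k - R) * Real.exp (-(2 * x)) := by
    rw [← Real.exp_add]; congr 1; ring
  rw [h2]
  have e1 := Real.exp_pos (2 * k - R)
  have e2 := Real.exp_pos (2 * x)
  have e3 := Real.exp_pos (-(2 * x))
  have e4 : 0 ≤ 2 * d * Real.exp (2 * d) := by positivity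
  have h3 := mul_le_mul_of_nonneg_left h1 e4
  have h4 : Real.exp (2 * k - R) * Real.exp (-(2 * x)) ≤
      Real.exp (2 * k - R) * (Real.exp (2 * x) + Real.exp (-(2 * x))) :=
    mul_le_mul_of_nonneg_left (by linarith) e1.le
  have h5 : 0 ≤ Real.exp (2 * k - R) * Real.exp (-(2 * x)) := by positivity
  nlinarith

/-- **Smooth approximation from above**: for every `c > 0` there is a smooth bounded `φ ≥ fq b k`
with `φ - fq b k` nonincreasing and at most `c (e^{2x} + e^{-2x})`. -/
theorem exists_smooth_above {b : ℝ} (hb : 0 ≤ b) (k : ℝ) {c : ℝ} (hc : 0 < c) :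
    ∃ φ : ℝ → ℝ, Test φ ∧ (∀ x, fq b k x ≤ φ x) ∧ (Antitone fun x => φ x - fq b k x) ∧
      Monotone φ ∧ (∀ x, φ x ≤ 0) ∧ ∀ x, φ x - fq b k x ≤ c * (Real.exp (2 * x) + Real.exp (-(2 * x))) := by
  have hlim1 : Tendsto (fun d : ℝ => b * (2 * d * Real.exp (2 * d))) (𝓝 0) (𝓝 0) := by
    have : Continuous fun d : ℝ => b * (2 * d * Real.exp (2 * d)) := by fun_prop
    simpa using this.tendsto 0
  have hev := (hlim1.eventually_lt_const (show (0 : ℝ) < c / 2 by positivity))
  obtain ⟨r, hr, hball⟩ := Metric.eventually_nhds_iff.1 hev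
  have hd : 0 < r / 2 := by positivity
  have hd1 : b * (2 * (r / 2) * Real.exp (2 * (r / 2))) < c / 2 :=
    hball (by rw [Real.dist_eq, sub_zero, abs_of_pos hd]; linarith)
  have hlim2 : Tendsto (fun R : ℝ => b * Real.exp (2 * k - R)) atTop (𝓝 0) := by
    have h1 := (Real.tendsto_exp_neg_atTop_nhds_zero).const_mul (b * Real.exp (2 * k))
    rw [mul_zero] at h1
    refine h1.congr fun R => ?_
    rw [mul_assoc, ← Real.exp_add]
    congr 2
  obtain ⟨R, hR⟩ := (hlim2.eventually_lt_const (show (0 : ℝ) < c / 2 by positivity)).exists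
  refine ⟨phi0 (r / 2) R b k, test_phi0 hd R b k, le_phi0 hd R hb k, antitone_phi0_sub hd R hb k,
    monotone_phi0 hd R hb k, fun x => ?_, fun x => ?_⟩
  · -- `Gp ≥ 0`
    unfold phi0
    have : 0 ≤ Gp (r / 2) R (k - x) := by
      rcases le_total (k - x) 0 with h | h
      · rw [Gp_of_nonpos hd R h]
      · exact intervalIntegral.integral_nonneg h fun s _ => gchi_nonneg hd R s
    have := mul_nonneg hb this
    linarith
  · refine (phi0_sub_le hd R hb k x).trans ?_
    have : 0 ≤ Real.exp (2 * x) + Real.exp (-(2 * x)) := by positivity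
    refine mul_le_mul_of_nonneg_right ?_ this
    rw [mul_add]
    linarith

/-- comparison of the pressures, uniformly in `N` and `ε`. -/
theorem pM_sub_le {α ε b k c T : ℝ} (hα : 0 ≤ α) (hε0 : 0 ≤ ε) (hε1 : ε < 1) (hb : 0 < b)
    (hc : 0 ≤ c) {φ ψ : ℝ → ℝ} (hφm : Measurable φ) {K : ℝ} (hφK : ∀ x, |φ x| ≤ K)
    (hψm : Measurable ψ) (hψT : ∀ x, |ψ x| ≤ T) (hle : ∀ x, fq b k x ≤ φ x)
    (hanti : Antitone fun x => φ x - fq b k x) (hmono : Monotone φ)
    (hbd : ∀ x, φ x - fq b k x ≤ c * (Real.exp (2 * x) + Real.exp (-(2 * x)))) {N : ℕ}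
    (hN : 0 < N) :
    pM N α ε (fun x => fq b k x + ψ x) ≤ pM N α ε (fun x => φ x + ψ x) ∧
    pM N α ε (fun x => φ x + ψ x) - pM N α ε (fun x => fq b k x + ψ x) ≤
      α * (Real.exp (2 * T) * (2 * Real.exp 4) * c) := by
  have hν := good_mixtureLaw ε hε0 hε1.le
  have h0 : (0 : ℝ) < N := by exact_mod_cast hN
  have hK0 : 0 ≤ K := (abs_nonneg _).trans (hφK 0)
  set C : ℝ := b * (1 + k ^ 2) + |T| + K with hC
  have hC0 : 0 ≤ C := by positivity
  have hTx : ∀ x : ℝ, |ψ x| ≤ |T| * (1 + x ^ 2) := by
    intro x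
    have h3 := (hψT x).trans (le_abs_self T)
    have h4 := mul_nonneg (abs_nonneg T) (sq_nonneg x)
    nlinarith
  have key := integral_logZ_sub_le hν (M := numPatterns N α) hN hC0
    (ψ := fun _ x => fq b k x + ψ x) (ψ' := fun _ x => φ x + ψ x)
    (fun _ => ((continuous_qp b k).measurable).add hψm)
    (fun _ x => by
      refine (growth_qp_add hb.le k hψT x).trans ?_
      refine mul_le_mul_of_nonneg_right ?_ (by positivity)
      linarith)
    (fun _ => hφm.add hψm)
    (fun _ x => by
      refine (abs_add_le _ _).trans ?_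
      have h1 := hφK x
      have h2 := hTx x
      have h3 : 0 ≤ K * x ^ 2 := by positivity
      have h4 : 0 ≤ b * (1 + k ^ 2) * (1 + x ^ 2) := by positivity
      rw [hC]
      nlinarith)
    (f := fun _ => φ) (T := T) (fun _ => hmono) (fun _ x => by simpa using hψT x)
    (fun _ => by
      intro x z hxz
      have := hanti hxz
      simp only at this
      show φ z + ψ z - (fq b k z + ψ z) ≤ φ x + ψ x - (fq b k x + ψ x)
      linarith)
    (fun _ x => by have := hle x; linarith)
    (c := fun _ => c) (fun _ => hc)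
    (fun _ x => by have := hbd x; linarith)
  rw [pM_eq, pM_eq, eP_eq, eP_eq]
  refine ⟨div_le_div_of_nonneg_right key.1 h0.le, ?_⟩
  rw [← sub_div, div_le_iff₀ h0]
  refine key.2.trans ?_
  rw [Finset.sum_const, Finset.card_univ, Fintype.card_fin, nsmul_eq_mul]
  have hM : (numPatterns N α : ℝ) ≤ α * N := Nat.floor_le (by positivity)
  have hc' : 0 ≤ Real.exp (2 * T) * (2 * Real.exp 4) * c := by positivity
  nlinarith [mul_le_mul_of_nonneg_right hM hc']

end Crest.Agent.R146.SmoothApx_323
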