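import Crest.Agent.R146.CtlE_130
import Crest.Agent.R146.DualL_256
import Crest.Agent.R146.SmoothApx_323
import Crest.Agent.R146.PtS4b_489
import Crest.Agent.R146.StepDef_791

/-!
Row 146, leaf (BR-LB) of helper256's bridge R3 (post 1257), helper522.

* `ctl_ge`    : controls whose payoff is at least `A.psi 0 x0 - ε`;
* `psi_le_QQ` : weak duality `A.psi 0 x0 ≤ QQ ... x` for `x` in the cone.

Route: `CtlE_130.val_ge` (weights in `[0,1]`, regular payoff) after scaling by `M`, smooth
approximation from above of the quadratic payoff (`SmoothApx_323`), positive part of the control.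
-/

set_option autoImplicit false

noncomputable section

open MeasureTheory Set Filter Topology ProbabilityTheory
open scoped InnerProductSpace RealInnerProductSpace NNReal ENNReal

namespace Crest.Agent.R146.BrLB_522

open Crest.ProbabilityR.Perceptron Crest.ProbabilityR.InvariantGlass
open Crest.Agent.R146.StepDef_791

/-! ### cells as arrays -/

/-- nodes, from right to left -/
def node : Cells → ℝ → ℕ → ℝ
  | _, T, 0 => T
  | [], T, _ + 1 => T
  | c :: cs, _, j + 1 => node cs c.1 j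

/-- weights, from right to left -/
def wt : Cells → ℕ → ℝ
  | [], _ => 0
  | c :: _, 0 => c.2
  | _ :: cs, j + 1 => wt cs j

theorem node_zero (cs : Cells) (T : ℝ) : node cs T 0 = T := by
  cases cs <;> rfl

theorem node_len : ∀ {cs : Cells} {T : ℝ}, Valid T cs → node cs T cs.length = 0
  | [], _, h => h
  | c :: cs, T, h => by
      show node cs c.1 cs.length = 0
      exact node_len h.2.2

theorem node_lt : ∀ {cs : Cells} {T : ℝ}, Valid T cs → ∀ {j : ℕ}, j < cs.length →
    node cs T (j + 1) < node cs T j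
  | [], _, _, _, hj => by simp at hj
  | c :: cs, T, h, 0, _ => by
      show node cs c.1 0 < T
      rw [node_zero]; exact h.1
  | c :: cs, T, h, j + 1, hj => by
      show node cs c.1 (j + 1) < node cs c.1 j
      exact node_lt h.2.2 (by simpa using hj)

theorem node_nonneg : ∀ {cs : Cells} {T : ℝ}, Valid T cs → ∀ {j : ℕ}, j ≤ cs.length →
    0 ≤ node cs T j
  | cs, T, h, 0, _ => by rw [node_zero]; exact h.nonneg
  | [], _, _, j + 1, hj => by simp at hj
  | c :: cs, T, h, j + 1, hj => by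
      show 0 ≤ node cs c.1 j
      exact node_nonneg h.2.2 (by simpa using hj)

theorem node_le : ∀ {cs : Cells} {T : ℝ}, Valid T cs → ∀ {j : ℕ}, j ≤ cs.length →
    node cs T j ≤ T
  | cs, T, _, 0, _ => by rw [node_zero]
  | [], _, _, j + 1, hj => by simp at hj
  | c :: cs, T, h, j + 1, hj => by
      show node cs c.1 j ≤ T
      exact (node_le h.2.2 (by simpa using hj)).trans h.1.le

theorem wt_pos : ∀ {cs : Cells} {T : ℝ}, Valid T cs → ∀ {j : ℕ}, j < cs.length → 0 < wt cs j
  | [], _, _, _, hj => by simp at hj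
  | c :: cs, T, h, 0, _ => h.2.1
  | c :: cs, T, h, j + 1, hj => by
      show 0 < wt cs j
      exact wt_pos h.2.2 (by simpa using hj)

theorem mrc_eq : ∀ {cs : Cells} {T : ℝ}, Valid T cs → ∀ {j : ℕ}, j < cs.length → ∀ {r : ℝ},
    r ∈ Ioo (node cs T (j + 1)) (node cs T j) → mrc T cs r = wt cs j
  | [], _, _, _, hj, _, _ => by simp at hj
  | c :: cs, T, h, 0, _, r, hr => by
      have h1 : c.1 < r := by have := hr.1; rwa [show node (c :: cs) T 1 = node cs c.1 0 from rfl,
        node_zero] at this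
      have h2 : r < T := hr.2
      show (if c.1 ≤ r then (if r < T then c.2 else 0) else mrc c.1 cs r) = c.2
      rw [if_pos h1.le, if_pos h2]
  | c :: cs, T, h, j + 1, hj, r, hr => by
      have hj' : j < cs.length := by simpa using hj
      have hr' : r ∈ Ioo (node cs c.1 (j + 1)) (node cs c.1 j) := hr
      have h1 : r < c.1 := hr'.2.trans_le (node_le h.2.2 hj'.le)
      show (if c.1 ≤ r then (if r < T then c.2 else 0) else mrc c.1 cs r) = wt cs j
      rw [if_neg (not_le.2 h1)]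
      exact mrc_eq h.2.2 hj' hr'

/-- fold of the recursion over the first `j` cells -/
def fN (f : ℝ → ℝ) (cs : Cells) (T : ℝ) : ℕ → ℝ → ℝ
  | 0 => f
  | j + 1 => gaussOp (wt cs j) (node cs T j - node cs T (j + 1)) (fN f cs T j)

theorem fN_cons (f : ℝ → ℝ) (c : ℝ × ℝ) (cs : Cells) (T : ℝ) (j : ℕ) :
    fN f (c :: cs) T (j + 1) = fN (gaussOp c.2 (T - c.1) f) cs c.1 j := by
  induction j with
  | zero =>
    show gaussOp c.2 (T - node cs c.1 0) f = gaussOp c.2 (T - c.1) f
    rw [node_zero]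
  | succ j ih =>
    show gaussOp (wt cs j) (node cs c.1 j - node cs c.1 (j + 1)) (fN f (c :: cs) T (j + 1)) =
      gaussOp (wt cs j) (node cs c.1 j - node cs c.1 (j + 1)) (fN (gaussOp c.2 (T - c.1) f) cs c.1 j)
    rw [ih]

theorem Psc_eq : ∀ {cs : Cells} {T : ℝ}, Valid T cs → ∀ f : ℝ → ℝ,
    Psc T f cs 0 = fN f cs T cs.length
  | [], _, _, _ => rfl
  | c :: cs, T, h, f => by
      have h1 : fN f (c :: cs) T (c :: cs).length =
          fN (gaussOp c.2 (T - c.1) f) cs c.1 cs.length := fN_cons f c cs T cs.length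
      rw [h1]
      show (if c.1 ≤ 0 then gaussOp c.2 (T - 0) f else Psc c.1 (gaussOp c.2 (T - c.1) f) cs 0) = _
      split_ifs with h2
      · have h3 : c.1 = 0 := le_antisymm h2 h.2.2.nonneg
        cases cs with
        | nil => rw [h3]; rfl
        | cons c' cs' =>
          exfalso
          have h4 := h.2.2.1
          have h5 := h.2.2.2.2.nonneg
          linarith
      · exact Psc_eq h.2.2 _

/-! ### scaling and monotonicity of `gaussOp` -/

theorem gaussOp_scale {M : ℝ} (hM : 0 < M) (z v : ℝ) (f : ℝ → ℝ) :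
    gaussOp (z / M) v (fun y => M * f y) = fun y => M * gaussOp z v f y := by
  funext x
  unfold gaussOp
  by_cases hz : z = 0
  · rw [if_pos (by rw [hz, zero_div]), if_pos hz, integral_const_mul]
  · rw [if_neg (div_ne_zero hz hM.ne'), if_neg hz]
    have e : (fun g => Real.exp (z / M * (M * f (x + Real.sqrt v * g)))) =
        fun g => Real.exp (z * f (x + Real.sqrt v * g)) := by
      funext g
      congr 1
      field_simp
    rw [e]
    field_simp

theorem gaussOp_meas' {f : ℝ → ℝ} (hf : Measurable f) (z v : ℝ) : Measurable (gaussOp z v f) := by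
  have h2 : Measurable fun p : ℝ × ℝ => f (p.1 + Real.sqrt v * p.2) := hf.comp (by fun_prop)
  by_cases hz : z = 0
  · have : gaussOp z v f = fun x => ∫ g, f (x + Real.sqrt v * g) ∂gaussianReal 0 1 := by
      funext x; unfold gaussOp; rw [if_pos hz]
    rw [this]
    exact h2.stronglyMeasurable.integral_prod_right'.measurable
  · have : gaussOp z v f = fun x =>
        z⁻¹ * Real.log (∫ g, Real.exp (z * f (x + Real.sqrt v * g)) ∂gaussianReal 0 1) := by
      funext x; unfold gaussOp; rw [if_neg hz]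
    rw [this]
    have h3 : Measurable fun p : ℝ × ℝ => Real.exp (z * f (p.1 + Real.sqrt v * p.2)) :=
      (h2.const_mul z).exp
    exact (h3.stronglyMeasurable.integral_prod_right'.measurable.log).const_mul _

/-- measurable and nonpositive -/
structure MN (f : ℝ → ℝ) : Prop where
  meas : Measurable f
  nonpos : ∀ x, f x ≤ 0

theorem MN.exp_int {f : ℝ → ℝ} (h : MN f) {z : ℝ} (hz : 0 < z) (s x : ℝ) :
    Integrable (fun g => Real.exp (z * f (x + s * g))) (gaussianReal 0 1) := by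
  refine Integrable.of_bound (C := 1) ?_ (ae_of_all _ fun g => ?_)
  · exact ((h.meas.comp (by fun_prop : Measurable fun g : ℝ => x + s * g)).const_mul z).exp.aestronglyMeasurable
  · rw [Real.norm_eq_abs, abs_of_pos (Real.exp_pos _), Real.exp_le_one_iff]
    exact mul_nonpos_of_nonneg_of_nonpos hz.le (h.nonpos _)

theorem MN.gop {f : ℝ → ℝ} (h : MN f) {z : ℝ} (hz : 0 < z) (v : ℝ) : MN (gaussOp z v f) where
  meas := gaussOp_meas' h.meas z v
  nonpos x := by
    unfold gaussOp
    rw [if_neg hz.ne']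
    have h1 := integral_mono (h.exp_int hz (Real.sqrt v) x) (integrable_const (1:ℝ)) fun g =>
      Real.exp_le_one_iff.2 (mul_nonpos_of_nonneg_of_nonpos hz.le (h.nonpos _))
    have h2 : 0 < ∫ g, Real.exp (z * f (x + Real.sqrt v * g)) ∂gaussianReal 0 1 :=
      integral_exp_pos (h.exp_int hz (Real.sqrt v) x)
    have h3 : ∫ g, Real.exp (z * f (x + Real.sqrt v * g)) ∂gaussianReal 0 1 ≤ 1 := by
      simpa using h1
    have h4 := Real.log_nonpos h2.le h3
    exact mul_nonpos_of_nonneg_of_nonpos (inv_nonneg.2 hz.le) h4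

theorem gaussOp_mono {f g : ℝ → ℝ} (hf : MN f) (hg : MN g) (hfg : ∀ x, f x ≤ g x) {z : ℝ}
    (hz : 0 < z) (v x : ℝ) : gaussOp z v f x ≤ gaussOp z v g x := by
  unfold gaussOp
  rw [if_neg hz.ne', if_neg hz.ne']
  refine mul_le_mul_of_nonneg_left ?_ (inv_nonneg.2 hz.le)
  refine Real.log_le_log (integral_exp_pos (hf.exp_int hz (Real.sqrt v) x)) ?_
  exact integral_mono (hf.exp_int hz (Real.sqrt v) x) (hg.exp_int hz (Real.sqrt v) x) fun w =>
    Real.exp_le_exp.2 (mul_le_mul_of_nonneg_left (hfg _) hz.le)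

theorem fN_mn {cs : Cells} {T : ℝ} (h : Valid T cs) {f : ℝ → ℝ} (hf : MN f) :
    ∀ {j : ℕ}, j ≤ cs.length → MN (fN f cs T j) := by
  intro j
  induction j with
  | zero => intro _; exact hf
  | succ j ih => intro hj; exact (ih (by omega)).gop (wt_pos h hj) _

theorem fN_mono {cs : Cells} {T : ℝ} (h : Valid T cs) {f g : ℝ → ℝ} (hf : MN f) (hg : MN g)
    (hfg : ∀ x, f x ≤ g x) : ∀ {j : ℕ}, j ≤ cs.length → ∀ x, fN f cs T j x ≤ fN g cs T j x := by
  intro j
  induction j with
  | zero => intro _; exact hfg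
  | succ j ih =>
    intro hj x
    exact gaussOp_mono (fN_mn h hf (by omega)) (fN_mn h hg (by omega)) (ih (by omega)) (wt_pos h hj) _ x

/-! ### the arrays of `CtlE_130` -/

open Crest.Agent.R146.CtlE_130 (Prof val)
open Crest.Agent.R146.S6Def_988 (recV)

/-- nodes from left to right, last node `1` -/
def tA (cs : Cells) (T : ℝ) (i : ℕ) : ℝ :=
  if i = cs.length + 1 then 1 else node cs T (cs.length - i)

/-- scaled weights from left to right, last weight `0` -/
def aA (cs : Cells) (M : ℝ) (i : ℕ) : ℝ :=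
  if i = cs.length then 0 else wt cs (cs.length - 1 - i) / M

theorem tA_last (cs : Cells) (T : ℝ) : tA cs T (cs.length + 1) = 1 := by
  unfold tA; rw [if_pos rfl]

theorem tA_eq (cs : Cells) (T : ℝ) {j : ℕ} (hj : j ≤ cs.length) :
    tA cs T (cs.length - j) = node cs T j := by
  unfold tA
  rw [if_neg (by omega)]
  congr 1
  omega

theorem aA_last (cs : Cells) (M : ℝ) : aA cs M cs.length = 0 := by
  unfold aA; rw [if_pos rfl]

theorem aA_eq (cs : Cells) (M : ℝ) {j : ℕ} (hj : j < cs.length) :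
    aA cs M (cs.length - (j + 1)) = wt cs j / M := by
  unfold aA
  rw [if_neg (by omega)]
  congr 2
  omega

theorem recV_eq {cs : Cells} {T M : ℝ} (hM : 0 < M) (f : ℝ → ℝ) :
    ∀ {j : ℕ}, j ≤ cs.length →
      recV (fun y => M * f y) (tA cs T) (aA cs M) (cs.length + 1) (j + 1) =
        fun y => M * fN (gaussOp 0 (1 - T) f) cs T j y := by
  intro j
  induction j with
  | zero =>
    intro _
    show gaussOp (aA cs M (cs.length + 1 - 1 - 0)) (tA cs T (cs.length + 1 - 0) -
      tA cs T (cs.length + 1 - 1 - 0)) (fun y => M * f y) = fun y => M * gaussOp 0 (1 - T) f y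
    have e1 : cs.length + 1 - 1 - 0 = cs.length := by omega
    have e2 : cs.length + 1 - 0 = cs.length + 1 := by omega
    have e3 : tA cs T cs.length = T := by
      have := tA_eq cs T (j := 0) (Nat.zero_le _)
      rwa [Nat.sub_zero, node_zero] at this
    rw [e1, e2, aA_last, tA_last, e3]
    have := gaussOp_scale hM 0 (1 - T) f
    rwa [zero_div] at this
  | succ j ih =>
    intro hj
    have ih' := ih (by omega)
    show gaussOp (aA cs M (cs.length + 1 - 1 - (j + 1))) (tA cs T (cs.length + 1 - (j + 1)) -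
      tA cs T (cs.length + 1 - 1 - (j + 1)))
        (recV (fun y => M * f y) (tA cs T) (aA cs M) (cs.length + 1) (j + 1)) = _
    have e1 : cs.length + 1 - 1 - (j + 1) = cs.length - (j + 1) := by omega
    have e2 : cs.length + 1 - (j + 1) = cs.length - j := by omega
    rw [ih', e1, e2, aA_eq cs M (by omega), tA_eq cs T (by omega), tA_eq cs T hj,
      gaussOp_scale hM]
    rfl

/-- an upper bound for the weights -/
theorem exists_bound : ∀ (cs : Cells) (T : ℝ), Valid T cs →
    ∃ M : ℝ, 1 ≤ M ∧ (∀ t, mrc T cs t ≤ M) ∧ ∀ j, wt cs j ≤ M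
  | [], T, _ => ⟨1, le_rfl, fun _ => zero_le_one, fun _ => zero_le_one⟩
  | c :: cs, T, h => by
      obtain ⟨M, h1, h2, h3⟩ := exists_bound cs c.1 h.2.2
      refine ⟨max M c.2, h1.trans (le_max_left _ _), fun t => ?_, fun j => ?_⟩
      · show (if c.1 ≤ t then (if t < T then c.2 else 0) else mrc c.1 cs t) ≤ _
        split_ifs
        · exact le_max_right _ _
        · exact zero_le_one.trans (h1.trans (le_max_left _ _))
        · exact (h2 t).trans (le_max_left _ _)
      · cases j with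
        | zero => exact le_max_right _ _
        | succ j => exact (h3 j).trans (le_max_left _ _)

theorem mrc_right : ∀ {cs : Cells} {T : ℝ}, Valid T cs → ∀ {r : ℝ}, T ≤ r → mrc T cs r = 0
  | [], _, _, _, _ => rfl
  | c :: cs, T, h, r, hr => by
      show (if c.1 ≤ r then (if r < T then c.2 else 0) else mrc c.1 cs r) = 0
      rw [if_pos (h.1.le.trans hr), if_neg (not_lt.2 hr)]

theorem cells_arr (A : SD) {M : ℝ} (hM : 1 ≤ M) (hM1 : ∀ t, A.m t ≤ M)
    (hM2 : ∀ j, wt A.cs j ≤ M) :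
    CtlE_130.Cells (fun r => A.m r / M) (tA A.cs A.T) (aA A.cs M) (A.cs.length + 1) where
  prof :=
    { meas := (PtS4b_489.measurable_m A).div_const M
      bd := fun r _ => ⟨div_nonneg (A.m_nonneg r) (by linarith), by
        rw [div_le_one (by linarith)]; exact hM1 r⟩ }
  t0 := by
    have := tA_eq A.cs A.T (j := A.cs.length) le_rfl
    rw [Nat.sub_self] at this
    rw [this, node_len A.hv]
  tn := tA_last _ _
  mono := fun i hi => by
    rcases Nat.lt_succ_iff_lt_or_eq.1 hi with h | h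
    · obtain ⟨j, hj, rfl⟩ : ∃ j, j < A.cs.length ∧ i = A.cs.length - (j + 1) :=
        ⟨A.cs.length - 1 - i, by omega, by omega⟩
      have e : A.cs.length - (j + 1) + 1 = A.cs.length - j := by omega
      rw [e, tA_eq _ _ (by omega), tA_eq _ _ hj.le]
      exact (node_lt A.hv hj).le
    · subst h
      have := tA_eq A.cs A.T (j := 0) (Nat.zero_le _)
      rw [Nat.sub_zero, node_zero] at this
      rw [this, tA_last]
      exact A.hT1.le
  a0 := fun i hi => by
    rcases Nat.lt_succ_iff_lt_or_eq.1 hi with h | h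
    · obtain ⟨j, hj, rfl⟩ : ∃ j, j < A.cs.length ∧ i = A.cs.length - (j + 1) :=
        ⟨A.cs.length - 1 - i, by omega, by omega⟩
      rw [aA_eq _ _ hj]
      exact div_nonneg (wt_pos A.hv hj).le (by linarith)
    · subst h
      rw [aA_last]
  a1 := fun i hi => by
    rcases Nat.lt_succ_iff_lt_or_eq.1 hi with h | h
    · obtain ⟨j, hj, rfl⟩ : ∃ j, j < A.cs.length ∧ i = A.cs.length - (j + 1) :=
        ⟨A.cs.length - 1 - i, by omega, by omega⟩
      rw [aA_eq _ _ hj, div_le_one (by linarith)]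
      exact hM2 j
    · subst h
      rw [aA_last]
      exact zero_le_one
  eq := fun i hi r hr => by
    rcases Nat.lt_succ_iff_lt_or_eq.1 hi with h | h
    · obtain ⟨j, hj, rfl⟩ : ∃ j, j < A.cs.length ∧ i = A.cs.length - (j + 1) :=
        ⟨A.cs.length - 1 - i, by omega, by omega⟩
      have e : A.cs.length - (j + 1) + 1 = A.cs.length - j := by omega
      rw [e, tA_eq _ _ (by omega), tA_eq _ _ hj.le] at hr
      rw [aA_eq _ _ hj]
      show A.m r / M = _
      rw [show A.m r = wt A.cs j from mrc_eq A.hv hj hr]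
    · subst h
      have := tA_eq A.cs A.T (j := 0) (Nat.zero_le _)
      rw [Nat.sub_zero, node_zero] at this
      rw [this] at hr
      rw [aA_last]
      show A.m r / M = 0
      rw [show A.m r = 0 from mrc_right A.hv hr.1.le, zero_div]

/-! ### the start value and the approximation from above -/

open Crest.Agent.R146.DualV_256 (fbk pay fbk_mono)
open Crest.Agent.R146.P34_734 (fq Test)

theorem startPsi_eq (d δ : ℝ) : startPsi d δ = gaussOp 0 δ (fbk (1 / d) 0) := by
  funext x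
  unfold startPsi gaussOp Crest.Agent.R146.Hg_534.H fbk
  rw [if_pos rfl, ← integral_const_mul]
  congr 1
  funext g
  rw [zero_sub]
  ring

theorem gauss_sq_int : Integrable (fun g : ℝ => g ^ 2) (gaussianReal 0 1) :=
  (memLp_id_gaussianReal' 2 (by simp)).integrable_sq

theorem fbk_gint {b : ℝ} (hb : 0 ≤ b) (x s : ℝ) :
    Integrable (fun g => fbk b 0 (x + s * g)) (gaussianReal 0 1) := by
  have h1 : Integrable (fun g : ℝ => b / 2 * (2 * x ^ 2 + 2 * s ^ 2 * g ^ 2))
      (gaussianReal 0 1) :=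
    (((integrable_const _).add (gauss_sq_int.const_mul _)).const_mul _)
  refine h1.mono' ?_ (ae_of_all _ fun g => ?_)
  · exact ((DualV_256.measurable_fbk b 0).comp
      (by fun_prop : Measurable fun g : ℝ => x + s * g)).aestronglyMeasurable
  · have h2 : (x + s * g) ^ 2 ≤ 2 * x ^ 2 + 2 * s ^ 2 * g ^ 2 := by nlinarith [sq_nonneg (x - s * g)]
    have h3 : |fbk b 0 (x + s * g)| ≤ b / 2 * (x + s * g) ^ 2 := by
      unfold fbk
      rw [abs_mul, abs_neg, abs_of_nonneg (by positivity : 0 ≤ b / 2),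
        abs_of_nonneg (sq_nonneg _)]
      refine mul_le_mul_of_nonneg_left ?_ (by positivity)
      rcases le_total (0 - (x + s * g)) 0 with h | h
      · rw [max_eq_right h, zero_pow two_ne_zero]; exact sq_nonneg _
      · rw [max_eq_left h]; nlinarith
    rw [Real.norm_eq_abs]
    exact h3.trans (mul_le_mul_of_nonneg_left h2 (by positivity))

theorem reg_of_test {φ : ℝ → ℝ} (h : Test φ) (M : ℝ) :
    ∃ K L C : ℝ, 0 < L ∧ CtlB_130.Reg (fun y => M * φ y) (fun y => M * deriv φ y)
      (fun y => M * deriv (deriv φ) y) K L C := by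
  obtain ⟨C0, h0⟩ := h.bd 0
  obtain ⟨C1, h1⟩ := h.bd 1
  obtain ⟨C2, h2⟩ := h.bd 2
  have hs : ContDiff ℝ 2 φ := h.smooth 2
  have hd : Differentiable ℝ φ := hs.differentiable (by norm_num)
  have hs1 : ContDiff ℝ 1 (deriv φ) := by
    have : ContDiff ℝ (1 + 1) φ := by simpa [one_add_one_eq_two] using hs
    exact (contDiff_succ_iff_deriv.1 this).2.2
  have hd1 : Differentiable ℝ (deriv φ) := hs1.differentiable (by norm_num)
  have hc2 : Continuous (deriv (deriv φ)) := hs1.continuous_deriv (by norm_num)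
  have e1 : ∀ x, |deriv φ x| ≤ C1 := fun x => by
    have := h1 x; rwa [iteratedDeriv_one] at this
  have e2 : ∀ x, |deriv (deriv φ) x| ≤ C2 := fun x => by
    have := h2 x
    rwa [iteratedDeriv_succ, iteratedDeriv_one] at this
  have e0 : ∀ x, |φ x| ≤ C0 := fun x => by have := h0 x; rwa [iteratedDeriv_zero] at this
  refine ⟨|M| * C0, |M| * C1 + 1, |M| * C2, ?_, ⟨fun y => (hd y).hasDerivAt.const_mul M,
    fun y => (hd1 y).hasDerivAt.const_mul M, hc2.const_mul M, fun y => ?_, fun y => ?_,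
    fun y => ?_⟩⟩
  · have : 0 ≤ C1 := (abs_nonneg _).trans (e1 0)
    have := mul_nonneg (abs_nonneg M) this
    linarith
  · rw [abs_mul]; exact mul_le_mul_of_nonneg_left (e0 y) (abs_nonneg M)
  · rw [abs_mul]
    have := mul_le_mul_of_nonneg_left (e1 y) (abs_nonneg M)
    linarith
  · rw [abs_mul]; exact mul_le_mul_of_nonneg_left (e2 y) (abs_nonneg M)

/-! ### controls -/

section ctl

variable {Ω : Type*} [mΩ : MeasurableSpace Ω] {P : Measure Ω} [IsProbabilityMeasure P]
  {B : ℝ≥0 → Ω → ℝ} {hBm : ∀ t, Measurable (B t)}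

open Crest.Agent.R146.CtlC_130 (Ctl F F_le)
open Crest.Agent.R146.DualC1_256 (Wt Adm cost II wm vh)

theorem exists_m_le (A : SD) : ∃ M : ℝ, 1 ≤ M ∧ (∀ t, A.m t ≤ M) ∧ ∀ j, wt A.cs j ≤ M :=
  exists_bound A.cs A.T A.hv

theorem wt_SD (A : SD) : Wt A.m where
  meas := PtS4b_489.measurable_m A
  int := by
    obtain ⟨M, _, h2, _⟩ := exists_m_le A
    refine Measure.integrableOn_of_bounded (M := M) (by simp)
      (PtS4b_489.measurable_m A).aestronglyMeasurable (ae_of_all _ fun t => ?_)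
    rw [Real.norm_eq_abs, abs_of_nonneg (A.m_nonneg t)]
    exact h2 t
  nonneg := fun t _ => A.m_nonneg t

theorem adm_of_ctl (A : SD) {L : ℝ} {v : ℝ≥0 → Ω → ℝ} (hv : Ctl hBm L v) :
    Adm (brownianFiltration B hBm) P A.m v where
  prog := hv.prog
  fin := by
    obtain ⟨M, h1, h2, _⟩ := exists_m_le A
    have h3 : ∀ ω, ∫⁻ t in Icc (0 : ℝ) 1, ENNReal.ofReal (A.m t * v (Real.toNNReal t) ω ^ 2) ≤
        ENNReal.ofReal (M * L ^ 2) := by
      intro ω
      have h4 : ∫⁻ t in Icc (0 : ℝ) 1, ENNReal.ofReal (A.m t * v (Real.toNNReal t) ω ^ 2) ≤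
          ∫⁻ _ in Icc (0 : ℝ) 1, ENNReal.ofReal (M * L ^ 2) := by
        refine setLIntegral_mono measurable_const fun r _ => ?_
        refine ENNReal.ofReal_le_ofReal ?_
        refine mul_le_mul (h2 r) ?_ (sq_nonneg _) (by linarith)
        rw [← sq_abs (v r.toNNReal ω)]
        exact pow_le_pow_left₀ (abs_nonneg _) (hv.bd _ _) 2
      refine h4.trans ?_
      simp
    calc ∫⁻ ω, ∫⁻ t in Icc (0 : ℝ) 1, ENNReal.ofReal (A.m t * v (Real.toNNReal t) ω ^ 2) ∂volume ∂P
        ≤ ∫⁻ _, ENNReal.ofReal (M * L ^ 2) ∂P := lintegral_mono h3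
      _ < ⊤ := by simp

theorem cost_ctl (A : SD) {L : ℝ} {v : ℝ≥0 → Ω → ℝ} (hv : Ctl hBm L v) :
    cost P A.m v = ∫ ω, (∫ r in (0 : ℝ)..1, A.m r * v r.toNNReal ω ^ 2) ∂P := by
  have hw := wt_SD A
  have hA := adm_of_ctl (P := P) A hv
  have := DualC1_256.isFinite_wm hw
  have hi : Integrable (fun p => vh v p ^ 2) ((wm A.m).prod P) :=
    (DualC1_256.memLp_vh hw hA).integrable_sq
  rw [DualC1_256.cost_eq hw hA, integral_prod_symm _ hi]
  refine integral_congr_ae (ae_of_all _ fun ω => ?_)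
  show ∫ t, vh v (t, ω) ^ 2 ∂wm A.m = ∫ r in (0 : ℝ)..1, A.m r * v r.toNNReal ω ^ 2
  rw [DualC1_256.wm_integral hw, intervalIntegral.integral_of_le zero_le_one,
    ← integral_Icc_eq_integral_Ioc]
  refine setIntegral_congr_fun measurableSet_Icc fun t ht => ?_
  show A.m t * vh v (t, ω) ^ 2 = _
  rw [DualC1_256.vh_eq ht]

/-- positive part of the scaled control -/
def pv (M : ℝ) (v : ℝ≥0 → Ω → ℝ) : ℝ≥0 → Ω → ℝ := fun r ω => max (v r ω / M) 0

theorem pv_ctl {M L : ℝ} (hM : 1 ≤ M) {v : ℝ≥0 → Ω → ℝ} (hv : Ctl hBm L v) :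
    Ctl hBm L (pv M v) := by
  constructor
  · intro i
    exact Measurable.max ((hv.prog i).div_const M) measurable_const
  · intro r ω
    have hM0 : (0:ℝ) < M := by linarith
    unfold pv
    rw [abs_of_nonneg (le_max_right _ _)]
    have h1 := hv.bd r ω
    have hL : 0 ≤ L := (abs_nonneg _).trans h1
    refine max_le ?_ hL
    rw [div_le_iff₀ hM0]
    have h2 := le_abs_self (v r ω)
    nlinarith

variable (hB : IsBrownianReal B P)

theorem meas_Y (A : SD) {L : ℝ} {v : ℝ≥0 → Ω → ℝ} (hv : Ctl hBm L v) :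
    Measurable (fun ω => ∫ r in (0 : ℝ)..1, A.m r * v r.toNNReal ω) :=
  (CtlC_130.meas_int hv.prog zero_le_one (g := fun r y => A.m r * y)
    (((PtS4b_489.measurable_m A).comp measurable_fst).mul measurable_snd)).mono (F_le hBm _) le_rfl

theorem meas_Y2 (A : SD) {L : ℝ} {v : ℝ≥0 → Ω → ℝ} (hv : Ctl hBm L v) :
    Measurable (fun ω => ∫ r in (0 : ℝ)..1, A.m r * v r.toNNReal ω ^ 2) :=
  (CtlC_130.meas_int hv.prog zero_le_one (g := fun r y => A.m r * y ^ 2)
    (((PtS4b_489.measurable_m A).comp measurable_fst).mul (measurable_snd.pow_const 2))).mono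
    (F_le hBm _) le_rfl

theorem bd_Y (A : SD) {M : ℝ} (hM2 : ∀ t, A.m t ≤ M) {L : ℝ} {v : ℝ≥0 → Ω → ℝ}
    (hv : Ctl hBm L v) (ω : Ω) : |∫ r in (0 : ℝ)..1, A.m r * v r.toNNReal ω| ≤ M * L := by
  have := intervalIntegral.norm_integral_le_of_norm_le_const (a := (0:ℝ)) (b := 1)
    (f := fun r => A.m r * v r.toNNReal ω) (C := M * L) (fun r _ => by
      rw [Real.norm_eq_abs, abs_mul, abs_of_nonneg (A.m_nonneg r)]
      exact mul_le_mul (hM2 r) (hv.bd _ _) (abs_nonneg _) ((A.m_nonneg r).trans (hM2 r)))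
  simpa using this

theorem bd_Y2 (A : SD) {M : ℝ} (hM2 : ∀ t, A.m t ≤ M) {L : ℝ} {v : ℝ≥0 → Ω → ℝ}
    (hv : Ctl hBm L v) (ω : Ω) : |∫ r in (0 : ℝ)..1, A.m r * v r.toNNReal ω ^ 2| ≤ M * L ^ 2 := by
  have := intervalIntegral.norm_integral_le_of_norm_le_const (a := (0:ℝ)) (b := 1)
    (f := fun r => A.m r * v r.toNNReal ω ^ 2) (C := M * L ^ 2) (fun r _ => by
      rw [Real.norm_eq_abs, abs_mul, abs_of_nonneg (A.m_nonneg r), abs_pow]
      exact mul_le_mul (hM2 r) (pow_le_pow_left₀ (abs_nonneg _) (hv.bd _ _) 2) (by positivity)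
        ((A.m_nonneg r).trans (hM2 r)))
  simpa using this

theorem int_v (A : SD) {L : ℝ} {v : ℝ≥0 → Ω → ℝ} (hv : Ctl hBm L v) (ω : Ω) :
    IntervalIntegrable (fun r => A.m r * v r.toNNReal ω) volume 0 1 := by
  obtain ⟨M, _, h2, _⟩ := exists_m_le A
  exact hv.intv (PtS4b_489.measurable_m A) (c := M) (fun r _ => by
    rw [abs_of_nonneg (A.m_nonneg r)]; exact h2 r) zero_le_one ω

theorem int_v2 (A : SD) {L : ℝ} {v : ℝ≥0 → Ω → ℝ} (hv : Ctl hBm L v) (ω : Ω) :
    IntervalIntegrable (fun r => A.m r * v r.toNNReal ω ^ 2) volume 0 1 := by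
  obtain ⟨M, _, h2, _⟩ := exists_m_le A
  exact hv.intv2 (PtS4b_489.measurable_m A) (c := M) (fun r _ => by
    rw [abs_of_nonneg (A.m_nonneg r)]; exact h2 r) zero_le_one ω

include hB

omit [IsProbabilityMeasure P] in
theorem int_expB (x0 : ℝ) : Integrable (fun ω => Real.exp (2 * (x0 + B 1 ω)) +
    Real.exp (-(2 * (x0 + B 1 ω)))) P := by
  have hl := hB.toIsPreBrownianReal.hasLaw_eval 1
  have hm : AEMeasurable (B 1) P := hl.aemeasurable
  have h1 : ∀ c : ℝ, Integrable (fun ω => Real.exp (c * B 1 ω)) P := by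
    intro c
    have h2 : Integrable (fun x : ℝ => Real.exp (c * x)) (P.map (B 1)) := by
      rw [hl.map_eq]
      exact integrable_exp_mul_gaussianReal _
    exact h2.comp_aemeasurable hm
  have e : (fun ω => Real.exp (2 * (x0 + B 1 ω)) + Real.exp (-(2 * (x0 + B 1 ω)))) =
      fun ω => Real.exp (2 * x0) * Real.exp (2 * B 1 ω) +
        Real.exp (-(2 * x0)) * Real.exp (-2 * B 1 ω) := by
    funext ω
    rw [← Real.exp_add, ← Real.exp_add]
    congr 2 <;> ring
  rw [e]
  exact ((h1 2).const_mul _).add ((h1 (-2)).const_mul _)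

/-- step 1: from `val` (scaled) to the payoff with the smooth function -/
theorem val_scaled (A : SD) {M L K : ℝ} (hM : 1 ≤ M) {φ : ℝ → ℝ} (hφc : Continuous φ)
    (hφm : Monotone φ) (hφb : ∀ x, |φ x| ≤ K) (x0 : ℝ) {v : ℝ≥0 → Ω → ℝ} (hv : Ctl hBm L v) :
    val P B (fun r => A.m r / M) (fun y => M * φ y) 0 (fun _ => x0) v ≤
      M * (∫ ω, φ (x0 + B 1 ω + ∫ r in (0 : ℝ)..1, A.m r * pv M v r.toNNReal ω) ∂P -
        1 / 2 * ∫ ω, (∫ r in (0 : ℝ)..1, A.m r * pv M v r.toNNReal ω ^ 2) ∂P) := by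
  have hM0 : (0:ℝ) < M := by linarith
  have hp := pv_ctl hM hv
  obtain ⟨M', _, hM', _⟩ := exists_m_le A
  have h0 : ∀ᵐ ω ∂P, B 0 ω = 0 := hB.toIsPreBrownianReal.eval_zero_ae_eq_zero
  have hK : 0 ≤ K := (abs_nonneg _).trans (hφb 0)
  have eI : ∀ ω, ∫ r in (0 : ℝ)..1, A.m r / M * v r.toNNReal ω =
      ∫ r in (0 : ℝ)..1, A.m r * (v r.toNNReal ω / M) := fun ω => by
    congr 1; funext r; ring
  have hvM : Ctl hBm L (fun r ω => v r ω / M) := by
    constructor
    · intro i; exact (hv.prog i).div_const M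
    · intro r ω
      have h1 := hv.bd r ω
      have hL : 0 ≤ L := (abs_nonneg _).trans h1
      rw [abs_div, abs_of_pos hM0, div_le_iff₀ hM0]
      nlinarith
  have hmI : ∀ ω, ∫ r in (0 : ℝ)..1, A.m r * (v r.toNNReal ω / M) ≤
      ∫ r in (0 : ℝ)..1, A.m r * pv M v r.toNNReal ω := fun ω => by
    refine intervalIntegral.integral_mono_on zero_le_one (int_v A hvM ω) (int_v A hp ω)
      fun r _ => ?_
    exact mul_le_mul_of_nonneg_left (le_max_left _ _) (A.m_nonneg r)
  have i1 : Integrable (fun ω => M * φ (x0 + (B (1:ℝ).toNNReal ω - B (0:ℝ).toNNReal ω) +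
      ∫ r in (0:ℝ)..1, A.m r / M * v r.toNNReal ω)) P := by
    refine Integrable.of_bound (C := M * K) ?_ (ae_of_all _ fun ω => ?_)
    · simp only [eI]
      exact ((hφc.measurable.comp (((hBm _).sub (hBm _)).const_add x0 |>.add
        (meas_Y A hvM))).const_mul M).aestronglyMeasurable
    · rw [Real.norm_eq_abs, abs_mul, abs_of_pos hM0]
      exact mul_le_mul_of_nonneg_left (hφb _) hM0.le
  have i2 : Integrable (fun ω => φ (x0 + B 1 ω + ∫ r in (0 : ℝ)..1, A.m r * pv M v r.toNNReal ω)) P := by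
    refine Integrable.of_bound (C := K) ?_ (ae_of_all _ fun ω => ?_)
    · exact (hφc.measurable.comp (((hBm _).const_add x0).add (meas_Y A hp))).aestronglyMeasurable
    · rw [Real.norm_eq_abs]; exact hφb _
  unfold val
  rw [mul_sub]
  refine sub_le_sub ?_ ?_
  · rw [← integral_const_mul]
    refine integral_mono_ae i1 (i2.const_mul M) ?_
    filter_upwards [h0] with ω hω
    refine mul_le_mul_of_nonneg_left (hφm ?_) hM0.le
    rw [Real.toNNReal_one, Real.toNNReal_zero, hω, sub_zero, eI]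
    linarith [hmI ω]
  · have j1 : Integrable (fun ω => ∫ r in (0:ℝ)..1, A.m r / M * v r.toNNReal ω ^ 2) P := by
      have e : (fun ω => ∫ r in (0:ℝ)..1, A.m r / M * v r.toNNReal ω ^ 2) =
          fun ω => (1 / M) * ∫ r in (0:ℝ)..1, A.m r * v r.toNNReal ω ^ 2 := by
        funext ω
        rw [← intervalIntegral.integral_const_mul]
        congr 1; funext r; ring
      rw [e]
      refine Integrable.const_mul ?_ _
      exact Integrable.of_bound (C := M' * L ^ 2) (meas_Y2 A hv).aestronglyMeasurable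
        (ae_of_all _ fun ω => by rw [Real.norm_eq_abs]; exact bd_Y2 A hM' hv ω)
    have j2 : Integrable (fun ω => ∫ r in (0 : ℝ)..1, A.m r * pv M v r.toNNReal ω ^ 2) P :=
      Integrable.of_bound (C := M' * L ^ 2) (meas_Y2 A hp).aestronglyMeasurable
        (ae_of_all _ fun ω => by rw [Real.norm_eq_abs]; exact bd_Y2 A hM' hp ω)
    have h1 : M * ∫ ω, (∫ r in (0 : ℝ)..1, A.m r * pv M v r.toNNReal ω ^ 2) ∂P ≤
        ∫ ω, (∫ r in (0:ℝ)..1, A.m r / M * v r.toNNReal ω ^ 2) ∂P := by
      rw [← integral_const_mul]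
      refine integral_mono (j2.const_mul M) j1 fun ω => ?_
      simp only
      rw [← intervalIntegral.integral_const_mul]
      have hi2 : IntervalIntegrable (fun r => A.m r / M * v r.toNNReal ω ^ 2) volume 0 1 := by
        have := (int_v2 A hv ω).const_mul (1 / M)
        refine this.congr ?_
        intro r _
        simp only
        ring
      refine intervalIntegral.integral_mono_on zero_le_one ((int_v2 A hp ω).const_mul M) hi2
        fun r _ => ?_
      have h2 : pv M v r.toNNReal ω ^ 2 ≤ (v r.toNNReal ω / M) ^ 2 := by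
        unfold pv
        rcases le_total (v r.toNNReal ω / M) 0 with h | h
        · rw [max_eq_right h, zero_pow two_ne_zero]; exact sq_nonneg _
        · rw [max_eq_left h]
      have h3 : A.m r / M * v r.toNNReal ω ^ 2 = M * (A.m r * (v r.toNNReal ω / M) ^ 2) := by
        field_simp
      rw [h3]
      exact mul_le_mul_of_nonneg_left (mul_le_mul_of_nonneg_left h2 (A.m_nonneg r)) hM0.le
    linarith

/-- step 2: from the smooth function to the quadratic payoff -/
theorem smooth_to_quad (A : SD) {M L K b c : ℝ} (hM : 1 ≤ M) (hb : 0 ≤ b) {φ : ℝ → ℝ}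
    (hφc : Continuous φ) (hφb : ∀ x, |φ x| ≤ K) (hanti : Antitone fun x => φ x - fbk b 0 x)
    (hφu : ∀ x, φ x - fbk b 0 x ≤ c * (Real.exp (2 * x) + Real.exp (-(2 * x)))) (x0 : ℝ)
    {v : ℝ≥0 → Ω → ℝ} (hv : Ctl hBm L v) :
    ∫ ω, φ (x0 + B 1 ω + ∫ r in (0 : ℝ)..1, A.m r * pv M v r.toNNReal ω) ∂P ≤
      ∫ ω, fbk b (-x0) (B 1 ω + ∫ r in (0 : ℝ)..1, A.m r * pv M v r.toNNReal ω) ∂P +
      c * ∫ ω, (Real.exp (2 * (x0 + B 1 ω)) + Real.exp (-(2 * (x0 + B 1 ω)))) ∂P := by
  have hp := pv_ctl hM hv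
  obtain ⟨M', _, hM', _⟩ := exists_m_le A
  have hY0 : ∀ ω, 0 ≤ ∫ r in (0 : ℝ)..1, A.m r * pv M v r.toNNReal ω := fun ω => by
    refine intervalIntegral.integral_nonneg zero_le_one fun r _ => ?_
    exact mul_nonneg (A.m_nonneg r) (le_max_right _ _)
  have e1 : ∀ y, fbk b (-x0) y = fbk b 0 (x0 + y) := fun y => by
    unfold fbk
    congr 3
    ring
  have i2 : Integrable (fun ω => φ (x0 + B 1 ω + ∫ r in (0 : ℝ)..1, A.m r * pv M v r.toNNReal ω)) P := by
    refine Integrable.of_bound (C := K) ?_ (ae_of_all _ fun ω => ?_)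
    · exact (hφc.measurable.comp (((hBm _).const_add x0).add (meas_Y A hp))).aestronglyMeasurable
    · rw [Real.norm_eq_abs]; exact hφb _
  have hX : MemLp (fun ω => x0 + (B 1 ω + ∫ r in (0 : ℝ)..1, A.m r * pv M v r.toNNReal ω)) 2 P := by
    have h1 : MemLp (fun ω => ∫ r in (0 : ℝ)..1, A.m r * pv M v r.toNNReal ω) 2 P :=
      MemLp.of_bound (meas_Y A hp).aestronglyMeasurable (M' * L)
        (ae_of_all _ fun ω => by rw [Real.norm_eq_abs]; exact bd_Y A hM' hp ω)
    exact (memLp_const x0).add ((DualL_256.memLp_B hB 1).add h1)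
  have i3 : Integrable (fun ω => fbk b (-x0) (B 1 ω + ∫ r in (0 : ℝ)..1, A.m r * pv M v r.toNNReal ω)) P := by
    refine (hX.integrable_sq.const_mul (b / 2)).mono' ?_ (ae_of_all _ fun ω => ?_)
    · exact ((DualV_256.measurable_fbk b (-x0)).comp ((hBm _).add (meas_Y A hp))).aestronglyMeasurable
    · rw [e1, Real.norm_eq_abs]
      set y := x0 + (B 1 ω + ∫ r in (0 : ℝ)..1, A.m r * pv M v r.toNNReal ω) with hy
      unfold fbk
      rw [abs_mul, abs_neg, abs_of_nonneg (by positivity : 0 ≤ b / 2),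
        abs_of_nonneg (sq_nonneg _)]
      refine mul_le_mul_of_nonneg_left ?_ (by positivity)
      rcases le_total (0 - y) 0 with h | h
      · rw [max_eq_right h, zero_pow two_ne_zero]; exact sq_nonneg _
      · rw [max_eq_left h]; nlinarith
  rw [← integral_const_mul, ← integral_add i3 ((int_expB hB x0).const_mul c)]
  refine integral_mono i2 (i3.add ((int_expB hB x0).const_mul c)) fun ω => ?_
  simp only
  rw [e1]
  have h1 := hanti (show x0 + B 1 ω ≤ x0 + (B 1 ω + ∫ r in (0 : ℝ)..1, A.m r * pv M v r.toNNReal ω) by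
    linarith [hY0 ω])
  simp only at h1
  have h2 := hφu (x0 + B 1 ω)
  have e2 : x0 + B 1 ω + ∫ r in (0 : ℝ)..1, A.m r * pv M v r.toNNReal ω =
      x0 + (B 1 ω + ∫ r in (0 : ℝ)..1, A.m r * pv M v r.toNNReal ω) := by ring
  rw [e2]
  linarith

/-- **(BR-LB)**, controls whose payoff is at least `ψ(0,x0) - ε` -/
theorem ctl_ge (hBm : ∀ t, Measurable (B t)) (A : SD) (x0 : ℝ) {ε : ℝ} (hε : 0 < ε) :
    ∃ v, Adm (brownianFiltration B hBm) P A.m v ∧
      A.psi 0 x0 - ε ≤ pay P (fbk (1 / A.d) (-x0)) (B 1) A.m v := by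
  obtain ⟨M, hM, hM1, hM2⟩ := exists_m_le A
  have hM0 : (0:ℝ) < M := by linarith
  have hd := A.hd
  have hb : 0 ≤ 1 / A.d := by positivity
  set C0 := ∫ ω, (Real.exp (2 * (x0 + B 1 ω)) + Real.exp (-(2 * (x0 + B 1 ω)))) ∂P with hC0
  have hC0' : 0 ≤ C0 := integral_nonneg fun ω => by positivity
  set c := ε / (2 * (C0 + 1)) with hc
  have hc0 : 0 < c := by positivity
  have hcC : c * C0 ≤ ε / 2 := by
    rw [hc, div_mul_eq_mul_div, div_le_div_iff₀ (by positivity) two_pos]
    nlinarith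
  obtain ⟨φ, hT, hle, hanti, hmono, hneg, hu⟩ := SmoothApx_323.exists_smooth_above hb 0 hc0
  have hfq : ∀ x, fq (1 / A.d) 0 x = fbk (1 / A.d) 0 x := fun x => rfl
  simp only [hfq] at hle hanti hu
  obtain ⟨K, L, C, hL, hreg⟩ := reg_of_test hT M
  have hφc : Continuous φ := (hT.smooth 0).continuous
  have hφb : ∀ x, |φ x| ≤ K / M := fun x => by
    have h1 := hreg.bK x
    rw [abs_mul, abs_of_pos hM0] at h1
    rw [le_div_iff₀ hM0]; linarith
  -- the recursion
  have hcells := cells_arr A hM hM1 hM2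
  obtain ⟨v, hv, h1⟩ := CtlE_130.val_ge (P := P) (hBm := hBm) hB hcells hreg hL (A.cs.length + 1)
    le_rfl (M * (ε / 2)) (by positivity) (fun _ => x0) measurable_const
  have et0 : tA A.cs A.T (A.cs.length + 1 - (A.cs.length + 1)) = 0 := by
    rw [Nat.sub_self]; 
    have := tA_eq A.cs A.T (j := A.cs.length) le_rfl
    rw [Nat.sub_self] at this
    rw [this, node_len A.hv]
  rw [et0, recV_eq hM0 φ le_rfl] at h1
  simp only [integral_const, probReal_univ, one_smul] at h1
  -- monotonicity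
  have hf0 : MN (gaussOp 0 (1 - A.T) (fbk (1 / A.d) 0)) := by
    refine ⟨gaussOp_meas' (DualV_256.measurable_fbk _ _) _ _, fun x => ?_⟩
    unfold gaussOp
    rw [if_pos rfl]
    exact integral_nonpos fun g => DualV_256.fbk_nonpos hb _ _
  have hf1 : MN (gaussOp 0 (1 - A.T) φ) := by
    refine ⟨gaussOp_meas' hφc.measurable _ _, fun x => ?_⟩
    unfold gaussOp
    rw [if_pos rfl]
    exact integral_nonpos fun g => hneg _
  have hle0 : ∀ x, gaussOp 0 (1 - A.T) (fbk (1 / A.d) 0) x ≤ gaussOp 0 (1 - A.T) φ x := by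
    intro x
    unfold gaussOp
    rw [if_pos rfl, if_pos rfl]
    have hi1 : Integrable (fun g => φ (x + Real.sqrt (1 - A.T) * g)) (gaussianReal 0 1) :=
      Integrable.of_bound (C := K / M) (hφc.comp (by fun_prop)).aestronglyMeasurable
        (ae_of_all _ fun g => by rw [Real.norm_eq_abs]; exact hφb _)
    exact integral_mono (fbk_gint hb _ _) hi1 fun g => hle _
  have h2 : A.psi 0 x0 ≤ fN (gaussOp 0 (1 - A.T) φ) A.cs A.T A.cs.length x0 := by
    have h3 : A.psi 0 x0 = fN (gaussOp 0 (1 - A.T) (fbk (1 / A.d) 0)) A.cs A.T A.cs.length x0 := by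
      show Psc A.T (startPsi A.d A.dl) A.cs 0 x0 = _
      rw [startPsi_eq, Psc_eq A.hv]
      rfl
    rw [h3]
    exact fN_mono A.hv hf0 hf1 hle0 le_rfl x0
  have h4 := val_scaled (P := P) hB A hM hφc hmono hφb x0 hv
  have h5 := smooth_to_quad (P := P) hB A hM hb hφc hφb hanti hu x0 hv
  have hp := pv_ctl hM hv
  refine ⟨pv M v, adm_of_ctl A hp, ?_⟩
  have h6 : pay P (fbk (1 / A.d) (-x0)) (B 1) A.m (pv M v) =
      ∫ ω, fbk (1 / A.d) (-x0) (B 1 ω + ∫ r in (0 : ℝ)..1, A.m r * pv M v r.toNNReal ω) ∂P -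
      1 / 2 * ∫ ω, (∫ r in (0 : ℝ)..1, A.m r * pv M v r.toNNReal ω ^ 2) ∂P := by
    unfold pay
    rw [cost_ctl A hp]
    simp only [DualC1_256.II_eq (wt_SD A)]
    ring
  rw [h6]
  have h7 : M * fN (gaussOp 0 (1 - A.T) φ) A.cs A.T A.cs.length x0 - M * (ε / 2) ≤
      M * (∫ ω, φ (x0 + B 1 ω + ∫ r in (0 : ℝ)..1, A.m r * pv M v r.toNNReal ω) ∂P -
        1 / 2 * ∫ ω, (∫ r in (0 : ℝ)..1, A.m r * pv M v r.toNNReal ω ^ 2) ∂P) := h1.trans h4
  rw [← mul_sub] at h7
  have h8 := le_of_mul_le_mul_left h7 hM0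
  linarith

/-- weak duality: `ψ(0,x0)` is at most every value of the dual functional -/
theorem psi_le_QQ (hBm : ∀ t, Measurable (B t)) (A : SD) (x0 : ℝ) {x : Ω →₂[P] ℝ}
    (hx : x ∈ DualV_256.cone P) :
    A.psi 0 x0 ≤ DualV_256.QQ (brownianFiltration B hBm) A.m (1 / A.d) (-x0)
      (DualL_256.ZB hB) x := by
  have hd := A.hd
  refine le_of_forall_pos_le_add fun ε hε => ?_
  obtain ⟨v, hv, h1⟩ := ctl_ge (P := P) hB hBm A x0 hε
  have h2 := DualV_256.pay_le (wt_SD A) hv (DualL_256.ZB_coe hB) (by positivity : 0 < 1 / A.d)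
    (-x0) hx
  linarith

end ctl

end Crest.Agent.R146.BrLB_522
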