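import Crest.Agent.R146.CtlE_130
import Crest.Agent.R146.DualL_256
import Crest.Agent.R146.SmoothApx_323
import Crest.Agent.R146.StepDef_791

/-!
Row 146, R3 bridge (task 154 of helper256), leaf BR-LB (helper952): weak duality for the step system
of `StepDef_791`, part a: the recursion as a fold over the cells, near-optimal bounded controls.
-/

set_option autoImplicit false

namespace Crest.Agent.R146.BrLBa_952

open MeasureTheory ProbabilityTheory Filter Topology Set
open Crest.ProbabilityR.InvariantGlass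
open Crest.ProbabilityR.Perceptron
open Crest.Agent.R146.CtlA_130 Crest.Agent.R146.CtlB_130 Crest.Agent.R146.CtlC_130
open Crest.Agent.R146.CtlE_130 (val Prof val_split val_glue glue glue_ctl)
open Crest.Agent.R146.StepDef_791 (Valid mrc Psc startPsi SD)
open scoped NNReal

noncomputable section

/-! ### the recursion -/

/-- measurable nonpositive functions -/
structure NM (f : ℝ → ℝ) : Prop where
  meas : Measurable f
  np : ∀ x, f x ≤ 0

lemma NM.exp_le {f : ℝ → ℝ} (h : NM f) {a : ℝ} (ha : 0 ≤ a) (y : ℝ) : Real.exp (a * f y) ≤ 1 := by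
  rw [← Real.exp_zero]
  exact Real.exp_le_exp.2 (mul_nonpos_of_nonneg_of_nonpos ha (h.np y))

lemma NM.exp_int {f : ℝ → ℝ} (h : NM f) {a : ℝ} (ha : 0 ≤ a) (t x : ℝ) :
    Integrable (fun g => Real.exp (a * f (x + t * g))) (gaussianReal 0 1) := by
  refine Integrable.of_bound
    ((h.meas.comp (by fun_prop)).const_mul a).exp.aestronglyMeasurable 1 ?_
  refine ae_of_all _ fun g => ?_
  rw [Real.norm_eq_abs, abs_of_pos (Real.exp_pos _)]
  exact h.exp_le ha _

lemma gaussOp_pos {f : ℝ → ℝ} {a : ℝ} (ha : 0 < a) (v z : ℝ) :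
    gaussOp a v f z = a⁻¹ * Real.log (∫ g, Real.exp (a * f (z + Real.sqrt v * g))
      ∂gaussianReal 0 1) := by
  unfold gaussOp
  rw [if_neg ha.ne']

lemma gaussOp_nm {f : ℝ → ℝ} (h : NM f) {a : ℝ} (ha : 0 < a) (v : ℝ) : NM (gaussOp a v f) := by
  have e : gaussOp a v f = fun z => a⁻¹ * Real.log (∫ g, Real.exp (a * f (z + Real.sqrt v * g))
      ∂gaussianReal 0 1) := funext fun z => gaussOp_pos ha v z
  rw [e]
  constructor
  · have h1 : StronglyMeasurable (fun p : ℝ × ℝ => Real.exp (a * f (p.1 + Real.sqrt v * p.2))) :=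
      (((h.meas.comp (by fun_prop)).const_mul a).exp).stronglyMeasurable
    exact ((h1.integral_prod_right (ν := gaussianReal 0 1)).measurable.log).const_mul _
  · intro x
    refine mul_nonpos_of_nonneg_of_nonpos (inv_nonneg.2 ha.le) (Real.log_nonpos
      (integral_nonneg fun g => (Real.exp_pos _).le) ?_)
    have := integral_mono (h.exp_int ha.le (Real.sqrt v) x)
      (integrable_const (1 : ℝ) (μ := gaussianReal 0 1)) fun g => h.exp_le ha.le _
    simpa using this

lemma gaussOp_mono {f g : ℝ → ℝ} (hf : NM f) (hg : NM g) (hfg : ∀ x, f x ≤ g x) {a : ℝ}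
    (ha : 0 < a) (v x : ℝ) : gaussOp a v f x ≤ gaussOp a v g x := by
  rw [gaussOp_pos ha, gaussOp_pos ha]
  refine mul_le_mul_of_nonneg_left ?_ (inv_nonneg.2 ha.le)
  refine Real.log_le_log (integral_exp_pos (hf.exp_int ha.le _ _)) ?_
  exact integral_mono (hf.exp_int ha.le _ _) (hg.exp_int ha.le _ _) fun y =>
    Real.exp_le_exp.2 (mul_le_mul_of_nonneg_left (hfg _) ha.le)

/-- scaling -/
lemma gaussOp_scale {f : ℝ → ℝ} {a M : ℝ} (ha : 0 < a) (hM : 0 < M) (v x : ℝ) :
    gaussOp (a / M) v (fun y => M * f y) x = M * gaussOp a v f x := by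
  rw [gaussOp_pos ha, gaussOp_pos (div_pos ha hM)]
  have e : ∀ g : ℝ, a / M * (M * f (x + Real.sqrt v * g)) = a * f (x + Real.sqrt v * g) := by
    intro g; field_simp
  simp only [e]
  rw [inv_div]
  field_simp

/-- the recursion down to time `0` -/
def Fold : ℝ → (ℝ → ℝ) → StepDef_791.Cells → ℝ → ℝ
  | _, f, [] => f
  | T, f, c :: cs => Fold c.1 (gaussOp c.2 (T - c.1) f) cs

lemma Psc_zero : ∀ {cs : StepDef_791.Cells} {T : ℝ} (f : ℝ → ℝ), Valid T cs →
    Psc T f cs 0 = Fold T f cs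
  | [], _, _, _ => rfl
  | c :: cs, T, f, h => by
    unfold Psc Fold
    split_ifs with h1
    · have h2 : c.1 = 0 := le_antisymm h1 h.2.2.nonneg
      cases cs with
      | nil => rw [h2]; rfl
      | cons c' cs' =>
        exfalso
        have h3 := h.2.2
        rw [h2] at h3
        exact absurd h3.2.2.nonneg (not_le.2 h3.1)
    · exact Psc_zero _ h.2.2

lemma Fold_mono : ∀ {cs : StepDef_791.Cells} {T : ℝ} {f g : ℝ → ℝ}, Valid T cs → NM f → NM g →
    (∀ x, f x ≤ g x) → ∀ x, Fold T f cs x ≤ Fold T g cs x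
  | [], _, _, _, _, _, _, h, x => h x
  | c :: cs, T, f, g, hv, hf, hg, h, x => by
    unfold Fold
    exact Fold_mono hv.2.2 (gaussOp_nm hf hv.2.1 _) (gaussOp_nm hg hv.2.1 _)
      (fun y => gaussOp_mono hf hg h hv.2.1 _ y) x

/-! ### the weight -/

lemma measurable_mrc : ∀ (cs : StepDef_791.Cells) (T : ℝ), Measurable (mrc T cs)
  | [], _ => measurable_const
  | c :: cs, T => by
    have e : mrc T (c :: cs) = fun t => if c.1 ≤ t then (if t < T then c.2 else 0) else
        mrc c.1 cs t := by funext t; rw [mrc]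
    rw [e]
    refine Measurable.ite measurableSet_Ici ?_ (measurable_mrc cs c.1)
    exact Measurable.ite measurableSet_Iio measurable_const measurable_const

lemma mrc_le : ∀ {cs : StepDef_791.Cells} {T M : ℝ}, 0 ≤ M → (∀ c ∈ cs, c.2 ≤ M) → ∀ t,
    mrc T cs t ≤ M
  | [], _, _, hM, _, _ => hM
  | c :: cs, T, M, hM, h, t => by
    unfold mrc
    split_ifs
    · exact h c (by simp)
    · exact hM
    · exact mrc_le hM (fun c' hc' => h c' (List.mem_cons_of_mem _ hc')) t

lemma exists_M : ∀ cs : StepDef_791.Cells, ∃ M : ℝ, 1 ≤ M ∧ ∀ c ∈ cs, c.2 ≤ M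
  | [] => ⟨1, le_rfl, by simp⟩
  | c :: cs => by
    obtain ⟨M, h1, h2⟩ := exists_M cs
    refine ⟨max M c.2, h1.trans (le_max_left _ _), ?_⟩
    intro c' hc'
    rcases List.mem_cons.1 hc' with h | h
    · rw [h]; exact le_max_right _ _
    · exact (h2 c' h).trans (le_max_left _ _)

lemma mrc_of_ge {cs : StepDef_791.Cells} {T t : ℝ} (hv : Valid T cs) (h : T ≤ t) :
    mrc T cs t = 0 := by
  cases cs with
  | nil => rfl
  | cons c cs =>
    unfold mrc
    rw [if_pos (hv.1.le.trans h), if_neg (not_lt.2 h)]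

lemma wt_m (A : SD) : DualC1_256.Wt A.m := by
  obtain ⟨M, h1, h2⟩ := exists_M A.cs
  have hm : Measurable A.m := measurable_mrc _ _
  refine ⟨hm, ?_, fun t _ => A.m_nonneg t⟩
  refine Measure.integrableOn_of_bounded (M := M) (by simp) hm.aestronglyMeasurable ?_
  refine ae_of_all _ fun t => ?_
  rw [Real.norm_eq_abs, abs_of_nonneg (A.m_nonneg t)]
  exact mrc_le (by linarith) h2 t

/-! ### one cell -/

variable {Ω : Type*} [mΩ : MeasurableSpace Ω]
variable {B : ℝ≥0 → Ω → ℝ} {hBm : ∀ t, Measurable (B t)}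
variable {P : Measure Ω} [IsProbabilityMeasure P]

/-- near-optimal bounded controls from time `T` on -/
def Near (P : Measure Ω) (B : ℝ≥0 → Ω → ℝ) (hBm : ∀ t, Measurable (B t)) (L : ℝ) (m F : ℝ → ℝ)
    (T : ℝ) (Ψ : ℝ → ℝ) : Prop :=
  ∀ ε : ℝ, 0 < ε → ∀ X : Ω → ℝ, Measurable[CtlC_130.F hBm T] X →
    ∃ v : ℝ≥0 → Ω → ℝ, Ctl hBm L v ∧ ∫ ω, Ψ (X ω) ∂P - ε ≤ val P B m F T X v

theorem cell_ge (hB : IsBrownianReal B P) {m : ℝ → ℝ} (hm : Prof m) {F0 : ℝ → ℝ}
    {Φ Φ1 Φ2 : ℝ → ℝ} {K L C : ℝ} (hw : Reg Φ Φ1 Φ2 K L C) (hL : 0 < L) {s t' x : ℝ}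
    (hs0 : 0 ≤ s) (hst : s ≤ t') (ht1 : t' ≤ 1) (hx : ∀ r ∈ Ioo s t', m r = x) (hx0 : 0 ≤ x)
    (hx1 : x ≤ 1) (ih : Near P B hBm L m F0 t' Φ) :
    Near P B hBm L m F0 s (gaussOp x (t' - s) Φ) := by
  intro ε hε X hX
  set D := MC L (C + L ^ 2) with hD
  have hD0 : 0 ≤ D := MC_nonneg _ _
  obtain ⟨N, hN⟩ := exists_nat_gt (2 * D / ε)
  have hN1 : (0:ℝ) < N + 1 := by positivity
  set d := (t' - s) / (N + 1 : ℕ) with hd
  have hd0 : 0 ≤ d := div_nonneg (by linarith) (by positivity)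
  have hnd : ((N + 1 : ℕ) : ℝ) * d = t' - s := by rw [hd]; field_simp
  have hd1 : d ≤ 1 / (N + 1) := by
    rw [hd]; push_cast
    exact div_le_div_of_nonneg_right (by linarith) hN1.le
  have hd1' : d ≤ 1 := by
    refine hd1.trans ?_
    rw [div_le_one hN1]
    have : (0:ℝ) ≤ N := Nat.cast_nonneg N
    linarith
  have inner : ∀ k : ℕ, k ≤ N + 1 → ∀ X : Ω → ℝ, Measurable[CtlC_130.F hBm (t' - k * d)] X →
      ∃ v : ℝ≥0 → Ω → ℝ, Ctl hBm L v ∧
        ∫ ω, gaussOp x (k * d) Φ (X ω) ∂P - ε / 2 - k * (D * d ^ 2) ≤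
          val P B m F0 (t' - k * d) X v := by
    intro k
    induction k with
    | zero =>
      intro _ X hX
      have e0 : t' - ((0 : ℕ) : ℝ) * d = t' := by simp
      rw [e0] at hX ⊢
      obtain ⟨v, hv, h1⟩ := ih (ε / 2) (by linarith) X hX
      refine ⟨v, hv, ?_⟩
      simpa [gaussOp_var0] using h1
    | succ k ihk =>
      intro hk X hX
      set s1 := t' - ((k + 1 : ℕ) : ℝ) * d with hs1
      have hs2 : t' - k * d = s1 + d := by rw [hs1]; push_cast; ring
      have hs1s : s ≤ s1 := by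
        rw [hs1]
        have : ((k + 1 : ℕ) : ℝ) ≤ ((N + 1 : ℕ) : ℝ) := by exact_mod_cast hk
        nlinarith
      have hs2t : s1 + d ≤ t' := by
        rw [← hs2]
        have : 0 ≤ (k:ℝ) * d := by positivity
        linarith
      obtain ⟨u1, u2, hu⟩ := gaussOp_reg hw hL hx0 hx1 (k * d)
      set ψ := gaussOp x (k * d) Φ with hψ
      have hu1m : Measurable u1 :=
        (continuous_iff_continuousAt.2 fun y => (hu.d2 y).continuousAt).measurable
      have hc : Measurable[CtlC_130.F hBm s1] (fun ω => u1 (X ω)) := hu1m.comp hX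
      have hcL : ∀ ω, |u1 (X ω)| ≤ L := fun ω => hu.bL _
      have hX' : Measurable[CtlC_130.F hBm (t' - k * d)]
          (fun ω => X ω + x * (s1 + d - s1) * u1 (X ω) +
          (B (s1 + d).toNNReal ω - B s1.toNNReal ω)) := by
        rw [hs2]
        have h12 : CtlC_130.F hBm s1 ≤ CtlC_130.F hBm (s1 + d) := F_mono hBm (by linarith)
        refine Measurable.add (Measurable.add (hX.mono h12 le_rfl)
          (Measurable.const_mul (hc.mono h12 le_rfl) _)) ?_
        exact Measurable.sub (F_adapted hBm _ _ le_rfl) (F_adapted hBm _ _ (by linarith))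
      obtain ⟨v, hv, h1⟩ := ihk (by omega) _ hX'
      refine ⟨glue s1 (s1 + d) (fun ω => u1 (X ω)) v, glue_ctl hc hcL hv, ?_⟩
      rw [val_glue (by linarith) (by linarith) (by linarith) hc hcL hv hm
        (fun r hr => hx r ⟨lt_of_le_of_lt hs1s hr.1, lt_of_lt_of_le hr.2 hs2t⟩)]
      rw [hs2] at h1
      have h2 := cstep_ge hBm hB (s := s1) (t := s1 + d) (by linarith) (by linarith)
        (by linarith) hX hu hx0 hx1
      have e1 : s1 + d - s1 = d := by ring
      rw [e1] at h2 h1 ⊢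
      have e2 : ∀ y, gaussOp x d ψ y = gaussOp x (((k + 1 : ℕ) : ℝ) * d) Φ y := by
        intro y
        rw [hψ, gaussOp_semi hw.BM hx0 hd0 (by positivity)]
        congr 1
        push_cast; ring
      simp only [e2] at h2
      push_cast at h2 ⊢
      linarith
  have e5 : t' - (t' - s) = s := by ring
  have h3 := inner (N + 1) le_rfl X (by rw [hnd, e5]; exact hX)
  rw [hnd, e5] at h3
  obtain ⟨v, hv, h4⟩ := h3
  refine ⟨v, hv, ?_⟩
  refine le_trans ?_ h4
  have h5 : ((N + 1 : ℕ) : ℝ) * (D * d ^ 2) ≤ ε / 2 := by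
    have h6 : ((N + 1 : ℕ) : ℝ) * (D * d ^ 2) = D * (t' - s) * d := by
      rw [← hnd]; ring
    rw [h6]
    have h7 : D * (t' - s) * d ≤ D * 1 * (1 / (N + 1)) := by
      refine mul_le_mul (mul_le_mul_of_nonneg_left (by linarith) hD0) hd1 hd0 (by linarith)
    have h8 : 2 * D ≤ N * ε := by
      rw [div_lt_iff₀ hε] at hN
      exact hN.le
    have h9 : D * 1 * (1 / ((N:ℝ) + 1)) ≤ ε / 2 := by
      rw [mul_one, mul_one_div, div_le_iff₀ hN1]
      nlinarith
    linarith
  linarith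

/-! ### all cells -/

theorem fold_ge (hB : IsBrownianReal B P) {m : ℝ → ℝ} (hm : Prof m) {F0 : ℝ → ℝ} {M K L : ℝ}
    (hM : 0 < M) (hL : 0 < L) : ∀ {cs : StepDef_791.Cells} {T : ℝ} {Φ Φ1 Φ2 : ℝ → ℝ} {C : ℝ},
    Valid T cs → T ≤ 1 → (∀ c ∈ cs, c.2 ≤ M) → (∀ r, r < T → m r = mrc T cs r / M) →
    Reg (fun y => M * Φ y) Φ1 Φ2 K L C → Near P B hBm L m F0 T (fun y => M * Φ y) →
    Near P B hBm L m F0 0 (fun y => M * Fold T Φ cs y)
  | [], T, Φ, _, _, _, hv, _, _, _, _, hn => by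
    have h0 : T = 0 := hv
    rw [h0] at hn
    exact hn
  | c :: cs, T, Φ, Φ1, Φ2, C, hv, hT, hc, hmr, hr, hn => by
    have hx0 : 0 < c.2 / M := div_pos hv.2.1 hM
    have hx1 : c.2 / M ≤ 1 := (div_le_one hM).2 (hc c (by simp))
    have e : gaussOp (c.2 / M) (T - c.1) (fun y => M * Φ y) =
        fun y => M * gaussOp c.2 (T - c.1) Φ y :=
      funext fun y => gaussOp_scale hv.2.1 hM _ _
    have h1 := cell_ge (s := c.1) (x := c.2 / M) hB hm hr hL hv.2.2.nonneg hv.1.le hT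
      (fun r hr' => by
        rw [hmr r hr'.2]
        unfold mrc
        rw [if_pos hr'.1.le, if_pos hr'.2]) hx0.le hx1 hn
    obtain ⟨w1, w2, hw⟩ := gaussOp_reg hr hL hx0.le hx1 (T - c.1)
    rw [e] at h1 hw
    unfold Fold
    refine fold_ge hB hm hM hL hv.2.2 (hv.1.le.trans hT)
      (fun c' hc' => hc c' (List.mem_cons_of_mem _ hc')) (fun r hr' => ?_) hw h1
    rw [hmr r (hr'.trans hv.1)]
    conv_lhs => unfold mrc
    rw [if_neg (not_le.2 hr')]

end

end Crest.Agent.R146.BrLBa_952
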