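import Crest.Agent.R146.DZero2_106
import Crest.Agent.R146.BrFull_106

/-!
Row 146 (helper106): law invariance of the jamming functional `J0` (DZero2_106).

`J0_law` : two processes with the same law give the same `J0` (same functional `Φ` of the path).
`HJ_of_one` : `J0 ≥ 0` for the Brownian motion `B` and its natural filtration implies `J0 ≥ 0` for
all time-dilated Brownian motions `s ↦ B(as)/√a`.
-/

set_option autoImplicit false

open MeasureTheory ProbabilityTheory Set Filter Topology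
open scoped NNReal ENNReal

namespace Crest.Agent.R146.BrLaw_106

open Crest.ProbabilityR.Perceptron Crest.Agent.R146.DZero_106

/-- transfer of conditional expectations through a measurable map -/
theorem condExp_comp {Ω E : Type*} {mΩ : MeasurableSpace Ω} {𝒢 : MeasurableSpace E}
    {mE : MeasurableSpace E}
    {P : Measure Ω} [IsProbabilityMeasure P] {T : Ω → E} (hT : Measurable T)
    (h𝒢 : 𝒢 ≤ mE) {Φ : E → ℝ} (hΦ : Integrable Φ (P.map T)) :
    P[Φ ∘ T | 𝒢.comap T] =ᵐ[P] ((P.map T)[Φ | 𝒢]) ∘ T := by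
  have hP : IsProbabilityMeasure (P.map T) := Measure.isProbabilityMeasure_map hT.aemeasurable
  have hm : 𝒢.comap T ≤ mΩ := (MeasurableSpace.comap_mono h𝒢).trans hT.comap_le
  have hint : Integrable (Φ ∘ T) P :=
    (integrable_map_measure hΦ.aestronglyMeasurable hT.aemeasurable).1 hΦ
  have hgi : Integrable (((P.map T)[Φ | 𝒢]) ∘ T) P :=
    (integrable_map_measure integrable_condExp.aestronglyMeasurable hT.aemeasurable).1
      integrable_condExp
  refine (ae_eq_condExp_of_forall_setIntegral_eq hm hint (fun s _ _ => hgi.integrableOn) ?_ ?_).symm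
  · rintro s ⟨S, hS, rfl⟩ _
    have h1 := setIntegral_map (h𝒢 S hS) (integrable_condExp (μ := P.map T) (m := 𝒢)
      (f := Φ)).aestronglyMeasurable hT.aemeasurable
    have h2 := setIntegral_map (h𝒢 S hS) hΦ.aestronglyMeasurable hT.aemeasurable
    have h3 := setIntegral_condExp h𝒢 hΦ hS
    calc ∫ x in T ⁻¹' S, (((P.map T)[Φ | 𝒢]) ∘ T) x ∂P
        = ∫ y in S, ((P.map T)[Φ | 𝒢]) y ∂(P.map T) := h1.symm
      _ = ∫ y in S, Φ y ∂(P.map T) := h3
      _ = _ := h2
  · have h1 : StronglyMeasurable[𝒢] ((P.map T)[Φ | 𝒢]) := stronglyMeasurable_condExp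
    exact (h1.comp_measurable (comap_measurable T)).aestronglyMeasurable

variable {Ω : Type*} {mΩ : MeasurableSpace Ω} {P : Measure Ω} [IsProbabilityMeasure P]

/-- the index `1` -/
def i1 : Iic (1 : ℝ≥0) := ⟨1, Set.mem_Iic.2 le_rfl⟩

/-- the path on `[0,1]` -/
def pth (X : ℝ≥0 → Ω → ℝ) (ω : Ω) : Iic (1 : ℝ≥0) → ℝ := fun j => X j ω

lemma pth_meas {X : ℝ≥0 → Ω → ℝ} (hX : ∀ t, Measurable (X t)) : Measurable (pth X) :=
  measurable_pi_iff.2 fun j => hX j

/-- coordinates up to time `s` -/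
@[instance_reducible]
def 𝒢 (s : ℝ≥0) : MeasurableSpace (Iic (1 : ℝ≥0) → ℝ) :=
  ⨆ (j : Iic (1 : ℝ≥0)) (_ : (j : ℝ≥0) ≤ s), MeasurableSpace.comap (fun e => e j) inferInstance

lemma 𝒢_le (s : ℝ≥0) : 𝒢 s ≤ (inferInstance : MeasurableSpace (Iic (1 : ℝ≥0) → ℝ)) :=
  iSup₂_le fun j _ => (measurable_pi_apply j).comap_le

lemma nat_eq {X : ℝ≥0 → Ω → ℝ} (hX : ∀ t, Measurable (X t)) {s : ℝ≥0} (hs : s ≤ 1) :
    (brownianFiltration X hX s : MeasurableSpace Ω) = (𝒢 s).comap (pth X) := by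
  have e1 : (brownianFiltration X hX s : MeasurableSpace Ω)
      = ⨆ j ≤ s, MeasurableSpace.comap (X j) inferInstance := rfl
  rw [e1, 𝒢]
  simp only [MeasurableSpace.comap_iSup, MeasurableSpace.comap_comp]
  refine le_antisymm ?_ ?_
  · refine iSup₂_le fun j hj => ?_
    exact le_iSup₂_of_le (⟨j, hj.trans hs⟩ : Iic (1 : ℝ≥0)) hj le_rfl
  · refine iSup₂_le fun j hj => ?_
    exact le_iSup₂_of_le (j : ℝ≥0) hj le_rfl

/-- natural filtration, real time -/
@[instance_reducible]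
noncomputable def NF (X : ℝ≥0 → Ω → ℝ) (hX : ∀ t, Measurable (X t)) (t : ℝ) :
    MeasurableSpace Ω := brownianFiltration X hX t.toNNReal

/-- the process, real time -/
def NW (X : ℝ≥0 → Ω → ℝ) (t : ℝ) : Ω → ℝ := X t.toNNReal

lemma quad_eq {X : ℝ≥0 → Ω → ℝ} (hX : ∀ t, Measurable (X t)) {t : ℝ} (ht : t ∈ Icc (0 : ℝ) 1)
    {Φ : (Iic (1 : ℝ≥0) → ℝ) → ℝ} (hΦ : Integrable Φ (P.map (pth X))) :
    ∫ ω, (P[Φ ∘ pth X | NF X hX t]) ω ^ 2 ∂P
      = ∫ e, ((P.map (pth X))[Φ | 𝒢 t.toNNReal]) e ^ 2 ∂(P.map (pth X)) := by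
  have hs : t.toNNReal ≤ 1 := by
    rw [Real.toNNReal_le_iff_le_coe]; simpa using ht.2
  have h1 := condExp_comp (P := P) (pth_meas hX) (𝒢_le t.toNNReal) hΦ
  rw [← nat_eq hX hs] at h1
  have h2 : ∫ ω, (P[Φ ∘ pth X | NF X hX t]) ω ^ 2 ∂P
      = ∫ ω, (((P.map (pth X))[Φ | 𝒢 t.toNNReal]) (pth X ω)) ^ 2 ∂P := by
    refine integral_congr_ae ?_
    filter_upwards [h1] with ω hω
    have : (P[Φ ∘ pth X | NF X hX t]) ω = (((P.map (pth X))[Φ | 𝒢 t.toNNReal]) ∘ pth X) ω := hω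
    rw [this]; rfl
  rw [h2]
  have h3 : AEStronglyMeasurable (fun e => ((P.map (pth X))[Φ | 𝒢 t.toNNReal]) e ^ 2)
      (P.map (pth X)) :=
    (integrable_condExp.aestronglyMeasurable.pow 2)
  exact (integral_map (pth_meas hX).aemeasurable h3).symm

/-- **Law invariance of `J0`.** -/
theorem J0_law {Ω' : Type*} {mΩ' : MeasurableSpace Ω'} {P' : Measure Ω'} [IsProbabilityMeasure P']
    {X : ℝ≥0 → Ω → ℝ} (hX : ∀ t, Measurable (X t)) {X' : ℝ≥0 → Ω' → ℝ}
    (hX' : ∀ t, Measurable (X' t)) (hlaw : P.map (pth X) = P'.map (pth X'))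
    {Φ : (Iic (1 : ℝ≥0) → ℝ) → ℝ} (hΦ : StronglyMeasurable Φ)
    (hΦi : Integrable Φ (P.map (pth X))) (α : ℝ) (m : ℝ → ℝ) (d : ℝ) :
    J0 P (NF X hX) (NW X) α (Φ ∘ pth X) m d = J0 P' (NF X' hX') (NW X') α (Φ ∘ pth X') m d := by
  have hone : (1 : ℝ).toNNReal = 1 := Real.toNNReal_one
  have hΦi' : Integrable Φ (P'.map (pth X')) := hlaw ▸ hΦi
  have e1 : ∫ ω, (Φ ∘ pth X) ω * (1 + NW X 1 ω) ∂P
      = ∫ e, Φ e * (1 + e i1) ∂(P.map (pth X)) := by
    have h1 : AEStronglyMeasurable (fun e : Iic (1 : ℝ≥0) → ℝ => Φ e * (1 + e i1))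
        (P.map (pth X)) :=
      (hΦ.mul (by
        have : Measurable (fun e : Iic (1 : ℝ≥0) → ℝ => 1 + e i1) := by fun_prop
        exact this.stronglyMeasurable)).aestronglyMeasurable
    rw [integral_map (pth_meas hX).aemeasurable h1]
    simp only [NW, hone, Function.comp_apply, pth, i1]
  have e1' : ∫ ω, (Φ ∘ pth X') ω * (1 + NW X' 1 ω) ∂P'
      = ∫ e, Φ e * (1 + e i1) ∂(P'.map (pth X')) := by
    have h1 : AEStronglyMeasurable (fun e : Iic (1 : ℝ≥0) → ℝ => Φ e * (1 + e i1))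
        (P'.map (pth X')) :=
      (hΦ.mul (by
        have : Measurable (fun e : Iic (1 : ℝ≥0) → ℝ => 1 + e i1) := by fun_prop
        exact this.stronglyMeasurable)).aestronglyMeasurable
    rw [integral_map (pth_meas hX').aemeasurable h1]
    simp only [NW, hone, Function.comp_apply, pth, i1]
  have e2 : ∫ ω, (Φ ∘ pth X) ω ^ 2 ∂P = ∫ e, Φ e ^ 2 ∂(P.map (pth X)) :=
    (integral_map (f := fun e => Φ e ^ 2) (pth_meas hX).aemeasurable
      (hΦ.pow 2).aestronglyMeasurable).symm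
  have e2' : ∫ ω, (Φ ∘ pth X') ω ^ 2 ∂P' = ∫ e, Φ e ^ 2 ∂(P'.map (pth X')) :=
    (integral_map (f := fun e => Φ e ^ 2) (pth_meas hX').aemeasurable
      (hΦ.pow 2).aestronglyMeasurable).symm
  have e3 : ∫ t in (0 : ℝ)..1, m t * ∫ ω, (P[Φ ∘ pth X | NF X hX t]) ω ^ 2 ∂P
      = ∫ t in (0 : ℝ)..1, m t * ∫ ω, (P'[Φ ∘ pth X' | NF X' hX' t]) ω ^ 2 ∂P' := by
    refine intervalIntegral.integral_congr fun t ht => ?_
    rw [uIcc_of_le zero_le_one] at ht
    rw [quad_eq hX ht hΦi, quad_eq hX' ht hΦi', hlaw]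
  unfold J0
  rw [e1, e1', e2, e2', e3, hlaw]

/-- two pre-Brownian processes have the same law on `[0,1]` -/
theorem law_eq {Ω' : Type*} {mΩ' : MeasurableSpace Ω'} {P' : Measure Ω'}
    {X : ℝ≥0 → Ω → ℝ} (hX : ∀ t, Measurable (X t)) {X' : ℝ≥0 → Ω' → ℝ}
    (hX' : ∀ t, Measurable (X' t)) (h : IsPreBrownianReal X P) (h' : IsPreBrownianReal X' P') :
    P.map (pth X) = P'.map (pth X') := by
  have m1 : Measurable (fun ω (t : ℝ≥0) => X t ω) := measurable_pi_iff.2 fun t => hX t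
  have m2 : Measurable (fun ω (t : ℝ≥0) => X' t ω) := measurable_pi_iff.2 fun t => hX' t
  have l1 : IsProjectiveLimit (P.map (fun ω (t : ℝ≥0) => X t ω)) ProbabilityTheory.BrownianReal.projectiveFamily := by
    intro I
    rw [Measure.map_map (Finset.measurable_restrict I) m1]
    exact (h.hasLaw I).map_eq
  have l2 : IsProjectiveLimit (P'.map (fun ω (t : ℝ≥0) => X' t ω)) ProbabilityTheory.BrownianReal.projectiveFamily := by
    intro I
    rw [Measure.map_map (Finset.measurable_restrict I) m2]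
    exact (h'.hasLaw I).map_eq
  have e := l1.unique l2
  have m3 : Measurable (fun (f : ℝ≥0 → ℝ) (j : Iic (1 : ℝ≥0)) => f j) :=
    measurable_pi_iff.2 fun j => measurable_pi_apply (j : ℝ≥0)
  have f1 : P.map (pth X) = (P.map (fun ω (t : ℝ≥0) => X t ω)).map
      (fun (f : ℝ≥0 → ℝ) (j : Iic (1 : ℝ≥0)) => f j) := by
    rw [Measure.map_map m3 m1]; rfl
  have f2 : P'.map (pth X') = (P'.map (fun ω (t : ℝ≥0) => X' t ω)).map
      (fun (f : ℝ≥0 → ℝ) (j : Iic (1 : ℝ≥0)) => f j) := by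
    rw [Measure.map_map m3 m2]; rfl
  rw [f1, f2, e]

/-! ### the dilated Brownian motion -/

variable {B : ℝ≥0 → Ω → ℝ} (hBm : ∀ t, Measurable (B t))

/-- `B'(t) = B(at)/√a` -/
noncomputable def dil (B : ℝ≥0 → Ω → ℝ) (a : ℝ≥0) (t : ℝ≥0) (ω : Ω) : ℝ :=
  (√(a : ℝ))⁻¹ * B (a * t) ω

include hBm in
lemma dil_meas (a : ℝ≥0) (t : ℝ≥0) : Measurable (dil B a t) := (hBm (a * t)).const_mul _

lemma comap_const_mul {c : ℝ} (hc : c ≠ 0) (f : Ω → ℝ) :
    MeasurableSpace.comap (fun ω => c * f ω) inferInstance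
      = MeasurableSpace.comap f (inferInstance : MeasurableSpace ℝ) := by
  have h1 : (fun ω => c * f ω) = (fun x : ℝ => c * x) ∘ f := rfl
  rw [h1, ← MeasurableSpace.comap_comp]
  congr 1
  exact (measurableEmbedding_mulLeft₀ hc).comap_eq

lemma nat_dil {a : ℝ≥0} (ha : a ≠ 0) (s : ℝ≥0) :
    (brownianFiltration (dil B a) (dil_meas hBm a) s : MeasurableSpace Ω)
      = brownianFiltration B hBm (a * s) := by
  have hc : (√(a : ℝ))⁻¹ ≠ 0 := by
    have : (0 : ℝ) < a := by positivity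
    positivity
  have e1 : (brownianFiltration (dil B a) (dil_meas hBm a) s : MeasurableSpace Ω)
      = ⨆ j ≤ s, MeasurableSpace.comap (dil B a j) inferInstance := rfl
  have e2 : (brownianFiltration B hBm (a * s) : MeasurableSpace Ω)
      = ⨆ j ≤ a * s, MeasurableSpace.comap (B j) inferInstance := rfl
  have e3 : ∀ j, MeasurableSpace.comap (dil B a j) inferInstance
      = MeasurableSpace.comap (B (a * j)) (inferInstance : MeasurableSpace ℝ) :=
    fun j => comap_const_mul hc (B (a * j))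
  rw [e1, e2]
  simp only [e3]
  refine le_antisymm ?_ ?_
  · refine iSup₂_le fun j hj => ?_
    exact le_iSup₂_of_le (a * j) (by gcongr) le_rfl
  · refine iSup₂_le fun j hj => ?_
    have h1 : a * (a⁻¹ * j) = j := by rw [← mul_assoc, mul_inv_cancel₀ ha, one_mul]
    have h2 : a⁻¹ * j ≤ s := by
      rw [inv_mul_le_iff₀ (pos_of_ne_zero ha)]; exact hj
    refine le_iSup₂_of_le (a⁻¹ * j) h2 ?_
    rw [h1]

lemma NF_dil {a : ℝ≥0} (ha : a ≠ 0) :
    NF (dil B a) (dil_meas hBm a) = fun s => NF B hBm ((a : ℝ) * s) := by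
  funext s
  have h1 : ((a : ℝ) * s).toNNReal = a * s.toNNReal := by
    rw [Real.toNNReal_mul (NNReal.coe_nonneg a), Real.toNNReal_coe]
  show (brownianFiltration (dil B a) (dil_meas hBm a) s.toNNReal : MeasurableSpace Ω)
    = brownianFiltration B hBm ((a : ℝ) * s).toNNReal
  rw [h1, nat_dil hBm ha]

lemma NW_dil (a : ℝ≥0) :
    NW (dil B a) = fun (s : ℝ) (ω : Ω) => NW B ((a : ℝ) * s) ω / √(a : ℝ) := by
  funext s ω
  have h1 : ((a : ℝ) * s).toNNReal = a * s.toNNReal := by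
    rw [Real.toNNReal_mul (NNReal.coe_nonneg a), Real.toNNReal_coe]
  simp only [NW, dil, h1]
  rw [div_eq_inv_mul]

/-- `J0 ≥ 0` for `B` implies `J0 ≥ 0` for the dilated Brownian motions (hypothesis `HJ` of
`DZero_106.dzero`). -/
theorem HJ_of_one (hB : IsPreBrownianReal B P) {α : ℝ}
    (h1 : ∀ lam' : Ω → ℝ, MemLp lam' 2 P → 0 ≤ᵐ[P] lam' → StronglyMeasurable[NF B hBm 1] lam' →
      ∀ m' d', Adm m' d' → 0 ≤ J0 P (NF B hBm) (NW B) α lam' m' d') :
    ∀ a ∈ Ioc (0 : ℝ) 1, ∀ lam' : Ω → ℝ, MemLp lam' 2 P → 0 ≤ᵐ[P] lam' →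
      StronglyMeasurable[NF B hBm a] lam' → ∀ m' d', Adm m' d' →
      0 ≤ J0 P (fun s => NF B hBm (a * s)) (fun s ω => NW B (a * s) ω / √a) α lam' m' d' := by
  intro a ha lam' hl2 hl0 hlm m' d' hA
  obtain ⟨b, rfl⟩ : ∃ b : ℝ≥0, (b : ℝ) = a := ⟨⟨a, ha.1.le⟩, rfl⟩
  have hb : b ≠ 0 := by
    intro h; rw [h] at ha; exact lt_irrefl _ ha.1
  have e0 : NF B hBm (b : ℝ) = (brownianFiltration (dil B b) (dil_meas hBm b) 1
      : MeasurableSpace Ω) := by
    rw [nat_dil hBm hb, mul_one]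
    show (brownianFiltration B hBm (b : ℝ).toNNReal : MeasurableSpace Ω) = _
    rw [Real.toNNReal_coe]
  have e1 := Filtration.natural_eq_comap (fun t => dil B b t)
    (fun t => (dil_meas hBm b t).stronglyMeasurable) 1
  have hlm2 : StronglyMeasurable[(inferInstance : MeasurableSpace (Iic (1 : ℝ≥0) → ℝ)).comap
      (pth (dil B b))] lam' := by
    have e2 : (brownianFiltration (dil B b) (dil_meas hBm b) 1 : MeasurableSpace Ω)
        = (inferInstance : MeasurableSpace (Iic (1 : ℝ≥0) → ℝ)).comap (pth (dil B b)) := e1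
    rw [e0, e2] at hlm
    exact hlm
  obtain ⟨Φ, hΦ, rfl⟩ := hlm2.exists_eq_measurable_comp
  have hpre := hB.smul (c := b) hb
  have hlaw : P.map (pth (dil B b)) = P.map (pth B) :=
    law_eq (dil_meas hBm b) hBm hpre hB
  have md := pth_meas (dil_meas hBm b)
  have mb := pth_meas hBm
  have hΦ2 : MemLp Φ 2 (P.map (pth (dil B b))) :=
    (memLp_map_measure_iff hΦ.aestronglyMeasurable md.aemeasurable).2 hl2
  have hΦ2' : MemLp Φ 2 (P.map (pth B)) := hlaw ▸ hΦ2
  have hprob : IsProbabilityMeasure (P.map (pth (dil B b))) :=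
    Measure.isProbabilityMeasure_map md.aemeasurable
  have hpos : ∀ᵐ e ∂(P.map (pth (dil B b))), 0 ≤ Φ e :=
    (ae_map_iff md.aemeasurable (measurableSet_le measurable_const hΦ.measurable)).2 hl0
  have hpos' : ∀ᵐ e ∂(P.map (pth B)), 0 ≤ Φ e := hlaw ▸ hpos
  have key := J0_law (dil_meas hBm b) hBm hlaw hΦ (hΦ2.integrable (by norm_num)) α m' d'
  rw [NF_dil hBm hb, NW_dil] at key
  rw [key]
  refine h1 _ ?_ ?_ ?_ m' d' hA
  · exact (memLp_map_measure_iff hΦ.aestronglyMeasurable mb.aemeasurable).1 hΦ2'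
  · exact (ae_map_iff mb.aemeasurable (measurableSet_le measurable_const hΦ.measurable)).1 hpos'
  · have e3 := Filtration.natural_eq_comap (fun t => B t)
      (fun t => (hBm t).stronglyMeasurable) 1
    have e4 : (NF B hBm 1 : MeasurableSpace Ω)
        = (inferInstance : MeasurableSpace (Iic (1 : ℝ≥0) → ℝ)).comap (pth B) := by
      show (brownianFiltration B hBm (1 : ℝ).toNNReal : MeasurableSpace Ω) = _
      rw [Real.toNNReal_one]
      exact e3
    rw [e4]
    exact BrFull_106.sm_comp hΦ (comap_measurable (pth B))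

/-- the Brownian structure of DZero2_106 -/
theorem brown (hB : IsPreBrownianReal B P) : Brown P (NF B hBm) (NW B) where
  le t _ := (brownianFiltration B hBm).le _
  mono s t hs hst _ := (brownianFiltration B hBm).mono (Real.toNNReal_le_toNNReal hst)
  meas t _ := (Filtration.stronglyAdapted_natural (fun t => (hBm t).stronglyMeasurable)
    t.toNNReal).measurable
  zero := by
    have := hB.eval_zero_ae_eq_zero
    simp only [NW, Real.toNNReal_zero]
    exact this
  indep s t hs hst _ := by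
    have h1 := hB.indepFun_shift s.toNNReal
    have e : (NF B hBm s : MeasurableSpace Ω)
        = MeasurableSpace.comap (fun ω (j : Iic s.toNNReal) => B j ω) inferInstance :=
      Filtration.natural_eq_comap (fun t => B t) (fun t => (hBm t).stronglyMeasurable) s.toNNReal
    rw [e]
    have h2 := h1.symm
    have h3 : IndepFun (fun ω (j : Iic s.toNNReal) => B j ω) (fun ω => NW B t ω - NW B s ω) P := by
      have hm4 : Measurable (fun g : ℝ≥0 → ℝ => g (t - s).toNNReal) :=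
        measurable_pi_apply (t - s).toNNReal
      have h4 := h2.comp (φ := id) (ψ := fun g : ℝ≥0 → ℝ => g (t - s).toNNReal) measurable_id
        hm4
      have h5 : s.toNNReal + (t - s).toNNReal = t.toNNReal := by
        rw [← Real.toNNReal_add hs (by linarith)]; congr 1; ring
      simpa [Function.comp_def, NW, h5] using h4
    exact h3
  law s t hs hst _ := by
    have h1 := hB.hasLaw_sub t.toNNReal s.toNNReal
    have h2 := h1.map_eq
    have e : nndist (t.toNNReal : ℝ≥0).1 (s.toNNReal : ℝ≥0).1 = (t - s).toNNReal := by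
      apply NNReal.eq
      rw [coe_nndist, Real.dist_eq]
      show |(t.toNNReal : ℝ) - (s.toNNReal : ℝ)| = _
      rw [Real.coe_toNNReal t (hs.trans hst), Real.coe_toNNReal s hs,
        Real.coe_toNNReal _ (by linarith), abs_of_nonneg (by linarith)]
    rw [← e, ← h2]
    rfl

end Crest.Agent.R146.BrLaw_106
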