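import Crest.Agent.R146.Br2_256

/-!
Row 146, R3 bridge, leaf (BR-LAW) of helper256 (post 1257), helper151: the law of the next step from the
variational inequality tested with all bounded Lipschitz perturbations.
-/

set_option autoImplicit false

noncomputable section

open MeasureTheory Set Filter Topology ProbabilityTheory
open scoped NNReal ENNReal

namespace Crest.Agent.R146.BrLaw_151

open Crest.ProbabilityR.InvariantGlass
open Crest.Agent.R146 (Br_256.QG)
open Crest.Agent.R164.GC (H)

local notation "γ" => gaussianReal 0 1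

theorem log_ge {u : ℝ} (h : |u| ≤ 1 / 2) : u - 2 * u ^ 2 ≤ Real.log (1 + u) := by
  obtain ⟨h1, h2⟩ := abs_le.1 h
  have hp : 0 < 1 + u := by linarith
  have h3 := Real.one_sub_inv_le_log_of_pos hp
  have h4 : u - 2 * u ^ 2 ≤ 1 - (1 + u)⁻¹ := by
    have e : 1 - (1 + u)⁻¹ - (u - 2 * u ^ 2) = u ^ 2 * (1 + 2 * u) / (1 + u) := by
      field_simp
      ring
    have : 0 ≤ u ^ 2 * (1 + 2 * u) / (1 + u) := by
      apply div_nonneg _ hp.le
      exact mul_nonneg (sq_nonneg _) (by linarith)
    linarith
  linarith

theorem log_le {u : ℝ} (h : |u| ≤ 1 / 2) : Real.log (1 + u) ≤ u := by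
  obtain ⟨h1, h2⟩ := abs_le.1 h
  have := Real.log_le_sub_one_of_pos (show 0 < 1 + u by linarith)
  linarith

theorem abs_log_le {u : ℝ} (h : |u| ≤ 1 / 2) : |Real.log (1 + u)| ≤ 1 := by
  have h1 := log_ge h
  have h2 := log_le h
  obtain ⟨h3, h4⟩ := abs_le.1 h
  rw [abs_le]
  constructor
  · have : 2 * u ^ 2 ≤ 1 / 2 := by nlinarith
    linarith
  · linarith

theorem log_lip {a b : ℝ} (ha : 1 / 2 ≤ a) (hb : 1 / 2 ≤ b) :
    |Real.log a - Real.log b| ≤ 2 * |a - b| := by
  have key : ∀ a b : ℝ, 1 / 2 ≤ a → 1 / 2 ≤ b → Real.log a - Real.log b ≤ 2 * |a - b| := by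
    intro a b ha hb
    have hb0 : 0 < b := by linarith
    have ha0 : 0 < a := by linarith
    rw [← Real.log_div ha0.ne' hb0.ne']
    refine (Real.log_le_sub_one_of_pos (div_pos ha0 hb0)).trans ?_
    have e : a / b - 1 = (a - b) / b := by field_simp
    rw [e, div_le_iff₀ hb0]
    have := le_abs_self (a - b)
    nlinarith [abs_nonneg (a - b)]
  rw [abs_le]
  constructor
  · have := key b a hb ha
    rw [abs_sub_comm] at this
    linarith
  · exact key a b ha hb

variable {Ω : Type*} [MeasurableSpace Ω] {P : Measure Ω} [IsProbabilityMeasure P]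

theorem law_step {z d c A : ℝ} (hz : 0 < z) (hd : 0 ≤ d) {psi : ℝ → ℝ} (hpsi : Br_256.QG psi A)
    (h0 : ∀ y, psi y ≤ 0) {X Y : Ω → ℝ} (hX : MemLp X 2 P) (hY : MemLp Y 2 P)
    (hle : ∀ phi : ℝ → ℝ, (∃ l, ∀ x y, |phi x - phi y| ≤ l * |x - y|) → (∃ K, ∀ x, |phi x| ≤ K) →
      (∫ w, (psi (Y w) + phi (Y w)) ∂P) - c ≤ ∫ w, gaussOp z d (fun y => psi y + phi y) (X w) ∂P)
    (heq : (∫ w, psi (Y w) ∂P) - c = ∫ w, gaussOp z d psi (X w) ∂P)
    {th : ℝ → ℝ} (hl : ∃ l, ∀ x y, |th x - th y| ≤ l * |x - y|) (hb : ∀ x, |th x| ≤ 1) :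
    ∫ w, th (Y w) ∂P = ∫ w, H (Real.sqrt d) (fun y => th y * Real.exp (z * psi y)) (X w) /
      H (Real.sqrt d) (fun y => Real.exp (z * psi y)) (X w) ∂P := by
  obtain ⟨l, hl⟩ := hl
  have hl0 : 0 ≤ l := by
    have := (abs_nonneg _).trans (hl 1 0)
    simpa using this
  have hthc : Continuous th := by
    have : LipschitzWith (Real.toNNReal l) th := by
      refine LipschitzWith.of_dist_le_mul fun x y => ?_
      rw [Real.dist_eq, Real.dist_eq, Real.coe_toNNReal _ hl0]
      exact hl x y
    exact this.continuous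
  have hpc := hpsi.cont
  set s := Real.sqrt d with hs
  set N : ℝ → ℝ := H s (fun y => th y * Real.exp (z * psi y)) with hN
  set D : ℝ → ℝ := H s (fun y => Real.exp (z * psi y)) with hD
  have hexp1 : ∀ y, Real.exp (z * psi y) ≤ 1 := fun y => by
    rw [← Real.exp_zero]
    exact Real.exp_le_exp.2 (mul_nonpos_of_nonneg_of_nonpos hz.le (h0 y))
  have iE : ∀ x, Integrable (fun g => Real.exp (z * psi (x + s * g))) γ := fun x => by
    refine Integrable.mono' (integrable_const (1 : ℝ)) (by fun_prop) (ae_of_all _ fun g => ?_)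
    rw [Real.norm_eq_abs, abs_of_pos (Real.exp_pos _)]
    exact hexp1 _
  have iT : ∀ x, Integrable (fun g => th (x + s * g) * Real.exp (z * psi (x + s * g))) γ := fun x => by
    refine Integrable.mono' (integrable_const (1 : ℝ)) (by fun_prop) (ae_of_all _ fun g => ?_)
    rw [Real.norm_eq_abs, abs_mul, abs_of_pos (Real.exp_pos _)]
    exact mul_le_one₀ (hb _) (Real.exp_pos _).le (hexp1 _)
  have hDpos : ∀ x, 0 < D x := fun x => integral_exp_pos (iE x)
  have hNle : ∀ x, |N x| ≤ D x := fun x => by
    rw [hN, hD]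
    unfold H
    refine abs_integral_le_integral_abs.trans (integral_mono (iT x).abs (iE x) fun g => ?_)
    simp only
    rw [abs_mul, abs_of_pos (Real.exp_pos _)]
    have := mul_le_mul_of_nonneg_right (hb (x + s * g)) (Real.exp_pos (z * psi (x + s * g))).le
    rwa [one_mul] at this
  set Kt : ℝ → ℝ := fun x => N x / D x with hKt
  have hKt1 : ∀ x, |Kt x| ≤ 1 := fun x => by
    rw [hKt]
    simp only
    rw [abs_div, abs_of_pos (hDpos x), div_le_one (hDpos x)]
    exact hNle x
  have hNm : Measurable N := CtlB_130.H_meas (by fun_prop) s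
  have hDm : Measurable D := CtlB_130.H_meas (by fun_prop) s
  have hKm : Measurable Kt := hNm.div hDm
  have hYm := hY.1.aemeasurable
  have hXm := hX.1.aemeasurable
  -- integrability
  have iKX : Integrable (fun w => Kt (X w)) P := by
    refine Integrable.mono' (integrable_const (1 : ℝ))
      (hKm.comp_aemeasurable hXm).aestronglyMeasurable (ae_of_all _ fun w => ?_)
    rw [Real.norm_eq_abs]; exact hKt1 _
  have iTY : Integrable (fun w => th (Y w)) P := by
    refine Integrable.mono' (integrable_const (1 : ℝ))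
      (hthc.measurable.comp_aemeasurable hYm).aestronglyMeasurable (ae_of_all _ fun w => ?_)
    rw [Real.norm_eq_abs]; exact hb _
  have ipY : Integrable (fun w => psi (Y w)) P := hpsi.int_of hY
  have igX : Integrable (fun w => gaussOp z d psi (X w)) P :=
    Br_256.gaussOp_int_of hpsi h0 hz.le hd hX
  have hsmall : ∀ {de v : ℝ}, |de| ≤ 1 / 2 → |v| ≤ 1 → |de * v| ≤ 1 / 2 := by
    intro de v h1 h2
    rw [abs_mul]
    calc |de| * |v| ≤ 1 / 2 * 1 := mul_le_mul h1 h2 (abs_nonneg _) (by norm_num)
      _ = 1 / 2 := mul_one _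
  -- the main inequality
  have main : ∀ de : ℝ, |de| ≤ 1 / 2 →
      de * ∫ w, th (Y w) ∂P ≤ de * (∫ w, Kt (X w) ∂P) + 2 * de ^ 2 := by
    intro de hde
    have ilY : Integrable (fun w => Real.log (1 + de * th (Y w))) P := by
      refine Integrable.mono' (integrable_const (1 : ℝ)) ?_ (ae_of_all _ fun w => ?_)
      · have : Measurable fun y : ℝ => Real.log (1 + de * th y) :=
          Real.measurable_log.comp (by fun_prop)
        exact (this.comp_aemeasurable hYm).aestronglyMeasurable
      · rw [Real.norm_eq_abs]; exact abs_log_le (hsmall hde (hb _))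
    have ilX : Integrable (fun w => Real.log (1 + de * Kt (X w))) P := by
      refine Integrable.mono' (integrable_const (1 : ℝ)) ?_ (ae_of_all _ fun w => ?_)
      · have : Measurable fun y : ℝ => Real.log (1 + de * Kt y) :=
          Real.measurable_log.comp (by fun_prop)
        exact (this.comp_aemeasurable hXm).aestronglyMeasurable
      · rw [Real.norm_eq_abs]; exact abs_log_le (hsmall hde (hKt1 _))
    have h1 := hle (fun y => z⁻¹ * Real.log (1 + de * th y)) ?_ ?_
    · -- the perturbed operator
      have e1 : ∀ x, gaussOp z d (fun y => psi y + z⁻¹ * Real.log (1 + de * th y)) x =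
          gaussOp z d psi x + z⁻¹ * Real.log (1 + de * Kt x) := by
        intro x
        rw [R164.GC.gaussOp_ne hz.ne', R164.GC.gaussOp_ne hz.ne', ← hs]
        have e2 : H s (fun y => Real.exp (z * (psi y + z⁻¹ * Real.log (1 + de * th y)))) x =
            D x + de * N x := by
          rw [hD, hN]
          unfold H
          rw [← integral_const_mul, ← integral_add (iE x) ((iT x).const_mul de)]
          refine integral_congr_ae (ae_of_all _ fun g => ?_)
          simp only
          have hp : 0 < 1 + de * th (x + s * g) := by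
            have := (abs_le.1 (hsmall hde (hb (x + s * g)))).1
            linarith
          rw [mul_add, ← mul_assoc, mul_inv_cancel₀ hz.ne', one_mul, Real.exp_add, Real.exp_log hp]
          ring
        have e3 : D x + de * N x = D x * (1 + de * Kt x) := by
          rw [hKt]
          simp only
          have := (hDpos x).ne'
          field_simp
        have hp : 0 < 1 + de * Kt x := by
          have := (abs_le.1 (hsmall hde (hKt1 x))).1
          linarith
        show z⁻¹ * Real.log (H s (fun y => Real.exp (z * (psi y + z⁻¹ * Real.log (1 + de * th y)))) x) =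
          z⁻¹ * Real.log (D x) + z⁻¹ * Real.log (1 + de * Kt x)
        rw [e2, e3, Real.log_mul (hDpos x).ne' hp.ne', mul_add]
      simp only [e1] at h1
      rw [integral_add ipY (ilY.const_mul _), integral_add igX (ilX.const_mul _),
        integral_const_mul, integral_const_mul, ← heq] at h1
      have h2 : z⁻¹ * ∫ w, Real.log (1 + de * th (Y w)) ∂P ≤
          z⁻¹ * ∫ w, Real.log (1 + de * Kt (X w)) ∂P := by linarith
      have h3 := le_of_mul_le_mul_left h2 (inv_pos.2 hz)
      have h4 : ∫ w, (de * th (Y w) - 2 * de ^ 2) ∂P ≤ ∫ w, Real.log (1 + de * th (Y w)) ∂P := by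
        refine integral_mono ((iTY.const_mul de).sub (integrable_const _)) ilY fun w => ?_
        simp only
        have h5 := log_ge (hsmall hde (hb (Y w)))
        have h6 : (de * th (Y w)) ^ 2 ≤ de ^ 2 := by
          rw [mul_pow]
          have : th (Y w) ^ 2 ≤ 1 := by
            rw [← sq_abs]
            exact pow_le_one₀ (abs_nonneg _) (hb _)
          nlinarith [sq_nonneg de]
        linarith
      have h5 : ∫ w, Real.log (1 + de * Kt (X w)) ∂P ≤ ∫ w, de * Kt (X w) ∂P :=
        integral_mono ilX (iKX.const_mul de) fun w => log_le (hsmall hde (hKt1 _))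
      rw [integral_sub (iTY.const_mul de) (integrable_const _), integral_const_mul] at h4
      rw [integral_const_mul] at h5
      simp only [integral_const, probReal_univ, one_smul] at h4
      linarith
    · refine ⟨z⁻¹ * (2 * (|de| * l)), fun x y => ?_⟩
      rw [← mul_sub, abs_mul, abs_of_pos (inv_pos.2 hz), mul_assoc]
      refine mul_le_mul_of_nonneg_left ?_ (inv_pos.2 hz).le
      have g1 := (abs_le.1 (hsmall hde (hb x))).1
      have g2 := (abs_le.1 (hsmall hde (hb y))).1
      refine (log_lip (by linarith) (by linarith)).trans ?_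
      rw [show 1 + de * th x - (1 + de * th y) = de * (th x - th y) by ring, abs_mul]
      have := mul_le_mul_of_nonneg_left (hl x y) (abs_nonneg de)
      linarith
    · refine ⟨z⁻¹, fun x => ?_⟩
      rw [abs_mul, abs_of_pos (inv_pos.2 hz)]
      have := mul_le_mul_of_nonneg_left (abs_log_le (hsmall hde (hb x))) (inv_pos.2 hz).le
      linarith
  set a := ∫ w, th (Y w) ∂P
  set b := ∫ w, Kt (X w) ∂P with hbdef
  show a = b
  refine le_antisymm ?_ ?_
  · refine le_of_forall_pos_le_add fun ε hε => ?_
    set de := min (1 / 2) (ε / 2)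
    have hde : 0 < de := lt_min (by norm_num) (by positivity)
    have h1 := main de (by rw [abs_of_pos hde]; exact min_le_left _ _)
    have h2 : de ≤ ε / 2 := min_le_right _ _
    have h3 : de * a ≤ de * (b + 2 * de) := by nlinarith
    have := le_of_mul_le_mul_left h3 hde
    linarith
  · refine le_of_forall_pos_le_add fun ε hε => ?_
    set de := min (1 / 2) (ε / 2)
    have hde : 0 < de := lt_min (by norm_num) (by positivity)
    have h1 := main (-de) (by rw [abs_neg, abs_of_pos hde]; exact min_le_left _ _)
    have h2 : de ≤ ε / 2 := min_le_right _ _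
    have h3 : de * b ≤ de * (a + 2 * de) := by nlinarith
    have := le_of_mul_le_mul_left h3 hde
    linarith

end Crest.Agent.R146.BrLaw_151
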