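import Crest.Agent.R146.SysA_52
import Crest.Agent.R141.HierM

/-!
Row 146, statement S0206 (S6 project): `DER` and `JEN` of `S6U_988` (helper52).
-/

set_option autoImplicit false

namespace Crest.Agent.R146.DerJen_52

open Finset MeasureTheory ProbabilityTheory Crest.Agent.R141
open Crest.Agent.R146.S6Def_988
open Crest.Agent.R164
open Crest.Agent.R146.SysA_52

noncomputable section

variable {N : ℕ} {C : Cfg N} {nc n : ℕ} {M : ℕ} {f : ℕ → ℝ → ℝ} {K : ℝ}

/-! ### DER -/

theorem fieldE_sub (s s' : Fin nc → ℝ) (ω : Om C nc n) :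
    fieldE s ω - fieldE s' ω = fieldE (fun g => s g - s' g) ω := by
  unfold fieldE
  rw [← Finset.sum_sub_distrib]
  exact Finset.sum_congr rfl fun g _ => by ring

theorem Phi_lip (G : Fin M → Fin N → ℝ) (s s' : Fin nc → ℝ) :
    |Phi C nc n f G s - Phi C nc n f G s'| ≤ (∑ g, |s g - s' g|) * (N * Real.sqrt n) := by
  unfold Phi
  rw [← eE_sub]
  refine Crest.Agent.R164.Rot.eE_abs_le (prior_isProb C nc n) fun ω => ?_
  refine A_sub_abs_le (prior_isProb C nc n) (xs_pos nc n) (fun ω => ?_) 0 ω
  have : (UU f G s ω : ℝ) - UU f G s' ω = fieldE s ω - fieldE s' ω := by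
    unfold UU; ring
  rw [this, fieldE_sub]
  exact fieldE_abs_le _ ω

theorem continuous_FN (hf : ∀ a, Measurable (f a)) (hK : ∀ a x, |f a x| ≤ K) :
    Continuous fun s : Fin nc → ℝ => FN C nc n f M s := by
  unfold FN
  refine Continuous.sub (continuous_const.mul ?_) (by fun_prop)
  rw [continuous_iff_continuousAt]
  intro s
  rw [ContinuousAt, tendsto_iff_norm_sub_tendsto_zero]
  have h0 : Filter.Tendsto (fun s' : Fin nc → ℝ => (∑ g, |s' g - s g|) * (N * Real.sqrt n))
      (nhds s) (nhds 0) := by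
    have hc : Continuous fun s' : Fin nc → ℝ => (∑ g, |s' g - s g|) * (N * Real.sqrt n) := by
      fun_prop
    have := hc.tendsto s
    simpa using this
  refine squeeze_zero (fun _ => norm_nonneg _) (fun s' => ?_) h0
  rw [← integral_sub (integrable_Phi hf hK s') (integrable_Phi hf hK s), Real.norm_eq_abs]
  refine abs_integral_le_integral_abs.trans ?_
  have i1 : Integrable (fun G : Fin M → Fin N → ℝ => |Phi C nc n f G s' - Phi C nc n f G s|)
      (gam M N) := ((integrable_Phi hf hK s').sub (integrable_Phi hf hK s)).abs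
  refine (integral_mono i1 (integrable_const _) fun G => Phi_lip G s' s).trans ?_
  simp

theorem QQ_update (G : Fin M → Fin N → ℝ) (s : Fin nc → ℝ) (g : Fin nc) (y : ℝ) :
    QQ C nc n f G (Function.update s g y) =
      ObsConc.tQ (prior C nc n) (fil C nc n) (xs nc n) (UU f G s)
        (fun ω => N * Dobs C nc n g ω) (y - s g) := by
  unfold QQ ObsConc.tQ
  have h : (UU f G (Function.update s g y) : Om C nc n → ℝ) =
      fun ω => UU f G s ω + (y - s g) * (N * Dobs C nc n g ω) := by
    funext ω; exact UU_update G s g y ω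
  rw [h]

theorem hasDerivAt_Phi (G : Fin M → Fin N → ℝ) (s : Fin nc → ℝ) (g : Fin nc) (y : ℝ) :
    HasDerivAt (fun y => Phi C nc n f G (Function.update s g y))
      (N * eE (QQ C nc n f G (Function.update s g y)) (Dobs C nc n g)) y := by
  have h := ObsConc.hasDerivAt_gA (𝓕 := fil C nc n) (prior_isProb C nc n) (xs_pos nc n)
    (fil_zero C nc n) (UU f G s) (fun ω => N * Dobs C nc n g ω) (y - s g)
  rw [← QQ_update, eE_smul] at h
  have h2 : HasDerivAt (fun y : ℝ => y - s g) 1 y := (hasDerivAt_id y).sub_const _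
  have h3 := h.comp y h2
  rw [mul_one] at h3
  refine h3.congr_of_eventuallyEq (Filter.Eventually.of_forall fun z => ?_)
  exact Phi_update G s g z

theorem hasDerivAt_int (hf : ∀ a, Measurable (f a)) (hK : ∀ a x, |f a x| ≤ K)
    (s : Fin nc → ℝ) (g : Fin nc) (y : ℝ) :
    HasDerivAt (fun y => ∫ G, Phi C nc n (M := M) f G (Function.update s g y) ∂(gam M N))
      (∫ G, N * eE (QQ C nc n (M := M) f G (Function.update s g y)) (Dobs C nc n g) ∂(gam M N))
      y := by
  refine (hasDerivAt_integral_of_dominated_loc_of_deriv_le (μ := gam M N)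
    (F := fun y (G : Fin M → Fin N → ℝ) => Phi C nc n f G (Function.update s g y))
    (F' := fun y (G : Fin M → Fin N → ℝ) =>
      N * eE (QQ C nc n f G (Function.update s g y)) (Dobs C nc n g))
    (bound := fun _ => N * Real.sqrt n) (x₀ := y) (s := Set.univ) Filter.univ_mem
    (Filter.Eventually.of_forall fun z => (measurable_Phi hf _).aestronglyMeasurable)
    (integrable_Phi hf hK _) ?_ ?_ (integrable_const _) ?_).2
  · exact ((measurable_eE_QQ hf _ _).const_mul _).aestronglyMeasurable
  · refine Filter.Eventually.of_forall fun G z _ => ?_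
    rw [Real.norm_eq_abs, abs_mul, abs_of_nonneg (Nat.cast_nonneg N : (0 : ℝ) ≤ N)]
    exact mul_le_mul_of_nonneg_left
      (Crest.Agent.R164.Rot.eE_abs_le (QQ_isProb G _) fun ω => Dobs_abs_le g ω) (Nat.cast_nonneg N)
  · exact Filter.Eventually.of_forall fun G z _ => hasDerivAt_Phi G s g z

theorem der : S6U_988.DER := by
  intro nc N n hN _hn C K f M hf hK
  refine ⟨continuous_FN hf hK, fun s g => ?_⟩
  have hN' : (N : ℝ) ≠ 0 := by positivity
  have h1 := (hasDerivAt_int (C := C) (n := n) (M := M) hf hK s g (s g)).const_mul ((N : ℝ)⁻¹)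
  rw [Function.update_eq_self, integral_const_mul, ← mul_assoc, inv_mul_cancel₀ hN', one_mul] at h1
  have h2 : HasDerivAt (fun y : ℝ => 1 / 2 * (∑ h, s h ^ 2 + (y ^ 2 - s g ^ 2))) (s g) (s g) := by
    have h3 : HasDerivAt (fun y : ℝ => y ^ 2) (2 * s g) (s g) := by
      simpa using hasDerivAt_pow 2 (s g)
    have h4 := (((h3.sub_const (s g ^ 2)).const_add (∑ h, s h ^ 2)).const_mul (1 / 2 : ℝ))
    have e : (1 / 2 : ℝ) * (2 * s g) = s g := by ring
    rwa [e] at h4
  refine (h1.sub h2).congr_of_eventuallyEq (Filter.Eventually.of_forall fun y => ?_)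
  unfold FN
  simp only [Pi.sub_apply]
  rw [sum_sq_update]

/-! ### JEN -/

theorem fil_end (ω ω' : Om C nc n) : (fil C nc n).F (nc * n) ω ω' ↔ ω.2 = ω'.2 := by
  rw [fil_iff]
  constructor
  · intro h
    funext g t
    refine h.1 g t ?_
    have h1 : (g : ℕ) * n + t < ((g : ℕ) + 1) * n := by
      have := t.2
      rw [add_mul, one_mul]; omega
    have h2 : ((g : ℕ) + 1) * n ≤ nc * n := Nat.mul_le_mul_right n g.2
    omega
  · intro h
    refine ⟨fun g t _ => by rw [h], fun hL => ?_⟩
    unfold Lv at hL; omega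

theorem cE_end (h : Om C nc n → ℝ) (ω : Om C nc n) :
    cE (prior C nc n) ((fil C nc n).F (nc * n)) h ω = ∑ y, C.q y * h (y, ω.2) := by
  classical
  have hc := (card_coins_pos nc n N).ne'
  have key : ∀ h : Om C nc n → ℝ,
      (∑ ω', if (fil C nc n).F (nc * n) ω ω' then prior C nc n ω' * h ω' else 0) =
        (Fintype.card (Coins nc n N) : ℝ)⁻¹ * ∑ y, C.q y * h (y, ω.2) := by
    intro h
    rw [Fintype.sum_prod_type, Finset.mul_sum]
    refine Finset.sum_congr rfl fun y _ => ?_
    rw [Finset.sum_eq_single ω.2]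
    · rw [if_pos ((fil_end ω (y, ω.2)).mpr rfl)]
      unfold prior; ring
    · intro c _ hcc
      rw [if_neg]
      intro h'
      exact hcc ((fil_end ω (y, c)).mp h').symm
    · intro h'; exact absurd (Finset.mem_univ _) h'
  have h1 := key h
  have h2 := key (fun _ => 1)
  simp only [mul_one] at h2
  rw [C.hq.sum, mul_one] at h2
  rw [cE_eq_ite]
  rw [h1, h2]
  field_simp

/-- flip of all coins -/
def flipE (nc n N : ℕ) : Coins nc n N ≃ Coins nc n N where
  toFun c := fun g t i => !(c g t i)
  invFun c := fun g t i => !(c g t i)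
  left_inv c := by funext g t i; simp
  right_inv c := by funext g t i; simp

theorem zf_flip (c : Coins nc n N) (g : Fin nc) (i : Fin N) :
    zf (flipE nc n N c) g i = - zf c g i := by
  unfold zf flipE
  rw [← mul_neg, ← Finset.sum_neg_distrib]
  congr 1
  refine Finset.sum_congr rfl fun t _ => ?_
  show sv (!(c g t i)) = - sv (c g t i)
  cases c g t i <;> simp [sv]

theorem sum_fieldE (s : Fin nc → ℝ) (y : C.Y) :
    ∑ c : Coins nc n N, fieldE s ((y, c) : Om C nc n) = 0 := by
  have h1 : ∑ c : Coins nc n N, fieldE s ((y, c) : Om C nc n) =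
      ∑ c : Coins nc n N, fieldE s ((y, flipE nc n N c) : Om C nc n) :=
    (Equiv.sum_comp (flipE nc n N) (fun c => fieldE s ((y, c) : Om C nc n))).symm
  have h2 : ∀ c : Coins nc n N, fieldE s ((y, flipE nc n N c) : Om C nc n) =
      - fieldE s ((y, c) : Om C nc n) := by
    intro c
    unfold fieldE
    rw [← Finset.sum_neg_distrib]
    refine Finset.sum_congr rfl fun g _ => ?_
    rw [← mul_neg, ← Finset.sum_neg_distrib]
    congr 1
    refine Finset.sum_congr rfl fun i _ => ?_
    show zf (flipE nc n N c) g i * _ = _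
    rw [zf_flip]; ring
  simp only [h2, Finset.sum_neg_distrib] at h1
  linarith

/-- Jensen for the log-sum-exp -/
theorem jensen_log {Y : Type} [Fintype Y] [Nonempty Y] {q : Y → ℝ} (hq : ∀ y, 0 < q y)
    (a h : Y → ℝ) :
    Real.log (∑ y, q y * Real.exp (a y)) +
      ∑ y, (q y * Real.exp (a y) / ∑ z, q z * Real.exp (a z)) * h y ≤
      Real.log (∑ y, q y * Real.exp (a y + h y)) := by
  set W := ∑ z, q z * Real.exp (a z) with hW
  have hWp : 0 < W := Finset.sum_pos (fun y _ => mul_pos (hq y) (Real.exp_pos _))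
    Finset.univ_nonempty
  have hp : ∀ y, 0 ≤ q y * Real.exp (a y) / W := fun y =>
    div_nonneg (mul_pos (hq y) (Real.exp_pos _)).le hWp.le
  have hs : ∑ y, q y * Real.exp (a y) / W = 1 := by
    rw [← Finset.sum_div, ← hW, div_self hWp.ne']
  have hj := convexOn_exp.map_sum_le (t := Finset.univ)
    (w := fun y => q y * Real.exp (a y) / W) (p := h) (fun y _ => hp y) hs
    (fun _ _ => Set.mem_univ _)
  simp only [smul_eq_mul] at hj
  have h2 : W * ∑ y, q y * Real.exp (a y) / W * Real.exp (h y) =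
      ∑ y, q y * Real.exp (a y + h y) := by
    rw [Finset.mul_sum]
    refine Finset.sum_congr rfl fun y _ => ?_
    rw [Real.exp_add]; field_simp
  rw [← h2, Real.log_mul hWp.ne' (lt_of_lt_of_le (Real.exp_pos _) hj).ne']
  have := Real.log_le_log (Real.exp_pos _) hj
  rw [Real.log_exp] at this
  linarith

theorem Phi_ge (hn : 0 < n) (G : Fin M → Fin N → ℝ) (s : Fin nc → ℝ) :
    Real.log (∑ y, C.q y * Real.exp (rowE f G (C.x y))) ≤ Phi C nc n f G s := by
  have hP := prior_isProb C nc n
  have hx := xs_pos nc n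
  -- the value at the end of the coins
  have h1 : ∀ ω : Om C nc n, A (prior C nc n) (fil C nc n) (xs nc n) (UU f G s) (nc * n) ω =
      Real.log (∑ y, C.q y * Real.exp (UU f G s ((y, ω.2) : Om C nc n))) := by
    intro ω
    rw [A_step hP hx (UU f G s) (nc * n)]
    have e1 : xs nc n (nc * n + 1) = 1 := xs_last nc n hn
    have e2 : A (prior C nc n) (fil C nc n) (xs nc n) (UU f G s) (nc * n + 1) = UU f G s :=
      A_of_ge _ (by show Lv nc n ≤ nc * n + 1; unfold Lv; exact le_rfl)
    rw [e2, e1]
    unfold pm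
    rw [cE_end]
    simp
  have h2 : eE (prior C nc n) (A (prior C nc n) (fil C nc n) (xs nc n) (UU f G s) (nc * n)) ≤
      Phi C nc n f G s := by
    unfold Phi
    calc eE (prior C nc n) (A (prior C nc n) (fil C nc n) (xs nc n) (UU f G s) (nc * n)) =
          eE (prior C nc n) (cE (prior C nc n) ((fil C nc n).F 0)
            (A (prior C nc n) (fil C nc n) (xs nc n) (UU f G s) (nc * n))) :=
            (eE_cE hP _ _).symm
      _ ≤ _ := eE_mono hP fun ω => A_super hP hx _ (Nat.zero_le _) ω
  refine le_trans ?_ h2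
  set W := ∑ y, C.q y * Real.exp (rowE f G (C.x y)) with hW
  set p : C.Y → ℝ := fun y => C.q y * Real.exp (rowE f G (C.x y)) / W with hp
  have h3 : ∀ ω : Om C nc n, Real.log W + ∑ y, p y * fieldE s ((y, ω.2) : Om C nc n) ≤
      A (prior C nc n) (fil C nc n) (xs nc n) (UU f G s) (nc * n) ω := by
    intro ω
    rw [h1]
    exact jensen_log C.hq.pos (fun y => rowE f G (C.x y)) _
  refine le_trans (le_of_eq ?_) (eE_mono hP h3)
  rw [eE_add, eE_const hP, eE_sum]
  have h4 : ∀ y : C.Y, eE (prior C nc n) (fun ω => p y * fieldE s ((y, ω.2) : Om C nc n)) = 0 := by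
    intro y
    rw [eE_smul]
    have : eE (prior C nc n) (fun ω => fieldE s ((y, ω.2) : Om C nc n)) = 0 := by
      unfold eE prior
      rw [Fintype.sum_prod_type]
      refine Finset.sum_eq_zero fun z _ => ?_
      show ∑ c : Coins nc n N, C.q z * (Fintype.card (Coins nc n N) : ℝ)⁻¹ *
        fieldE s ((y, c) : Om C nc n) = 0
      rw [← Finset.mul_sum, sum_fieldE, mul_zero]
    rw [this, mul_zero]
  rw [Finset.sum_eq_zero fun y _ => h4 y, add_zero]

theorem jen : S6U_988.JEN := by
  intro nc N n hN hn C K f M hf hK s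
  have hN' : (0 : ℝ) < N := by exact_mod_cast hN
  unfold S6U_988.pC FN
  have h : (N : ℝ)⁻¹ * ∫ G, Real.log (∑ y, C.q y * Real.exp (rowE (M := M) f G (C.x y)))
      ∂(gam M N) ≤ (N : ℝ)⁻¹ * ∫ G, Phi C nc n (M := M) f G s ∂(gam M N) := by
    refine mul_le_mul_of_nonneg_left ?_ (inv_nonneg.mpr hN'.le)
    refine integral_mono ?_ (integrable_Phi hf hK s) fun G => Phi_ge hn G s
    have hm : Measurable fun G : Fin M → Fin N → ℝ =>
        Real.log (∑ y, C.q y * Real.exp (rowE f G (C.x y))) := by
      refine Real.measurable_log.comp (Finset.measurable_sum _ fun y _ => ?_)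
      exact (Real.measurable_exp.comp (measurable_rowE hf _)).const_mul _
    refine integrable_bdd hm (B := M * K) fun G => ?_
    have hb := fun y => abs_le.mp (rowE_abs_le hK G (C.x y))
    have hlow : Real.exp (-(M * K)) ≤ ∑ y, C.q y * Real.exp (rowE f G (C.x y)) := by
      calc Real.exp (-(M * K)) = ∑ y, C.q y * Real.exp (-(M * K)) := by
            rw [← Finset.sum_mul, C.hq.sum, one_mul]
        _ ≤ _ := Finset.sum_le_sum fun y _ => mul_le_mul_of_nonneg_left
            (Real.exp_le_exp.mpr (hb y).1) (C.hq.pos y).le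
    have hup : ∑ y, C.q y * Real.exp (rowE f G (C.x y)) ≤ Real.exp (M * K) := by
      calc ∑ y, C.q y * Real.exp (rowE f G (C.x y)) ≤ ∑ y, C.q y * Real.exp (M * K) :=
            Finset.sum_le_sum fun y _ => mul_le_mul_of_nonneg_left
              (Real.exp_le_exp.mpr (hb y).2) (C.hq.pos y).le
        _ = _ := by rw [← Finset.sum_mul, C.hq.sum, one_mul]
    rw [abs_le]
    constructor
    · have := Real.log_le_log (Real.exp_pos _) hlow
      rwa [Real.log_exp] at this
    · have := Real.log_le_log (lt_of_lt_of_le (Real.exp_pos _) hlow) hup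
      rwa [Real.log_exp] at this
  linarith

end

end Crest.Agent.R146.DerJen_52
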