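import Crest.Agent.R146.Sph2_857

/-!
# Row 146, package SPH (helper857), part 3: the literal pressure

* `rowG N` standard Gaussian row, `map_rowG_sum` law of a linear form;
* `uS N` uniform probability on the unit sphere, `ys` coordinates;
* `EL N M ψ = E log Z` with row potentials `ψ a`;
* `spherePressure_eq`, `expectedPressure_eq`: the literal objects in terms of `logZ`, `EL`;
* `pressureTailProb_tendsto_zero`: `E p_N → p` implies `p_N → p` in probability.
-/

set_option autoImplicit false
set_option linter.unusedSectionVars false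

open MeasureTheory ProbabilityTheory Finset
open scoped ENNReal

namespace Crest.Agent.R146.Sph857

open Crest.ProbabilityR.Perceptron

/-- standard Gaussian row -/
noncomputable def rowG (N : ℕ) : Measure (Fin N → ℝ) := Measure.pi fun _ => gaussianReal 0 1

instance (N : ℕ) : IsProbabilityMeasure (rowG N) := by unfold rowG; infer_instance

theorem charFun_map_rowG_sum (N : ℕ) (u : Fin N → ℝ) (t : ℝ) :
    charFun ((rowG N).map (fun r => ∑ i, r i * u i)) t =
      Complex.exp (-((∑ i, u i ^ 2 : ℝ) : ℂ) * t ^ 2 / 2) := by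
  have hm : Measurable (fun r : Fin N → ℝ => ∑ i, r i * u i) :=
    Finset.measurable_sum _ fun i _ => (measurable_pi_apply i).mul_const _
  have h2 := charFun_stdGaussian (E := EuclideanSpace ℝ (Fin N)) (t • WithLp.toLp 2 u)
  rw [charFun_apply, ← map_pi_eq_stdGaussian, integral_map (by fun_prop) (by fun_prop)] at h2
  rw [charFun_apply, integral_map hm.aemeasurable (by fun_prop)]
  have e1 : ∀ r : Fin N → ℝ, inner ℝ (WithLp.toLp 2 r) (t • WithLp.toLp 2 u) =
      inner ℝ (∑ i, r i * u i) t := by
    intro r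
    rw [real_inner_smul_right]
    simp only [PiLp.inner_apply, RCLike.inner_apply, conj_trivial]
    congr 1
    exact Finset.sum_congr rfl fun i _ => by ring
  simp only [e1] at h2
  unfold rowG
  rw [h2]
  congr 1
  have e2 : ‖(t • WithLp.toLp 2 u : EuclideanSpace ℝ (Fin N))‖ ^ 2 = t ^ 2 * ∑ i, u i ^ 2 := by
    rw [norm_smul, mul_pow, EuclideanSpace.real_norm_sq_eq, Real.norm_eq_abs, sq_abs]
  rw [← Complex.ofReal_pow, e2]
  push_cast
  ring

/-- law of a linear form of the Gaussian row -/
theorem map_rowG_sum (N : ℕ) (u : Fin N → ℝ) :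
    (rowG N).map (fun r => ∑ i, r i * u i) = gaussianReal 0 (Real.toNNReal (∑ i, u i ^ 2)) := by
  have hm : Measurable (fun r : Fin N → ℝ => ∑ i, r i * u i) :=
    Finset.measurable_sum _ fun i _ => (measurable_pi_apply i).mul_const _
  have : IsProbabilityMeasure ((rowG N).map (fun r => ∑ i, r i * u i)) :=
    Measure.isProbabilityMeasure_map hm.aemeasurable
  apply Measure.ext_of_charFun
  ext t
  rw [charFun_map_rowG_sum, charFun_gaussianReal]
  congr 1
  rw [Real.coe_toNNReal _ (Finset.sum_nonneg fun i _ => sq_nonneg _)]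
  push_cast
  ring

theorem map_rowG_unit (N : ℕ) {u : Fin N → ℝ} (hu : ∑ i, u i ^ 2 = 1) :
    (rowG N).map (fun r => ∑ i, r i * u i) = gaussianReal 0 1 := by
  rw [map_rowG_sum, hu]; simp

theorem integral_rowG_unit (N : ℕ) {u : Fin N → ℝ} (hu : ∑ i, u i ^ 2 = 1) {f : ℝ → ℝ}
    (hf : Measurable f) : ∫ r, f (∑ i, r i * u i) ∂(rowG N) = ∫ x, f x ∂(gaussianReal 0 1) := by
  have hm : Measurable (fun r : Fin N → ℝ => ∑ i, r i * u i) :=
    Finset.measurable_sum _ fun i _ => (measurable_pi_apply i).mul_const _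
  rw [← map_rowG_unit N hu, integral_map hm.aemeasurable hf.aestronglyMeasurable]

/-! ### the sphere -/

/-- uniform probability on the unit sphere -/
noncomputable def uS (N : ℕ) : Measure (UnitSphere N) :=
  ((sphereLaw N) Set.univ)⁻¹ • sphereLaw N

instance finite_sphereLaw (N : ℕ) : IsFiniteMeasure (sphereLaw N) := by
  unfold sphereLaw; infer_instance

theorem sphereLaw_univ_ne_zero {N : ℕ} (hN : N ≠ 0) : sphereLaw N Set.univ ≠ 0 := by
  unfold sphereLaw
  rw [Ne, Measure.measure_univ_eq_zero, Measure.toSphere_eq_zero_iff_finrank]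
  simpa using hN

theorem isProbabilityMeasure_uS {N : ℕ} (hN : N ≠ 0) : IsProbabilityMeasure (uS N) := by
  refine ⟨?_⟩
  unfold uS
  rw [Measure.smul_apply, smul_eq_mul]
  exact ENNReal.inv_mul_cancel (sphereLaw_univ_ne_zero hN) (measure_ne_top _ _)

instance (N : ℕ) [NeZero N] : IsProbabilityMeasure (uS N) := isProbabilityMeasure_uS (NeZero.ne N)

/-- coordinates of a point of the sphere -/
def ys {N : ℕ} (w : UnitSphere N) : Fin N → ℝ := fun i => (w : EuclideanSpace ℝ (Fin N)) i

theorem continuous_ys {N : ℕ} : Continuous (ys (N := N)) := by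
  unfold ys
  refine continuous_pi fun i => ?_
  exact (EuclideanSpace.proj i : EuclideanSpace ℝ (Fin N) →L[ℝ] ℝ).continuous.comp
    continuous_subtype_val

theorem measurable_ys {N : ℕ} : Measurable (ys (N := N)) := continuous_ys.measurable

theorem sum_ys_sq {N : ℕ} (w : UnitSphere N) : ∑ i, ys w i ^ 2 = 1 := by
  have h : ‖(w : EuclideanSpace ℝ (Fin N))‖ = 1 := by simp
  have := EuclideanSpace.real_norm_sq_eq (w : EuclideanSpace ℝ (Fin N))
  rw [h] at this
  simpa [ys] using this.symm

theorem integral_fld_ys {N : ℕ} (w : UnitSphere N) {f : ℝ → ℝ} (hf : Measurable f) :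
    ∫ r, f (fld ys r w) ∂(rowG N) = ∫ x, f x ∂(gaussianReal 0 1) :=
  integral_rowG_unit N (sum_ys_sq w) hf

/-- mean log-partition function of the Gaussian spherical model with row potentials `ψ` -/
noncomputable def EL (N M : ℕ) (ψ : Fin M → ℝ → ℝ) : ℝ :=
  ∫ g, logZ (uS N) ys ψ g ∂(Measure.pi fun _ : Fin M => rowG N)

/-- the literal array law in curried form -/
theorem measurePreserving_curry (M N : ℕ) :
    MeasurePreserving (MeasurableEquiv.curry (Fin M) (Fin N) ℝ)
      (Measure.pi fun _ : Fin M × Fin N => gaussianReal 0 1)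
      (Measure.pi fun _ : Fin M => rowG N) := by
  refine ⟨(MeasurableEquiv.curry (Fin M) (Fin N) ℝ).measurable, ?_⟩
  have := Measure.infinitePi_map_curry (ι := Fin M) (κ := Fin N) (X := ℝ)
    (μ := fun _ _ => gaussianReal 0 1)
  rw [Measure.infinitePi_eq_pi, Measure.infinitePi_eq_pi] at this
  unfold rowG
  rw [this]
  congr 1
  funext i
  rw [Measure.infinitePi_eq_pi]

theorem spherePressure_eq (N : ℕ) (α β : ℝ) (φ : ℝ → ℝ) (g : Patterns N α) :
    spherePressure N α β φ g =
      logZ (uS N) ys (fun _ : Fin (numPatterns N α) => fun x => β * φ x)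
        (Function.curry g) / N := by
  unfold spherePressure logZ Zf uS potentialSum
  congr 2
  rw [integral_smul_measure, smul_eq_mul, ENNReal.toReal_inv, Measure.real, div_eq_inv_mul]
  congr 1
  refine integral_congr_ae (Filter.Eventually.of_forall fun w => ?_)
  simp only [Finset.mul_sum, Function.curry, fld, ys]

theorem expectedPressure_eq (N : ℕ) (α β : ℝ) (φ : ℝ → ℝ) :
    expectedPressure N α β φ = EL N (numPatterns N α) (fun _ x => β * φ x) / N := by
  unfold expectedPressure EL
  rw [← integral_div]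
  have h := (measurePreserving_curry (numPatterns N α) N).integral_comp'
    (fun g => logZ (uS N) ys (fun _ : Fin (numPatterns N α) => fun x => β * φ x) g / N)
  rw [← h]
  exact integral_congr_ae (Filter.Eventually.of_forall fun g => spherePressure_eq N α β φ g)

/-- **Concentration**: Chebyshev bound for the literal pressure. -/
theorem pressureTailProb_le {N : ℕ} (hN : N ≠ 0) (α β : ℝ) {φ : ℝ → ℝ} (hφ : Measurable φ)
    {K : ℝ} (hK : ∀ x, |φ x| ≤ K) {c : ℝ} (hc : 0 < c) :
    patternLaw N α {g | c ≤ |spherePressure N α β φ g - expectedPressure N α β φ|} ≤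
      ENNReal.ofReal (2 * numPatterns N α * (|β| * K) ^ 2 / (c ^ 2 * N ^ 2)) := by
  have := isProbabilityMeasure_uS hN
  set M := numPatterns N α with hM
  set ψ : Fin M → ℝ → ℝ := fun _ x => β * φ x with hψd
  have hψ : ∀ a, Measurable (ψ a) := fun a => hφ.const_mul β
  have hψK : ∀ a x, |ψ a x| ≤ |β| * K := fun a x => by
    rw [hψd]; simp only [abs_mul]; gcongr; exact hK x
  have hN' : (0 : ℝ) < N := by positivity
  set P := Measure.pi fun _ : Fin M => rowG N with hP
  set X : (Fin M → Fin N → ℝ) → ℝ := logZ (uS N) ys ψ with hX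
  have hXm : Measurable X := measurable_logZ measurable_ys hψ
  have hX2 : MemLp X 2 P := MemLp.of_bound hXm.aestronglyMeasurable (∑ a : Fin M, |β| * K)
      (Filter.Eventually.of_forall fun g => by
        rw [Real.norm_eq_abs]
        exact abs_logZ_le (K := fun _ => |β| * K) measurable_ys hψ hψK g)
  have hset : {g : Patterns N α | c ≤ |spherePressure N α β φ g - expectedPressure N α β φ|} =
      (MeasurableEquiv.curry (Fin M) (Fin N) ℝ) ⁻¹' {x | c * N ≤ |X x - ∫ z, X z ∂P|} := by
    ext g
    simp only [Set.mem_ofPred_eq, Set.mem_preimage]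
    rw [spherePressure_eq, expectedPressure_eq]
    have h1 : logZ (uS N) ys (fun _ : Fin (numPatterns N α) => fun x => β * φ x)
        (Function.curry g) / N - EL N (numPatterns N α) (fun _ x => β * φ x) / N =
        (X (Function.curry g) - ∫ z, X z ∂P) / N := by
      rw [sub_div]; rfl
    rw [h1, abs_div, abs_of_pos hN', le_div_iff₀ hN']
    rfl
  have hmeas : MeasurableSet {x | c * N ≤ |X x - ∫ z, X z ∂P|} :=
    measurableSet_le measurable_const ((hXm.sub_const _).norm)
  unfold patternLaw
  rw [hset, (measurePreserving_curry M N).measure_preimage hmeas.nullMeasurableSet]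
  have hch := meas_ge_le_variance_div_sq hX2 (c := c * N) (by positivity)
  refine hch.trans (ENNReal.ofReal_le_ofReal ?_)
  have hv := variance_logZ_le (μ := uS N) (K := fun _ : Fin M => |β| * K) measurable_ys hψ hψK (rowG N)
  rw [div_le_div_iff₀ (by positivity) (by positivity)]
  have hs : ∑ a : Fin M, (|β| * K) ^ 2 = M * (|β| * K) ^ 2 := by simp
  rw [hs] at hv
  have e : 2 * (M : ℝ) * (|β| * K) ^ 2 * (c * N) ^ 2 = (2 * (M * (|β| * K) ^ 2)) * (c ^ 2 * N ^ 2) := by
    ring
  rw [e]
  exact mul_le_mul_of_nonneg_right hv (by positivity)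

/-- **Convergence in probability from convergence in mean.** -/
theorem pressureTailProb_tendsto_zero {α β : ℝ} {φ : ℝ → ℝ} (hα : 0 ≤ α) (hφ : Measurable φ)
    {K : ℝ} (hK : ∀ x, |φ x| ≤ K) {p : ℝ}
    (hp : Filter.Tendsto (fun N : ℕ => expectedPressure N α β φ) Filter.atTop (nhds p))
    {ε : ℝ} (hε : 0 < ε) :
    Filter.Tendsto (fun N : ℕ => pressureTailProb N α β φ p ε) Filter.atTop (nhds 0) := by
  have hb : Filter.Tendsto (fun N : ℕ =>
      ENNReal.ofReal (2 * (α * (|β| * K) ^ 2 / (ε / 2) ^ 2) * (1 / N))) Filter.atTop (nhds 0) := by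
    have h1 : Filter.Tendsto (fun N : ℕ => 2 * (α * (|β| * K) ^ 2 / (ε / 2) ^ 2) * (1 / (N : ℝ)))
        Filter.atTop (nhds (2 * (α * (|β| * K) ^ 2 / (ε / 2) ^ 2) * 0)) :=
      tendsto_const_nhds.mul tendsto_one_div_atTop_nhds_zero_nat
    rw [mul_zero] at h1
    have := (ENNReal.continuous_ofReal.tendsto 0).comp h1
    rw [ENNReal.ofReal_zero] at this
    exact this
  refine tendsto_of_tendsto_of_tendsto_of_le_of_le' tendsto_const_nhds hb
    (Filter.Eventually.of_forall fun _ => zero_le) ?_
  have hclose := (Metric.tendsto_nhds.mp hp) (ε / 2) (by positivity)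
  filter_upwards [hclose, Filter.eventually_ne_atTop 0] with N hN hN0
  rw [Real.dist_eq] at hN
  have hN' : (0 : ℝ) < N := by positivity
  calc pressureTailProb N α β φ p ε
      ≤ patternLaw N α {g | ε / 2 ≤ |spherePressure N α β φ g - expectedPressure N α β φ|} := by
        unfold pressureTailProb
        refine measure_mono fun g hg => ?_
        simp only [Set.mem_ofPred_eq] at hg ⊢
        have h3 : |spherePressure N α β φ g - p| ≤
            |spherePressure N α β φ g - expectedPressure N α β φ| +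
              |expectedPressure N α β φ - p| := abs_sub_le _ _ _
        linarith
    _ ≤ ENNReal.ofReal (2 * numPatterns N α * (|β| * K) ^ 2 / ((ε / 2) ^ 2 * N ^ 2)) :=
        pressureTailProb_le hN0 α β hφ hK (by positivity)
    _ ≤ _ := by
        refine ENNReal.ofReal_le_ofReal ?_
        have hM : (numPatterns N α : ℝ) ≤ α * N := Nat.floor_le (by positivity)
        calc 2 * (numPatterns N α : ℝ) * (|β| * K) ^ 2 / ((ε / 2) ^ 2 * N ^ 2)
            ≤ 2 * (α * N) * (|β| * K) ^ 2 / ((ε / 2) ^ 2 * N ^ 2) := by gcongr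
          _ = 2 * (α * (|β| * K) ^ 2 / (ε / 2) ^ 2) * (1 / N) := by field_simp

end Crest.Agent.R146.Sph857
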