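import Crest.Agent.R146.S6U_988
import Crest.Agent.R146.Sph3_857

/-!
# Row 146 (helper857), task 4: DISC of `S6U_988` (fine configuration spaces on the sphere)
-/

set_option autoImplicit false
set_option linter.unusedSectionVars false
set_option linter.style.haveILetI false
set_option linter.unusedSimpArgs false

namespace Crest.Agent.R146.Disc857

open Finset MeasureTheory ProbabilityTheory Crest.Agent.R141
open Crest.Agent.R146.S6Def_988 Crest.Agent.R146.S6U_988
open Crest.ProbabilityR.Perceptron
open Crest.Agent.R146.Sph857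

theorem sph_eq_uS (N : ℕ) : sph N = uS N := rfl

theorem isProbabilityMeasure_sph {N : ℕ} (hN : N ≠ 0) : IsProbabilityMeasure (sph N) := by
  rw [sph_eq_uS]; exact isProbabilityMeasure_uS hN

theorem gam_eq (M N : ℕ) : gam M N = Measure.pi fun _ : Fin M => rowG N := rfl

/-- a measurable map of finite range close to the identity -/
theorem exists_simple (N : ℕ) (hN : 0 < N) {ε : ℝ} (hε : 0 < ε) :
    ∃ s : SimpleFunc (UnitSphere N) (UnitSphere N), ∀ w, dist (s w) w ≤ ε := by
  classical
  haveI : NeZero N := ⟨hN.ne'⟩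
  haveI : Nontrivial (EuclideanSpace ℝ (Fin N)) := by
    haveI : Nonempty (Fin N) := ⟨⟨0, hN⟩⟩
    infer_instance
  obtain ⟨w0⟩ : Nonempty (UnitSphere N) := by
    obtain ⟨x, hx⟩ := NormedSpace.sphere_nonempty (E := EuclideanSpace ℝ (Fin N)) (x := 0) (r := 1)
      |>.mpr zero_le_one
    exact ⟨⟨x, hx⟩⟩
  have hc : IsCompact (Set.univ : Set (UnitSphere N)) := isCompact_univ
  obtain ⟨t, -, htf, hcov⟩ := hc.finite_cover_balls hε
  set l := htf.toFinset.toList with hl
  set e : ℕ → UnitSphere N := fun k => l.getD k w0 with he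
  refine ⟨SimpleFunc.nearestPt e l.length, fun w => ?_⟩
  have hw : w ∈ ⋃ x ∈ t, Metric.ball x ε := hcov (Set.mem_univ w)
  simp only [Set.mem_iUnion, Metric.mem_ball] at hw
  obtain ⟨c, hct, hwc⟩ := hw
  have hcl : c ∈ l := by rw [hl, Finset.mem_toList]; exact htf.mem_toFinset.mpr hct
  obtain ⟨k, hk, hck⟩ := List.getElem_of_mem hcl
  have hek : e k = c := by rw [he]; simp only; rw [List.getD_eq_getElem _ _ hk, hck]
  have h1 := SimpleFunc.edist_nearestPt_le e w (k := k) (N := l.length) hk.le
  rw [hek] at h1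
  have h2 : edist (SimpleFunc.nearestPt e l.length w) w ≤ ENNReal.ofReal ε := by
    refine h1.trans ?_
    rw [edist_dist, dist_comm]
    exact ENNReal.ofReal_le_ofReal hwc.le
  rwa [edist_dist, ENNReal.ofReal_le_ofReal_iff hε.le] at h2

section
variable {N : ℕ}

/-- atoms of positive mass -/
noncomputable def atoms (s : SimpleFunc (UnitSphere N) (UnitSphere N)) : Finset (UnitSphere N) := by
  classical
  exact s.range.filter fun c => 0 < (sph N).real (s ⁻¹' {c})

theorem integral_simple_comp (hN : N ≠ 0) (s : SimpleFunc (UnitSphere N) (UnitSphere N))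
    (F : UnitSphere N → ℝ) :
    ∫ w, F (s w) ∂(sph N) = ∑ c ∈ s.range, (sph N).real (s ⁻¹' {c}) * F c := by
  classical
  haveI := isProbabilityMeasure_sph hN
  have h1 : ∀ w, F (s w) = ∑ c ∈ s.range, (s ⁻¹' {c}).indicator (fun _ => F c) w := by
    intro w
    rw [Finset.sum_eq_single (s w)]
    · rw [Set.indicator_of_mem]; simp
    · intro c _ hc
      rw [Set.indicator_of_notMem]
      simp only [Set.mem_preimage, Set.mem_singleton_iff]
      exact fun h => hc h.symm
    · intro h; exact absurd (SimpleFunc.mem_range_self s w) h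
  simp_rw [h1]
  rw [integral_finsetSum]
  · refine Finset.sum_congr rfl fun c _ => ?_
    rw [integral_indicator_const _ (s.measurableSet_preimage _), smul_eq_mul]
  · intro c _
    exact (integrable_const _).indicator (s.measurableSet_preimage _)

theorem sum_atoms (s : SimpleFunc (UnitSphere N) (UnitSphere N)) (F : UnitSphere N → ℝ) :
    ∑ c ∈ s.range, (sph N).real (s ⁻¹' {c}) * F c =
      ∑ c ∈ atoms s, (sph N).real (s ⁻¹' {c}) * F c := by
  classical
  unfold atoms
  rw [Finset.sum_filter]
  refine Finset.sum_congr rfl fun c _ => ?_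
  split_ifs with h
  · rfl
  · have h0 : (sph N).real (s ⁻¹' {c}) = 0 :=
      le_antisymm (not_lt.mp h) measureReal_nonneg
    rw [h0, zero_mul]

/-- the configuration space of a simple map -/
noncomputable def cfgOf (hN : N ≠ 0) (s : SimpleFunc (UnitSphere N) (UnitSphere N)) : Cfg N where
  Y := {c // c ∈ atoms s}
  fY := inferInstance
  nY := by
    classical
    haveI := isProbabilityMeasure_sph hN
    by_contra hne
    rw [not_nonempty_iff] at hne
    have h1 := integral_simple_comp hN s (fun _ => 1)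
    rw [sum_atoms] at h1
    have h2 : ∑ c ∈ atoms s, (sph N).real (s ⁻¹' {c}) * 1 = 0 := by
      rw [← Finset.sum_coe_sort]
      exact Fintype.sum_empty _
    rw [h2] at h1
    simp at h1
  q c := (sph N).real (s ⁻¹' {c.1})
  hq := by
    classical
    haveI := isProbabilityMeasure_sph hN
    refine ⟨fun c => ?_, ?_⟩
    · have := c.2
      unfold atoms at this
      exact (Finset.mem_filter.mp this).2
    · have h1 := integral_simple_comp hN s (fun _ => 1)
      rw [sum_atoms] at h1
      simp only [mul_one, integral_const, probReal_univ, smul_eq_mul, one_mul] at h1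
      rw [Finset.sum_coe_sort (atoms s) (fun c => (sph N).real (s ⁻¹' {c}))]
      exact h1.symm
  x c i := Real.sqrt N * ys c.1 i
  hx c := by
    have h1 := sum_ys_sq c.1
    simp only [mul_pow, ← Finset.mul_sum, h1, mul_one]
    exact Real.sq_sqrt (Nat.cast_nonneg N)

theorem abs_ys_sub_le (v w : UnitSphere N) (i : Fin N) : |ys v i - ys w i| ≤ dist v w := by
  have h1 : dist v w = ‖(v : EuclideanSpace ℝ (Fin N)) - (w : EuclideanSpace ℝ (Fin N))‖ := by
    rw [Subtype.dist_eq, dist_eq_norm]
  rw [h1, ← Real.norm_eq_abs]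
  exact PiLp.norm_apply_le ((v : EuclideanSpace ℝ (Fin N)) - (w : EuclideanSpace ℝ (Fin N))) i

theorem continuous_of_l1 {F : (Fin N → ℝ) → ℝ} (hF : ∀ u v, |F u - F v| ≤ ∑ i, |u i - v i|) :
    Continuous F := by
  rw [Metric.continuous_iff]
  intro b ε hε
  refine ⟨ε / (N + 1), by positivity, fun a ha => ?_⟩
  rw [Real.dist_eq]
  calc |F a - F b| ≤ ∑ i, |a i - b i| := hF a b
    _ ≤ ∑ _i : Fin N, ε / (N + 1) := Finset.sum_le_sum fun i _ => by
        have := dist_le_pi_dist a b i
        rw [Real.dist_eq] at this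
        linarith
    _ = N * (ε / (N + 1)) := by simp
    _ < ε := by
        rw [mul_div_assoc', div_lt_iff₀ (by positivity)]
        nlinarith

theorem near_cfgOf (hN : 0 < N) (s : SimpleFunc (UnitSphere N) (UnitSphere N)) {ε : ℝ}
    (hs : ∀ w, dist (s w) w ≤ ε) : Near (cfgOf hN.ne' s) (Real.sqrt N * (N * ε)) := by
  classical
  haveI := isProbabilityMeasure_sph hN.ne'
  intro F hF
  have hFc := continuous_of_l1 hF
  set H : UnitSphere N → ℝ := fun w => F (fun i => Real.sqrt N * ys w i) with hH
  have hHc : Continuous H := hFc.comp (continuous_pi fun i =>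
    continuous_const.mul ((continuous_apply i).comp continuous_ys))
  have hHi : Integrable H (sph N) := hHc.integrable_of_hasCompactSupport
    (HasCompactSupport.of_compactSpace _)
  have hb : ∀ w, |H (s w) - H w| ≤ Real.sqrt N * (N * ε) := by
    intro w
    calc |H (s w) - H w| ≤ ∑ i, |Real.sqrt N * ys (s w) i - Real.sqrt N * ys w i| := hF _ _
      _ ≤ ∑ _i : Fin N, Real.sqrt N * ε := Finset.sum_le_sum fun i _ => by
          rw [← mul_sub, abs_mul, abs_of_nonneg (Real.sqrt_nonneg _)]
          exact mul_le_mul_of_nonneg_left ((abs_ys_sub_le _ _ i).trans (hs w)) (Real.sqrt_nonneg _)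
      _ = Real.sqrt N * (N * ε) := by simp; ring
  have h1 : ∑ y, (cfgOf hN.ne' s).q y * F ((cfgOf hN.ne' s).x y) = ∫ w, H (s w) ∂(sph N) := by
    rw [integral_simple_comp hN.ne' s H, sum_atoms,
      ← Finset.sum_coe_sort (atoms s) (fun c => (sph N).real (s ⁻¹' {c}) * H c)]
    rfl
  have h2 : ∫ y, F (fun i => Real.sqrt N * (y : EuclideanSpace ℝ (Fin N)) i) ∂(sph N) =
      ∫ w, H w ∂(sph N) := rfl
  have hsi : Integrable (fun w => H (s w)) (sph N) := by
    refine Integrable.of_bound (C := ∑ c ∈ s.range, |H c|)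
      (hHc.measurable.comp s.measurable).aestronglyMeasurable (Filter.Eventually.of_forall fun w => ?_)
    rw [Real.norm_eq_abs]
    exact Finset.single_le_sum (f := fun c => |H c|) (fun c _ => abs_nonneg _)
      (SimpleFunc.mem_range_self s w)
  rw [h1, h2, ← integral_sub hsi hHi]
  calc |∫ w, (H (s w) - H w) ∂(sph N)| ≤ ∫ w, |H (s w) - H w| ∂(sph N) :=
        abs_integral_le_integral_abs
    _ ≤ ∫ _w, Real.sqrt N * (N * ε) ∂(sph N) :=
        integral_mono (hsi.sub hHi).abs (integrable_const _) hb
    _ = Real.sqrt N * (N * ε) := by simp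

end

/-- **(DISC)** -/
theorem disc : DISC := by
  intro N hN δ hδ
  have hpos : 0 < Real.sqrt N * N + 1 := by positivity
  obtain ⟨s, hs⟩ := exists_simple N hN (ε := δ / (Real.sqrt N * N + 1)) (by positivity)
  refine ⟨cfgOf hN.ne' s, ?_⟩
  intro F hF
  refine (near_cfgOf hN s hs F hF).trans ?_
  calc Real.sqrt N * (N * (δ / (Real.sqrt N * N + 1)))
      = (Real.sqrt N * N) / (Real.sqrt N * N + 1) * δ := by ring
    _ ≤ 1 * δ := by
        gcongr
        rw [div_le_one hpos]; linarith
    _ = δ := one_mul δ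

end Crest.Agent.R146.Disc857
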