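import Crest.Agent.R146.MonB_422

/-!
Row 146, node MON (task 24), final statements (helper422) on `S6Def_988.Th`:

* `Th_mono`       : (M1) tail sums of `Q` ≤ tail sums of `P`  ⟹  `Th J f P ≤ Th J f Q`;
* `Th_lip`        : (M2) `|Th J f P - Th J f Q| ≤ L² / (2 (J+1)) * ∑ |P j - Q j|`;
* `Th_abs_sub_le` : (M5) `|f - f'| ≤ η ⟹ |Th J f P - Th J f' P| ≤ η`;
* `Th_abs_le`, `recV_abs_sub_le`, `recV_abs_le`, `recV_lip`, `Th_congr_lev`, `Th_mono_fun`.
-/

set_option autoImplicit false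

namespace Crest.Agent.R146.Mon_422

open MeasureTheory ProbabilityTheory Filter Topology Set
open Crest.ProbabilityR.InvariantGlass Crest.Agent.R164.GC
open Crest.Agent.R146.MonA_422 Crest.Agent.R146.MonB_422 Crest.Agent.R146.S6Def_988

noncomputable section

/-- `L`-Lipschitz functions, without a bound -/
def LipL (L : ℝ) (f : ℝ → ℝ) : Prop := ∀ x y, |f x - f y| ≤ L * |x - y|

theorem BL.lipL {K L : ℝ} {f : ℝ → ℝ} (h : BL K L f) : LipL L f := h.lip

theorem LipL.mono {L L' : ℝ} {f : ℝ → ℝ} (h : LipL L f) (hL : L ≤ L') : LipL L' f :=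
  fun x y => (h x y).trans (mul_le_mul_of_nonneg_right hL (abs_nonneg _))

theorem LipL.unit {L : ℝ} {f : ℝ → ℝ} (h : LipL L f) (hL : 0 < L) : Lip1 (fun x => L⁻¹ * f x) := by
  rw [lip1_iff]
  intro x y
  rw [← mul_sub, abs_mul, abs_of_pos (inv_pos.2 hL)]
  calc L⁻¹ * |f x - f y| ≤ L⁻¹ * (L * |x - y|) :=
        mul_le_mul_of_nonneg_left (h x y) (inv_pos.2 hL).le
    _ = |x - y| := by field_simp

theorem LipL.nonneg {L : ℝ} {f : ℝ → ℝ} (h : LipL L f) : 0 ≤ L := by
  have := (abs_nonneg _).trans (h 1 0)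
  simpa using this

theorem recV_unit {L : ℝ} (hL : 0 < L) (f : ℝ → ℝ) (t m : ℕ → ℝ) (k j : ℕ) (x : ℝ) :
    recV f t m k j x = L * recV (fun y => L⁻¹ * f y) t (fun i => m i * L) k j x := by
  have e : f = fun y => L * (L⁻¹ * f y) := by
    funext y
    field_simp
  conv_lhs => rw [e]
  exact recV_scale hL.ne' _ _ _ _ _ _

/-! ### general facts on `recV` -/

section recV

variable {t m : ℕ → ℝ} {k j : ℕ} {f f' : ℝ → ℝ} {L : ℝ}

theorem ad_top {t m : ℕ → ℝ} (ht : Monotone t) (hm : Monotone m) (hm0 : 0 ≤ m 0) (i n : ℕ) :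
    Ad (m i) (lst t m i n) := ad_lst ht hm hm0 n i

/-- stability in the terminal function -/
theorem recV_abs_sub_le (ht : Monotone t) (hm : Monotone m) (hm0 : 0 ≤ m 0) (hj : j ≤ k)
    (hf : LipL L f) (hf' : LipL L f') {c : ℝ} (h : ∀ y, |f y - f' y| ≤ c) (x : ℝ) :
    |recV f t m k j x - recV f' t m k j x| ≤ c := by
  set M : ℝ := L + 1 with hM
  have hMp : 0 < M := by have := hf.nonneg; linarith
  have hu := (hf.mono (show L ≤ M by linarith)).unit hMp
  have hu' := (hf'.mono (show L ≤ M by linarith)).unit hMp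
  have hmm : Monotone fun i => m i * M := fun a b hab => mul_le_mul_of_nonneg_right (hm hab) hMp.le
  have key := ch_abs_sub_le hu hu' (c := M⁻¹ * c) (fun y => by
    rw [← mul_sub, abs_mul, abs_of_pos (inv_pos.2 hMp)]
    exact mul_le_mul_of_nonneg_left (h y) (inv_pos.2 hMp).le)
    (lst t (fun i => m i * M) (k - j) j) _ (ad_top ht hmm (mul_nonneg hm0 hMp.le) _ _) x
  rw [recV_unit hMp f, recV_unit hMp f', recV_eq _ _ _ _ _ hj, recV_eq _ _ _ _ _ hj, ← mul_sub,
    abs_mul, abs_of_pos hMp]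
  calc _ ≤ M * (M⁻¹ * c) := mul_le_mul_of_nonneg_left key hMp.le
    _ = c := by field_simp

/-- the recursion preserves the Lipschitz constant -/
theorem recV_lip (ht : Monotone t) (hm : Monotone m) (hm0 : 0 ≤ m 0) (hj : j ≤ k)
    (hf : LipL L f) : LipL L (recV f t m k j) := by
  have key : ∀ M, 0 < M → L ≤ M → LipL M (recV f t m k j) := by
    intro M hMp hLM x y
    have hu := (hf.mono hLM).unit hMp
    have hmm : Monotone fun i => m i * M :=
      fun a b hab => mul_le_mul_of_nonneg_right (hm hab) hMp.le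
    have h1 := lip1_iff.1 (ch_lip1 hu (lst t (fun i => m i * M) (k - j) j) _
      (ad_top ht hmm (mul_nonneg hm0 hMp.le) _ _)) x y
    rw [recV_unit hMp f, recV_unit hMp f, recV_eq _ _ _ _ _ hj, ← mul_sub, abs_mul,
      abs_of_pos hMp]
    exact mul_le_mul_of_nonneg_left h1 hMp.le
  intro x y
  refine le_of_forall_pos_le_add fun η hη => ?_
  have h1 := key (L + η / (|x - y| + 1)) (by have := hf.nonneg; positivity)
    (by have : 0 ≤ η / (|x - y| + 1) := by positivity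
        linarith) x y
  refine h1.trans ?_
  rw [add_mul]
  have h2 : η / (|x - y| + 1) * |x - y| ≤ η := by
    rw [div_mul_eq_mul_div, div_le_iff₀ (by positivity)]
    nlinarith [abs_nonneg (x - y)]
  linarith

theorem recV_zero_fun : ∀ j x, recV (fun _ => 0) t m k j x = 0
  | 0, _ => rfl
  | j + 1, x => by
      have ih : recV (fun _ => 0) t m k j = fun _ => 0 := funext fun x => recV_zero_fun j x
      show gaussOp _ _ (recV (fun _ => 0) t m k j) x = 0
      rw [ih]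
      unfold gaussOp
      split_ifs <;> simp

theorem recV_abs_le (ht : Monotone t) (hm : Monotone m) (hm0 : 0 ≤ m 0) (hj : j ≤ k)
    {K : ℝ} (hf : BL K L f) (x : ℝ) : |recV f t m k j x| ≤ K := by
  have h0 : LipL L (fun _ : ℝ => (0 : ℝ)) := fun x y => by
    have := BL.lipL hf
    have := this.nonneg
    simp only [sub_self, abs_zero]
    positivity
  have h1 := recV_abs_sub_le ht hm hm0 hj (BL.lipL hf) h0 (c := K)
    (fun y => by rw [sub_zero]; exact hf.bd y) x
  rwa [recV_zero_fun, sub_zero] at h1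

theorem recV_BL (ht : Monotone t) (hm : Monotone m) (hm0 : 0 ≤ m 0) (hj : j ≤ k)
    {K : ℝ} (hf : BL K L f) : BL K L (recV f t m k j) :=
  ⟨recV_abs_le ht hm hm0 hj hf, recV_lip ht hm hm0 hj (BL.lipL hf)⟩

end recV

/-! ### `Th` -/

/-- exponents of `Th` -/
def mJ (J : ℕ) (j : ℕ) : ℝ := (j : ℝ) / ((J : ℝ) + 1)

theorem mJ_mono (J : ℕ) : Monotone (mJ J) := fun a b h => by
  unfold mJ
  have : (a : ℝ) ≤ b := by exact_mod_cast h
  gcongr

theorem mJ_zero (J : ℕ) : 0 ≤ mJ J 0 := by simp [mJ]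

theorem Th_eq (J : ℕ) (f : ℝ → ℝ) (P : ℕ → ℝ) :
    Th J f P = recV f (tP J P) (mJ J) (J + 2) (J + 2) 0 := rfl

theorem tP_mono {J : ℕ} {P : ℕ → ℝ} (h : Lev J P) : Monotone (tP J P) := by
  have h0 : ∀ i, i ≤ J → 0 ≤ P i := fun i hi => h.nonneg.trans (h.mono 0 i (Nat.zero_le _) hi)
  have h1 : ∀ i, i ≤ J → P i ≤ 1 := fun i hi => (h.mono i J hi le_rfl).trans h.le_one
  intro a b hab
  unfold tP
  split_ifs with h2 h3 h4 h5 h6 h7
  · exact le_rfl
  · exact h0 _ (by omega)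
  · exact zero_le_one
  · omega
  · exact h.mono _ _ (by omega) (by omega)
  · exact h1 _ (by omega)
  · omega
  · omega
  · exact le_rfl

theorem tP_zero (J : ℕ) (P : ℕ → ℝ) : tP J P 0 = 0 := by simp [tP]

theorem tP_top (J : ℕ) (P : ℕ → ℝ) : tP J P (J + 2) = 1 := by
  unfold tP
  rw [if_neg (by omega), if_neg (by omega)]

theorem tP_succ {J : ℕ} {P : ℕ → ℝ} {l : ℕ} (h : l ≤ J) : tP J P (l + 1) = P l := by
  unfold tP
  rw [if_neg (by omega), if_pos (by omega)]
  rfl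

variable {J : ℕ} {P Q : ℕ → ℝ} {K L : ℝ} {f f' : ℝ → ℝ}

theorem mJ_step (J l : ℕ) (c : ℝ) : mJ J (l + 1) * c - mJ J l * c = c / ((J : ℝ) + 1) := by
  unfold mJ
  push_cast
  field_simp
  ring

theorem sum_step (c : ℝ) (F : ℝ → ℝ) (hF : F 0 = 0) {i : ℕ} (hi : i ≤ J + 1) :
    ∑ l ∈ Finset.Ico i (J + 2), (mJ J (l + 1) * c - mJ J l * c) *
      F (tP J P (l + 1) - tP J Q (l + 1)) =
    c / ((J : ℝ) + 1) * ∑ l ∈ Finset.Ico i (J + 1), F (P l - Q l) := by
  rw [Finset.sum_Ico_succ_top (by omega), tP_top, tP_top, sub_self, hF, mul_zero, add_zero,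
    Finset.mul_sum]
  refine Finset.sum_congr rfl fun l hl => ?_
  rw [Finset.mem_Ico] at hl
  rw [mJ_step, tP_succ (by omega), tP_succ (by omega)]

/-- **(M1)** monotonicity of the nested recursion in the tail order of the levels -/
theorem Th_mono_lip (hP : Lev J P) (hQ : Lev J Q) (hf : LipL L f)
    (h : ∀ k, k ≤ J → ∑ j ∈ Finset.Ico k (J + 1), Q j ≤ ∑ j ∈ Finset.Ico k (J + 1), P j) :
    Th J f P ≤ Th J f Q := by
  set M : ℝ := L + 1 with hM
  have hMp : 0 < M := by have := hf.nonneg; linarith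
  have hu := (hf.mono (show L ≤ M by linarith)).unit hMp
  have hmm : Monotone fun i => mJ J i * M :=
    fun a b hab => mul_le_mul_of_nonneg_right (mJ_mono J hab) hMp.le
  have hm0 : 0 ≤ mJ J 0 * M := mul_nonneg (mJ_zero J) hMp.le
  have key := ch_mono_lip (t := tP J P) (t' := tP J Q) (m := fun i => mJ J i * M) (k := J + 2)
    ⟨tP_mono hP, hmm, hm0⟩ ⟨tP_mono hQ, hmm, hm0⟩ (by rw [tP_zero, tP_zero])
    (by rw [tP_top, tP_top]) hu (fun i hi => by
      rcases Nat.lt_or_ge i (J + 2) with hi2 | hi2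
      · have := sum_step (J := J) (P := P) (Q := Q) M (fun x => x) rfl (i := i) (by omega)
        show 0 ≤ ∑ l ∈ Finset.Ico i (J + 2), (mJ J (l + 1) * M - mJ J l * M) *
          (tP J P (l + 1) - tP J Q (l + 1))
        rw [this, Finset.sum_sub_distrib]
        refine mul_nonneg (by positivity) ?_
        rcases Nat.lt_or_ge i (J + 1) with h3 | h3
        · have := h i (by omega)
          linarith
        · rw [Finset.Ico_eq_empty (by omega)]
          simp
      · rw [Finset.Ico_eq_empty (by omega)]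
        simp) 0
  rw [Th_eq, Th_eq, recV_unit hMp f, recV_unit hMp f, recV_eq _ _ _ _ _ le_rfl,
    recV_eq _ _ _ _ _ le_rfl, Nat.sub_self]
  exact mul_le_mul_of_nonneg_left key hMp.le

theorem Th_mono (hP : Lev J P) (hQ : Lev J Q) (hf : BL K L f)
    (h : ∀ k, k ≤ J → ∑ j ∈ Finset.Ico k (J + 1), Q j ≤ ∑ j ∈ Finset.Ico k (J + 1), P j) :
    Th J f P ≤ Th J f Q := Th_mono_lip hP hQ (BL.lipL hf) h

theorem Th_lip_aux (hP : Lev J P) (hQ : Lev J Q) (hf : LipL L f) {M : ℝ} (hMp : 0 < M)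
    (hLM : L ≤ M) : Th J f P - M ^ 2 / (2 * ((J : ℝ) + 1)) *
      ∑ j ∈ Finset.range (J + 1), |P j - Q j| ≤ Th J f Q := by
  have hu := (hf.mono hLM).unit hMp
  have hmm : Monotone fun i => mJ J i * M :=
    fun a b hab => mul_le_mul_of_nonneg_right (mJ_mono J hab) hMp.le
  have hm0 : 0 ≤ mJ J 0 * M := mul_nonneg (mJ_zero J) hMp.le
  have key := ch_lip_lip (t := tP J P) (t' := tP J Q) (m := fun i => mJ J i * M) (k := J + 2)
    ⟨tP_mono hP, hmm, hm0⟩ ⟨tP_mono hQ, hmm, hm0⟩ (by rw [tP_zero, tP_zero])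
    (by rw [tP_top, tP_top]) hu 0
  have hs := sum_step (J := J) (P := P) (Q := Q) M (fun x => |x|) abs_zero (i := 0) (by omega)
  rw [hs] at key
  rw [Th_eq, Th_eq, recV_unit hMp f, recV_unit hMp f, recV_eq _ _ _ _ _ le_rfl,
    recV_eq _ _ _ _ _ le_rfl, Nat.sub_self, Finset.range_eq_Ico]
  have := mul_le_mul_of_nonneg_left key hMp.le
  refine le_trans (le_of_eq ?_) this
  field_simp

/-- **(M2)** Lipschitz bound of the nested recursion in the levels -/
theorem Th_lip_lip (hP : Lev J P) (hQ : Lev J Q) (hf : LipL L f) :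
    |Th J f P - Th J f Q| ≤ L ^ 2 / (2 * ((J : ℝ) + 1)) *
      ∑ j ∈ Finset.range (J + 1), |P j - Q j| := by
  have hL := hf.nonneg
  have key : ∀ M, L < M → |Th J f P - Th J f Q| ≤ M ^ 2 / (2 * ((J : ℝ) + 1)) *
      ∑ j ∈ Finset.range (J + 1), |P j - Q j| := by
    intro M hLM
    have hMp : 0 < M := lt_of_le_of_lt hL hLM
    have h1 := Th_lip_aux hP hQ hf hMp hLM.le
    have h2 := Th_lip_aux hQ hP hf hMp hLM.le
    have e : ∑ j ∈ Finset.range (J + 1), |Q j - P j| = ∑ j ∈ Finset.range (J + 1), |P j - Q j| :=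
      Finset.sum_congr rfl fun j _ => abs_sub_comm _ _
    rw [e] at h2
    rw [abs_le]
    constructor <;> linarith
  have hc : Continuous fun M : ℝ => M ^ 2 / (2 * ((J : ℝ) + 1)) *
      ∑ j ∈ Finset.range (J + 1), |P j - Q j| := by fun_prop
  have ht : Tendsto (fun M : ℝ => M ^ 2 / (2 * ((J : ℝ) + 1)) *
      ∑ j ∈ Finset.range (J + 1), |P j - Q j|) (𝓝[>] L) (𝓝 (L ^ 2 / (2 * ((J : ℝ) + 1)) *
      ∑ j ∈ Finset.range (J + 1), |P j - Q j|)) := (hc.tendsto L).mono_left nhdsWithin_le_nhds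
  exact ge_of_tendsto ht (eventually_nhdsWithin_of_forall fun M hM => key M hM)

theorem Th_lip (hP : Lev J P) (hQ : Lev J Q) (hf : BL K L f) :
    |Th J f P - Th J f Q| ≤ L ^ 2 / (2 * ((J : ℝ) + 1)) *
      ∑ j ∈ Finset.range (J + 1), |P j - Q j| := Th_lip_lip hP hQ (BL.lipL hf)

/-- **(M5)** stability in the terminal function -/
theorem Th_abs_sub_le (hP : Lev J P) (hf : LipL L f) (hf' : LipL L f') {c : ℝ}
    (h : ∀ y, |f y - f' y| ≤ c) : |Th J f P - Th J f' P| ≤ c :=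
  recV_abs_sub_le (tP_mono hP) (mJ_mono J) (mJ_zero J) le_rfl hf hf' h 0

theorem Th_abs_le (hP : Lev J P) (hf : BL K L f) : |Th J f P| ≤ K :=
  recV_abs_le (tP_mono hP) (mJ_mono J) (mJ_zero J) le_rfl hf 0

/-- `Th` only reads the levels `P 0, ..., P J` -/
theorem Th_congr_lev (h : ∀ j, j ≤ J → P j = Q j) (f : ℝ → ℝ) : Th J f P = Th J f Q := by
  have e : tP J P = tP J Q := by
    funext j
    unfold tP
    split_ifs with h1 h2
    · rfl
    · exact h _ (by omega)
    · rfl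
  unfold Th
  rw [e]

end

end Crest.Agent.R146.Mon_422
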