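import Crest.Agent.R146.Disc_857

/-!
# Row 146 (helper857), task 4: PLIM of `S6U_988` (pressure of fine configuration spaces)
-/

set_option autoImplicit false
set_option linter.unusedSectionVars false
set_option linter.style.haveILetI false
set_option linter.unusedSimpArgs false

namespace Crest.Agent.R146.PLim857

open Finset MeasureTheory ProbabilityTheory Crest.Agent.R141
open Crest.Agent.R146.S6Def_988 Crest.Agent.R146.S6U_988
open Crest.ProbabilityR.Perceptron
open Crest.Agent.R146.Sph857 Crest.Agent.R146.Disc857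

variable {N M : ℕ}

theorem measurable_BL {K L : ℝ} {f : ℝ → ℝ} (hf : BL K L f) : Measurable f := by
  have hL : 0 ≤ L := by
    have := hf.lip 1 0
    have h0 := abs_nonneg (f 1 - f 0)
    simp at this
    linarith
  have : LipschitzWith (Real.toNNReal L) f := LipschitzWith.of_dist_le_mul fun x y => by
    rw [Real.coe_toNNReal _ hL, Real.dist_eq, Real.dist_eq]
    exact hf.lip x y
  exact this.continuous.measurable

theorem BL_nonneg {K L : ℝ} {f : ℝ → ℝ} (hf : BL K L f) : 0 ≤ K ∧ 0 ≤ L := by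
  refine ⟨(abs_nonneg _).trans (hf.bd 0), ?_⟩
  have := hf.lip 1 0
  have h0 := abs_nonneg (f 1 - f 0)
  simp at this
  linarith

theorem abs_rowE_le {K : ℝ} {f : ℕ → ℝ → ℝ} (hf : ∀ a x, |f a x| ≤ K) (G : Fin M → Fin N → ℝ)
    (x : Fin N → ℝ) : |rowE f G x| ≤ K * M := by
  unfold rowE
  calc |∑ a : Fin M, f a (∑ i, G a i * (x i / Real.sqrt N))|
      ≤ ∑ a : Fin M, |f a (∑ i, G a i * (x i / Real.sqrt N))| := Finset.abs_sum_le_sum_abs _ _
    _ ≤ ∑ _a : Fin M, K := Finset.sum_le_sum fun a _ => hf _ _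
    _ = K * M := by simp [mul_comm]

theorem rowE_sub_le {K L : ℝ} {f : ℕ → ℝ → ℝ} (hf : ∀ a, BL K L (f a)) (hN : 0 < N)
    (G : Fin M → Fin N → ℝ) (u v : Fin N → ℝ) :
    |rowE f G u - rowE f G v| ≤ (L * ∑ a, ∑ i, |G a i|) * ∑ i, |u i - v i| := by
  have hL : 0 ≤ L := (BL_nonneg (hf 0)).2
  have hs : 1 ≤ Real.sqrt N := by
    rw [Real.one_le_sqrt]; exact_mod_cast hN
  unfold rowE
  rw [← Finset.sum_sub_distrib]
  refine (Finset.abs_sum_le_sum_abs _ _).trans ?_
  rw [mul_assoc, Finset.sum_mul, Finset.mul_sum]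
  refine Finset.sum_le_sum fun a _ => ?_
  refine ((hf a).lip _ _).trans ?_
  rw [← Finset.sum_sub_distrib]
  refine mul_le_mul_of_nonneg_left ?_ hL
  refine (Finset.abs_sum_le_sum_abs _ _).trans ?_
  rw [Finset.mul_sum]
  refine Finset.sum_le_sum fun i _ => ?_
  rw [← mul_sub, abs_mul, ← sub_div, abs_div, abs_of_nonneg (Real.sqrt_nonneg _)]
  refine mul_le_mul ?_ ?_ (by positivity) (Finset.sum_nonneg fun j _ => abs_nonneg _)
  · exact Finset.single_le_sum (f := fun j => |G a j|) (fun j _ => abs_nonneg _) (Finset.mem_univ i)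
  · exact div_le_self (abs_nonneg _) hs

/-- finite and spherical partition functions are close -/
theorem Z_close {K L δ : ℝ} {f : ℕ → ℝ → ℝ} (hf : ∀ a, BL K L (f a)) (hN : 0 < N)
    {C : Cfg N} (hC : Near C δ) (G : Fin M → Fin N → ℝ) :
    |∑ y, C.q y * Real.exp (rowE (M := M) f G (C.x y)) -
      ∫ y, Real.exp (∑ a : Fin M, f a (∑ i, G a i * (y : EuclideanSpace ℝ (Fin N)) i)) ∂(sph N)| ≤
      Real.exp (K * M) * (L * ∑ a, ∑ i, |G a i| + 1) * δ := by
  have hL : 0 ≤ L := (BL_nonneg (hf 0)).2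
  set Λ : ℝ := Real.exp (K * M) * (L * ∑ a, ∑ i, |G a i| + 1) with hΛ
  have hS : 0 ≤ ∑ a, ∑ i, |G a i| := Finset.sum_nonneg fun a _ => Finset.sum_nonneg fun i _ =>
    abs_nonneg _
  have hΛ0 : 0 < Λ := by positivity
  have hlip : ∀ u v : Fin N → ℝ, |Real.exp (rowE (M := M) f G u) - Real.exp (rowE (M := M) f G v)| ≤
      Λ * ∑ i, |u i - v i| := by
    intro u v
    have h1 := abs_exp_sub_exp_le (abs_rowE_le (M := M) (fun a => (hf a).bd) G u)
      (abs_rowE_le (M := M) (fun a => (hf a).bd) G v)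
    refine h1.trans ?_
    rw [hΛ, mul_assoc]
    refine mul_le_mul_of_nonneg_left ((rowE_sub_le hf hN G u v).trans ?_) (Real.exp_pos _).le
    refine mul_le_mul_of_nonneg_right ?_ (Finset.sum_nonneg fun i _ => abs_nonneg _)
    linarith
  have h2 := hC (fun x => Λ⁻¹ * Real.exp (rowE (M := M) f G x)) (fun u v => by
    rw [← mul_sub, abs_mul, abs_of_pos (inv_pos.mpr hΛ0), inv_mul_le_iff₀ hΛ0]
    exact hlip u v)
  have h3 : ∑ y, C.q y * (Λ⁻¹ * Real.exp (rowE (M := M) f G (C.x y))) =
      Λ⁻¹ * ∑ y, C.q y * Real.exp (rowE (M := M) f G (C.x y)) := by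
    rw [Finset.mul_sum]; exact Finset.sum_congr rfl fun y _ => by ring
  have h4 : ∫ y, Λ⁻¹ * Real.exp (rowE (M := M) f G
      (fun i => Real.sqrt N * (y : EuclideanSpace ℝ (Fin N)) i)) ∂(sph N) =
      Λ⁻¹ * ∫ y, Real.exp (∑ a : Fin M, f a (∑ i, G a i * (y : EuclideanSpace ℝ (Fin N)) i)) ∂(sph N) := by
    rw [integral_const_mul]
    congr 1
    refine integral_congr_ae (Filter.Eventually.of_forall fun y => ?_)
    simp only [rowE]
    congr 1
    refine Finset.sum_congr rfl fun a _ => ?_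
    congr 1
    refine Finset.sum_congr rfl fun i _ => ?_
    have : (0 : ℝ) < Real.sqrt N := Real.sqrt_pos.mpr (by exact_mod_cast hN)
    field_simp
  rw [h3, h4, ← mul_sub, abs_mul, abs_of_pos (inv_pos.mpr hΛ0), inv_mul_le_iff₀ hΛ0] at h2
  linarith

theorem sum_q_lower {K : ℝ} {f : ℕ → ℝ → ℝ} (hf : ∀ a x, |f a x| ≤ K) (C : Cfg N)
    (G : Fin M → Fin N → ℝ) :
    Real.exp (-(K * M)) ≤ ∑ y, C.q y * Real.exp (rowE (M := M) f G (C.x y)) := by
  calc Real.exp (-(K * M)) = ∑ y, C.q y * Real.exp (-(K * M)) := by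
        rw [← Finset.sum_mul, C.hq.sum, one_mul]
    _ ≤ _ := Finset.sum_le_sum fun y _ => mul_le_mul_of_nonneg_left
        (Real.exp_le_exp.mpr (neg_le_of_abs_le (abs_rowE_le hf G _))) (C.hq.pos y).le

theorem sum_q_upper {K : ℝ} {f : ℕ → ℝ → ℝ} (hf : ∀ a x, |f a x| ≤ K) (C : Cfg N)
    (G : Fin M → Fin N → ℝ) :
    ∑ y, C.q y * Real.exp (rowE (M := M) f G (C.x y)) ≤ Real.exp (K * M) := by
  calc _ ≤ ∑ y, C.q y * Real.exp (K * M) :=
        Finset.sum_le_sum fun y _ => mul_le_mul_of_nonneg_left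
          (Real.exp_le_exp.mpr ((le_abs_self _).trans (abs_rowE_le hf G _))) (C.hq.pos y).le
    _ = Real.exp (K * M) := by rw [← Finset.sum_mul, C.hq.sum, one_mul]

theorem measurable_rowE {f : ℕ → ℝ → ℝ} (hf : ∀ a, Measurable (f a)) (x : Fin N → ℝ) :
    Measurable (fun G : Fin M → Fin N → ℝ => rowE f G x) := by
  unfold rowE
  refine Finset.measurable_sum _ fun a _ => (hf a).comp ?_
  refine Finset.measurable_sum _ fun i _ => ?_
  exact ((measurable_pi_apply i).comp (measurable_pi_apply a)).mul_const _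

theorem measurable_logC {f : ℕ → ℝ → ℝ} (hf : ∀ a, Measurable (f a)) (C : Cfg N) :
    Measurable (fun G : Fin M → Fin N → ℝ =>
      Real.log (∑ y, C.q y * Real.exp (rowE (M := M) f G (C.x y)))) := by
  refine Real.measurable_log.comp (Finset.measurable_sum _ fun y _ => ?_)
  exact (Real.measurable_exp.comp (measurable_rowE hf _)).const_mul _

instance (M N : ℕ) : IsProbabilityMeasure (gam M N) := by unfold gam; infer_instance

theorem integrable_abs_entry (M N : ℕ) (a : Fin M) (i : Fin N) :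
    Integrable (fun G : Fin M → Fin N → ℝ => |G a i|) (gam M N) ∧
      ∫ G, |G a i| ∂(gam M N) ≤ 1 := by
  have hmp : MeasurePreserving (fun G : Fin M → Fin N → ℝ => G a i) (gam M N) (gaussianReal 0 1) := by
    have h1 : MeasurePreserving (Function.eval a) (gam M N)
        (Measure.pi fun _ : Fin N => gaussianReal 0 1) :=
      measurePreserving_eval (μ := fun _ : Fin M => Measure.pi fun _ : Fin N => gaussianReal 0 1) a
    have h2 : MeasurePreserving (Function.eval i) (Measure.pi fun _ : Fin N => gaussianReal 0 1)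
        (gaussianReal 0 1) :=
      measurePreserving_eval (μ := fun _ : Fin N => gaussianReal 0 1) i
    exact h2.comp h1
  have hsq : Integrable (fun x : ℝ => x ^ 2) (gaussianReal 0 1) :=
    (memLp_id_gaussianReal 2).integrable_sq
  have hsq1 : ∫ x, x ^ 2 ∂(gaussianReal 0 1) = 1 := by
    have h := variance_fun_id_gaussianReal (μ := 0) (v := 1)
    rw [variance_eq_integral (by fun_prop)] at h
    simpa using h
  have hi : Integrable (fun x : ℝ => |x|) (gaussianReal 0 1) :=
    ((memLp_id_gaussianReal 1).integrable le_rfl).abs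
  refine ⟨hmp.integrable_comp_of_integrable hi, ?_⟩
  have h1 : ∫ G, |G a i| ∂(gam M N) = ∫ x, |x| ∂(gaussianReal 0 1) := by
    rw [← hmp.map_eq, integral_map hmp.measurable.aemeasurable (by fun_prop)]
  rw [h1]
  have h2 : ∫ x, |x| ∂(gaussianReal 0 1) ≤ ∫ x, (1 + x ^ 2) / 2 ∂(gaussianReal 0 1) := by
    refine integral_mono hi (((integrable_const _).add hsq).div_const _) fun x => ?_
    simp only
    nlinarith [sq_nonneg (|x| - 1), sq_abs x]
  refine h2.trans ?_
  rw [integral_div, integral_add (integrable_const _) hsq, hsq1]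
  simp

/-- **(PLIM)** -/
theorem plim : PLIM := by
  intro N K L M ε hN hε
  set B : ℝ := Real.exp (|K| * M) * (Real.exp (|K| * M) * (|L| * (M * N) + 1)) with hB
  have hB0 : 0 < B := by positivity
  refine ⟨ε / B, by positivity, ?_⟩
  intro f hf C hC
  haveI := isProbabilityMeasure_sph hN.ne'
  obtain ⟨hK, hL⟩ := BL_nonneg (hf 0)
  have hfm : ∀ a, Measurable (f a) := fun a => measurable_BL (hf a)
  have hfb : ∀ a x, |f a x| ≤ K := fun a => (hf a).bd
  set δ := ε / B with hδ
  have hδ0 : 0 < δ := by positivity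
  set Z1 : (Fin M → Fin N → ℝ) → ℝ := fun G =>
    ∫ y, Real.exp (∑ a : Fin M, f a (∑ i, G a i * (y : EuclideanSpace ℝ (Fin N)) i)) ∂(sph N) with hZ1
  set Z2 : (Fin M → Fin N → ℝ) → ℝ := fun G =>
    ∑ y, C.q y * Real.exp (rowE (M := M) f G (C.x y)) with hZ2
  have hZ1' : ∀ G, Z1 G = Zf (uS N) ys (fun a : Fin M => f a) G := fun G => rfl
  have hlow1 : ∀ G, Real.exp (-(K * M)) ≤ Z1 G := by
    intro G
    haveI := isProbabilityMeasure_uS hN.ne'
    have := le_Zf (μ := uS N) (y := ys) (ψ := fun a : Fin M => f a) (K := fun _ => K) measurable_ys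
      (fun a => hfm a) (fun a x => hfb a x) G
    rw [hZ1']
    simpa [mul_comm] using this
  have hlog : ∀ G, |Real.log (Z1 G) - Real.log (Z2 G)| ≤
      Real.exp (K * M) * (Real.exp (K * M) * (L * ∑ a, ∑ i, |G a i| + 1)) * δ := by
    intro G
    refine (abs_log_sub_log_le (Real.exp_pos _) (hlow1 G) (sum_q_lower hfb C G)).trans ?_
    rw [abs_sub_comm, Real.exp_neg, div_inv_eq_mul]
    have := Z_close hf hN hC G
    calc |Z2 G - Z1 G| * Real.exp (K * M)
        ≤ (Real.exp (K * M) * (L * ∑ a, ∑ i, |G a i| + 1) * δ) * Real.exp (K * M) := by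
          gcongr
      _ = _ := by ring
  have hi1 : Integrable (fun G => Real.log (Z1 G)) (gam M N) := by
    haveI := isProbabilityMeasure_uS hN.ne'
    exact integrable_logZ (μ := uS N) (y := ys) (ψ := fun a : Fin M => f a) (K := fun _ => K)
      measurable_ys (fun a => hfm a) (fun a x => hfb a x) (gam M N)
  have hi2 : Integrable (fun G => Real.log (Z2 G)) (gam M N) := by
    refine Integrable.of_bound (C := K * M) (measurable_logC hfm C).aestronglyMeasurable
      (Filter.Eventually.of_forall fun G => ?_)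
    rw [Real.norm_eq_abs, abs_le]
    have h0 : 0 < Z2 G := (Real.exp_pos _).trans_le (sum_q_lower hfb C G)
    constructor
    · have := Real.log_le_log (Real.exp_pos _) (sum_q_lower (M := M) hfb C G)
      rwa [Real.log_exp] at this
    · have := Real.log_le_log h0 (sum_q_upper (M := M) hfb C G)
      rwa [Real.log_exp] at this
  have hsumi : Integrable (fun G : Fin M → Fin N → ℝ => ∑ a, ∑ i, |G a i|) (gam M N) :=
    integrable_finsetSum _ fun a _ => integrable_finsetSum _ fun i _ =>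
      (integrable_abs_entry M N a i).1
  have hsum : ∫ G, (∑ a : Fin M, ∑ i : Fin N, |G a i|) ∂(gam M N) ≤ M * N := by
    rw [integral_finsetSum _ fun a _ => integrable_finsetSum _ fun i _ =>
      (integrable_abs_entry M N a i).1]
    calc ∑ a : Fin M, ∫ G, (∑ i : Fin N, |G a i|) ∂(gam M N)
        ≤ ∑ _a : Fin M, (N : ℝ) := Finset.sum_le_sum fun a _ => by
          rw [integral_finsetSum _ fun i _ => (integrable_abs_entry M N a i).1]
          calc ∑ i : Fin N, ∫ G, |G a i| ∂(gam M N) ≤ ∑ _i : Fin N, (1 : ℝ) :=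
                Finset.sum_le_sum fun i _ => (integrable_abs_entry M N a i).2
            _ = N := by simp
      _ = M * N := by simp
  have hmain : |∫ G, Real.log (Z1 G) ∂(gam M N) - ∫ G, Real.log (Z2 G) ∂(gam M N)| ≤ ε := by
    rw [← integral_sub hi1 hi2]
    calc |∫ G, (Real.log (Z1 G) - Real.log (Z2 G)) ∂(gam M N)|
        ≤ ∫ G, |Real.log (Z1 G) - Real.log (Z2 G)| ∂(gam M N) := abs_integral_le_integral_abs
      _ ≤ ∫ G, Real.exp (K * M) * (Real.exp (K * M) * (L * ∑ a, ∑ i, |G a i| + 1)) * δ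
            ∂(gam M N) := by
          refine integral_mono (hi1.sub hi2).abs ?_ hlog
          exact ((((hsumi.const_mul L).add (integrable_const 1)).const_mul _).const_mul _).mul_const _
      _ = Real.exp (K * M) * (Real.exp (K * M) *
            (L * ∫ G, (∑ a : Fin M, ∑ i : Fin N, |G a i|) ∂(gam M N) + 1)) * δ := by
          rw [integral_mul_const, integral_const_mul, integral_const_mul,
            integral_add (hsumi.const_mul L) (integrable_const 1), integral_const_mul]
          simp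
      _ ≤ B * δ := by
          rw [hB, abs_of_nonneg hK, abs_of_nonneg hL]
          gcongr
      _ = ε := by rw [hδ]; field_simp
  unfold pN pC
  rw [← mul_sub, abs_mul, abs_of_nonneg (by positivity : (0 : ℝ) ≤ (N : ℝ)⁻¹)]
  calc (N : ℝ)⁻¹ * |∫ G, Real.log (Z1 G) ∂(gam M N) - ∫ G, Real.log (Z2 G) ∂(gam M N)|
      ≤ 1 * ε := by
        gcongr
        rw [inv_le_one₀ (by positivity)]
        exact_mod_cast hN
    _ = ε := one_mul ε

end Crest.Agent.R146.PLim857
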