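import Crest.Agent.R146.S6Str_649

/-!
Row 146, statement S0206 (helper649): removal of the fields in the other direction (REV):
`FN C nc n f M s ≤ pC C f M`, and the base bound `-K M ≤ ∫ Phi`.
-/

set_option autoImplicit false

namespace Crest.Agent.R146.Rev_649

open Finset MeasureTheory ProbabilityTheory Crest.Agent.R141
open Crest.Agent.R146.S6Def_988 Crest.Agent.R146.S6U_988 Crest.Agent.R146.S6Str_649

noncomputable section

theorem sum_prod {ι κ : Type} [Fintype ι] [DecidableEq ι] [Fintype κ] (f : ι → κ → ℝ) :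
    ∑ c : ι → κ, ∏ i, f i (c i) = ∏ i, ∑ k, f i k := by
  rw [Finset.prod_univ_sum, Fintype.piFinset_univ]

theorem sum_bool_exp_le (a : ℝ) : ∑ b : Bool, Real.exp (a * sv b) ≤ 2 * Real.exp (a ^ 2 / 2) := by
  have h : ∑ b : Bool, Real.exp (a * sv b) = 2 * Real.cosh a := by
    rw [Fintype.sum_bool]
    unfold sv
    simp only [if_true, Bool.false_eq_true, if_false, mul_one, mul_neg]
    rw [Real.cosh_eq]
    ring
  rw [h]
  exact mul_le_mul_of_nonneg_left (Real.cosh_le_exp_half_sq a) (by norm_num)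

section sys

variable {N : ℕ} (C : Cfg N) (nc n : ℕ)

/-- exponential moment of the fields under the prior of the coins -/
theorem coin_mgf (s : Fin nc → ℝ) (x : Fin N → ℝ) :
    ∑ c : Coins nc n N, Real.exp (∑ g, s g * ∑ i, zf c g i * x i) ≤
      (Fintype.card (Coins nc n N) : ℝ) * Real.exp (1 / 2 * (∑ g, s g ^ 2) * ∑ i, x i ^ 2) := by
  set a : Fin nc → Fin N → ℝ := fun g i => s g * (Real.sqrt n)⁻¹ * x i with ha
  have e1 : ∀ c : Coins nc n N, Real.exp (∑ g, s g * ∑ i, zf c g i * x i) =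
      ∏ g, ∏ t, ∏ i, Real.exp (a g i * sv (c g t i)) := by
    intro c
    simp_rw [← Real.exp_sum]
    congr 1
    refine Finset.sum_congr rfl fun g _ => ?_
    rw [Finset.sum_comm, Finset.mul_sum]
    refine Finset.sum_congr rfl fun i _ => ?_
    unfold zf
    rw [← Finset.mul_sum]
    simp only [ha]
    ring
  simp_rw [e1]
  have e2 : ∑ c : Coins nc n N, ∏ g, ∏ t, ∏ i, Real.exp (a g i * sv (c g t i)) =
      ∏ g, ∏ _t : Fin n, ∏ i, ∑ b : Bool, Real.exp (a g i * sv b) := by
    rw [sum_prod (fun g (d : Fin n → Fin N → Bool) => ∏ t, ∏ i, Real.exp (a g i * sv (d t i)))]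
    refine Finset.prod_congr rfl fun g _ => ?_
    rw [sum_prod (fun t (d : Fin N → Bool) => ∏ i, Real.exp (a g i * sv (d i)))]
    refine Finset.prod_congr rfl fun t _ => ?_
    rw [sum_prod (fun i b => Real.exp (a g i * sv b))]
  rw [e2]
  have h3 : ∏ g, ∏ _t : Fin n, ∏ i, ∑ b : Bool, Real.exp (a g i * sv b) ≤
      ∏ g, ∏ _t : Fin n, ∏ i, (2 * Real.exp (a g i ^ 2 / 2)) := by
    refine Finset.prod_le_prod (fun g _ => Finset.prod_nonneg fun t _ =>
      Finset.prod_nonneg fun i _ => Finset.sum_nonneg fun b _ => (Real.exp_pos _).le) fun g _ => ?_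
    refine Finset.prod_le_prod (fun t _ => Finset.prod_nonneg fun i _ =>
      Finset.sum_nonneg fun b _ => (Real.exp_pos _).le) fun t _ => ?_
    exact Finset.prod_le_prod (fun i _ => Finset.sum_nonneg fun b _ => (Real.exp_pos _).le)
      fun i _ => sum_bool_exp_le _
  refine h3.trans ?_
  have h4 : ∏ g, ∏ _t : Fin n, ∏ i, (2 * Real.exp (a g i ^ 2 / 2)) =
      (Fintype.card (Coins nc n N) : ℝ) *
        Real.exp (∑ g, ∑ _t : Fin n, ∑ i, a g i ^ 2 / 2) := by
    simp_rw [Finset.prod_mul_distrib, Real.exp_sum]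
    congr 1
    simp [Coins, Finset.prod_const, Finset.card_univ]
  rw [h4]
  refine mul_le_mul_of_nonneg_left (Real.exp_le_exp.2 ?_) (Nat.cast_nonneg _)
  have h5 : ∀ g, ∑ _t : Fin n, ∑ i, a g i ^ 2 / 2 ≤ 1 / 2 * s g ^ 2 * ∑ i, x i ^ 2 := by
    intro g
    rw [Finset.sum_const, Finset.card_univ, Fintype.card_fin, nsmul_eq_mul]
    have h6 : ∑ i, a g i ^ 2 / 2 = 1 / 2 * s g ^ 2 * ((Real.sqrt n)⁻¹ ^ 2) * ∑ i, x i ^ 2 := by
      rw [Finset.mul_sum]
      refine Finset.sum_congr rfl fun i _ => ?_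
      simp only [ha]
      ring
    rw [h6]
    rcases Nat.eq_zero_or_pos n with hn | hn
    · subst hn
      simp only [Nat.cast_zero, zero_mul]
      positivity
    · have hn' : (0 : ℝ) < n := by exact_mod_cast hn
      rw [inv_pow, Real.sq_sqrt hn'.le]
      refine le_of_eq ?_
      field_simp
  refine (Finset.sum_le_sum fun g _ => h5 g).trans (le_of_eq ?_)
  rw [← Finset.sum_mul, ← Finset.mul_sum]

variable {M : ℕ} (f : ℕ → ℝ → ℝ)

/-- the mean of the exponential of the total log-weight -/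
theorem eE_exp_UU_le (G : Fin M → Fin N → ℝ) (s : Fin nc → ℝ) :
    eE (prior C nc n) (fun ω => Real.exp (UU f G s ω)) ≤
      Real.exp (1 / 2 * (∑ g, s g ^ 2) * N) * ∑ y, C.q y * Real.exp (rowE f G (C.x y)) := by
  unfold eE prior
  rw [Fintype.sum_prod_type, Finset.mul_sum]
  refine Finset.sum_le_sum fun y _ => ?_
  have hc : 0 < (Fintype.card (Coins nc n N) : ℝ) := by exact_mod_cast Fintype.card_pos
  have h1 : ∑ c : Coins nc n N, C.q y * (Fintype.card (Coins nc n N) : ℝ)⁻¹ *
      Real.exp (UU f G s (y, c)) = C.q y * Real.exp (rowE f G (C.x y)) *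
        ((Fintype.card (Coins nc n N) : ℝ)⁻¹ *
          ∑ c : Coins nc n N, Real.exp (∑ g, s g * ∑ i, zf c g i * C.x y i)) := by
    rw [Finset.mul_sum, Finset.mul_sum]
    refine Finset.sum_congr rfl fun c _ => ?_
    unfold UU fieldE
    rw [Real.exp_add]
    ring
  rw [h1]
  have h2 := coin_mgf nc n s (C.x y)
  rw [C.hx y] at h2
  have h3 : (Fintype.card (Coins nc n N) : ℝ)⁻¹ *
      ∑ c : Coins nc n N, Real.exp (∑ g, s g * ∑ i, zf c g i * C.x y i) ≤
      Real.exp (1 / 2 * (∑ g, s g ^ 2) * N) := by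
    rw [inv_mul_le_iff₀ hc]
    exact h2
  have h4 := mul_le_mul_of_nonneg_left h3
    (mul_nonneg (C.hq.pos y).le (Real.exp_pos (rowE f G (C.x y))).le)
  refine h4.trans (le_of_eq ?_)
  ring

theorem A_le (G : Fin M → Fin N → ℝ) (s : Fin nc → ℝ) (ω : Om C nc n) :
    A (prior C nc n) (fil C nc n) (xs nc n) (UU f G s) 0 ω ≤
      1 / 2 * (∑ g, s g ^ 2) * N + Real.log (∑ y, C.q y * Real.exp (rowE f G (C.x y))) := by
  have hP := prior_isProb C nc n
  have hq : 0 < ∑ y, C.q y * Real.exp (rowE f G (C.x y)) :=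
    Finset.sum_pos (fun y _ => mul_pos (C.hq.pos y) (Real.exp_pos _)) Finset.univ_nonempty
  have h1 := A_le_log hP (xs_expo nc n) (𝓕 := fil C nc n) (UU f G s) 0 ω
  have h0 : (fil C nc n).F 0 = ⊤ := by
    ext a b
    constructor
    · intro _
      trivial
    · intro _
      refine ⟨fun g t h => ?_, fun h => ?_⟩
      · omega
      · unfold Lv at h
        omega
  rw [h0, eE_top hP] at h1
  refine h1.trans ?_
  have h2 := eE_exp_UU_le C nc n f G s
  have h3 : 0 < eE (prior C nc n) (fun ω => Real.exp (UU f G s ω)) :=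
    Finset.sum_pos (fun ω _ => mul_pos (hP.pos ω) (Real.exp_pos _)) ⟨ω, Finset.mem_univ _⟩
  refine (Real.log_le_log h3 h2).trans (le_of_eq ?_)
  rw [Real.log_mul (Real.exp_pos _).ne' hq.ne', Real.log_exp]

theorem abs_rowE_le {K : ℝ} (hf : ∀ a x, |f a x| ≤ K) (G : Fin M → Fin N → ℝ) (x : Fin N → ℝ) :
    |rowE f G x| ≤ K * M := by
  unfold rowE
  refine (Finset.abs_sum_le_sum_abs _ _).trans
    ((Finset.sum_le_sum fun (a : Fin M) _ => hf (a : ℕ) _).trans (le_of_eq ?_))
  rw [Finset.sum_const, Finset.card_univ, Fintype.card_fin, nsmul_eq_mul, mul_comm]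

theorem abs_logZ_le {K : ℝ} (hf : ∀ a x, |f a x| ≤ K) (G : Fin M → Fin N → ℝ) :
    |Real.log (∑ y, C.q y * Real.exp (rowE f G (C.x y)))| ≤ K * M := by
  have hb := fun y => abs_le.1 (abs_rowE_le f hf G (C.x y))
  have hq : 0 < ∑ y, C.q y * Real.exp (rowE f G (C.x y)) :=
    Finset.sum_pos (fun y _ => mul_pos (C.hq.pos y) (Real.exp_pos _)) Finset.univ_nonempty
  have h1 : ∑ y, C.q y * Real.exp (rowE f G (C.x y)) ≤ Real.exp (K * M) := by
    calc ∑ y, C.q y * Real.exp (rowE f G (C.x y))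
        ≤ ∑ y, C.q y * Real.exp (K * M) := Finset.sum_le_sum fun y _ =>
          mul_le_mul_of_nonneg_left (Real.exp_le_exp.2 (hb y).2) (C.hq.pos y).le
      _ = Real.exp (K * M) := by rw [← Finset.sum_mul, C.hq.sum, one_mul]
  have h2 : Real.exp (-(K * M)) ≤ ∑ y, C.q y * Real.exp (rowE f G (C.x y)) := by
    calc Real.exp (-(K * M)) = ∑ y, C.q y * Real.exp (-(K * M)) := by
          rw [← Finset.sum_mul, C.hq.sum, one_mul]
      _ ≤ ∑ y, C.q y * Real.exp (rowE f G (C.x y)) := Finset.sum_le_sum fun y _ =>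
          mul_le_mul_of_nonneg_left (Real.exp_le_exp.2 (hb y).1) (C.hq.pos y).le
  rw [abs_le]
  constructor
  · have := Real.log_le_log (Real.exp_pos _) h2
    rwa [Real.log_exp] at this
  · have := Real.log_le_log hq h1
    rwa [Real.log_exp] at this

theorem meas_rowE (hf : ∀ a, Measurable (f a)) (x : Fin N → ℝ) :
    Measurable fun G : Fin M → Fin N → ℝ => rowE f G x := by
  unfold rowE
  refine Finset.measurable_sum _ fun a _ => (hf a).comp ?_
  refine Finset.measurable_sum _ fun i _ => Measurable.mul_const ?_ _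
  exact (measurable_pi_apply i).comp (measurable_pi_apply a)

theorem integrable_logZ {K : ℝ} (hfm : ∀ a, Measurable (f a)) (hf : ∀ a x, |f a x| ≤ K) :
    Integrable (fun G : Fin M → Fin N → ℝ =>
      Real.log (∑ y, C.q y * Real.exp (rowE f G (C.x y)))) (gam M N) := by
  refine Integrable.of_bound (C := K * M) ?_ (ae_of_all _ fun G => ?_)
  · refine (Real.measurable_log.comp ?_).aestronglyMeasurable
    exact Finset.measurable_sum _ fun y _ =>
      (Real.measurable_exp.comp (meas_rowE f hfm (C.x y))).const_mul _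
  · rw [Real.norm_eq_abs]
    exact abs_logZ_le C f hf G

/-- the field energy has mean zero under the prior -/
theorem eE_field (s : Fin nc → ℝ) : eE (prior C nc n) (fun ω => fieldE s ω) = 0 := by
  unfold eE prior
  rw [Fintype.sum_prod_type]
  refine Finset.sum_eq_zero fun y _ => ?_
  have hflip : ∑ c : Coins nc n N, C.q y * (Fintype.card (Coins nc n N) : ℝ)⁻¹ *
      fieldE (C := C) s (y, c) = ∑ c : Coins nc n N, C.q y *
        (Fintype.card (Coins nc n N) : ℝ)⁻¹ *
          fieldE (C := C) s (y, fun g t i => !(c g t i)) := by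
    refine (Fintype.sum_equiv (Equiv.mk (fun c : Coins nc n N => fun g t i => !(c g t i))
      (fun c => fun g t i => !(c g t i)) (fun c => by funext g t i; simp)
      (fun c => by funext g t i; simp)) _ _ fun c => ?_)
    simp
  have hneg : ∀ c : Coins nc n N, fieldE (C := C) s (y, fun g t i => !(c g t i)) =
      - fieldE (C := C) s (y, c) := by
    intro c
    unfold fieldE zf
    rw [← Finset.sum_neg_distrib]
    refine Finset.sum_congr rfl fun g _ => ?_
    rw [← mul_neg, ← Finset.sum_neg_distrib]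
    congr 1
    refine Finset.sum_congr rfl fun i _ => ?_
    have : ∀ t, sv (!(c g t i)) = - sv (c g t i) := by
      intro t
      unfold sv
      cases c g t i <;> simp
    simp_rw [this, Finset.sum_neg_distrib]
    ring
  simp_rw [hneg] at hflip
  have h2 : ∑ c : Coins nc n N, C.q y * (Fintype.card (Coins nc n N) : ℝ)⁻¹ *
      -fieldE (C := C) s (y, c) = -∑ c : Coins nc n N, C.q y *
        (Fintype.card (Coins nc n N) : ℝ)⁻¹ * fieldE (C := C) s (y, c) := by
    rw [← Finset.sum_neg_distrib]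
    exact Finset.sum_congr rfl fun c _ => by ring
  rw [h2] at hflip
  linarith

/-- lower bound of the hierarchical free energy for fixed rows -/
theorem le_Phi {K : ℝ} (hf : ∀ a x, |f a x| ≤ K) (G : Fin M → Fin N → ℝ) (s : Fin nc → ℝ) :
    -(K * M) ≤ Phi C nc n f G s := by
  have hP := prior_isProb C nc n
  unfold Phi
  have h1 : ∀ ω, cE (prior C nc n) ((fil C nc n).F 0) (UU f G s) ω ≤
      A (prior C nc n) (fil C nc n) (xs nc n) (UU f G s) 0 ω := fun ω =>
    cE_le_A hP (xs_pos nc n) (UU f G s) 0 ω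
  refine le_trans ?_ (eE_mono hP h1)
  rw [eE_cE hP]
  have h2 : eE (prior C nc n) (UU f G s) = eE (prior C nc n) (fun ω => rowE f G (C.x ω.1)) +
      eE (prior C nc n) (fun ω => fieldE s ω) := by
    rw [← eE_add]
    rfl
  rw [h2, eE_field, add_zero]
  have h3 : eE (prior C nc n) (fun _ => -(K * M)) = -(K * M) := eE_const hP _
  rw [← h3]
  exact eE_mono hP fun ω => (abs_le.1 (abs_rowE_le f hf G (C.x ω.1))).1

theorem Phi_le (G : Fin M → Fin N → ℝ) (s : Fin nc → ℝ) :
    Phi C nc n f G s ≤ 1 / 2 * (∑ g, s g ^ 2) * N +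
      Real.log (∑ y, C.q y * Real.exp (rowE f G (C.x y))) := by
  have hP := prior_isProb C nc n
  unfold Phi
  exact eE_le_of_le hP (A_le C nc n f G s)

theorem meas_Phi (hfm : ∀ a, Measurable (f a)) (s : Fin nc → ℝ) :
    Measurable fun G : Fin M → Fin N → ℝ => Phi C nc n f G s := by
  unfold Phi
  exact meas_eE (fun _ => measurable_const)
    (meas_A (prior_isProb C nc n) (xs_pos nc n) (meas_UU C nc n f hfm s) 0)

theorem integrable_Phi {K : ℝ} (hfm : ∀ a, Measurable (f a)) (hf : ∀ a x, |f a x| ≤ K)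
    (s : Fin nc → ℝ) :
    Integrable (fun G : Fin M → Fin N → ℝ => Phi C nc n f G s) (gam M N) := by
  refine Integrable.of_bound (C := K * M + 1 / 2 * (∑ g, s g ^ 2) * N)
    (meas_Phi C nc n f hfm s).aestronglyMeasurable (ae_of_all _ fun G => ?_)
  rw [Real.norm_eq_abs, abs_le]
  have h1 := le_Phi C nc n f hf G s
  have h2 := Phi_le C nc n f G s
  have h3 := (abs_le.1 (abs_logZ_le C f hf G)).2
  have h4 : 0 ≤ 1 / 2 * (∑ g, s g ^ 2) * N := by positivity
  constructor <;> linarith

/-- **(REV)** the fields can be removed at no cost. -/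
theorem rev {K : ℝ} (hfm : ∀ a, Measurable (f a)) (hf : ∀ a x, |f a x| ≤ K)
    (s : Fin nc → ℝ) : FN C nc n f M s ≤ pC C f M := by
  unfold FN pC
  rcases Nat.eq_zero_or_pos N with hN | hN
  · subst hN
    simp only [Nat.cast_zero, inv_zero, zero_mul, zero_sub]
    have : 0 ≤ ∑ g, s g ^ 2 := Finset.sum_nonneg fun _ _ => sq_nonneg _
    linarith
  have hN' : (0 : ℝ) < N := by exact_mod_cast hN
  have h1 : ∫ G, Phi C nc n (M := M) f G s ∂(gam M N) ≤ 1 / 2 * (∑ g, s g ^ 2) * N +
      ∫ G, Real.log (∑ y, C.q y * Real.exp (rowE (M := M) f G (C.x y))) ∂(gam M N) := by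
    have i2 := integrable_logZ (M := M) C f hfm hf
    have h3 := integral_mono (integrable_Phi (M := M) C nc n f hfm hf s)
      ((integrable_const (1 / 2 * (∑ g, s g ^ 2) * (N : ℝ))).add i2) (Phi_le C nc n f · s)
    refine h3.trans (le_of_eq ?_)
    simp only [Pi.add_apply]
    rw [integral_add (integrable_const _) i2]
    simp
  have h2 := mul_le_mul_of_nonneg_left h1 (inv_nonneg.2 hN'.le)
  have h3 : (N : ℝ)⁻¹ * (1 / 2 * (∑ g, s g ^ 2) * N +
      ∫ G, Real.log (∑ y, C.q y * Real.exp (rowE (M := M) f G (C.x y))) ∂(gam M N)) =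
      1 / 2 * (∑ g, s g ^ 2) + (N : ℝ)⁻¹ *
        ∫ G, Real.log (∑ y, C.q y * Real.exp (rowE (M := M) f G (C.x y))) ∂(gam M N) := by
    field_simp
  rw [h3] at h2
  linarith

/-- base: the averaged free energy is at least `-K M`. -/
theorem base {K : ℝ} (hfm : ∀ a, Measurable (f a)) (hf : ∀ a x, |f a x| ≤ K)
    (s : Fin nc → ℝ) : -(K * M) ≤ ∫ G, Phi C nc n (M := M) f G s ∂(gam M N) := by
  have h := integral_mono (integrable_const (μ := gam M N) (-(K * M)))
    (integrable_Phi (M := M) C nc n f hfm hf s) (le_Phi C nc n f hf · s)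
  refine le_trans (le_of_eq ?_) h
  simp

end sys

end

end Crest.Agent.R146.Rev_649
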