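import Crest.Agent.R146.Press_663
import Crest.Agent.R146.S6U_988

/-!
# R146, helper663: proofs of the nodes LIT, CONC, PM, CHG, SMOOTH of `S6U_988`
-/

set_option autoImplicit false

open MeasureTheory ProbabilityTheory Filter Topology
open scoped ENNReal
open Crest.ProbabilityR.Perceptron

namespace Crest.Agent.R146.S6Lit_663

open Crest.Agent.R146.PressC_663 Crest.Agent.R146.Press_663
open Crest.Agent.R146.S6Def_988 Crest.Agent.R146.S6U_988

/-- `pN` as an integral of `logZ` over the array of all entries -/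
theorem pN_eq (N : ℕ) (f : ℕ → ℝ → ℝ) (M : ℕ) :
    pN N f M = (N : ℝ)⁻¹ * ∫ g, logZ (uSph N) (crd N) (fun a : Fin M => f a) g
      ∂(Measure.pi fun _ : Fin M × Fin N => gaussianReal 0 1) := by
  unfold pN gam
  rw [R141.U.integral_curry]
  rfl

theorem LIT_holds : LIT := by
  intro N α β φ hφ hb
  rw [pN_eq]
  unfold expectedPressure
  rw [← integral_const_mul]
  unfold patternLaw
  apply integral_congr_ae
  refine Eventually.of_forall fun g => ?_
  show spherePressure N α β φ g = _
  rw [spherePressure_eq, div_eq_inv_mul]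

theorem CONC_holds : CONC := by
  intro α β φ hα hβ hφ hb p hp ε hε
  obtain ⟨K, hK⟩ := hb
  exact tendsto_pressureTailProb hα.le hφ.measurable hK hp hε

theorem CHG_holds : CHG := by
  intro K ε hε
  have hpos : 0 < Real.exp (2 * |K|) := Real.exp_pos _
  refine ⟨Real.sqrt (4 * |K| * Real.exp (2 * |K|) / ε + 1), ε * Real.exp (-(2 * |K|)) / 2,
    Real.sqrt_pos.2 (by positivity), by positivity, ?_⟩
  intro N f f' M hN hm hm' hb hb' hd
  have h0 : (0 : ℝ) < N := by exact_mod_cast hN
  have hK0 : 0 ≤ K := (abs_nonneg _).trans (hb 0 0)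
  rw [pN_eq, pN_eq, ← mul_sub, abs_mul, abs_of_pos (inv_pos.2 h0), inv_mul_eq_div]
  refine div_le_div_of_nonneg_right ?_ h0.le
  have h := change_good (N := N) (M := M) hN RepairLaw_840.good_gaussian hK0
    (R := Real.sqrt (4 * |K| * Real.exp (2 * |K|) / ε + 1)) (δ := ε * Real.exp (-(2 * |K|)) / 2)
    (Real.sqrt_pos.2 (by positivity)) (by positivity)
    (ψ := fun a : Fin M => f a) (ψ' := fun a : Fin M => f' a)
    (fun a => hm a) (fun a => hb a) (fun a => hm' a) (fun a => hb' a) (fun a => hd a)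
  refine h.trans ?_
  rw [Real.sq_sqrt (by positivity), abs_of_nonneg hK0]
  have h1 : Real.exp (2 * K) * (2 * K / (4 * K * Real.exp (2 * K) / ε + 1)) ≤ ε / 2 := by
    rw [← mul_div_assoc, div_le_iff₀ (by positivity)]
    have : ε / 2 * (4 * K * Real.exp (2 * K) / ε + 1) = 2 * K * Real.exp (2 * K) + ε / 2 := by
      field_simp; ring
    rw [this]
    nlinarith
  have h2 : Real.exp (2 * K) * (ε * Real.exp (-(2 * K)) / 2) = ε / 2 := by
    have : Real.exp (2 * K) * Real.exp (-(2 * K)) = 1 := by rw [← Real.exp_add]; simp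
    calc _ = ε / 2 * (Real.exp (2 * K) * Real.exp (-(2 * K))) := by ring
      _ = _ := by rw [this, mul_one]
  have hM : (0 : ℝ) ≤ M := by positivity
  calc Real.exp (2 * K) * (M * (ε * Real.exp (-(2 * K)) / 2 +
        2 * K / (4 * K * Real.exp (2 * K) / ε + 1)))
      = M * (Real.exp (2 * K) * (ε * Real.exp (-(2 * K)) / 2) +
        Real.exp (2 * K) * (2 * K / (4 * K * Real.exp (2 * K) / ε + 1))) := by ring
    _ ≤ M * (ε / 2 + ε / 2) := by
        apply mul_le_mul_of_nonneg_left _ hM
        linarith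
    _ = ε * M := by ring

/-! ### number of rows -/

section rows

variable {Y : Type*} [MeasurableSpace Y] {μ : Measure Y} {N M : ℕ} {y : Y → Fin N → ℝ} {K : ℝ}

theorem abs_logZ_succ_le [IsProbabilityMeasure μ] (hy : Measurable y)
    {ψ : Fin (M + 1) → ℝ → ℝ} (hψm : ∀ a, Measurable (ψ a)) (hψ : ∀ a x, |ψ a x| ≤ K)
    (g : Fin (M + 1) × Fin N → ℝ) :
    |logZ μ y ψ g - logZ μ y (fun a : Fin M => ψ a.castSucc) (fun p => g (p.1.castSucc, p.2))| ≤
      K := by
  have hm' : ∀ a : Fin M, Measurable (ψ a.castSucc) := fun a => hψm _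
  have hb' : ∀ (a : Fin M) x, |ψ a.castSucc x| ≤ K := fun a x => hψ _ x
  have hp := Z_pos (μ := μ) hy hψm hψ g
  have hp' := Z_pos (μ := μ) hy hm' hb' (fun p => g (p.1.castSucc, p.2))
  have hi := integrable_expo (μ := μ) hy hψm hψ g
  have hi' := integrable_expo (μ := μ) hy hm' hb' (fun p => g (p.1.castSucc, p.2))
  simp only at hi' hp'
  unfold logZ
  simp only
  rw [abs_le]
  constructor
  · have e1 : Real.log (∫ u, Real.exp (∑ a : Fin M, ψ a.castSucc
        (∑ i, g (a.castSucc, i) * y u i)) ∂μ) - K =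
        Real.log (Real.exp (-K) * ∫ u, Real.exp (∑ a : Fin M, ψ a.castSucc
        (∑ i, g (a.castSucc, i) * y u i)) ∂μ) := by
      rw [Real.log_mul (Real.exp_pos _).ne' hp'.ne', Real.log_exp]; ring
    have : Real.log (Real.exp (-K) * ∫ u, Real.exp (∑ a : Fin M, ψ a.castSucc
        (∑ i, g (a.castSucc, i) * y u i)) ∂μ) ≤
        Real.log (∫ u, Real.exp (∑ a, ψ a (∑ i, g (a, i) * y u i)) ∂μ) := by
      apply Real.log_le_log (mul_pos (Real.exp_pos _) hp')
      rw [← integral_const_mul]
      apply integral_mono (hi'.const_mul _) hi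
      intro u
      show Real.exp _ * Real.exp _ ≤ Real.exp _
      rw [← Real.exp_add]
      apply Real.exp_le_exp.2
      rw [Fin.sum_univ_castSucc]
      have := hψ (Fin.last M) (∑ i, g (Fin.last M, i) * y u i)
      rw [abs_le] at this
      linarith [this.1]
    linarith
  · have e1 : Real.log (∫ u, Real.exp (∑ a : Fin M, ψ a.castSucc
        (∑ i, g (a.castSucc, i) * y u i)) ∂μ) + K =
        Real.log (Real.exp K * ∫ u, Real.exp (∑ a : Fin M, ψ a.castSucc
        (∑ i, g (a.castSucc, i) * y u i)) ∂μ) := by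
      rw [Real.log_mul (Real.exp_pos _).ne' hp'.ne', Real.log_exp]; ring
    have : Real.log (∫ u, Real.exp (∑ a, ψ a (∑ i, g (a, i) * y u i)) ∂μ) ≤
        Real.log (Real.exp K * ∫ u, Real.exp (∑ a : Fin M, ψ a.castSucc
        (∑ i, g (a.castSucc, i) * y u i)) ∂μ) := by
      apply Real.log_le_log hp
      rw [← integral_const_mul]
      apply integral_mono hi (hi'.const_mul _)
      intro u
      show Real.exp _ ≤ Real.exp _ * Real.exp _
      rw [← Real.exp_add]
      apply Real.exp_le_exp.2
      rw [Fin.sum_univ_castSucc]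
      have := hψ (Fin.last M) (∑ i, g (Fin.last M, i) * y u i)
      rw [abs_le] at this
      linarith [this.2]
    linarith

/-- dropping the last row preserves the law -/
theorem mp_drop (G : Measure (Fin N → ℝ)) [IsProbabilityMeasure G] (M : ℕ) :
    MeasurePreserving (fun (r : Fin (M + 1) → Fin N → ℝ) (a : Fin M) => r a.castSucc)
      (Measure.pi fun _ => G) (Measure.pi fun _ => G) := by
  have h := measurePreserving_piFinSuccAbove (fun _ : Fin (M + 1) => G) (Fin.last M)
  have h2 := measurePreserving_snd (μ := G) (ν := Measure.pi fun _ : Fin M => G)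
  have h3 := h2.comp h
  convert h3 using 1
  funext r a
  simp [MeasurableEquiv.piFinSuccAbove, Fin.insertNthEquiv, Fin.init]

end rows

/-- curried log partition function -/
noncomputable def LM (N : ℕ) (f : ℕ → ℝ → ℝ) (M : ℕ) (G : Fin M → Fin N → ℝ) : ℝ :=
  logZ (uSph N) (crd N) (fun a : Fin M => f a) (fun p => G p.1 p.2)

theorem pN_eq' (N : ℕ) (f : ℕ → ℝ → ℝ) (M : ℕ) :
    pN N f M = (N : ℝ)⁻¹ * ∫ G, LM N f M G ∂(gam M N) := rfl

theorem measurable_unc (M N : ℕ) :
    Measurable (fun (G : Fin M → Fin N → ℝ) (p : Fin M × Fin N) => G p.1 p.2) := by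
  apply measurable_pi_lambda
  intro p
  exact (measurable_pi_apply p.2).comp (measurable_pi_apply p.1)

theorem measurable_LM {N : ℕ} {f : ℕ → ℝ → ℝ} (hm : ∀ a, Measurable (f a)) (M : ℕ) :
    Measurable (LM N f M) := by
  have : SFinite (uSph N) := by unfold uSph; infer_instance
  exact (measurable_logZ (measurable_crd N) (fun a : Fin M => hm a)).comp (measurable_unc M N)

theorem abs_LM_le {N : ℕ} (hN : 0 < N) {f : ℕ → ℝ → ℝ} {K : ℝ} (hm : ∀ a, Measurable (f a))
    (hb : ∀ a x, |f a x| ≤ K) (M : ℕ) (G : Fin M → Fin N → ℝ) : |LM N f M G| ≤ M * K := by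
  have := isProb_uSph hN
  exact abs_logZ_le (measurable_crd N) (fun a : Fin M => hm a) (fun a : Fin M => hb a) _

instance (M N : ℕ) : IsProbabilityMeasure (gam M N) := by unfold gam; infer_instance

theorem integrable_LM {N : ℕ} (hN : 0 < N) {f : ℕ → ℝ → ℝ} {K : ℝ} (hm : ∀ a, Measurable (f a))
    (hb : ∀ a x, |f a x| ≤ K) (M : ℕ) : Integrable (LM N f M) (gam M N) :=
  Integrable.of_bound (C := M * K) (measurable_LM hm M).aestronglyMeasurable
    (Eventually.of_forall fun G => by rw [Real.norm_eq_abs]; exact abs_LM_le hN hm hb M G)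

theorem abs_LM_succ {N : ℕ} (hN : 0 < N) {f : ℕ → ℝ → ℝ} {K : ℝ} (hm : ∀ a, Measurable (f a))
    (hb : ∀ a x, |f a x| ≤ K) (M : ℕ) (G : Fin (M + 1) → Fin N → ℝ) :
    |LM N f (M + 1) G - LM N f M (fun a => G a.castSucc)| ≤ K := by
  have := isProb_uSph hN
  exact abs_logZ_succ_le (μ := uSph N) (M := M) (measurable_crd N)
    (ψ := fun a : Fin (M + 1) => f a) (fun a => hm a) (fun a => hb a) (fun p => G p.1 p.2)

theorem integral_LM_drop {N : ℕ} {f : ℕ → ℝ → ℝ} (hm : ∀ a, Measurable (f a)) (M : ℕ) :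
    ∫ G, LM N f M (fun a => G a.castSucc) ∂(gam (M + 1) N) = ∫ G, LM N f M G ∂(gam M N) := by
  have h := mp_drop (N := N) (Measure.pi fun _ => gaussianReal 0 1) M
  unfold gam
  rw [← h.map_eq, integral_map h.measurable.aemeasurable
    (by rw [h.map_eq]; exact (measurable_LM hm M).aestronglyMeasurable)]

theorem pN_succ {N : ℕ} (hN : 0 < N) {f : ℕ → ℝ → ℝ} {K : ℝ} (hm : ∀ a, Measurable (f a))
    (hb : ∀ a x, |f a x| ≤ K) (M : ℕ) : |pN N f (M + 1) - pN N f M| ≤ K / N := by
  have h0 : (0 : ℝ) < N := by exact_mod_cast hN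
  rw [pN_eq', pN_eq', ← integral_LM_drop hm M, ← mul_sub, abs_mul, abs_of_pos (inv_pos.2 h0),
    inv_mul_eq_div]
  refine div_le_div_of_nonneg_right ?_ h0.le
  have hi1 := integrable_LM hN hm hb (M + 1)
  have hi2 : Integrable (fun G : Fin (M + 1) → Fin N → ℝ => LM N f M (fun a => G a.castSucc))
      (gam (M + 1) N) := by
    have h := mp_drop (N := N) (Measure.pi fun _ => gaussianReal 0 1) M
    exact h.integrable_comp_of_integrable (integrable_LM hN hm hb M)
  rw [← integral_sub hi1 hi2]
  have := norm_integral_le_of_norm_le_const (μ := gam (M + 1) N) (C := K)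
    (f := fun G => LM N f (M + 1) G - LM N f M (fun a => G a.castSucc))
    (Eventually.of_forall fun G => by
      rw [Real.norm_eq_abs]; exact abs_LM_succ hN hm hb M G)
  simpa using this

theorem PM_holds : PM := by
  have key : ∀ (N : ℕ) (f : ℕ → ℝ → ℝ) (K : ℝ) (M k : ℕ), 0 < N → (∀ a, Measurable (f a)) →
      (∀ a x, |f a x| ≤ K) → |pN N f (M + k) - pN N f M| ≤ K * k / N := by
    intro N f K M k hN hm hb
    induction k with
    | zero => simp
    | succ k ih =>
      have h1 := pN_succ hN hm hb (M + k)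
      have h2 := abs_sub_le (pN N f (M + (k + 1))) (pN N f (M + k)) (pN N f M)
      have h3 : K * ((k + 1 : ℕ) : ℝ) / N = K / N + K * k / N := by push_cast; ring
      rw [h3]
      have h4 : M + (k + 1) = M + k + 1 := by ring
      rw [h4] at h2 ⊢
      linarith
  intro N f K M M' hm hb
  rcases Nat.eq_zero_or_pos N with h0 | hN
  · subst h0
    simp [pN]
  rcases le_total M M' with h | h
  · obtain ⟨k, rfl⟩ := Nat.exists_eq_add_of_le h
    rw [abs_sub_comm]
    refine (key N f K M k hN hm hb).trans (le_of_eq ?_)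
    have : |(M : ℝ) - ((M + k : ℕ) : ℝ)| = k := by
      push_cast
      rw [show (M : ℝ) - (M + k) = -(k : ℝ) by ring, abs_neg, abs_of_nonneg (by positivity)]
    rw [this]
  · obtain ⟨k, rfl⟩ := Nat.exists_eq_add_of_le h
    refine (key N f K M' k hN hm hb).trans (le_of_eq ?_)
    have : |((M' + k : ℕ) : ℝ) - (M' : ℝ)| = k := by
      push_cast
      rw [show (M' : ℝ) + k - M' = (k : ℝ) by ring, abs_of_nonneg (by positivity)]
    rw [this]

/-! ### smooth approximation -/

section smooth

open scoped Convolution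

theorem SMOOTH_holds : SMOOTH := by
  intro f K hf hK R δ hδ
  have hK0 : 0 ≤ K := (abs_nonneg _).trans (hK 0)
  -- cut off
  let χ : ContDiffBump (0 : ℝ) := ⟨|R| + 2, |R| + 3, by positivity, by linarith⟩
  set g : ℝ → ℝ := fun x => χ x * f x with hg
  have hgc : Continuous g := χ.continuous.mul hf
  have hgs : HasCompactSupport g := χ.hasCompactSupport.mul_right
  have hgK : ∀ x, |g x| ≤ K := by
    intro x
    rw [hg]
    simp only
    rw [abs_mul, abs_of_nonneg χ.nonneg]
    calc χ x * |f x| ≤ 1 * K := mul_le_mul χ.le_one (hK x) (abs_nonneg _) zero_le_one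
      _ = K := one_mul K
  have hgf : ∀ x, |x| ≤ |R| + 2 → g x = f x := by
    intro x hx
    rw [hg]
    simp only
    rw [χ.one_of_mem_closedBall (by rw [mem_closedBall_zero_iff, Real.norm_eq_abs]; exact hx),
      one_mul]
  -- uniform continuity
  have huc : UniformContinuous g := hgs.uniformContinuous_of_continuous hgc
  obtain ⟨ρ, hρ, hρg⟩ := Metric.uniformContinuous_iff.1 huc δ hδ
  let φ : ContDiffBump (0 : ℝ) := ⟨ρ / 2, ρ, by positivity, by linarith⟩
  set F : ℝ → ℝ := (φ.normed volume ⋆[ContinuousLinearMap.lsmul ℝ ℝ, volume] g) with hF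
  have hsm : ContDiff ℝ (⊤ : ℕ∞) F := by
    apply HasCompactSupport.contDiff_convolution_left
    · exact φ.hasCompactSupport_normed
    · exact φ.contDiff_normed
    · exact hgc.locallyIntegrable
  have hcs : HasCompactSupport F := by
    apply HasCompactSupport.convolution
    · exact φ.hasCompactSupport_normed
    · exact hgs
  refine ⟨F, fun n => hsm.of_le (by exact_mod_cast le_top), ?_, ?_, ?_⟩
  · intro x
    have hi : Integrable (fun t => φ.normed volume t) := φ.integrable_normed
    have e : F x = ∫ t, φ.normed volume t * g (x - t) := by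
      rw [hF]; simp [convolution_def]
    rw [e, ← Real.norm_eq_abs]
    calc ‖∫ t, φ.normed volume t * g (x - t)‖ ≤ ∫ t, φ.normed volume t * K := by
          apply norm_integral_le_of_norm_le (hi.mul_const K)
          refine Eventually.of_forall fun t => ?_
          rw [norm_mul, Real.norm_eq_abs, Real.norm_eq_abs, abs_of_nonneg (φ.nonneg_normed t)]
          exact mul_le_mul_of_nonneg_left (hgK _) (φ.nonneg_normed t)
      _ = K := by rw [integral_mul_const, φ.integral_normed, one_mul]
  · intro x hx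
    rw [← hgf x (hx.trans (by linarith [le_abs_self R])), abs_sub_comm, ← Real.dist_eq]
    apply φ.dist_normed_convolution_le hgc.aestronglyMeasurable
    intro t ht
    have : dist t x < ρ := ht
    exact (hρg this).le
  · intro k
    have h1 : Continuous (iteratedFDeriv ℝ k F) :=
      hsm.continuous_iteratedFDeriv (by exact_mod_cast le_top)
    obtain ⟨C, hC⟩ := h1.bounded_above_of_compact_support (hcs.iteratedFDeriv (𝕜 := ℝ) k)
    refine ⟨C, fun x => ?_⟩
    rw [← Real.norm_eq_abs, ← norm_iteratedFDeriv_eq_norm_iteratedDeriv]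
    exact hC x

end smooth

end Crest.Agent.R146.S6Lit_663
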