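import Crest.Agent.R146.LbDef_679
import Crest.Agent.R146.Mon_422
import Crest.Agent.R146.Disc_857
import Crest.Agent.R146.PLim_857
import Crest.Agent.R146.S6Lit_663
import Crest.Agent.R146.Rev_649
import Crest.Agent.R146.DerJen_52

/-!
Row 146 (S0206), node LBASM (helper679): `S6U_988.LB` from the increment Prop `LbDef_679.INC1`
(one new coordinate and, in the mean, `α` new rows). The number of rows after `k` steps is
`⌊α⌋ k + Binomial(k, α - ⌊α⌋)` (functional `EW`). The whole chain uses ONE number of coins `n`.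
Main theorem: `lb_of_inc1 : INC1 → LB`.
-/

set_option autoImplicit false

namespace Crest.Agent.R146.LbAsm_679

open Finset MeasureTheory Filter Topology
open Crest.Agent.R146.S6Def_988 Crest.Agent.R146.S6U_988 Crest.Agent.R146.LbDef_679
open Crest.ProbabilityR.Perceptron

noncomputable section

/-! ### Elementary facts -/

theorem near_mono {N : ℕ} {C : Cfg N} {δ δ' : ℝ} (h : Near C δ) (hd : δ ≤ δ') : Near C δ' :=
  fun F hF => (h F hF).trans hd

theorem smooth_BL {f : ℝ → ℝ} (hf : ∀ n : ℕ, ContDiff ℝ n f)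
    (hfb : ∀ k : ℕ, ∃ C, ∀ x, |iteratedDeriv k f x| ≤ C) : ∃ K L, BL K L f := by
  obtain ⟨K, hK⟩ := hfb 0
  obtain ⟨L, hL⟩ := hfb 1
  refine ⟨K, L, fun x => by simpa using hK x, fun x y => ?_⟩
  have hd : Differentiable ℝ f := (hf 1).differentiable (by norm_num)
  have h := Convex.norm_image_sub_le_of_norm_deriv_le (𝕜 := ℝ) (f := f) (s := Set.univ) (x := y)
    (y := x) (C := L) (fun z _ => hd z) (fun z _ => by
      have := hL z
      rw [iteratedDeriv_one] at this
      rwa [Real.norm_eq_abs]) convex_univ (Set.mem_univ _) (Set.mem_univ _)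
  simpa [Real.norm_eq_abs] using h

theorem exists_pos_le (T : ℕ) (δ : ℕ → ℝ) (h : ∀ k, k < T → 0 < δ k) :
    ∃ d : ℝ, 0 < d ∧ ∀ k, k < T → d ≤ δ k := by
  induction T with
  | zero => exact ⟨1, one_pos, fun k hk => absurd hk (Nat.not_lt_zero _)⟩
  | succ T ih =>
    obtain ⟨d, hd, h1⟩ := ih fun k hk => h k (hk.trans T.lt_succ_self)
    refine ⟨min d (δ T), lt_min hd (h T T.lt_succ_self), fun k hk => ?_⟩
    rcases Nat.lt_succ_iff_lt_or_eq.mp hk with h2 | h2
    · exact (min_le_left _ _).trans (h1 k h2)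
    · subst h2; exact min_le_right _ _

theorem measurableSet_bx (nc : ℕ) : MeasurableSet (bx nc) := measurableSet_Icc

theorem volume_bx (nc : ℕ) : volume.real (bx nc) = 1 := by
  unfold bx Measure.real
  rw [Real.volume_Icc_pi]
  norm_num

theorem isCompact_bx (nc : ℕ) : IsCompact (bx nc) := isCompact_Icc

theorem pN_zero {N : ℕ} (hN : 0 < N) (f : ℕ → ℝ → ℝ) : pN N f 0 = 0 := by
  have : IsProbabilityMeasure (sph N) := Disc857.isProbabilityMeasure_sph hN.ne'
  unfold pN
  simp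

theorem abs_pN_le {N : ℕ} (hN : 0 < N) {f : ℕ → ℝ → ℝ} {K : ℝ} (hf : ∀ a, Measurable (f a))
    (hK : ∀ a x, |f a x| ≤ K) (M : ℕ) : |pN N f M| ≤ K * M / N := by
  have h := S6Lit_663.PM_holds N f K M 0 hf hK
  rw [pN_zero hN, sub_zero] at h
  simpa using h

/-! ### Bounds for the averaged free energy -/

section bounds

variable {N : ℕ} (hN : 0 < N) {nc n : ℕ} (hn : 0 < n) (C : Cfg N) {K : ℝ} {f : ℕ → ℝ → ℝ} (M : ℕ)
  (hf : ∀ a, Measurable (f a)) (hK : ∀ a x, |f a x| ≤ K)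

include hN in
theorem PhE_eq (s : Fin nc → ℝ) :
    PhE C nc n f M s = N * (FN C nc n f M s + 1 / 2 * ∑ g, s g ^ 2) := by
  have h : (N : ℝ) ≠ 0 := by exact_mod_cast hN.ne'
  unfold PhE FN
  field_simp
  ring

include hN hn hf hK in
theorem continuous_PhE : Continuous fun s : Fin nc → ℝ => PhE C nc n f M s := by
  have h := (DerJen_52.der nc N n hN hn C K f M hf hK).1
  have e : (fun s : Fin nc → ℝ => PhE C nc n f M s) =
      fun s => N * (FN C nc n f M s + 1 / 2 * ∑ g, s g ^ 2) :=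
    funext fun s => PhE_eq hN C M s
  rw [e]
  exact continuous_const.mul (h.add (continuous_const.mul
    (continuous_finsetSum _ fun g _ => (continuous_apply g).pow 2)))

include hN hn hf hK in
theorem integrableOn_PhE (η : ℝ) : IntegrableOn
    (fun l : Fin nc → ℝ => PhE C nc n f M (fun g => Real.sqrt η * l g)) (bx nc) volume := by
  refine ContinuousOn.integrableOn_compact (isCompact_bx nc) (Continuous.continuousOn ?_)
  exact (continuous_PhE hN hn C M hf hK).comp
    (continuous_pi fun g => continuous_const.mul (continuous_apply g))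

theorem sum_sq_le {η : ℝ} (hη : 0 ≤ η) {l : Fin nc → ℝ} (hl : l ∈ bx nc) :
    1 / 2 * ∑ g, (Real.sqrt η * l g) ^ 2 ≤ 2 * (nc * η) := by
  have h1 : ∀ g, (Real.sqrt η * l g) ^ 2 ≤ 4 * η := by
    intro g
    have h2 : 1 ≤ l g := hl.1 g
    have h3 : l g ≤ 2 := hl.2 g
    rw [mul_pow, Real.sq_sqrt hη]
    have h4 : l g ^ 2 ≤ 4 := by nlinarith
    nlinarith
  have h2 : ∑ g, (Real.sqrt η * l g) ^ 2 ≤ ∑ _g : Fin nc, 4 * η :=
    Finset.sum_le_sum fun g _ => h1 g
  rw [Finset.sum_const, Finset.card_univ, Fintype.card_fin, nsmul_eq_mul] at h2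
  linarith

include hN hn hf hK in
theorem Lb_ge (η : ℝ) : N * pC C f M ≤ Lb C nc n f M η := by
  have hN' : (0 : ℝ) < N := by exact_mod_cast hN
  have h1 : ∀ l ∈ bx nc, N * pC C f M ≤ PhE C nc n f M (fun g => Real.sqrt η * l g) := by
    intro l _
    rw [PhE_eq hN C M]
    exact mul_le_mul_of_nonneg_left (DerJen_52.jen nc N n hN hn C K f M hf hK _) hN'.le
  have h2 : (N : ℝ) * pC C f M = ∫ _l in bx nc, (N : ℝ) * pC C f M := by
    rw [setIntegral_const, volume_bx, one_smul]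
  rw [h2]
  exact setIntegral_mono_on (continuous_const.continuousOn.integrableOn_compact (isCompact_bx nc))
    (integrableOn_PhE hN hn C M hf hK η) (measurableSet_bx nc) h1

include hN hn hf hK in
theorem Lb_le {η : ℝ} (hη : 0 ≤ η) :
    Lb C nc n f M η ≤ N * pC C f M + 2 * N * (nc * η) := by
  have hN' : (0 : ℝ) < N := by exact_mod_cast hN
  have h1 : ∀ l ∈ bx nc, PhE C nc n f M (fun g => Real.sqrt η * l g) ≤
      N * pC C f M + 2 * N * (nc * η) := by
    intro l hl
    rw [PhE_eq hN C M, mul_add]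
    have h3 := mul_le_mul_of_nonneg_left (sum_sq_le hη hl) hN'.le
    have h4 := mul_le_mul_of_nonneg_left (Rev_649.rev C nc n (M := M) f hf hK
      (fun g => Real.sqrt η * l g)) hN'.le
    linarith
  have h2 : (N : ℝ) * pC C f M + 2 * N * (nc * η) =
      ∫ _l in bx nc, ((N : ℝ) * pC C f M + 2 * N * (nc * η)) := by
    rw [setIntegral_const, volume_bx, one_smul]
  rw [h2]
  exact setIntegral_mono_on (integrableOn_PhE hN hn C M hf hK η)
    (continuous_const.continuousOn.integrableOn_compact (isCompact_bx nc)) (measurableSet_bx nc) h1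

end bounds

/-! ### The law of the number of rows -/

/-- the mean of `g` over the number of rows after `k` steps -/
def EW (m0 : ℕ) (th : ℝ) : ℕ → (ℕ → ℝ) → ℝ
  | 0, g => g 0
  | k + 1, g => EW m0 th k fun M => (1 - th) * g (M + m0) + th * g (M + m0 + 1)

section EW

variable {m0 : ℕ} {th : ℝ}

theorem EW_mono (h0 : 0 ≤ th) (h1 : th ≤ 1) (k : ℕ) {g h : ℕ → ℝ}
    (hgh : ∀ M, M ≤ (m0 + 1) * k → g M ≤ h M) : EW m0 th k g ≤ EW m0 th k h := by
  induction k generalizing g h with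
  | zero => exact hgh 0 (Nat.zero_le _)
  | succ k ih =>
    refine ih fun M hM => ?_
    have e1 : (m0 + 1) * (k + 1) = (m0 + 1) * k + (m0 + 1) := by ring
    have h2 := hgh (M + m0) (by omega)
    have h3 := hgh (M + m0 + 1) (by omega)
    have h4 : 0 ≤ 1 - th := by linarith
    nlinarith [mul_le_mul_of_nonneg_left h2 h4, mul_le_mul_of_nonneg_left h3 h0]

theorem EW_add (k : ℕ) (g h : ℕ → ℝ) :
    EW m0 th k (fun M => g M + h M) = EW m0 th k g + EW m0 th k h := by
  induction k generalizing g h with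
  | zero => rfl
  | succ k ih =>
    show EW m0 th k _ = EW m0 th k _ + EW m0 th k _
    rw [← ih]
    congr 1
    funext M
    ring

theorem EW_smul (k : ℕ) (c : ℝ) (g : ℕ → ℝ) :
    EW m0 th k (fun M => c * g M) = c * EW m0 th k g := by
  induction k generalizing g with
  | zero => rfl
  | succ k ih =>
    show EW m0 th k _ = c * EW m0 th k _
    rw [← ih]
    congr 1
    funext M
    ring

theorem EW_const (k : ℕ) (c : ℝ) : EW m0 th k (fun _ => c) = c := by
  induction k with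
  | zero => rfl
  | succ k ih =>
    show EW m0 th k _ = c
    have : (fun _ : ℕ => (1 - th) * c + th * c) = fun _ => c := by funext _; ring
    rw [this, ih]

theorem EW_sq {α : ℝ} (hα : α = m0 + th) (k : ℕ) :
    EW m0 th k (fun M => ((M : ℝ) - α * k) ^ 2) = k * (th * (1 - th)) := by
  induction k with
  | zero => simp [EW]
  | succ k ih =>
    have e : (fun M : ℕ => (1 - th) * (((M + m0 : ℕ) : ℝ) - α * ((k + 1 : ℕ) : ℝ)) ^ 2 +
        th * (((M + m0 + 1 : ℕ) : ℝ) - α * ((k + 1 : ℕ) : ℝ)) ^ 2) =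
        fun M : ℕ => ((M : ℝ) - α * k) ^ 2 + th * (1 - th) := by
      funext M
      rw [hα]; push_cast; ring
    show EW m0 th k (fun M : ℕ => (1 - th) * (((M + m0 : ℕ) : ℝ) - α * ((k + 1 : ℕ) : ℝ)) ^ 2 +
        th * (((M + m0 + 1 : ℕ) : ℝ) - α * ((k + 1 : ℕ) : ℝ)) ^ 2) = _
    rw [e, EW_add, ih, EW_const]
    push_cast
    ring

/-- the mean deviation of the number of rows. -/
theorem EW_abs_le (h0 : 0 ≤ th) (h1 : th ≤ 1) {α : ℝ} (hα : α = m0 + th) (k : ℕ) {s : ℝ}
    (hs : 0 < s) : EW m0 th k (fun M => |(M : ℝ) - α * k|) ≤ k / s + s := by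
  have h2 : EW m0 th k (fun M => |(M : ℝ) - α * k|) ≤
      EW m0 th k (fun M => s⁻¹ * ((M : ℝ) - α * k) ^ 2 + s) := by
    refine EW_mono h0 h1 k fun M _ => ?_
    set x := |(M : ℝ) - α * k| with hx
    have hx2 : ((M : ℝ) - α * k) ^ 2 = x ^ 2 := by rw [hx, sq_abs]
    rw [hx2]
    have h3 : 0 ≤ s⁻¹ * (x - s) ^ 2 := by positivity
    have h4 : s⁻¹ * (x - s) ^ 2 = s⁻¹ * x ^ 2 + s - 2 * x := by field_simp; ring
    have h5 : 0 ≤ x := abs_nonneg _
    linarith
  refine h2.trans ?_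
  rw [EW_add, EW_smul, EW_const, EW_sq hα]
  have h3 : th * (1 - th) ≤ 1 := by nlinarith
  have h4 : s⁻¹ * (k * (th * (1 - th))) ≤ s⁻¹ * (k * 1) :=
    mul_le_mul_of_nonneg_left (mul_le_mul_of_nonneg_left h3 (Nat.cast_nonneg k))
      (inv_pos.2 hs).le
  have h5 : s⁻¹ * ((k : ℝ) * 1) = k / s := by rw [mul_one, div_eq_inv_mul]
  linarith

end EW

/-! ### The chain -/

theorem pC_zero {N : ℕ} (C : Cfg N) (f : ℕ → ℝ → ℝ) : pC C f 0 = 0 := by
  unfold pC rowE
  simp [C.hq.sum]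

theorem chain {f : ℝ → ℝ} {K L : ℝ} (hBL : BL K L f) (hfm : Measurable f) {α : ℝ} (hα : 0 < α)
    {nc : ℕ} {η e : ℝ} (hη : 0 < η) (hnη : (nc : ℝ) * η ≤ e) {N1 : ℕ}
    (hI : ∀ N, N1 ≤ N → ∃ n0 : ℕ, ∀ n, n0 ≤ n → ∃ δ : ℝ, 0 < δ ∧
      ∀ (C : Cfg N) (C1 : Cfg (N + 1)), Near C δ → Near C1 δ →
      ∀ M : ℕ, (M : ℝ) ≤ (α + 1) * N → ∃ (J : ℕ) (P : ℕ → ℝ), Lev J P ∧ P J < 1 ∧
        α * Th J f P + SP J P - e ≤
          (1 - (α - (Nat.floor α : ℕ))) * Lb C1 nc n (fun _ => f) (M + Nat.floor α) η +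
            (α - (Nat.floor α : ℕ)) * Lb C1 nc n (fun _ => f) (M + Nat.floor α + 1) η -
            Lb C nc n (fun _ => f) M η)
    {a T : ℕ} (ha : N1 ≤ a) (ha0 : 0 < a) (hT : 0 < T) {ε2 : ℝ} (hε2 : 0 < ε2) :
    ∃ (J : ℕ) (P : ℕ → ℝ), Lev J P ∧ P J < 1 ∧
      T * (α * Th J f P + SP J P - e) ≤
        EW (Nat.floor α) (α - (Nat.floor α : ℕ)) T (fun M => ((a + T : ℕ) : ℝ) *
          pN (a + T) (fun _ => f) M) + ((a + T : ℕ) : ℝ) * ε2 + 2 * ((a + T : ℕ) : ℝ) * e := by
  classical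
  set m0 : ℕ := Nat.floor α with hm0
  set th : ℝ := α - (m0 : ℕ) with hth
  have hth0 : 0 ≤ th := by
    have := Nat.floor_le hα.le
    rw [hth]; linarith
  have hth1 : th ≤ 1 := by
    have := Nat.lt_floor_add_one α
    rw [hth]; linarith
  have hm0α : (m0 : ℝ) ≤ α := Nat.floor_le hα.le
  have hm : ∀ _ : ℕ, Measurable f := fun _ => hfm
  have hKb : ∀ (_ : ℕ) (x : ℝ), |f x| ≤ K := fun _ x => hBL.bd x
  have hpos : ∀ k, 0 < a + k := fun k => by omega
  have h1 : ∀ k : ℕ, ∃ n0 : ℕ, ∀ n, n0 ≤ n → ∃ δ : ℝ, 0 < δ ∧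
      ∀ (C : Cfg (a + k)) (C1 : Cfg (a + k + 1)), Near C δ → Near C1 δ →
      ∀ M : ℕ, (M : ℝ) ≤ (α + 1) * ((a + k : ℕ) : ℝ) → ∃ (J : ℕ) (P : ℕ → ℝ),
        Lev J P ∧ P J < 1 ∧
        α * Th J f P + SP J P - e ≤
          (1 - th) * Lb C1 nc n (fun _ => f) (M + m0) η +
            th * Lb C1 nc n (fun _ => f) (M + m0 + 1) η - Lb C nc n (fun _ => f) M η :=
    fun k => hI (a + k) (by omega)
  choose n0 hn0 using h1
  -- one number of coins
  set n : ℕ := 1 + ∑ k ∈ range T, n0 k with hndef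
  have hn : 0 < n := by omega
  have hnk : ∀ k, k < T → n0 k ≤ n := by
    intro k hk
    have := Finset.single_le_sum (f := n0) (fun _ _ => Nat.zero_le _) (mem_range.mpr hk)
    omega
  have h2 : ∀ k : ℕ, ∃ δ : ℝ, 0 < δ ∧ (k < T →
      ∀ (C : Cfg (a + k)) (C1 : Cfg (a + k + 1)), Near C δ → Near C1 δ →
      ∀ M : ℕ, (M : ℝ) ≤ (α + 1) * ((a + k : ℕ) : ℝ) → ∃ (J : ℕ) (P : ℕ → ℝ),
        Lev J P ∧ P J < 1 ∧
        α * Th J f P + SP J P - e ≤
          (1 - th) * Lb C1 nc n (fun _ => f) (M + m0) η +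
            th * Lb C1 nc n (fun _ => f) (M + m0 + 1) η - Lb C nc n (fun _ => f) M η) := by
    intro k
    by_cases hk : k < T
    · obtain ⟨δ, hδ, h3⟩ := hn0 k n (hnk k hk)
      exact ⟨δ, hδ, fun _ => h3⟩
    · exact ⟨1, one_pos, fun h => absurd h hk⟩
  choose δ hδ h3 using h2
  obtain ⟨d1, hd1, hd1'⟩ := exists_pos_le T δ fun k _ => hδ k
  have h4 : ∀ M : ℕ, ∃ d : ℝ, 0 < d ∧ ∀ f : ℕ → ℝ → ℝ, (∀ a, BL K L (f a)) →
      ∀ C : Cfg (a + T), Near C d → |pN (a + T) f M - pC C f M| ≤ ε2 :=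
    fun M => PLim857.plim (a + T) K L M ε2 (hpos T) hε2
  choose dM hdM hdM' using h4
  obtain ⟨d2, hd2, hd2'⟩ := exists_pos_le ((m0 + 1) * T + 1) dM fun M _ => hdM M
  have hd0 : 0 < min d1 d2 := lt_min hd1 hd2
  have h5 : ∀ k : ℕ, ∃ C : Cfg (a + k), Near C (min d1 d2) :=
    fun k => Disc857.disc (a + k) (hpos k) _ hd0
  choose C hC using h5
  have h6 : ∀ q : ℕ × ℕ, ∃ (J : ℕ) (P : ℕ → ℝ), q.1 < T → q.2 ≤ (m0 + 1) * q.1 →
      (Lev J P ∧ P J < 1 ∧ α * Th J f P + SP J P - e ≤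
          (1 - th) * Lb (C (q.1 + 1)) nc n (fun _ => f) (q.2 + m0) η +
            th * Lb (C (q.1 + 1)) nc n (fun _ => f) (q.2 + m0 + 1) η -
            Lb (C q.1) nc n (fun _ => f) q.2 η) := by
    rintro ⟨k, M⟩
    by_cases hk : k < T
    · by_cases hM : M ≤ (m0 + 1) * k
      · have hle : min d1 d2 ≤ δ k := (min_le_left _ _).trans (hd1' k hk)
        have hMr : (M : ℝ) ≤ (α + 1) * ((a + k : ℕ) : ℝ) := by
          have e1 : (M : ℝ) ≤ ((m0 : ℝ) + 1) * k := by exact_mod_cast hM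
          have e2 : ((m0 : ℝ) + 1) * k ≤ (α + 1) * k :=
            mul_le_mul_of_nonneg_right (by linarith) (Nat.cast_nonneg k)
          have e3 : (α + 1) * (k : ℝ) ≤ (α + 1) * ((a + k : ℕ) : ℝ) := by
            refine mul_le_mul_of_nonneg_left ?_ (by linarith)
            push_cast
            linarith [(Nat.cast_nonneg a : (0 : ℝ) ≤ a)]
          linarith
        obtain ⟨J, P, hP⟩ := h3 k hk (C k) (C (k + 1)) (near_mono (hC k) hle)
          (near_mono (hC (k + 1)) hle) M hMr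
        exact ⟨J, P, fun _ _ => hP⟩
      · exact ⟨0, fun _ => 0, fun _ h => absurd h hM⟩
    · exact ⟨0, fun _ => 0, fun h => absurd h hk⟩
  choose J P hP using h6
  -- the worst step
  set S : Finset (ℕ × ℕ) := ((range T) ×ˢ (range ((m0 + 1) * T + 1))).filter
    fun q => q.2 ≤ (m0 + 1) * q.1 with hS
  have hS0 : S.Nonempty := ⟨(0, 0), by rw [hS]; simp [hT]⟩
  obtain ⟨q0, hq0, hmin⟩ := Finset.exists_min_image S
    (fun q => α * Th (J q) f (P q) + SP (J q) (P q)) hS0
  have hq0' : q0.1 < T ∧ q0.2 ≤ (m0 + 1) * q0.1 := by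
    rw [hS, mem_filter, mem_product, mem_range] at hq0
    exact ⟨hq0.1.1, hq0.2⟩
  refine ⟨J q0, P q0, (hP q0 hq0'.1 hq0'.2).1, (hP q0 hq0'.1 hq0'.2).2.1, ?_⟩
  set X := α * Th (J q0) f (P q0) + SP (J q0) (P q0) - e with hX
  -- the telescoped inequality
  have h7 : ∀ k, k ≤ T → k * X ≤ EW m0 th k (fun M => Lb (C k) nc n (fun _ => f) M η) := by
    intro k
    induction k with
    | zero =>
      intro _
      rw [Nat.cast_zero, zero_mul]
      show 0 ≤ Lb (C 0) nc n (fun _ => f) 0 η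
      have := Lb_ge (hpos 0) hn (C 0) 0 (K := K) (f := fun _ => f) (fun a => hm a) hKb η (nc := nc)
      rw [pC_zero, mul_zero] at this
      exact this
    | succ k ih =>
      intro hk
      have hk' : k < T := hk
      have h8 := ih hk'.le
      have h9 : EW m0 th k (fun M => Lb (C k) nc n (fun _ => f) M η + X) ≤
          EW m0 th k (fun M => (1 - th) * Lb (C (k + 1)) nc n (fun _ => f) (M + m0) η +
            th * Lb (C (k + 1)) nc n (fun _ => f) (M + m0 + 1) η) := by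
        refine EW_mono hth0 hth1 k fun M hM => ?_
        have h10 : (k, M) ∈ S := by
          rw [hS, mem_filter, mem_product, mem_range, mem_range]
          refine ⟨⟨hk', ?_⟩, hM⟩
          have : (m0 + 1) * k ≤ (m0 + 1) * T := Nat.mul_le_mul_left _ hk'.le
          show M < (m0 + 1) * T + 1
          omega
        have h11 := hmin (k, M) h10
        have h12 := (hP (k, M) hk' hM).2.2
        simp only at h11 h12
        rw [hX]; linarith
      rw [EW_add, EW_const] at h9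
      show ((k + 1 : ℕ) : ℝ) * X ≤ EW m0 th k (fun M =>
        (1 - th) * Lb (C (k + 1)) nc n (fun _ => f) (M + m0) η +
            th * Lb (C (k + 1)) nc n (fun _ => f) (M + m0 + 1) η)
      push_cast
      linarith
  refine (h7 T le_rfl).trans ?_
  have hNT : (0 : ℝ) < ((a + T : ℕ) : ℝ) := by exact_mod_cast hpos T
  have h13 : EW m0 th T (fun M => Lb (C T) nc n (fun _ => f) M η) ≤
      EW m0 th T (fun M => ((a + T : ℕ) : ℝ) * pN (a + T) (fun _ => f) M +
        (((a + T : ℕ) : ℝ) * ε2 + 2 * ((a + T : ℕ) : ℝ) * e)) := by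
    refine EW_mono hth0 hth1 T fun M hM => ?_
    have h14 := Lb_le (hpos T) hn (C T) M (K := K) (f := fun _ => f) (fun a => hm a) hKb hη.le
      (nc := nc)
    have h15 := hdM' M (fun _ => f) (fun _ => hBL) (C T)
      (near_mono (hC T) ((min_le_right _ _).trans (hd2' M (by omega))))
    have h16 : ((a + T : ℕ) : ℝ) * pC (C T) (fun _ => f) M ≤
        ((a + T : ℕ) : ℝ) * (pN (a + T) (fun _ => f) M + ε2) :=
      mul_le_mul_of_nonneg_left (by linarith [(abs_le.mp h15).1]) hNT.le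
    have h17 : 2 * ((a + T : ℕ) : ℝ) * (nc * η) ≤ 2 * ((a + T : ℕ) : ℝ) * e :=
      mul_le_mul_of_nonneg_left hnη (by positivity)
    linarith
  refine h13.trans (le_of_eq ?_)
  rw [EW_add, EW_const]
  ring

/-! ### The lower bound -/

set_option maxHeartbeats 1000000 in
/-- **The lower bound from the increments.** -/
theorem lb_of_inc1 (hI : INC1) : LB := by
  intro f hf hfb α ε hα hε
  obtain ⟨K, L, hBL⟩ := smooth_BL hf hfb
  have hK0 : 0 ≤ K := (abs_nonneg _).trans (hBL.bd 0)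
  have hfm : Measurable f := (hf 0).continuous.measurable
  have hKb : ∀ (_ : ℕ) (x : ℝ), |f x| ≤ K := fun _ x => hBL.bd x
  set e : ℝ := ε / 8 with he
  have he0 : 0 < e := by positivity
  obtain ⟨nc, η, hη, hnη, N1, hI⟩ := hI f hf hfb α e hα he0
  -- the constants
  set a : ℕ := N1 + 1 with ha
  have ha0 : 0 < a := by omega
  have har : (0 : ℝ) < a := by exact_mod_cast ha0
  set c : ℝ := e / (K + 1) with hc
  have hc0 : 0 < c := by positivity
  have hKc : K * c ≤ e := by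
    rw [hc, ← mul_div_assoc, div_le_iff₀ (by linarith)]
    nlinarith
  set C0 : ℝ := K * (1 / c) + K * (α * a + 1) with hC0
  have hC00 : 0 ≤ C0 := by positivity
  set Bc : ℝ := K * α + 5 * e + C0 with hBc
  have hBc0 : 0 < Bc := by positivity
  set Cc : ℝ := a * (2 * Bc) + C0 with hCc
  have hCc0 : 0 < Cc := by positivity
  set N0 : ℕ := 2 * a + ⌈Cc / e⌉₊ + 1 with hN0
  refine ⟨N0, fun N hN => ?_⟩
  have hNpos : 0 < N := by omega
  have hN' : (0 : ℝ) < N := by exact_mod_cast hNpos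
  have hN1' : (1 : ℝ) ≤ N := by exact_mod_cast hNpos
  have hNC : Cc ≤ e * N := by
    have h1 := Nat.le_ceil (Cc / e)
    have h2 : ((⌈Cc / e⌉₊ : ℕ) : ℝ) ≤ N := by exact_mod_cast (by omega)
    rw [div_le_iff₀ he0] at h1
    have h3 := mul_le_mul_of_nonneg_left h2 he0.le
    linarith
  obtain ⟨T, hT⟩ : ∃ T, N = a + T := ⟨N - a, by omega⟩
  have hT0 : 0 < T := by omega
  obtain ⟨J, P, hP1, hP2, hP3⟩ := chain hBL hfm hα hη hnη hI (by omega : N1 ≤ a) ha0 hT0 he0
  refine ⟨J, P, hP1, hP2, ?_⟩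
  rw [← hT] at hP3
  have hTr : (N : ℝ) = a + T := by exact_mod_cast hT
  have h2a : 2 * (a : ℝ) ≤ N := by exact_mod_cast (by omega : 2 * a ≤ N)
  set q := pN N (fun _ => f) (numPatterns N α) with hq
  set m0 : ℕ := Nat.floor α with hm0
  set th : ℝ := α - (m0 : ℕ) with hth
  have hth0 : 0 ≤ th := by
    have := Nat.floor_le hα.le
    rw [hth]; linarith
  have hth1 : th ≤ 1 := by
    have := Nat.lt_floor_add_one α
    rw [hth]; linarith
  -- the number of rows
  have h1 : EW m0 th T (fun M => (N : ℝ) * pN N (fun _ => f) M) ≤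
      N * q + (e * N + C0) := by
    have h2 : EW m0 th T (fun M => (N : ℝ) * pN N (fun _ => f) M) ≤
        EW m0 th T (fun M => K * |(M : ℝ) - α * T| + (N * q + K * (α * a + 1))) := by
      refine EW_mono hth0 hth1 T fun M _ => ?_
      have h3 := S6Lit_663.PM_holds N (fun _ => f) K M (numPatterns N α) (fun _ => hfm) hKb
      have h4 : pN N (fun _ => f) M - q ≤ K * |(M : ℝ) - (numPatterns N α : ℝ)| / N :=
        (le_abs_self _).trans h3
      rw [le_div_iff₀ hN'] at h4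
      have h5 : |(M : ℝ) - (numPatterns N α : ℝ)| ≤ |(M : ℝ) - α * T| + (α * a + 1) := by
        have h6 := abs_sub_le (M : ℝ) (α * T) (numPatterns N α : ℝ)
        have h7 : |α * T - (numPatterns N α : ℝ)| ≤ α * a + 1 := by
          unfold numPatterns
          have h8 := Nat.floor_le (by positivity : (0 : ℝ) ≤ α * N)
          have h9 := Nat.lt_floor_add_one (α * N)
          have h10 : α * N = α * a + α * T := by rw [hTr]; ring
          have h11 : 0 ≤ α * a := by positivity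
          rw [abs_le]
          constructor <;> linarith
        linarith
      have h6 := mul_le_mul_of_nonneg_left h5 hK0
      linarith
    refine h2.trans ?_
    rw [EW_add, EW_smul, EW_const]
    have h3 := EW_abs_le (m0 := m0) hth0 hth1 (α := α) (by rw [hth]; ring) T
      (s := c * N) (by positivity)
    have h4 : (T : ℝ) / (c * N) ≤ 1 / c := by
      rw [div_le_div_iff₀ (by positivity) hc0]
      have : (T : ℝ) ≤ N := by rw [hTr]; linarith
      nlinarith [mul_le_mul_of_nonneg_right this hc0.le]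
    have h5 := mul_le_mul_of_nonneg_left h3 hK0
    have h6 := mul_le_mul_of_nonneg_left h4 hK0
    have h7 := mul_le_mul_of_nonneg_right hKc hN'.le
    rw [hC0]
    linarith
  set X : ℝ := α * Th J f P + SP J P with hX
  have hTN : (T : ℝ) ≤ N := by rw [hTr]; linarith
  have hTe : (T : ℝ) * e ≤ N * e := mul_le_mul_of_nonneg_right hTN he0.le
  have h2 : (T : ℝ) * X ≤ N * q + 5 * e * N + C0 := by linarith
  have hqK : q * N ≤ K * α * N := by
    have h3 := abs_pN_le hNpos (f := fun _ => f) (K := K) (fun _ => hfm) hKb (numPatterns N α)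
    have h4 := (abs_le.mp h3).2
    rw [le_div_iff₀ hN'] at h4
    have h5 : (numPatterns N α : ℝ) ≤ α * N := Nat.floor_le (by positivity)
    have h6 := mul_le_mul_of_nonneg_left h5 hK0
    linarith
  have h3 : (a : ℝ) * X ≤ a * (2 * Bc) := by
    refine mul_le_mul_of_nonneg_left ?_ har.le
    by_contra hcon
    push Not at hcon
    have hX0 : 0 < X := by linarith
    have h4 : (N / 2 : ℝ) * X ≤ T * X := mul_le_mul_of_nonneg_right (by linarith) hX0.le
    have h5 : (N / 2 : ℝ) * (2 * Bc) < N / 2 * X := mul_lt_mul_of_pos_left hcon (by positivity)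
    have h6 : C0 ≤ C0 * N := le_mul_of_one_le_right hC00 hN1'
    have h7 : (N / 2 : ℝ) * (2 * Bc) = K * α * N + 5 * e * N + C0 * N := by rw [hBc]; ring
    linarith
  have h4 : (N : ℝ) * X ≤ N * q + 6 * e * N := by
    have h5 : (N : ℝ) * X = a * X + T * X := by rw [hTr]; ring
    rw [hCc] at hNC
    linarith
  have h5 : X ≤ q + 6 * e := by
    have h6 : (N : ℝ) * X ≤ N * (q + 6 * e) := by linarith
    exact le_of_mul_le_mul_left h6 hN'
  have h6 : 6 * e ≤ ε := by rw [he]; linarith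
  linarith

end

end Crest.Agent.R146.LbAsm_679
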