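import Crest.Agent.R146.S6L_988
import Crest.Agent.R146.LbAsm_679

set_option autoImplicit false

open MeasureTheory ProbabilityTheory Filter Topology
open Crest.Agent.R146.S6Def_988 Crest.Agent.R146.S6U_988

namespace Crest.Agent.R146.ChkS6_47

/-- smooth functions with bounded derivatives are of class `S3`. -/
theorem s3_of_smooth {f : ℝ → ℝ} (hf : ∀ n : ℕ, ContDiff ℝ n f)
    (hb : ∀ k : ℕ, ∃ C, ∀ x, |iteratedDeriv k f x| ≤ C) :
    ∃ K : ℝ, S6L_988.S3 K f (deriv f) (deriv (deriv f)) := by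
  obtain ⟨C0, h0⟩ := hb 0
  obtain ⟨C1, h1⟩ := hb 1
  obtain ⟨C2, h2⟩ := hb 2
  obtain ⟨C3, h3⟩ := hb 3
  have e1 : iteratedDeriv 1 f = deriv f := by rw [iteratedDeriv_one]
  have e2 : iteratedDeriv 2 f = deriv (deriv f) := by
    rw [iteratedDeriv_succ, e1]
  have e3 : iteratedDeriv 3 f = deriv (deriv (deriv f)) := by
    rw [iteratedDeriv_succ, e2]
  rw [iteratedDeriv_zero] at h0
  rw [e1] at h1
  rw [e2] at h2
  rw [e3] at h3
  have c1 : Differentiable ℝ f := (hf 1).differentiable (by norm_num)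
  have c2 : Differentiable ℝ (deriv f) := by
    have := (hf 2).differentiable_iteratedDeriv 1 (by norm_num)
    rwa [e1] at this
  have c3 : Differentiable ℝ (deriv (deriv f)) := by
    have := (hf 3).differentiable_iteratedDeriv 2 (by norm_num)
    rwa [e2] at this
  set K : ℝ := max (max C0 C1) (max C2 C3) with hK
  have k0 : C0 ≤ K := (le_max_left _ _).trans (le_max_left _ _)
  have k1 : C1 ≤ K := (le_max_right _ _).trans (le_max_left _ _)
  have k2 : C2 ≤ K := (le_max_left _ _).trans (le_max_right _ _)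
  have k3 : C3 ≤ K := (le_max_right _ _).trans (le_max_right _ _)
  refine ⟨K, ⟨fun x => (c1 x).hasDerivAt, fun x => (c2 x).hasDerivAt, fun x => (h0 x).trans k0,
    fun x => (h1 x).trans k1, fun x => (h2 x).trans k2, fun x y => ?_⟩⟩
  have := Convex.norm_image_sub_le_of_norm_deriv_le (f := deriv (deriv f)) (s := Set.univ)
    (C := K) (fun z _ => c3 z) (fun z _ => by rw [Real.norm_eq_abs]; exact (h3 z).trans k3)
    convex_univ (Set.mem_univ y) (Set.mem_univ x)
  simpa [Real.norm_eq_abs] using this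

/-- the two forms of the increment node. -/
theorem inc1_bridge (h : S6L_988.INC1) : LbDef_679.INC1 := by
  intro f hf hb α ε hα hε
  obtain ⟨K, hK⟩ := s3_of_smooth hf hb
  exact h K f _ _ hK α ε hα hε

theorem lb_of (h : S6L_988.INC1) : LB := LbAsm_679.lb_of_inc1 (inc1_bridge h)

end Crest.Agent.R146.ChkS6_47
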