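import Mathlib

/-! # Dirichlet problem for `u'' = F(z,u,u')` with bounded Lipschitz right side (row 146) -/

set_option autoImplicit false

open Set Metric

namespace Crest.Agent.R146.Bvp_39

/-- clamp to `[-C, C]` -/
noncomputable def cl (C p : ℝ) : ℝ := max (-C) (min p C)

lemma abs_cl_le {C : ℝ} (hC : 0 ≤ C) (p : ℝ) : |cl C p| ≤ C := by
  unfold cl
  rw [abs_le]
  constructor
  · exact le_max_left _ _
  · exact max_le (by linarith) (min_le_right _ _)

lemma cl_eq {C p : ℝ} (h : |p| ≤ C) : cl C p = p := by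
  unfold cl
  rw [abs_le] at h
  rw [min_eq_left h.2, max_eq_right h.1]

lemma abs_cl_sub_le (C p q : ℝ) : |cl C p - cl C q| ≤ |p - q| := by
  unfold cl
  refine (abs_max_sub_max_le_max _ _ _ _).trans ?_
  simp only [sub_self, abs_zero]
  refine max_le (abs_nonneg _) ?_
  refine (abs_min_sub_min_le_max _ _ _ _).trans ?_
  simp

/-- the truncated planar field -/
noncomputable def fld (C : ℝ) (F : ℝ → ℝ → ℝ → ℝ) (z : ℝ) (x : ℝ × ℝ) : ℝ × ℝ :=
  (cl C x.2, F z x.1 x.2)

variable {a b K M : ℝ} {F : ℝ → ℝ → ℝ → ℝ}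

/-- `F` is bounded by `M` and `K`-Lipschitz on `[a,b]`. -/
structure Good (a b K M : ℝ) (F : ℝ → ℝ → ℝ → ℝ) : Prop where
  hab : a < b
  hK : 1 ≤ K
  hM : 0 ≤ M
  lip : ∀ z ∈ Icc a b, ∀ u p u' p', |F z u p - F z u' p'| ≤ K * max |u - u'| |p - p'|
  cont : ∀ u p, ContinuousOn (fun z => F z u p) (Icc a b)
  bd : ∀ z ∈ Icc a b, ∀ u p, |F z u p| ≤ M

lemma fld_lip (h : Good a b K M F) (C : ℝ) {z : ℝ} (hz : z ∈ Icc a b) :
    LipschitzWith (Real.toNNReal K) (fld C F z) := by
  have hK : 0 ≤ K := by linarith [h.hK]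
  refine LipschitzWith.of_dist_le_mul fun x y => ?_
  rw [Real.coe_toNNReal _ hK, Prod.dist_eq, Prod.dist_eq]
  simp only [fld, Real.dist_eq]
  refine max_le ?_ (h.lip z hz _ _ _ _)
  refine (abs_cl_sub_le C _ _).trans ?_
  calc |x.2 - y.2| ≤ max |x.1 - y.1| |x.2 - y.2| := le_max_right _ _
    _ ≤ K * max |x.1 - y.1| |x.2 - y.2| := by
        refine le_mul_of_one_le_left ?_ h.hK
        exact le_max_of_le_left (abs_nonneg _)

lemma exists_ivp (h : Good a b K M F) {C : ℝ} (hC : 0 ≤ C) (x0 : ℝ × ℝ) :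
    ∃ x : ℝ → ℝ × ℝ, x a = x0 ∧
      ∀ z ∈ Icc a b, HasDerivWithinAt x (fld C F z (x z)) (Icc a b) z := by
  have hab := h.hab
  set L : ℝ := max C M with hL
  have hL0 : 0 ≤ L := le_max_of_le_left hC
  let t0 : Icc a b := ⟨a, ⟨le_rfl, hab.le⟩⟩
  have hPL : IsPicardLindelof (fld C F) t0 x0
      (Real.toNNReal (L * (b - a))) 0 (Real.toNNReal L) (Real.toNNReal K) := by
    refine ⟨fun z hz => (fld_lip h C hz).lipschitzOnWith, fun x _ => ?_, fun z hz x _ => ?_, ?_⟩
    · exact (continuousOn_const).prodMk (h.cont _ _)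
    · rw [Real.coe_toNNReal _ hL0, Prod.norm_def]
      refine max_le ?_ ?_
      · simp only [fld, Real.norm_eq_abs]
        exact (abs_cl_le hC _).trans (le_max_left _ _)
      · simp only [fld, Real.norm_eq_abs]
        exact (h.bd z hz _ _).trans (le_max_right _ _)
    · rw [Real.coe_toNNReal _ hL0, Real.coe_toNNReal _ (mul_nonneg hL0 (by linarith))]
      have : max (b - (t0 : ℝ)) ((t0 : ℝ) - a) = b - a := by
        change max (b - a) (a - a) = b - a
        rw [max_eq_left (by linarith)]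
      rw [this]
      simp
  obtain ⟨x, hx0, hx⟩ := hPL.exists_eq_forall_mem_Icc_hasDerivWithinAt₀
  exact ⟨x, hx0, hx⟩

/-- `x` solves the truncated initial value problem. -/
structure Sol (a b C : ℝ) (F : ℝ → ℝ → ℝ → ℝ) (x : ℝ → ℝ × ℝ) : Prop where
  deriv : ∀ z ∈ Icc a b, HasDerivWithinAt x (fld C F z (x z)) (Icc a b) z

lemma Sol.cont {C : ℝ} {x : ℝ → ℝ × ℝ} (hx : Sol a b C F x) : ContinuousOn x (Icc a b) :=
  fun z hz => (hx.deriv z hz).continuousWithinAt

lemma Sol.ici {C : ℝ} {x : ℝ → ℝ × ℝ} (hx : Sol a b C F x) {z : ℝ} (hz : z ∈ Ico a b) :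
    HasDerivWithinAt x (fld C F z (x z)) (Ici z) z :=
  (hx.deriv z ⟨hz.1, hz.2.le⟩).mono_of_mem_nhdsWithin (Icc_mem_nhdsGE_of_mem hz)

lemma Sol.fst {C : ℝ} {x : ℝ → ℝ × ℝ} (hx : Sol a b C F x) {z : ℝ} (hz : z ∈ Icc a b) :
    HasDerivWithinAt (fun z => (x z).1) (cl C (x z).2) (Icc a b) z :=
  (hx.deriv z hz).fst

lemma Sol.snd {C : ℝ} {x : ℝ → ℝ × ℝ} (hx : Sol a b C F x) {z : ℝ} (hz : z ∈ Icc a b) :
    HasDerivWithinAt (fun z => (x z).2) (F z (x z).1 (x z).2) (Icc a b) z :=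
  (hx.deriv z hz).snd

lemma Sol.dist_le {C : ℝ} {x y : ℝ → ℝ × ℝ} (h : Good a b K M F) (hx : Sol a b C F x)
    (hy : Sol a b C F y) {z : ℝ} (hz : z ∈ Icc a b) :
    dist (x z) (y z) ≤ dist (x a) (y a) * Real.exp (K * (z - a)) := by
  have hK : 0 ≤ K := by linarith [h.hK]
  have := dist_le_of_trajectories_ODE_of_mem (v := fld C F) (s := fun _ => univ)
    (K := Real.toNNReal K) (f := x) (g := y) (a := a) (b := b) (δ := dist (x a) (y a))
    (fun t ht => (fld_lip h C ⟨ht.1, ht.2.le⟩).lipschitzOnWith)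
    hx.cont (fun t ht => hx.ici ht) (fun _ _ => mem_univ _)
    hy.cont (fun t ht => hy.ici ht) (fun _ _ => mem_univ _) le_rfl z hz
  rwa [Real.coe_toNNReal _ hK] at this

/-- one-sided mean value bounds -/
lemma sub_le_of_deriv {f f' : ℝ → ℝ} {c : ℝ} (_hab : a ≤ b)
    (hf : ∀ z ∈ Icc a b, HasDerivWithinAt f (f' z) (Icc a b) z)
    (hc : ∀ z ∈ Icc a b, f' z ≤ c) {z : ℝ} (hz : z ∈ Icc a b) : f z - f a ≤ c * (z - a) := by
  have hcont : ContinuousOn f (Icc a z) :=
    fun y hy => ((hf y ⟨hy.1, hy.2.trans hz.2⟩).continuousWithinAt).mono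
      (Icc_subset_Icc_right hz.2)
  have := image_le_of_deriv_right_le_deriv_boundary (f := f) (f' := f') (a := a) (b := z)
    (B := fun y => f a + c * (y - a)) (B' := fun _ => c) hcont
    (fun y hy => (hf y ⟨hy.1, (hy.2.le).trans hz.2⟩).mono_of_mem_nhdsWithin
      (Icc_mem_nhdsGE_of_mem ⟨hy.1, hy.2.trans_le hz.2⟩))
    (by simp) (by fun_prop)
    (fun y _ => by
      have := ((hasDerivAt_id y).sub_const a).const_mul c
      simpa using (this.const_add (f a)).hasDerivWithinAt)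
    (fun y hy => hc y ⟨hy.1, (hy.2.le).trans hz.2⟩)
    (right_mem_Icc.2 hz.1)
  linarith

lemma le_sub_of_deriv {f f' : ℝ → ℝ} {c : ℝ} (hab : a ≤ b)
    (hf : ∀ z ∈ Icc a b, HasDerivWithinAt f (f' z) (Icc a b) z)
    (hc : ∀ z ∈ Icc a b, c ≤ f' z) {z : ℝ} (hz : z ∈ Icc a b) : c * (z - a) ≤ f z - f a := by
  have := sub_le_of_deriv (f := fun z => - f z) (f' := fun z => - f' z) (c := -c) hab
    (fun z hz => (hf z hz).neg) (fun z hz => by linarith [hc z hz]) hz
  linarith

/-- **Dirichlet problem** -/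
theorem exists_dirichlet (h : Good a b K M F) (α β : ℝ) :
    ∃ u u' : ℝ → ℝ, u a = α ∧ u b = β ∧
      (∀ z ∈ Icc a b, HasDerivWithinAt u (u' z) (Icc a b) z) ∧
      (∀ z ∈ Icc a b, HasDerivWithinAt u' (F z (u z) (u' z)) (Icc a b) z) := by
  have hab := h.hab
  have hM := h.hM
  set ℓ : ℝ := b - a with hℓ
  have hℓ0 : 0 < ℓ := by linarith
  set P : ℝ := |β - α| / ℓ + M * ℓ with hP
  have hP0 : 0 ≤ P := by positivity
  set C : ℝ := P + M * ℓ with hC
  have hC0 : 0 ≤ C := by positivity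
  choose x hxa hx using fun p : ℝ => exists_ivp h hC0 (α, p)
  have hS : ∀ p, Sol a b C F (x p) := fun p => ⟨hx p⟩
  -- bound on the second component
  have hsnd : ∀ p, |p| ≤ P → ∀ z ∈ Icc a b, |(x p z).2 - p| ≤ M * ℓ := by
    intro p hp z hz
    have h1 := sub_le_of_deriv (f := fun z => (x p z).2) (c := M) hab.le
      (fun y hy => (hS p).snd hy) (fun y hy => (abs_le.1 (h.bd y hy _ _)).2) hz
    have h2 := le_sub_of_deriv (f := fun z => (x p z).2) (c := -M) hab.le
      (fun y hy => (hS p).snd hy) (fun y hy => (abs_le.1 (h.bd y hy _ _)).1) hz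
    simp only [hxa] at h1 h2
    have h3 : M * (z - a) ≤ M * ℓ := mul_le_mul_of_nonneg_left (by linarith [hz.2]) hM
    rw [abs_le]; constructor <;> nlinarith
  have hcl : ∀ p, |p| ≤ P → ∀ z ∈ Icc a b, cl C (x p z).2 = (x p z).2 := by
    intro p hp z hz
    apply cl_eq
    have := hsnd p hp z hz
    calc |(x p z).2| = |((x p z).2 - p) + p| := by ring_nf
      _ ≤ |(x p z).2 - p| + |p| := abs_add_le _ _
      _ ≤ M * ℓ + P := add_le_add this hp
      _ = C := by rw [hC]; ring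
  -- shooting map
  have hcont : Continuous fun p => (x p b).1 := by
    have hlip : LipschitzWith (Real.toNNReal (Real.exp (K * (b - a)))) fun p => (x p b).1 := by
      refine LipschitzWith.of_dist_le_mul fun p q => ?_
      rw [Real.coe_toNNReal _ (Real.exp_pos _).le]
      have h1 := (hS p).dist_le h (hS q) (right_mem_Icc.2 hab.le)
      rw [hxa, hxa] at h1
      have h2 : dist (α, p) (α, q) = dist p q := by simp [Prod.dist_eq]
      rw [h2, mul_comm] at h1
      refine le_trans ?_ h1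
      rw [Prod.dist_eq]
      exact le_max_left _ _
    exact hlip.continuous
  have hhi : β ≤ (x P b).1 := by
    have h1 := le_sub_of_deriv (f := fun z => (x P z).1) (c := P - M * ℓ) hab.le
      (fun y hy => (hS P).fst hy) (fun y hy => by
        rw [hcl P (by rw [abs_of_nonneg hP0]) y hy]
        have := hsnd P (by rw [abs_of_nonneg hP0]) y hy
        rw [abs_le] at this
        linarith [this.1]) (right_mem_Icc.2 hab.le)
    simp only [hxa] at h1
    have h2 : (P - M * ℓ) * (b - a) = |β - α| := by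
      have h3 : P - M * ℓ = |β - α| / ℓ := by rw [hP]; ring
      rw [h3, ← hℓ, div_mul_cancel₀ _ hℓ0.ne']
    rw [h2] at h1
    linarith [le_abs_self (β - α)]
  have hlo : (x (-P) b).1 ≤ β := by
    have hp : |-P| ≤ P := by rw [abs_neg, abs_of_nonneg hP0]
    have h1 := sub_le_of_deriv (f := fun z => (x (-P) z).1) (c := -(P - M * ℓ)) hab.le
      (fun y hy => (hS (-P)).fst hy) (fun y hy => by
        rw [hcl (-P) hp y hy]
        have := hsnd (-P) hp y hy
        rw [abs_le] at this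
        linarith [this.2]) (right_mem_Icc.2 hab.le)
    simp only [hxa] at h1
    have h2 : -(P - M * ℓ) * (b - a) = -|β - α| := by
      have h3 : P - M * ℓ = |β - α| / ℓ := by rw [hP]; ring
      rw [h3, ← hℓ, neg_mul, div_mul_cancel₀ _ hℓ0.ne']
    rw [h2] at h1
    linarith [neg_abs_le (β - α)]
  obtain ⟨p, hp, hpb⟩ := intermediate_value_Icc (f := fun p => (x p b).1) (a := -P) (b := P)
    (by linarith) hcont.continuousOn ⟨hlo, hhi⟩
  have hpP : |p| ≤ P := abs_le.2 hp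
  refine ⟨fun z => (x p z).1, fun z => (x p z).2, by simp [hxa], hpb, fun z hz => ?_,
    fun z hz => (hS p).snd hz⟩
  have := (hS p).fst hz
  rwa [hcl p hpP z hz] at this

end Crest.Agent.R146.Bvp_39
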