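import Mathlib

/-!
# Row 146, helper445: the slope inequality of NUMREF, algebra

`Gr = -Exx`; perturbation in the coefficients; from 18 vertices to all `δ`, `τ`.
-/

set_option autoImplicit false

namespace Crest.Agent.R146.C1A_445

open Set

/-- `-Exx` for `T = 1 + d e`, `y = c + d t` -/
noncomputable def Gr (c d t e f g q k s J : ℝ) : ℝ :=
  (1 + d * e) * (1 / 2 * (1 + d * e) * (J * e - g - k * f) - t * s + 1 / 2 * J * e)
    - (c + d * t) * (q * f)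

/-- enclosure error -/
noncomputable def pR (d e S : ℝ) : ℝ :=
  1 / 2 * (1 + d * e) * (1 + d * e) * (27 / 32 * S * e + 1 / 4096)
    + (1 + d * e) * (513 / 512 * S + 1 / 2 * (27 / 32 * S) * e) + 1 / 4096

/-- second order term -/
noncomputable def uR (e f g k J : ℝ) : ℝ := 1 / 2 * (J * e - g - k * f) * e * e + 3 / 128

theorem pert {c c' d t e f g q q' k k' s s' J J' S : ℝ}
    (he : 0 ≤ e) (hf : |f| ≤ 1 / 4) (hq : |q - q'| ≤ 1 / 1024) (hk : |k - k'| ≤ 1 / 1024)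
    (hs : |s - s'| ≤ S) (hJ : |J - J'| ≤ 27 / 32 * S) (hc : |c - c'| ≤ 1 / 100000)
    (hq' : |q'| ≤ 21 / 32) (hT : 0 ≤ 1 + d * e) (ht : |t| ≤ 513 / 512) (hn : |c + d * t| ≤ 3 / 4) :
    Gr c' d t e f g q' k' s' J' - pR d e S ≤ Gr c d t e f g q k s J := by
  have hS : 0 ≤ S := (abs_nonneg _).trans hs
  set T := 1 + d * e with hTd
  have e1 : |(J - J') * e| ≤ 27 / 32 * S * e := by
    rw [abs_mul, abs_of_nonneg he]; gcongr
  have e2 : |(k - k') * f| ≤ 1 / 4096 := by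
    rw [abs_mul]
    calc |k - k'| * |f| ≤ 1 / 1024 * (1 / 4) := by gcongr
      _ = 1 / 4096 := by norm_num
  have e3 : |t * (s - s')| ≤ 513 / 512 * S := by
    rw [abs_mul]; gcongr
  have e4 : |(c + d * t) * (q - q') * f| ≤ 3 / 4 * (1 / 1024) * (1 / 4) := by
    rw [abs_mul, abs_mul]; gcongr
  have e5 : |(c - c') * q' * f| ≤ 1 / 100000 * (21 / 32) * (1 / 4) := by
    rw [abs_mul, abs_mul]; gcongr
  have e6 : (1 / 2 * T * T) * ((J - J') * e - (k - k') * f) ≥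
      -((1 / 2 * T * T) * (27 / 32 * S * e + 1 / 4096)) := by
    have h0 : 0 ≤ 1 / 2 * T * T := by positivity
    have : -(27 / 32 * S * e + 1 / 4096) ≤ (J - J') * e - (k - k') * f := by
      have := (abs_le.1 e1).1
      have := (abs_le.1 e2).2
      linarith
    nlinarith
  have e7 : T * (-(t * (s - s')) + 1 / 2 * ((J - J') * e)) ≥
      -(T * (513 / 512 * S + 1 / 2 * (27 / 32 * S) * e)) := by
    have : -(513 / 512 * S + 1 / 2 * (27 / 32 * S) * e) ≤ -(t * (s - s')) + 1 / 2 * ((J - J') * e) := by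
      have := (abs_le.1 e1).1
      have := (abs_le.1 e3).2
      linarith
    nlinarith
  have e8 := (abs_le.1 e4).2
  have e9 := (abs_le.1 e5).2
  have key : Gr c d t e f g q k s J - Gr c' d t e f g q' k' s' J' =
      (1 / 2 * T * T) * ((J - J') * e - (k - k') * f)
      + T * (-(t * (s - s')) + 1 / 2 * ((J - J') * e))
      - (c + d * t) * (q - q') * f - (c - c') * q' * f := by
    unfold Gr; rw [← hTd]; ring
  have hp : pR d e S = (1 / 2 * T * T) * (27 / 32 * S * e + 1 / 4096)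
      + T * (513 / 512 * S + 1 / 2 * (27 / 32 * S) * e) + 1 / 4096 := by
    unfold pR; rw [← hTd]
  rw [hp]
  linarith

/-- a quadratic which is large at the ends of an interval -/
theorem quad {α β γ a b U w δ : ℝ} (hab : a < b) (hγ : γ ≤ U) (hU : 0 ≤ U)
    (ha : w * U ≤ α + β * a + γ * a ^ 2) (hb : w * U ≤ α + β * b + γ * b ^ 2)
    (hw : (b - a) ^ 2 ≤ 4 * w) (h1 : a ≤ δ) (h2 : δ ≤ b) : 0 ≤ α + β * δ + γ * δ ^ 2 := by
  have hD : 0 < b - a := by linarith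
  have key : (b - a) * (α + β * δ + γ * δ ^ 2) =
      (b - δ) * (α + β * a + γ * a ^ 2) + (δ - a) * (α + β * b + γ * b ^ 2)
        - γ * ((δ - a) * (b - δ) * (b - a)) := by ring
  have h3 : 0 ≤ (δ - a) * (b - δ) := mul_nonneg (by linarith) (by linarith)
  have h4 : 4 * ((δ - a) * (b - δ)) ≤ (b - a) ^ 2 := by nlinarith [sq_nonneg ((δ - a) - (b - δ))]
  have h5 : γ * ((δ - a) * (b - δ) * (b - a)) ≤ U * w * (b - a) := by
    have h6 : γ * ((δ - a) * (b - δ) * (b - a)) ≤ U * ((δ - a) * (b - δ) * (b - a)) :=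
      mul_le_mul_of_nonneg_right hγ (by positivity)
    have h7 : (δ - a) * (b - δ) ≤ w := by linarith
    have h8 : U * ((δ - a) * (b - δ) * (b - a)) ≤ U * (w * (b - a)) := by gcongr
    linarith
  have h6 : (b - δ) * (w * U) ≤ (b - δ) * (α + β * a + γ * a ^ 2) :=
    mul_le_mul_of_nonneg_left ha (by linarith)
  have h7 : (δ - a) * (w * U) ≤ (δ - a) * (α + β * b + γ * b ^ 2) :=
    mul_le_mul_of_nonneg_left hb (by linarith)
  have h8 : 0 ≤ (b - a) * (α + β * δ + γ * δ ^ 2) := by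
    rw [key]; nlinarith
  exact nonneg_of_mul_nonneg_right h8 hD

/-- an edge `τ = A - B δ` -/
theorem edge {c e f g q k s J A B a b U w δ σ : ℝ} (hσ : σ = 1 ∨ σ = -1) (hab : a < b)
    (hγ : 1 / 2 * (J * e - g - k * f) * e * e + B * (s * e + q * f) ≤ U) (hU : 0 ≤ U)
    (ha : w * U ≤ Gr c (σ * a) (σ * (A - B * a)) e f g q k s J)
    (hb : w * U ≤ Gr c (σ * b) (σ * (A - B * b)) e f g q k s J)
    (hw : (b - a) ^ 2 ≤ 4 * w) (h1 : a ≤ δ) (h2 : δ ≤ b) :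
    0 ≤ Gr c (σ * δ) (σ * (A - B * δ)) e f g q k s J := by
  have key : ∀ x, Gr c (σ * x) (σ * (A - B * x)) e f g q k s J =
      (1 / 2 * (J * e - g - k * f) + 1 / 2 * J * e - σ * A * s - c * (q * f))
      + (σ * (J * e - g - k * f) * e + σ * (1 / 2 * J * e * e) - A * s * e + σ * B * s - A * (q * f)) * x
      + (1 / 2 * (J * e - g - k * f) * e * e + B * (s * e + q * f)) * x ^ 2 := by
    intro x
    unfold Gr
    rcases hσ with h | h <;> rw [h] <;> ring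
  rw [key] at ha hb ⊢
  exact quad hab hγ hU ha hb hw h1 h2

/-- all vertices at one point -/
structure Vs (c e f g q k s J U Z : ℝ) : Prop where
  U0 : 0 ≤ U
  hU : 1 / 2 * (J * e - g - k * f) * e * e ≤ U
  Z0 : 0 ≤ Z
  hZ : 325 / 135 * (s * e + q * f) ≤ Z
  a0 : 9409 / 2 ^ 22 * U ≤ Gr c 0 (513 / 512) e f g q k s J
  a1 : 9409 / 2 ^ 22 * U ≤ Gr c 0 (-(513 / 512)) e f g q k s J
  p : ∀ σ : ℝ, σ = 1 ∨ σ = -1 →
    9409 / 2 ^ 22 * U ≤ Gr c (σ * (97 / 1024)) (σ * (513 / 512)) e f g q k s J ∧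
    9409 / 2 ^ 22 * U ≤ Gr c (σ * (97 / 1024)) (σ * -(513 / 512)) e f g q k s J ∧
    9409 / 2 ^ 22 * U ≤ Gr c (σ * (97 / 512)) (σ * (513 / 512)) e f g q k s J ∧
    9409 / 2 ^ 22 * U ≤ Gr c (σ * (97 / 512)) (σ * -(513 / 512)) e f g q k s J ∧
    18225 / 2 ^ 22 * (U + Z) ≤ Gr c (σ * (291 / 1024)) (σ * (513 / 512)) e f g q k s J ∧
    18225 / 2 ^ 22 * U ≤ Gr c (σ * (291 / 1024)) (σ * -(513 / 512)) e f g q k s J ∧
    18225 / 2 ^ 22 * (U + Z) ≤ Gr c (σ * (213 / 512)) (σ * (701 / 1024)) e f g q k s J ∧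
    18225 / 2 ^ 22 * U ≤ Gr c (σ * (213 / 512)) (σ * -(513 / 512)) e f g q k s J

theorem Vs.vert0 {c e f g q k s J U Z : ℝ} (h : Vs c e f g q k s J U Z) {σ : ℝ}
    (hσ : σ = 1 ∨ σ = -1) :
    9409 / 2 ^ 22 * U ≤ Gr c (σ * 0) (σ * (513 / 512)) e f g q k s J ∧
    9409 / 2 ^ 22 * U ≤ Gr c (σ * 0) (σ * -(513 / 512)) e f g q k s J := by
  have h0 := h.a0
  have h1 := h.a1
  rcases hσ with h | h
  · subst h; simp only [one_mul]; exact ⟨h0, h1⟩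
  · subst h; simp only [mul_zero, neg_mul, one_mul, neg_neg]; exact ⟨h1, h0⟩

/-- a horizontal edge -/
theorem flat {c e f g q k s J a b U w δ σ τ : ℝ} (hσ : σ = 1 ∨ σ = -1) (hab : a < b)
    (hγ : 1 / 2 * (J * e - g - k * f) * e * e ≤ U) (hU : 0 ≤ U)
    (ha : w * U ≤ Gr c (σ * a) (σ * τ) e f g q k s J)
    (hb : w * U ≤ Gr c (σ * b) (σ * τ) e f g q k s J)
    (hw : (b - a) ^ 2 ≤ 4 * w) (h1 : a ≤ δ) (h2 : δ ≤ b) :
    0 ≤ Gr c (σ * δ) (σ * τ) e f g q k s J := by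
  have := edge (c := c) (A := τ) (B := 0) (U := U) (w := w) hσ hab (by simpa using hγ) hU
    (by simpa using ha) (by simpa using hb) hw h1 h2
  simpa using this

theorem Vs.low {c e f g q k s J U Z : ℝ} (h : Vs c e f g q k s J U Z) {σ : ℝ}
    (hσ : σ = 1 ∨ σ = -1) {δ : ℝ} (h1 : 0 ≤ δ) (h2 : δ ≤ 213 / 512) :
    0 ≤ Gr c (σ * δ) (σ * -(513 / 512)) e f g q k s J := by
  obtain ⟨-, b1, -, b2, -, b3, -, b4⟩ := h.p σ hσ
  have b0 := (h.vert0 hσ).2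
  have hU := h.U0
  have b2' : 9409 / 2 ^ 22 * U ≤ Gr c (σ * (97 / 512)) (σ * -(513 / 512)) e f g q k s J := b2
  have b3' : 9409 / 2 ^ 22 * U ≤ Gr c (σ * (291 / 1024)) (σ * -(513 / 512)) e f g q k s J :=
    le_trans (by gcongr; norm_num) b3
  rcases le_total δ (97 / 1024) with d1 | d1
  · exact flat hσ (by norm_num) h.hU hU b0 b1 (by norm_num) h1 d1
  rcases le_total δ (97 / 512) with d2 | d2
  · exact flat hσ (by norm_num) h.hU hU b1 b2' (by norm_num) d1 d2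
  rcases le_total δ (291 / 1024) with d3 | d3
  · exact flat hσ (by norm_num) h.hU hU b2' b3' (by norm_num) d2 d3
  · exact flat hσ (by norm_num) h.hU hU b3 b4 (by norm_num) d3 h2

theorem Vs.high {c e f g q k s J U Z : ℝ} (h : Vs c e f g q k s J U Z) {σ : ℝ}
    (hσ : σ = 1 ∨ σ = -1) {δ : ℝ} (h1 : 0 ≤ δ) (h2 : δ ≤ 291 / 1024) :
    0 ≤ Gr c (σ * δ) (σ * (513 / 512)) e f g q k s J := by
  obtain ⟨b1, -, b2, -, b3, -, -, -⟩ := h.p σ hσ
  have b0 := (h.vert0 hσ).1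
  have hU := h.U0
  have hZ := h.Z0
  have b3' : 9409 / 2 ^ 22 * U ≤ Gr c (σ * (291 / 1024)) (σ * (513 / 512)) e f g q k s J := by
    refine le_trans ?_ b3
    have : U ≤ U + Z := by linarith
    nlinarith
  rcases le_total δ (97 / 1024) with d1 | d1
  · exact flat hσ (by norm_num) h.hU hU b0 b1 (by norm_num) h1 d1
  rcases le_total δ (97 / 512) with d2 | d2
  · exact flat hσ (by norm_num) h.hU hU b1 b2 (by norm_num) d1 d2
  · exact flat hσ (by norm_num) h.hU hU b2 b3' (by norm_num) d2 h2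

theorem Vs.chord {c e f g q k s J U Z : ℝ} (h : Vs c e f g q k s J U Z) {σ : ℝ}
    (hσ : σ = 1 ∨ σ = -1) {δ : ℝ} (h1 : 291 / 1024 ≤ δ) (h2 : δ ≤ 213 / 512) :
    0 ≤ Gr c (σ * δ) (σ * (513 / 512 + 325 / 135 * (291 / 1024) - 325 / 135 * δ)) e f g q k s J := by
  obtain ⟨-, -, -, -, b3, -, b4, -⟩ := h.p σ hσ
  have e3 : (513 / 512 + 325 / 135 * (291 / 1024) - 325 / 135 * (291 / 1024) : ℝ) = 513 / 512 := by
    norm_num
  have e4 : (513 / 512 + 325 / 135 * (291 / 1024) - 325 / 135 * (213 / 512) : ℝ) = 701 / 1024 := by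
    norm_num
  refine edge (U := U + Z) (w := 18225 / 2 ^ 22) hσ (by norm_num) ?_ (by linarith [h.U0, h.Z0])
    (by rw [e3]; exact b3) (by rw [e4]; exact b4) (by norm_num) h1 h2
  have := h.hU
  have := h.hZ
  linarith

/-- `Gr` is affine in `t` -/
theorem affine {c e f g q k s J d t0 t1 t : ℝ} (h0 : 0 ≤ Gr c d t0 e f g q k s J)
    (h1 : 0 ≤ Gr c d t1 e f g q k s J) (a0 : t0 ≤ t) (a1 : t ≤ t1) :
    0 ≤ Gr c d t e f g q k s J := by
  rcases eq_or_lt_of_le (a0.trans a1) with h | h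
  · have : t = t0 := le_antisymm (by rw [h]; exact a1) a0
    rw [this]; exact h0
  · have key : (t1 - t0) * Gr c d t e f g q k s J =
        (t1 - t) * Gr c d t0 e f g q k s J + (t - t0) * Gr c d t1 e f g q k s J := by
      unfold Gr; ring
    have : 0 ≤ (t1 - t0) * Gr c d t e f g q k s J := by
      rw [key]
      exact add_nonneg (mul_nonneg (by linarith) h0) (mul_nonneg (by linarith) h1)
    exact nonneg_of_mul_nonneg_right this (by linarith)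

theorem affine' {c e f g q k s J d t0 t1 t σ : ℝ} (hσ : σ = 1 ∨ σ = -1)
    (h0 : 0 ≤ Gr c d (σ * t0) e f g q k s J)
    (h1 : 0 ≤ Gr c d (σ * t1) e f g q k s J) (a0 : t0 ≤ t) (a1 : t ≤ t1) :
    0 ≤ Gr c d (σ * t) e f g q k s J := by
  rcases hσ with h | h
  · subst h
    simp only [one_mul] at *
    exact affine h0 h1 a0 a1
  · subst h
    exact affine h1 h0 (by linarith) (by linarith)

/-- **the slope inequality at one point**, all `δ ≤ c`, all `τ` -/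
theorem Vs.all {c e f g q k s J U Z : ℝ} (h : Vs c e f g q k s J U Z) {σ : ℝ}
    (hσ : σ = 1 ∨ σ = -1) (hc0 : 41573 / 100000 ≤ c) {δ τ : ℝ} (h1 : 0 ≤ δ) (h2 : δ ≤ 213 / 512)
    (t0 : -(513 / 512) ≤ τ) (t1 : τ ≤ 513 / 512) (t2 : τ * δ ≤ 7 / 10 - c + 1 / 1000 * δ) :
    0 ≤ Gr c (σ * δ) (σ * τ) e f g q k s J := by
  rcases le_total δ (291 / 1024) with d3 | d3
  · exact affine' hσ (h.low hσ h1 h2) (h.high hσ h1 d3) t0 t1
  · refine affine' hσ (h.low hσ h1 h2) (h.chord hσ d3 h2) t0 ?_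
    have hδ : 0 < δ := by linarith
    have key : τ * δ ≤ (513 / 512 + 325 / 135 * (291 / 1024) - 325 / 135 * δ) * δ := by
      nlinarith [mul_nonneg (sub_nonneg.2 d3) (sub_nonneg.2 h2)]
    exact le_of_mul_le_mul_right key hδ

theorem Vs_U {e f g k k' J J' S U : ℝ} (he : 0 ≤ e) (he1 : e ≤ 6 / 5) (hf : |f| ≤ 1 / 4)
    (hk : |k - k'| ≤ 1 / 1024) (hJ : |J - J'| ≤ 27 / 32 * S) (hS : S ≤ 1 / 100)
    (hU : U = uR e f g k' J') : 1 / 2 * (J * e - g - k * f) * e * e ≤ U := by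
  have e3 : |(k - k') * f| ≤ 1 / 1024 * (1 / 4) := by
    rw [abs_mul]; gcongr
  have e4 := (abs_le.1 e3).1
  have k1 : 1 / 2 * (J * e - g - k * f) * e * e - U =
      1 / 2 * ((J - J') * e - (k - k') * f) * (e * e) - 3 / 128 := by
    rw [hU]; unfold uR; ring
  have k2 : (J - J') * e ≤ 1 / 64 := by
    have := (abs_le.1 hJ).2
    nlinarith
  have k3 : e * e ≤ 36 / 25 := by nlinarith
  have k4 : 0 ≤ e * e := mul_nonneg he he
  nlinarith

theorem Vs_Z {e f q q' s s' S Z : ℝ} (he : 0 ≤ e) (hf : |f| ≤ 1 / 4) (hq : |q - q'| ≤ 1 / 1024)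
    (hs : |s - s'| ≤ S)
    (hZ : 325 / 135 * (s' * e + q' * f + (S * e + 1 / 4096)) ≤ Z) :
    325 / 135 * (s * e + q * f) ≤ Z := by
  have e1 : |(s - s') * e| ≤ S * e := by
    rw [abs_mul, abs_of_nonneg he]; gcongr
  have e2 : |(q - q') * f| ≤ 1 / 1024 * (1 / 4) := by
    rw [abs_mul]; gcongr
  have e1' := (abs_le.1 e1).2
  have e2' := (abs_le.1 e2).2
  linarith

/-- from the vertices of the spline quantities (with the enclosure error `pR`) to the true ones -/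
theorem Vs_of {c c' e f g q q' k k' s s' J J' S U Z : ℝ}
    (he : 0 ≤ e) (he1 : e ≤ 6 / 5) (hf : |f| ≤ 1 / 4) (hq : |q - q'| ≤ 1 / 1024)
    (hk : |k - k'| ≤ 1 / 1024) (hs : |s - s'| ≤ S) (hJ : |J - J'| ≤ 27 / 32 * S)
    (hc : |c - c'| ≤ 1 / 100000) (hq' : |q'| ≤ 21 / 32) (hc0 : 41573 / 100000 ≤ c)
    (hc1 : c ≤ 41574 / 100000) (hS : S ≤ 1 / 100) (hU : U = uR e f g k' J') (hU0 : 0 ≤ U)
    (hZ0 : 0 ≤ Z) (hZ : 325 / 135 * (s' * e + q' * f + (S * e + 1 / 4096)) ≤ Z)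
    (a0 : 9409 / 2 ^ 22 * U ≤ Gr c' 0 (513 / 512) e f g q' k' s' J' - pR 0 e S)
    (a1 : 9409 / 2 ^ 22 * U ≤ Gr c' 0 (-(513 / 512)) e f g q' k' s' J' - pR 0 e S)
    (p : ∀ σ : ℝ, σ = 1 ∨ σ = -1 →
      9409 / 2 ^ 22 * U ≤ Gr c' (σ * (97 / 1024)) (σ * (513 / 512)) e f g q' k' s' J'
        - pR (σ * (97 / 1024)) e S ∧
      9409 / 2 ^ 22 * U ≤ Gr c' (σ * (97 / 1024)) (σ * -(513 / 512)) e f g q' k' s' J'
        - pR (σ * (97 / 1024)) e S ∧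
      9409 / 2 ^ 22 * U ≤ Gr c' (σ * (97 / 512)) (σ * (513 / 512)) e f g q' k' s' J'
        - pR (σ * (97 / 512)) e S ∧
      9409 / 2 ^ 22 * U ≤ Gr c' (σ * (97 / 512)) (σ * -(513 / 512)) e f g q' k' s' J'
        - pR (σ * (97 / 512)) e S ∧
      18225 / 2 ^ 22 * (U + Z) ≤ Gr c' (σ * (291 / 1024)) (σ * (513 / 512)) e f g q' k' s' J'
        - pR (σ * (291 / 1024)) e S ∧
      18225 / 2 ^ 22 * U ≤ Gr c' (σ * (291 / 1024)) (σ * -(513 / 512)) e f g q' k' s' J'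
        - pR (σ * (291 / 1024)) e S ∧
      18225 / 2 ^ 22 * (U + Z) ≤ Gr c' (σ * (213 / 512)) (σ * (701 / 1024)) e f g q' k' s' J'
        - pR (σ * (213 / 512)) e S ∧
      18225 / 2 ^ 22 * U ≤ Gr c' (σ * (213 / 512)) (σ * -(513 / 512)) e f g q' k' s' J'
        - pR (σ * (213 / 512)) e S) : Vs c e f g q k s J U Z := by
  have V : ∀ d t w : ℝ, |d| ≤ 213 / 512 → |t| ≤ 513 / 512 → |c + d * t| ≤ 3 / 4 →
      w ≤ Gr c' d t e f g q' k' s' J' - pR d e S → w ≤ Gr c d t e f g q k s J := by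
    intro d t w hd ht hn h
    have hT : 0 ≤ 1 + d * e := by
      have := (abs_le.1 hd).1
      nlinarith
    exact h.trans (pert (g := g) he hf hq hk hs hJ hc hq' hT ht hn)
  have D : ∀ r : ℝ, -(213 / 512) ≤ r → r ≤ 213 / 512 → |r| ≤ 213 / 512 := fun r h1 h2 => abs_le.2 ⟨h1, h2⟩
  have T : ∀ r : ℝ, -(513 / 512) ≤ r → r ≤ 513 / 512 → |r| ≤ 513 / 512 := fun r h1 h2 => abs_le.2 ⟨h1, h2⟩
  have N : ∀ r : ℝ, -(29 / 100) ≤ r → r ≤ 29 / 100 → |c + r| ≤ 3 / 4 := fun r h1 h2 =>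
    abs_le.2 ⟨by linarith only [h1, h2, hc0, hc1], by linarith only [h1, h2, hc0, hc1]⟩
  have N' : ∀ r : ℝ, -(43 / 100) ≤ r → r ≤ 29 / 100 → |c + r| ≤ 3 / 4 := fun r h1 h2 =>
    abs_le.2 ⟨by linarith only [h1, h2, hc0, hc1], by linarith only [h1, h2, hc0, hc1]⟩
  refine ⟨hU0, Vs_U he he1 hf hk hJ hS hU, hZ0, Vs_Z he hf hq hs hZ, ?_, ?_, ?_⟩
  · exact V _ _ _ (D _ (by norm_num) (by norm_num)) (T _ (by norm_num) (by norm_num))
      (N _ (by norm_num) (by norm_num)) a0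
  · exact V _ _ _ (D _ (by norm_num) (by norm_num)) (T _ (by norm_num) (by norm_num))
      (N _ (by norm_num) (by norm_num)) a1
  · intro σ hσ
    obtain ⟨p1, p2, p3, p4, p5, p6, p7, p8⟩ := p σ hσ
    clear p a0 a1 hZ hU
    rcases hσ with rfl | rfl
    · refine ⟨V _ _ _ (D _ ?_ ?_) (T _ ?_ ?_) (N' _ ?_ ?_) p1, V _ _ _ (D _ ?_ ?_) (T _ ?_ ?_) (N' _ ?_ ?_) p2,
        V _ _ _ (D _ ?_ ?_) (T _ ?_ ?_) (N' _ ?_ ?_) p3, V _ _ _ (D _ ?_ ?_) (T _ ?_ ?_) (N' _ ?_ ?_) p4,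
        V _ _ _ (D _ ?_ ?_) (T _ ?_ ?_) (N' _ ?_ ?_) p5, V _ _ _ (D _ ?_ ?_) (T _ ?_ ?_) (N' _ ?_ ?_) p6,
        V _ _ _ (D _ ?_ ?_) (T _ ?_ ?_) (N' _ ?_ ?_) p7, V _ _ _ (D _ ?_ ?_) (T _ ?_ ?_) (N' _ ?_ ?_) p8⟩ <;>
      norm_num
    · refine ⟨V _ _ _ (D _ ?_ ?_) (T _ ?_ ?_) (N' _ ?_ ?_) p1, V _ _ _ (D _ ?_ ?_) (T _ ?_ ?_) (N' _ ?_ ?_) p2,
        V _ _ _ (D _ ?_ ?_) (T _ ?_ ?_) (N' _ ?_ ?_) p3, V _ _ _ (D _ ?_ ?_) (T _ ?_ ?_) (N' _ ?_ ?_) p4,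
        V _ _ _ (D _ ?_ ?_) (T _ ?_ ?_) (N' _ ?_ ?_) p5, V _ _ _ (D _ ?_ ?_) (T _ ?_ ?_) (N' _ ?_ ?_) p6,
        V _ _ _ (D _ ?_ ?_) (T _ ?_ ?_) (N' _ ?_ ?_) p7, V _ _ _ (D _ ?_ ?_) (T _ ?_ ?_) (N' _ ?_ ?_) p8⟩ <;>
      norm_num

end Crest.Agent.R146.C1A_445
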