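import Crest.Agent.R146.PP2_865

/-!
# Row 146, helper848: tools on top of helper865's engine

* `chkR`, `chkBoxR` : the checks restricted to the pieces meeting `[a/8, b/8]` (all pieces `j = 3`);
* `exts ps gs` : add the functions `gs` (one list of polynomials per piece) to the pieces `ps`;
  `Fn_exts, Fn1_exts, Fn2_exts` : the old functions are unchanged.
-/

set_option autoImplicit false

namespace Crest.Agent.R146.EncR_848

open Crest.Agent.R146.PP865 Function

/-- the piece meets `[a/8, b/8]` -/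
def rng (a b : ℤ) (q : Pc) : Bool := decide (a ≤ q.c + 1) && decide (q.c - 1 ≤ b)

/-- `0 < e` on all pieces meeting `[a/8, b/8]`; all pieces have `j = 3` -/
def chkR (P n : ℕ) (e : Ex) (a b : ℤ) (p : Pc) (ps : List Pc) : Bool :=
  (p :: ps).all fun q => decide (q.j = 3) && (!(rng a b q) || pos n (e.evP (q.env P)).c)

theorem rng_of {a b : ℤ} {q : Pc} (hj : q.j = 3) {z : ℝ} (h1 : q.lo ≤ z) (h2 : z ≤ q.hi)
    (ha : (a : ℝ) / 8 ≤ z) (hb : z ≤ (b : ℝ) / 8) : rng a b q = true := by
  unfold Pc.lo at h1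
  unfold Pc.hi at h2
  rw [hj] at h1 h2
  have e1 : (a : ℝ) ≤ ((q.c + 1 : ℤ) : ℝ) := by
    push_cast
    norm_num at h2
    linarith
  have e2 : ((q.c - 1 : ℤ) : ℝ) ≤ (b : ℝ) := by
    push_cast
    norm_num at h1
    linarith
  have e1' : a ≤ q.c + 1 := by exact_mod_cast e1
  have e2' : q.c - 1 ≤ b := by exact_mod_cast e2
  simp [rng, e1']
  linarith

theorem piece_of {P n : ℕ} {e : Ex} {a b : ℤ} {q : Pc}
    (h : (decide (q.j = 3) && (!(rng a b q) || pos n (e.evP (q.env P)).c)) = true) {z : ℝ}
    (h1 : q.lo ≤ z) (h2 : z ≤ q.hi) (ha : (a : ℝ) / 8 ≤ z) (hb : z ≤ (b : ℝ) / 8) :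
    0 < e.evR (fun i => val (fun k => q.v0 P k) (fun k => q.v1 P k) (fun k => q.v2 P k) i z) := by
  simp only [Bool.and_eq_true, decide_eq_true_eq, Bool.or_eq_true, Bool.not_eq_true'] at h
  have hr := rng_of h.1 h1 h2 ha hb
  rcases h.2 with h3 | h3
  · rw [hr] at h3
    exact absurd h3 (by decide)
  · exact piece_sound h3 h1 h2

theorem chkR_sound {P n : ℕ} {e : Ex} {a b : ℤ} : ∀ {p : Pc} {ps : List Pc},
    chain adj p ps = true → chkR P n e a b p ps = true → ∀ z, p.lo ≤ z → z ≤ hiL p ps →
    (a : ℝ) / 8 ≤ z → z ≤ (b : ℝ) / 8 →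
    0 < e.evR (fun i => val (fun k => Fn P k p ps) (fun k => Fn1 P k p ps)
      (fun k => Fn2 P k p ps) i z)
  | p, [], _, h, z, h1, h2, ha, hb => by
    simp only [chkR, List.all_cons, List.all_nil, Bool.and_true] at h
    exact piece_of h h1 h2 ha hb
  | p, q :: ps, hc, h, z, h1, h2, ha, hb => by
    by_cases hz : z ≤ p.hi
    · have h0 : (decide (p.j = 3) && (!(rng a b p) || pos n (e.evP (p.env P)).c)) = true := by
        unfold chkR at h
        rw [List.all_cons] at h
        exact (Bool.and_eq_true _ _ ▸ h).1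
      have := piece_of h0 h1 hz ha hb
      simpa only [val_sel P p (q :: ps) z hz] using this
    · simp only [chain, Bool.and_eq_true] at hc
      have h' : chkR P n e a b q ps = true := by
        unfold chkR at h ⊢
        rw [List.all_cons] at h
        exact (Bool.and_eq_true _ _ ▸ h).2
      have hq : q.lo ≤ z := by
        rw [← adj_sound hc.1]
        exact (not_le.1 hz).le
      have := chkR_sound hc.2 h' z hq h2 ha hb
      have e2 : ∀ i, val (fun k => Fn P k p (q :: ps)) (fun k => Fn1 P k p (q :: ps))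
          (fun k => Fn2 P k p (q :: ps)) i z
          = val (fun k => Fn P k q ps) (fun k => Fn1 P k q ps) (fun k => Fn2 P k q ps) i z := by
        intro i
        have hs : ∀ g, sel g p (q :: ps) z = sel g q ps z := fun g => by simp [sel, hz]
        unfold val
        split
        · rfl
        · split <;> exact hs _
      simpa only [e2] using this

/-- `checkBox` on the range `[a/8, b/8]` -/
def chkBoxR (P n m : ℕ) (a b : ℤ) (ps : List Prm) (e : Ex) (p : Pc) (pcs : List Pc) : Bool :=
  okdeg ps e && (verts ps e).all fun e' => e'.bnd m && chkR P n e' a b p pcs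

theorem chkBoxR_sound {P n m : ℕ} {a b : ℤ} {ps : List Prm} {e : Ex} {p : Pc} {pcs : List Pc}
    (hc : chain adj p pcs = true) (h : chkBoxR P n m a b ps e p pcs = true) {z : ℝ}
    (h1 : p.lo ≤ z) (h2 : z ≤ hiL p pcs) (ha : (a : ℝ) / 8 ≤ z) (hb' : z ≤ (b : ℝ) / 8)
    {v : ℕ → ℝ} (hv : ∀ i ≤ m, v i = cv P p pcs z i)
    (hb : ∀ q ∈ ps, q.2.1.evR v ≤ v q.1 ∧ v q.1 ≤ q.2.2.evR v) : 0 < e.evR v := by
  simp only [chkBoxR, Bool.and_eq_true, List.all_eq_true] at h
  refine verts_sound h.1 hb fun e' he' => ?_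
  have k := h.2 e' he'
  rw [Ex.evR_congr hv k.1]
  exact chkR_sound hc k.2 z h1 h2 ha hb'

/-! ### adding functions -/

def extP (p : Pc) (g : List Poly) : Pc := ⟨p.c, p.j, p.f ++ g⟩

def exts : List Pc → List (List Poly) → List Pc
  | [], _ => []
  | p :: ps, [] => extP p [] :: exts ps []
  | p :: ps, g :: gs => extP p g :: exts ps gs

/-- all pieces carry at least `n` functions -/
def lens (n : ℕ) (p : Pc) (ps : List Pc) : Bool := (p :: ps).all fun q => decide (n ≤ q.f.length)

theorem getD_ext {p : Pc} {g : List Poly} {k : ℕ} (hk : k < p.f.length) :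
    (extP p g).f.getD k [] = p.f.getD k [] := by
  simp only [extP, List.getD_eq_getElem?_getD]
  rw [List.getElem?_append_left hk]

theorem sel_exts {G : Pc → ℝ → ℝ} {n : ℕ}
    (hG : ∀ (p : Pc) (g : List Poly), n ≤ p.f.length → G (extP p g) = G p) :
    ∀ (p : Pc) (g : List Poly) (ps : List Pc) (gs : List (List Poly)), lens n p ps = true →
      ∀ z, sel G (extP p g) (exts ps gs) z = sel G p ps z
  | p, g, [], gs, h, z => by
    simp only [lens, List.all_cons, List.all_nil, Bool.and_true, decide_eq_true_eq] at h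
    cases gs <;> simp [exts, sel, hG p g h]
  | p, g, q :: ps, gs, h, z => by
    have h0 : n ≤ p.f.length := by
      unfold lens at h
      rw [List.all_cons] at h
      exact of_decide_eq_true (Bool.and_eq_true _ _ ▸ h).1
    have h1 : lens n q ps = true := by
      unfold lens at h ⊢
      rw [List.all_cons] at h
      exact (Bool.and_eq_true _ _ ▸ h).2
    have hhi : (extP p g).hi = p.hi := rfl
    cases gs with
    | nil =>
      simp only [exts, sel, hhi, hG p g h0]
      rw [sel_exts hG q [] ps [] h1 z]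
    | cons g' gs =>
      simp only [exts, sel, hhi, hG p g h0]
      rw [sel_exts hG q g' ps gs h1 z]

theorem Fn_exts {P n k : ℕ} (hk : k < n) {p : Pc} {ps : List Pc} (h : lens n p ps = true)
    (g : List Poly) (gs : List (List Poly)) : Fn P k (extP p g) (exts ps gs) = Fn P k p ps := by
  funext z
  refine sel_exts (n := n) (fun p g hp => ?_) p g ps gs h z
  funext w
  unfold Pc.v0
  rw [getD_ext (lt_of_lt_of_le hk hp)]
  rfl

theorem Fn1_exts {P n k : ℕ} (hk : k < n) {p : Pc} {ps : List Pc} (h : lens n p ps = true)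
    (g : List Poly) (gs : List (List Poly)) : Fn1 P k (extP p g) (exts ps gs) = Fn1 P k p ps := by
  funext z
  refine sel_exts (n := n) (fun p g hp => ?_) p g ps gs h z
  funext w
  unfold Pc.v1
  rw [getD_ext (lt_of_lt_of_le hk hp)]
  rfl

theorem Fn2_exts {P n k : ℕ} (hk : k < n) {p : Pc} {ps : List Pc} (h : lens n p ps = true)
    (g : List Poly) (gs : List (List Poly)) : Fn2 P k (extP p g) (exts ps gs) = Fn2 P k p ps := by
  funext z
  refine sel_exts (n := n) (fun p g hp => ?_) p g ps gs h z
  funext w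
  unfold Pc.v2
  rw [getD_ext (lt_of_lt_of_le hk hp)]
  rfl

end Crest.Agent.R146.EncR_848
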