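import Crest.Agent.R146.MaxPCmp2_371

/-!
Slope barriers with transients in a general clock (row 146, helper371).

Clock factor `s(t) > 0` with `s' = (1 + ω y)/2 s³`, `y = b/s²`:
`ω = 0`: `s = τ^{-1/2}`, `y = ν = τ b`;  `ω = 1`: `s = χ^{-1/2}`, `y = Y = m K0 = χ b`.
Stationary inequality: `(1+ω y)K/2 + K²K''/2 + y (v(1-v)K' - (2-3v)K) ≤ 0` (resp. `≥ 0`) for the values `y` taken.
Transient `e' = κ e s²` (so `e ~ exp(-κ (r₁ - r))` in the clock `dr = s² dt`).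
-/

set_option autoImplicit false

open Set Filter Topology

namespace Crest.Agent.R146.SlopeT_371

open MaxP_371 MaxP2_371 MaxPCmp_371

variable {t0 t1 : ℝ} {b : ℝ → ℝ} {u V P Px Pxx : ℝ → ℝ → ℝ} {M : ℝ}

/-- the stationary expression -/
noncomputable def Stat (ω y v K K1 K2 : ℝ) : ℝ :=
  (1 + ω * y) * K / 2 + K ^ 2 * K2 / 2 + y * (v * (1 - v) * K1 - (2 - 3 * v) * K)

/-- **upper slope barrier with transient**: `V_x ≤ (1+e(t)) s(t) K(V)`. -/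
theorem slope_trans_le (h : BSys t0 t1 b u V P Px Pxx M) {s e : ℝ → ℝ} {ω κ : ℝ}
    (hs : ∀ t ∈ Ico t0 t1,
      HasDerivWithinAt s ((1 + ω * (b t / s t ^ 2)) / 2 * s t ^ 3) (Ici t) t)
    (hsc : ContinuousOn s (Icc t0 t1)) (hs0 : ∀ t ∈ Icc t0 t1, 0 < s t)
    (he : ∀ t ∈ Ico t0 t1, HasDerivWithinAt e (κ * e t * s t ^ 2) (Ici t) t)
    (hec : ContinuousOn e (Icc t0 t1)) (he0 : ∀ t ∈ Icc t0 t1, 0 ≤ e t)
    {K K' K'' : ℝ → ℝ} (hKc : ContinuousOn K (Ioo 0 1)) (hK0 : ∀ v ∈ Ioo (0:ℝ) 1, 0 < K v)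
    (hK : ∀ v ∈ Ioo (0:ℝ) 1, HasDerivAt K (K' v) v)
    (hK' : ∀ v ∈ Ioo (0:ℝ) 1, HasSide K' (K'' v) v) (hκ : 0 ≤ κ)
    (hKK : ∀ v ∈ Ioo (0:ℝ) 1, K v * K'' v ≤ -κ)
    (hineq : ∀ t ∈ Ico t0 t1, ∀ v ∈ Ioo (0:ℝ) 1,
      Stat ω (b t / s t ^ 2) v (K v) (K' v) (K'' v) ≤ 0)
    (hterm : ∀ x, P t1 x ≤ (1 + e t1) * s t1 * K (V t1 x)) :
    ∀ t ∈ Icc t0 t1, ∀ x, P t x ≤ (1 + e t) * s t * K (V t x) := by
  refine h.slope_le (g := fun t => (1 + e t) * s t)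
    (g' := fun t => κ * e t * s t ^ 2 * s t +
      (1 + e t) * ((1 + ω * (b t / s t ^ 2)) / 2 * s t ^ 3))
    (fun t ht => ((he t ht).const_add 1).mul (hs t ht)) ((continuousOn_const.add hec).mul hsc) ?_ hKc
    (fun v hv => (hK0 v hv).le) hK hK' ?_ ?_ hterm
  · intro t ht; have := he0 t ht; have := hs0 t ht; positivity
  · intro v hv
    have h1 := hKK v hv
    have h2 := hK0 v hv
    by_contra hcon
    push Not at hcon
    have := mul_pos h2 hcon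
    linarith
  · intro t ht v hv
    have htI : t ∈ Icc t0 t1 := ⟨ht.1, ht.2.le⟩
    have hst := hs0 t htI
    have het := he0 t htI
    have hb : b t = (b t / s t ^ 2) * s t ^ 2 := by field_simp
    set y := b t / s t ^ 2 with hy
    have hI := hineq t ht v hv
    rw [← hy] at hI
    unfold Stat at hI
    have h1 := hKK v hv
    have h2 := hK0 v hv
    rw [hb]
    have key : κ * e t * s t ^ 2 * s t * K v + (1 + e t) * ((1 + ω * y) / 2 * s t ^ 3) * K v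
        + ((1 + e t) * s t) ^ 3 * (K v ^ 2 * K'' v) / 2
        + y * s t ^ 2 * ((1 + e t) * s t) * (v * (1 - v) * K' v - (2 - 3 * v) * K v)
        = s t ^ 3 * ((1 + e t) * ((1 + ω * y) * K v / 2 + K v ^ 2 * K'' v / 2 +
            y * (v * (1 - v) * K' v - (2 - 3 * v) * K v))
          + e t * K v * (κ + (1 + e t) * (2 + e t) / 2 * (K v * K'' v))) := by ring
    have e1 : (κ * e t * s t ^ 2 * s t + (1 + e t) * ((1 + ω * y) / 2 * s t ^ 3)) * K v =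
        κ * e t * s t ^ 2 * s t * K v + (1 + e t) * ((1 + ω * y) / 2 * s t ^ 3) * K v := by ring
    rw [e1, key]
    have h3 : κ + (1 + e t) * (2 + e t) / 2 * (K v * K'' v) ≤ 0 := by
      have h4 : (1:ℝ) ≤ (1 + e t) * (2 + e t) / 2 := by nlinarith
      have h5 : (1 + e t) * (2 + e t) / 2 * (K v * K'' v) ≤ (1 + e t) * (2 + e t) / 2 * (-κ) :=
        mul_le_mul_of_nonneg_left h1 (by linarith)
      nlinarith
    have h6 : e t * K v * (κ + (1 + e t) * (2 + e t) / 2 * (K v * K'' v)) ≤ 0 :=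
      mul_nonpos_of_nonneg_of_nonpos (mul_nonneg het h2.le) h3
    have h7 : (1 + e t) * ((1 + ω * y) * K v / 2 + K v ^ 2 * K'' v / 2 +
        y * (v * (1 - v) * K' v - (2 - 3 * v) * K v)) ≤ 0 :=
      mul_nonpos_of_nonneg_of_nonpos (by linarith) hI
    exact mul_nonpos_of_nonneg_of_nonpos (by positivity) (by linarith)

/-- **lower slope barrier with transient**: `(1-e(t)) s(t) K(V) ≤ V_x`. -/
theorem le_slope_trans (h : BSys t0 t1 b u V P Px Pxx M) {s e : ℝ → ℝ} {ω κ κ1 e1 G KM : ℝ}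
    (hs : ∀ t ∈ Ico t0 t1,
      HasDerivWithinAt s ((1 + ω * (b t / s t ^ 2)) / 2 * s t ^ 3) (Ici t) t)
    (hsc : ContinuousOn s (Icc t0 t1)) (hs0 : ∀ t ∈ Icc t0 t1, 0 < s t)
    (hsG : ∀ t ∈ Icc t0 t1, s t ≤ G)
    (he : ∀ t ∈ Ico t0 t1, HasDerivWithinAt e (κ * e t * s t ^ 2) (Ici t) t)
    (hec : ContinuousOn e (Icc t0 t1)) (he0 : ∀ t ∈ Icc t0 t1, 0 ≤ e t)
    (hee1 : ∀ t ∈ Icc t0 t1, e t ≤ e1) (he1 : e1 < 1)
    {K K' K'' : ℝ → ℝ} (hKc : ContinuousOn K (Ioo 0 1)) (hK0 : ∀ v ∈ Ioo (0:ℝ) 1, 0 < K v)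
    (hKM : ∀ v ∈ Ioo (0:ℝ) 1, K v ≤ KM)
    (hK : ∀ v ∈ Ioo (0:ℝ) 1, HasDerivAt K (K' v) v)
    (hK' : ∀ v ∈ Ioo (0:ℝ) 1, HasSide K' (K'' v) v) (hκ : 0 ≤ κ)
    (hκ1 : 2 * κ ≤ κ1 * (1 - e1)) (hKK : ∀ v ∈ Ioo (0:ℝ) 1, K v * K'' v ≤ -κ1)
    (hineq : ∀ t ∈ Ico t0 t1, ∀ v ∈ Ioo (0:ℝ) 1,
      0 ≤ Stat ω (b t / s t ^ 2) v (K v) (K' v) (K'' v))
    (hterm : ∀ x, (1 - e t1) * s t1 * K (V t1 x) ≤ P t1 x) :
    ∀ t ∈ Icc t0 t1, ∀ x, (1 - e t) * s t * K (V t x) ≤ P t x := by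
  have hκ10 : 0 ≤ κ1 := by
    by_contra hcon
    push Not at hcon
    have : κ1 * (1 - e1) < 0 := mul_neg_of_neg_of_pos hcon (by linarith)
    linarith
  refine h.le_slope (g := fun t => (1 - e t) * s t) (G := G) (KM := KM)
    (g' := fun t => -(κ * e t * s t ^ 2) * s t +
      (1 - e t) * ((1 + ω * (b t / s t ^ 2)) / 2 * s t ^ 3))
    (fun t ht => ((he t ht).const_sub 1).mul (hs t ht)) ((continuousOn_const.sub hec).mul hsc)
    ?_ ?_ hKc (fun v hv => (hK0 v hv).le) hKM hK hK' ?_ ?_ hterm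
  · intro t ht
    have h1 := hee1 t ht
    exact mul_nonneg (by linarith) (hs0 t ht).le
  · intro t ht
    have h1 := he0 t ht
    have h2 := hs0 t ht
    have h3 := hsG t ht
    nlinarith
  · intro v hv
    have h1 := hKK v hv
    have h2 := hK0 v hv
    by_contra hcon
    push Not at hcon
    have := mul_pos h2 hcon
    linarith
  · intro t ht v hv
    have htI : t ∈ Icc t0 t1 := ⟨ht.1, ht.2.le⟩
    have hst := hs0 t htI
    have het := he0 t htI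
    have het1 := hee1 t htI
    have hb : b t = (b t / s t ^ 2) * s t ^ 2 := by field_simp
    set y := b t / s t ^ 2 with hy
    have hI := hineq t ht v hv
    rw [← hy] at hI
    unfold Stat at hI
    have h1 := hKK v hv
    have h2 := hK0 v hv
    rw [hb]
    have key : (-(κ * e t * s t ^ 2) * s t + (1 - e t) * ((1 + ω * y) / 2 * s t ^ 3)) * K v
        + ((1 - e t) * s t) ^ 3 * (K v ^ 2 * K'' v) / 2
        + y * s t ^ 2 * ((1 - e t) * s t) * (v * (1 - v) * K' v - (2 - 3 * v) * K v)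
        = s t ^ 3 * ((1 - e t) * ((1 + ω * y) * K v / 2 + K v ^ 2 * K'' v / 2 +
            y * (v * (1 - v) * K' v - (2 - 3 * v) * K v))
          + e t * K v * (-κ - (1 - e t) * (2 - e t) / 2 * (K v * K'' v))) := by ring
    rw [key]
    have h3 : 0 ≤ -κ - (1 - e t) * (2 - e t) / 2 * (K v * K'' v) := by
      have h4 : (1 - e1) / 2 ≤ (1 - e t) * (2 - e t) / 2 := by nlinarith
      have h5 : (1 - e t) * (2 - e t) / 2 * (K v * K'' v) ≤ (1 - e t) * (2 - e t) / 2 * (-κ1) :=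
        mul_le_mul_of_nonneg_left h1 (by nlinarith)
      nlinarith
    have h6 : 0 ≤ e t * K v * (-κ - (1 - e t) * (2 - e t) / 2 * (K v * K'' v)) :=
      mul_nonneg (mul_nonneg het h2.le) h3
    have h7 : 0 ≤ (1 - e t) * ((1 + ω * y) * K v / 2 + K v ^ 2 * K'' v / 2 +
        y * (v * (1 - v) * K' v - (2 - 3 * v) * K v)) :=
      mul_nonneg (by linarith) hI
    exact mul_nonneg (by positivity) (by linarith)

end Crest.Agent.R146.SlopeT_371
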