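import Crest.Agent.R146.EncData_848
import Crest.Agent.R146.EncR_848
import Crest.Agent.R146.SlopeT_371

/-!
# Row 146, helper445: the slope shape `b` of NUMREF (data)

ONE shape `b` for the upper and the lower slope barrier, `K± = I (1 ± δ b)`; a `C²` cubic spline on
helper848's grid (pieces `[(c-1)/8,(c+1)/8]`, function number `6` of the extended list), constant
`b = bL = 1.19998` on `x ≤ -6` and `b = bR = .46999` on `x ≥ 7/2`.
Values: x = -6:1.2, -5:1.137, -4:1.013, -3:.867, -2:.669, -1:.430, 0:.269, 1:.354, 2:.432, 3:.469.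
-/

set_option autoImplicit false
set_option linter.style.longLine false

namespace Crest.Agent.R146.C1D_445

open PP865 EncR_848

def g0 : List Poly := [[82462113792, 0, 0, 0]]

def gs1 : List (List Poly) := [
  [[82462113792, 0, 0, 0]],
  [[82462113792, 0, 0, 0]],
  [[82462113792, 0, 0, 0]],
  [[82462113792, 0, 0, 0]],
  [[82462113792, 0, 0, 0]],
  [[82462113792, 0, 0, 0]],
  [[82462113792, 0, 0, 0]],
  [[82443501568, -55836672, -55836672, -18612224]],
  [[81982521344, -433717248, -98697216, 4325376]],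
  [[80759095296, -764018688, -60162048, 8519680]],
  [[79052996608, -919142400, -25755648, 2949120]],
  [[77132922880, -993853440, -15138816, 589824]],
  [[75089641472, -1046544384, -10813440, 851968]],
  [[72959197184, -1082327040, -8454144, -65536]],
  [[70760267776, -1116733440, -8650752, 0]],
  [[68488855552, -1161363456, -18677760, -3342336]],
  [[66074443776, -1246887936, -9437184, 6422528]],
  [[63580798976, -1248067584, -11403264, -7077888]],
  [[60988981248, -1358954496, -34209792, -524288]],
  [[58130497536, -1500708864, -35979264, -65536]],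
  [[54984966144, -1644429312, -35389440, 262144]],
  [[51557040128, -1781661696, -32636928, 655360]],
  [[47869132800, -1902182400, -26542080, 1376256]],
  [[43969282048, -1992818688, -19267584, 1048576]],
  [[39915356160, -2056126464, -11796480, 1441792]],
  [[35767844864, -2084831232, -1966080, 1835008]],
  [[31606112256, -2067333120, 12386304, 2949120]],
  [[27547009024, -1975123968, 37355520, 5373952]],
  [[23792517120, -1751187456, 79626240, 8716288]],
  [[20685389824, -1307049984, 152961024, 15728640]],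
  [[18798739456, -537133056, 216662016, 5505024]]]

def gs2 : List (List Poly) := [
  [[18608029696, 314179584, 168296448, -21626880]],
  [[19747569664, 760872960, 71565312, -10616832]],
  [[21474967552, 932708352, 20840448, -6291456]],
  [[23375970304, 948240384, -9240576, -3735552]],
  [[25207177216, 871170048, -26935296, -2162688]],
  [[26826047488, 742195200, -35192832, -589824]],
  [[28166127616, 597884928, -35192832, 589824]],
  [[29226369024, 465764352, -30081024, 1114112]],
  [[30046420992, 358612992, -23592960, 1048576]],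
  [[30687232000, 305528832, 11403264, 10616832]],
  [[31401705472, 397148160, -6291456, -16515072]],
  [[32055230464, 223346688, -55836672, 0]],
  [[32287883264, 27918336, -27918336, 9306112]],
  [[32297189376, 0, 0, 0]],
  [[32297189376, 0, 0, 0]],
  [[32297189376, 0, 0, 0]],
  [[32297189376, 0, 0, 0]],
  [[32297189376, 0, 0, 0]],
  [[32297189376, 0, 0, 0]],
  [[32297189376, 0, 0, 0]],
  [[32297189376, 0, 0, 0]],
  [[32297189376, 0, 0, 0]],
  [[32297189376, 0, 0, 0]],
  [[32297189376, 0, 0, 0]],
  [[32297189376, 0, 0, 0]],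
  [[32297189376, 0, 0, 0]],
  [[32297189376, 0, 0, 0]],
  [[32297189376, 0, 0, 0]],
  [[32297189376, 0, 0, 0]],
  [[32297189376, 0, 0, 0]],
  [[32297189376, 0, 0, 0]],
  [[32297189376, 0, 0, 0]]]

def gs : List (List Poly) := gs1 ++ gs2

/-- the extended list of pieces: functions `0..5` of helper848 and `6 = b` -/
def P0 : Pc := extP EncData_848.p0 g0
def PS : List Pc := exts EncData_848.ps gs

theorem sm : smooth 7 P0 PS = true := by decide +kernel

theorem adj_PS : chain adj P0 PS = true := by decide +kernel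

theorem len6 : lens 6 EncData_848.p0 EncData_848.ps = true := by decide +kernel

noncomputable def b : ℝ → ℝ := Fn 36 6 P0 PS
noncomputable def b1 : ℝ → ℝ := Fn1 36 6 P0 PS
noncomputable def b2 : ℝ → ℝ := Fn2 36 6 P0 PS

theorem hb (x : ℝ) : HasDerivAt b (b1 x) x := (smooth_sound sm (by norm_num) 36 x).1
theorem hb1 (x : ℝ) : HasDerivAt b1 (b2 x) x := (smooth_sound sm (by norm_num) 36 x).2

/-! ### constants outside -/

/-- all pieces meeting `(-oo, a/8)` have `f6 = [C,0,0,0]` -/
def cstL (a C : ℤ) : Pc → List Pc → Bool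
  | p, [] => decide (p.f.getD 6 [] = [C, 0, 0, 0])
  | p, q :: ps => decide (p.f.getD 6 [] = [C, 0, 0, 0]) && (decide (a ≤ p.c + 1 ∧ p.j = 3) || cstL a C q ps)

/-- all pieces meeting `(a/8, oo)` have `f6 = [C,0,0,0]` -/
def cstR (a C : ℤ) : Pc → List Pc → Bool
  | p, [] => decide (p.f.getD 6 [] = [C, 0, 0, 0])
  | p, q :: ps => (decide (p.c + 1 ≤ a ∧ p.j = 3) || decide (p.f.getD 6 [] = [C, 0, 0, 0])) && cstR a C q ps

theorem sel_cstL {a C : ℤ} {g : Pc → ℝ → ℝ} {D : ℝ}
    (hg : ∀ (p : Pc) z, p.f.getD 6 [] = [C, 0, 0, 0] → g p z = D) :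
    ∀ (p : Pc) (ps : List Pc), cstL a C p ps = true → ∀ z, z ≤ (a : ℝ) / 8 → sel g p ps z = D
  | p, [], h, z, _ => hg p z (by simpa [cstL] using h)
  | p, q :: ps, h, z, hz => by
    simp only [cstL, Bool.and_eq_true, Bool.or_eq_true, decide_eq_true_eq] at h
    by_cases hp : z ≤ p.hi
    · rw [sel_of_le hp]; exact hg p z h.1
    · have e : sel g p (q :: ps) z = sel g q ps z := by simp [sel, hp]
      rw [e]
      rcases h.2 with h2 | h2
      · exfalso
        apply hp
        unfold Pc.hi
        rw [h2.2]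
        have : (a : ℝ) ≤ (p.c : ℝ) + 1 := by exact_mod_cast h2.1
        norm_num
        linarith
      · exact sel_cstL hg q ps h2 z hz

theorem sel_cstR {a C : ℤ} {g : Pc → ℝ → ℝ} {D : ℝ}
    (hg : ∀ (p : Pc) z, p.f.getD 6 [] = [C, 0, 0, 0] → g p z = D) :
    ∀ (p : Pc) (ps : List Pc), cstR a C p ps = true → ∀ z, (a : ℝ) / 8 < z → sel g p ps z = D
  | p, [], h, z, _ => hg p z (by simpa [cstR] using h)
  | p, q :: ps, h, z, hz => by
    simp only [cstR, Bool.and_eq_true, Bool.or_eq_true, decide_eq_true_eq] at h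
    by_cases hp : z ≤ p.hi
    · rw [sel_of_le hp]
      rcases h.1 with h1 | h1
      · exfalso
        unfold Pc.hi at hp
        rw [h1.2] at hp
        have : (p.c : ℝ) + 1 ≤ (a : ℝ) := by exact_mod_cast h1.1
        norm_num at hp
        linarith
      · exact hg p z h1
    · have e : sel g p (q :: ps) z = sel g q ps z := by simp [sel, hp]
      rw [e]
      exact sel_cstR hg q ps h.2 z hz

theorem v0_cst {C : ℤ} (p : Pc) (z : ℝ) (h : p.f.getD 6 [] = [C, 0, 0, 0]) :
    p.v0 36 6 z = (C : ℝ) / 2 ^ 36 := by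
  unfold Pc.v0; rw [h]; simp

theorem v1_cst {C : ℤ} (p : Pc) (z : ℝ) (h : p.f.getD 6 [] = [C, 0, 0, 0]) :
    p.v1 36 6 z = 0 := by
  unfold Pc.v1; rw [h]; simp [pder, pderAux]

theorem v2_cst {C : ℤ} (p : Pc) (z : ℝ) (h : p.f.getD 6 [] = [C, 0, 0, 0]) :
    p.v2 36 6 z = 0 := by
  unfold Pc.v2; rw [h]; simp [pder, pderAux]

theorem cL : cstL (-48) 82462113792 P0 PS = true := by decide +kernel
theorem cR : cstR 28 32297189376 P0 PS = true := by decide +kernel

/-- `b` on the left -/
noncomputable def bL : ℝ := 78642 / 65536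
/-- `b` on the right -/
noncomputable def bR : ℝ := 30801 / 65536

theorem b_left {x : ℝ} (hx : x ≤ -6) : b x = bL := by
  have := sel_cstL (g := Pc.v0 36 6) (fun p z h => v0_cst p z h) P0 PS cL x (by norm_num; linarith)
  refine this.trans ?_
  unfold bL; norm_num
theorem b1_left {x : ℝ} (hx : x ≤ -6) : b1 x = 0 :=
  sel_cstL (g := Pc.v1 36 6) (fun p z h => v1_cst p z h) P0 PS cL x (by norm_num; linarith)
theorem b2_left {x : ℝ} (hx : x ≤ -6) : b2 x = 0 :=
  sel_cstL (g := Pc.v2 36 6) (fun p z h => v2_cst p z h) P0 PS cL x (by norm_num; linarith)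
theorem b_right {x : ℝ} (hx : 7 / 2 < x) : b x = bR := by
  have := sel_cstR (g := Pc.v0 36 6) (fun p z h => v0_cst p z h) P0 PS cR x (by norm_num; linarith)
  refine this.trans ?_
  unfold bR; norm_num
theorem b1_right {x : ℝ} (hx : 7 / 2 < x) : b1 x = 0 :=
  sel_cstR (g := Pc.v1 36 6) (fun p z h => v1_cst p z h) P0 PS cR x (by norm_num; linarith)
theorem b2_right {x : ℝ} (hx : 7 / 2 < x) : b2 x = 0 :=
  sel_cstR (g := Pc.v2 36 6) (fun p z h => v2_cst p z h) P0 PS cR x (by norm_num; linarith)

end Crest.Agent.R146.C1D_445
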