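import Crest.Agent.R146.C1D_445

/-!
# Row 146, helper445: the slope inequality of NUMREF, expressions for the integer checks
-/

set_option autoImplicit false

namespace Crest.Agent.R146.C1E_445

open PP865 EncR_848 C1D_445

/-! ### check on `(a/8, b/8]`, strictly inside -/

/-- the piece meets `(a/8, b/8)` -/
def rngS (a b : ℤ) (q : Pc) : Bool := decide (a < q.c + 1) && decide (q.c - 1 < b)

def pcS (P n : ℕ) (es : List Ex) (a b : ℤ) (q : Pc) : Bool :=
  decide (q.j = 3) && (!(rngS a b q) || es.all fun e => pos n (e.evP (q.env P)).c)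

def chkS (P n : ℕ) (es : List Ex) (a b : ℤ) (p : Pc) (ps : List Pc) : Bool :=
  (p :: ps).all fun q => pcS P n es a b q

theorem rngS_of {a b : ℤ} {q : Pc} (hj : q.j = 3) {z : ℝ} (h1 : q.lo < z) (h2 : z ≤ q.hi)
    (ha : (a : ℝ) / 8 < z) (hb : z ≤ (b : ℝ) / 8) : rngS a b q = true := by
  unfold Pc.lo at h1
  unfold Pc.hi at h2
  rw [hj] at h1 h2
  have e1 : (a : ℝ) < ((q.c + 1 : ℤ) : ℝ) := by
    push_cast
    norm_num at h2
    linarith
  have e2 : ((q.c - 1 : ℤ) : ℝ) < (b : ℝ) := by
    push_cast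
    norm_num at h1
    linarith
  have e1' : a < q.c + 1 := by exact_mod_cast e1
  have e2' : q.c - 1 < b := by exact_mod_cast e2
  simp only [rngS, Bool.and_eq_true, decide_eq_true_eq]
  exact ⟨e1', e2'⟩

theorem pcS_of {P n : ℕ} {es : List Ex} {a b : ℤ} {q : Pc} (h : pcS P n es a b q = true) {z : ℝ}
    (h1 : q.lo < z) (h2 : z ≤ q.hi) (ha : (a : ℝ) / 8 < z) (hb : z ≤ (b : ℝ) / 8) {e : Ex}
    (he : e ∈ es) :
    0 < e.evR (fun i => val (fun k => q.v0 P k) (fun k => q.v1 P k) (fun k => q.v2 P k) i z) := by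
  simp only [pcS, Bool.and_eq_true, decide_eq_true_eq, Bool.or_eq_true, Bool.not_eq_true',
    List.all_eq_true] at h
  have hr := rngS_of h.1 h1 h2 ha hb
  rcases h.2 with h3 | h3
  · rw [hr] at h3
    exact absurd h3 (by decide)
  · exact piece_sound (h3 e he) h1.le h2

theorem chkS_sound {P n : ℕ} {es : List Ex} {a b : ℤ} {e : Ex} (he : e ∈ es) :
    ∀ {p : Pc} {ps : List Pc},
    chain adj p ps = true → chkS P n es a b p ps = true → ∀ z, p.lo < z → z ≤ hiL p ps →
    (a : ℝ) / 8 < z → z ≤ (b : ℝ) / 8 →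
    0 < e.evR (fun i => val (fun k => Fn P k p ps) (fun k => Fn1 P k p ps)
      (fun k => Fn2 P k p ps) i z)
  | p, [], _, h, z, h1, h2, ha, hb => by
    simp only [chkS, List.all_cons, List.all_nil, Bool.and_true] at h
    exact pcS_of h h1 h2 ha hb he
  | p, q :: ps, hc, h, z, h1, h2, ha, hb => by
    by_cases hz : z ≤ p.hi
    · have h0 : pcS P n es a b p = true := by
        unfold chkS at h
        rw [List.all_cons] at h
        exact (Bool.and_eq_true _ _ ▸ h).1
      have := pcS_of h0 h1 hz ha hb he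
      simpa only [val_sel P p (q :: ps) z hz] using this
    · simp only [chain, Bool.and_eq_true] at hc
      have h' : chkS P n es a b q ps = true := by
        unfold chkS at h ⊢
        rw [List.all_cons] at h
        exact (Bool.and_eq_true _ _ ▸ h).2
      have hq : q.lo < z := by
        rw [← adj_sound hc.1]
        exact not_le.1 hz
      have := chkS_sound he hc.2 h' z hq h2 ha hb
      have e2 : ∀ i, val (fun k => Fn P k p (q :: ps)) (fun k => Fn1 P k p (q :: ps))
          (fun k => Fn2 P k p (q :: ps)) i z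
          = val (fun k => Fn P k q ps) (fun k => Fn1 P k q ps) (fun k => Fn2 P k q ps) i z := by
        intro i
        have hs : ∀ g, sel g p (q :: ps) z = sel g q ps z := fun g => by simp [sel, hz]
        unfold val
        split
        · rfl
        · split <;> exact hs _
      simpa only [e2] using this

/-! ### expressions -/

open Ex

def cE : Ex := cst 435930 20
def xE : Ex := var 0
def wE : Ex := var 1
def vE : Ex := var 2
def qE : Ex := var 7
def eE : Ex := var 19
def fE : Ex := var 20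
def gE : Ex := var 21
def kE : Ex := cst 2 0 * cE * qE - (cst 1 0 - cE) * xE - cst 2 0 * cE * wE
def sE : Ex := qE * kE + cst 3 0 * vE - cst 3 1
def jE : Ex := cst 1 0 + cst 2 0 * cE * sE
def bE : Ex := jE * eE - gE - kE * fE

/-- `G` at `(d, t) = (n/1024, m/1024)` -/
def GE (n m : ℤ) : Ex :=
  (cst 1 0 + cst n 10 * eE) * (cst 1 1 * (cst 1 0 + cst n 10 * eE) * bE - cst m 10 * sE
    + cst 1 1 * jE * eE) - (cE + cst n 10 * cst m 10) * (qE * fE)

/-- enclosure error, `S/2048` bounds the error of `s` -/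
def pE (n S : ℤ) : Ex :=
  cst 1 1 * (cst 1 0 + cst n 10 * eE) * (cst 1 0 + cst n 10 * eE) *
      (cst 27 5 * cst S 11 * eE + cst 1 12)
    + (cst 1 0 + cst n 10 * eE) * (cst 1026 10 * cst S 11 + cst 1 1 * (cst 27 5 * cst S 11) * eE)
    + cst 1 12

/-- the second order term in `δ` -/
def uE : Ex := cst 1 1 * bE * eE * eE + cst 3 7

/-- one vertex -/
def CE (S : ℤ) (n m w z : ℤ) : Ex := GE n m - pE n S - cst w 22 * (uE + cst z 10)

/-- all vertices -/
def vts (S z : ℤ) : List Ex :=
  [CE S 0 1026 9409 0, CE S 0 (-1026) 9409 0,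
   CE S 97 1026 9409 0, CE S 97 (-1026) 9409 0, CE S 194 1026 9409 0, CE S 194 (-1026) 9409 0,
   CE S 291 (-1026) 18225 0, CE S 291 1026 18225 z, CE S 426 (-1026) 18225 0, CE S 426 701 18225 z,
   CE S (-97) (-1026) 9409 0, CE S (-97) 1026 9409 0, CE S (-194) (-1026) 9409 0,
   CE S (-194) 1026 9409 0, CE S (-291) 1026 18225 0, CE S (-291) (-1026) 18225 z,
   CE S (-426) 1026 18225 0, CE S (-426) (-701) 18225 z]

/-- side conditions depending on the range -/
def sds (S Z K Q : ℤ) : List Ex :=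
  [cst K 5 - kE, cst K 5 + kE, cst Q 5 - qE, uE,
   cst Z 10 - (sE * eE + qE * fE) - (cst S 11 * eE + cst 1 12)]

/-- common side conditions -/
def com : List Ex :=
  [eE, cst 78643 16 - eE, cst 1 2 - fE, cst 1 2 + fE, qE, cst 21 5 - qE,
   sE + cst 600 10, cst 1 4 - cst 1 10 - qE * fE, cst 154 10 + qE * fE,
   gE + kE * fE + cst 511 10, cst 1 0 - gE - kE * fE, cst 3 2 - sE]

end Crest.Agent.R146.C1E_445
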