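import Crest.Agent.R146.C1E_445

/-! Row 146, helper445: integer check of the slope inequality on `(-48/8, -28/8]` -/

set_option autoImplicit false

namespace Crest.Agent.R146.C1Ka_445

open C1D_445 C1E_445

theorem v : chkS 36 3 (vts 10 0) (-48) (-28) P0 PS = true := by decide +kernel

theorem s : chkS 36 3 (sds 10 0 120 13) (-48) (-28) P0 PS = true := by decide +kernel

theorem c : chkS 36 3 com (-48) (-28) P0 PS = true := by decide +kernel

end Crest.Agent.R146.C1Ka_445
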