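import Crest.Agent.R146.Enc2_848

/-!
# Row 146, helper848: enclosures, part 3: summary for the CLOSED stationary pair

`enc : SPair c W V I k c → Enc c W V I k` : everything in one structure, `N = 2^20`,
`F k` = splines of `EncData_848` (`F 0 = Ŵ`, `F1 0 = V̂`, `F2 0 = Î`, `F 1 = κ̂`, `F1 1 = κ̂'`).
-/

set_option autoImplicit false
set_option linter.unusedSimpArgs false

namespace Crest.Agent.R146.Enc3_848

open Set Filter Topology
open Crest.Agent.R146.PP865 Crest.Agent.R146.EncData_848 Crest.Agent.R146.EncR_848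
open Crest.Agent.R146.Enc0_848 Crest.Agent.R146.Enc1_848 Crest.Agent.R146.Enc2_848
open Crest.Agent.R146.SPair_307

noncomputable section

/-- derivative of `k` (`lam = c`) -/
def kd (c : ℝ) (W V k : ℝ → ℝ) (x : ℝ) : ℝ := k x ^ 2 + 2 * Ad c W x * k x - 2 * Ad1 c V x + 2 * c

structure Enc (c : ℝ) (W V I k : ℝ → ℝ) : Prop where
  c_lo : 435929 / 2 ^ 20 ≤ c
  c_hi : c ≤ 435931 / 2 ^ 20
  W8 : ∀ x, -8 ≤ x → x ≤ 8 → |W x - F 0 x| ≤ 13 / 2 ^ 20
  V8 : ∀ x, -8 ≤ x → x ≤ 8 → |V x - F1 0 x| ≤ 98 / 2 ^ 20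
  A8 : ∀ x, -8 ≤ x → x ≤ 8 → |2 * Ad c W x - ((1 - c) * x + 2 * c * F 0 x)| ≤ 13 / 2 ^ 20
  I8 : ∀ x, -8 ≤ x → x ≤ 8 → |I x - F2 0 x| ≤ (26 + 98 * |2 * Ad c W x|) / 2 ^ 20
  I3 : ∀ x, -3 ≤ x → x ≤ 3 → |I x - F2 0 x| ≤ 460 / 2 ^ 20
  k4 : ∀ x, -4 ≤ x → x ≤ 4 → |k x - F 1 x| ≤ 248 / 2 ^ 20
  k6 : ∀ x, -6 ≤ x → x ≤ 6 → |k x - F 1 x| ≤ 336 / 2 ^ 20
  kd4 : ∀ x, -4 ≤ x → x ≤ 6 → |kd c W V k x - F1 1 x| ≤ 430 / 2 ^ 20
  kd6 : ∀ x, -6 ≤ x → x ≤ 6 → |kd c W V k x - F1 1 x| ≤ 1340 / 2 ^ 20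

theorem ca : chkBoxR 36 4 18 (-8) 64 pc
    (.cst 3 1 * (2 + .var 0) - eU (.cst 1 11)) p0 ps = true := by
  decide +kernel

section main

variable {c : ℝ} {W V I k : ℝ → ℝ}

theorem exp_le {n : ℕ} : Real.exp (-(n : ℝ)) ≤ 1 / 2.7 ^ n := by
  rw [Real.exp_neg, ← one_div]
  apply one_div_le_one_div_of_le (by positivity)
  have h1 : (2.7 : ℝ) < Real.exp 1 := by
    have := Real.exp_one_gt_d9
    linarith
  have h2 : Real.exp n = Real.exp 1 ^ n := by
    rw [← Real.exp_nat_mul]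
    norm_num
  rw [h2]
  gcongr

theorem k_ml (h : SPair c W V I k c) {x : ℝ} (h1 : -6 ≤ x) (h2 : x ≤ -4) :
    |k x - F 1 x| ≤ 336 / 2 ^ 20 := by
  have a1 := left1 h x ⟨by linarith, h2⟩
  have a2 : -x⁻¹ ≤ 1 / 4 := by
    rw [← inv_neg, one_div]
    exact inv_anti₀ (by norm_num) (by linarith)
  have a3 : Real.exp (15 / 64 * (x ^ 2 - 64)) ≤ 1 / 2.7 ^ 6 := by
    refine le_trans ?_ (exp_le (n := 6))
    apply Real.exp_le_exp.2
    push_cast
    nlinarith
  norm_num at a1 a3 ⊢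
  linarith

theorem k_m (h : SPair c W V I k c) {x : ℝ} (h1 : -4 ≤ x) (h2 : x ≤ -1) :
    |k x - F 1 x| ≤ 248 / 2 ^ 20 := by
  have a1 := left2 h x ⟨h1, h2⟩
  have a2 : -x⁻¹ ≤ 1 := by
    rw [← inv_neg]
    exact inv_le_one_of_one_le₀ (by linarith)
  norm_num at a1 ⊢
  linarith

theorem k_mr (h : SPair c W V I k c) {x : ℝ} (h1 : -1 ≤ x) (h2 : x ≤ 4) :
    |k x - F 1 x| ≤ 196 / 2 ^ 20 := by
  have a1 := right2 h x ⟨h1, h2⟩
  have a2 : (2 + x)⁻¹ ≤ 1 := inv_le_one_of_one_le₀ (by linarith)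
  norm_num at a1 ⊢
  linarith

theorem exp_r {x : ℝ} (h1 : 4 ≤ x) (h2 : x ≤ 6) :
    1 / 10 * Real.exp (1 / 2 * (x ^ 2 - 64)) ≤ 1 / 2 ^ 20 * (2 + x)⁻¹ := by
  have a3 : Real.exp (1 / 2 * (x ^ 2 - 64)) ≤ 1 / 2.7 ^ 14 := by
    refine le_trans ?_ (exp_le (n := 14))
    apply Real.exp_le_exp.2
    push_cast
    nlinarith
  have a4 : (1 : ℝ) / 8 ≤ (2 + x)⁻¹ := by
    rw [one_div]
    exact inv_anti₀ (by linarith) (by linarith)
  norm_num at a3 ⊢
  linarith

theorem k_r2 (h : SPair c W V I k c) {x : ℝ} (h1 : 4 ≤ x) (h2 : x ≤ 6) :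
    |k x - F 1 x| ≤ 193 / 2 ^ 20 * (2 + x)⁻¹ := by
  have a1 := right1 h x ⟨h1, by linarith⟩
  have a2 := exp_r h1 h2
  refine a1.trans ?_
  have : (193 : ℝ) / 2 ^ 20 * (2 + x)⁻¹ = 192 / 2 ^ 20 * (2 + x)⁻¹ + 1 / 2 ^ 20 * (2 + x)⁻¹ := by
    ring
  linarith

theorem kd_eq (h : SPair c W V I k c) (x : ℝ) : kd c W V k x - F1 1 x
    = (2 * F 1 x + 2 * Ad c W x + (k x - F 1 x)) * (k x - F 1 x) + s1 c W V x := by
  have h1 := (h.dk x).sub (dF (show 1 < 6 by norm_num) x)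
  have h2 := dd h x
  exact h1.unique h2

/-- lower bound of the coefficient -/
theorem coef_lo (h : SPair c W V I k c) {x : ℝ} (h1 : -8 ≤ x) (h2 : x ≤ 8) :
    (1 - c) * x ≤ 2 * F 1 x + 2 * Ad c W x + (k x - F 1 x) := by
  have a1 := f_bd h1 h2
  have a2 := h.k_pos x
  have a3 := h.W_pos x
  have a4 := mul_pos h.c_pos a3
  rw [Ad_eq]
  nlinarith [a1.1]

theorem kd_right (h : SPair c W V I k c) {x : ℝ} (h1 : -1 ≤ x) (h2 : x ≤ 6)
    (hk : |k x - F 1 x| ≤ 196 / 2 ^ 20 * (2 + x)⁻¹) :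
    |kd c W V k x - F1 1 x| ≤ 430 / 2 ^ 20 := by
  obtain ⟨hc1, hc2⟩ := c_box h
  have hx : 0 < 2 + x := by linarith
  have i1 : (2 + x)⁻¹ ≤ 1 := inv_le_one_of_one_le₀ (by linarith)
  have hk1 : |k x - F 1 x| ≤ 1 / 2 ^ 11 := by
    norm_num at hk ⊢
    linarith
  have k1 := chkc (z := x) (t := 0) ca hc1 hc2 (by linarith) (by linarith)
    (by norm_num; linarith) (by norm_num; linarith)
  simp only [eU, eA, Ex.evR_sub, Ex.evR_add, Ex.evR_mul, Ex.evR_cst, Ex.evR_var, evR_one,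
    evR_two, env0, env1, env2, env3, env4, env5, env19] at k1
  push_cast at k1
  have a1 := (A_bd h (x := x) (by linarith) (by linarith)).2
  have a2 := coef_lo h (x := x) (by linarith) (by linarith)
  have a3 : |2 * F 1 x + 2 * Ad c W x + (k x - F 1 x)| ≤ 3 / 2 * (2 + x) := by
    have b1 := (abs_le.1 hk1).2
    have hc0 := h.c_pos
    have hc1' := h.c_lt
    rw [abs_le]
    constructor
    · have : -(1 : ℝ) ≤ (1 - c) * x := by nlinarith
      linarith
    · norm_num at k1 b1 a1 ⊢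
      linarith
  have a4 := s1_le h (x := x) (by linarith) (by linarith)
  rw [kd_eq h x]
  calc |(2 * F 1 x + 2 * Ad c W x + (k x - F 1 x)) * (k x - F 1 x) + s1 c W V x|
      ≤ |2 * F 1 x + 2 * Ad c W x + (k x - F 1 x)| * |k x - F 1 x| + |s1 c W V x| := by
        rw [← abs_mul]
        exact abs_add_le _ _
    _ ≤ 3 / 2 * (2 + x) * (196 / 2 ^ 20 * (2 + x)⁻¹) + 127 / 2 ^ 20 := by
        refine add_le_add (mul_le_mul a3 hk (abs_nonneg _) (by positivity)) a4
    _ = 3 / 2 * (196 / 2 ^ 20) + 127 / 2 ^ 20 := by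
        field_simp
    _ ≤ _ := by norm_num

theorem kd_left (h : SPair c W V I k c) {x : ℝ} (h1 : -6 ≤ x) (h2 : x ≤ -1) {D : ℝ}
    (hk : |k x - F 1 x| ≤ D) (hD : D ≤ 1 / 2 ^ 11) :
    |kd c W V k x - F1 1 x| ≤ 3 / 5 * (-x) * D + 127 / 2 ^ 20 := by
  obtain ⟨hc1, hc2⟩ := c_box h
  have a1 := (A_bd h (x := x) (by linarith) (by linarith)).2
  have a2 := coef_lo h (x := x) (by linarith) (by linarith)
  have hD0 : 0 ≤ D := (abs_nonneg _).trans hk
  have a3 : |2 * F 1 x + 2 * Ad c W x + (k x - F 1 x)| ≤ 3 / 5 * (-x) := by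
    have b1 := (abs_le.1 hk).2
    have b2 := (f_bd (x := x) (by linarith) (by linarith)).2
    have b3 := mulW_le h (show x ≤ 0 by linarith)
    have b4 := h.W_pos x
    have b5 : W x ≤ 1 / 4 := by nlinarith
    rw [abs_le]
    norm_num at hc1 hc2 b1 b2 hD
    constructor
    · nlinarith
    · rw [Ad_eq]
      have b6 : 2 * c * W x ≤ 2 * c * (1 / 4) := by
        apply mul_le_mul_of_nonneg_left b5
        linarith
      nlinarith
  have a4 := s1_le h (x := x) (by linarith) (by linarith)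
  rw [kd_eq h x]
  calc |(2 * F 1 x + 2 * Ad c W x + (k x - F 1 x)) * (k x - F 1 x) + s1 c W V x|
      ≤ |2 * F 1 x + 2 * Ad c W x + (k x - F 1 x)| * |k x - F 1 x| + |s1 c W V x| := by
        rw [← abs_mul]
        exact abs_add_le _ _
    _ ≤ 3 / 5 * (-x) * D + 127 / 2 ^ 20 := by
        refine add_le_add (mul_le_mul a3 hk (abs_nonneg _) (by linarith)) a4

/-- **the enclosures of the closed stationary pair** -/
theorem enc (h : SPair c W V I k c) : Enc c W V I k := by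
  obtain ⟨hc1, hc2⟩ := c_box h
  have hc1' := hc1
  have hc2' := hc2
  norm_num at hc1' hc2'
  refine ⟨hc1, hc2, fun x h1 h2 => encW h hc1 hc2 x ⟨h1, h2⟩,
    fun x h1 h2 => encV h hc1 hc2 x ⟨h1, h2⟩, fun x h1 h2 => A_ge h hc1 hc2 h1 h2,
    fun x h1 h2 => encI h hc1 hc2 x ⟨h1, h2⟩, ?_, ?_, ?_, ?_, ?_⟩
  · intro x h1 h2
    refine (encI h hc1 hc2 x ⟨by linarith, by linarith⟩).trans ?_
    have a1 : |2 * Ad c W x| ≤ 434 / 100 := by
      rw [Ad_eq, abs_le]
      have b1 := h.W_pos x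
      have b2 : W x ≤ 31 / 10 := by
        have c1 := h.W_strictMono.monotone h2
        have c2 := h.W_le 3
        have c3 : Real.sqrt (3 ^ 2 + 1) ≤ 32 / 10 := by
          rw [show (32 / 10 : ℝ) = Real.sqrt ((32 / 10) ^ 2) by
            rw [Real.sqrt_sq (by norm_num)]]
          apply Real.sqrt_le_sqrt
          norm_num
        linarith
      have b3 : 0 ≤ 2 * c * W x := by
        have := mul_pos h.c_pos b1
        linarith
      have b4 : 2 * c * W x ≤ 2 * c * (31 / 10) := by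
        apply mul_le_mul_of_nonneg_left b2
        linarith
      constructor
      · nlinarith
      · nlinarith
    have : (26 + 98 * |2 * Ad c W x|) / 2 ^ 20 ≤ (26 + 98 * (434 / 100)) / 2 ^ 20 := by gcongr
    refine this.trans ?_
    norm_num
  · intro x h1 h2
    rcases le_total x (-1) with h3 | h3
    · exact k_m h h1 h3
    · exact (k_mr h h3 h2).trans (by norm_num)
  · intro x h1 h2
    rcases le_total x (-4) with h3 | h3
    · exact k_ml h h1 h3
    · rcases le_total x (-1) with h4 | h4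
      · exact (k_m h h3 h4).trans (by norm_num)
      · rcases le_total x 4 with h5 | h5
        · exact (k_mr h h4 h5).trans (by norm_num)
        · refine (k_r2 h h5 h2).trans ?_
          have : (2 + x)⁻¹ ≤ 1 := inv_le_one_of_one_le₀ (by linarith)
          norm_num
          linarith
  · intro x h1 h2
    rcases le_total x (-1) with h4 | h4
    · have a1 := left2 h x ⟨h1, h4⟩
      have a2 : -x⁻¹ ≤ 1 := by
        rw [← inv_neg]
        exact inv_le_one_of_one_le₀ (by linarith)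
      have a3 := kd_left h (by linarith) h4 a1 (by norm_num; linarith)
      refine a3.trans ?_
      have hxn : x ≠ 0 := by linarith
      have : 3 / 5 * (-x) * (248 / 2 ^ 20 * -x⁻¹) = 3 / 5 * (248 / 2 ^ 20) := by
        field_simp
      rw [this]
      norm_num
    · rcases le_total x 4 with h5 | h5
      · exact kd_right h h4 h2 (right2 h x ⟨h4, h5⟩)
      · refine kd_right h h4 h2 ((k_r2 h h5 h2).trans ?_)
        have : 0 < (2 + x)⁻¹ := inv_pos.2 (by linarith)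
        gcongr
        norm_num
  · intro x h1 h2
    rcases le_total x (-4) with h3 | h3
    · have a3 := kd_left h h1 (by linarith) (k_ml h h1 h3) (by norm_num)
      refine a3.trans ?_
      norm_num
      linarith
    · rcases le_total x (-1) with h4 | h4
      · have a1 := left2 h x ⟨h3, h4⟩
        have a2 : -x⁻¹ ≤ 1 := by
          rw [← inv_neg]
          exact inv_le_one_of_one_le₀ (by linarith)
        have a3 := kd_left h (by linarith) h4 a1 (by norm_num; linarith)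
        refine a3.trans ?_
        have hxn : x ≠ 0 := by linarith
        have : 3 / 5 * (-x) * (248 / 2 ^ 20 * -x⁻¹) = 3 / 5 * (248 / 2 ^ 20) := by
          field_simp
        rw [this]
        norm_num
      · refine le_trans ?_ (show (430 : ℝ) / 2 ^ 20 ≤ 1340 / 2 ^ 20 by norm_num)
        rcases le_total x 4 with h5 | h5
        · exact kd_right h h4 h2 (right2 h x ⟨h4, h5⟩)
        · refine kd_right h h4 h2 ((k_r2 h h5 h2).trans ?_)
          have : 0 < (2 + x)⁻¹ := inv_pos.2 (by linarith)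
          gcongr
          norm_num

end main

end

end Crest.Agent.R146.Enc3_848
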