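import Mathlib

/-!
# Row 146: the stationary pair in the clock `χ = D·K₀` (definition and direct consequences)

`ξ = x/√χ`, `W = w/√χ`, `V = W' = 1 - R`, `I = V' = √χ V_x`, `k = -√χ (log p)_x`,
constant `Y ≡ c`.  Equations of PT-SPEC v1 (stationary form):

* `W''/2 + A W' = (1+c)/2 W`, `A = (1+c)ξ/2 + c (W - ξ)`;
* `k' = k² + 2 A k - 2 A' + 2 λ` (first integral of `k''/2 - (k+A)k' - A' k + c I = 0`).

Closure (`∫ q I² = 2 c ∫ q V R²`) is `λ = c`.  Existence for every `0 < c < 1`: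
`Stat7_307.exists_spair`.
-/

namespace Crest.Agent.R146.SPair_307

open Set Filter Topology

/-- the drift `A = (1+c)ξ/2 + c U`, `U = W - ξ` -/
noncomputable def Ad (c : ℝ) (W : ℝ → ℝ) (x : ℝ) : ℝ := (1 + c) / 2 * x + c * (W x - x)

/-- its derivative `A' = (1+c)/2 - c R`, `R = 1 - V` -/
noncomputable def Ad1 (c : ℝ) (V : ℝ → ℝ) (x : ℝ) : ℝ := (1 + c) / 2 - c * (1 - V x)

/-- **Stationary pair** at the constant `c` in the clock `χ = D K₀`. -/
structure SPair (c : ℝ) (W V I k : ℝ → ℝ) (lam : ℝ) : Prop where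
  c_pos : 0 < c
  c_lt : c < 1
  dW : ∀ x, HasDerivAt W (V x) x
  dV : ∀ x, HasDerivAt V (I x) x
  eqI : ∀ x, I x = (1 + c) * W x - 2 * Ad c W x * V x
  W_pos : ∀ x, 0 < W x
  U_pos : ∀ x, x < W x
  W_le : ∀ x, W x ≤ (x + Real.sqrt (x ^ 2 + 1)) / 2
  V_pos : ∀ x, 0 < V x
  V_lt : ∀ x, V x < 1
  I_pos : ∀ x, 0 < I x
  I_le : ∀ x, I x ≤ (1 + c) * W 0
  dk : ∀ x, HasDerivAt k (k x ^ 2 + 2 * Ad c W x * k x - 2 * Ad1 c V x + 2 * lam) x
  k_pos : ∀ x, 0 < k x
  k_bdd : ∃ C, ∀ x, k x ≤ C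
  k_right : ∃ C, ∀ x, 0 < x → k x ≤ C / x
  k_left : ∃ C, ∀ x, x < 0 → k x ≤ C / (-x)
  lam_gt : (1 - c) / 2 < lam
  lam_lt : lam < (1 + c) / 2

namespace SPair

variable {c : ℝ} {W V I k : ℝ → ℝ} {lam : ℝ}

lemma dA (h : SPair c W V I k lam) (x : ℝ) : HasDerivAt (Ad c W) (Ad1 c V x) x := by
  have h1 := ((hasDerivAt_id x).const_mul ((1 + c) / 2)).add
    (((h.dW x).sub (hasDerivAt_id x)).const_mul c)
  refine h1.congr_deriv ?_
  unfold Ad1
  ring

lemma dA1 (h : SPair c W V I k lam) (x : ℝ) : HasDerivAt (Ad1 c V) (c * I x) x := by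
  have h1 := (((hasDerivAt_const x (1 : ℝ)).sub (h.dV x)).const_mul c).const_sub ((1 + c) / 2)
  refine h1.congr_deriv ?_
  ring

/-- `I' = (1+c) V - 2 A' V - 2 A I = -2 A I + 2 c V R`. -/
lemma dI (h : SPair c W V I k lam) (x : ℝ) :
    HasDerivAt I (-2 * Ad c W x * I x + 2 * c * V x * (1 - V x)) x := by
  have h0 : I = fun x => (1 + c) * W x - 2 * Ad c W x * V x := funext h.eqI
  have h1 : HasDerivAt (fun x => (1 + c) * W x - 2 * Ad c W x * V x)
      ((1 + c) * V x - (2 * Ad1 c V x * V x + 2 * Ad c W x * I x)) x :=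
    ((h.dW x).const_mul (1 + c)).sub (((h.dA x).const_mul 2).mul (h.dV x))
  rw [h0]
  refine h1.congr_deriv ?_
  unfold Ad1
  have := h.eqI x
  simp only
  rw [← this]
  ring

/-- `k'' = 2 (k + A) k' + 2 A' k - 2 c I`. -/
lemma dk1 (h : SPair c W V I k lam) (x : ℝ) :
    HasDerivAt (fun x => k x ^ 2 + 2 * Ad c W x * k x - 2 * Ad1 c V x + 2 * lam)
      (2 * (k x + Ad c W x) * (k x ^ 2 + 2 * Ad c W x * k x - 2 * Ad1 c V x + 2 * lam)
        + 2 * Ad1 c V x * k x - 2 * c * I x) x := by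
  have h1 := ((((h.dk x).pow 2).add (((h.dA x).const_mul 2).mul (h.dk x))).sub
    ((h.dA1 x).const_mul 2)).add_const (2 * lam)
  refine h1.congr_deriv ?_
  push_cast
  ring

lemma V_strictMono (h : SPair c W V I k lam) : StrictMono V :=
  strictMono_of_deriv_pos fun x => by rw [(h.dV x).deriv]; exact h.I_pos x

lemma W_strictMono (h : SPair c W V I k lam) : StrictMono W :=
  strictMono_of_deriv_pos fun x => by rw [(h.dW x).deriv]; exact h.V_pos x

lemma cW (h : SPair c W V I k lam) : Continuous W :=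
  continuous_iff_continuousAt.2 fun x => (h.dW x).continuousAt

lemma cV (h : SPair c W V I k lam) : Continuous V :=
  continuous_iff_continuousAt.2 fun x => (h.dV x).continuousAt

lemma cI (h : SPair c W V I k lam) : Continuous I :=
  continuous_iff_continuousAt.2 fun x => (h.dI x).continuousAt

lemma ck (h : SPair c W V I k lam) : Continuous k :=
  continuous_iff_continuousAt.2 fun x => (h.dk x).continuousAt

end SPair

end Crest.Agent.R146.SPair_307
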