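import Crest.Agent.R146.ILin_355
import Crest.Agent.R146.SPair_307

/-!
Row 146 (helper355).  Transfer from the stationary pair `SPair_307.SPair c W V I k lam` (functions of
`x = ξ`) to the level side `v = V`:

* `X V` = inverse of `V` on `(0,1)`, derivative `1/I`;
* `I ∘ X`, `k1 ∘ X`, ... is a `RefI` of `ILog_371` (`k1 = I'/I = -2A + 2 c q`, `q = V R / I`);
* a shape `e` of `x` (`C¹` with one-sided second derivative) gives `e ∘ X`, `(e'/I) ∘ X`,
  `((e'' - k1 e')/I²) ∘ X`, and the test expression `ILin_355.Ex` is literally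
  `(1/2) T² (e'' + k1 e' - J e) + (τ s - (1/2) J e) T + y q e'`, `s = q k1 + 3 V - 3/2`, `J = 1 + 2 c s`.
-/

set_option autoImplicit false

open Set Filter Topology

namespace Crest.Agent.R146.RefX_355

open MaxP_371 MaxP2_371 MaxPCmp_371 SlopeT_371 ILog_371 ILin_355 SPair_307

variable {c : ℝ} {W V I k : ℝ → ℝ} {lam : ℝ}

/-! ### limits and the inverse of `V` -/

lemma sqrt_le_add {x : ℝ} (hx : 0 < x) : Real.sqrt (x ^ 2 + 1) ≤ x + 1 / (2 * x) := by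
  apply Real.sqrt_le_iff.2
  refine ⟨by positivity, ?_⟩
  have : (x + 1 / (2 * x)) ^ 2 = x ^ 2 + 1 + (1 / (2 * x)) ^ 2 := by field_simp; ring
  rw [this]
  have := sq_nonneg (1 / (2 * x))
  linarith

/-- `W x ≤ 1/(4(-x))` for `x < 0` -/
lemma W_le_left (h : SPair c W V I k lam) {x : ℝ} (hx : x < 0) : W x ≤ 1 / (4 * (-x)) := by
  have h1 := h.W_le x
  have h2 := sqrt_le_add (x := -x) (by linarith)
  have h3 : (-x) ^ 2 + 1 = x ^ 2 + 1 := by ring
  rw [h3] at h2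
  have h4 : (x + (-x + 1 / (2 * (-x)))) / 2 = 1 / (4 * (-x)) := by
    have : (-x) ≠ 0 := by linarith
    field_simp
    ring
  linarith

/-- `W x - x ≤ 1/(4x)` for `0 < x` -/
lemma U_le_right (h : SPair c W V I k lam) {x : ℝ} (hx : 0 < x) : W x - x ≤ 1 / (4 * x) := by
  have h1 := h.W_le x
  have h2 := sqrt_le_add hx
  have h4 : (x + (x + 1 / (2 * x))) / 2 - x = 1 / (4 * x) := by
    field_simp
    ring
  linarith

lemma V_le_W_add (h : SPair c W V I k lam) (x : ℝ) : V x ≤ W (x + 1) := by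
  have hlt : x < x + 1 := by linarith
  obtain ⟨y, hy, hy2⟩ := exists_hasDerivAt_eq_slope W V hlt
    h.cW.continuousOn (fun z _ => h.dW z)
  have h1 : V x ≤ V y := (h.V_strictMono.monotone hy.1.le)
  have h2 : W (x + 1) - W x = V y := by rw [hy2]; simp
  have := h.W_pos x
  linarith

lemma R_le_U (h : SPair c W V I k lam) (x : ℝ) : 1 - V (x + 1) ≤ W x - x := by
  have hlt : x < x + 1 := by linarith
  obtain ⟨y, hy, hy2⟩ := exists_hasDerivAt_eq_slope W V hlt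
    h.cW.continuousOn (fun z _ => h.dW z)
  have h1 : V y ≤ V (x + 1) := (h.V_strictMono.monotone hy.2.le)
  have h2 : W (x + 1) - W x = V y := by rw [hy2]; simp
  have := h.U_pos (x + 1)
  linarith

lemma V_tendsto_left (h : SPair c W V I k lam) : Tendsto V atBot (𝓝 0) := by
  have h1 : ∀ᶠ x in atBot, V x ≤ 1 / (4 * (-(x + 1))) := by
    filter_upwards [eventually_lt_atBot (-1 : ℝ)] with x hx
    exact (V_le_W_add h x).trans (W_le_left h (by linarith))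
  have h2 : Tendsto (fun x : ℝ => 1 / (4 * (-(x + 1)))) atBot (𝓝 0) := by
    have h3 : Tendsto (fun x : ℝ => 4 * (-(x + 1))) atBot atTop := by
      refine Tendsto.const_mul_atTop (by norm_num) ?_
      exact tendsto_neg_atBot_atTop.comp (tendsto_atBot_add_const_right _ 1 tendsto_id)
    simpa using (tendsto_inv_atTop_zero.comp h3).congr (fun x => by simp [Function.comp])
  exact tendsto_of_tendsto_of_tendsto_of_le_of_le' tendsto_const_nhds h2
    (Eventually.of_forall fun x => (h.V_pos x).le) h1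

lemma V_tendsto_right (h : SPair c W V I k lam) : Tendsto V atTop (𝓝 1) := by
  have h1 : ∀ᶠ x in atTop, 1 - 1 / (4 * (x - 1)) ≤ V x := by
    filter_upwards [eventually_gt_atTop (1 : ℝ)] with x hx
    have h2 := R_le_U h (x - 1)
    have h3 := U_le_right h (x := x - 1) (by linarith)
    have e : x - 1 + 1 = x := by ring
    rw [e] at h2
    linarith
  have h2 : Tendsto (fun x : ℝ => 1 - 1 / (4 * (x - 1))) atTop (𝓝 1) := by
    have h3 : Tendsto (fun x : ℝ => 4 * (x - 1)) atTop atTop := by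
      refine Tendsto.const_mul_atTop (by norm_num) ?_
      exact tendsto_atTop_add_const_right _ (-1) tendsto_id
    have h4 : Tendsto (fun x : ℝ => 1 / (4 * (x - 1))) atTop (𝓝 0) := by
      simpa using (tendsto_inv_atTop_zero.comp h3).congr (fun x => by simp [Function.comp])
    simpa using h4.const_sub 1
  exact tendsto_of_tendsto_of_tendsto_of_le_of_le' h2 tendsto_const_nhds h1
    (Eventually.of_forall fun x => (h.V_lt x).le)

lemma V_mem (h : SPair c W V I k lam) (x : ℝ) : V x ∈ Ioo (0:ℝ) 1 := ⟨h.V_pos x, h.V_lt x⟩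

lemma V_surj (h : SPair c W V I k lam) {v : ℝ} (hv : v ∈ Ioo (0:ℝ) 1) : ∃ x, V x = v := by
  obtain ⟨a, ha⟩ := ((V_tendsto_left h).eventually (gt_mem_nhds hv.1)).exists
  obtain ⟨b, hb⟩ := ((V_tendsto_right h).eventually (lt_mem_nhds hv.2)).exists
  have hab : a ≤ b := by
    by_contra hcon
    push Not at hcon
    have := h.V_strictMono hcon
    linarith
  obtain ⟨x, -, hx⟩ := intermediate_value_Icc hab h.cV.continuousOn ⟨ha.le, hb.le⟩
  exact ⟨x, hx⟩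

/-- inverse of `V` -/
noncomputable def X (V : ℝ → ℝ) (v : ℝ) : ℝ := Function.invFun V v

lemma V_X (h : SPair c W V I k lam) {v : ℝ} (hv : v ∈ Ioo (0:ℝ) 1) : V (X V v) = v :=
  Function.invFun_eq (V_surj h hv)

lemma X_V (h : SPair c W V I k lam) (x : ℝ) : X V (V x) = x :=
  Function.leftInverse_invFun h.V_strictMono.injective x

lemma X_lt_iff (h : SPair c W V I k lam) {u v : ℝ} (hu : u ∈ Ioo (0:ℝ) 1) (hv : v ∈ Ioo (0:ℝ) 1) :
    X V u < X V v ↔ u < v := by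
  rw [← h.V_strictMono.lt_iff_lt, V_X h hu, V_X h hv]

lemma X_le_iff (h : SPair c W V I k lam) {u v : ℝ} (hu : u ∈ Ioo (0:ℝ) 1) (hv : v ∈ Ioo (0:ℝ) 1) :
    X V u ≤ X V v ↔ u ≤ v := by
  rw [← h.V_strictMono.le_iff_le, V_X h hu, V_X h hv]

lemma Ioo_nhds {v : ℝ} (hv : v ∈ Ioo (0:ℝ) 1) : Ioo (0:ℝ) 1 ∈ 𝓝 v := isOpen_Ioo.mem_nhds hv

lemma X_continuousAt (h : SPair c W V I k lam) {v : ℝ} (hv : v ∈ Ioo (0:ℝ) 1) :
    ContinuousAt (X V) v := by
  unfold ContinuousAt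
  rw [tendsto_order]
  constructor
  · intro a ha
    have h1 : V a < v := by
      have := h.V_strictMono ha
      rwa [V_X h hv] at this
    filter_upwards [lt_mem_nhds h1, Ioo_nhds hv] with y hy hy2
    rw [← h.V_strictMono.lt_iff_lt, V_X h hy2]
    exact hy
  · intro a ha
    have h1 : v < V a := by
      have := h.V_strictMono ha
      rwa [V_X h hv] at this
    filter_upwards [gt_mem_nhds h1, Ioo_nhds hv] with y hy hy2
    rw [← h.V_strictMono.lt_iff_lt, V_X h hy2]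
    exact hy

lemma X_hasDerivAt (h : SPair c W V I k lam) {v : ℝ} (hv : v ∈ Ioo (0:ℝ) 1) :
    HasDerivAt (X V) (I (X V v))⁻¹ v := by
  refine HasDerivAt.of_local_left_inverse (X_continuousAt h hv) (h.dV _) (h.I_pos _).ne' ?_
  filter_upwards [Ioo_nhds hv] with y hy
  exact V_X h hy

/-! ### the coefficient functions -/

/-- `q = V R / I` -/
noncomputable def qx (V I : ℝ → ℝ) (x : ℝ) : ℝ := V x * (1 - V x) / I x

/-- `k1 = I'/I = dI/dv = -2A + 2 c q` -/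
noncomputable def k1x (c : ℝ) (W V I : ℝ → ℝ) (x : ℝ) : ℝ := -2 * Ad c W x + 2 * c * qx V I x

/-- `k1' ` -/
noncomputable def k1x' (c : ℝ) (W V I : ℝ → ℝ) (x : ℝ) : ℝ :=
  -2 * Ad1 c V x + 2 * c * ((1 - 2 * V x) - qx V I x * k1x c W V I x)

/-- `s = q k1 + 3V - 3/2` -/
noncomputable def sx (c : ℝ) (W V I : ℝ → ℝ) (x : ℝ) : ℝ :=
  qx V I x * k1x c W V I x + 3 * V x - 3 / 2

/-- `J = 1 + 2 c s` -/
noncomputable def Jx (c : ℝ) (W V I : ℝ → ℝ) (x : ℝ) : ℝ := 1 + 2 * c * sx c W V I x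

lemma dI' (h : SPair c W V I k lam) (x : ℝ) : HasDerivAt I (k1x c W V I x * I x) x := by
  refine (h.dI x).congr_deriv ?_
  have := (h.I_pos x).ne'
  unfold k1x qx
  field_simp

lemma dq (h : SPair c W V I k lam) (x : ℝ) :
    HasDerivAt (qx V I) ((1 - 2 * V x) - qx V I x * k1x c W V I x) x := by
  have hI := (h.I_pos x).ne'
  have h1 := ((h.dV x).mul ((h.dV x).const_sub 1)).div (dI' h x) hI
  refine h1.congr_deriv ?_
  simp only [Pi.mul_apply]
  unfold qx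
  field_simp
  ring

lemma dk1x (h : SPair c W V I k lam) (x : ℝ) :
    HasDerivAt (k1x c W V I) (k1x' c W V I x) x := by
  have h1 := ((h.dA x).const_mul (-2)).add ((dq h x).const_mul (2 * c))
  refine h1.congr_deriv ?_
  unfold k1x'
  ring

/-! ### the reference on the level side -/

/-- the level functions of the reference -/
noncomputable def Iv (V I : ℝ → ℝ) (v : ℝ) : ℝ := I (X V v)

noncomputable def I1v (c : ℝ) (W V I : ℝ → ℝ) (v : ℝ) : ℝ := k1x c W V I (X V v)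

noncomputable def I2v (c : ℝ) (W V I : ℝ → ℝ) (v : ℝ) : ℝ := k1x' c W V I (X V v) / I (X V v)

lemma comp_X (h : SPair c W V I k lam) {v : ℝ} (hv : v ∈ Ioo (0:ℝ) 1) {f : ℝ → ℝ} {f' : ℝ}
    (hf : HasDerivAt f f' (X V v)) : HasDerivAt (fun v => f (X V v)) (f' / I (X V v)) v := by
  have := hf.comp v (X_hasDerivAt h hv)
  exact this.congr_deriv (by rw [div_eq_mul_inv])

theorem refI (h : SPair c W V I k lam) :
    RefI c (Iv V I) (I1v c W V I) (I2v c W V I) where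
  pos := fun v _ => h.I_pos _
  d1 := fun v hv => by
    refine (comp_X h hv (dI' h _)).congr_deriv ?_
    have := (h.I_pos (X V v)).ne'
    unfold I1v
    field_simp
  d2 := fun v hv => comp_X h hv (dk1x h _)
  eq := fun v hv => by
    have hI := (h.I_pos (X V v)).ne'
    have hV := V_X h hv
    unfold Stat Iv I1v I2v
    have e1 : k1x' c W V I (X V v) = -(1 + c) + 2 * c * (1 - v)
        + 2 * c * ((1 - 2 * v) - qx V I (X V v) * k1x c W V I (X V v)) := by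
      unfold k1x' Ad1
      rw [hV]; ring
    have e2 : qx V I (X V v) * I (X V v) = v * (1 - v) := by
      unfold qx; rw [hV]; field_simp
    rw [e1, ← e2]
    field_simp
    ring

lemma sc_eq (h : SPair c W V I k lam) {v : ℝ} (hv : v ∈ Ioo (0:ℝ) 1) :
    sc (Iv V I) (I1v c W V I) v = sx c W V I (X V v) := by
  have hV := V_X h hv
  unfold sc sx Iv I1v qx
  rw [hV]
  ring

lemma Jc_eq (h : SPair c W V I k lam) {v : ℝ} (hv : v ∈ Ioo (0:ℝ) 1) :
    Jc c (Iv V I) (I1v c W V I) v = Jx c W V I (X V v) := by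
  unfold Jc Jx; rw [sc_eq h hv]

/-! ### shapes -/

lemma hasSide_comp_X (h : SPair c W V I k lam) {v : ℝ} (hv : v ∈ Ioo (0:ℝ) 1) {f : ℝ → ℝ} {f' : ℝ}
    (hf : HasSide f f' (X V v)) : HasSide (fun v => f (X V v)) (f' / I (X V v)) v := by
  have hX := X_hasDerivAt h hv
  rcases hf with hf | hf
  · left
    rw [← hasDerivWithinAt_inter (Ioo_nhds hv)]
    have hm : MapsTo (X V) (Ici v ∩ Ioo 0 1) (Ici (X V v)) := by
      intro y hy
      exact (X_le_iff h hv hy.2).2 hy.1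
    have := HasDerivWithinAt.comp v hf (hX.hasDerivWithinAt (s := Ici v ∩ Ioo 0 1)) hm
    exact this.congr_deriv (by rw [div_eq_mul_inv])
  · right
    rw [← hasDerivWithinAt_inter (Ioo_nhds hv)]
    have hm : MapsTo (X V) (Iic v ∩ Ioo 0 1) (Iic (X V v)) := by
      intro y hy
      exact (X_le_iff h hy.2 hv).2 hy.1
    have := HasDerivWithinAt.comp v hf (hX.hasDerivWithinAt (s := Iic v ∩ Ioo 0 1)) hm
    exact this.congr_deriv (by rw [div_eq_mul_inv])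

/-- level side of a shape `e(x)` -/
noncomputable def ev (V e : ℝ → ℝ) (v : ℝ) : ℝ := e (X V v)

noncomputable def e1v (V I e1 : ℝ → ℝ) (v : ℝ) : ℝ := e1 (X V v) / I (X V v)

noncomputable def e2v (c : ℝ) (W V I e1 e2 : ℝ → ℝ) (v : ℝ) : ℝ :=
  (e2 (X V v) - k1x c W V I (X V v) * e1 (X V v)) / I (X V v) ^ 2

lemma ev_hasDerivAt (h : SPair c W V I k lam) {v : ℝ} (hv : v ∈ Ioo (0:ℝ) 1) {e e1 : ℝ → ℝ}
    (he : ∀ x, HasDerivAt e (e1 x) x) : HasDerivAt (ev V e) (e1v V I e1 v) v :=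
  comp_X h hv (he _)

lemma e1v_hasSide (h : SPair c W V I k lam) {v : ℝ} (hv : v ∈ Ioo (0:ℝ) 1) {e1 e2 : ℝ → ℝ}
    (he1 : ∀ x, HasSide e1 (e2 x) x) : HasSide (e1v V I e1) (e2v c W V I e1 e2 v) v := by
  have hI := (h.I_pos (X V v)).ne'
  have hinv : HasDerivAt (fun v => (I (X V v))⁻¹)
      (-(k1x c W V I (X V v) * I (X V v) / I (X V v)) / I (X V v) ^ 2) v :=
    (comp_X h hv (dI' h _)).inv hI
  have s1 := HasSide.mul_of (hasSide_comp_X h hv (he1 _)) hinv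
  have e3 : e1v V I e1 = fun y => (I (X V y))⁻¹ * e1 (X V y) := by
    funext y; unfold e1v; rw [div_eq_inv_mul]
  rw [e3]
  refine HasSide.congr_deriv s1 ?_
  unfold e2v
  field_simp
  ring

/-- the test expression in the variable `x` -/
noncomputable def Exx (c y τ T : ℝ) (W V I e e1 e2 : ℝ → ℝ) (x : ℝ) : ℝ :=
  1 / 2 * T ^ 2 * (e2 x + k1x c W V I x * e1 x - Jx c W V I x * e x)
    + (τ * sx c W V I x - 1 / 2 * Jx c W V I x * e x) * T + y * qx V I x * e1 x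

lemma Ex_eq (h : SPair c W V I k lam) {v : ℝ} (hv : v ∈ Ioo (0:ℝ) 1) {e e1 e2 : ℝ → ℝ} {y τ T : ℝ} :
    Ex c y τ T (Iv V I) (I1v c W V I) (ev V e) (e1v V I e1) (e2v c W V I e1 e2) v =
      Exx c y τ T W V I e e1 e2 (X V v) := by
  have hI := (h.I_pos (X V v)).ne'
  have hV := V_X h hv
  unfold Ex Exx
  rw [Jc_eq h hv, sc_eq h hv]
  have e1' : y * (v * (1 - v)) * e1v V I e1 v = y * qx V I (X V v) * e1 (X V v) := by
    unfold e1v qx; rw [hV]; field_simp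
  have e2' : Iv V I v ^ 2 * (e2v c W V I e1 e2 v + 2 * (I1v c W V I v / Iv V I v) * e1v V I e1 v) =
      e2 (X V v) + k1x c W V I (X V v) * e1 (X V v) := by
    unfold Iv e2v I1v e1v; field_simp; ring
  rw [e1', e2']
  unfold ev
  ring

/-- shape data in the variable `x` -/
structure XBar (c δ : ℝ) (W V I e e1 e2 : ℝ → ℝ) (yl yu : ℝ) : Prop where
  d1 : ∀ x, HasDerivAt e (e1 x) x
  d2 : ∀ x, HasSide e1 (e2 x) x
  nonneg : ∀ x, 0 ≤ e x
  lt : ∀ x, δ * e x < 1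
  up : ∀ x, ∀ y, (y = yl ∨ y = yu) →
    Exx c y ((y - c) / δ) (1 + δ * e x) W V I e e1 e2 x ≤ 0
  low : ∀ x, ∀ y, (y = yl ∨ y = yu) →
    Exx c y (-((y - c) / δ)) (1 - δ * e x) W V I e e1 e2 x ≤ 0

theorem XBar.lbar (h : SPair c W V I k lam) {δ yl yu : ℝ} {e e1 e2 : ℝ → ℝ}
    (hE : XBar c δ W V I e e1 e2 yl yu) :
    LBar c δ (Iv V I) (I1v c W V I) (ev V e) (e1v V I e1) (e2v c W V I e1 e2) yl yu where
  d1 := fun _ hv => ev_hasDerivAt h hv hE.d1
  d2 := fun _ hv => e1v_hasSide h hv hE.d2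
  nonneg := fun _ _ => hE.nonneg _
  lt := fun _ _ => hE.lt _
  up := fun v hv y hy => by
    rw [Ex_eq h hv]; exact hE.up (X V v) y hy
  low := fun v hv y hy => by
    rw [Ex_eq h hv]; exact hE.low (X V v) y hy

/-! ### the two slope bounds in the variable `x` -/

variable {t0 t1 : ℝ} {b : ℝ → ℝ} {u Vt P Px Pxx : ℝ → ℝ → ℝ} {M : ℝ}

/-- **REF, upper slope bound** : `V_x ≤ (1+ε) s I_c(V) (1 + δ e(X_c(V)))`. -/
theorem xbar_P_le (h : BSys t0 t1 b u Vt P Px Pxx M) {s ε : ℝ → ℝ} {κ δ yl yu : ℝ}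
    {e e1 e2 : ℝ → ℝ}
    (hs : ∀ t ∈ Ico t0 t1,
      HasDerivWithinAt s ((1 + 1 * (b t / s t ^ 2)) / 2 * s t ^ 3) (Ici t) t)
    (hsc : ContinuousOn s (Icc t0 t1)) (hs0 : ∀ t ∈ Icc t0 t1, 0 < s t)
    (hε : ∀ t ∈ Ico t0 t1, HasDerivWithinAt ε (κ * ε t * s t ^ 2) (Ici t) t)
    (hεc : ContinuousOn ε (Icc t0 t1)) (hε0 : ∀ t ∈ Icc t0 t1, 0 ≤ ε t)
    (hS : SPair c W V I k lam) (hδ : 0 < δ) (hE : XBar c δ W V I e e1 e2 yl yu)
    (hy : ∀ t ∈ Ico t0 t1, b t / s t ^ 2 ∈ Icc yl yu) (hc : c ∈ Icc yl yu) (hκ0 : 0 ≤ κ)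
    (hκ : ∀ x, κ ≤ Jx c W V I x + 2 * δ * c * qx V I x * e1 x / (1 + δ * e x))
    (hterm : ∀ x, P t1 x ≤ (1 + ε t1) * s t1 *
      (I (X V (Vt t1 x)) * (1 + δ * e (X V (Vt t1 x))))) :
    ∀ t ∈ Icc t0 t1, ∀ x, P t x ≤ (1 + ε t) * s t *
      (I (X V (Vt t x)) * (1 + δ * e (X V (Vt t x)))) := by
  refine lin_P_le h hs hsc hs0 hε hεc hε0 (refI hS) hδ (hE.lbar hS) hy hc hκ0 ?_ hterm
  intro v hv
  rw [Jc_eq hS hv]
  have h1 := hκ (X V v)
  have hI := (hS.I_pos (X V v)).ne'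
  have hV := V_X hS hv
  have e1' : 2 * δ * c * (v * (1 - v)) * e1v V I e1 v / (1 + δ * ev V e v) =
      2 * δ * c * qx V I (X V v) * e1 (X V v) / (1 + δ * e (X V v)) := by
    unfold e1v qx ev; rw [hV]; field_simp
  rw [e1']
  exact h1

/-- **REF, lower slope bound** : `(1-ε) s I_c(V) (1 - δ e(X_c(V))) ≤ V_x`. -/
theorem xbar_le_P (h : BSys t0 t1 b u Vt P Px Pxx M) {s ε : ℝ → ℝ} {κ κ1 ε1 G δ yl yu : ℝ}
    {e e1 e2 : ℝ → ℝ}
    (hs : ∀ t ∈ Ico t0 t1,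
      HasDerivWithinAt s ((1 + 1 * (b t / s t ^ 2)) / 2 * s t ^ 3) (Ici t) t)
    (hsc : ContinuousOn s (Icc t0 t1)) (hs0 : ∀ t ∈ Icc t0 t1, 0 < s t)
    (hsG : ∀ t ∈ Icc t0 t1, s t ≤ G)
    (hε : ∀ t ∈ Ico t0 t1, HasDerivWithinAt ε (κ * ε t * s t ^ 2) (Ici t) t)
    (hεc : ContinuousOn ε (Icc t0 t1)) (hε0 : ∀ t ∈ Icc t0 t1, 0 ≤ ε t)
    (hεε1 : ∀ t ∈ Icc t0 t1, ε t ≤ ε1) (hε1 : ε1 < 1)
    (hS : SPair c W V I k lam) (hδ : 0 < δ) (hE : XBar c δ W V I e e1 e2 yl yu)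
    (hy : ∀ t ∈ Ico t0 t1, b t / s t ^ 2 ∈ Icc yl yu) (hκ0 : 0 ≤ κ) (hκ1 : 2 * κ ≤ κ1 * (1 - ε1))
    (hκ : ∀ x, κ1 ≤ Jx c W V I x * (1 - δ * e x) ^ 2 +
      δ * (1 - δ * e x) * (e2 x + k1x c W V I x * e1 x))
    (hterm : ∀ x, (1 - ε t1) * s t1 *
      (I (X V (Vt t1 x)) * (1 - δ * e (X V (Vt t1 x)))) ≤ P t1 x) :
    ∀ t ∈ Icc t0 t1, ∀ x, (1 - ε t) * s t *
      (I (X V (Vt t x)) * (1 - δ * e (X V (Vt t x)))) ≤ P t x := by
  refine lin_le_P h hs hsc hs0 hsG hε hεc hε0 hεε1 hε1 (refI hS) hδ (hE.lbar hS) hy hκ0 hκ1 ?_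
    (KM := (1 + c) * W 0) ?_ hterm
  · intro v hv
    have h1 := hκ (X V v)
    have hI := (hS.I_pos (X V v)).ne'
    rw [Jc_eq hS hv]
    have e2' : Iv V I v ^ 2 * (e2v c W V I e1 e2 v + 2 * (I1v c W V I v / Iv V I v) * e1v V I e1 v) =
        e2 (X V v) + k1x c W V I (X V v) * e1 (X V v) := by
      unfold Iv e2v I1v e1v; field_simp; ring
    rw [e2']
    exact h1
  · intro v hv
    have h1 := hS.I_le (X V v)
    have h2 := hS.I_pos (X V v)
    have h3 := hE.nonneg (X V v)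
    show I (X V v) * (1 - δ * e (X V v)) ≤ _
    have h4 : 0 ≤ δ * e (X V v) := by positivity
    nlinarith

end Crest.Agent.R146.RefX_355
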