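import Crest.Agent.R146.TailK_445
import Crest.Agent.R146.RefX_355
import Crest.Agent.R146.Enc3_848
import Crest.Agent.R146.C1E_445

/-!
# Row 146, helper445: `s = q k1 + 3V - 3/2` in the tails `x ≤ -6`, `6 ≤ x` (closed pair)
-/

set_option autoImplicit false

namespace Crest.Agent.R146.C1L_445

open Set Filter Topology
open Crest.Agent.R146.SPair_307 Crest.Agent.R146.RefX_355 Crest.Agent.R146.TailK_445
open Crest.Agent.R146.Stat7_307
open PP865 EncR_848 C1E_445

variable {c : ℝ} {W V I k : ℝ → ℝ} {lam : ℝ}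

/-- second order Mills bound: `(a² + 3 - c + 4 c V) (V - a W) ≥ 2 a W`, `a = -2A > 0` -/
theorem V_ge_aW (h : SPair c W V I k lam) {x : ℝ} (hx : Ad c W x < 0) :
    2 * (-2 * Ad c W x) * W x ≤
      ((-2 * Ad c W x) ^ 2 + (3 - c + 4 * c * V x)) * (V x - (-2 * Ad c W x) * W x) := by
  have hc := h.c_pos
  have hc1 := h.c_lt
  set v0 := V x with hv0
  have hv : 0 < v0 := h.V_pos x
  have hA : ∀ y, y ≤ x → 0 < -2 * Ad c W y := fun y hy => by
    have := (A_mono h).monotone hy
    linarith
  have hA2 : ∀ y, y ≤ x → -2 * Ad c W x ≤ -2 * Ad c W y := fun y hy => by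
    have := (A_mono h).monotone hy
    linarith
  set a0 := -2 * Ad c W x with ha0d
  have ha0 : 0 < a0 := hA x le_rfl
  set K := 3 - c + 4 * c * v0 with hK
  have hK0 : 0 < K := by have := mul_pos hc hv; rw [hK]; linarith
  set κ := 1 + K / a0 ^ 2 with hκ
  have hκ0 : 0 < κ := by positivity
  have hd : ∀ y, y ≤ x → HasDerivAt
      (fun y => κ * (V y + 2 * (Ad c W y * W y)) - 2 * W y / (-2 * Ad c W y))
      (κ * ((2 + 2 * c * V y) * W y) - (2 * V y * (-2 * Ad c W y) - 2 * W y * (-2 * Ad1 c V y)) /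
        (-2 * Ad c W y) ^ 2) y := fun y hy =>
    ((dF h y).const_mul κ).sub
      (((h.dW y).const_mul 2).div ((h.dA y).const_mul (-2)) (hA y hy).ne')
  have hm : MonotoneOn
      (fun y => κ * (V y + 2 * (Ad c W y * W y)) - 2 * W y / (-2 * Ad c W y)) (Iic x) := by
    apply monotoneOn_of_deriv_nonneg (convex_Iic x)
    · exact fun y hy => (hd y hy).continuousAt.continuousWithinAt
    · intro y hy
      rw [interior_Iic] at hy
      exact (hd y (le_of_lt hy)).differentiableAt.differentiableWithinAt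
    · intro y hy
      rw [interior_Iic] at hy
      have hy' : y ≤ x := le_of_lt hy
      rw [(hd y hy').deriv]
      have ha := hA y hy'
      have ha2 := hA2 y hy'
      have h1 := V_le_aW h (x := y) (by linarith)
      have h4 := h.W_pos y
      have h5 : V y ≤ v0 := h.V_strictMono.monotone hy'
      have h6 := h.V_pos y
      set a := -2 * Ad c W y with had
      have h7 : V y * a ≤ a ^ 2 * W y + (2 + 2 * c * V y) * W y := by
        have := mul_le_mul_of_nonneg_right h1 ha.le
        have e : (a * W y + (2 + 2 * c * V y) * W y / a) * a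
            = a ^ 2 * W y + (2 + 2 * c * V y) * W y := by
          field_simp
        rwa [e] at this
      have h8 : a ^ 2 + K ≤ κ * a ^ 2 := by
        have e : κ * a ^ 2 = a ^ 2 + K * (a ^ 2 / a0 ^ 2) := by rw [hκ]; field_simp
        rw [e]
        have : 1 ≤ a ^ 2 / a0 ^ 2 := by
          rw [one_le_div (by positivity)]
          exact pow_le_pow_left₀ ha0.le ha2 2
        nlinarith
      have h9 : 3 - c + 4 * c * V y ≤ K := by
        rw [hK]; nlinarith [mul_le_mul_of_nonneg_left h5 hc.le]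
      have h10 : (2 * V y * a - 2 * W y * (-2 * Ad1 c V y)) ≤ 2 * W y * (κ * a ^ 2) := by
        have e : 2 * V y * a - 2 * W y * (-2 * Ad1 c V y)
            = 2 * (V y * a) + 2 * W y * (1 - c + 2 * c * V y) := by
          unfold Ad1; ring
        rw [e]
        have : W y * (a ^ 2 + (3 - c + 4 * c * V y)) ≤ W y * (κ * a ^ 2) :=
          mul_le_mul_of_nonneg_left (by linarith) h4.le
        linarith
      rw [sub_nonneg, div_le_iff₀ (by positivity)]
      have h11 : 0 ≤ κ * (2 * c * V y * W y) * a ^ 2 := by positivity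
      nlinarith
  have hlim : Tendsto
      (fun y => κ * (V y + 2 * (Ad c W y * W y)) - 2 * W y / (-2 * Ad c W y)) atBot
      (𝓝 (κ * 0 - 0)) := by
    apply Tendsto.sub ((tendsto_F h).const_mul κ)
    have h1 : Tendsto (fun y => 2 / a0 * W y) atBot (𝓝 0) := by
      have := (tendsto_W h).const_mul (2 / a0)
      simpa using this
    refine squeeze_zero_norm' ?_ h1
    filter_upwards [eventually_le_atBot x] with y hy
    have ha := hA y hy
    have h4 := h.W_pos y
    rw [Real.norm_eq_abs, abs_of_pos (by positivity), div_mul_eq_mul_div]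
    exact div_le_div_of_nonneg_left (by positivity) ha0 (hA2 y hy)
  have h1 : κ * 0 - 0 ≤ κ * (V x + 2 * (Ad c W x * W x)) - 2 * W x / (-2 * Ad c W x) := by
    refine le_of_tendsto hlim ?_
    filter_upwards [eventually_le_atBot x] with t ht
    exact hm (mem_Iic.2 ht) (mem_Iic.2 le_rfl) ht
  have e1 : V x + 2 * (Ad c W x * W x) = v0 - a0 * W x := by rw [← hv0, ha0d]; ring
  rw [e1, ← ha0d] at h1
  have h2 : 2 * W x / a0 ≤ κ * (v0 - a0 * W x) := by linarith
  rw [div_le_iff₀ ha0] at h2
  have e2 : κ * a0 ^ 2 = a0 ^ 2 + K := by rw [hκ]; field_simp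
  have h3 := mul_le_mul_of_nonneg_right h2 ha0.le
  have e3 : κ * (v0 - a0 * W x) * a0 * a0 = (a0 ^ 2 + K) * (v0 - a0 * W x) := by
    rw [← e2]; ring
  rw [e3] at h3
  linarith

/-- algebra of the left tail: `q (a + 2cq) ≥ 19/20 + ...` -/
theorem qk_left {a q c R : ℝ} (ha : 35 / 10 ≤ a) (hc : 41573 / 100000 ≤ c) (hc1 : c ≤ 41574 / 100000)
    (hR : 9995 / 10000 ≤ R) (hq : R * (a ^ 2 + 165 / 100) ≤ q * (a * (a ^ 2 + 265 / 100 + c))) :
    9585 / 10000 ≤ q * (a + 2 * c * q) := by
  have ha0 : 0 < a := by linarith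
  set b := a ^ 2 with hb
  have hb0 : 1225 / 100 ≤ b := by rw [hb]; nlinarith
  set u := q * a with hu
  have h1 : R * (b + 165 / 100) ≤ u * (b + 265 / 100 + c) := by
    rw [hu]; linarith
  have h2 : 9995 / 10000 * (b + 165 / 100) ≤ u * (b + 30658 / 10000) := by
    have k1 : 9995 / 10000 * (b + 165 / 100) ≤ R * (b + 165 / 100) := by
      apply mul_le_mul_of_nonneg_right hR; linarith
    have hu0 : 0 ≤ u := by
      by_contra hcon
      push Not at hcon
      have : u * (b + 265 / 100 + c) < 0 := mul_neg_of_neg_of_pos hcon (by linarith)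
      have : 0 ≤ R * (b + 165 / 100) := by
        apply mul_nonneg <;> linarith
      linarith
    have k2 : u * (b + 265 / 100 + c) ≤ u * (b + 30658 / 10000) := by
      apply mul_le_mul_of_nonneg_left _ hu0; linarith
    linarith
  have hD : 0 < b + 30658 / 10000 := by linarith
  have hu1 : 9995 / 10000 * (b + 165 / 100) / (b + 30658 / 10000) ≤ u := by
    rw [div_le_iff₀ hD]; exact h2
  set w := 9995 / 10000 * (b + 165 / 100) / (b + 30658 / 10000) with hw
  have hw0 : 0 ≤ w := by rw [hw]; positivity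
  have key : q * (a + 2 * c * q) = u + 2 * c * u ^ 2 / b := by
    rw [hu, hb]; field_simp
  rw [key]
  have k3 : w + 83146 / 100000 * w ^ 2 / b ≤ u + 2 * c * u ^ 2 / b := by
    have : w ^ 2 ≤ u ^ 2 := pow_le_pow_left₀ hw0 hu1 2
    have : 83146 / 100000 * w ^ 2 / b ≤ 2 * c * u ^ 2 / b := by
      apply div_le_div_of_nonneg_right _ (by linarith)
      have : 0 ≤ w ^ 2 := by positivity
      nlinarith
    linarith
  refine le_trans ?_ k3
  have hb' : 0 < b := by linarith
  have e : w + 83146 / 100000 * w ^ 2 / b - 9585 / 10000 =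
      (9995 / 10000 * (b + 165 / 100) * (b + 30658 / 10000) * b
        + 83146 / 100000 * (9995 / 10000 * (b + 165 / 100)) ^ 2
        - 9585 / 10000 * (b * (b + 30658 / 10000) ^ 2)) / (b * (b + 30658 / 10000) ^ 2) := by
    rw [hw]; field_simp
  have : 0 ≤ w + 83146 / 100000 * w ^ 2 / b - 9585 / 10000 := by
    rw [e]
    apply div_nonneg _ (by positivity)
    nlinarith [mul_nonneg (sub_nonneg.2 hb0) (sub_nonneg.2 hb0),
      mul_nonneg (mul_nonneg (sub_nonneg.2 hb0) (sub_nonneg.2 hb0)) (sub_nonneg.2 hb0)]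
  linarith

/-! ### values at the nodes `-6`, `6` -/

theorem nL : chkS 36 2 [Ex.cst 1 13 - wE, Ex.cst 1 13 - vE] (-50) (-48) C1D_445.P0 C1D_445.PS = true := by
  decide +kernel
theorem nR : chkS 36 2 [vE - Ex.cst 8191 13] 46 48 C1D_445.P0 C1D_445.PS = true := by
  decide +kernel

end Crest.Agent.R146.C1L_445
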