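import Crest.Agent.R146.Enc3_848

/-!
# Row 146, helper848: enclosure of `q = V (1-V) / I` for the closed stationary pair

`encQ : SPair c W V I k c → ∀ x ∈ [-6, 6], |V (1-V)/I - F 2| ≤ 352/2^20` (`F 2` = spline `q̂`).
-/

set_option autoImplicit false
set_option linter.unusedSimpArgs false

namespace Crest.Agent.R146.QEnc_848

open Set Filter Topology
open Crest.Agent.R146.PP865 Crest.Agent.R146.EncData_848 Crest.Agent.R146.EncR_848
open Crest.Agent.R146.Enc0_848 Crest.Agent.R146.Enc1_848 Crest.Agent.R146.Enc2_848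
open Crest.Agent.R146.Enc3_848 Crest.Agent.R146.SPair_307

noncomputable section

theorem evR_four (v : ℕ → ℝ) : (4 : Ex).evR v = 4 := by simpa using Ex.evR_ofNat v 4

/-! ### checks -/

/-- residual of the `q` equation -/
def eq : Ex := .var 8 - 1 + 2 * .var 2 - ((1 - .var 19) * .var 0 + 2 * .var 19 * .var 1) * .var 7
  + 2 * .var 19 * (.var 7 * .var 7)

theorem cq1 : chkBoxR 36 3 18 (-64) 64 pc (.cst 42 20 - eq) p0 ps = true := by decide +kernel
theorem cq2 : chkBoxR 36 3 18 (-64) 64 pc (.cst 42 20 + eq) p0 ps = true := by decide +kernel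

theorem cf1 : chkBoxR 36 3 18 (-64) 64 [] (.var 7) p0 ps = true := by decide +kernel
theorem cf2 : chkBoxR 36 3 18 (-64) 64 [] (.cst 41 6 - .var 7) p0 ps = true := by decide +kernel
theorem cf3 : chkBoxR 36 3 18 (-64) (-64) [] (.cst 215 10 - .var 7) p0 ps = true := by
  decide +kernel
theorem cf5 : chkBoxR 36 3 18 (-64) (-64) [] (.var 7 - .cst 190 10) p0 ps = true := by
  decide +kernel
theorem cf4 : chkBoxR 36 3 18 64 64 [] (.cst 94 10 - .var 7) p0 ps = true := by decide +kernel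

/-- `a* = 2 Â + 13/N - 4 c f + b` -/
def eU' (b : Ex) : Ex := eA + .cst 13 20 - 4 * .var 19 * .var 7 + b
/-- `a_* = 2 Â - 13/N - 4 c f - b` -/
def eL' (b : Ex) : Ex := eA - .cst 13 20 - 4 * .var 19 * .var 7 - b

theorem cl1 : chkBoxR 36 4 18 (-64) (-32) pc
    (.cst 512 0 * (1 - eU' (.cst 181 10) * (2 - .var 0)) - .cst 246 0 * ((2 - .var 0) * (2 - .var 0)))
    p0 ps = true := by
  decide +kernel
theorem cl2 : chkBoxR 36 4 18 (-64) (-32) pc
    (.cst 9 4 * .var 0 - eU' (.cst 181 10)) p0 ps = true := by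
  decide +kernel
theorem cl3 : chkBoxR 36 4 18 (-32) 3 pc
    (.cst 516 0 * (1 - eU' (.cst 1 10) * (2 - .var 0)) - .cst 246 0 * ((2 - .var 0) * (2 - .var 0)))
    p0 ps = true := by
  decide +kernel
theorem cr1 : chkBoxR 36 4 18 32 64 pc
    (.cst 286 0 * (eL' (.cst 88 10) * (.cst 1 1 + .var 0) + 1)
      - .cst 246 0 * ((.cst 1 1 + .var 0) * (.cst 1 1 + .var 0))) p0 ps = true := by
  decide +kernel
theorem cr2 : chkBoxR 36 4 18 32 64 pc
    (eL' (.cst 88 10) - .var 0) p0 ps = true := by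
  decide +kernel
theorem cr3 : chkBoxR 36 4 18 3 32 pc
    (.cst 290 0 * (eL' (.cst 1 10) * (.cst 1 1 + .var 0) + 1)
      - .cst 246 0 * ((.cst 1 1 + .var 0) * (.cst 1 1 + .var 0))) p0 ps = true := by
  decide +kernel

section main

variable {c : ℝ} {W V I k : ℝ → ℝ}

/-- `q = V (1-V) / I` -/
def qf (V I : ℝ → ℝ) (x : ℝ) : ℝ := V x * (1 - V x) / I x

theorem dqf (h : SPair c W V I k c) (x : ℝ) : HasDerivAt (qf V I)
    (1 - 2 * V x + 2 * Ad c W x * qf V I x - 2 * c * qf V I x ^ 2) x := by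
  have hI := (h.I_pos x).ne'
  have h1 := ((h.dV x).mul ((h.dV x).const_sub 1)).div (h.dI x) hI
  refine h1.congr_deriv ?_
  simp only [Pi.mul_apply]
  unfold qf
  field_simp
  ring

theorem qf_pos (h : SPair c W V I k c) (x : ℝ) : 0 < qf V I x := by
  have h1 := h.V_pos x
  have h2 := h.V_lt x
  have h3 := h.I_pos x
  unfold qf
  have : 0 < 1 - V x := by linarith
  positivity

theorem qf_left (h : SPair c W V I k c) {x : ℝ} :
    qf V I x * (-(2 * Ad c W x)) ≤ 1 := by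
  have h1 := h.V_pos x
  have h2 := h.V_lt x
  have h3 := h.I_pos x
  have h4 := h.W_pos x
  have h5 := h.c_pos
  have h6 : -(2 * Ad c W x) * V x ≤ I x := by
    rw [h.eqI x]
    have : 0 < (1 + c) * W x := by positivity
    linarith
  unfold qf
  rw [div_mul_eq_mul_div, div_le_one h3]
  calc V x * (1 - V x) * -(2 * Ad c W x) = (-(2 * Ad c W x) * V x) * (1 - V x) := by ring
    _ ≤ I x * (1 - V x) := by
      apply mul_le_mul_of_nonneg_right h6
      linarith
    _ ≤ I x * 1 := by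
      apply mul_le_mul_of_nonneg_left _ h3.le
      linarith
    _ = I x := mul_one _

theorem qf_right (h : SPair c W V I k c) {x : ℝ} :
    qf V I x * (2 * Ad c W x) ≤ 1 := by
  have h1 := h.V_pos x
  have h2 := h.V_lt x
  have h3 := h.I_pos x
  have h4 := h.U_pos x
  have h5 := h.c_lt
  have h6 : 2 * Ad c W x * (1 - V x) ≤ I x := by
    have e1 : I x = (1 - c) * (W x - x) + 2 * Ad c W x * (1 - V x) := by
      rw [h.eqI x, Ad_eq]
      ring
    rw [e1]
    have : 0 < (1 - c) * (W x - x) := mul_pos (by linarith) (by linarith)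
    linarith
  unfold qf
  rw [div_mul_eq_mul_div, div_le_one h3]
  calc V x * (1 - V x) * (2 * Ad c W x) = (2 * Ad c W x * (1 - V x)) * V x := by ring
    _ ≤ I x * V x := mul_le_mul_of_nonneg_right h6 h1.le
    _ ≤ I x * 1 := mul_le_mul_of_nonneg_left h2.le h3.le
    _ = I x := mul_one _

/-- residual of `q` -/
def rq (c x : ℝ) : ℝ :=
  F1 2 x - 1 + 2 * F1 0 x - ((1 - c) * x + 2 * c * F 0 x) * F 2 x + 2 * c * (F 2 x * F 2 x)

theorem rq_le (hc1 : 435929 / 2 ^ 20 ≤ c) (hc2 : c ≤ 435931 / 2 ^ 20) {x : ℝ} (h1 : -8 ≤ x)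
    (h2 : x ≤ 8) : |rq c x| ≤ 42 / 2 ^ 20 := by
  have k1 := chkc (t := 0) cq1 hc1 hc2 h1 h2 (by norm_num; linarith) (by norm_num; linarith)
  have k2 := chkc (t := 0) cq2 hc1 hc2 h1 h2 (by norm_num; linarith) (by norm_num; linarith)
  simp only [eq, Ex.evR_sub, Ex.evR_add, Ex.evR_mul, Ex.evR_cst, Ex.evR_var, evR_one, evR_two,
    env0, env1, env2, env3, env4, env5, env7, env8, env19] at k1 k2
  push_cast at k1 k2
  unfold rq
  rw [abs_le]
  constructor <;> linarith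

theorem g_bd {x : ℝ} (h1 : -8 ≤ x) (h2 : x ≤ 8) : 0 < F 2 x ∧ F 2 x < 41 / 2 ^ 6 := by
  have k1 := chk (s := 0) (t := 0) cf1 h1 h2 (by norm_num; linarith) (by norm_num; linarith)
    (by simp)
  have k2 := chk (s := 0) (t := 0) cf2 h1 h2 (by norm_num; linarith) (by norm_num; linarith)
    (by simp)
  simp only [Ex.evR_sub, Ex.evR_add, Ex.evR_mul, Ex.evR_cst, Ex.evR_var, env7] at k1 k2
  push_cast at k2
  constructor <;> linarith

/-- source of the difference equation -/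
def s2 (c : ℝ) (W V : ℝ → ℝ) (x : ℝ) : ℝ :=
  -(2 * (V x - F1 0 x)) + 2 * c * (W x - F 0 x) * F 2 x - rq c x

theorem dq (h : SPair c W V I k c) (x : ℝ) : HasDerivAt (fun x => qf V I x - F 2 x)
    ((2 * Ad c W x - 4 * c * F 2 x - 2 * c * (qf V I x - F 2 x)) * (qf V I x - F 2 x)
      + s2 c W V x) x := by
  refine ((dqf h x).sub (dF (by norm_num) x)).congr_deriv ?_
  unfold s2 rq
  rw [Ad_eq]
  ring

theorem s2_le (h : SPair c W V I k c) {x : ℝ} (h1 : -8 ≤ x) (h2 : x ≤ 8) :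
    |s2 c W V x| ≤ 245 / 2 ^ 20 := by
  obtain ⟨hc1, hc2⟩ := c_box h
  have a1 := encW h hc1 hc2 x ⟨h1, h2⟩
  have a2 := encV h hc1 hc2 x ⟨h1, h2⟩
  have a3 := rq_le hc1 hc2 h1 h2
  have a4 := g_bd h1 h2
  have hc0 := h.c_pos
  have b1 : |2 * c * (W x - F 0 x) * F 2 x| ≤ 2 * (435931 / 2 ^ 20) * (13 / 2 ^ 20) * (41 / 2 ^ 6) := by
    rw [abs_mul, abs_mul, abs_of_pos a4.1, abs_of_pos (show 0 < 2 * c by linarith)]
    have a41 := a4.2.le
    have a40 := a4.1.le
    gcongr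
  rw [abs_le] at a2 a3 b1 ⊢
  unfold s2
  norm_num at a2 a3 b1 ⊢
  constructor <;> linarith [a3.1, a3.2, b1.1, b1.2, a2.1, a2.2]

theorem fw_touch' {a0 t B B' s S aS : ℝ} (hB : 0 ≤ B) (hs : |s| ≤ S) (ht : 0 ≤ t)
    (ha : a0 + t * B ≤ aS) (h : aS * B + S < B') :
    (a0 - t * B) * B + s < B' ∧ -B' < (a0 - t * -B) * -B + s := by
  have h1 := abs_le.1 hs
  have h0 := mul_nonneg ht hB
  have h2 : (a0 - t * B) * B ≤ aS * B := mul_le_mul_of_nonneg_right (by linarith) hB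
  have h3 : (a0 + t * B) * B ≤ aS * B := mul_le_mul_of_nonneg_right ha hB
  constructor
  · linarith [h1.2]
  · have : (a0 - t * -B) * -B = -((a0 + t * B) * B) := by ring
    rw [this]
    linarith [h1.1]

theorem bw_touch' {a0 t B B' s S aS : ℝ} (hB : 0 ≤ B) (hs : |s| ≤ S) (ht : 0 ≤ t)
    (ha : aS ≤ a0 - t * B) (h : B' < aS * B - S) :
    B' < (a0 - t * B) * B + s ∧ (a0 - t * -B) * -B + s < -B' := by
  have h1 := abs_le.1 hs
  have h0 := mul_nonneg ht hB
  have h2 : aS * B ≤ (a0 - t * B) * B := mul_le_mul_of_nonneg_right ha hB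
  have h3 : aS * B ≤ (a0 + t * B) * B := mul_le_mul_of_nonneg_right (by linarith) hB
  constructor
  · linarith [h1.1]
  · have : (a0 - t * -B) * -B = -((a0 + t * B) * B) := by ring
    rw [this]
    linarith [h1.2]

theorem q_ends (h : SPair c W V I k c) :
    |qf V I (-8) - F 2 (-8)| ≤ 21 / 100 ∧ |qf V I 8 - F 2 8| ≤ 1 / 10 := by
  obtain ⟨hc1, hc2⟩ := c_box h
  have k1 := chk (z := -8) (s := 0) (t := 0) cf3 (by norm_num) (by norm_num) (by norm_num)
    (by norm_num) (by simp)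
  have k2 := chk (z := 8) (s := 0) (t := 0) cf4 (by norm_num) (by norm_num) (by norm_num)
    (by norm_num) (by simp)
  have k3 := chk (z := -8) (s := 0) (t := 0) cf5 (by norm_num) (by norm_num) (by norm_num)
    (by norm_num) (by simp)
  simp only [Ex.evR_sub, Ex.evR_add, Ex.evR_mul, Ex.evR_cst, Ex.evR_var, env7] at k1 k2 k3
  push_cast at k1 k2 k3
  have b1 := g_bd (x := -8) (by norm_num) (by norm_num)
  have b2 := g_bd (x := 8) (by norm_num) (by norm_num)
  have c1 := qf_pos h (-8)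
  have c2 := qf_pos h 8
  have m1 := mulW_le h (show (-8:ℝ) ≤ 0 by norm_num)
  have w1 := h.W_pos (-8)
  have u1 := h.U_pos 8
  norm_num at k1 k2 k3 hc1 hc2 m1
  have A1 : 2 * Ad c W (-8) ≤ -(46 / 10) := by
    rw [Ad_eq]
    have : 2 * c * W (-8) ≤ 2 * c * (1 / 32) := by
      apply mul_le_mul_of_nonneg_left _ (by linarith)
      linarith
    linarith
  have A2 : 11 ≤ 2 * Ad c W 8 := by
    rw [Ad_eq]
    have : 2 * c * 8 ≤ 2 * c * W 8 := by
      apply mul_le_mul_of_nonneg_left _ (by linarith)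
      linarith
    linarith
  have q1 := qf_left h (x := -8)
  have q2 := qf_right h (x := 8)
  have q3 : qf V I (-8) * (46 / 10) ≤ 1 :=
    le_trans (mul_le_mul_of_nonneg_left (by linarith) c1.le) q1
  have q4 : qf V I 8 * 11 ≤ 1 := le_trans (mul_le_mul_of_nonneg_left A2 c2.le) q2
  constructor
  · rw [abs_le]; constructor <;> linarith [b1.1]
  · rw [abs_le]; constructor <;> linarith [b2.1]

theorem alg (K S a : ℝ) {y : ℝ} (hy : 0 < y) : K / 2 ^ 20 * (a * y⁻¹) + K / 2 ^ 20 * (y ^ 2)⁻¹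
    - S / 2 ^ 20 = (K * (a * y + 1) - S * (y * y)) * (y ^ 2)⁻¹ / 2 ^ 20 := by
  field_simp

/-- outer left part -/
theorem left1 (h : SPair c W V I k c) : ∀ x ∈ Icc (-8 : ℝ) (-4), |qf V I x - F 2 x| ≤
    512 / 2 ^ 20 * (2 - x)⁻¹ + 21 / 100 * Real.exp (9 / 32 * (x ^ 2 - 64)) := by
  obtain ⟨hc1, hc2⟩ := c_box h
  have hc3 := hc2
  norm_num at hc3
  have hT : ∀ x ∈ Ico (-8 : ℝ) (-4), ∀ B, B = 512 / 2 ^ 20 * (2 - x)⁻¹
      + 21 / 100 * Real.exp (9 / 32 * (x ^ 2 - 64)) →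
      (2 * Ad c W x - 4 * c * F 2 x - 2 * c * B) * B + s2 c W V x <
        512 / 2 ^ 20 * ((2 - x) ^ 2)⁻¹
        + 21 / 100 * (9 / 16 * x * Real.exp (9 / 32 * (x ^ 2 - 64))) ∧
      -(512 / 2 ^ 20 * ((2 - x) ^ 2)⁻¹
        + 21 / 100 * (9 / 16 * x * Real.exp (9 / 32 * (x ^ 2 - 64)))) <
        (2 * Ad c W x - 4 * c * F 2 x - 2 * c * -B) * -B + s2 c W V x := by
    intro x hx B hB
    have g1 : Real.exp (9 / 32 * (x ^ 2 - 64)) ≤ 1 := by
      rw [Real.exp_le_one_iff]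
      nlinarith [hx.1, hx.2]
    have g0 := Real.exp_pos (9 / 32 * (x ^ 2 - 64))
    have hx0 : 0 < 2 - x := by linarith [hx.2]
    have i0 : 0 < (2 - x)⁻¹ := inv_pos.2 hx0
    have i1 : (2 - x)⁻¹ ≤ 1 := inv_le_one_of_one_le₀ (by linarith [hx.2])
    have k1 := chkc (t := 0) cl1 hc1 hc2 hx.1 (by linarith) (by norm_num; linarith [hx.1])
      (by norm_num; linarith [hx.2])
    have k2 := chkc (t := 0) cl2 hc1 hc2 hx.1 (by linarith) (by norm_num; linarith [hx.1])
      (by norm_num; linarith [hx.2])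
    simp only [eU', eA, Ex.evR_sub, Ex.evR_add, Ex.evR_mul, Ex.evR_cst, Ex.evR_var, evR_one,
      evR_two, evR_four, env0, env1, env2, env3, env4, env5, env7, env19] at k1 k2
    push_cast at k1 k2
    set aS := ((1 - c) * x + 2 * c * F 0 x) + 13 / 2 ^ 20 - 4 * c * F 2 x + 181 / 2 ^ 10 with haS
    have hB0 : 0 ≤ B := by rw [hB]; positivity
    have hB1 : B ≤ 211 / 1000 := by
      rw [hB]
      norm_num
      nlinarith
    refine fw_touch' (t := 2 * c) (S := 245 / 2 ^ 20) (aS := aS) hB0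
      (s2_le h hx.1 (by linarith)) (by linarith [h.c_pos]) ?_ ?_
    · have := (A_bd h hx.1 (by linarith)).2
      have t1 : 2 * c * B ≤ 2 * c * (211 / 1000) := by
        apply mul_le_mul_of_nonneg_left hB1
        linarith [h.c_pos]
      rw [haS]
      norm_num at this ⊢
      linarith
    · rw [hB]
      have e2 : 512 / 2 ^ 20 * (aS * (2 - x)⁻¹) + 246 / 2 ^ 20 < 512 / 2 ^ 20 * ((2 - x) ^ 2)⁻¹ := by
        have : 512 / 2 ^ 20 * ((2 - x) ^ 2)⁻¹ - (512 / 2 ^ 20 * (aS * (2 - x)⁻¹) + 246 / 2 ^ 20)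
            = (512 * (1 - aS * (2 - x)) - 246 * ((2 - x) * (2 - x))) * ((2 - x) ^ 2)⁻¹ / 2 ^ 20 := by
          field_simp
          ring
        have h3 : 0 < (512 * (1 - aS * (2 - x)) - 246 * ((2 - x) * (2 - x))) * ((2 - x) ^ 2)⁻¹
            / 2 ^ 20 := by
          have : 0 < 512 * (1 - aS * (2 - x)) - 246 * ((2 - x) * (2 - x)) := by
            norm_num at k1 ⊢
            linarith
          positivity
        linarith
      have e3 : aS * (21 / 100 * Real.exp (9 / 32 * (x ^ 2 - 64)))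
          ≤ 21 / 100 * (9 / 16 * x * Real.exp (9 / 32 * (x ^ 2 - 64))) := by
        have : aS ≤ 9 / 16 * x := by
          norm_num at k2 ⊢
          linarith
        nlinarith
      have e4 : aS * (512 / 2 ^ 20 * (2 - x)⁻¹ + 21 / 100 * Real.exp (9 / 32 * (x ^ 2 - 64)))
          = 512 / 2 ^ 20 * (aS * (2 - x)⁻¹)
            + aS * (21 / 100 * Real.exp (9 / 32 * (x ^ 2 - 64))) := by
        ring
      rw [e4]
      have e5 : (245 : ℝ) / 2 ^ 20 ≤ 246 / 2 ^ 20 := by norm_num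
      linarith
  refine fwd_abs (f := fun x => qf V I x - F 2 x) (B' := fun x => 512 / 2 ^ 20 * ((2 - x) ^ 2)⁻¹
        + 21 / 100 * (9 / 16 * x * Real.exp (9 / 32 * (x ^ 2 - 64)))) (dq h) ?_ ?_ ?_ ?_
  · intro x hx
    have hx0 : 2 - x ≠ 0 := by linarith [hx.2]
    have d1 : HasDerivAt (fun x : ℝ => 512 / 2 ^ 20 * (2 - x)⁻¹)
        (512 / 2 ^ 20 * ((2 - x) ^ 2)⁻¹) x :=
      ((((hasDerivAt_id x).const_sub 2).inv hx0).const_mul (512 / 2 ^ 20)).congr_deriv (by
        simp only [id]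
        ring)
    have d2 : HasDerivAt (fun x : ℝ => 9 / 32 * (x ^ 2 - 64)) (9 / 16 * x) x :=
      ((((hasDerivAt_id x).pow 2).sub_const 64).const_mul (9 / 32)).congr_deriv (by
        simp only [id]
        ring)
    exact d1.add ((d2.exp.const_mul (21 / 100)).congr_deriv (by ring))
  · have := (q_ends h).1
    refine this.trans ?_
    norm_num
  · intro x hx hB
    have := (hT x hx _ rfl).1
    rw [hB]
    exact this
  · intro x hx hB
    have := (hT x hx _ rfl).2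
    rw [hB]
    exact this

/-- inner left part -/
theorem left2 (h : SPair c W V I k c) : ∀ x ∈ Icc (-4 : ℝ) (3 / 8), |qf V I x - F 2 x| ≤
    516 / 2 ^ 20 * (2 - x)⁻¹ := by
  obtain ⟨hc1, hc2⟩ := c_box h
  have hc3 := hc2
  norm_num at hc3
  have hT : ∀ x ∈ Ico (-4 : ℝ) (3 / 8), ∀ B, B = 516 / 2 ^ 20 * (2 - x)⁻¹ →
      (2 * Ad c W x - 4 * c * F 2 x - 2 * c * B) * B + s2 c W V x <
        516 / 2 ^ 20 * ((2 - x) ^ 2)⁻¹ ∧
      -(516 / 2 ^ 20 * ((2 - x) ^ 2)⁻¹) <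
        (2 * Ad c W x - 4 * c * F 2 x - 2 * c * -B) * -B + s2 c W V x := by
    intro x hx B hB
    have hx0 : 0 < 2 - x := by linarith [hx.2]
    have i0 : 0 < (2 - x)⁻¹ := inv_pos.2 hx0
    have i1 : (2 - x)⁻¹ ≤ 1 := inv_le_one_of_one_le₀ (by linarith [hx.2])
    have k1 := chkc (t := 0) cl3 hc1 hc2 (by linarith [hx.1]) (by linarith [hx.2])
      (by norm_num; linarith [hx.1]) (by norm_num at hx ⊢; linarith [hx.2])
    simp only [eU', eA, Ex.evR_sub, Ex.evR_add, Ex.evR_mul, Ex.evR_cst, Ex.evR_var, evR_one,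
      evR_two, evR_four, env0, env1, env2, env3, env4, env5, env7, env19] at k1
    push_cast at k1
    set aS := ((1 - c) * x + 2 * c * F 0 x) + 13 / 2 ^ 20 - 4 * c * F 2 x + 1 / 2 ^ 10 with haS
    have hB0 : 0 ≤ B := by rw [hB]; positivity
    have hB1 : B ≤ 1 / 2 ^ 10 := by
      rw [hB]
      norm_num
      nlinarith
    refine fw_touch' (t := 2 * c) (S := 245 / 2 ^ 20) (aS := aS) hB0
      (s2_le h (by linarith [hx.1]) (by linarith [hx.2])) (by linarith [h.c_pos]) ?_ ?_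
    · have := (A_bd h (x := x) (by linarith [hx.1]) (by linarith [hx.2])).2
      have t1 : 2 * c * B ≤ 1 * (1 / 2 ^ 10) := by
        apply mul_le_mul _ hB1 hB0 (by norm_num)
        linarith
      rw [haS]
      norm_num at this t1 ⊢
      linarith
    · rw [hB]
      have e2 : aS * (516 / 2 ^ 20 * (2 - x)⁻¹) + 246 / 2 ^ 20 < 516 / 2 ^ 20 * ((2 - x) ^ 2)⁻¹ := by
        have : 516 / 2 ^ 20 * ((2 - x) ^ 2)⁻¹ - (aS * (516 / 2 ^ 20 * (2 - x)⁻¹) + 246 / 2 ^ 20)
            = (516 * (1 - aS * (2 - x)) - 246 * ((2 - x) * (2 - x))) * ((2 - x) ^ 2)⁻¹ / 2 ^ 20 := by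
          field_simp
          ring
        have h3 : 0 < (516 * (1 - aS * (2 - x)) - 246 * ((2 - x) * (2 - x))) * ((2 - x) ^ 2)⁻¹
            / 2 ^ 20 := by
          have : 0 < 516 * (1 - aS * (2 - x)) - 246 * ((2 - x) * (2 - x)) := by
            norm_num at k1 ⊢
            linarith
          positivity
        linarith
      have e5 : (245 : ℝ) / 2 ^ 20 ≤ 246 / 2 ^ 20 := by norm_num
      linarith
  refine fwd_abs (f := fun x => qf V I x - F 2 x) (B' := fun x => 516 / 2 ^ 20 * ((2 - x) ^ 2)⁻¹)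
    (dq h) ?_ ?_ ?_ ?_
  · intro x hx
    have hx0 : 2 - x ≠ 0 := by linarith [hx.2]
    exact ((((hasDerivAt_id x).const_sub 2).inv hx0).const_mul (516 / 2 ^ 20)).congr_deriv (by
        simp only [id]
        ring)
  · have h1 := left1 h (-4) ⟨by norm_num, le_rfl⟩
    refine h1.trans ?_
    have h2 : Real.exp (9 / 32 * ((-4 : ℝ) ^ 2 - 64)) ≤ 1 / 2.7 ^ 13 := by
      refine le_trans ?_ (exp_le (n := 13))
      apply Real.exp_le_exp.2
      norm_num
    norm_num at h2 ⊢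
    linarith
  · intro x hx hB
    have := (hT x hx _ rfl).1
    rw [hB]
    exact this
  · intro x hx hB
    have := (hT x hx _ rfl).2
    rw [hB]
    exact this

/-- outer right part -/
theorem right1 (h : SPair c W V I k c) : ∀ x ∈ Icc (4 : ℝ) 8, |qf V I x - F 2 x| ≤
    286 / 2 ^ 20 * (1 / 2 + x)⁻¹ + 1 / 10 * Real.exp (1 / 2 * (x ^ 2 - 64)) := by
  obtain ⟨hc1, hc2⟩ := c_box h
  have hc3 := hc2
  norm_num at hc3
  have hT : ∀ x ∈ Ioc (4 : ℝ) 8, ∀ B, B = 286 / 2 ^ 20 * (1 / 2 + x)⁻¹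
      + 1 / 10 * Real.exp (1 / 2 * (x ^ 2 - 64)) →
      -(286 / 2 ^ 20 * ((1 / 2 + x) ^ 2)⁻¹) + 1 / 10 * (x * Real.exp (1 / 2 * (x ^ 2 - 64))) <
        (2 * Ad c W x - 4 * c * F 2 x - 2 * c * B) * B + s2 c W V x ∧
      (2 * Ad c W x - 4 * c * F 2 x - 2 * c * -B) * -B + s2 c W V x <
        -(-(286 / 2 ^ 20 * ((1 / 2 + x) ^ 2)⁻¹)
          + 1 / 10 * (x * Real.exp (1 / 2 * (x ^ 2 - 64)))) := by
    intro x hx B hB
    have g1 : Real.exp (1 / 2 * (x ^ 2 - 64)) ≤ 1 := by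
      rw [Real.exp_le_one_iff]
      nlinarith [hx.1, hx.2]
    have g0 := Real.exp_pos (1 / 2 * (x ^ 2 - 64))
    have hx0 : 0 < 1 / 2 + x := by linarith [hx.1]
    have i0 : 0 < (1 / 2 + x)⁻¹ := inv_pos.2 hx0
    have i1 : (1 / 2 + x)⁻¹ ≤ 1 := inv_le_one_of_one_le₀ (by linarith [hx.1])
    have k1 := chkc (t := 0) cr1 hc1 hc2 (by linarith [hx.1]) hx.2
      (by norm_num; linarith [hx.1]) (by norm_num; linarith [hx.2])
    have k2 := chkc (t := 0) cr2 hc1 hc2 (by linarith [hx.1]) hx.2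
      (by norm_num; linarith [hx.1]) (by norm_num; linarith [hx.2])
    simp only [eL', eA, Ex.evR_sub, Ex.evR_add, Ex.evR_mul, Ex.evR_cst, Ex.evR_var, evR_one,
      evR_two, evR_four, env0, env1, env2, env3, env4, env5, env7, env19] at k1 k2
    push_cast at k1 k2
    set aS := ((1 - c) * x + 2 * c * F 0 x) - 13 / 2 ^ 20 - 4 * c * F 2 x - 88 / 2 ^ 10 with haS
    have hB0 : 0 ≤ B := by rw [hB]; positivity
    have hB1 : B ≤ 103 / 1000 := by
      rw [hB]
      norm_num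
      nlinarith
    refine bw_touch' (t := 2 * c) (S := 245 / 2 ^ 20) (aS := aS) hB0
      (s2_le h (by linarith [hx.1]) hx.2) (by linarith [h.c_pos]) ?_ ?_
    · have := (A_bd h (x := x) (by linarith [hx.1]) hx.2).1
      have t1 : 2 * c * B ≤ 2 * c * (103 / 1000) := by
        apply mul_le_mul_of_nonneg_left hB1
        linarith [h.c_pos]
      rw [haS]
      norm_num at this ⊢
      linarith
    · rw [hB]
      have e2 : 246 / 2 ^ 20 < 286 / 2 ^ 20 * (aS * (1 / 2 + x)⁻¹)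
          + 286 / 2 ^ 20 * ((1 / 2 + x) ^ 2)⁻¹ := by
        have : 286 / 2 ^ 20 * (aS * (1 / 2 + x)⁻¹) + 286 / 2 ^ 20 * ((1 / 2 + x) ^ 2)⁻¹
            - 246 / 2 ^ 20 = (286 * (aS * (1 / 2 + x) + 1) - 246 * ((1 / 2 + x) * (1 / 2 + x)))
              * ((1 / 2 + x) ^ 2)⁻¹ / 2 ^ 20 := by
          exact alg _ _ _ hx0
        have h3 : 0 < (286 * (aS * (1 / 2 + x) + 1) - 246 * ((1 / 2 + x) * (1 / 2 + x)))
              * ((1 / 2 + x) ^ 2)⁻¹ / 2 ^ 20 := by
          have : 0 < 286 * (aS * (1 / 2 + x) + 1) - 246 * ((1 / 2 + x) * (1 / 2 + x)) := by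
            norm_num at k1 ⊢
            linarith
          positivity
        linarith
      have e3 : 1 / 10 * (x * Real.exp (1 / 2 * (x ^ 2 - 64)))
          ≤ aS * (1 / 10 * Real.exp (1 / 2 * (x ^ 2 - 64))) := by
        have : x ≤ aS := by
          norm_num at k2 ⊢
          linarith
        nlinarith
      have e4 : aS * (286 / 2 ^ 20 * (1 / 2 + x)⁻¹ + 1 / 10 * Real.exp (1 / 2 * (x ^ 2 - 64)))
          = 286 / 2 ^ 20 * (aS * (1 / 2 + x)⁻¹)
            + aS * (1 / 10 * Real.exp (1 / 2 * (x ^ 2 - 64))) := by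
        ring
      rw [e4]
      have e5 : (245 : ℝ) / 2 ^ 20 ≤ 246 / 2 ^ 20 := by norm_num
      linarith
  refine bwd_abs (f := fun x => qf V I x - F 2 x)
    (B' := fun x => -(286 / 2 ^ 20 * ((1 / 2 + x) ^ 2)⁻¹)
        + 1 / 10 * (x * Real.exp (1 / 2 * (x ^ 2 - 64)))) (dq h) ?_ ?_ ?_ ?_
  · intro x hx
    have hx0 : 1 / 2 + x ≠ 0 := by linarith [hx.1]
    have d1 : HasDerivAt (fun x : ℝ => 286 / 2 ^ 20 * (1 / 2 + x)⁻¹)
        (-(286 / 2 ^ 20 * ((1 / 2 + x) ^ 2)⁻¹)) x :=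
      ((((hasDerivAt_id x).const_add (1 / 2)).inv hx0).const_mul (286 / 2 ^ 20)).congr_deriv (by
        simp only [id]
        ring)
    have d2 : HasDerivAt (fun x : ℝ => 1 / 2 * (x ^ 2 - 64)) x x :=
      ((((hasDerivAt_id x).pow 2).sub_const 64).const_mul (1 / 2)).congr_deriv (by
        simp only [id]
        ring)
    exact d1.add ((d2.exp.const_mul (1 / 10)).congr_deriv (by ring))
  · have := (q_ends h).2
    refine this.trans ?_
    norm_num
  · intro x hx hB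
    have := (hT x hx _ rfl).1
    rw [hB]
    exact this
  · intro x hx hB
    have := (hT x hx _ rfl).2
    rw [hB]
    exact this

/-- inner right part -/
theorem right2 (h : SPair c W V I k c) : ∀ x ∈ Icc (3 / 8 : ℝ) 4, |qf V I x - F 2 x| ≤
    290 / 2 ^ 20 * (1 / 2 + x)⁻¹ := by
  obtain ⟨hc1, hc2⟩ := c_box h
  have hc3 := hc2
  norm_num at hc3
  have hT : ∀ x ∈ Ioc (3 / 8 : ℝ) 4, ∀ B, B = 290 / 2 ^ 20 * (1 / 2 + x)⁻¹ →
      -(290 / 2 ^ 20 * ((1 / 2 + x) ^ 2)⁻¹) <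
        (2 * Ad c W x - 4 * c * F 2 x - 2 * c * B) * B + s2 c W V x ∧
      (2 * Ad c W x - 4 * c * F 2 x - 2 * c * -B) * -B + s2 c W V x <
        -(-(290 / 2 ^ 20 * ((1 / 2 + x) ^ 2)⁻¹)) := by
    intro x hx B hB
    have hx0 : 0 < 1 / 2 + x := by linarith [hx.1]
    have i0 : 0 < (1 / 2 + x)⁻¹ := inv_pos.2 hx0
    have i1 : (1 / 2 + x)⁻¹ ≤ 8 / 7 := by
      rw [show (8 / 7 : ℝ) = (7 / 8)⁻¹ by norm_num]
      exact inv_anti₀ (by norm_num) (by linarith [hx.1])
    have k1 := chkc (t := 0) cr3 hc1 hc2 (by linarith [hx.1]) (by linarith [hx.2])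
      (by norm_num at hx ⊢; linarith [hx.1]) (by norm_num; linarith [hx.2])
    simp only [eL', eA, Ex.evR_sub, Ex.evR_add, Ex.evR_mul, Ex.evR_cst, Ex.evR_var, evR_one,
      evR_two, evR_four, env0, env1, env2, env3, env4, env5, env7, env19] at k1
    push_cast at k1
    set aS := ((1 - c) * x + 2 * c * F 0 x) - 13 / 2 ^ 20 - 4 * c * F 2 x - 1 / 2 ^ 10 with haS
    have hB0 : 0 ≤ B := by rw [hB]; positivity
    have hB1 : B ≤ 1 / 2 ^ 10 := by
      rw [hB]
      norm_num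
      nlinarith
    refine bw_touch' (t := 2 * c) (S := 245 / 2 ^ 20) (aS := aS) hB0
      (s2_le h (by linarith [hx.1]) (by linarith [hx.2])) (by linarith [h.c_pos]) ?_ ?_
    · have := (A_bd h (x := x) (by linarith [hx.1]) (by linarith [hx.2])).1
      have t1 : 2 * c * B ≤ 1 * (1 / 2 ^ 10) := by
        apply mul_le_mul _ hB1 hB0 (by norm_num)
        linarith
      rw [haS]
      norm_num at this t1 ⊢
      linarith
    · rw [hB]
      have e2 : 246 / 2 ^ 20 < aS * (290 / 2 ^ 20 * (1 / 2 + x)⁻¹)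
          + 290 / 2 ^ 20 * ((1 / 2 + x) ^ 2)⁻¹ := by
        have : aS * (290 / 2 ^ 20 * (1 / 2 + x)⁻¹) + 290 / 2 ^ 20 * ((1 / 2 + x) ^ 2)⁻¹
            - 246 / 2 ^ 20 = (290 * (aS * (1 / 2 + x) + 1) - 246 * ((1 / 2 + x) * (1 / 2 + x)))
              * ((1 / 2 + x) ^ 2)⁻¹ / 2 ^ 20 := by
          rw [← alg _ _ _ hx0]
          ring
        have h3 : 0 < (290 * (aS * (1 / 2 + x) + 1) - 246 * ((1 / 2 + x) * (1 / 2 + x)))
              * ((1 / 2 + x) ^ 2)⁻¹ / 2 ^ 20 := by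
          have : 0 < 290 * (aS * (1 / 2 + x) + 1) - 246 * ((1 / 2 + x) * (1 / 2 + x)) := by
            norm_num at k1 ⊢
            linarith
          positivity
        linarith
      have e5 : (245 : ℝ) / 2 ^ 20 ≤ 246 / 2 ^ 20 := by norm_num
      linarith
  refine bwd_abs (f := fun x => qf V I x - F 2 x)
    (B' := fun x => -(290 / 2 ^ 20 * ((1 / 2 + x) ^ 2)⁻¹)) (dq h) ?_ ?_ ?_ ?_
  · intro x hx
    have hx0 : 1 / 2 + x ≠ 0 := by linarith [hx.1]
    exact ((((hasDerivAt_id x).const_add (1 / 2)).inv hx0).const_mul (290 / 2 ^ 20)).congr_deriv (by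
        simp only [id]
        ring)
  · have h1 := right1 h 4 ⟨le_rfl, by norm_num⟩
    refine h1.trans ?_
    have h2 : Real.exp (1 / 2 * ((4 : ℝ) ^ 2 - 64)) ≤ 1 / 2 ^ 20 := by
      refine le_trans ?_ exp18
      apply Real.exp_le_exp.2
      norm_num
    norm_num at h2 ⊢
    linarith
  · intro x hx hB
    have := (hT x hx _ rfl).1
    rw [hB]
    exact this
  · intro x hx hB
    have := (hT x hx _ rfl).2
    rw [hB]
    exact this

/-- **enclosure of `q`** on `[-6, 6]` -/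
theorem encQ (h : SPair c W V I k c) {x : ℝ} (h1 : -6 ≤ x) (h2 : x ≤ 6) :
    |V x * (1 - V x) / I x - F 2 x| ≤ 352 / 2 ^ 20 := by
  change |qf V I x - F 2 x| ≤ _
  rcases le_total x (-4) with h3 | h3
  · have a1 := left1 h x ⟨by linarith, h3⟩
    have a2 : (2 - x)⁻¹ ≤ 1 / 6 := by
      rw [one_div]
      exact inv_anti₀ (by norm_num) (by linarith)
    have a3 : Real.exp (9 / 32 * (x ^ 2 - 64)) ≤ 1 / 2.7 ^ 7 := by
      refine le_trans ?_ (exp_le (n := 7))
      apply Real.exp_le_exp.2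
      push_cast
      nlinarith
    norm_num at a1 a3 ⊢
    linarith
  · rcases le_total x (3 / 8) with h4 | h4
    · have a1 := left2 h x ⟨h3, h4⟩
      have a2 : (2 - x)⁻¹ ≤ 8 / 13 := by
        rw [show (8 / 13 : ℝ) = (13 / 8)⁻¹ by norm_num]
        exact inv_anti₀ (by norm_num) (by linarith)
      norm_num at a1 ⊢
      linarith
    · rcases le_total x 4 with h5 | h5
      · have a1 := right2 h x ⟨h4, h5⟩
        have a2 : (1 / 2 + x)⁻¹ ≤ 8 / 7 := by
          rw [show (8 / 7 : ℝ) = (7 / 8)⁻¹ by norm_num]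
          exact inv_anti₀ (by norm_num) (by linarith)
        norm_num at a1 ⊢
        linarith
      · have a1 := right1 h x ⟨h5, by linarith⟩
        have a2 : (1 / 2 + x)⁻¹ ≤ 1 := inv_le_one_of_one_le₀ (by linarith)
        have a3 : Real.exp (1 / 2 * (x ^ 2 - 64)) ≤ 1 / 2.7 ^ 14 := by
          refine le_trans ?_ (exp_le (n := 14))
          apply Real.exp_le_exp.2
          push_cast
          nlinarith
        norm_num at a1 a3 ⊢
        linarith

end main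

end

end Crest.Agent.R146.QEnc_848
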