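import Crest.Agent.R146.C1A_445
import Crest.Agent.R146.C1Ka_445
import Crest.Agent.R146.C1Kb_445
import Crest.Agent.R146.C1Kc_445
import Crest.Agent.R146.C1Kd_445
import Crest.Agent.R146.C1Ke_445
import Crest.Agent.R146.QEnc_848
import Crest.Agent.R146.RefX_355

/-!
# Row 146, helper445: the slope inequality of NUMREF on `(-6, 6]`

`mid : SPair c W V I k c → -6 < x → x ≤ 6 → ∃ U Z, Vs c (b x) (b1 x) (b2 x) q k1 s J U Z` and the crude
bounds `side`.
-/

set_option autoImplicit false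

namespace Crest.Agent.R146.C1M_445

open PP865 EncR_848 C1D_445 C1E_445 C1A_445
open Crest.Agent.R146.SPair_307 Crest.Agent.R146.RefX_355

noncomputable section

/-- the spline values -/
def vv (z : ℝ) (i : ℕ) : ℝ :=
  val (fun k => Fn 36 k P0 PS) (fun k => Fn1 36 k P0 PS) (fun k => Fn2 36 k P0 PS) i z

def ct : ℝ := 435930 / 2 ^ 20

/-- spline `k1, s, J` -/
def kR (z : ℝ) : ℝ := 2 * ct * Enc1_848.F 2 z - (1 - ct) * z - 2 * ct * Enc1_848.F 0 z
def sR (z : ℝ) : ℝ := Enc1_848.F 2 z * kR z + 3 * Enc1_848.F1 0 z - 3 / 2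
def jR (z : ℝ) : ℝ := 1 + 2 * ct * sR z

theorem vv0 (z : ℝ) : vv z 0 = z := rfl
theorem vv1 (z : ℝ) : vv z 1 = Enc1_848.F 0 z := by
  have : vv z 1 = Fn 36 0 P0 PS z := rfl
  rw [this]
  exact congrFun (Fn_exts (by norm_num) len6 g0 gs) z
theorem vv2 (z : ℝ) : vv z 2 = Enc1_848.F1 0 z := by
  have : vv z 2 = Fn1 36 0 P0 PS z := rfl
  rw [this]
  exact congrFun (Fn1_exts (by norm_num) len6 g0 gs) z
theorem vv7 (z : ℝ) : vv z 7 = Enc1_848.F 2 z := by
  have : vv z 7 = Fn 36 2 P0 PS z := rfl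
  rw [this]
  exact congrFun (Fn_exts (by norm_num) len6 g0 gs) z
theorem vv19 (z : ℝ) : vv z 19 = b z := rfl
theorem vv20 (z : ℝ) : vv z 20 = b1 z := rfl
theorem vv21 (z : ℝ) : vv z 21 = b2 z := rfl

theorem kE_ev (z : ℝ) : kE.evR (vv z) = kR z := by
  simp only [kE, cE, qE, xE, wE, Ex.evR_sub, Ex.evR_mul, Ex.evR_cst, Ex.evR_var, vv0, vv1, vv7]
  unfold kR ct
  push_cast
  ring

theorem sE_ev (z : ℝ) : sE.evR (vv z) = sR z := by
  simp only [sE, qE, vE, Ex.evR_sub, Ex.evR_add, Ex.evR_mul, Ex.evR_cst, Ex.evR_var, vv2, vv7, kE_ev]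
  unfold sR
  push_cast
  ring

theorem jE_ev (z : ℝ) : jE.evR (vv z) = jR z := by
  simp only [jE, cE, Ex.evR_add, Ex.evR_mul, Ex.evR_cst, sE_ev]
  unfold jR ct
  push_cast
  ring

theorem CE_ev (z : ℝ) (S n m w y : ℤ) : (CE S n m w y).evR (vv z) =
    Gr ct (n / 1024) (m / 1024) (b z) (b1 z) (b2 z) (Enc1_848.F 2 z) (kR z) (sR z) (jR z)
      - pR (n / 1024) (b z) (S / 2048)
      - w / 2 ^ 22 * (uR (b z) (b1 z) (b2 z) (kR z) (jR z) + y / 1024) := by
  simp only [CE, GE, pE, uE, bE, cE, qE, eE, fE, gE, Ex.evR_sub, Ex.evR_add, Ex.evR_mul, Ex.evR_cst,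
    Ex.evR_var, vv7, vv19, vv20, vv21, kE_ev, sE_ev, jE_ev]
  unfold Gr pR uR ct
  push_cast
  ring

/-! ### last piece -/

def lst : Pc → List Pc → Pc
  | p, [] => p
  | _, q :: ps => lst q ps

theorem hiL_eq : ∀ (p : Pc) (ps : List Pc), hiL p ps = (lst p ps).hi
  | _, [] => rfl
  | _, q :: ps => hiL_eq q ps

theorem lst_c : (lst P0 PS).c = 63 ∧ (lst P0 PS).j = 3 := by decide +kernel

theorem hi8 : hiL P0 PS = 8 := by
  rw [hiL_eq]
  unfold Pc.hi
  rw [lst_c.1, lst_c.2]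
  norm_num

theorem lo8 : P0.lo = -8 := by
  have h1 : P0.c = -63 ∧ P0.j = 3 := by decide +kernel
  unfold Pc.lo
  rw [h1.1, h1.2]
  norm_num

/-- reading a check -/
theorem rd {n : ℕ} {es : List Ex} {a b : ℤ} (h : chkS 36 n es a b P0 PS = true) {x : ℝ}
    (h1 : -8 < x) (h2 : x ≤ 8) (ha : (a : ℝ) / 8 < x) (hb : x ≤ (b : ℝ) / 8) {e : Ex}
    (he : e ∈ es) : 0 < e.evR (vv x) :=
  chkS_sound he adj_PS h x (by rw [lo8]; exact h1) (by rw [hi8]; exact h2) ha hb

variable {c : ℝ} {W V I k : ℝ → ℝ}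

theorem c_ct (h : SPair c W V I k c) : |c - ct| ≤ 1 / 2 ^ 20 := by
  obtain ⟨h1, h2⟩ := Enc2_848.c_box h
  unfold ct
  rw [abs_le]
  constructor <;> linarith

/-! ### common side conditions -/

/-- crude spline bounds -/
structure Cm (x : ℝ) : Prop where
  e0 : 0 < b x
  e1 : b x < 78643 / 65536
  f1 : b1 x < 1 / 4
  f0 : -(1 / 4) < b1 x
  q0 : 0 < Enc1_848.F 2 x
  q1 : Enc1_848.F 2 x < 21 / 32
  s0 : -(600 / 1024) < sR x
  qf1 : Enc1_848.F 2 x * b1 x < 1 / 16 - 1 / 1024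
  qf0 : -(154 / 1024) < Enc1_848.F 2 x * b1 x
  g0 : -(511 / 1024) < b2 x + kR x * b1 x
  g1 : b2 x + kR x * b1 x < 1
  s1 : sR x < 3 / 4

theorem cm_of {n : ℕ} {a b : ℤ} (h : chkS 36 n com a b P0 PS = true) {x : ℝ}
    (h1 : -8 < x) (h2 : x ≤ 8) (ha : (a : ℝ) / 8 < x) (hb : x ≤ (b : ℝ) / 8) : Cm x := by
  have k1 := rd h h1 h2 ha hb (e := eE) (by simp [com])
  have k2 := rd h h1 h2 ha hb (e := Ex.cst 78643 16 - eE) (by simp [com])
  have k3 := rd h h1 h2 ha hb (e := Ex.cst 1 2 - fE) (by simp [com])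
  have k4 := rd h h1 h2 ha hb (e := Ex.cst 1 2 + fE) (by simp [com])
  have k5 := rd h h1 h2 ha hb (e := qE) (by simp [com])
  have k6 := rd h h1 h2 ha hb (e := Ex.cst 21 5 - qE) (by simp [com])
  have k7 := rd h h1 h2 ha hb (e := sE + Ex.cst 600 10) (by simp [com])
  have k8 := rd h h1 h2 ha hb (e := Ex.cst 1 4 - Ex.cst 1 10 - qE * fE) (by simp [com])
  have k9 := rd h h1 h2 ha hb (e := Ex.cst 154 10 + qE * fE) (by simp [com])
  have k10 := rd h h1 h2 ha hb (e := gE + kE * fE + Ex.cst 511 10) (by simp [com])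
  have k11 := rd h h1 h2 ha hb (e := Ex.cst 1 0 - gE - kE * fE) (by simp [com])
  have k12 := rd h h1 h2 ha hb (e := Ex.cst 3 2 - sE) (by simp [com])
  simp only [eE, fE, gE, qE, Ex.evR_sub, Ex.evR_add, Ex.evR_mul, Ex.evR_cst, Ex.evR_var, vv7, vv19,
    vv20, vv21, kE_ev, sE_ev] at k1 k2 k3 k4 k5 k6 k7 k8 k9 k10 k11 k12
  norm_num at k1 k2 k3 k4 k5 k6 k7 k8 k9 k10 k11 k12
  exact ⟨by linarith, by linarith, by linarith, by linarith, by linarith, by linarith, by linarith,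
    by linarith, by linarith, by linarith, by linarith, by linarith⟩

theorem cm {x : ℝ} (h1 : -6 < x) (h2 : x ≤ 6) : Cm x := by
  rcases le_or_gt x (-7 / 2) with d | d
  · exact cm_of C1Ka_445.c (by linarith) (by linarith) (by norm_num; linarith) (by norm_num; linarith)
  rcases le_or_gt x (-1) with d2 | d2
  · exact cm_of C1Kb_445.c (by linarith) (by linarith) (by norm_num; linarith) (by norm_num; linarith)
  rcases le_or_gt x (1 / 2) with d3 | d3
  · exact cm_of C1Kc_445.c (by linarith) (by linarith) (by norm_num; linarith) (by norm_num; linarith)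
  rcases le_or_gt x (5 / 2) with d4 | d4
  · exact cm_of C1Kd_445.c (by linarith) (by linarith) (by norm_num; linarith) (by norm_num; linarith)
  · exact cm_of C1Ke_445.c (by linarith) (by linarith) (by norm_num; linarith) (by norm_num; linarith)

/-! ### enclosure of `q, k1, s, J` -/

theorem q_enc (h : SPair c W V I k c) {x : ℝ} (h1 : -6 < x) (h2 : x ≤ 6) :
    |qx V I x - Enc1_848.F 2 x| ≤ 352 / 2 ^ 20 := QEnc_848.encQ h h1.le h2

theorem W_bd (h : SPair c W V I k c) {x : ℝ} (h1 : -6 < x) (h2 : x ≤ 6) : W x ≤ 61 / 10 := by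
  have a1 := h.W_le x
  have a2 : Real.sqrt (x ^ 2 + 1) ≤ 62 / 10 := by
    apply Real.sqrt_le_iff.2
    constructor
    · norm_num
    · nlinarith
  linarith

theorem k_enc (h : SPair c W V I k c) {x : ℝ} (h1 : -6 < x) (h2 : x ≤ 6) :
    |k1x c W V I x - kR x| ≤ 9 / 10000 := by
  have hq := abs_le.1 (q_enc h h1 h2)
  have hW := abs_le.1 ((Enc3_848.enc h).W8 x (by linarith) (by linarith))
  have hc := abs_le.1 (c_ct h)
  have hcm := cm h1 h2
  have hW2 := W_bd h h1 h2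
  have hW0 := h.W_pos x
  have hc1 : ct = 435930 / 2 ^ 20 := rfl
  have e : k1x c W V I x - kR x = 2 * ct * (qx V I x - Enc1_848.F 2 x)
      - 2 * ct * (W x - Enc1_848.F 0 x) + (c - ct) * (2 * qx V I x + x - 2 * W x) := by
    unfold k1x kR Ad; ring
  have b1 : |2 * ct * (qx V I x - Enc1_848.F 2 x)| ≤ 28 / 100000 := by
    rw [abs_mul, abs_of_pos (show 0 < 2 * ct by rw [hc1]; norm_num)]
    refine (mul_le_mul_of_nonneg_left (q_enc h h1 h2) (by rw [hc1]; norm_num)).trans ?_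
    rw [hc1]; norm_num
  have b2 : |2 * ct * (W x - Enc1_848.F 0 x)| ≤ 2 / 100000 := by
    rw [abs_mul, abs_of_pos (show 0 < 2 * ct by rw [hc1]; norm_num)]
    refine (mul_le_mul_of_nonneg_left ((Enc3_848.enc h).W8 x (by linarith) (by linarith))
      (by rw [hc1]; norm_num)).trans ?_
    rw [hc1]; norm_num
  have b3 : |(c - ct) * (2 * qx V I x + x - 2 * W x)| ≤ 1 / 2 ^ 20 * 20 := by
    rw [abs_mul]
    refine mul_le_mul (c_ct h) ?_ (abs_nonneg _) (by norm_num)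
    have := hcm.q0
    have := hcm.q1
    rw [abs_le]
    constructor <;> linarith [hq.1, hq.2]
  rw [e]
  have c1 := abs_le.1 b1
  have c2 := abs_le.1 b2
  have c3 := abs_le.1 b3
  rw [abs_le]
  constructor <;> linarith [c1.1, c1.2, c2.1, c2.2, c3.1, c3.2]

theorem s_enc (h : SPair c W V I k c) {x : ℝ} (h1 : -6 < x) (h2 : x ≤ 6) {K Q S : ℝ}
    (hK : |kR x| ≤ K) (hQ : Enc1_848.F 2 x ≤ Q)
    (hS : 352 / 2 ^ 20 * K + (Q + 352 / 2 ^ 20) * (9 / 10000) + 3 * (98 / 2 ^ 20) ≤ S) :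
    |sx c W V I x - sR x| ≤ S := by
  have hq := q_enc h h1 h2
  have hk := k_enc h h1 h2
  have hV := (Enc3_848.enc h).V8 x (by linarith) (by linarith)
  have hcm := cm h1 h2
  have hq' := abs_le.1 hq
  have e : sx c W V I x - sR x = (qx V I x - Enc1_848.F 2 x) * kR x
      + qx V I x * (k1x c W V I x - kR x) + 3 * (V x - Enc1_848.F1 0 x) := by
    unfold sx sR; ring
  have b1 : |(qx V I x - Enc1_848.F 2 x) * kR x| ≤ 352 / 2 ^ 20 * K := by
    rw [abs_mul]; gcongr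
  have b2 : |qx V I x * (k1x c W V I x - kR x)| ≤ (Q + 352 / 2 ^ 20) * (9 / 10000) := by
    rw [abs_mul]
    refine mul_le_mul ?_ hk (abs_nonneg _) ?_
    · have := hcm.q0
      rw [abs_le]; constructor <;> linarith [hq'.1, hq'.2]
    · have := hcm.q0
      norm_num; linarith
  have b3 : |3 * (V x - Enc1_848.F1 0 x)| ≤ 3 * (98 / 2 ^ 20) := by
    rw [abs_mul, abs_of_pos (show (0:ℝ) < 3 by norm_num)]
    gcongr
  rw [e]
  refine (abs_add_le _ _).trans ?_
  refine (add_le_add ((abs_add_le _ _).trans (add_le_add b1 b2)) b3).trans hS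

theorem J_enc (h : SPair c W V I k c) {x : ℝ} (h1 : -6 < x) (h2 : x ≤ 6) {S : ℝ}
    (hS : |sx c W V I x - sR x| ≤ S) (hS2 : 1 / 2048 ≤ S) :
    |Jx c W V I x - jR x| ≤ 27 / 32 * S := by
  have hcm := cm h1 h2
  have hc := c_ct h
  obtain ⟨hc2, hc3⟩ := Enc2_848.c_box h
  have e : Jx c W V I x - jR x = 2 * c * (sx c W V I x - sR x) + 2 * (c - ct) * sR x := by
    unfold Jx jR; ring
  have hc0 := h.c_pos
  have b1 : |2 * c * (sx c W V I x - sR x)| ≤ 2 * (435931 / 2 ^ 20) * S := by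
    rw [abs_mul, abs_of_pos (show 0 < 2 * c by linarith)]
    gcongr
  have b2 : |2 * (c - ct) * sR x| ≤ 2 * (1 / 2 ^ 20) * (3 / 4) := by
    rw [abs_mul, abs_mul, abs_of_pos (show (0:ℝ) < 2 by norm_num)]
    have : |sR x| ≤ 3 / 4 := by
      rw [abs_le]; constructor <;> linarith [hcm.s0, hcm.s1]
    gcongr
  rw [e]
  refine (abs_add_le _ _).trans ((add_le_add b1 b2).trans ?_)
  norm_num
  linarith

/-! ### the vertices -/

theorem vtx {n : ℕ} {a a' S y : ℤ} (hv : chkS 36 n (vts S y) a a' P0 PS = true) {x : ℝ}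
    (h1 : -8 < x) (h2 : x ≤ 8) (ha : (a : ℝ) / 8 < x) (hb : x ≤ (a' : ℝ) / 8)
    (nn m w y' : ℤ) (hmem : CE S nn m w y' ∈ vts S y) {d t w' Y : ℝ}
    (hd : d = (nn : ℝ) / 1024) (ht : t = (m : ℝ) / 1024) (hw : w' = (w : ℝ) / 2 ^ 22)
    (hY : Y = uR (b x) (b1 x) (b2 x) (kR x) (jR x) + (y' : ℝ) / 1024) :
    w' * Y ≤ Gr ct d t (b x) (b1 x) (b2 x) (Enc1_848.F 2 x) (kR x) (sR x) (jR x)
      - pR d (b x) ((S : ℝ) / 2048) := by
  have v1 := rd hv h1 h2 ha hb hmem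
  rw [CE_ev, ← hd, ← ht, ← hw, ← hY] at v1
  clear hmem hv
  linarith

/-- side facts -/
structure Si (x K Q Z S : ℝ) : Prop where
  K : |kR x| ≤ K
  Q : Enc1_848.F 2 x ≤ Q
  U : 0 ≤ uR (b x) (b1 x) (b2 x) (kR x) (jR x)
  Z : sR x * b x + Enc1_848.F 2 x * b1 x + (S * b x + 1 / 4096) ≤ Z

theorem si_of {n : ℕ} {a a' S Z K Q : ℤ} (hs : chkS 36 n (sds S Z K Q) a a' P0 PS = true) {x : ℝ}
    (h1 : -8 < x) (h2 : x ≤ 8) (ha : (a : ℝ) / 8 < x) (hb : x ≤ (a' : ℝ) / 8) :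
    Si x ((K : ℝ) / 32) ((Q : ℝ) / 32) ((Z : ℝ) / 1024) ((S : ℝ) / 2048) := by
  have s1 := rd hs h1 h2 ha hb (e := Ex.cst K 5 - kE) (by simp [sds])
  have s2 := rd hs h1 h2 ha hb (e := Ex.cst K 5 + kE) (by simp [sds])
  have s3 := rd hs h1 h2 ha hb (e := Ex.cst Q 5 - qE) (by simp [sds])
  have s4 := rd hs h1 h2 ha hb (e := uE) (by simp [sds])
  have s5 := rd hs h1 h2 ha hb
    (e := Ex.cst Z 10 - (sE * eE + qE * fE) - (Ex.cst S 11 * eE + Ex.cst 1 12)) (by simp [sds])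
  clear hs
  simp only [uE, bE, eE, fE, gE, qE, Ex.evR_sub, Ex.evR_add, Ex.evR_mul, Ex.evR_cst, Ex.evR_var,
    vv7, vv19, vv20, vv21, kE_ev, sE_ev, jE_ev] at s1 s2 s3 s4 s5
  have n5 : (K : ℝ) / 2 ^ 5 = K / 32 := by norm_num
  have n6 : (Q : ℝ) / 2 ^ 5 = Q / 32 := by norm_num
  have n7 : ((1 : ℤ) : ℝ) / 2 ^ 1 = 1 / 2 := by norm_num
  have n8 : ((3 : ℤ) : ℝ) / 2 ^ 7 = 3 / 128 := by norm_num
  have n1 : ((1 : ℤ) : ℝ) / 2 ^ 12 = 1 / 4096 := by norm_num
  have n2 : (Z : ℝ) / 2 ^ 10 = Z / 1024 := by norm_num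
  have n3 : (S : ℝ) / 2 ^ 11 = S / 2048 := by norm_num
  rw [n5] at s1 s2
  rw [n6] at s3
  rw [n7, n8] at s4
  rw [n1, n2, n3] at s5
  refine ⟨?_, by linarith, ?_, by linarith⟩
  · rw [abs_le]; constructor <;> linarith
  · unfold uR; exact s4.le

theorem mid_of (h : SPair c W V I k c) {x : ℝ} (h1 : -6 < x) (h2 : x ≤ 6) {n : ℕ} {a a' : ℤ}
    (S Z K Q y : ℤ) (hv : chkS 36 n (vts S y) a a' P0 PS = true)
    (hs : chkS 36 n (sds S Z K Q) a a' P0 PS = true)
    (ha : (a : ℝ) / 8 < x) (hb : x ≤ (a' : ℝ) / 8)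
    (hS : 352 / 2 ^ 20 * ((K : ℝ) / 32) + ((Q : ℝ) / 32 + 352 / 2 ^ 20) * (9 / 10000)
      + 3 * (98 / 2 ^ 20) ≤ (S : ℝ) / 2048) (hS2 : (1:ℝ) ≤ S) (hS3 : (S : ℝ) ≤ 20)
    (hy : (0:ℝ) ≤ y) (hZ : (325 : ℝ) / 135 * ((Z : ℝ) / 1024) ≤ (y : ℝ) / 1024) :
    Vs c (b x) (b1 x) (b2 x) (qx V I x) (k1x c W V I x) (sx c W V I x) (Jx c W V I x)
      (uR (b x) (b1 x) (b2 x) (kR x) (jR x)) ((y : ℝ) / 1024) := by
  have h8 : -8 < x := by linarith
  have h8' : x ≤ 8 := by linarith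
  have hcm := cm h1 h2
  have hsi := si_of hs h8 h8' ha hb
  have hsS := s_enc h h1 h2 hsi.K hsi.Q hS
  have hS2' : (1 : ℝ) / 2048 ≤ (S : ℝ) / 2048 := by linarith
  have hJS := J_enc h h1 h2 hsS hS2'
  have hkK : |k1x c W V I x - kR x| ≤ 1 / 1024 := (k_enc h h1 h2).trans (by norm_num)
  have hqQ : |qx V I x - Enc1_848.F 2 x| ≤ 1 / 1024 := (q_enc h h1 h2).trans (by norm_num)
  have hf : |b1 x| ≤ 1 / 4 := abs_le.2 ⟨hcm.f0.le, hcm.f1.le⟩
  have hq' : |Enc1_848.F 2 x| ≤ 21 / 32 :=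
    abs_le.2 ⟨(by norm_num : (-(21/32):ℝ) ≤ 0).trans hcm.q0.le, hcm.q1.le⟩
  have hc := (c_ct h).trans (show (1:ℝ) / 2 ^ 20 ≤ 1 / 100000 by norm_num)
  obtain ⟨hc2, hc3⟩ := Enc2_848.c_box h
  have hc2' : (41573 : ℝ) / 100000 ≤ c := le_trans (by norm_num) hc2
  have hc3' : c ≤ 41574 / 100000 := le_trans hc3 (by norm_num)
  have he1 : b x ≤ 6 / 5 := hcm.e1.le.trans (by norm_num)
  have hS4 : (S : ℝ) / 2048 ≤ 1 / 100 := by linarith
  have hy' : (0:ℝ) ≤ (y : ℝ) / 1024 := by positivity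
  have hZ' : 325 / 135 * (sR x * b x + Enc1_848.F 2 x * b1 x + ((S : ℝ) / 2048 * b x + 1 / 4096))
      ≤ (y : ℝ) / 1024 :=
    (mul_le_mul_of_nonneg_left hsi.Z (by norm_num)).trans hZ
  refine Vs_of hcm.e0.le he1 hf hqQ hkK hsS hJS hc hq' hc2' hc3' hS4 rfl hsi.U hy' hZ' ?_ ?_ ?_
  · exact vtx hv h8 h8' ha hb (0) (1026) 9409 0 (by simp [vts]) (by norm_num) (by norm_num)
          (by norm_num) (by simp)
  · exact vtx hv h8 h8' ha hb (0) (-1026) 9409 0 (by simp [vts]) (by norm_num) (by norm_num)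
          (by norm_num) (by simp)
  · intro σ hσ
    rcases hσ with rfl | rfl
    · refine ⟨?_, ?_, ?_, ?_, ?_, ?_, ?_, ?_⟩
      · exact vtx hv h8 h8' ha hb (97) (1026) 9409 0 (by simp [vts]) (by norm_num) (by norm_num)
          (by norm_num) (by simp)
      · exact vtx hv h8 h8' ha hb (97) (-1026) 9409 0 (by simp [vts]) (by norm_num) (by norm_num)
          (by norm_num) (by simp)
      · exact vtx hv h8 h8' ha hb (194) (1026) 9409 0 (by simp [vts]) (by norm_num) (by norm_num)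
          (by norm_num) (by simp)
      · exact vtx hv h8 h8' ha hb (194) (-1026) 9409 0 (by simp [vts]) (by norm_num) (by norm_num)
          (by norm_num) (by simp)
      · exact vtx hv h8 h8' ha hb (291) (1026) 18225 y (by simp [vts]) (by norm_num) (by norm_num)
          (by norm_num) rfl
      · exact vtx hv h8 h8' ha hb (291) (-1026) 18225 0 (by simp [vts]) (by norm_num) (by norm_num)
          (by norm_num) (by simp)
      · exact vtx hv h8 h8' ha hb (426) (701) 18225 y (by simp [vts]) (by norm_num) (by norm_num)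
          (by norm_num) rfl
      · exact vtx hv h8 h8' ha hb (426) (-1026) 18225 0 (by simp [vts]) (by norm_num) (by norm_num)
          (by norm_num) (by simp)
    · refine ⟨?_, ?_, ?_, ?_, ?_, ?_, ?_, ?_⟩
      · exact vtx hv h8 h8' ha hb (-97) (-1026) 9409 0 (by simp [vts]) (by norm_num) (by norm_num)
          (by norm_num) (by simp)
      · exact vtx hv h8 h8' ha hb (-97) (1026) 9409 0 (by simp [vts]) (by norm_num) (by norm_num)
          (by norm_num) (by simp)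
      · exact vtx hv h8 h8' ha hb (-194) (-1026) 9409 0 (by simp [vts]) (by norm_num) (by norm_num)
          (by norm_num) (by simp)
      · exact vtx hv h8 h8' ha hb (-194) (1026) 9409 0 (by simp [vts]) (by norm_num) (by norm_num)
          (by norm_num) (by simp)
      · exact vtx hv h8 h8' ha hb (-291) (-1026) 18225 y (by simp [vts]) (by norm_num) (by norm_num)
          (by norm_num) rfl
      · exact vtx hv h8 h8' ha hb (-291) (1026) 18225 0 (by simp [vts]) (by norm_num) (by norm_num)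
          (by norm_num) (by simp)
      · exact vtx hv h8 h8' ha hb (-426) (-701) 18225 y (by simp [vts]) (by norm_num) (by norm_num)
          (by norm_num) rfl
      · exact vtx hv h8 h8' ha hb (-426) (1026) 18225 0 (by simp [vts]) (by norm_num) (by norm_num)
          (by norm_num) (by simp)

theorem mid (h : SPair c W V I k c) {x : ℝ} (h1 : -6 < x) (h2 : x ≤ 6) :
    ∃ U Z, Vs c (b x) (b1 x) (b2 x) (qx V I x) (k1x c W V I x) (sx c W V I x) (Jx c W V I x) U Z := by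
  rcases le_or_gt x (-7 / 2) with d | d
  · exact ⟨_, _, mid_of h h1 h2 10 0 120 13 0 C1Ka_445.v C1Ka_445.s (by norm_num; linarith)
      (by norm_num; linarith) (by norm_num) (by norm_num) (by norm_num) (by norm_num) (by norm_num)⟩
  rcases le_or_gt x (-1) with d2 | d2
  · exact ⟨_, _, mid_of h h1 h2 8 0 77 21 0 C1Kb_445.v C1Kb_445.s (by norm_num; linarith)
      (by norm_num; linarith) (by norm_num) (by norm_num) (by norm_num) (by norm_num) (by norm_num)⟩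
  rcases le_or_gt x (1 / 2) with d3 | d3
  · exact ⟨_, _, mid_of h h1 h2 5 165 34 21 398 C1Kc_445.v C1Kc_445.s (by norm_num; linarith)
      (by norm_num; linarith) (by norm_num) (by norm_num) (by norm_num) (by norm_num) (by norm_num)⟩
  rcases le_or_gt x (5 / 2) with d4 | d4
  · exact ⟨_, _, mid_of h h1 h2 10 297 108 21 715 C1Kd_445.v C1Kd_445.s (by norm_num; linarith)
      (by norm_num; linarith) (by norm_num) (by norm_num) (by norm_num) (by norm_num) (by norm_num)⟩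
  · exact ⟨_, _, mid_of h h1 h2 20 297 272 21 715 C1Ke_445.v C1Ke_445.s (by norm_num; linarith)
      (by norm_num; linarith) (by norm_num) (by norm_num) (by norm_num) (by norm_num) (by norm_num)⟩

theorem kR_of {n : ℕ} {a a' S Z K Q : ℤ} (hs : chkS 36 n (sds S Z K Q) a a' P0 PS = true) {x : ℝ}
    (h1 : -8 < x) (h2 : x ≤ 8) (ha : (a : ℝ) / 8 < x) (hb : x ≤ (a' : ℝ) / 8)
    (hK : (K : ℝ) / 32 ≤ 17 / 2) : |kR x| ≤ 17 / 2 :=
  (si_of hs h1 h2 ha hb).K.trans hK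

theorem kR_le {x : ℝ} (h1 : -6 < x) (h2 : x ≤ 6) : |kR x| ≤ 17 / 2 := by
  rcases le_or_gt x (-7 / 2) with d | d
  · exact kR_of C1Ka_445.s (by linarith) (by linarith) (by norm_num; linarith)
      (by norm_num; linarith) (by norm_num)
  rcases le_or_gt x (-1) with d2 | d2
  · exact kR_of C1Kb_445.s (by linarith) (by linarith) (by norm_num; linarith)
      (by norm_num; linarith) (by norm_num)
  rcases le_or_gt x (1 / 2) with d3 | d3
  · exact kR_of C1Kc_445.s (by linarith) (by linarith) (by norm_num; linarith)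
      (by norm_num; linarith) (by norm_num)
  rcases le_or_gt x (5 / 2) with d4 | d4
  · exact kR_of C1Kd_445.s (by linarith) (by linarith) (by norm_num; linarith)
      (by norm_num; linarith) (by norm_num)
  · exact kR_of C1Ke_445.s (by linarith) (by linarith) (by norm_num; linarith)
      (by norm_num; linarith) (by norm_num)

/-- crude bounds of the true quantities on `(-6, 6]` -/
structure Sd (c : ℝ) (W V I : ℝ → ℝ) (x : ℝ) : Prop where
  s0 : -(3 / 5) ≤ sx c W V I x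
  J0 : 1 / 2 ≤ Jx c W V I x
  f0 : -(1 / 4) ≤ b1 x
  f1 : b1 x ≤ 1 / 4
  e0 : 0 ≤ b x
  e1 : b x ≤ 6 / 5
  qf0 : -(151 / 1000) ≤ qx V I x * b1 x
  qf1 : qx V I x * b1 x ≤ 1 / 16
  g0 : -(1 / 2) ≤ b2 x + k1x c W V I x * b1 x
  g1 : b2 x + k1x c W V I x * b1 x ≤ 11 / 10

theorem side (h : SPair c W V I k c) {x : ℝ} (h1 : -6 < x) (h2 : x ≤ 6) : Sd c W V I x := by
  have hcm := cm h1 h2
  have hq := abs_le.1 (q_enc h h1 h2)
  have hk := k_enc h h1 h2
  have hf : |b1 x| ≤ 1 / 4 := by rw [abs_le]; constructor <;> linarith [hcm.f0, hcm.f1]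
  have e1 : |(qx V I x - Enc1_848.F 2 x) * b1 x| ≤ 352 / 2 ^ 20 * (1 / 4) := by
    rw [abs_mul]; exact mul_le_mul (q_enc h h1 h2) hf (abs_nonneg _) (by norm_num)
  have e2 : |(k1x c W V I x - kR x) * b1 x| ≤ 9 / 10000 * (1 / 4) := by
    rw [abs_mul]; exact mul_le_mul hk hf (abs_nonneg _) (by norm_num)
  have e1' := abs_le.1 e1
  have e2' := abs_le.1 e2
  have hs : |sx c W V I x - sR x| ≤ 1 / 100 := by
    exact s_enc h h1 h2 (kR_le h1 h2) hcm.q1.le (by norm_num)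
  have hs' := abs_le.1 hs
  have hs0 : -(3 / 5) ≤ sx c W V I x := by linarith [hcm.s0, hs'.1]
  obtain ⟨hc2, hc3⟩ := Enc2_848.c_box h
  norm_num at hc2 hc3
  refine ⟨hs0, ?_, by linarith [hcm.f0], by linarith [hcm.f1], hcm.e0.le, by linarith [hcm.e1],
    ?_, ?_, ?_, ?_⟩
  · unfold Jx
    nlinarith
  · have : qx V I x * b1 x = Enc1_848.F 2 x * b1 x + (qx V I x - Enc1_848.F 2 x) * b1 x := by ring
    rw [this]; linarith [hcm.qf0, e1'.1]
  · have : qx V I x * b1 x = Enc1_848.F 2 x * b1 x + (qx V I x - Enc1_848.F 2 x) * b1 x := by ring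
    rw [this]; linarith [hcm.qf1, e1'.2]
  · have : b2 x + k1x c W V I x * b1 x = b2 x + kR x * b1 x + (k1x c W V I x - kR x) * b1 x := by ring
    rw [this]; linarith [hcm.g0, e2'.1]
  · have : b2 x + k1x c W V I x * b1 x = b2 x + kR x * b1 x + (k1x c W V I x - kR x) * b1 x := by ring
    rw [this]; linarith [hcm.g1, e2'.2]

end

end Crest.Agent.R146.C1M_445
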