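import Mathlib

/-!
# Row 146, NUMREF, closure certificates (helper924)

One-point algebra of the closure inequalities with the dual functions `G± = g± G₀`, `G₀ = -H`,
`H' = k H - I² + 2 c w` (`' = d/dξ`, `w = V R²`, `R = 1 - V`), in the form (CLO) of helper355 #1357:

`E(j, L) = I² j (j - g) + 2 w (c j g - T) + g H (j k - L) + j g1 H`,   `J = j I`,

which is `J² - 2 T w - J G'(v) + L G(v)`.
* upper side: only the corner `j = 1 + y`, `L = max 0 (k - F)` has to be checked;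
* lower side: only the corner `j = 1 - y`, `L = k + F`.

`up_corner`, `lo_corner`: the corner inequality for `g = 1 ± a δ V` from ONE linear inequality
in each of the quantities (`(U')`, `(L')` of post 146-924-5).
-/

set_option autoImplicit false

namespace Crest.Agent.R146.Dual_924

/-- the closure expression of #1357 (CLO) -/
def EE (I w H k c g g1 T j L : ℝ) : ℝ :=
  I ^ 2 * (j * (j - g)) + 2 * w * (c * j * g - T) + g * H * (j * k - L) + j * g1 * H

variable {I w H k c g g1 T j j1 L L1 : ℝ}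

/-- relation with the closure form `J² - 2 T w - J G' + L G` of `PtRef_846.CloR` -/
lemma EE_eq (hI : I ≠ 0) :
    EE I w H k c g g1 T j L =
      (j * I) ^ 2 - 2 * T * w
        - (j * I) * ((g1 / I) * (-H) + g * ((I ^ 2 - 2 * c * w - k * H) / I)) + L * (g * -H) := by
  unfold EE
  field_simp
  ring

/-- **upper corner suffices** -/
theorem up_of_corner (hw : 0 ≤ w) (hH : 0 ≤ H) (hg : 0 ≤ g) (hT : 0 ≤ T) (hj : 0 ≤ j)
    (hj1 : 0 < j1) (hjj : j ≤ j1) (hL1 : 0 ≤ L1) (hL : L1 ≤ L)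
    (h : EE I w H k c g g1 T j1 L1 ≤ 0) : EE I w H k c g g1 T j L ≤ 0 := by
  have hgH : 0 ≤ g * H := mul_nonneg hg hH
  have h0 : -(2 * w * T) - g * H * L1 ≤ 0 := by
    have h1 : 0 ≤ w * T := mul_nonneg hw hT
    have h2 : 0 ≤ g * H * L1 := mul_nonneg hgH hL1
    linarith
  have h1 : EE I w H k c g g1 T j L ≤ EE I w H k c g g1 T j L1 := by
    unfold EE
    nlinarith [mul_nonneg hgH (sub_nonneg.2 hL)]
  refine h1.trans ?_
  have h2 : j1 * EE I w H k c g g1 T j L1 =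
      j * EE I w H k c g g1 T j1 L1 + (j1 - j) * (-(2 * w * T) - g * H * L1)
        - I ^ 2 * (j * j1 * (j1 - j)) := by
    unfold EE
    ring
  have h3 : j * EE I w H k c g g1 T j1 L1 ≤ 0 := mul_nonpos_of_nonneg_of_nonpos hj h
  have h4 : (j1 - j) * (-(2 * w * T) - g * H * L1) ≤ 0 :=
    mul_nonpos_of_nonneg_of_nonpos (sub_nonneg.2 hjj) h0
  have h5 : 0 ≤ I ^ 2 * (j * j1 * (j1 - j)) :=
    mul_nonneg (sq_nonneg _) (mul_nonneg (mul_nonneg hj hj1.le) (sub_nonneg.2 hjj))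
  have h6 : j1 * EE I w H k c g g1 T j L1 ≤ 0 := by
    rw [h2]
    linarith
  by_contra hcon
  push Not at hcon
  linarith [mul_pos hj1 hcon]

/-- **lower corner suffices** (monotone in `j` because `2 J₋ ≥ G'`) -/
theorem lo_of_corner (hgH : 0 ≤ g * H) (hjj : j1 ≤ j) (hL : L ≤ L1)
    (hmon : 0 ≤ I ^ 2 * (2 * j1 - g) + (2 * c * w + k * H) * g + g1 * H)
    (h : 0 ≤ EE I w H k c g g1 T j1 L1) : 0 ≤ EE I w H k c g g1 T j L := by
  have h1 : EE I w H k c g g1 T j L1 ≤ EE I w H k c g g1 T j L := by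
    unfold EE
    nlinarith [mul_nonneg hgH (sub_nonneg.2 hL)]
  refine le_trans ?_ h1
  have h2 : EE I w H k c g g1 T j L1 = EE I w H k c g g1 T j1 L1 +
      (j - j1) * (I ^ 2 * (2 * j1 - g) + (2 * c * w + k * H) * g + g1 * H)
        + I ^ 2 * (j - j1) ^ 2 := by
    unfold EE
    ring
  rw [h2]
  have h3 := mul_nonneg (sub_nonneg.2 hjj) hmon
  have h4 : 0 ≤ I ^ 2 * (j - j1) ^ 2 := by positivity
  linarith

section corner
variable {V a b F δ G : ℝ}

/-- **(U')**: upper corner for `g = 1 + a δ V`, `g1 = a δ I`, `j = 1 + δ b`, `T = c + G δ`,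
`L ≥ 0`, `L ≥ k - δ F`. -/
theorem up_corner (hδ : 0 ≤ δ) (ha : 0 ≤ a) (hV : 0 ≤ V) (hH : 0 ≤ H) (hL0 : 0 ≤ L)
    (hL : k - δ * F ≤ L)
    (hU : b * (I ^ 2 * (1 + δ * b) + 2 * c * w + k * H) + F * H
      + a * ((1 + δ * b) * (V * (k * H - I ^ 2 + 2 * c * w) + I * H)) ≤ 2 * G * w) :
    EE I w H k c (1 + a * δ * V) (a * δ * I) (c + G * δ) (1 + δ * b) L ≤ 0 := by
  have h1 : EE I w H k c (1 + a * δ * V) (a * δ * I) (c + G * δ) (1 + δ * b) L =
      δ * (b * (I ^ 2 * (1 + δ * b) + 2 * c * w + k * H) + F * H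
        + a * ((1 + δ * b) * (V * (k * H - I ^ 2 + 2 * c * w) + I * H)) - 2 * G * w)
      + (k - δ * F - L) * H - a * δ * V * L * H := by
    unfold EE
    ring
  rw [h1]
  have h2 : (k - δ * F - L) * H ≤ 0 := mul_nonpos_of_nonpos_of_nonneg (by linarith) hH
  have h3 : 0 ≤ a * δ * V * L * H := by positivity
  have h4 := mul_nonneg hδ (sub_nonneg.2 hU)
  linarith

/-- **(L')**: lower corner for `g = 1 - a δ V`, `g1 = -a δ I`, `j = 1 - δ b`, `T = c - G δ`,
`L ≤ k + δ F`, `0 ≤ L`. -/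
theorem lo_corner (hδ : 0 ≤ δ) (ha : 0 ≤ a) (hV : 0 ≤ V) (hH : 0 ≤ H) (hL0 : 0 ≤ L)
    (hL : L ≤ k + δ * F)
    (hU : b * (I ^ 2 * (1 - δ * b) + 2 * c * w + k * H) + F * H
      + a * ((1 - δ * b) * (V * (k * H - I ^ 2 + 2 * c * w) + I * H)) ≤ 2 * G * w) :
    0 ≤ EE I w H k c (1 - a * δ * V) (-(a * δ * I)) (c - G * δ) (1 - δ * b) L := by
  have h1 : EE I w H k c (1 - a * δ * V) (-(a * δ * I)) (c - G * δ) (1 - δ * b) L =
      δ * (2 * G * w - (b * (I ^ 2 * (1 - δ * b) + 2 * c * w + k * H) + F * H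
        + a * ((1 - δ * b) * (V * (k * H - I ^ 2 + 2 * c * w) + I * H))))
      + (k + δ * F - L) * H + a * δ * V * L * H := by
    unfold EE
    ring
  rw [h1]
  have h2 : 0 ≤ (k + δ * F - L) * H := mul_nonneg (by linarith) hH
  have h3 : 0 ≤ a * δ * V * L * H := by positivity
  have h4 := mul_nonneg hδ (sub_nonneg.2 hU)
  linarith

/-- the left side of (U') is convex in `δ` : enough at the two ends -/
lemma conv_up {δ1 : ℝ} (hδ : 0 ≤ δ) (hδ1 : δ ≤ δ1)
    (h0 : b * (I ^ 2 + 2 * c * w + k * H) + F * H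
      + a * (V * (k * H - I ^ 2 + 2 * c * w) + I * H) ≤ 2 * G * w)
    (h1 : b * (I ^ 2 * (1 + δ1 * b) + 2 * c * w + k * H) + F * H
      + a * ((1 + δ1 * b) * (V * (k * H - I ^ 2 + 2 * c * w) + I * H)) ≤ 2 * G * w) :
    b * (I ^ 2 * (1 + δ * b) + 2 * c * w + k * H) + F * H
      + a * ((1 + δ * b) * (V * (k * H - I ^ 2 + 2 * c * w) + I * H)) ≤ 2 * G * w := by
  rcases eq_or_lt_of_le (hδ.trans hδ1) with h | h
  · have : δ = 0 := le_antisymm (by rw [h]; exact hδ1) hδ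
    subst this
    simpa using h0
  · -- affine in δ
    by_contra hcon
    push Not at hcon
    have e1 := mul_nonneg hδ (sub_nonneg.2 h1)
    have e2 := mul_nonneg (sub_nonneg.2 hδ1) (sub_nonneg.2 h0)
    have e3 := mul_pos h (sub_pos.2 hcon)
    nlinarith

end corner

end Crest.Agent.R146.Dual_924
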