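import Crest.Agent.R146.RefWS_355
import Crest.Agent.R146.Dual_924
import Crest.Agent.R146.C1D_445

/-!
Row 146, PT (helper846): the three certificates `C1, C2, C3` of `NUMREF` with their exact text
(= the fields of `RefWS_355.XWS` for the frozen data `D0`).

Frozen data, `c` = the closed pair `SPair c W V I k c`, `0 < δ ≤ c`:
`e0 = δ/1000`, `κ = 1/100`, `nl = max 0 (c-δ-e0)`, `nu = min (7/10) (c+δ) + e0`; ONE slope shape
`b` = `C1D_445.b`, `T± = 1 ± δ b`; positions = exact integrals `Pp' = V/(1-δ b)`, `Pm' = V/(1+δ b)`;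
law constants `fp = 7/5`, `fm = 23/20`; closure shapes `1 ± a δ V`, `a = 9/10`; rate `gr = 19/20`.

`numref : C1 → C2 → C3 → PtRef_846.NUMREF` is in `PtNumRef_846`.
-/

set_option autoImplicit false

namespace Crest.Agent.R146.PtNum_846

open Set Filter Topology MeasureTheory
open Crest.Agent.R146.YW_177 Crest.Agent.R146.PtRef_846 Crest.Agent.R146.SPair_307
open Crest.Agent.R146.RefX_355 Crest.Agent.R146.PairQ_355 Crest.Agent.R146.RefWS_355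
open Crest.Agent.R146.C1D_445 (b b1 b2)

noncomputable section

/-- upper position `Pp' = V/(1-δ b)`, `Pp(-∞) = 0` -/
def Pp (δ : ℝ) (V : ℝ → ℝ) (x : ℝ) : ℝ := ∫ t in Iic x, V t / (1 - δ * b t)
/-- lower position `Pm' = V/(1+δ b)`, `Pm(-∞) = 0` -/
def Pm (δ : ℝ) (V : ℝ → ℝ) (x : ℝ) : ℝ := ∫ t in Iic x, V t / (1 + δ * b t)

/-- `x` = label of the level `v = V x`, `z` = label of the position `η = W z` -/
def Pos (δ : ℝ) (W V : ℝ → ℝ) (x z : ℝ) : Prop :=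
  (1 - δ / 1000) * Pm δ V x ≤ W z ∧ W z ≤ (1 + δ / 1000) * Pp δ V x

/-- the frozen data -/
def D0 (δ : ℝ) (V I : ℝ → ℝ) : XD where
  bp := b
  bp1 := b1
  bp2 := b2
  bm := b
  bm1 := b1
  bm2 := b2
  np := Pp δ V
  np1 := fun x => V x / (1 - δ * b x)
  nm := Pm δ V
  nm1 := fun x => V x / (1 + δ * b x)
  fp := 7 / 5
  fm := 23 / 20
  gp := fun x => 1 + 9 / 10 * δ * V x
  gp1 := fun x => 9 / 10 * δ * I x
  gm := fun x => 1 - 9 / 10 * δ * V x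
  gm1 := fun x => -(9 / 10 * δ * I x)

/-- **C1** = slope fields (`Exx, Jx, qx, sx, k1x` of `RefX_355`, `nl, nu` of `RefWS_355`,
`b, b1, b2` of `C1D_445`) -/
structure C1 : Prop where
  up : ∀ (c : ℝ) (W V I k : ℝ → ℝ), SPair c W V I k c → ∀ δ, 0 < δ → δ ≤ c → ∀ x y,
    (y = nl c δ (δ / 1000) ∨ y = nu c δ (δ / 1000)) →
      Exx c y ((y - c) / δ) (1 + δ * b x) W V I b b1 b2 x ≤ 0
  low : ∀ (c : ℝ) (W V I k : ℝ → ℝ), SPair c W V I k c → ∀ δ, 0 < δ → δ ≤ c → ∀ x y,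
    (y = nl c δ (δ / 1000) ∨ y = nu c δ (δ / 1000)) →
      Exx c y (-((y - c) / δ)) (1 - δ * b x) W V I b b1 b2 x ≤ 0
  conc : ∀ (c : ℝ) (W V I k : ℝ → ℝ), SPair c W V I k c → ∀ δ, 0 < δ → δ ≤ c → ∀ x,
    1 / 100 * (1 + δ * b x) ≤
      Jx c W V I x * (1 + δ * b x) + 2 * δ * c * qx V I x * b1 x
  lin_p : ∀ (c : ℝ) (W V I k : ℝ → ℝ), SPair c W V I k c → ∀ δ, 0 < δ → δ ≤ c → ∀ x,
    1 / 100 * (1 + δ * b x) ≤
      (1 / 2 + nu c δ (δ / 1000) * sx c W V I x) * (1 + δ * b x)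
        + nu c δ (δ / 1000) * (δ * qx V I x * b1 x)
  lin_m : ∀ (c : ℝ) (W V I k : ℝ → ℝ), SPair c W V I k c → ∀ δ, 0 < δ → δ ≤ c → ∀ x,
    1 / 100 * (1 - δ * b x) ≤
      (1 / 2 + nu c δ (δ / 1000) * sx c W V I x) * (1 - δ * b x)
        - nu c δ (δ / 1000) * (δ * qx V I x * b1 x)
  lin_m2 : ∀ (c : ℝ) (W V I k : ℝ → ℝ), SPair c W V I k c → ∀ δ, 0 < δ → δ ≤ c → ∀ x y,
    (y = 0 ∨ y = nu c δ (δ / 1000)) →
      1 / 100 * (1 - δ * b x) ≤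
        (1 / 2 + y * sx c W V I x) * (1 - δ * b x) - y * (δ * qx V I x * b1 x)
        + 1 / 2 * (1 - δ * b x) ^ 2 * (Jx c W V I x * (1 - δ * b x)
            + δ * (b2 x + k1x c W V I x * b1 x))

/-- **C2** = law and potential (`L1, L2` of `RefWS_355`): `x` = label of the level, `z` = label of the
position -/
structure C2 : Prop where
  law_p : ∀ (c : ℝ) (W V I k : ℝ → ℝ), SPair c W V I k c → ∀ δ, 0 < δ → δ ≤ c → ∀ x z,
    Pos δ W V x z → ∀ y j, (y = nl c δ (δ / 1000) ∨ y = nu c δ (δ / 1000)) →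
      (j = (1 - δ / 1000) * (1 - δ * b x) ∨ j = (1 + δ / 1000) * (1 + δ * b x)) →
      LStat 1 y (V x) (j * I x) (W z) (k z) (L1 c W V k z) (L2 c W V I k z) ≤
        δ * (7 / 5) * PotR y (V x) (L1 c W V k z)
  law_m : ∀ (c : ℝ) (W V I k : ℝ → ℝ), SPair c W V I k c → ∀ δ, 0 < δ → δ ≤ c → ∀ x z,
    Pos δ W V x z → ∀ y j, (y = nl c δ (δ / 1000) ∨ y = nu c δ (δ / 1000)) →
      (j = (1 - δ / 1000) * (1 - δ * b x) ∨ j = (1 + δ / 1000) * (1 + δ * b x)) →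
      -(δ * (23 / 20) * PotR y (V x) (L1 c W V k z)) ≤
        LStat 1 y (V x) (j * I x) (W z) (k z) (L1 c W V k z) (L2 c W V I k z)
  pot : ∀ (c : ℝ) (W V I k : ℝ → ℝ), SPair c W V I k c → ∀ δ, 0 < δ → δ ≤ c → ∀ x z,
    Pos δ W V x z → ∀ y, (y = nl c δ (δ / 1000) ∨ y = nu c δ (δ / 1000)) →
      1 / 100 ≤ PotR y (V x) (L1 c W V k z)

/-- **C3** = closure (`EE` of `Dual_924`, `H = -G0x`) -/
structure C3 : Prop where
  clo_p : ∀ (c : ℝ) (W V I k : ℝ → ℝ), SPair c W V I k c → ∀ δ, 0 < δ → δ ≤ c → ∀ x z,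
    Pos δ W V x z → ∀ j L,
      (1 - δ / 1000) * (1 - δ * b x) ≤ j → j ≤ (1 + δ / 1000) * (1 + δ * b x) →
      0 ≤ L → k z - δ * (23 / 20) ≤ L → L ≤ k z + δ * (7 / 5) →
      Dual_924.EE (I x) (V x * (1 - V x) ^ 2) (-G0x c W V I k x) (k x) c
        (1 + 9 / 10 * δ * V x) (9 / 10 * δ * I x) (c + gr * δ) j L ≤ 0
  clo_m : ∀ (c : ℝ) (W V I k : ℝ → ℝ), SPair c W V I k c → ∀ δ, 0 < δ → δ ≤ c → ∀ x z,
    Pos δ W V x z → ∀ j L,
      (1 - δ / 1000) * (1 - δ * b x) ≤ j → j ≤ (1 + δ / 1000) * (1 + δ * b x) →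
      0 ≤ L → k z - δ * (23 / 20) ≤ L → L ≤ k z + δ * (7 / 5) →
      0 ≤ Dual_924.EE (I x) (V x * (1 - V x) ^ 2) (-G0x c W V I k x) (k x) c
        (1 - 9 / 10 * δ * V x) (-(9 / 10 * δ * I x)) (c - gr * δ) j L

end

end Crest.Agent.R146.PtNum_846
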