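import Crest.Agent.R146.C1M_445
import Crest.Agent.R146.C1L_445
import Crest.Agent.R146.PtNum_846

/-!
# Row 146, helper445: **C1 of NUMREF** (slope fields) : `c1 : PtNum_846.C1`
-/

set_option autoImplicit false

namespace Crest.Agent.R146.C1_445

open Crest.Agent.R146.SPair_307 Crest.Agent.R146.RefX_355 Crest.Agent.R146.RefWS_355
open C1D_445 (b b1 b2)
open C1A_445 C1M_445 C1L_445
open PP865 C1E_445

variable {c : ℝ} {W V I k : ℝ → ℝ}

theorem c_bd (h : SPair c W V I k c) : 41573 / 100000 ≤ c ∧ c ≤ 41574 / 100000 := by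
  obtain ⟨h1, h2⟩ := Enc2_848.c_box h
  norm_num at h1 h2
  constructor <;> linarith

/-! ### the tails -/

theorem WV_left (h : SPair c W V I k c) {x : ℝ} (hx : x ≤ -6) :
    W x ≤ 14 / 100000 ∧ V x ≤ 22 / 100000 := by
  have e := Enc3_848.enc h
  have k1 := rd nL (x := -6) (by norm_num) (by norm_num) (by norm_num) (by norm_num)
    (e := Ex.cst 1 13 - wE) (by simp)
  have k2 := rd nL (x := -6) (by norm_num) (by norm_num) (by norm_num) (by norm_num)
    (e := Ex.cst 1 13 - vE) (by simp)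
  simp only [wE, vE, Ex.evR_sub, Ex.evR_cst, Ex.evR_var, vv1, vv2] at k1 k2
  have w1 := (abs_le.1 (e.W8 (-6) (by norm_num) (by norm_num))).2
  have v1 := (abs_le.1 (e.V8 (-6) (by norm_num) (by norm_num))).2
  have w2 : W x ≤ W (-6) := h.W_strictMono.monotone hx
  have v2 : V x ≤ V (-6) := h.V_strictMono.monotone hx
  norm_num at k1 k2 w1 v1
  constructor <;> linarith

theorem V_right (h : SPair c W V I k c) {x : ℝ} (hx : 6 ≤ x) : 9997 / 10000 ≤ V x := by
  have e := Enc3_848.enc h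
  have k2 := rd nR (x := 6) (by norm_num) (by norm_num) (by norm_num) (by norm_num)
    (e := vE - Ex.cst 8191 13) (by simp)
  simp only [wE, vE, Ex.evR_sub, Ex.evR_cst, Ex.evR_var, vv1, vv2] at k2
  have v1 := (abs_le.1 (e.V8 6 (by norm_num) (by norm_num))).1
  have v2 : V 6 ≤ V x := h.V_strictMono.monotone hx
  norm_num at k2 v1
  linarith

theorem sl_aux {q a c v : ℝ} (hq : 0 < q) (ha : 35 / 10 ≤ a) (hc1 : c ≤ 41574 / 100000)
    (hc0 : 0 ≤ c) (h6 : q * a ≤ 1) (h5 : 9585 / 10000 ≤ q * (a + 2 * c * q)) (hv0 : 0 < v)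
    (hv : v ≤ 22 / 100000) :
    -(5415 / 10000) ≤ q * (a + 2 * c * q) + 3 * v - 3 / 2 ∧
      q * (a + 2 * c * q) + 3 * v - 3 / 2 ≤ -(2 / 5) := by
  have h7 : q ≤ 2 / 7 := by
    by_contra hcon
    push Not at hcon
    nlinarith
  have h8 : q * q ≤ (2 / 7) * (2 / 7) := mul_le_mul h7 h7 hq.le (by norm_num)
  have h9 : c * (q * q) ≤ 41574 / 100000 * ((2 / 7) * (2 / 7)) :=
    mul_le_mul hc1 h8 (by positivity) (by norm_num)
  have e : q * (a + 2 * c * q) = q * a + 2 * (c * (q * q)) := by ring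
  constructor
  · linarith
  · rw [e]; norm_num at h9 ⊢; linarith

theorem s_left (h : SPair c W V I k c) {x : ℝ} (hx : x ≤ -6) :
    -(5415 / 10000) ≤ sx c W V I x ∧ sx c W V I x ≤ -(2 / 5) := by
  obtain ⟨hc, hc1⟩ := c_bd h
  obtain ⟨hW, hV⟩ := WV_left h hx
  have hW0 := h.W_pos x
  have hV0 := h.V_pos x
  have hI0 := h.I_pos x
  set a := -2 * Ad c W x with ha
  have ha1 : 35 / 10 ≤ a := by
    rw [ha]; unfold Ad
    nlinarith
  have ha0 : 0 < a := by linarith
  have hx0 : Ad c W x < 0 := by linarith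
  have hI : I x = (1 + c) * W x + a * V x := by rw [h.eqI, ha]; ring
  have hVW := V_ge_aW h hx0
  rw [← ha] at hVW
  set K := 3 - c + 4 * c * V x with hK
  have hK1 : K ≤ 25851 / 10000 := by rw [hK]; nlinarith
  have hK0 : 0 < K := by rw [hK]; nlinarith
  have hb : 1225 / 100 ≤ a ^ 2 := by nlinarith
  -- W (a² + 1.65) ≤ a V
  have h1 : W x * (a * (a ^ 2 + K + 2)) ≤ (a ^ 2 + K) * V x := by linarith
  have h2 : W x * (a ^ 2 + 165 / 100) ≤ a * V x := by
    have k1 : (a ^ 2 + K) * (a ^ 2 + 165 / 100) ≤ a ^ 2 * (a ^ 2 + K + 2) := by nlinarith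
    have k2 : W x * (a * (a ^ 2 + K + 2)) * (a ^ 2 + 165 / 100) ≤
        (a ^ 2 * (a ^ 2 + K + 2)) * V x := by
      have k3 := mul_le_mul_of_nonneg_right h1 (show 0 ≤ a ^ 2 + 165 / 100 by positivity)
      have k4 := mul_le_mul_of_nonneg_right k1 hV0.le
      linarith
    have hD : 0 < a * (a ^ 2 + K + 2) := by positivity
    have k5 : (W x * (a ^ 2 + 165 / 100)) * (a * (a ^ 2 + K + 2)) ≤
        (a * V x) * (a * (a ^ 2 + K + 2)) := by linarith
    exact le_of_mul_le_mul_right k5 hD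
  have h3 : I x * (a ^ 2 + 165 / 100) ≤ a * V x * (a ^ 2 + 265 / 100 + c) := by
    rw [hI]; nlinarith
  set q := qx V I x with hq
  have hqI : q * I x = V x * (1 - V x) := by rw [hq]; unfold qx; field_simp
  have hR : 0 < 1 - V x := by linarith
  have hq0 : 0 < q := by rw [hq]; unfold qx; positivity
  have h4 : (1 - V x) * (a ^ 2 + 165 / 100) ≤ q * (a * (a ^ 2 + 265 / 100 + c)) := by
    have k1 : V x * ((1 - V x) * (a ^ 2 + 165 / 100)) ≤
        V x * (q * (a * (a ^ 2 + 265 / 100 + c))) := by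
      have := mul_le_mul_of_nonneg_left h3 hq0.le
      have e : q * (I x * (a ^ 2 + 165 / 100)) = V x * ((1 - V x) * (a ^ 2 + 165 / 100)) := by
        rw [← mul_assoc, hqI]; ring
      rw [e] at this
      linarith
    exact le_of_mul_le_mul_left k1 hV0
  have h5 := qk_left ha1 hc hc1 (show 9995 / 10000 ≤ 1 - V x by linarith) h4
  have hk : k1x c W V I x = a + 2 * c * q := by unfold k1x; rw [← hq, ha]
  have hs : sx c W V I x = q * (a + 2 * c * q) + 3 * V x - 3 / 2 := by
    unfold sx; rw [← hq, hk]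
  have h6 : q * a ≤ 1 := by
    have k1 : a * V x ≤ I x := by rw [hI]; nlinarith
    have k2 := mul_le_mul_of_nonneg_left k1 hq0.le
    rw [hqI] at k2
    have k3 : V x * (q * a) ≤ V x * 1 := by nlinarith
    exact le_of_mul_le_mul_left k3 hV0
  rw [hs]
  exact sl_aux hq0 ha1 hc1 (by linarith) h6 h5 hV0 hV

theorem s_right (h : SPair c W V I k c) {x : ℝ} (hx : 6 ≤ x) :
    49 / 100 ≤ sx c W V I x ∧ sx c W V I x ≤ 53 / 100 := by
  obtain ⟨hc, hc1⟩ := c_bd h
  have hV := V_right h hx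
  have hV1 := h.V_lt x
  have hU := h.U_pos x
  have hI0 := h.I_pos x
  set a := 2 * Ad c W x with ha
  have ha1 : 849 / 100 ≤ a := by
    rw [ha]; unfold Ad
    nlinarith
  have ha0 : 0 < a := by linarith
  have hI := TailK_445.I_eq h x
  have haU := TailK_445.aU_le_R h x
  rw [← ha] at hI haU
  set R := 1 - V x with hR
  have hR0 : 0 < R := by linarith
  set q := qx V I x with hq
  have hqI : q * I x = V x * R := by rw [hq, hR]; unfold qx; field_simp
  have hq0 : 0 < q := by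
    rw [hq]; unfold qx
    have := h.V_pos x
    positivity
  have hk : k1x c W V I x = -a + 2 * c * q := by unfold k1x; rw [← hq, ha]; ring
  have hs : sx c W V I x = q * (-a + 2 * c * q) + 3 * V x - 3 / 2 := by
    unfold sx; rw [← hq, hk]
  have h1 : q * a ≤ V x := by
    have k1 : a * R ≤ I x := by
      rw [hI]
      have : 0 ≤ (1 - c) * (W x - x) := mul_nonneg (by linarith) (by linarith)
      linarith
    have k2 := mul_le_mul_of_nonneg_left k1 hq0.le
    rw [hqI] at k2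
    have k3 : (q * a) * R ≤ V x * R := by linarith
    exact le_of_mul_le_mul_right k3 hR0
  have h2 : V x * a ^ 2 ≤ q * a * (a ^ 2 + 1 - c) := by
    have k1 : I x * a ≤ R * (a ^ 2 + 1 - c) := by
      rw [hI]
      have : (1 - c) * (a * (W x - x)) ≤ (1 - c) * R := mul_le_mul_of_nonneg_left haU (by linarith)
      nlinarith
    have k2 := mul_le_mul_of_nonneg_left k1 hq0.le
    have k3 : (V x * a) * R ≤ (q * (a ^ 2 + 1 - c)) * R := by
      have e : q * (I x * a) = (V x * a) * R := by rw [← mul_assoc, hqI]; ring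
      rw [e] at k2; linarith
    have k4 := le_of_mul_le_mul_right k3 hR0
    nlinarith
  have h3 : q ≤ 1 / 8 := by
    by_contra hcon
    push Not at hcon
    nlinarith
  have h4 : 991 / 1000 ≤ q * a := by
    by_contra hcon
    push Not at hcon
    have : q * a * (a ^ 2 + 1 - c) < 991 / 1000 * (a ^ 2 + 1 - c) :=
      mul_lt_mul_of_pos_right hcon (by nlinarith)
    nlinarith
  constructor
  · rw [hs]
    have h9 : 0 ≤ c * (q * q) := mul_nonneg (by linarith) (mul_self_nonneg q)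
    have e : q * (-a + 2 * c * q) = -(q * a) + 2 * (c * (q * q)) := by ring
    rw [e]
    linarith
  · rw [hs]
    have h8 : q * q ≤ (1 / 8) * (1 / 8) := mul_le_mul h3 h3 hq0.le (by norm_num)
    have h9 : c * (q * q) ≤ 41574 / 100000 * ((1 / 8) * (1 / 8)) :=
      mul_le_mul hc1 h8 (by positivity) (by norm_num)
    have e : q * (-a + 2 * c * q) = -(q * a) + 2 * (c * (q * q)) := by ring
    rw [e]
    norm_num at h9 ⊢
    linarith

/-- `b = const` on the left: the slope inequality -/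
theorem left (h : SPair c W V I k c) {σ : ℝ} (hσ : σ = 1 ∨ σ = -1) {δ τ : ℝ} (h1 : 0 < δ)
    (h2 : δ ≤ c) (t0 : -(1001 / 1000) ≤ τ) (t1 : τ ≤ 1001 / 1000)
    (t2 : τ * δ ≤ 7 / 10 - c + 1 / 1000 * δ) {q k' s J e : ℝ} (hs : -(5415 / 10000) ≤ s)
    (hs1 : s ≤ -(2 / 5)) (hJ : J = 1 + 2 * c * s) (he0 : 11999 / 10000 ≤ e) (he1 : e ≤ 6 / 5) :
    0 ≤ Gr c (σ * δ) (σ * τ) e 0 0 q k' s J := by
  obtain ⟨hc, hc1⟩ := c_bd h
  clear h
  have hJ0 : 5497 / 10000 ≤ J := by rw [hJ]; nlinarith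
  have hδe : δ * e ≤ 1 / 2 := by nlinarith
  have hδe0 : 0 < δ * e := by positivity
  rcases hσ with rfl | rfl
  · have e1 : Gr c (1 * δ) (1 * τ) e 0 0 q k' s J =
        (1 + δ * e) * (1 / 2 * ((1 + δ * e) * (J * e)) - τ * s + 1 / 2 * (J * e)) := by
      unfold Gr; ring
    rw [e1]
    apply mul_nonneg (by positivity)
    have k2 : J * e ≤ (1 + δ * e) * (J * e) := by
      have : 0 ≤ (δ * e) * (J * e) := by positivity
      linarith
    have k3 : 5497 / 10000 * (11999 / 10000) ≤ J * e := mul_le_mul hJ0 he0 (by norm_num) (by linarith)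
    have k4 : τ * s ≤ 1001 / 1000 * (5415 / 10000) := by nlinarith
    norm_num at k3 k4
    linarith
  · have e1 : Gr c (-1 * δ) (-1 * τ) e 0 0 q k' s J =
        (1 - δ * e) * (J * (e * (1 - δ * e / 2)) + τ * s) := by
      unfold Gr; ring
    rw [e1]
    apply mul_nonneg (by linarith)
    set m := e * (1 - δ * e / 2) with hm
    have hee : e * e ≤ 36 / 25 := by nlinarith
    have hs' : J * m + τ * s = m + s * (2 * c * m + τ) := by rw [hJ]; ring
    rw [hs']
    have m2 : m ≤ 6 / 5 := by rw [hm]; nlinarith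
    have hm' : m = e - δ * (e * e) / 2 := by rw [hm]; ring
    rcases le_or_gt δ (2843 / 10000) with d | d
    · have m1 : 9952 / 10000 ≤ m := by
        have : δ * (e * e) ≤ 2843 / 10000 * (36 / 25) :=
          mul_le_mul d hee (mul_self_nonneg e) (by norm_num)
        rw [hm']; norm_num at this ⊢; linarith
      rcases le_or_gt 0 (2 * c * m + τ) with g | g
      · have k1 : -(5415 / 10000) * (2 * c * m + τ) ≤ s * (2 * c * m + τ) :=
          mul_le_mul_of_nonneg_right hs g
        have k2 : c * m ≤ 41574 / 100000 * m := mul_le_mul_of_nonneg_right hc1 (by linarith)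
        linarith
      · have : 0 ≤ s * (2 * c * m + τ) := mul_nonneg_of_nonpos_of_nonpos (by linarith) g.le
        linarith
    · have m0 : 0 ≤ m := by rw [hm]; exact mul_nonneg (by linarith) (by linarith)
      have m1 : 28290 / 100000 ≤ m * δ := by
        have a1 : δ * δ * (e * e) ≤ δ * δ * (36 / 25) :=
          mul_le_mul_of_nonneg_left hee (mul_self_nonneg δ)
        have a2 := mul_nonneg (sub_nonneg.2 d.le) (sub_nonneg.2 (show δ ≤ 41574 / 100000 by linarith))
        have a3 : 11999 / 10000 * δ ≤ e * δ := mul_le_mul_of_nonneg_right he0 h1.le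
        have a4 : m * δ = e * δ - δ * δ * (e * e) / 2 := by rw [hm']; ring
        rw [a4]
        norm_num at a2 ⊢
        linarith
      have key : 0 ≤ (m + s * (2 * c * m + τ)) * δ := by
        have e2 : (m + s * (2 * c * m + τ)) * δ = m * δ + s * (2 * c * (m * δ) + τ * δ) := by ring
        rw [e2]
        have M0 : 0 ≤ m * δ := mul_nonneg m0 h1.le
        generalize m * δ = M at *
        rcases le_or_gt 0 (2 * c * M + τ * δ) with g | g
        · have k1 : -(5415 / 10000) * (2 * c * M + τ * δ) ≤ s * (2 * c * M + τ * δ) :=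
            mul_le_mul_of_nonneg_right hs g
          have k2 : c * M ≤ 41574 / 100000 * M := mul_le_mul_of_nonneg_right hc1 M0
          linarith
        · have : 0 ≤ s * (2 * c * M + τ * δ) := mul_nonneg_of_nonpos_of_nonpos (by linarith) g.le
          linarith
      exact nonneg_of_mul_nonneg_left key h1

/-- `b = const` on the right: the slope inequality -/
theorem right (h : SPair c W V I k c) {σ : ℝ} (hσ : σ = 1 ∨ σ = -1) {δ τ : ℝ} (h1 : 0 < δ)
    (h2 : δ ≤ c) (t0 : -(1001 / 1000) ≤ τ) (t1 : τ ≤ 1001 / 1000)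
    {q k' s J e : ℝ} (hs : 49 / 100 ≤ s)
    (hs1 : s ≤ 53 / 100) (hJ : J = 1 + 2 * c * s) (he0 : 46 / 100 ≤ e) (he1 : e ≤ 1 / 2) :
    0 ≤ Gr c (σ * δ) (σ * τ) e 0 0 q k' s J := by
  obtain ⟨hc, hc1⟩ := c_bd h
  clear h
  have hJ0 : 14 / 10 ≤ J := by rw [hJ]; nlinarith
  have hδe : δ * e ≤ 1 / 2 := by nlinarith
  have hδe0 : 0 < δ * e := by positivity
  rcases hσ with rfl | rfl
  · have e1 : Gr c (1 * δ) (1 * τ) e 0 0 q k' s J =
        (1 + δ * e) * (1 / 2 * ((1 + δ * e) * (J * e)) - τ * s + 1 / 2 * (J * e)) := by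
      unfold Gr; ring
    rw [e1]
    apply mul_nonneg (by positivity)
    have k2 : J * e ≤ (1 + δ * e) * (J * e) := by
      have : 0 ≤ (δ * e) * (J * e) := by positivity
      linarith
    have k3 : 14 / 10 * (46 / 100) ≤ J * e := mul_le_mul hJ0 he0 (by norm_num) (by linarith)
    have k4 : τ * s ≤ 1001 / 1000 * (53 / 100) := by nlinarith
    norm_num at k3 k4
    linarith
  · have e1 : Gr c (-1 * δ) (-1 * τ) e 0 0 q k' s J =
        (1 - δ * e) * (J * (e * (1 - δ * e / 2)) + τ * s) := by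
      unfold Gr; ring
    rw [e1]
    apply mul_nonneg (by linarith)
    have m0 : δ * e ≤ 41574 / 100000 * (1 / 2) := mul_le_mul (by linarith) he1 (by linarith) (by norm_num)
    have m1 : 46 / 100 * (1 - 41574 / 100000 * (1 / 2) / 2) ≤ e * (1 - δ * e / 2) := by
      apply mul_le_mul he0 (by linarith) (by norm_num) (by linarith)
    have k3 : 14 / 10 * (46 / 100 * (1 - 41574 / 100000 * (1 / 2) / 2)) ≤ J * (e * (1 - δ * e / 2)) := by
      apply mul_le_mul hJ0 m1 (by norm_num) (by linarith)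
    have k4 : -(1001 / 1000 * (53 / 100)) ≤ τ * s := by nlinarith
    norm_num at k3 k4
    linarith

/-- **the slope inequality**, all `x`, all `δ ≤ c` -/
theorem slope (h : SPair c W V I k c) {σ : ℝ} (hσ : σ = 1 ∨ σ = -1) {δ τ : ℝ} (h1 : 0 < δ)
    (h2 : δ ≤ c) (t0 : -(1001 / 1000) ≤ τ) (t1 : τ ≤ 1001 / 1000)
    (t2 : τ * δ ≤ 7 / 10 - c + 1 / 1000 * δ) (x : ℝ) :
    0 ≤ Gr c (σ * δ) (σ * τ) (b x) (b1 x) (b2 x) (qx V I x) (k1x c W V I x) (sx c W V I x)
      (Jx c W V I x) := by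
  obtain ⟨hc, hc1⟩ := c_bd h
  rcases le_or_gt x (-6) with d | d
  · rw [C1D_445.b_left d, C1D_445.b1_left d, C1D_445.b2_left d]
    obtain ⟨s1, s2⟩ := s_left h d
    exact left h hσ h1 h2 t0 t1 t2 s1 s2 rfl (by norm_num [C1D_445.bL]) (by norm_num [C1D_445.bL])
  rcases le_or_gt x 6 with d2 | d2
  · obtain ⟨U, Z, hv⟩ := mid h d d2
    exact hv.all hσ hc h1.le (by norm_num; linarith) (by linarith) (by linarith) t2
  · rw [C1D_445.b_right (by linarith), C1D_445.b1_right (by linarith),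
      C1D_445.b2_right (by linarith)]
    obtain ⟨s1, s2⟩ := s_right h d2.le
    exact right h hσ h1 h2 t0 t1 s1 s2 rfl (by norm_num [C1D_445.bR]) (by norm_num [C1D_445.bR])

/-- crude bounds for all `x` -/
theorem sides (h : SPair c W V I k c) (x : ℝ) : Sd c W V I x := by
  obtain ⟨hc, hc1⟩ := c_bd h
  rcases le_or_gt x (-6) with d | d
  · obtain ⟨s1, s2⟩ := s_left h d
    refine ⟨by linarith, ?_, ?_, ?_, ?_, ?_, ?_, ?_, ?_, ?_⟩
    · unfold Jx; nlinarith
    all_goals
      simp only [C1D_445.b_left d, C1D_445.b1_left d, C1D_445.b2_left d, C1D_445.bL]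
      norm_num
  rcases le_or_gt x 6 with d2 | d2
  · exact side h d d2
  · obtain ⟨s1, s2⟩ := s_right h d2.le
    have d3 : 7 / 2 < x := by linarith
    refine ⟨by linarith, ?_, ?_, ?_, ?_, ?_, ?_, ?_, ?_, ?_⟩
    · unfold Jx; nlinarith
    all_goals
      simp only [C1D_445.b_right d3, C1D_445.b1_right d3, C1D_445.b2_right d3, C1D_445.bR]
      norm_num

theorem ybd {δ y : ℝ} (h : SPair c W V I k c) (h1 : 0 < δ) (h2 : δ ≤ c)
    (hy : y = nl c δ (δ / 1000) ∨ y = nu c δ (δ / 1000)) :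
    -(1001 / 1000) * δ ≤ y - c ∧ y - c ≤ 1001 / 1000 * δ ∧ y - c ≤ 7 / 10 - c + 1 / 1000 * δ ∧
      0 ≤ y := by
  obtain ⟨hc, hc1⟩ := c_bd h
  rcases hy with rfl | rfl
  · unfold nl
    have a1 : c - δ - δ / 1000 ≤ max 0 (c - δ - δ / 1000) := le_max_right _ _
    have a2 : 0 ≤ max 0 (c - δ - δ / 1000) := le_max_left _ _
    have a3 : max 0 (c - δ - δ / 1000) ≤ c := max_le (by linarith) (by linarith)
    refine ⟨by linarith, by linarith, by linarith, a2⟩
  · unfold nu
    have a1 : min (7 / 10) (c + δ) ≤ 7 / 10 := min_le_left _ _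
    have a2 : min (7 / 10) (c + δ) ≤ c + δ := min_le_right _ _
    have a3 : c ≤ min (7 / 10) (c + δ) := le_min (by linarith) (by linarith)
    refine ⟨by linarith, by linarith, by linarith, by linarith⟩

theorem nu_bd {δ : ℝ} (h : SPair c W V I k c) (h1 : 0 < δ) (h2 : δ ≤ c) :
    0 ≤ nu c δ (δ / 1000) ∧ nu c δ (δ / 1000) ≤ 7005 / 10000 := by
  obtain ⟨hc, hc1⟩ := c_bd h
  have := ybd h h1 h2 (Or.inr rfl)
  exact ⟨this.2.2.2, by linarith [this.2.2.1]⟩

theorem lin_m_aux {δ n q b b1 s : ℝ} (hδ : 0 < δ) (hδ2 : δ ≤ 41574 / 100000) (hn : 0 ≤ n)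
    (hn1 : n ≤ 7005 / 10000) (hb : 0 ≤ b) (hb1 : b ≤ 6 / 5) (hs : -(3 / 5) ≤ s)
    (hqf : q * b1 ≤ 1 / 16) :
    1 / 100 * (1 - δ * b) ≤ (1 / 2 + n * s) * (1 - δ * b) - n * (δ * q * b1) := by
  have hT : 5 / 10 ≤ 1 - δ * b := by nlinarith
  have h1 : -(7005 / 10000 * (3 / 5)) ≤ n * s := by nlinarith
  have h2 : (1 / 2 - 7005 / 10000 * (3 / 5) - 1 / 100) * (5 / 10) ≤
      (1 / 2 + n * s - 1 / 100) * (1 - δ * b) := by
    apply mul_le_mul (by linarith) hT (by norm_num)
    norm_num; linarith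
  have h3 : n * δ * (q * b1) ≤ 7005 / 10000 * (41574 / 100000) * (1 / 16) := by
    have a1 : n * δ ≤ 7005 / 10000 * (41574 / 100000) := mul_le_mul hn1 hδ2 hδ.le (by norm_num)
    have a2 : 0 ≤ n * δ := mul_nonneg hn hδ.le
    rcases le_or_gt 0 (q * b1) with g | g
    · exact mul_le_mul a1 hqf g (by norm_num)
    · have : n * δ * (q * b1) ≤ 0 := mul_nonpos_of_nonneg_of_nonpos a2 g.le
      refine this.trans (by norm_num)
  have e : n * (δ * q * b1) = n * δ * (q * b1) := by ring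
  rw [e]
  norm_num at h2 h3 ⊢
  nlinarith

/-- **C1 of NUMREF** -/
theorem c1 : PtNum_846.C1 where
  up := fun c W V I k h δ h1 h2 x y hy => by
    obtain ⟨y1, y2, y3, -⟩ := ybd h h1 h2 hy
    have hδ : δ * ((y - c) / δ) = y - c := by field_simp
    have e : Exx c y ((y - c) / δ) (1 + δ * b x) W V I b b1 b2 x =
        -Gr c (1 * δ) (1 * ((y - c) / δ)) (b x) (b1 x) (b2 x) (qx V I x) (k1x c W V I x)
          (sx c W V I x) (Jx c W V I x) := by
      have e1 : c + 1 * δ * (1 * ((y - c) / δ)) = y := by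
        rw [one_mul, one_mul, hδ]; ring
      unfold Exx Gr
      rw [e1]
      ring
    rw [e]
    have := slope h (σ := 1) (Or.inl rfl) h1 h2 (τ := (y - c) / δ)
      (by rw [le_div_iff₀ h1]; linarith) (by rw [div_le_iff₀ h1]; linarith)
      (by rw [mul_comm, hδ]; exact y3) x
    linarith
  low := fun c W V I k h δ h1 h2 x y hy => by
    obtain ⟨y1, y2, y3, -⟩ := ybd h h1 h2 hy
    have hδ : δ * ((y - c) / δ) = y - c := by field_simp
    have e : Exx c y (-((y - c) / δ)) (1 - δ * b x) W V I b b1 b2 x =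
        -Gr c (-1 * δ) (-1 * ((y - c) / δ)) (b x) (b1 x) (b2 x) (qx V I x) (k1x c W V I x)
          (sx c W V I x) (Jx c W V I x) := by
      have e1 : c + -1 * δ * (-1 * ((y - c) / δ)) = y := by
        have : -1 * δ * (-1 * ((y - c) / δ)) = δ * ((y - c) / δ) := by ring
        rw [this, hδ]; ring
      unfold Exx Gr
      rw [e1]
      ring
    rw [e]
    have := slope h (σ := -1) (Or.inr rfl) h1 h2 (τ := (y - c) / δ)
      (by rw [le_div_iff₀ h1]; linarith) (by rw [div_le_iff₀ h1]; linarith)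
      (by rw [mul_comm, hδ]; exact y3) x
    linarith
  conc := fun c W V I k h δ h1 h2 x => by
    obtain ⟨hc, hc1⟩ := c_bd h
    have hS := sides h x
    have e : 2 * δ * c * qx V I x * b1 x = 2 * (δ * c) * (qx V I x * b1 x) := by ring
    rw [e]
    have a1 : δ * c ≤ 18 / 100 := by nlinarith
    have a2 : 0 ≤ δ * c := by positivity
    have a3 : -(18 / 100 * (151 / 1000)) ≤ δ * c * (qx V I x * b1 x) := by
      have := hS.qf0
      nlinarith
    have a4 : 1 / 2 * (1 + δ * b x) ≤ Jx c W V I x * (1 + δ * b x) := by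
      apply mul_le_mul_of_nonneg_right hS.J0
      have := mul_nonneg h1.le hS.e0
      linarith
    have a5 := mul_nonneg h1.le hS.e0
    norm_num at a3
    linarith
  lin_p := fun c W V I k h δ h1 h2 x => by
    obtain ⟨hc, hc1⟩ := c_bd h
    obtain ⟨n0, n1⟩ := nu_bd h h1 h2
    have hS := sides h x
    set n := nu c δ (δ / 1000) with hn
    have a5 := mul_nonneg h1.le hS.e0
    have b1' : -(7005 / 10000 * (3 / 5)) ≤ n * sx c W V I x := by
      have := hS.s0
      nlinarith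
    have b2' : (1 / 2 - 7005 / 10000 * (3 / 5) - 1 / 100) * 1 ≤
        (1 / 2 + n * sx c W V I x - 1 / 100) * (1 + δ * b x) := by
      apply mul_le_mul (by linarith) (by linarith) (by norm_num)
      norm_num; linarith
    have b3' : -(7005 / 10000 * (41574 / 100000) * (151 / 1000)) ≤ n * δ * (qx V I x * b1 x) := by
      have a1 : n * δ ≤ 7005 / 10000 * (41574 / 100000) :=
        mul_le_mul n1 (by linarith) h1.le (by norm_num)
      have a2 : 0 ≤ n * δ := mul_nonneg n0 h1.le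
      have := hS.qf0
      nlinarith
    have e : n * (δ * qx V I x * b1 x) = n * δ * (qx V I x * b1 x) := by ring
    rw [e]
    norm_num at b2' b3' ⊢
    nlinarith
  lin_m := fun c W V I k h δ h1 h2 x => by
    obtain ⟨hc, hc1⟩ := c_bd h
    obtain ⟨n0, n1⟩ := nu_bd h h1 h2
    have hS := sides h x
    exact lin_m_aux h1 (by linarith) n0 n1 hS.e0 hS.e1 hS.s0 hS.qf1
  lin_m2 := fun c W V I k h δ h1 h2 x y hy => by
    obtain ⟨hc, hc1⟩ := c_bd h
    obtain ⟨n0, n1⟩ := nu_bd h h1 h2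
    have hS := sides h x
    have hy0 : 0 ≤ y ∧ y ≤ 7005 / 10000 := by
      rcases hy with rfl | rfl
      · norm_num
      · exact ⟨n0, n1⟩
    have k1 := lin_m_aux (n := y) h1 (by linarith) hy0.1 hy0.2 hS.e0 hS.e1 hS.s0 hS.qf1
    have hT : 5 / 10 ≤ 1 - δ * b x := by
      have := hS.e0
      have := hS.e1
      nlinarith
    have k2 : 0 ≤ Jx c W V I x * (1 - δ * b x) + δ * (b2 x + k1x c W V I x * b1 x) := by
      have a1 : 1 / 2 * (5 / 10) ≤ Jx c W V I x * (1 - δ * b x) :=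
        mul_le_mul hS.J0 hT (by norm_num) (by linarith [hS.J0])
      have a2 : -(41574 / 100000 * (1 / 2)) ≤ δ * (b2 x + k1x c W V I x * b1 x) := by
        have := hS.g0
        nlinarith
      norm_num at a1 a2
      linarith
    have k3 : 0 ≤ 1 / 2 * (1 - δ * b x) ^ 2 *
        (Jx c W V I x * (1 - δ * b x) + δ * (b2 x + k1x c W V I x * b1 x)) :=
      mul_nonneg (by positivity) k2
    linarith

end Crest.Agent.R146.C1_445
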