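import Crest.Agent.R146.C2Ex_454

/-!
# Row 146, helper454: law cells of NUMREF (C2), algebra

`QP`, `QS` : `q` times the potential and the law numerator; `up_val`, `dn_val` : the value of the
coefficient lists; `h_le`, `le_h...` : the level/slope term between its two forms; `vert_up`, `vert_dn` :
vertices in `(n, ν)`.
-/

set_option autoImplicit false

namespace Crest.Agent.R146.C2Alg_454

open PP865 EncR_848 PP4_454 C2Data_454 C2Eng_454 C2Ex_454

noncomputable section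

/-- `q` times the potential -/
def QP (q V k1 n δ r : ℝ) : ℝ := q * (1 - n) / 2 + (1 + δ * r) * (q * k1 + n * (q * V))

/-- `q` times the law numerator (divided by `δ`); `H = q h` -/
def QS (q V k k1 gQ gB n ν δ r H : ℝ) : ℝ :=
  r * (1 + δ * r / 2) * gQ + (H - q * k * r) * (k1 + n * V) + ν * gB

/-- `q h` of a form -/
def HF.val (H : HF) (w : ℕ → ℝ) (δ r : ℝ) : ℝ :=
  H.y0.evR w + r * H.y1.evR w + δ * (H.z0.evR w + r * H.y2.evR w)

theorem evR_1 (v : ℕ → ℝ) : (1 : Ex).evR v = 1 := by simpa using Ex.evR_ofNat v 1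

theorem up_val (w : ℕ → ℝ) (nA nB nu : Ex) (H : HF) (δ r : ℝ) :
    (up nA nB nu H).val w δ r
      = 1433 / 1024 * QP (w 7) (w 2) (w 5) (nA.evR w + nB.evR w * δ) δ r
        - QS (w 7) (w 2) (w 4) (w 5) (w 37) (w 40) (nA.evR w + nB.evR w * δ) (nu.evR w) δ r
            (HF.val H w δ r) := by
  simp only [up, cP, cS, C9.val, hf, Ex.evR_add, Ex.evR_mul, Ex.evR_sub, Ex.evR_neg, Ex.evR_cst,
    Ex.evR_var, evR_1, QP, QS, HF.val]
  norm_num
  ring

theorem dn_val (w : ℕ → ℝ) (nA nB nu : Ex) (H : HF) (δ r : ℝ) :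
    (dn nA nB nu H).val w δ r
      = 1177 / 1024 * QP (w 7) (w 2) (w 5) (nA.evR w + nB.evR w * δ) δ r
        + QS (w 7) (w 2) (w 4) (w 5) (w 37) (w 40) (nA.evR w + nB.evR w * δ) (nu.evR w) δ r
            (HF.val H w δ r) := by
  simp only [dn, cP, cS, C9.val, hf, Ex.evR_add, Ex.evR_mul, Ex.evR_sub, Ex.evR_cst,
    Ex.evR_var, evR_1, QP, QS, HF.val]
  norm_num
  ring

/-! ### the slope/level term -/

section hterm

variable {p q T R gT B β δ r ε : ℝ}

theorem h_le (hq : 0 < q) (hp : q * p = R) (hT : q * T = gT) (hβ : |β| ≤ B) (hδ : 0 ≤ δ)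
    (hε : 0 ≤ ε) (hpos : 0 ≤ p + δ * (T * r - ε)) :
    q * (β * p + (1 + δ * β) * (T * r - ε)) ≤ B * R + r * gT + δ * (r * (B * gT)) := by
  have hB := (abs_le.1 hβ).2
  have hB0 : 0 ≤ B := (abs_nonneg β).trans hβ
  have h1 : 0 ≤ (B - β) * (p + δ * (T * r - ε)) := mul_nonneg (by linarith) hpos
  have h2 : 0 ≤ (1 + δ * B) * ε := mul_nonneg (by positivity) hε
  have h3 := mul_nonneg hq.le (add_nonneg h1 h2)
  rw [← hp, ← hT]
  nlinarith [h3]

theorem le_h (hβ : |β| ≤ B) (hpos : 0 ≤ p + δ * (T * r - ε)) :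
    -B * p + (1 - δ * B) * (T * r - ε) ≤ β * p + (1 + δ * β) * (T * r - ε) := by
  have hB := (abs_le.1 hβ).1
  have h1 : 0 ≤ (β + B) * (p + δ * (T * r - ε)) := mul_nonneg (by linarith) hpos
  nlinarith [h1]

theorem le_h_T {K : ℝ} (hq : 0 < q) (hp : q * p = R) (hT : q * T = gT) (hβ : |β| ≤ B)
    (hδ : 0 ≤ δ) (hpos : 0 ≤ p + δ * (T * r - ε)) (hε : 0 ≤ ε) (hK : ε ≤ δ * K) :
    -(B * R) + r * gT + δ * (-(q * K) + r * (-(B * gT)))
      ≤ q * (β * p + (1 + δ * β) * (T * r - ε)) := by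
  have h0 := mul_le_mul_of_nonneg_left (le_h (T := T) (p := p) hβ hpos) hq.le
  refine le_trans ?_ h0
  have hB0 : 0 ≤ B := (abs_nonneg β).trans hβ
  have h2 : 0 ≤ δ * B * ε := by positivity
  have h3 := mul_nonneg hq.le h2
  have h4 := mul_le_mul_of_nonneg_left hK hq.le
  rw [← hp, ← hT]
  nlinarith [h3, h4]

theorem le_h_C0 (hq : 0 < q) (hp : q * p = R) (hβ : |β| ≤ B) (hδB : δ * B ≤ 1)
    (hpos : 0 ≤ p + δ * (T * r - ε)) (hc : ε ≤ (p - T) * (-r)) :
    -(B * R) + r * R + δ * (0 + r * (-(B * R)))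
      ≤ q * (β * p + (1 + δ * β) * (T * r - ε)) := by
  have h0 := mul_le_mul_of_nonneg_left (le_h (T := T) (p := p) hβ hpos) hq.le
  refine le_trans ?_ h0
  have h1 : 0 ≤ (1 - δ * B) * (T * r - ε - p * r) := mul_nonneg (by linarith) (by nlinarith)
  have h3 := mul_nonneg hq.le h1
  rw [← hp]
  nlinarith [h3]

theorem le_h_C1 {V IR : ℝ} (hq : 0 < q) (hp : q * p = R) (hV : q * IR = V) (hβ : |β| ≤ B)
    (hδB : δ * B ≤ 1) (hpos : 0 ≤ p + δ * (T * r - ε)) (hc : ε ≤ (IR + T) * r) :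
    -(B * R) + r * (-V) + δ * (0 + r * (B * V))
      ≤ q * (β * p + (1 + δ * β) * (T * r - ε)) := by
  have h0 := mul_le_mul_of_nonneg_left (le_h (T := T) (p := p) hβ hpos) hq.le
  refine le_trans ?_ h0
  have h1 : 0 ≤ (1 - δ * B) * (T * r - ε + IR * r) := mul_nonneg (by linarith) (by nlinarith)
  have h3 := mul_nonneg hq.le h1
  rw [← hp, ← hV]
  nlinarith [h3]

end hterm

/-! ### vertices in `(n, ν)` -/

section vertices

variable {q V k k1 gQ gB c δ r H Hu Hl f : ℝ}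

/-- `f QP + s QS`, affine in `(n, ν)` -/
theorem affine (s : ℝ) {n1 ν1 n2 ν2 t : ℝ} (ht0 : 0 ≤ t) (ht1 : t ≤ 1)
    (h1 : 0 < f * QP q V k1 n1 δ r + s * QS q V k k1 gQ gB n1 ν1 δ r H)
    (h2 : 0 < f * QP q V k1 n2 δ r + s * QS q V k k1 gQ gB n2 ν2 δ r H) :
    0 < f * QP q V k1 ((1 - t) * n1 + t * n2) δ r
      + s * QS q V k k1 gQ gB ((1 - t) * n1 + t * n2) ((1 - t) * ν1 + t * ν2) δ r H := by
  have e : f * QP q V k1 ((1 - t) * n1 + t * n2) δ r
      + s * QS q V k k1 gQ gB ((1 - t) * n1 + t * n2) ((1 - t) * ν1 + t * ν2) δ r H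
      = (1 - t) * (f * QP q V k1 n1 δ r + s * QS q V k k1 gQ gB n1 ν1 δ r H)
        + t * (f * QP q V k1 n2 δ r + s * QS q V k k1 gQ gB n2 ν2 δ r H) := by
    simp only [QP, QS]; ring
  rw [e]
  rcases eq_or_lt_of_le ht0 with h | h
  · rw [← h]; linarith
  · have := mul_pos h h2
    have := mul_nonneg (show 0 ≤ 1 - t by linarith) h1.le
    linarith

theorem QS_mono {n ν : ℝ} (hX : 0 ≤ k1 + n * V) (h : H ≤ Hu) :
    QS q V k k1 gQ gB n ν δ r H ≤ QS q V k k1 gQ gB n ν δ r Hu := by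
  have := mul_le_mul_of_nonneg_right h hX
  unfold QS
  nlinarith [this]

theorem QS_anti {n ν : ℝ} (hX : k1 + n * V ≤ 0) (h : Hl ≤ H) :
    QS q V k k1 gQ gB n ν δ r H ≤ QS q V k k1 gQ gB n ν δ r Hl := by
  have := mul_le_mul_of_nonpos_right h hX
  unfold QS
  nlinarith [this]

/-- upper side -/
theorem vert_up {n ν : ℝ} (hV : 0 ≤ V) (hc1 : 435929 / 2 ^ 20 ≤ c)
    (hδ : 0 < δ) (hu : H ≤ Hu)
    (hX : 0 ≤ k1 + c * V)
    (hn : n = c + δ * ν) (hν : |ν| ≤ 1001 / 1000) (hn7 : n ≤ 7 / 10 + δ / 1000)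
    (hδ3 : δ ≤ 1703 / 4096)
    (u0 : δ ≤ 1166 / 4096 → 0 < f * QP q V k1 (c + 4101 / 4096 * δ) δ r
      - QS q V k k1 gQ gB (c + 4101 / 4096 * δ) (4101 / 4096) δ r Hu)
    (uE : 1166 / 4096 ≤ δ → 0 < f * QP q V k1 (5738 / 8192) δ r
      - QS q V k k1 gQ gB (5738 / 8192) (4101 / 4096) δ r Hu)
    (uL : 1166 / 4096 ≤ δ → 0 < f * QP q V k1 (5738 / 8192) δ r
      - QS q V k k1 gQ gB (5738 / 8192) (2804 / 4096) δ r Hu)
    (u2 : 0 < f * QP q V k1 (c + -(4101 / 4096) * δ) δ r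
      - QS q V k k1 gQ gB (c + -(4101 / 4096) * δ) (-(4101 / 4096)) δ r H) (hc2 : c ≤ 435931 / 2 ^ 20) :
    0 < f * QP q V k1 n δ r - QS q V k k1 gQ gB n ν δ r H := by
  obtain ⟨hν1, hν2⟩ := abs_le.1 hν
  have key : ∃ ν2 : ℝ, ν ≤ ν2 ∧ -1 ≤ ν2 ∧ 0 < f * QP q V k1 (c + δ * ν2) δ r
      + (-1) * QS q V k k1 gQ gB (c + δ * ν2) ν2 δ r H := by
    rcases le_total δ (1166 / 4096) with h | h
    · refine ⟨4101 / 4096, by linarith, by norm_num, ?_⟩
      have h1 := u0 h
      have h2 : 0 ≤ k1 + (c + 4101 / 4096 * δ) * V := by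
        have : 0 ≤ 4101 / 4096 * δ * V := by positivity
        nlinarith
      have h3 := QS_mono (q := q) (k := k) (gQ := gQ) (gB := gB) (δ := δ) (r := r)
        (ν := 4101 / 4096) h2 hu
      have e : c + δ * (4101 / 4096) = c + 4101 / 4096 * δ := by ring
      rw [e]
      linarith
    · refine ⟨(5738 / 8192 - c) / δ, ?_, ?_, ?_⟩
      · rw [le_div_iff₀ hδ]
        have : ν * δ = n - c := by rw [hn]; ring
        rw [this]
        linarith
      · rw [le_div_iff₀ hδ]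
        norm_num at hc2
        linarith
      · have e : c + δ * ((5738 / 8192 - c) / δ) = 5738 / 8192 := by
          field_simp
          ring
        rw [e]
        set ν2 := (5738 / 8192 - c) / δ with hν2'
        have h1 : ν2 ≤ 4101 / 4096 := by
          rw [hν2', div_le_iff₀ hδ]
          norm_num at hc1
          linarith
        have h2 : 2804 / 4096 ≤ ν2 := by
          rw [hν2', le_div_iff₀ hδ]
          norm_num at hc2
          linarith
        have a1 := uL h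
        have a2 := uE h
        have hX' : 0 ≤ k1 + 5738 / 8192 * V := by
          norm_num at hc2
          nlinarith
        have b1 := QS_mono (q := q) (k := k) (gQ := gQ) (gB := gB) (δ := δ) (r := r)
          (ν := 2804 / 4096) hX' hu
        have b2 := QS_mono (q := q) (k := k) (gQ := gQ) (gB := gB) (δ := δ) (r := r)
          (ν := 4101 / 4096) hX' hu
        have := affine (q := q) (V := V) (k := k) (k1 := k1) (gQ := gQ) (gB := gB) (δ := δ)
          (r := r) (H := H) (f := f) (-1) (n1 := 5738 / 8192) (ν1 := 2804 / 4096)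
          (n2 := 5738 / 8192) (ν2 := 4101 / 4096)
          (t := (ν2 - 2804 / 4096) / (4101 / 4096 - 2804 / 4096))
          (div_nonneg (by linarith) (by norm_num)) ((div_le_one (by norm_num)).2 (by linarith))
          (by linarith) (by linarith)
        have e1 : (1 - (ν2 - 2804 / 4096) / (4101 / 4096 - 2804 / 4096)) * (5738 / 8192 : ℝ)
            + (ν2 - 2804 / 4096) / (4101 / 4096 - 2804 / 4096) * (5738 / 8192) = 5738 / 8192 := by
          ring
        have e2 : (1 - (ν2 - 2804 / 4096) / (4101 / 4096 - 2804 / 4096)) * (2804 / 4096 : ℝ)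
            + (ν2 - 2804 / 4096) / (4101 / 4096 - 2804 / 4096) * (4101 / 4096) = ν2 := by
          ring
        rw [e1, e2] at this
        exact this
  obtain ⟨ν2, h1, h2, h3⟩ := key
  have h4 : 0 < f * QP q V k1 (c + -(4101 / 4096) * δ) δ r
      + (-1) * QS q V k k1 gQ gB (c + -(4101 / 4096) * δ) (-(4101 / 4096)) δ r H := by linarith
  have hd : 0 < ν2 + 4101 / 4096 := by linarith
  have := affine (-1) (t := (ν + 4101 / 4096) / (ν2 + 4101 / 4096))
    (div_nonneg (by linarith) hd.le) ((div_le_one hd).2 (by linarith)) h4 h3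
  have he : (ν + 4101 / 4096) / (ν2 + 4101 / 4096) * (ν2 + 4101 / 4096) = ν + 4101 / 4096 :=
    div_mul_cancel₀ _ hd.ne'
  have e2 : (1 - (ν + 4101 / 4096) / (ν2 + 4101 / 4096)) * (-(4101 / 4096))
      + (ν + 4101 / 4096) / (ν2 + 4101 / 4096) * ν2 = ν := by
    linear_combination he
  have e1 : (1 - (ν + 4101 / 4096) / (ν2 + 4101 / 4096)) * (c + -(4101 / 4096) * δ)
      + (ν + 4101 / 4096) / (ν2 + 4101 / 4096) * (c + δ * ν2) = n := by
    rw [hn]
    linear_combination δ * e2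
  rw [e1, e2] at this
  linarith

/-- lower side -/
theorem vert_dn {n ν : ℝ} (hV : 0 ≤ V) (hδ : 0 < δ) (hl : Hl ≤ H)
    (hX : 0 ≤ k1 + c * V) (hn : n = c + δ * ν) (hν : |ν| ≤ 1001 / 1000)
    (d0 : 0 < f * QP q V k1 (c + 4101 / 4096 * δ) δ r
      + QS q V k k1 gQ gB (c + 4101 / 4096 * δ) (4101 / 4096) δ r Hl)
    (d2 : 0 < f * QP q V k1 (c + -(4101 / 4096) * δ) δ r
      + QS q V k k1 gQ gB (c + -(4101 / 4096) * δ) (-(4101 / 4096)) δ r H) :
    0 < f * QP q V k1 n δ r + QS q V k k1 gQ gB n ν δ r H := by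
  obtain ⟨hν1, hν2⟩ := abs_le.1 hν
  have h2 : 0 ≤ k1 + (c + 4101 / 4096 * δ) * V := by
    have : 0 ≤ 4101 / 4096 * δ * V := by positivity
    nlinarith
  have h3 := QS_mono (q := q) (k := k) (gQ := gQ) (gB := gB) (δ := δ) (r := r)
    (ν := 4101 / 4096) h2 hl
  have := affine (q := q) (V := V) (k := k) (k1 := k1) (gQ := gQ) (gB := gB) (δ := δ)
    (r := r) (H := H) (f := f) 1 (n1 := c + -(4101 / 4096) * δ) (ν1 := -(4101 / 4096))
    (n2 := c + 4101 / 4096 * δ) (ν2 := 4101 / 4096)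
    (t := (ν + 4101 / 4096) / (4101 / 2048))
    (div_nonneg (by linarith) (by norm_num)) ((div_le_one (by norm_num)).2 (by linarith))
    (by linarith) (by linarith)
  have e2 : (1 - (ν + 4101 / 4096) / (4101 / 2048)) * (-(4101 / 4096))
      + (ν + 4101 / 4096) / (4101 / 2048) * (4101 / 4096) = ν := by ring
  have e1 : (1 - (ν + 4101 / 4096) / (4101 / 2048)) * (c + -(4101 / 4096) * δ)
      + (ν + 4101 / 4096) / (4101 / 2048) * (c + 4101 / 4096 * δ) = n := by
    rw [hn]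
    linear_combination δ * e2
  rw [e1, e2] at this
  linarith

end vertices

end

end Crest.Agent.R146.C2Alg_454
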