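import Crest.Agent.R146.MaxPCmp2_371
import Crest.Agent.R146.StepDef_791

/-!
Row 146, PT-CMP, piece C2 (helper177): barriers for the log-density slope `Y = -(log p)_x` that are functions of
`η = s w`, `w = x + u`, `s = χ^{-1/2}` (or `τ^{-1/2}`), with transients.

Scaled notation (`y = b/s²`, `v = V`, `I = P/s`, `η = s w`, `ζ = s u`):
the barrier is `S = s (F(η) + θ (B + p η + q ζ))` and

`(S_xx/2 - (S + b u) S_x + b (1-V) S + b P - S_t)/s³ = Res ω y k θ B p q v I η ζ F(η) F'(η) F''(η)`.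

For `θ = 0` this is the stationary expression of the law in the coordinate `η`:
`v² F''/2 + (I - F v - (1+ω y) η/2) F' - ((1+ω y)/2 - y (1-v)) F + y I`.
-/

set_option autoImplicit false

open Set Filter Topology

namespace Crest.Agent.R146.YW_177

open MaxP_371 MaxP2_371 MaxPCmp_371 MaxPCmp2_371

/-- left-derivative data of the backward fields -/
structure LSys (t0 t1 : ℝ) (b : ℝ → ℝ) (u V P : ℝ → ℝ → ℝ) : Prop where
  hut : ∀ t ∈ Ioc t0 t1, ∀ x,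
    HasDerivWithinAt (fun s => u s x) (-(P t x / 2 + b t * u t x * V t x)) (Iic t) t
  hux : ∀ t ∈ Ioc t0 t1, ∀ x, HasDerivAt (u t) (V t x - 1) x
  hVx : ∀ t ∈ Ioc t0 t1, ∀ x, HasDerivAt (V t) (P t x) x
  cu : ContinuousOn (fun p : ℝ × ℝ => u p.1 p.2) (strip t0 t1)
  V_pos : ∀ t ∈ Icc t0 t1, ∀ x, 0 < V t x
  V_lt : ∀ t ∈ Icc t0 t1, ∀ x, V t x < 1
  P_nonneg : ∀ t ∈ Icc t0 t1, ∀ x, 0 ≤ P t x
  u_pos : ∀ t ∈ Icc t0 t1, ∀ x, 0 < u t x
  w_pos : ∀ t ∈ Icc t0 t1, ∀ x, 0 < x + u t x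

/-- a clock factor `s` with `s' = (1+ω b/s²)/2 s³` and a transient `θ' = -k θ s²`, left derivatives -/
structure LClock (t0 t1 : ℝ) (b s th : ℝ → ℝ) (ω k : ℝ) : Prop where
  hs : ∀ t ∈ Ioc t0 t1,
    HasDerivWithinAt s ((1 + ω * (b t / s t ^ 2)) / 2 * s t ^ 3) (Iic t) t
  cs : ContinuousOn s (Icc t0 t1)
  s_pos : ∀ t ∈ Icc t0 t1, 0 < s t
  hth : ∀ t ∈ Ioc t0 t1, HasDerivWithinAt th (-(k * th t * s t ^ 2)) (Iic t) t
  cth : ContinuousOn th (Icc t0 t1)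

/-- the barrier -/
noncomputable def Sb (s th : ℝ → ℝ) (u : ℝ → ℝ → ℝ) (F : ℝ → ℝ) (B p q : ℝ) (t x : ℝ) : ℝ :=
  s t * (F (s t * (x + u t x)) +
    th t * (B + p * (s t * (x + u t x)) + q * (s t * u t x)))

/-- the scaled residual -/
noncomputable def Res (ω y k θ B p q v I η ζ F F1 F2 : ℝ) : ℝ :=
  v ^ 2 * F2 / 2 + (F1 + (p + q) * θ + y) * I
    - (F + θ * (B + p * η + q * ζ)) * (v * F1 + θ * (p * v - q * (1 - v)) - y * (1 - v))
    + q * θ * y * ζ - (1 + ω * y) / 2 * F - (1 + ω * y) / 2 * η * F1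
    - θ * (B * ((1 + ω * y) / 2 - k) + ((1 + ω * y) - k) * (p * η + q * ζ))

/-- the stationary expression of the law in the coordinate `η` -/
noncomputable def LStat (ω y v I η F F1 F2 : ℝ) : ℝ :=
  v ^ 2 * F2 / 2 + (I - F * v - (1 + ω * y) / 2 * η) * F1
    - ((1 + ω * y) / 2 - y * (1 - v)) * F + y * I

lemma res_eq (ω y k θ B p q v I η ζ F F1 F2 : ℝ) :
    Res ω y k θ B p q v I η ζ F F1 F2 = LStat ω y v I η F F1 F2
      + θ * ((p + q) * I - (B + p * η + q * ζ) * (v * F1 - y * (1 - v))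
          - F * (p * v - q * (1 - v)) + q * y * ζ
          - B * ((1 + ω * y) / 2 - k) - ((1 + ω * y) - k) * (p * η + q * ζ))
      - θ ^ 2 * (B + p * η + q * ζ) * (p * v - q * (1 - v)) := by
  unfold Res LStat; ring

section main

variable {t0 t1 : ℝ} {b : ℝ → ℝ} {u V P Y Yx Yxx : ℝ → ℝ → ℝ} {M : ℝ} {s th : ℝ → ℝ} {ω k : ℝ}
  {F F1 F2 : ℝ → ℝ} {B p q : ℝ}

/-- space derivative of the barrier -/
noncomputable def Sbx (s th : ℝ → ℝ) (u V : ℝ → ℝ → ℝ) (F1 : ℝ → ℝ) (p q : ℝ) (t x : ℝ) : ℝ :=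
  s t ^ 2 * (V t x * F1 (s t * (x + u t x)) + th t * (p * V t x - q * (1 - V t x)))

/-- second space derivative of the barrier -/
noncomputable def Sbxx (s th : ℝ → ℝ) (u V P : ℝ → ℝ → ℝ) (F1 F2 : ℝ → ℝ) (p q : ℝ) (t x : ℝ) : ℝ :=
  s t ^ 2 * (P t x * F1 (s t * (x + u t x)) + V t x * (F2 (s t * (x + u t x)) * (s t * V t x))
    + th t * ((p + q) * P t x))

/-- left time derivative of the barrier -/
noncomputable def Sbt (b s th : ℝ → ℝ) (ω k : ℝ) (u V P : ℝ → ℝ → ℝ) (F F1 : ℝ → ℝ) (B p q : ℝ)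
    (t x : ℝ) : ℝ :=
  (1 + ω * (b t / s t ^ 2)) / 2 * s t ^ 3 *
      (F (s t * (x + u t x)) + th t * (B + p * (s t * (x + u t x)) + q * (s t * u t x)))
  + s t * (F1 (s t * (x + u t x)) *
        ((1 + ω * (b t / s t ^ 2)) / 2 * s t ^ 3 * (x + u t x) +
          s t * (-(P t x / 2 + b t * u t x * V t x)))
      + (-(k * th t * s t ^ 2) * (B + p * (s t * (x + u t x)) + q * (s t * u t x))
        + th t * (p * ((1 + ω * (b t / s t ^ 2)) / 2 * s t ^ 3 * (x + u t x) +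
            s t * (-(P t x / 2 + b t * u t x * V t x)))
          + q * ((1 + ω * (b t / s t ^ 2)) / 2 * s t ^ 3 * u t x +
            s t * (-(P t x / 2 + b t * u t x * V t x))))))

lemma Sb_t (hL : LSys t0 t1 b u V P) (hC : LClock t0 t1 b s th ω k)
    (hF : ∀ η, 0 < η → HasDerivAt F (F1 η) η) {t : ℝ} (ht : t ∈ Ioc t0 t1) (x : ℝ) :
    HasDerivWithinAt (fun r => Sb s th u F B p q r x) (Sbt b s th ω k u V P F F1 B p q t x)
      (Iic t) t := by
  have htI : t ∈ Icc t0 t1 := ⟨ht.1.le, ht.2⟩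
  have hsp := hC.s_pos t htI
  have hw := hL.w_pos t htI x
  have h1 := hC.hs t ht
  have h2 : HasDerivWithinAt (fun r => x + u r x) (-(P t x / 2 + b t * u t x * V t x)) (Iic t) t :=
    (hL.hut t ht x).const_add x
  have h3 := h1.mul h2
  have h4 := (hF _ (mul_pos hsp hw)).comp_hasDerivWithinAt t h3
  have h5 := h1.mul (hL.hut t ht x)
  have h6 := (hC.hth t ht).mul (((h3.const_mul p).const_add B).add (h5.const_mul q))
  have h7 := h1.mul (h4.add h6)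
  exact h7

lemma Sb_x (hL : LSys t0 t1 b u V P) (hC : LClock t0 t1 b s th ω k)
    (hF : ∀ η, 0 < η → HasDerivAt F (F1 η) η) {t : ℝ} (ht : t ∈ Ioc t0 t1) (x : ℝ) :
    HasDerivAt (Sb s th u F B p q t) (Sbx s th u V F1 p q t x) x := by
  have htI : t ∈ Icc t0 t1 := ⟨ht.1.le, ht.2⟩
  have hsp := hC.s_pos t htI
  have hw := hL.w_pos t htI x
  have h2 : HasDerivAt (fun y => y + u t y) (V t x) x := by
    have := (hasDerivAt_id x).add (hL.hux t ht x)
    refine this.congr_deriv ?_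
    ring
  have h3 := h2.const_mul (s t)
  have h4 := (hF _ (mul_pos hsp hw)).comp x h3
  have h5 := (hL.hux t ht x).const_mul (s t)
  have h6 := (((h3.const_mul p).const_add B).add (h5.const_mul q)).const_mul (th t)
  have h7 := (h4.add h6).const_mul (s t)
  refine h7.congr_deriv ?_
  unfold Sbx
  ring

lemma Sb_xx (hL : LSys t0 t1 b u V P) (hC : LClock t0 t1 b s th ω k)
    (hF1 : ∀ η, 0 < η → HasSide F1 (F2 η) η) {t : ℝ} (ht : t ∈ Ioc t0 t1) (x : ℝ) :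
    HasSide (Sbx s th u V F1 p q t) (Sbxx s th u V P F1 F2 p q t x) x := by
  have htI : t ∈ Icc t0 t1 := ⟨ht.1.le, ht.2⟩
  have hsp := hC.s_pos t htI
  have hw := hL.w_pos t htI x
  have h2 : ∀ y, HasDerivAt (fun y => y + u t y) (V t y) y := by
    intro y
    have := (hasDerivAt_id y).add (hL.hux t ht y)
    refine this.congr_deriv ?_
    ring
  have h3 : HasDerivAt (fun y => s t * (y + u t y)) (s t * V t x) x := (h2 x).const_mul (s t)
  have hmono : Monotone (fun y => s t * (y + u t y)) := by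
    apply monotone_of_deriv_nonneg
    · intro y; exact ((h2 y).const_mul (s t)).differentiableAt
    · intro y
      rw [((h2 y).const_mul (s t)).deriv]
      exact mul_nonneg hsp.le (hL.V_pos t htI y).le
  have hV := hL.hVx t ht x
  have hlin : HasDerivAt (fun y => th t * (p * V t y - q * (1 - V t y)))
      (th t * ((p + q) * P t x)) x := by
    have := ((hV.const_mul p).sub ((hV.const_sub 1).const_mul q)).const_mul (th t)
    refine this.congr_deriv ?_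
    ring
  rcases hF1 _ (mul_pos hsp hw) with h | h
  · left
    have hmaps : MapsTo (fun y => s t * (y + u t y)) (Ici x) (Ici (s t * (x + u t x))) :=
      fun y hy => hmono hy
    have h4 : HasDerivWithinAt (fun y => F1 (s t * (y + u t y)))
        (F2 (s t * (x + u t x)) * (s t * V t x)) (Ici x) x :=
      h.comp x h3.hasDerivWithinAt hmaps
    have h5 := ((hV.hasDerivWithinAt.mul h4).add hlin.hasDerivWithinAt).const_mul (s t ^ 2)
    exact h5
  · right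
    have hmaps : MapsTo (fun y => s t * (y + u t y)) (Iic x) (Iic (s t * (x + u t x))) :=
      fun y hy => hmono hy
    have h4 : HasDerivWithinAt (fun y => F1 (s t * (y + u t y)))
        (F2 (s t * (x + u t x)) * (s t * V t x)) (Iic x) x :=
      h.comp x h3.hasDerivWithinAt hmaps
    have h5 := ((hV.hasDerivWithinAt.mul h4).add hlin.hasDerivWithinAt).const_mul (s t ^ 2)
    exact h5

lemma Sb_cont (hL : LSys t0 t1 b u V P) (hC : LClock t0 t1 b s th ω k)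
    (hF : ∀ η, 0 < η → HasDerivAt F (F1 η) η) :
    ContinuousOn (fun r : ℝ × ℝ => Sb s th u F B p q r.1 r.2) (strip t0 t1) := by
  have cs : ContinuousOn (fun r : ℝ × ℝ => s r.1) (strip t0 t1) :=
    hC.cs.comp continuous_fst.continuousOn (fun r hr => hr.1)
  have cth : ContinuousOn (fun r : ℝ × ℝ => th r.1) (strip t0 t1) :=
    hC.cth.comp continuous_fst.continuousOn (fun r hr => hr.1)
  have cw : ContinuousOn (fun r : ℝ × ℝ => s r.1 * (r.2 + u r.1 r.2)) (strip t0 t1) :=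
    cs.mul (continuous_snd.continuousOn.add hL.cu)
  have cF : ContinuousOn F (Ioi 0) := fun η hη => (hF η hη).continuousAt.continuousWithinAt
  have cFw : ContinuousOn (fun r : ℝ × ℝ => F (s r.1 * (r.2 + u r.1 r.2))) (strip t0 t1) :=
    cF.comp cw (fun r hr => mul_pos (hC.s_pos r.1 hr.1) (hL.w_pos r.1 hr.1 r.2))
  exact cs.mul (cFw.add (cth.mul ((continuousOn_const.add (continuousOn_const.mul cw)).add
    (continuousOn_const.mul (cs.mul hL.cu)))))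

lemma Sb_fbar (hL : LSys t0 t1 b u V P) (hC : LClock t0 t1 b s th ω k)
    (hF : ∀ η, 0 < η → HasDerivAt F (F1 η) η) (hF1 : ∀ η, 0 < η → HasSide F1 (F2 η) η) :
    FBar t0 t1 (Sb s th u F B p q) (Sbt b s th ω k u V P F F1 B p q) (Sbx s th u V F1 p q)
      (Sbxx s th u V P F1 F2 p q) where
  cS := Sb_cont hL hC hF
  hSt t ht x := Sb_t hL hC hF ht x
  hSx t ht x := Sb_x hL hC hF ht x
  hSxx t ht x := Sb_xx hL hC hF1 ht x

/-- **the residual identity** -/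
lemma residual {t x : ℝ} (hs : 0 < s t) :
    Sbxx s th u V P F1 F2 p q t x / 2
      - (Sb s th u F B p q t x + b t * u t x) * Sbx s th u V F1 p q t x
      + b t * (1 - V t x) * Sb s th u F B p q t x + b t * P t x
      - Sbt b s th ω k u V P F F1 B p q t x
    = s t ^ 3 * Res ω (b t / s t ^ 2) k (th t) B p q (V t x) (P t x / s t)
        (s t * (x + u t x)) (s t * u t x)
        (F (s t * (x + u t x))) (F1 (s t * (x + u t x))) (F2 (s t * (x + u t x))) := by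
  unfold Sbxx Sb Sbx Sbt Res
  generalize F (s t * (x + u t x)) = f
  generalize F1 (s t * (x + u t x)) = f1
  generalize F2 (s t * (x + u t x)) = f2
  have hs' : s t ≠ 0 := hs.ne'
  field_simp
  ring

/-- **law barrier in the coordinate `η = s w`, upper.** -/
theorem law_le (hY : YSys t0 t1 b u V P Y Yx Yxx M) (hL : LSys t0 t1 b u V P)
    (hC : LClock t0 t1 b s th ω k)
    (hF : ∀ η, 0 < η → HasDerivAt F (F1 η) η) (hF1 : ∀ η, 0 < η → HasSide F1 (F2 η) η) {L : ℝ}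
    (hlow : ∀ t ∈ Icc t0 t1, ∀ x, -(L * (1 + |x|)) ≤ Sb s th u F B p q t x)
    (hslope : ∀ t ∈ Ioc t0 t1, ∀ x, -L ≤ Sbx s th u V F1 p q t x)
    (hres : ∀ t ∈ Ioc t0 t1, ∀ x,
      Res ω (b t / s t ^ 2) k (th t) B p q (V t x) (P t x / s t)
        (s t * (x + u t x)) (s t * u t x)
        (F (s t * (x + u t x))) (F1 (s t * (x + u t x))) (F2 (s t * (x + u t x))) ≤ 0)
    (hinit : ∀ x, Y t0 x ≤ Sb s th u F B p q t0 x) :
    ∀ t ∈ Icc t0 t1, ∀ x, Y t x ≤ Sb s th u F B p q t x := by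
  refine Y_le_bar hY (Sb_fbar hL hC hF hF1) hlow hslope ?_ hinit
  intro t ht x
  have hs := hC.s_pos t ⟨ht.1.le, ht.2⟩
  have h1 := residual (b := b) (s := s) (th := th) (ω := ω) (k := k) (u := u) (V := V) (P := P)
    (F := F) (F1 := F1) (F2 := F2) (B := B) (p := p) (q := q) (t := t) (x := x) hs
  have h2 := mul_nonpos_of_nonneg_of_nonpos (pow_nonneg hs.le 3) (hres t ht x)
  linarith

/-- **law barrier in the coordinate `η = s w`, lower.** -/
theorem le_law (hY : YSys t0 t1 b u V P Y Yx Yxx M) (hL : LSys t0 t1 b u V P)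
    (hC : LClock t0 t1 b s th ω k)
    (hF : ∀ η, 0 < η → HasDerivAt F (F1 η) η) (hF1 : ∀ η, 0 < η → HasSide F1 (F2 η) η) {L : ℝ}
    (hup : ∀ t ∈ Icc t0 t1, ∀ x, Sb s th u F B p q t x ≤ L * (1 + |x|))
    (hslope : ∀ t ∈ Ioc t0 t1, ∀ x, -L ≤ Sbx s th u V F1 p q t x)
    (hres : ∀ t ∈ Ioc t0 t1, ∀ x,
      0 ≤ Res ω (b t / s t ^ 2) k (th t) B p q (V t x) (P t x / s t)
        (s t * (x + u t x)) (s t * u t x)
        (F (s t * (x + u t x))) (F1 (s t * (x + u t x))) (F2 (s t * (x + u t x))))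
    (hinit : ∀ x, Sb s th u F B p q t0 x ≤ Y t0 x) :
    ∀ t ∈ Icc t0 t1, ∀ x, Sb s th u F B p q t x ≤ Y t x := by
  refine bar_le_Y hY (Sb_fbar hL hC hF hF1) hup hslope ?_ hinit
  intro t ht x
  have hs := hC.s_pos t ⟨ht.1.le, ht.2⟩
  have h1 := residual (b := b) (s := s) (th := th) (ω := ω) (k := k) (u := u) (V := V) (P := P)
    (F := F) (F1 := F1) (F2 := F2) (B := B) (p := p) (q := q) (t := t) (x := x) hs
  have h2 := mul_nonneg (pow_nonneg hs.le 3) (hres t ht x)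
  linarith

end main

/-! ### Ready forms with transients -/

section ready

variable {t0 t1 : ℝ} {b : ℝ → ℝ} {u V P Y Yx Yxx : ℝ → ℝ → ℝ} {M : ℝ} {s th : ℝ → ℝ} {ω k : ℝ}
  {F F1 F2 : ℝ → ℝ} {B : ℝ}

/-- the potential of the linearised law operator -/
noncomputable def Pot (ω y v F1 : ℝ) : ℝ := (1 + ω * y) / 2 - y * (1 - v) + v * F1

/-- upper: the residual with `p = 1`, `q = 0`, `θ ≥ 0` -/
lemma res_up {y θ v I η ζ F F1 F2 μ Im Fm : ℝ} (hω0 : 0 ≤ ω) (hy : 0 ≤ y) (hv0 : 0 ≤ v)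
    (hv1 : v ≤ 1) (hη : 0 ≤ η) (hθ : 0 ≤ θ) (hB : 0 ≤ B) (hk2 : k ≤ 1 / 2) (hFm0 : 0 ≤ Fm)
    (hμk : Im + Fm ≤ B * (μ - k)) (hpos : 0 ≤ μ)
    (hpot : μ ≤ Pot ω y v F1) (hI : I ≤ Im) (hF : -Fm ≤ F)
    (hst : LStat ω y v I η F F1 F2 ≤ 0) :
    Res ω y k θ B 1 0 v I η ζ F F1 F2 ≤ 0 := by
  rw [res_eq]
  unfold Pot at hpot
  have h1 : (1 + 0) * I - (B + 1 * η + 0 * ζ) * (v * F1 - y * (1 - v)) - F * (1 * v - 0 * (1 - v))
      + 0 * y * ζ - B * ((1 + ω * y) / 2 - k) - ((1 + ω * y) - k) * (1 * η + 0 * ζ)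
      = (I - F * v) - B * ((1 + ω * y) / 2 - y * (1 - v) + v * F1 - k)
        - η * ((1 + ω * y) / 2 - y * (1 - v) + v * F1 + ((1 + ω * y) / 2 - k)) := by ring
  rw [h1]
  have h2 : I - F * v ≤ Im + Fm := by nlinarith
  have h3 : B * (μ - k) ≤ B * ((1 + ω * y) / 2 - y * (1 - v) + v * F1 - k) :=
    mul_le_mul_of_nonneg_left (by linarith) hB
  have h4 : 0 ≤ η * ((1 + ω * y) / 2 - y * (1 - v) + v * F1 + ((1 + ω * y) / 2 - k)) := by
    apply mul_nonneg hη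
    have := mul_nonneg hω0 hy
    linarith
  have h5 : (I - F * v) - B * ((1 + ω * y) / 2 - y * (1 - v) + v * F1 - k)
        - η * ((1 + ω * y) / 2 - y * (1 - v) + v * F1 + ((1 + ω * y) / 2 - k)) ≤ 0 := by linarith
  have h6 := mul_nonpos_of_nonneg_of_nonpos hθ h5
  have h7 : 0 ≤ θ ^ 2 * (B + 1 * η + 0 * ζ) * (1 * v - 0 * (1 - v)) := by
    have : 0 ≤ θ ^ 2 * (B + 1 * η + 0 * ζ) := by
      apply mul_nonneg (sq_nonneg θ); linarith
    apply mul_nonneg this; linarith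
  linarith

/-- lower: the residual with `p = 0`, `q = 1`, `θ ≤ 0`, new clock, `y ≤ 1` -/
lemma res_low {y θ v I η ζ F F1 F2 μ Im Fm : ℝ} (_hy : 0 ≤ y) (hy1 : y ≤ 1) (hv0 : 0 ≤ v)
    (hv1 : v ≤ 1) (hζ : 0 ≤ ζ) (hθ : θ ≤ 0) (hB : 0 ≤ B) (hkμ : k ≤ μ) (hFm0 : 0 ≤ Fm)
    (hμk : Im + Fm ≤ B * (μ - k))
    (hpot : μ ≤ Pot 1 y v F1) (hI : I ≤ Im) (hF : F ≤ Fm)
    (hst : 0 ≤ LStat 1 y v I η F F1 F2) :
    0 ≤ Res 1 y k θ B 0 1 v I η ζ F F1 F2 := by
  rw [res_eq]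
  unfold Pot at hpot
  have h1 : (0 + 1) * I - (B + 0 * η + 1 * ζ) * (v * F1 - y * (1 - v)) - F * (0 * v - 1 * (1 - v))
      + 1 * y * ζ - B * ((1 + 1 * y) / 2 - k) - ((1 + 1 * y) - k) * (0 * η + 1 * ζ)
      = (I + F * (1 - v)) - B * ((1 + 1 * y) / 2 - y * (1 - v) + v * F1 - k)
        - ζ * ((1 + 1 * y) / 2 - y * (1 - v) + v * F1 - k + (1 - y) / 2) := by ring
  rw [h1]
  have h2 : I + F * (1 - v) ≤ Im + Fm := by nlinarith
  have h3 : B * (μ - k) ≤ B * ((1 + 1 * y) / 2 - y * (1 - v) + v * F1 - k) :=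
    mul_le_mul_of_nonneg_left (by linarith) hB
  have h4 : 0 ≤ ζ * ((1 + 1 * y) / 2 - y * (1 - v) + v * F1 - k + (1 - y) / 2) := by
    apply mul_nonneg hζ
    linarith
  have h5 : (I + F * (1 - v)) - B * ((1 + 1 * y) / 2 - y * (1 - v) + v * F1 - k)
        - ζ * ((1 + 1 * y) / 2 - y * (1 - v) + v * F1 - k + (1 - y) / 2) ≤ 0 := by linarith
  have h6 := mul_nonneg_of_nonpos_of_nonpos hθ h5
  have h7 : θ ^ 2 * (B + 0 * η + 1 * ζ) * (0 * v - 1 * (1 - v)) ≤ 0 := by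
    have : 0 ≤ θ ^ 2 * (B + 0 * η + 1 * ζ) := by
      apply mul_nonneg (sq_nonneg θ); linarith
    apply mul_nonpos_of_nonneg_of_nonpos this; linarith
  linarith

lemma clock_bdd (hC : LClock t0 t1 b s th ω k) : ∃ G, 0 < G ∧ ∀ t ∈ Icc t0 t1, s t ≤ G := by
  obtain ⟨G, hG⟩ := (isCompact_Icc.image_of_continuousOn hC.cs).bddAbove
  refine ⟨max G 1, lt_max_of_lt_right one_pos, fun t ht => le_max_of_le_left (hG ⟨t, ht, rfl⟩)⟩

/-- **law barrier with transient, upper**: `Y ≤ s (F(s w) + θ (B + s w))`. -/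
theorem law_le_trans (hY : YSys t0 t1 b u V P Y Yx Yxx M) (hL : LSys t0 t1 b u V P)
    (hC : LClock t0 t1 b s th ω k) (hω0 : 0 ≤ ω) (hω1 : ω ≤ 1)
    (hF : ∀ η, 0 < η → HasDerivAt F (F1 η) η) (hF1 : ∀ η, 0 < η → HasSide F1 (F2 η) η)
    (hk2 : k ≤ 1 / 2) (hB : 0 ≤ B) (hth : ∀ t ∈ Icc t0 t1, 0 ≤ th t) {μ Im Fm : ℝ}
    (hFm0 : 0 ≤ Fm) (hμ : 0 ≤ μ) (hμk : Im + Fm ≤ B * (μ - k))
    (hFm : ∀ η, 0 < η → -Fm ≤ F η)
    (hpot : ∀ t ∈ Ioc t0 t1, ∀ x, μ ≤ Pot ω (b t / s t ^ 2) (V t x) (F1 (s t * (x + u t x))))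
    (hI : ∀ t ∈ Ioc t0 t1, ∀ x, P t x / s t ≤ Im)
    (hst : ∀ t ∈ Ioc t0 t1, ∀ x, LStat ω (b t / s t ^ 2) (V t x) (P t x / s t)
      (s t * (x + u t x)) (F (s t * (x + u t x))) (F1 (s t * (x + u t x)))
      (F2 (s t * (x + u t x))) ≤ 0)
    (hinit : ∀ x, Y t0 x ≤ s t0 * (F (s t0 * (x + u t0 x)) + th t0 * (B + s t0 * (x + u t0 x)))) :
    ∀ t ∈ Icc t0 t1, ∀ x,
      Y t x ≤ s t * (F (s t * (x + u t x)) + th t * (B + s t * (x + u t x))) := by
  obtain ⟨G, hG0, hG⟩ := clock_bdd hC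
  have hSb : ∀ t x, Sb s th u F B 1 0 t x =
      s t * (F (s t * (x + u t x)) + th t * (B + s t * (x + u t x))) := by
    intro t x; unfold Sb; ring
  have key := law_le (p := 1) (q := 0) (B := B) (L := G * Fm + G ^ 2 / 2 + M / 2 + 1) hY hL hC hF hF1
    ?_ ?_ ?_ ?_
  · intro t ht x
    have := key t ht x
    rwa [hSb] at this
  · intro t ht x
    rw [hSb]
    have hsp := hC.s_pos t ht
    have hw := hL.w_pos t ht x
    have h1 := hFm _ (mul_pos hsp hw)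
    have h2 : 0 ≤ th t * (B + s t * (x + u t x)) :=
      mul_nonneg (hth t ht) (by have := mul_pos hsp hw; linarith)
    have h3 : -(s t * Fm) ≤ s t * (F (s t * (x + u t x)) + th t * (B + s t * (x + u t x))) := by
      have := mul_le_mul_of_nonneg_left (show -Fm ≤ F (s t * (x + u t x)) +
        th t * (B + s t * (x + u t x)) by linarith) hsp.le
      linarith
    have h4 : s t * Fm ≤ G * Fm := mul_le_mul_of_nonneg_right (hG t ht) hFm0
    have hM : 0 ≤ M := (hY.b_nonneg t ht).trans (hY.b_le t ht)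
    have h5 : G * Fm ≤ (G * Fm + G ^ 2 / 2 + M / 2 + 1) * (1 + |x|) := by
      have h6 : 0 ≤ |x| := abs_nonneg x
      have h7 : 0 ≤ G * Fm := mul_nonneg hG0.le hFm0
      have h8 : 0 ≤ G ^ 2 := sq_nonneg G
      nlinarith [mul_nonneg h7 h6, mul_nonneg h8 h6, mul_nonneg hM h6]
    linarith
  · intro t ht x
    have htI : t ∈ Icc t0 t1 := ⟨ht.1.le, ht.2⟩
    have hsp := hC.s_pos t htI
    have h1 := hpot t ht x
    unfold Pot at h1
    have hb := hY.b_nonneg t htI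
    have hbM := hY.b_le t htI
    have hv0 := hL.V_pos t htI x
    have hv1 := hL.V_lt t htI x
    have hy : b t / s t ^ 2 * s t ^ 2 = b t := by field_simp
    have hy0 : 0 ≤ b t / s t ^ 2 := by positivity
    have h2 : -(1 / 2) * s t ^ 2 - ω * b t / 2 ≤ s t ^ 2 * (V t x * F1 (s t * (x + u t x))) := by
      have h3 : -(1 / 2) - ω * (b t / s t ^ 2) / 2 ≤ V t x * F1 (s t * (x + u t x)) := by
        have : 0 ≤ b t / s t ^ 2 * (1 - V t x) := mul_nonneg hy0 (by linarith)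
        linarith
      have h4 := mul_le_mul_of_nonneg_left h3 (sq_nonneg (s t))
      have h5 : s t ^ 2 * (-(1 / 2) - ω * (b t / s t ^ 2) / 2) =
          -(1 / 2) * s t ^ 2 - ω * (b t / s t ^ 2 * s t ^ 2) / 2 := by ring
      rw [h5, hy] at h4
      exact h4
    have h6 : s t ^ 2 ≤ G ^ 2 := pow_le_pow_left₀ hsp.le (hG t htI) 2
    have h7 : ω * b t ≤ M := by nlinarith
    have h8 : 0 ≤ s t ^ 2 * (th t * (1 * V t x - 0 * (1 - V t x))) := by
      have := hth t htI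
      have h9 : 0 ≤ th t * (1 * V t x - 0 * (1 - V t x)) := mul_nonneg this (by linarith)
      exact mul_nonneg (sq_nonneg _) h9
    have h9 : 0 ≤ G * Fm := mul_nonneg hG0.le hFm0
    unfold Sbx
    rw [mul_add]
    linarith
  · intro t ht x
    have htI : t ∈ Icc t0 t1 := ⟨ht.1.le, ht.2⟩
    have hsp := hC.s_pos t htI
    have hw := hL.w_pos t htI x
    exact res_up hω0 (div_nonneg (hY.b_nonneg t htI) (sq_nonneg _)) (hL.V_pos t htI x).le
      (hL.V_lt t htI x).le (mul_pos hsp hw).le (hth t htI) hB hk2 hFm0 hμk hμ (hpot t ht x)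
      (hI t ht x) (hFm _ (mul_pos hsp hw)) (hst t ht x)
  · intro x
    rw [hSb]
    exact hinit x

/-- **law barrier with transient, lower** (new clock, `y ≤ 1`): `s (F(s w) - θ (B + s u)) ≤ Y`. -/
theorem le_law_trans (hY : YSys t0 t1 b u V P Y Yx Yxx M) (hL : LSys t0 t1 b u V P)
    (hC : LClock t0 t1 b s th 1 k)
    (hF : ∀ η, 0 < η → HasDerivAt F (F1 η) η) (hF1 : ∀ η, 0 < η → HasSide F1 (F2 η) η)
    (hB : 0 ≤ B) (hth : ∀ t ∈ Icc t0 t1, 0 ≤ th t) {μ Im Fm : ℝ}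
    (hFm0 : 0 ≤ Fm) (hμk0 : k ≤ μ) (hμk : Im + Fm ≤ B * (μ - k))
    (hFm : ∀ η, 0 < η → F η ≤ Fm)
    (hy1 : ∀ t ∈ Ioc t0 t1, b t / s t ^ 2 ≤ 1)
    (hpot : ∀ t ∈ Ioc t0 t1, ∀ x, μ ≤ Pot 1 (b t / s t ^ 2) (V t x) (F1 (s t * (x + u t x))))
    (hμ : 0 ≤ μ)
    (hI : ∀ t ∈ Ioc t0 t1, ∀ x, P t x / s t ≤ Im)
    (hst : ∀ t ∈ Ioc t0 t1, ∀ x, 0 ≤ LStat 1 (b t / s t ^ 2) (V t x) (P t x / s t)
      (s t * (x + u t x)) (F (s t * (x + u t x))) (F1 (s t * (x + u t x)))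
      (F2 (s t * (x + u t x))))
    (hinit : ∀ x, s t0 * (F (s t0 * (x + u t0 x)) - th t0 * (B + s t0 * u t0 x)) ≤ Y t0 x) :
    ∀ t ∈ Icc t0 t1, ∀ x,
      s t * (F (s t * (x + u t x)) - th t * (B + s t * u t x)) ≤ Y t x := by
  obtain ⟨G, hG0, hG⟩ := clock_bdd hC
  have hC' : LClock t0 t1 b s (fun t => -th t) 1 k :=
    { hs := hC.hs, cs := hC.cs, s_pos := hC.s_pos, cth := hC.cth.neg
      hth := fun t ht => by
        have := (hC.hth t ht).neg
        refine this.congr_deriv ?_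
        ring }
  have hSb : ∀ t x, Sb s (fun t => -th t) u F B 0 1 t x =
      s t * (F (s t * (x + u t x)) - th t * (B + s t * u t x)) := by
    intro t x; unfold Sb; ring
  have key := le_law (p := 0) (q := 1) (B := B) (L := G * Fm + G ^ 2 / 2 + M / 2 + 1) hY hL hC' hF hF1
    ?_ ?_ ?_ ?_
  · intro t ht x
    have := key t ht x
    rwa [hSb] at this
  · intro t ht x
    rw [hSb]
    have hsp := hC.s_pos t ht
    have hw := hL.w_pos t ht x
    have hu := hL.u_pos t ht x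
    have h1 := hFm _ (mul_pos hsp hw)
    have h2 : 0 ≤ th t * (B + s t * u t x) :=
      mul_nonneg (hth t ht) (by have := mul_pos hsp hu; linarith)
    have h3 : s t * (F (s t * (x + u t x)) - th t * (B + s t * u t x)) ≤ s t * Fm :=
      mul_le_mul_of_nonneg_left (by linarith) hsp.le
    have h4 : s t * Fm ≤ G * Fm := mul_le_mul_of_nonneg_right (hG t ht) hFm0
    have hM : 0 ≤ M := (hY.b_nonneg t ht).trans (hY.b_le t ht)
    have h5 : G * Fm ≤ (G * Fm + G ^ 2 / 2 + M / 2 + 1) * (1 + |x|) := by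
      have h6 : 0 ≤ |x| := abs_nonneg x
      have h7 : 0 ≤ G * Fm := mul_nonneg hG0.le hFm0
      have h8 : 0 ≤ G ^ 2 := sq_nonneg G
      nlinarith [mul_nonneg h7 h6, mul_nonneg h8 h6, mul_nonneg hM h6]
    linarith
  · intro t ht x
    have htI : t ∈ Icc t0 t1 := ⟨ht.1.le, ht.2⟩
    have hsp := hC.s_pos t htI
    have h1 := hpot t ht x
    unfold Pot at h1
    have hb := hY.b_nonneg t htI
    have hbM := hY.b_le t htI
    have hv0 := hL.V_pos t htI x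
    have hv1 := hL.V_lt t htI x
    have hy : b t / s t ^ 2 * s t ^ 2 = b t := by field_simp
    have hy0 : 0 ≤ b t / s t ^ 2 := by positivity
    have h2 : -(1 / 2) * s t ^ 2 - b t / 2 ≤ s t ^ 2 * (V t x * F1 (s t * (x + u t x))) := by
      have h3 : -(1 / 2) - (b t / s t ^ 2) / 2 ≤ V t x * F1 (s t * (x + u t x)) := by
        have : 0 ≤ b t / s t ^ 2 * (1 - V t x) := mul_nonneg hy0 (by linarith)
        linarith
      have h4 := mul_le_mul_of_nonneg_left h3 (sq_nonneg (s t))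
      have h5 : s t ^ 2 * (-(1 / 2) - (b t / s t ^ 2) / 2) =
          -(1 / 2) * s t ^ 2 - (b t / s t ^ 2 * s t ^ 2) / 2 := by ring
      rw [h5, hy] at h4
      exact h4
    have h6 : s t ^ 2 ≤ G ^ 2 := pow_le_pow_left₀ hsp.le (hG t htI) 2
    have h8 : 0 ≤ s t ^ 2 * (-th t * (0 * V t x - 1 * (1 - V t x))) := by
      have := hth t htI
      have h9 : 0 ≤ -th t * (0 * V t x - 1 * (1 - V t x)) := by
        have h10 : -th t * (0 * V t x - 1 * (1 - V t x)) = th t * (1 - V t x) := by ring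
        rw [h10]
        exact mul_nonneg this (by linarith)
      exact mul_nonneg (sq_nonneg _) h9
    have h9 : 0 ≤ G * Fm := mul_nonneg hG0.le hFm0
    unfold Sbx
    rw [mul_add]
    linarith
  · intro t ht x
    have htI : t ∈ Icc t0 t1 := ⟨ht.1.le, ht.2⟩
    have hsp := hC.s_pos t htI
    have hw := hL.w_pos t htI x
    have hu := hL.u_pos t htI x
    exact res_low (div_nonneg (hY.b_nonneg t htI) (sq_nonneg _)) (hy1 t ht) (hL.V_pos t htI x).le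
      (hL.V_lt t htI x).le (mul_pos hsp hu).le (by have := hth t htI; linarith) hB hμk0 hFm0 hμk
      (hpot t ht x) (hI t ht x) (hFm _ (mul_pos hsp hw)) (hst t ht x)
  · intro x
    rw [hSb]
    exact hinit x

/-- adding a constant `C` to the reference costs `C * Pot` -/
lemma lstat_add (ω y v I η Lm L1 L2 C : ℝ) :
    LStat ω y v I η (Lm + C) L1 L2 = LStat ω y v I η Lm L1 L2 - C * Pot ω y v L1 := by
  unfold LStat Pot; ring

/-- **REF form, upper**: reference slope `Λ(η)`, constant `C = f δ`, source `≤ C * Pot`. -/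
theorem ref_law_le (hY : YSys t0 t1 b u V P Y Yx Yxx M) (hL : LSys t0 t1 b u V P)
    (hC : LClock t0 t1 b s th ω k) (hω0 : 0 ≤ ω) (hω1 : ω ≤ 1)
    {Λ Λ1 Λ2 : ℝ → ℝ} {C : ℝ}
    (hF : ∀ η, 0 < η → HasDerivAt Λ (Λ1 η) η) (hF1 : ∀ η, 0 < η → HasSide Λ1 (Λ2 η) η)
    (hk2 : k ≤ 1 / 2) (hB : 0 ≤ B) (hth : ∀ t ∈ Icc t0 t1, 0 ≤ th t) {μ Im : ℝ}
    (hμ : 0 ≤ μ) (hμk : Im ≤ B * (μ - k))
    (hΛ : ∀ η, 0 < η → 0 ≤ Λ η + C)
    (hpot : ∀ t ∈ Ioc t0 t1, ∀ x, μ ≤ Pot ω (b t / s t ^ 2) (V t x) (Λ1 (s t * (x + u t x))))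
    (hI : ∀ t ∈ Ioc t0 t1, ∀ x, P t x / s t ≤ Im)
    (hsrc : ∀ t ∈ Ioc t0 t1, ∀ x, LStat ω (b t / s t ^ 2) (V t x) (P t x / s t)
      (s t * (x + u t x)) (Λ (s t * (x + u t x))) (Λ1 (s t * (x + u t x)))
      (Λ2 (s t * (x + u t x))) ≤
        C * Pot ω (b t / s t ^ 2) (V t x) (Λ1 (s t * (x + u t x))))
    (hinit : ∀ x, Y t0 x ≤
      s t0 * (Λ (s t0 * (x + u t0 x)) + C + th t0 * (B + s t0 * (x + u t0 x)))) :
    ∀ t ∈ Icc t0 t1, ∀ x,
      Y t x ≤ s t * (Λ (s t * (x + u t x)) + C + th t * (B + s t * (x + u t x))) :=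
  law_le_trans (F := fun η => Λ η + C) (F1 := Λ1) (F2 := Λ2) (Fm := 0) hY hL hC hω0 hω1
    (fun η hη => (hF η hη).add_const C) hF1 hk2 hB hth le_rfl hμ (by linarith)
    (fun η hη => by have := hΛ η hη; linarith) hpot hI
    (fun t ht x => by
      have h1 := hsrc t ht x
      rw [lstat_add]
      linarith) hinit

/-- **REF form, lower** (new clock, `y ≤ 1`): reference slope `Λ(η)`, constant `C = f δ`. -/
theorem le_ref_law (hY : YSys t0 t1 b u V P Y Yx Yxx M) (hL : LSys t0 t1 b u V P)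
    (hC : LClock t0 t1 b s th 1 k)
    {Λ Λ1 Λ2 : ℝ → ℝ} {C : ℝ}
    (hF : ∀ η, 0 < η → HasDerivAt Λ (Λ1 η) η) (hF1 : ∀ η, 0 < η → HasSide Λ1 (Λ2 η) η)
    (hB : 0 ≤ B) (hth : ∀ t ∈ Icc t0 t1, 0 ≤ th t) {μ Im Lm : ℝ}
    (hμ : 0 ≤ μ) (hkμ : k ≤ μ) (hLm : 0 ≤ Lm) (hμk : Im + Lm ≤ B * (μ - k))
    (hC0 : 0 ≤ C) (hΛ : ∀ η, 0 < η → Λ η ≤ Lm)
    (hy1 : ∀ t ∈ Ioc t0 t1, b t / s t ^ 2 ≤ 1)
    (hpot : ∀ t ∈ Ioc t0 t1, ∀ x, μ ≤ Pot 1 (b t / s t ^ 2) (V t x) (Λ1 (s t * (x + u t x))))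
    (hI : ∀ t ∈ Ioc t0 t1, ∀ x, P t x / s t ≤ Im)
    (hsrc : ∀ t ∈ Ioc t0 t1, ∀ x,
      -(C * Pot 1 (b t / s t ^ 2) (V t x) (Λ1 (s t * (x + u t x)))) ≤
      LStat 1 (b t / s t ^ 2) (V t x) (P t x / s t)
      (s t * (x + u t x)) (Λ (s t * (x + u t x))) (Λ1 (s t * (x + u t x)))
      (Λ2 (s t * (x + u t x))))
    (hinit : ∀ x,
      s t0 * (Λ (s t0 * (x + u t0 x)) - C - th t0 * (B + s t0 * u t0 x)) ≤ Y t0 x) :
    ∀ t ∈ Icc t0 t1, ∀ x,
      s t * (Λ (s t * (x + u t x)) - C - th t * (B + s t * u t x)) ≤ Y t x :=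
  le_law_trans (F := fun η => Λ η - C) (F1 := Λ1) (F2 := Λ2) (Fm := Lm) hY hL hC
    (fun η hη => (hF η hη).sub_const C) hF1 hB hth hLm hkμ hμk
    (fun η hη => by have := hΛ η hη; linarith) hy1 hpot hμ hI
    (fun t ht x => by
      have h1 := hsrc t ht x
      have h2 := lstat_add 1 (b t / s t ^ 2) (V t x) (P t x / s t)
        (s t * (x + u t x)) (Λ (s t * (x + u t x))) (Λ1 (s t * (x + u t x)))
        (Λ2 (s t * (x + u t x))) (-C)
      have h3 : Λ (s t * (x + u t x)) - C = Λ (s t * (x + u t x)) + -C := by ring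
      simp only [h3]
      rw [h2]
      linarith) hinit

/-- **window form, upper**: constant barrier `c`: `Y ≤ s (c + θ (B + s w))`. -/
theorem const_law_le (hY : YSys t0 t1 b u V P Y Yx Yxx M) (hL : LSys t0 t1 b u V P)
    (hC : LClock t0 t1 b s th ω k) (hω0 : 0 ≤ ω) (hω1 : ω ≤ 1) {c : ℝ} (hc : 0 ≤ c)
    (hk2 : k ≤ 1 / 2) (hB : 0 ≤ B) (hth : ∀ t ∈ Icc t0 t1, 0 ≤ th t) {μ Im : ℝ}
    (hμ : 0 ≤ μ) (hμk : Im ≤ B * (μ - k))
    (hpot : ∀ t ∈ Ioc t0 t1, ∀ x,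
      μ ≤ (1 + ω * (b t / s t ^ 2)) / 2 - b t / s t ^ 2 * (1 - V t x))
    (hI : ∀ t ∈ Ioc t0 t1, ∀ x, P t x / s t ≤ Im)
    (hsrc : ∀ t ∈ Ioc t0 t1, ∀ x, b t / s t ^ 2 * (P t x / s t) ≤
        c * ((1 + ω * (b t / s t ^ 2)) / 2 - b t / s t ^ 2 * (1 - V t x)))
    (hinit : ∀ x, Y t0 x ≤ s t0 * (c + th t0 * (B + s t0 * (x + u t0 x)))) :
    ∀ t ∈ Icc t0 t1, ∀ x, Y t x ≤ s t * (c + th t * (B + s t * (x + u t x))) :=
  law_le_trans (F := fun _ => c) (F1 := fun _ => 0) (F2 := fun _ => 0) (Fm := 0) hY hL hC hω0 hω1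
    (fun η _ => hasDerivAt_const η c) (fun η _ => HasSide.of_hasDerivAt (hasDerivAt_const η 0))
    hk2 hB hth le_rfl hμ (by linarith) (fun η _ => by linarith)
    (fun t ht x => by have := hpot t ht x; unfold Pot; linarith) hI
    (fun t ht x => by have := hsrc t ht x; unfold LStat; linarith) hinit

/-- **window form, lower** (new clock, `y ≤ 1`): `-s θ (B + s u) ≤ Y` (the law is asymptotically decreasing). -/
theorem neg_le_law (hY : YSys t0 t1 b u V P Y Yx Yxx M) (hL : LSys t0 t1 b u V P)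
    (hC : LClock t0 t1 b s th 1 k) (hB : 0 ≤ B) (hth : ∀ t ∈ Icc t0 t1, 0 ≤ th t) {μ Im : ℝ}
    (hμ : 0 ≤ μ) (hkμ : k ≤ μ) (hμk : Im ≤ B * (μ - k))
    (hy1 : ∀ t ∈ Ioc t0 t1, b t / s t ^ 2 ≤ 1)
    (hpot : ∀ t ∈ Ioc t0 t1, ∀ x,
      μ ≤ (1 + b t / s t ^ 2) / 2 - b t / s t ^ 2 * (1 - V t x))
    (hI : ∀ t ∈ Ioc t0 t1, ∀ x, P t x / s t ≤ Im)
    (hinit : ∀ x, -(s t0 * (th t0 * (B + s t0 * u t0 x))) ≤ Y t0 x) :
    ∀ t ∈ Icc t0 t1, ∀ x, -(s t * (th t * (B + s t * u t x))) ≤ Y t x := by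
  have key := le_law_trans (F := fun _ => 0) (F1 := fun _ => 0) (F2 := fun _ => 0) (Fm := 0)
    hY hL hC (fun η _ => hasDerivAt_const η 0)
    (fun η _ => HasSide.of_hasDerivAt (hasDerivAt_const η 0)) hB hth le_rfl hkμ
    (by linarith) (fun η _ => le_rfl) hy1
    (fun t ht x => by have := hpot t ht x; unfold Pot; linarith) hμ hI
    (fun t ht x => by
      have htI : t ∈ Icc t0 t1 := ⟨ht.1.le, ht.2⟩
      have h1 : 0 ≤ b t / s t ^ 2 * (P t x / s t) :=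
        mul_nonneg (div_nonneg (hY.b_nonneg t htI) (sq_nonneg _))
          (div_nonneg (hL.P_nonneg t htI x) (hC.s_pos t htI).le)
      unfold LStat; linarith)
    (fun x => by have := hinit x; linarith)
  intro t ht x
  have := key t ht x
  linarith

end ready

/-! ### The step system -/

section step

open StepDef_791

/-- `Back A` gives the left data on `[t0, T]` -/
theorem LSys.of_back {A : SD} (hA : Back A) {t0 : ℝ} (h0 : 0 ≤ t0) :
    LSys t0 A.T A.bl A.u A.V A.P := by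
  obtain ⟨M, h⟩ := hA.bsys
  have hsub : ∀ {t}, t ∈ Icc t0 A.T → t ∈ Icc 0 A.T := fun ht => ⟨h0.trans ht.1, ht.2⟩
  have hsubo : ∀ {t}, t ∈ Ioc t0 A.T → t ∈ Ioc 0 A.T := fun ht => ⟨h0.trans_lt ht.1, ht.2⟩
  have hsubc : ∀ {t}, t ∈ Ioc t0 A.T → t ∈ Icc 0 A.T := fun ht => ⟨h0.trans ht.1.le, ht.2⟩
  exact
    { hut := fun t ht x => hA.u_tl t (hsubo ht) x
      hux := fun t ht x => hA.u_x t (hsubc ht) x
      hVx := fun t ht x => hA.V_x t (hsubc ht) x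
      cu := h.cu.mono (prod_mono (fun t ht => hsub ht) le_rfl)
      V_pos := fun t ht x => h.V_pos t (hsub ht) x
      V_lt := fun t ht x => h.V_lt t (hsub ht) x
      P_nonneg := fun t ht x => (hA.P_pos t (hsub ht) x).le
      u_pos := fun t ht x => hA.u_pos t (hsub ht) x
      w_pos := fun t ht x => hA.w_pos t (hsub ht) x }

/-- the clock factor of the new clock -/
noncomputable def sN (A : SD) (t : ℝ) : ℝ := (Real.sqrt (A.chi t))⁻¹

/-- the transient of the new clock -/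
noncomputable def thN (A : SD) (t0 θ0 k t : ℝ) : ℝ := θ0 * (A.K0 t / A.K0 t0) ^ k

lemma sN_pos {A : SD} (hC : Clock A) {t : ℝ} (ht : t < 1) : 0 < sN A t :=
  inv_pos.2 (Real.sqrt_pos.2 (hC.chi_pos t ht))

lemma sN_sq {A : SD} (hC : Clock A) {t : ℝ} (ht : t < 1) : sN A t ^ 2 = (A.chi t)⁻¹ := by
  unfold sN
  rw [inv_pow, Real.sq_sqrt (hC.chi_pos t ht).le]

/-- `bl/s² = ml K0` -/
lemma y_eq {A : SD} (hC : Clock A) {t : ℝ} (ht : t < 1) :
    A.bl t / sN A t ^ 2 = A.ml t * A.K0 t := by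
  rw [sN_sq hC ht]
  unfold SD.bl SD.chi
  have := (A.D_pos t).ne'
  field_simp

lemma thN_pos {A : SD} (hC : Clock A) {t0 θ0 k t : ℝ} (h0 : t0 < 1) (ht : t < 1) (hθ : 0 < θ0) :
    0 < thN A t0 θ0 k t :=
  mul_pos hθ (Real.rpow_pos_of_pos (div_pos (hC.K0_pos _ ht) (hC.K0_pos _ h0)) _)

lemma thN_nonneg {A : SD} (hC : Clock A) {t0 θ0 k t : ℝ} (h0 : t0 < 1) (ht : t < 1) (hθ : 0 ≤ θ0) :
    0 ≤ thN A t0 θ0 k t :=
  mul_nonneg hθ (Real.rpow_nonneg (div_pos (hC.K0_pos _ ht) (hC.K0_pos _ h0)).le _)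

lemma thN_self {A : SD} (hC : Clock A) {t0 θ0 k : ℝ} (h0 : t0 < 1) : thN A t0 θ0 k t0 = θ0 := by
  unfold thN
  rw [div_self (hC.K0_pos _ h0).ne', Real.one_rpow, mul_one]

/-- the new clock of the step system -/
theorem lclock_new {A : SD} (hC : Clock A) {t0 : ℝ} (h0 : 0 < t0) (h1 : t0 < 1) (θ0 k : ℝ) :
    LClock t0 A.T A.bl (sN A) (thN A t0 θ0 k) 1 k where
  hs t ht := by
    have ht0 : t ∈ Ioc 0 A.T := ⟨h0.trans ht.1, ht.2⟩
    have ht1 : t < 1 := ht.2.trans_lt A.hT1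
    have hchi := hC.chi_pos t ht1
    have h2 := (hC.chi_tl t ht0).sqrt hchi.ne'
    have h3 := h2.inv (Real.sqrt_pos.2 hchi).ne'
    refine h3.congr_deriv ?_
    rw [y_eq hC ht1]
    unfold sN
    have h4 : Real.sqrt (A.chi t) ^ 2 = A.chi t := Real.sq_sqrt hchi.le
    have h5 : Real.sqrt (A.chi t) ≠ 0 := (Real.sqrt_pos.2 hchi).ne'
    field_simp
  cs := by
    intro t ht
    have ht1 : t < 1 := ht.2.trans_lt A.hT1
    have hchi := hC.chi_pos t ht1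
    have hK : ContinuousAt A.K0 t := (hC.K0_t t ⟨h0.le.trans ht.1, ht.2⟩).continuousAt
    have h2 : ContinuousAt A.chi t := (hC.D_cont.continuousAt).mul hK
    exact ((h2.sqrt).inv₀ (Real.sqrt_pos.2 hchi).ne').continuousWithinAt
  s_pos t ht := sN_pos hC (ht.2.trans_lt A.hT1)
  hth t ht := by
    have ht0 : t ∈ Icc 0 A.T := ⟨(h0.trans ht.1).le, ht.2⟩
    have ht1 : t < 1 := ht.2.trans_lt A.hT1
    have hK := hC.K0_pos t ht1
    have hK0 := hC.K0_pos t0 h1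
    have h2 := (((hC.K0_t t ht0).div_const (A.K0 t0)).rpow_const (p := k)
      (Or.inl (div_pos hK hK0).ne')).const_mul θ0
    refine (h2.congr_deriv ?_).hasDerivWithinAt
    rw [sN_sq hC ht1]
    unfold thN SD.chi SD.E
    rw [Real.rpow_sub_one (div_pos hK hK0).ne']
    have hKK := hK.ne'
    have hKK0 := hK0.ne'
    have hDD := (A.D_pos t).ne'
    field_simp
  cth := by
    intro t ht
    have ht1 : t < 1 := ht.2.trans_lt A.hT1
    have hK := hC.K0_pos t ht1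
    have hK0 := hC.K0_pos t0 h1
    have h2 : ContinuousAt A.K0 t := (hC.K0_t t ⟨h0.le.trans ht.1, ht.2⟩).continuousAt
    exact (((h2.div_const _).rpow_const (Or.inl (div_pos hK hK0).ne')).const_mul θ0).continuousWithinAt

end step

end Crest.Agent.R146.YW_177
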