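import Crest.Agent.R146.SPair_307
import Crest.Agent.R146.SlopeT_371
import Crest.Agent.R146.YW_177

/-!
Row 146, PT (helper846): the INTERFACE between the static certificates (NUMREF) and the comparison
theorems of the step system, in the clock `χ = D K0` (`ω = 1`).

A window step `[lo,hi] → [tlo,thi]` of `Y = m K0` is certified by functions of ONE variable, `WData`:

* slope barriers `K± (v)`:            `(1-ε) K₋(V) ≤ √χ V_x ≤ (1+ε) K₊(V)`;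
* static positions `N± (v)`, `Ub (v)`: `N₋(V) ≤ w/√χ ≤ N₊(V)`, `u/√χ ≤ Ub(V)` (from the slope band);
* law barriers `F± (η)`, `η = w/√χ`:   `F₋(η) ≤ -√χ (log p)_x ≤ F₊(η)`;
* closure duals `G± (v)`:              `E_p[I G'(V) - L G(V)] = 0`, hence the sign of `E_p[I²] - 2 T E_p[V R²]`.

All inequalities are robust: they hold for `n ∈ [lo-e0, hi+e0]`, for the band and the positions enlarged by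
the factors `1 ± e0`; so transients can be taken to be `≤ e0`.  `NUMREF` : for the CLOSED stationary pair
(`λ = c`) the window `[c-δ, c+δ] ∩ [0, 7/10]` steps to `[c - gr δ, c + gr δ]` for every `δ ≤ c`.
-/

set_option autoImplicit false

namespace Crest.Agent.R146.PtRef_846

open Set Filter Topology MeasureTheory ProbabilityTheory
open Crest.Agent.R146.MaxP2_371 Crest.Agent.R146.SlopeT_371 Crest.Agent.R146.YW_177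
open Crest.Agent.R146.SPair_307

noncomputable section

/-- `Φ(z) = P(g ≤ z)` -/
def Ph (z : ℝ) : ℝ := (gaussianReal 0 1).real (Iic z)

/-- potential of the law in the coordinate `η`: `(1+n)/2 - n (1-v) + v F'` -/
def PotR (n v F1 : ℝ) : ℝ := (1 + n) / 2 - n * (1 - v) + v * F1

/-- closure expression at level `v`: `J² - 2 T v (1-v)² - J G'(v) + L G(v)` -/
def CloR (T v J L G G1 : ℝ) : ℝ := J ^ 2 - 2 * T * (v * (1 - v) ^ 2) - J * G1 + L * G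

/-- linear part of `Stat 1`: `(1+n) K/2 + n (v(1-v)K' - (2-3v)K)` -/
def LinR (n v K K1 : ℝ) : ℝ := (1 + n) * K / 2 + n * (v * (1 - v) * K1 - (2 - 3 * v) * K)

/-- the functions of a window step; `K, N, Ub, G` are functions of `v ∈ (0,1)`, `F` of `η ∈ (0,∞)` -/
structure WData where
  Kp : ℝ → ℝ
  Kp1 : ℝ → ℝ
  Kp2 : ℝ → ℝ
  Km : ℝ → ℝ
  Km1 : ℝ → ℝ
  Km2 : ℝ → ℝ
  Np : ℝ → ℝ
  Np1 : ℝ → ℝ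
  Nm : ℝ → ℝ
  Nm1 : ℝ → ℝ
  Ub : ℝ → ℝ
  Ub1 : ℝ → ℝ
  Fp : ℝ → ℝ
  Fp1 : ℝ → ℝ
  Fp2 : ℝ → ℝ
  Fm : ℝ → ℝ
  Fm1 : ℝ → ℝ
  Fm2 : ℝ → ℝ
  Gp : ℝ → ℝ
  Gp1 : ℝ → ℝ
  Gm : ℝ → ℝ
  Gm1 : ℝ → ℝ

/-- admissible level `v`, position `η`, slope `J` (with the margin `e0`) -/
structure AdmR (e0 : ℝ) (D : WData) (v η J : ℝ) : Prop where
  v_pos : 0 < v
  v_lt : v < 1
  η_pos : 0 < η
  η_lo : (1 - e0) * D.Nm v ≤ η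
  η_hi : η ≤ (1 + e0) * D.Np v
  J_lo : (1 - e0) * D.Km v ≤ J
  J_hi : J ≤ (1 + e0) * D.Kp v

/-- **window step** `[lo,hi] → [tlo,thi]` in the clock `χ = D K0`; `κ > 0` a rate, `M` a bound -/
structure WS (lo hi tlo thi e0 κ M : ℝ) (D : WData) : Prop where
  lo_nonneg : 0 ≤ lo
  lo_le : lo ≤ hi
  hi_lt : hi + e0 < 1
  e0_pos : 0 < e0
  e0_le : e0 ≤ 1 / 100
  κ_pos : 0 < κ
  M_pos : 0 < M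
  -- slope barriers
  Kp_pos : ∀ v ∈ Ioo (0:ℝ) 1, 0 < D.Kp v
  Km_pos : ∀ v ∈ Ioo (0:ℝ) 1, 0 < D.Km v
  Kp_le : ∀ v ∈ Ioo (0:ℝ) 1, D.Kp v ≤ M
  Km_le : ∀ v ∈ Ioo (0:ℝ) 1, D.Km v ≤ D.Kp v
  dKp : ∀ v ∈ Ioo (0:ℝ) 1, HasDerivAt D.Kp (D.Kp1 v) v
  dKp1 : ∀ v ∈ Ioo (0:ℝ) 1, HasSide D.Kp1 (D.Kp2 v) v
  dKm : ∀ v ∈ Ioo (0:ℝ) 1, HasDerivAt D.Km (D.Km1 v) v
  dKm1 : ∀ v ∈ Ioo (0:ℝ) 1, HasSide D.Km1 (D.Km2 v) v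
  KKp : ∀ v ∈ Ioo (0:ℝ) 1, D.Kp v * D.Kp2 v ≤ -κ
  KKm_le : ∀ v ∈ Ioo (0:ℝ) 1, D.Km v * D.Km2 v ≤ M
  KKm_ge : ∀ v ∈ Ioo (0:ℝ) 1, -M ≤ D.Km v * D.Km2 v
  stat_p : ∀ v ∈ Ioo (0:ℝ) 1, ∀ n, 0 ≤ n → lo - e0 ≤ n → n ≤ hi + e0 →
    Stat 1 n v (D.Kp v) (D.Kp1 v) (D.Kp2 v) ≤ 0
  stat_m : ∀ v ∈ Ioo (0:ℝ) 1, ∀ n, 0 ≤ n → lo - e0 ≤ n → n ≤ hi + e0 →
    0 ≤ Stat 1 n v (D.Km v) (D.Km1 v) (D.Km2 v)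
  -- the linear part is positive for ALL `n ≤ hi + e0` (entry from the Gaussian start)
  lin_p : ∀ v ∈ Ioo (0:ℝ) 1, ∀ n, 0 ≤ n → n ≤ hi + e0 → κ * D.Kp v ≤ LinR n v (D.Kp v) (D.Kp1 v)
  lin_m : ∀ v ∈ Ioo (0:ℝ) 1, ∀ n, 0 ≤ n → n ≤ hi + e0 → κ * D.Km v ≤ LinR n v (D.Km v) (D.Km1 v)
  lin_m2 : ∀ v ∈ Ioo (0:ℝ) 1, ∀ n, 0 ≤ n → n ≤ hi + e0 →
    κ * D.Km v ≤ LinR n v (D.Km v) (D.Km1 v) - D.Km v ^ 2 * D.Km2 v / 2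
  gau_p : ∀ z, gaussianPDFReal 0 1 z ≤ M * D.Kp (Ph z)
  gau_m : ∀ z, D.Km (Ph z) ≤ M * gaussianPDFReal 0 1 z
  -- positions
  dNp : ∀ v ∈ Ioo (0:ℝ) 1, HasDerivAt D.Np (D.Np1 v) v
  Np_ge : ∀ v ∈ Ioo (0:ℝ) 1, v ≤ D.Np1 v * D.Km v
  Np_lim : Tendsto D.Np (𝓝[>] 0) (𝓝 0)
  dNm : ∀ v ∈ Ioo (0:ℝ) 1, HasDerivAt D.Nm (D.Nm1 v) v
  Nm_le : ∀ v ∈ Ioo (0:ℝ) 1, D.Nm1 v * D.Kp v ≤ v
  Nm_lim : Tendsto D.Nm (𝓝[>] 0) (𝓝 0)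
  Nm_nonneg : ∀ v ∈ Ioo (0:ℝ) 1, 0 ≤ D.Nm v
  dUb : ∀ v ∈ Ioo (0:ℝ) 1, HasDerivAt D.Ub (D.Ub1 v) v
  Ub_ge : ∀ v ∈ Ioo (0:ℝ) 1, 1 - v ≤ -D.Ub1 v * D.Km v
  Ub_lim : Tendsto D.Ub (𝓝[<] 1) (𝓝 0)
  -- law barriers
  dFp : ∀ η, 0 < η → HasDerivAt D.Fp (D.Fp1 η) η
  dFp1 : ∀ η, 0 < η → HasSide D.Fp1 (D.Fp2 η) η
  dFm : ∀ η, 0 < η → HasDerivAt D.Fm (D.Fm1 η) η
  dFm1 : ∀ η, 0 < η → HasSide D.Fm1 (D.Fm2 η) η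
  Fp_nonneg : ∀ η, 0 < η → 0 ≤ D.Fp η
  Fp_le : ∀ η, 0 < η → D.Fp η ≤ M
  Fm_le : ∀ η, 0 < η → D.Fm η ≤ D.Fp η
  Fm_ge : ∀ η, 0 < η → -M ≤ D.Fm η
  Fp1_ge : ∀ η, 0 < η → -M ≤ D.Fp1 η
  Fm1_ge : ∀ η, 0 < η → -M ≤ D.Fm1 η
  law_p : ∀ v η J n, AdmR e0 D v η J → 0 ≤ n → lo - e0 ≤ n → n ≤ hi + e0 →
    LStat 1 n v J η (D.Fp η) (D.Fp1 η) (D.Fp2 η) ≤ 0
  law_m : ∀ v η J n, AdmR e0 D v η J → 0 ≤ n → lo - e0 ≤ n → n ≤ hi + e0 →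
    0 ≤ LStat 1 n v J η (D.Fm η) (D.Fm1 η) (D.Fm2 η)
  pot_p : ∀ v η J n, AdmR e0 D v η J → 0 ≤ n → lo - e0 ≤ n → n ≤ hi + e0 →
    κ ≤ PotR n v (D.Fp1 η)
  pot_m : ∀ v η J n, AdmR e0 D v η J → 0 ≤ n → lo - e0 ≤ n → n ≤ hi + e0 →
    κ ≤ PotR n v (D.Fm1 η)
  -- closure
  dGp : ∀ v ∈ Ioo (0:ℝ) 1, HasDerivAt D.Gp (D.Gp1 v) v
  dGm : ∀ v ∈ Ioo (0:ℝ) 1, HasDerivAt D.Gm (D.Gm1 v) v
  Gp_l : ∀ v ∈ Ioc (0:ℝ) (1 / 2), |D.Gp v| * (1 + D.Np v + D.Ub v) ≤ M * v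
  Gp_r : ∀ v ∈ Ico (1 / 2 : ℝ) 1, |D.Gp v| * (1 + D.Np v + D.Ub v) ≤ M * (1 - v)
  Gm_l : ∀ v ∈ Ioc (0:ℝ) (1 / 2), |D.Gm v| * (1 + D.Np v + D.Ub v) ≤ M * v
  Gm_r : ∀ v ∈ Ico (1 / 2 : ℝ) 1, |D.Gm v| * (1 + D.Np v + D.Ub v) ≤ M * (1 - v)
  KGp : ∀ v ∈ Ioo (0:ℝ) 1, |D.Kp v * D.Gp1 v| ≤ M
  KGm : ∀ v ∈ Ioo (0:ℝ) 1, |D.Kp v * D.Gm1 v| ≤ M
  clo_p : ∀ v η J L, AdmR e0 D v η J → 0 ≤ L → D.Fm η ≤ L → L ≤ D.Fp η →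
    CloR thi v J L (D.Gp v) (D.Gp1 v) ≤ 0
  clo_m : ∀ v η J L, AdmR e0 D v η J → 0 ≤ L → D.Fm η ≤ L → L ≤ D.Fp η →
    0 ≤ CloR tlo v J L (D.Gm v) (D.Gm1 v)

/-- contraction rate (true value `≤ .66`) -/
def gr : ℝ := 19 / 20

/-- **NUMREF**: the static certificate of the contraction step, at the closed stationary pair -/
def NUMREF : Prop := ∀ (c : ℝ) (W V I k : ℝ → ℝ), SPair c W V I k c →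
  ∀ δ : ℝ, 0 < δ → δ ≤ c → ∃ (e0 κ M : ℝ) (D : WData),
    WS (max 0 (c - δ)) (min (7 / 10) (c + δ)) (c - gr * δ) (c + gr * δ) e0 κ M D

end

end Crest.Agent.R146.PtRef_846
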