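import Mathlib

/-!
# Row 146, stationary family, part 1: ODE tools

Global existence for bounded Lipschitz fields on a bounded interval, two sided Gronwall bound,
limit of solutions on growing intervals, second derivative tests.
-/

namespace Crest.Agent.R146.Stat1_307

open Set Filter Topology Metric
open scoped NNReal

section ode

variable {E : Type*} [NormedAddCommGroup E] [NormedSpace ℝ E]

/-- Existence on a bounded interval for a bounded Lipschitz field. -/
theorem exists_sol [CompleteSpace E] {f : ℝ → E → E} {T : ℝ} {K : ℝ≥0} {L : ℝ} {t₀ : ℝ}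
    (ht₀ : t₀ ∈ Icc (-T) T)
    (hK : ∀ t ∈ Icc (-T) T, LipschitzWith K (f t))
    (hc : ∀ x, ContinuousOn (fun t => f t x) (Icc (-T) T))
    (hL : ∀ t ∈ Icc (-T) T, ∀ x, ‖f t x‖ ≤ L) (x₀ : E) :
    ∃ y : ℝ → E, y t₀ = x₀ ∧ ∀ t ∈ Ioo (-T) T, HasDerivAt y (f t (y t)) t := by
  have hL0 : 0 ≤ L := (norm_nonneg _).trans (hL t₀ ht₀ x₀)
  have hT : 0 ≤ T := by linarith [ht₀.1, ht₀.2]
  have hPL : IsPicardLindelof f (⟨t₀, ht₀⟩ : Icc (-T) T) x₀ (Real.toNNReal (L * (2 * T))) 0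
      (Real.toNNReal L) K := by
    refine ⟨fun t ht => (hK t ht).lipschitzOnWith, fun x _ => hc x, fun t ht x _ => ?_, ?_⟩
    · rw [Real.coe_toNNReal _ hL0]; exact hL t ht x
    · rw [Real.coe_toNNReal _ hL0, Real.coe_toNNReal _ (by positivity)]
      simp only [NNReal.coe_zero, sub_zero]
      gcongr
      apply max_le
      · show T - t₀ ≤ 2 * T
        linarith [ht₀.1, ht₀.2]
      · show t₀ - -T ≤ 2 * T
        linarith [ht₀.1, ht₀.2]
  obtain ⟨α, h0, hα⟩ := hPL.exists_eq_forall_mem_Icc_hasDerivWithinAt₀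
  refine ⟨α, h0, fun t ht => ?_⟩
  exact (hα t ⟨ht.1.le, ht.2.le⟩).hasDerivAt (Icc_mem_nhds ht.1 ht.2)

variable {f : ℝ → E → E} {s : ℝ → Set E} {K : ℝ≥0} {y z : ℝ → E} {a b : ℝ}

theorem dist_le_right (hK : ∀ t ∈ Icc a b, LipschitzOnWith K (f t) (s t))
    (hy : ∀ t ∈ Icc a b, HasDerivAt y (f t (y t)) t ∧ y t ∈ s t)
    (hz : ∀ t ∈ Icc a b, HasDerivAt z (f t (z t)) t ∧ z t ∈ s t) :
    ∀ t ∈ Icc a b, dist (y t) (z t) ≤ dist (y a) (z a) * Real.exp (K * (t - a)) := by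
  refine dist_le_of_trajectories_ODE_of_mem (v := f) (s := s)
    (fun t ht => hK t ⟨ht.1, ht.2.le⟩)
    (fun t ht => (hy t ht).1.continuousAt.continuousWithinAt)
    (fun t ht => (hy t ⟨ht.1, ht.2.le⟩).1.hasDerivWithinAt)
    (fun t ht => (hy t ⟨ht.1, ht.2.le⟩).2)
    (fun t ht => (hz t ht).1.continuousAt.continuousWithinAt)
    (fun t ht => (hz t ⟨ht.1, ht.2.le⟩).1.hasDerivWithinAt)
    (fun t ht => (hz t ⟨ht.1, ht.2.le⟩).2) le_rfl

theorem dist_le_left (hK : ∀ t ∈ Icc a b, LipschitzOnWith K (f t) (s t))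
    (hy : ∀ t ∈ Icc a b, HasDerivAt y (f t (y t)) t ∧ y t ∈ s t)
    (hz : ∀ t ∈ Icc a b, HasDerivAt z (f t (z t)) t ∧ z t ∈ s t) :
    ∀ t ∈ Icc a b, dist (y t) (z t) ≤ dist (y b) (z b) * Real.exp (K * (b - t)) := by
  intro t ht
  have key := dist_le_right (a := -b) (b := -a) (K := K) (f := fun t x => -f (-t) x)
    (s := fun t => s (-t)) (y := fun t => y (-t)) (z := fun t => z (-t))
    (fun t ht => (hK (-t) ⟨by linarith [ht.2], by linarith [ht.1]⟩).neg)
    (fun t ht => ?_) (fun t ht => ?_) (-t) ⟨by linarith [ht.2], by linarith [ht.1]⟩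
  · simpa [sub_eq_add_neg, add_comm] using key
  · obtain ⟨h1, h2⟩ := hy (-t) ⟨by linarith [ht.2], by linarith [ht.1]⟩
    refine ⟨?_, h2⟩
    have h3 := h1.scomp t (hasDerivAt_neg t)
    simpa [Function.comp_def] using h3
  · obtain ⟨h1, h2⟩ := hz (-t) ⟨by linarith [ht.2], by linarith [ht.1]⟩
    refine ⟨?_, h2⟩
    have h3 := h1.scomp t (hasDerivAt_neg t)
    simpa [Function.comp_def] using h3

/-- Two sided version from an interior time. -/
theorem dist_le_both {T : ℝ} (hK : ∀ t ∈ Ioo (-T) T, LipschitzOnWith K (f t) (s t))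
    (hy : ∀ t ∈ Ioo (-T) T, HasDerivAt y (f t (y t)) t ∧ y t ∈ s t)
    (hz : ∀ t ∈ Ioo (-T) T, HasDerivAt z (f t (z t)) t ∧ z t ∈ s t) {t : ℝ}
    (ht : t ∈ Ioo (-T) T) :
    dist (y t) (z t) ≤ dist (y 0) (z 0) * Real.exp (K * T) := by
  have hT : 0 < T := by linarith [ht.1, ht.2]
  rcases le_total 0 t with h | h
  · have h1 := dist_le_right (a := 0) (b := t)
      (fun r hr => hK r ⟨by linarith [hr.1], by linarith [hr.2, ht.2]⟩)
      (fun r hr => hy r ⟨by linarith [hr.1], by linarith [hr.2, ht.2]⟩)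
      (fun r hr => hz r ⟨by linarith [hr.1], by linarith [hr.2, ht.2]⟩) t ⟨h, le_rfl⟩
    refine h1.trans (mul_le_mul_of_nonneg_left (Real.exp_le_exp.2 ?_) dist_nonneg)
    exact mul_le_mul_of_nonneg_left (by linarith [ht.2]) K.2
  · have h1 := dist_le_left (a := t) (b := 0)
      (fun r hr => hK r ⟨by linarith [hr.1, ht.1], by linarith [hr.2]⟩)
      (fun r hr => hy r ⟨by linarith [hr.1, ht.1], by linarith [hr.2]⟩)
      (fun r hr => hz r ⟨by linarith [hr.1, ht.1], by linarith [hr.2]⟩) t ⟨le_rfl, h⟩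
    refine h1.trans (mul_le_mul_of_nonneg_left (Real.exp_le_exp.2 ?_) dist_nonneg)
    exact mul_le_mul_of_nonneg_left (by linarith [ht.1]) K.2

/-- **Limit of solutions on growing intervals.** -/
theorem exists_limit [CompleteSpace E] {f : ℝ → E → E} {s : ℝ → Set E} (hs : ∀ t, IsClosed (s t))
    (h0 : IsCompact (s 0))
    (hK : ∀ N : ℕ, ∃ K : ℝ≥0, ∀ t ∈ Ioo (-(N : ℝ)) N, LipschitzOnWith K (f t) (s t))
    {y : ℕ → ℝ → E}
    (hy : ∀ n : ℕ, ∀ t ∈ Icc (-(n : ℝ)) n, HasDerivAt (y n) (f t (y n t)) t ∧ y n t ∈ s t) :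
    ∃ w : ℝ → E, (∀ t, HasDerivAt w (f t (w t)) t ∧ w t ∈ s t) ∧
      ∃ φ : ℕ → ℕ, StrictMono φ ∧ ∀ t, Tendsto (fun n => y (φ n) t) atTop (𝓝 (w t)) := by
  obtain ⟨x0, hx0, φ, hφ, hlim⟩ := h0.tendsto_subseq
    (x := fun n => y n 0) (fun n => (hy n 0 ⟨by simp, by simp⟩).2)
  choose K hK using hK
  -- uniform Cauchy bound
  have hcau : ∀ N k l : ℕ, N ≤ φ k → N ≤ φ l → ∀ t ∈ Ioo (-(N : ℝ)) N,
      dist (y (φ k) t) (y (φ l) t) ≤ dist (y (φ k) 0) (y (φ l) 0) * Real.exp (K N * N) := by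
    intro N k l hk hl t ht
    have hk' : (N : ℝ) ≤ φ k := by exact_mod_cast hk
    have hl' : (N : ℝ) ≤ φ l := by exact_mod_cast hl
    exact dist_le_both (hK N)
      (fun r hr => hy _ r ⟨by linarith [hr.1], by linarith [hr.2]⟩)
      (fun r hr => hy _ r ⟨by linarith [hr.1], by linarith [hr.2]⟩) ht
  have hC0 : CauchySeq (fun n => y (φ n) 0) := hlim.cauchySeq
  have hpt : ∀ t : ℝ, ∃ w : E, Tendsto (fun n => y (φ n) t) atTop (𝓝 w) := by
    intro t
    obtain ⟨N, hN⟩ := exists_nat_gt |t|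
    have htN : t ∈ Ioo (-(N : ℝ)) N := ⟨by linarith [neg_abs_le t], by linarith [le_abs_self t]⟩
    apply cauchySeq_tendsto_of_complete
    rw [Metric.cauchySeq_iff]
    intro ε hε
    obtain ⟨M, hM⟩ := Metric.cauchySeq_iff.1 hC0 (ε / Real.exp (K N * N)) (by positivity)
    refine ⟨max M N, fun k hk l hl => ?_⟩
    have h1 := hcau N k l (((le_max_right _ _).trans hk).trans (hφ.id_le k))
      (((le_max_right _ _).trans hl).trans (hφ.id_le l)) t htN
    have h2 := hM k ((le_max_left _ _).trans hk) l ((le_max_left _ _).trans hl)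
    rw [lt_div_iff₀ (by positivity)] at h2
    exact h1.trans_lt h2
  choose w hw using hpt
  have hws : ∀ t, w t ∈ s t := by
    intro t
    obtain ⟨N, hN⟩ := exists_nat_gt |t|
    refine (hs t).mem_of_tendsto (hw t) ?_
    filter_upwards [eventually_ge_atTop N] with k hk
    have hk' : (N : ℝ) ≤ φ k := by exact_mod_cast hk.trans (hφ.id_le k)
    exact (hy _ t ⟨by linarith [neg_abs_le t], by linarith [le_abs_self t]⟩).2
  have hbd : ∀ N k : ℕ, N ≤ φ k → ∀ t ∈ Ioo (-(N : ℝ)) N,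
      dist (y (φ k) t) (w t) ≤ dist (y (φ k) 0) (w 0) * Real.exp (K N * N) := by
    intro N k hk t ht
    have h1 : Tendsto (fun l => dist (y (φ k) t) (y (φ l) t)) atTop
        (𝓝 (dist (y (φ k) t) (w t))) := tendsto_const_nhds.dist (hw t)
    have h2 : Tendsto (fun l => dist (y (φ k) 0) (y (φ l) 0) * Real.exp (K N * N)) atTop
        (𝓝 (dist (y (φ k) 0) (w 0) * Real.exp (K N * N))) :=
      (tendsto_const_nhds.dist (hw 0)).mul_const _
    refine le_of_tendsto_of_tendsto h1 h2 ?_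
    filter_upwards [eventually_ge_atTop N] with l hl
    exact hcau N k l hk (hl.trans (hφ.id_le l)) t ht
  refine ⟨w, fun t => ⟨?_, hws t⟩, φ, hφ, hw⟩
  obtain ⟨N, hN⟩ := exists_nat_gt |t|
  have htN : t ∈ Ioo (-(N : ℝ)) N := ⟨by linarith [neg_abs_le t], by linarith [le_abs_self t]⟩
  have hmem : ∀ᶠ k in atTop, N ≤ φ k := by
    filter_upwards [eventually_ge_atTop N] with k hk
    exact hk.trans (hφ.id_le k)
  refine hasDerivAt_of_tendstoLocallyUniformlyOn (l := atTop) (f := fun k => y (φ k))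
    (f' := fun k t => f t (y (φ k) t)) (g' := fun t => f t (w t)) isOpen_Ioo ?_ ?_
    (fun x _ => hw x) htN
  · apply TendstoUniformlyOn.tendstoLocallyUniformlyOn
    rw [Metric.tendstoUniformlyOn_iff]
    intro ε hε
    have h0 : Tendsto (fun k => dist (y (φ k) 0) (w 0)) atTop (𝓝 0) :=
      tendsto_iff_dist_tendsto_zero.1 (hw 0)
    have h1 : ∀ᶠ k in atTop, dist (y (φ k) 0) (w 0) < ε / ((K N + 1) * Real.exp (K N * N)) :=
      h0.eventually_lt_const (by positivity)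
    filter_upwards [h1, hmem] with k hk1 hk2 x hx
    have hk2' : (N : ℝ) ≤ φ k := by exact_mod_cast hk2
    have h2 := (hK N x hx).dist_le_mul _ (hy (φ k) x ⟨by linarith [hx.1], by linarith [hx.2]⟩).2
      _ (hws x)
    have h3 := hbd N k hk2 x hx
    rw [dist_comm]
    rw [lt_div_iff₀ (by positivity)] at hk1
    have h4 : (0 : ℝ) ≤ dist (y (φ k) x) (w x) := dist_nonneg
    have h5 : (K N : ℝ) * dist (y (φ k) x) (w x) ≤ (K N + 1) * dist (y (φ k) x) (w x) := by
      linarith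
    have h6 : ((K N : ℝ) + 1) * dist (y (φ k) x) (w x) ≤
        (K N + 1) * (dist (y (φ k) 0) (w 0) * Real.exp (K N * N)) :=
      mul_le_mul_of_nonneg_left h3 (by positivity)
    calc _ ≤ _ := h2
      _ ≤ _ := h5
      _ ≤ _ := h6
      _ = dist (y (φ k) 0) (w 0) * ((K N + 1) * Real.exp (K N * N)) := by ring
      _ < ε := hk1
  · filter_upwards [hmem] with k hk x hx
    have hk' : (N : ℝ) ≤ φ k := by exact_mod_cast hk
    exact (hy (φ k) x ⟨by linarith [hx.1], by linarith [hx.2]⟩).1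

end ode

/-! ## derivative tests -/

/-- At a right-sided local maximum the derivative is nonpositive. -/
theorem deriv_nonpos_right {g : ℝ → ℝ} {g' x b : ℝ} (hx : x < b) (h : HasDerivAt g g' x)
    (hmax : ∀ t ∈ Icc x b, g t ≤ g x) : g' ≤ 0 := by
  by_contra hcon
  push Not at hcon
  have h1 : ∀ᶠ t in 𝓝[>] x, 0 < (t - x)⁻¹ * (g t - g x) := by
    have h2 := (hasDerivWithinAt_iff_tendsto_slope' (by simp)).1
      (h.hasDerivWithinAt (s := Ioi x))
    have h3 := h2.eventually_const_lt hcon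
    simpa [slope_def_module, smul_eq_mul] using h3
  have h4 : ∀ᶠ t in 𝓝[>] x, t ∈ Ioo x b := Ioo_mem_nhdsGT hx
  obtain ⟨t, ht1, ht2⟩ := (h1.and h4).exists
  have h5 := hmax t ⟨ht2.1.le, ht2.2.le⟩
  have h6 : 0 < (t - x)⁻¹ := inv_pos.2 (by linarith [ht2.1])
  nlinarith

/-- At a left-sided local maximum the derivative is nonnegative. -/
theorem deriv_nonneg_left {g : ℝ → ℝ} {g' x a : ℝ} (hx : a < x) (h : HasDerivAt g g' x)
    (hmax : ∀ t ∈ Icc a x, g t ≤ g x) : 0 ≤ g' := by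
  have h1 : HasDerivAt (fun t => g (-t)) (-g') (-x) := by
    have h2 : HasDerivAt g g' (-(-x)) := by simpa using h
    have h3 := h2.scomp (-x) (hasDerivAt_neg (-x))
    simpa [Function.comp_def] using h3
  have h4 := deriv_nonpos_right (g := fun t => g (-t)) (x := -x) (b := -a) (by linarith) h1
    (fun t ht => by
      have := hmax (-t) ⟨by linarith [ht.2], by linarith [ht.1]⟩
      simpa using this)
  linarith

/-- Second derivative test at an interior maximum. -/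
theorem second_deriv_nonpos {g g1 : ℝ → ℝ} {g2 x a b : ℝ} (hx : x ∈ Ioo a b)
    (h : ∀ t ∈ Ioo a b, HasDerivAt g (g1 t) t) (h1 : HasDerivAt g1 g2 x)
    (hmax : ∀ t ∈ Ioo a b, g t ≤ g x) : g1 x = 0 ∧ g2 ≤ 0 := by
  have hloc : IsLocalMax g x := by
    filter_upwards [Ioo_mem_nhds hx.1 hx.2] with t ht using hmax t ht
  have h0 : g1 x = 0 := hloc.hasDerivAt_eq_zero (h x hx)
  refine ⟨h0, ?_⟩
  by_contra hcon
  push Not at hcon
  have h3 : ∀ᶠ t in 𝓝[>] x, 0 < (t - x)⁻¹ * (g1 t - g1 x) := by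
    have h2 := (hasDerivWithinAt_iff_tendsto_slope' (by simp)).1
      (h1.hasDerivWithinAt (s := Ioi x))
    have h3 := h2.eventually_const_lt hcon
    simpa [slope_def_module, smul_eq_mul] using h3
  rw [eventually_nhdsWithin_iff, Metric.eventually_nhds_iff] at h3
  obtain ⟨δ, hδ, h4⟩ := h3
  set c := min ((x + b) / 2) (x + δ / 2) with hc
  have hc1 : x < c := lt_min (by linarith [hx.2]) (by linarith)
  have hc2 : c < b := (min_le_left _ _).trans_lt (by linarith [hx.2])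
  have hc3 : c ≤ x + δ / 2 := min_le_right _ _
  have hpos : ∀ t ∈ Ioo x c, 0 < g1 t := by
    intro t ht
    have h5 := @h4 t (by rw [Real.dist_eq, abs_of_pos (by linarith [ht.1])]; linarith [ht.2]) ht.1
    have h6 : 0 < (t - x)⁻¹ := inv_pos.2 (by linarith [ht.1])
    rw [h0, sub_zero] at h5
    exact (mul_pos_iff_of_pos_left h6).1 h5
  have hsub : Icc x c ⊆ Ioo a b := fun t ht => ⟨by linarith [ht.1, hx.1], by linarith [ht.2]⟩
  have hmono : StrictMonoOn g (Icc x c) := by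
    apply strictMonoOn_of_deriv_pos (convex_Icc _ _)
    · exact fun t ht => (h t (hsub ht)).continuousAt.continuousWithinAt
    · intro t ht
      rw [interior_Icc] at ht
      rw [(h t (hsub ⟨ht.1.le, ht.2.le⟩)).deriv]
      exact hpos t ht
  have h7 := hmono ⟨le_rfl, hc1.le⟩ ⟨hc1.le, le_rfl⟩ hc1
  have h8 := hmax c (hsub ⟨hc1.le, le_rfl⟩)
  linarith

/-- Second derivative test at an interior minimum. -/
theorem second_deriv_nonneg {g g1 : ℝ → ℝ} {g2 x a b : ℝ} (hx : x ∈ Ioo a b)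
    (h : ∀ t ∈ Ioo a b, HasDerivAt g (g1 t) t) (h1 : HasDerivAt g1 g2 x)
    (hmin : ∀ t ∈ Ioo a b, g x ≤ g t) : g1 x = 0 ∧ 0 ≤ g2 := by
  have h2 := second_deriv_nonpos (g := fun t => - g t) (g1 := fun t => - g1 t) (g2 := -g2) hx
    (fun t ht => (h t ht).neg) h1.neg (fun t ht => neg_le_neg (hmin t ht))
  exact ⟨by linarith [h2.1], by linarith [h2.2]⟩

end Crest.Agent.R146.Stat1_307
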