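import Crest.Agent.R146.StepStart_483
import Crest.Agent.R146.SPair_307
import Crest.Agent.R146.Stat1_307

/-!
# Row 146, helper39: ratio bound for the stationary pair

For `SPair c W V I k lam` with `c < 1/2`, at every `x` with `V x = Φ y`:
`√(1-2c) φ(y) ≤ I x ≤ √(1+2c) φ(y)`.
-/

set_option autoImplicit false

open Set Filter Topology

namespace Crest.Agent.R146.RatioB_39

open StepStart_483 SPair_307 StepDef_791

/-! ### Gaussian lemmas -/

theorem Phi_tendsto_atTop : Tendsto Phi atTop (𝓝 1) := by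
  have h := Phi_tendsto_atBot.comp tendsto_neg_atTop_atBot
  have h1 : Tendsto (fun z => 1 - (Phi ∘ Neg.neg) z) atTop (𝓝 (1 - 0)) := h.const_sub 1
  rw [sub_zero] at h1
  refine h1.congr fun z => ?_
  simp only [Function.comp]
  rw [Phi_neg]; ring

theorem ph_tendsto_atTop : Tendsto ph atTop (𝓝 0) := by
  have h := ph_tendsto_atBot.comp tendsto_neg_atTop_atBot
  refine h.congr fun z => ?_
  simp only [Function.comp]
  rw [ph_neg]

/-- upper Mills bound -/
theorem mills_upper (z : ℝ) : z * (1 - Phi z) < ph z := by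
  have h := U0_pos z
  rw [U0_eq] at h
  linarith

/-- lower Mills bound -/
theorem mills_lower (z : ℝ) : z * ph z < (1 + z ^ 2) * (1 - Phi z) := by
  set F : ℝ → ℝ := fun z => (1 - Phi z) - z / (1 + z ^ 2) * ph z with hF
  have hd : ∀ z : ℝ, HasDerivAt F (-(2 / (1 + z ^ 2) ^ 2 * ph z)) z := by
    intro z
    have hp : (1 + z ^ 2) ≠ 0 := by positivity
    have h1 : HasDerivAt (fun z : ℝ => 1 + z ^ 2) (2 * z) z := by
      simpa using (hasDerivAt_id' z).fun_pow 2 |>.const_add 1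
    have h2 := (hasDerivAt_id' z).fun_div h1 hp
    have h3 := ((Phi_deriv z).const_sub 1).fun_sub (h2.fun_mul (ph_deriv z))
    refine h3.congr_deriv ?_
    field_simp
    ring
  have hanti : StrictAnti F := strictAnti_of_deriv_neg fun z => by
    rw [(hd z).deriv]
    have := ph_pos z
    have : 0 < 2 / (1 + z ^ 2) ^ 2 * ph z := by positivity
    linarith
  have hlim : Tendsto F atTop (𝓝 0) := by
    have h1 : Tendsto (fun z => 1 - Phi z) atTop (𝓝 (1 - 1)) := Phi_tendsto_atTop.const_sub 1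
    have h2 : Tendsto (fun z : ℝ => z / (1 + z ^ 2) * ph z) atTop (𝓝 0) := by
      refine squeeze_zero_norm (fun z => ?_) ph_tendsto_atTop
      rw [Real.norm_eq_abs, abs_mul, abs_of_pos (ph_pos z)]
      have h3 : |z / (1 + z ^ 2)| ≤ 1 := by
        rw [abs_div, abs_of_pos (by positivity : (0:ℝ) < 1 + z ^ 2), div_le_one (by positivity)]
        rw [abs_le]
        constructor <;> nlinarith [sq_nonneg (z - 1), sq_nonneg (z + 1)]
      have := mul_le_mul_of_nonneg_right h3 (ph_pos z).le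
      linarith
    have h3 := h1.sub h2
    simpa using h3
  have hpos : 0 < F z := by
    have h1 : F (z + 1) < F z := hanti (by linarith)
    have h2 : 0 ≤ F (z + 1) := by
      refine le_of_tendsto hlim ?_
      filter_upwards [eventually_ge_atTop (z + 1)] with t ht
      exact hanti.antitone ht
    linarith
  have hp : 0 < 1 + z ^ 2 := by positivity
  have h1 := mul_pos hp hpos
  simp only [hF] at h1
  have e : (1 + z ^ 2) * ((1 - Phi z) - z / (1 + z ^ 2) * ph z) =
      (1 + z ^ 2) * (1 - Phi z) - z * ph z := by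
    field_simp
  rw [e] at h1
  linarith

/-- `U0 z ≤ φ(z)/(1+z²)` for `z ≥ 0` -/
theorem U0_le_ph {z : ℝ} (hz : 0 ≤ z) : U0 z * (1 + z ^ 2) ≤ ph z := by
  rw [U0_eq]
  have h := mills_lower z
  nlinarith [mul_le_mul_of_nonneg_left h.le hz]

theorem Phi_zero : Phi 0 = 1 / 2 := by
  have h := Phi_neg 0
  rw [neg_zero] at h
  linarith

theorem ph_zero_le : ph 0 ≤ 2 / 5 := by
  rw [ph_eq]
  simp only [ne_eq, OfNat.ofNat_ne_zero, not_false_eq_true, zero_pow, neg_zero, zero_div,
    Real.exp_zero, mul_one]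
  have h1 : (5 / 2 : ℝ) ≤ √(2 * Real.pi) := by
    refine Real.le_sqrt_of_sq_le ?_
    have := Real.pi_gt_d2
    norm_num
    linarith
  calc (√(2 * Real.pi))⁻¹ ≤ (5 / 2 : ℝ)⁻¹ := inv_anti₀ (by norm_num) h1
    _ = 2 / 5 := by norm_num

theorem ph_le_zero (z : ℝ) : ph z ≤ ph 0 := by
  rw [ph_eq, ph_eq]
  refine mul_le_mul_of_nonneg_left (Real.exp_le_exp.2 ?_) (by positivity)
  have := sq_nonneg z
  simp only [ne_eq, OfNat.ofNat_ne_zero, not_false_eq_true, zero_pow, neg_zero, zero_div]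
  linarith

theorem ph_ge {z : ℝ} (h0 : 0 ≤ z) (h1 : z ≤ 1) : 3 / 16 ≤ ph z := by
  rw [ph_eq]
  have h2 : √(2 * Real.pi) ≤ 8 / 3 := by
    rw [Real.sqrt_le_left (by norm_num)]
    have := Real.pi_lt_d2
    norm_num
    linarith
  have h3 : (3 / 8 : ℝ) ≤ (√(2 * Real.pi))⁻¹ := by
    have : (8 / 3 : ℝ)⁻¹ ≤ (√(2 * Real.pi))⁻¹ := inv_anti₀ (by positivity) h2
    norm_num at this ⊢
    exact this
  have h4 : (1 / 2 : ℝ) ≤ Real.exp (-z ^ 2 / 2) := by
    have := Real.add_one_le_exp (-z ^ 2 / 2)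
    nlinarith
  calc (3 / 16 : ℝ) = 3 / 8 * (1 / 2) := by norm_num
    _ ≤ _ := mul_le_mul h3 h4 (by norm_num) (by positivity)

theorem Phi_le_lin {z : ℝ} (hz : 0 ≤ z) : Phi z ≤ 1 / 2 + 2 / 5 * z := by
  have hd : ∀ t : ℝ, HasDerivAt (fun t => 2 / 5 * t - Phi t) (2 / 5 - ph t) t := by
    intro t
    have := ((hasDerivAt_id' t).const_mul (2 / 5)).fun_sub (Phi_deriv t)
    exact this.congr_deriv (by ring)
  have hm : Monotone (fun t => 2 / 5 * t - Phi t) := monotone_of_deriv_nonneg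
    (fun t => (hd t).differentiableAt) fun t => by
      rw [(hd t).deriv]; linarith [ph_le_zero t, ph_zero_le]
  have := hm hz
  simp only [mul_zero, Phi_zero] at this
  linarith

/-- the universal source is bounded by one -/
theorem S_bound_aux {z : ℝ} (hz : 0 ≤ z) :
    |z * (Phi z * (1 - Phi z) / ph z) - 3 / 2 * (2 * Phi z - 1)| ≤ 1 := by
  have hp := ph_pos z
  have hP1 := Phi_lt_one z
  have hP0 : 1 / 2 ≤ Phi z := by
    rw [← Phi_zero]; exact Phi_strictMono.monotone hz
  have hmu := mills_upper z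
  have hml := mills_lower z
  set R := 1 - Phi z with hR
  have hPR : Phi z = 1 - R := by rw [hR]; ring
  rw [hPR] at hP1 hP0 ⊢
  have hR0 : 0 < R := by linarith
  have hRh : R ≤ 1 / 2 := by linarith
  rw [abs_le]
  constructor
  · -- lower
    by_cases h45 : z ≤ 4 / 5
    · have h1 := Phi_le_lin hz
      rw [hPR] at h1
      have h2 : 0 ≤ z * ((1 - R) * R / ph z) := by
        have : 0 ≤ (1 - R) * R / ph z := div_nonneg (mul_nonneg (by linarith) hR0.le) hp.le
        exact mul_nonneg hz this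
      nlinarith
    · push Not at h45
      have hq : 1 ≤ z ^ 2 + 4 * z * ph z := by
        by_cases h1 : z ≤ 1
        · have := ph_ge hz h1
          nlinarith
        · push Not at h1
          nlinarith [mul_pos (by linarith : (0:ℝ) < z) hp]
      -- `1/2 ≤ 3R + z R (1-R)/φ`
      set a := z / (1 + z ^ 2) with ha
      have hD : 0 < 1 + z ^ 2 := by positivity
      have ha0 : 0 < a := div_pos (by linarith) hD
      have hza : z * a ≤ 1 := by
        rw [ha, ← mul_div_assoc, div_le_one hD]; nlinarith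
      have haR : a * ph z ≤ R := by
        rw [ha, div_mul_eq_mul_div, div_le_iff₀ hD]; linarith
      have hf0 : 1 / 2 ≤ a * (2 * ph z + z) := by
        rw [ha, div_mul_eq_mul_div, le_div_iff₀ hD]; nlinarith
      have hf1 : a * (2 * ph z + z) ≤ 3 * (a * ph z) + z * (a * (1 - a * ph z)) := by
        have : 0 ≤ a * ph z * (1 - z * a) := mul_nonneg (mul_pos ha0 hp).le (by linarith)
        nlinarith
      have hf2 : 3 * (a * ph z) + z * (a * (1 - a * ph z)) ≤ 3 * R + z * ((1 - R) * R / ph z) := by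
        have e : z * (a * (1 - a * ph z)) = z * ((1 - a * ph z) * (a * ph z) / ph z) := by
          field_simp
        rw [e]
        have h3 : (1 - a * ph z) * (a * ph z) / ph z ≤ (1 - R) * R / ph z := by
          refine div_le_div_of_nonneg_right ?_ hp.le
          nlinarith
        have h4 := mul_le_mul_of_nonneg_left h3 hz
        linarith
      linarith
  · -- upper
    have h1 : z * ((1 - R) * R / ph z) ≤ 1 - R := by
      have e : z * ((1 - R) * R / ph z) = (1 - R) * (z * R / ph z) := by ring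
      rw [e]
      have h2 : z * R / ph z ≤ 1 := by rw [div_le_one hp]; exact hmu.le
      have := mul_le_mul_of_nonneg_left h2 (by linarith : 0 ≤ 1 - R)
      linarith
    linarith

theorem S_bound (z : ℝ) :
    |z * (Phi z * (1 - Phi z) / ph z) - 3 / 2 * (2 * Phi z - 1)| ≤ 1 := by
  rcases le_total 0 z with hz | hz
  · exact S_bound_aux hz
  · have h := S_bound_aux (neg_nonneg.2 hz)
    rw [ph_neg, Phi_neg] at h
    rw [← abs_neg]
    convert h using 2
    ring

/-! ### quantile function -/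

/-- inverse of `Phi` -/
noncomputable def Qn : ℝ → ℝ := Function.invFun Phi

theorem Qn_Phi (z : ℝ) : Qn (Phi z) = z :=
  Function.leftInverse_invFun Phi_strictMono.injective z

theorem exists_Phi {v : ℝ} (hv : v ∈ Ioo (0:ℝ) 1) : ∃ z, Phi z = v := by
  have h1 : ∃ a, Phi a ≤ v := ((Phi_tendsto_atBot.eventually_lt_const hv.1).exists).imp
    fun a ha => ha.le
  have h2 : ∃ b, v ≤ Phi b := ((Phi_tendsto_atTop.eventually_const_lt hv.2).exists).imp
    fun a ha => ha.le
  obtain ⟨a, ha⟩ := h1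
  obtain ⟨b, hb⟩ := h2
  exact mem_range_of_exists_le_of_exists_ge Phi_cont ⟨a, ha⟩ ⟨b, hb⟩

theorem Phi_Qn {v : ℝ} (hv : v ∈ Ioo (0:ℝ) 1) : Phi (Qn v) = v := by
  obtain ⟨z, rfl⟩ := exists_Phi hv
  rw [Qn_Phi]

theorem Qn_cont {v : ℝ} (hv : v ∈ Ioo (0:ℝ) 1) : ContinuousAt Qn v := by
  rw [Metric.continuousAt_iff]
  intro ε hε
  obtain ⟨z, rfl⟩ := exists_Phi hv
  have h1 : Phi (z - ε) < Phi z := Phi_strictMono (by linarith)
  have h2 : Phi z < Phi (z + ε) := Phi_strictMono (by linarith)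
  have h3 : ∀ᶠ w in 𝓝 (Phi z), w ∈ Ioo (Phi (z - ε)) (Phi (z + ε)) := Ioo_mem_nhds h1 h2
  rw [Metric.eventually_nhds_iff] at h3
  obtain ⟨δ, hδ, h4⟩ := h3
  refine ⟨δ, hδ, fun {w} hw => ?_⟩
  have h5 := h4 hw
  have hw01 : w ∈ Ioo (0:ℝ) 1 := ⟨(Phi_pos _).trans h5.1, h5.2.trans (Phi_lt_one _)⟩
  obtain ⟨u, rfl⟩ := exists_Phi hw01
  rw [Qn_Phi, Qn_Phi, Real.dist_eq, abs_lt]
  have h6 := Phi_strictMono.lt_iff_lt.1 h5.1
  have h7 := Phi_strictMono.lt_iff_lt.1 h5.2
  constructor <;> linarith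

theorem Qn_deriv {v : ℝ} (hv : v ∈ Ioo (0:ℝ) 1) : HasDerivAt Qn (ph (Qn v))⁻¹ v := by
  refine HasDerivAt.of_local_left_inverse (Qn_cont hv) (Phi_deriv _) (ph_pos _).ne' ?_
  filter_upwards [Ioo_mem_nhds hv.1 hv.2] with w hw using Phi_Qn hw

/-! ### the ratio `g = I/φ(Φ⁻¹(V))` of a stationary pair -/

variable {c : ℝ} {W V I k : ℝ → ℝ} {lam : ℝ}

/-- `y(x) = Φ⁻¹(V x)` -/
noncomputable def yy (V : ℝ → ℝ) (x : ℝ) : ℝ := Qn (V x)

/-- `g(x) = I x / φ(y x)` -/
noncomputable def gg (V I : ℝ → ℝ) (x : ℝ) : ℝ := I x / ph (yy V x)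

/-- `m(x) = V(1-V)/φ(y)` -/
noncomputable def mm (V : ℝ → ℝ) (x : ℝ) : ℝ := V x * (1 - V x) / ph (yy V x)

/-- `g'` -/
noncomputable def DD (c : ℝ) (W V I : ℝ → ℝ) (x : ℝ) : ℝ :=
  yy V x * gg V I x ^ 2 - 2 * Ad c W x * gg V I x + 2 * c * mm V x

theorem V_mem (h : SPair c W V I k lam) (x : ℝ) : V x ∈ Ioo (0:ℝ) 1 := ⟨h.V_pos x, h.V_lt x⟩

theorem Phi_yy (h : SPair c W V I k lam) (x : ℝ) : Phi (yy V x) = V x := Phi_Qn (V_mem h x)

theorem gg_pos (h : SPair c W V I k lam) (x : ℝ) : 0 < gg V I x := div_pos (h.I_pos x) (ph_pos _)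

theorem gg_mul (V I : ℝ → ℝ) (x : ℝ) : gg V I x * ph (yy V x) = I x := by
  unfold gg
  field_simp [(ph_pos (yy V x)).ne']

theorem hyy (h : SPair c W V I k lam) (x : ℝ) : HasDerivAt (yy V) (gg V I x) x := by
  have h1 := (Qn_deriv (V_mem h x)).comp x (h.dV x)
  refine h1.congr_deriv ?_
  unfold gg yy
  rw [div_eq_inv_mul]

theorem hphy (h : SPair c W V I k lam) (x : ℝ) :
    HasDerivAt (fun x => ph (yy V x)) (-yy V x * I x) x := by
  have h1 := (ph_deriv (yy V x)).comp x (hyy h x)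
  refine h1.congr_deriv ?_
  rw [← gg_mul V I x]; ring

theorem hgg (h : SPair c W V I k lam) (x : ℝ) : HasDerivAt (gg V I) (DD c W V I x) x := by
  have hp := (ph_pos (yy V x)).ne'
  have h1 := (h.dI x).fun_div (hphy h x) hp
  refine h1.congr_deriv ?_
  unfold DD mm gg
  field_simp
  ring

theorem hmm (h : SPair c W V I k lam) (x : ℝ) :
    HasDerivAt (mm V) ((1 - 2 * V x) * gg V I x + yy V x * gg V I x * mm V x) x := by
  have hp := (ph_pos (yy V x)).ne'
  have h1 := ((h.dV x).fun_mul ((h.dV x).const_sub 1)).fun_div (hphy h x) hp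
  refine h1.congr_deriv ?_
  unfold mm gg
  field_simp
  ring

/-- second derivative of `g` -/
theorem hDD (h : SPair c W V I k lam) (x : ℝ) :
    HasDerivAt (DD c W V I)
      ((2 * yy V x * gg V I x - 2 * Ad c W x) * DD c W V I x +
        gg V I x * (gg V I x ^ 2 - 1 + 2 * c * (yy V x * mm V x - 3 / 2 * (2 * V x - 1)))) x := by
  have h1 := (((hyy h x).fun_mul ((hgg h x).fun_pow 2)).fun_sub
    (((h.dA x).const_mul 2).fun_mul (hgg h x))).fun_add ((hmm h x).const_mul (2 * c))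
  refine h1.congr_deriv ?_
  unfold Ad1
  push_cast
  ring

theorem S_yy (h : SPair c W V I k lam) (x : ℝ) :
    |yy V x * mm V x - 3 / 2 * (2 * V x - 1)| ≤ 1 := by
  have := S_bound (yy V x)
  rw [Phi_yy h x] at this
  exact this

theorem I_eq (h : SPair c W V I k lam) (x : ℝ) :
    I x = (1 + c) * (1 - V x) * W x + (1 - c) * V x * (W x - x) := by
  rw [h.eqI x]; unfold Ad; ring

/-- no interior maximum above `√(1+2c)` -/
theorem dichotomy_up (h : SPair c W V I k lam) {B : ℝ} (hB0 : 0 < B) (hB : 1 + 2 * c ≤ B ^ 2)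
    {x0 : ℝ} (hx0 : B < gg V I x0) :
    (∀ x ≥ x0, B < gg V I x) ∨ (∀ x ≤ x0, B < gg V I x) := by
  by_contra hcon
  push Not at hcon
  obtain ⟨⟨x1, hx1, h1⟩, ⟨x2, hx2, h2⟩⟩ := hcon
  have hx1' : x0 < x1 := lt_of_le_of_ne hx1 (by rintro rfl; linarith)
  have hx2' : x2 < x0 := lt_of_le_of_ne hx2 (by rintro rfl; linarith)
  have hc : ContinuousOn (gg V I) (Icc x2 x1) := fun x _ => (hgg h x).continuousAt.continuousWithinAt
  obtain ⟨xm, hxm, hmax⟩ := isCompact_Icc.exists_isMaxOn ⟨x0, hx2, hx1⟩ hc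
  have hm0 : gg V I x0 ≤ gg V I xm := hmax ⟨hx2, hx1⟩
  have hxm1 : xm ≠ x1 := by rintro rfl; linarith
  have hxm2 : xm ≠ x2 := by rintro rfl; linarith
  have hin : xm ∈ Ioo x2 x1 := ⟨lt_of_le_of_ne hxm.1 (Ne.symm hxm2), lt_of_le_of_ne hxm.2 hxm1⟩
  have h3 := Stat1_307.second_deriv_nonpos hin (fun t _ => hgg h t) (hDD h xm)
    (fun t ht => hmax ⟨ht.1.le, ht.2.le⟩)
  rw [h3.1] at h3
  have h4 := h3.2
  have hS := S_yy h xm
  have hg : B < gg V I xm := by linarith
  have hgp := gg_pos h xm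
  have hc0 := h.c_pos
  rw [abs_le] at hS
  have h5 : 0 < gg V I xm ^ 2 - 1 +
      2 * c * (yy V xm * mm V xm - 3 / 2 * (2 * V xm - 1)) := by
    have h6 : B ^ 2 < gg V I xm ^ 2 := by
      apply pow_lt_pow_left₀ hg hB0.le (by norm_num)
    nlinarith
  have h7 := mul_pos hgp h5
  simp only [mul_zero, zero_add] at h4
  linarith

/-- no interior minimum below `√(1-2c)` -/
theorem dichotomy_dn (h : SPair c W V I k lam) {b : ℝ} (hb : b ^ 2 ≤ 1 - 2 * c)
    {x0 : ℝ} (hx0 : gg V I x0 < b) :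
    (∀ x ≥ x0, gg V I x < b) ∨ (∀ x ≤ x0, gg V I x < b) := by
  by_contra hcon
  push Not at hcon
  obtain ⟨⟨x1, hx1, h1⟩, ⟨x2, hx2, h2⟩⟩ := hcon
  have hx1' : x0 < x1 := lt_of_le_of_ne hx1 (by rintro rfl; linarith)
  have hx2' : x2 < x0 := lt_of_le_of_ne hx2 (by rintro rfl; linarith)
  have hc : ContinuousOn (gg V I) (Icc x2 x1) := fun x _ => (hgg h x).continuousAt.continuousWithinAt
  obtain ⟨xm, hxm, hmin⟩ := isCompact_Icc.exists_isMinOn ⟨x0, hx2, hx1⟩ hc
  have hm0 : gg V I xm ≤ gg V I x0 := hmin ⟨hx2, hx1⟩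
  have hxm1 : xm ≠ x1 := by rintro rfl; linarith
  have hxm2 : xm ≠ x2 := by rintro rfl; linarith
  have hin : xm ∈ Ioo x2 x1 := ⟨lt_of_le_of_ne hxm.1 (Ne.symm hxm2), lt_of_le_of_ne hxm.2 hxm1⟩
  have h3 := Stat1_307.second_deriv_nonneg hin (fun t _ => hgg h t) (hDD h xm)
    (fun t ht => hmin ⟨ht.1.le, ht.2.le⟩)
  rw [h3.1] at h3
  have h4 := h3.2
  have hS := S_yy h xm
  have hg : gg V I xm < b := by linarith
  have hgp := gg_pos h xm
  have hc0 := h.c_pos
  rw [abs_le] at hS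
  have h5 : gg V I xm ^ 2 - 1 +
      2 * c * (yy V xm * mm V xm - 3 / 2 * (2 * V xm - 1)) < 0 := by
    have h6 : gg V I xm ^ 2 < b ^ 2 := by
      apply pow_lt_pow_left₀ hg hgp.le (by norm_num)
    nlinarith
  have h7 := mul_neg_of_pos_of_neg hgp h5
  simp only [mul_zero, zero_add] at h4
  linarith

/-! ### ends -/

/-- `V → 1`: there are points with `V x > a` for every `a < 1` -/
theorem exists_V_gt (h : SPair c W V I k lam) {a : ℝ} (ha : a < 1) (x0 : ℝ) :
    ∃ x ≥ x0, a < V x := by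
  by_contra hcon
  push Not at hcon
  -- `W x - x` decreases with slope at most `a - 1`
  have hd : ∀ x ≥ x0, W x - x ≤ W x0 - x0 + (a - 1) * (x - x0) := by
    intro x hx
    rcases hx.eq_or_lt with rfl | hlt
    · simp
    obtain ⟨t, ht, hEq⟩ := exists_hasDerivAt_eq_slope (fun x => W x - x) (fun x => V x - 1) hlt
      (fun t _ => ((h.dW t).sub (hasDerivAt_id' t)).continuousAt.continuousWithinAt)
      (fun t _ => (h.dW t).sub (hasDerivAt_id' t))
    have h1 := hcon t ht.1.le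
    have h2 : V t - 1 ≤ a - 1 := by linarith
    rw [eq_div_iff (by linarith : x - x0 ≠ 0)] at hEq
    nlinarith
  have h1 := hd (x0 + (W x0 - x0) / (1 - a)) (by
    have := h.U_pos x0
    have : 0 ≤ (W x0 - x0) / (1 - a) := div_nonneg (by linarith) (by linarith)
    linarith)
  have h2 := h.U_pos (x0 + (W x0 - x0) / (1 - a))
  have h3 : (a - 1) * (x0 + (W x0 - x0) / (1 - a) - x0) = -(W x0 - x0) := by
    field_simp [(by linarith : (1 - a) ≠ 0)]
    ring
  rw [h3] at h1
  linarith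

theorem exists_V_lt (h : SPair c W V I k lam) {a : ℝ} (ha : 0 < a) (x0 : ℝ) :
    ∃ x ≤ x0, V x < a := by
  by_contra hcon
  push Not at hcon
  have hd : ∀ x ≤ x0, W x ≤ W x0 - a * (x0 - x) := by
    intro x hx
    rcases hx.eq_or_lt with rfl | hlt
    · simp
    obtain ⟨t, ht, hEq⟩ := exists_hasDerivAt_eq_slope W V hlt
      (fun t _ => (h.dW t).continuousAt.continuousWithinAt)
      (fun t _ => h.dW t)
    have h1 := hcon t ht.2.le
    rw [eq_div_iff (by linarith : x0 - x ≠ 0)] at hEq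
    nlinarith
  have h1 := hd (x0 - W x0 / a) (by
    have := h.W_pos x0
    have : 0 ≤ W x0 / a := div_nonneg this.le ha.le
    linarith)
  have h2 := h.W_pos (x0 - W x0 / a)
  have h3 : a * (x0 - (x0 - W x0 / a)) = W x0 := by
    field_simp
    ring
  rw [h3] at h1
  linarith

theorem yy_strictMono (h : SPair c W V I k lam) : StrictMono (yy V) :=
  strictMono_of_deriv_pos fun x => by rw [(hyy h x).deriv]; exact gg_pos h x

theorem exists_yy_gt (h : SPair c W V I k lam) (a : ℝ) : ∃ x1, ∀ x ≥ x1, a < yy V x := by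
  obtain ⟨x1, -, hx1⟩ := exists_V_gt h (Phi_lt_one a) 0
  refine ⟨x1, fun x hx => ?_⟩
  rw [← Phi_yy h x1] at hx1
  exact (Phi_strictMono.lt_iff_lt.1 hx1).trans_le ((yy_strictMono h).monotone hx)

theorem exists_yy_lt (h : SPair c W V I k lam) (a : ℝ) : ∃ x1, ∀ x ≤ x1, yy V x < a := by
  obtain ⟨x1, -, hx1⟩ := exists_V_lt h (Phi_pos a) 0
  refine ⟨x1, fun x hx => ?_⟩
  rw [← Phi_yy h x1] at hx1
  exact ((yy_strictMono h).monotone hx).trans_lt (Phi_strictMono.lt_iff_lt.1 hx1)

theorem W_le_right (h : SPair c W V I k lam) {x : ℝ} (hx : 0 ≤ x) : W x ≤ x + 1 := by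
  have h1 := h.W_le x
  have h2 : Real.sqrt (x ^ 2 + 1) ≤ x + 1 := by
    rw [Real.sqrt_le_left (by linarith)]; nlinarith
  linarith

theorem W_le_left (h : SPair c W V I k lam) {x : ℝ} (hx : x ≤ 0) : W x ≤ 1 := by
  have h1 := h.W_le x
  have h2 : Real.sqrt (x ^ 2 + 1) ≤ -x + 1 := by
    rw [Real.sqrt_le_left (by linarith)]; nlinarith
  linarith

theorem U_small (h : SPair c W V I k lam) {x ε : ℝ} (hε : 0 < ε) (hx : 1 / ε ≤ x) :
    W x - x ≤ ε := by
  have h1 := h.W_le x
  have hx0 : 0 < x := lt_of_lt_of_le (by positivity) hx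
  have h3 : 1 ≤ x * ε := by rwa [div_le_iff₀ hε] at hx
  have h2 : Real.sqrt (x ^ 2 + 1) ≤ x + ε := by
    rw [Real.sqrt_le_left (by linarith)]; nlinarith
  linarith

theorem W_small (h : SPair c W V I k lam) {x ε : ℝ} (hε : 0 < ε) (hx : x ≤ -(1 / ε)) :
    W x ≤ ε := by
  have h1 := h.W_le x
  have hp : 0 < 1 / ε := by positivity
  have hx0 : 0 < -x := by linarith
  have h3 : 1 ≤ -x * ε := by
    have : 1 / ε ≤ -x := by linarith
    rwa [div_le_iff₀ hε] at this
  have h2 : Real.sqrt (x ^ 2 + 1) ≤ -x + ε := by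
    rw [Real.sqrt_le_left (by linarith)]; nlinarith
  linarith

theorem U_le_of_gt (h : SPair c W V I k lam) {B x0 : ℝ} (hB : 0 < B)
    (hg : ∀ x ≥ x0, B < gg V I x) {x : ℝ} (hx : x0 ≤ x) : W x - x ≤ U0 (yy V x) / B := by
  have hd : ∀ t, HasDerivAt (fun t => U0 (yy V t) / B - (W t - t))
      ((1 - V t) * (1 - gg V I t / B)) t := by
    intro t
    have h1 := (((U0_deriv (yy V t)).comp t (hyy h t)).div_const B).fun_sub
      ((h.dW t).fun_sub (hasDerivAt_id' t))
    refine h1.congr_deriv ?_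
    rw [Phi_yy h t]; ring
  have hanti : AntitoneOn (fun t => U0 (yy V t) / B - (W t - t)) (Ici x0) := by
    refine antitoneOn_of_deriv_nonpos (convex_Ici x0)
      (fun t _ => (hd t).continuousAt.continuousWithinAt)
      (fun t _ => (hd t).differentiableAt.differentiableWithinAt) fun t ht => ?_
    rw [interior_Ici] at ht
    rw [(hd t).deriv]
    have h1 := hg t (le_of_lt ht)
    have h2 : 1 ≤ gg V I t / B := by rw [le_div_iff₀ hB]; linarith
    have h3 := h.V_lt t
    nlinarith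
  by_contra hcon
  push Not at hcon
  set ε := (W x - x - U0 (yy V x) / B) / 2 with hε
  have hεp : 0 < ε := by rw [hε]; linarith
  have h1 := hanti (mem_Ici.2 hx) (mem_Ici.2 (hx.trans (le_max_left x (1 / ε))))
    (le_max_left x (1 / ε))
  have h2 := U_small h hεp (le_max_right x (1 / ε))
  have h3 : 0 ≤ U0 (yy V (max x (1 / ε))) / B := div_nonneg (U0_nonneg _) hB.le
  simp only at h1
  linarith

theorem W_le_of_gt (h : SPair c W V I k lam) {B x0 : ℝ} (hB : 0 < B)
    (hg : ∀ x ≤ x0, B < gg V I x) {x : ℝ} (hx : x ≤ x0) : W x ≤ U0 (-yy V x) / B := by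
  have hd : ∀ t, HasDerivAt (fun t => U0 (-yy V t) / B - W t) (V t * (gg V I t / B - 1)) t := by
    intro t
    have h1 := (((U0_deriv (-yy V t)).comp t (hyy h t).fun_neg).div_const B).fun_sub (h.dW t)
    refine h1.congr_deriv ?_
    rw [Phi_neg, Phi_yy h t]; ring
  have hmono : MonotoneOn (fun t => U0 (-yy V t) / B - W t) (Iic x0) := by
    refine monotoneOn_of_deriv_nonneg (convex_Iic x0)
      (fun t _ => (hd t).continuousAt.continuousWithinAt)
      (fun t _ => (hd t).differentiableAt.differentiableWithinAt) fun t ht => ?_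
    rw [interior_Iic] at ht
    rw [(hd t).deriv]
    have h1 := hg t (le_of_lt ht)
    have h2 : 1 ≤ gg V I t / B := by rw [le_div_iff₀ hB]; linarith
    have h3 := h.V_pos t
    exact mul_nonneg h3.le (by linarith)
  by_contra hcon
  push Not at hcon
  set ε := (W x - U0 (-yy V x) / B) / 2 with hε
  have hεp : 0 < ε := by rw [hε]; linarith
  have h1 := hmono (mem_Iic.2 ((min_le_left x (-(1 / ε))).trans hx)) (mem_Iic.2 hx)
    (min_le_left x (-(1 / ε)))
  have h2 := W_small h hεp (min_le_right x (-(1 / ε)))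
  have h3 : 0 ≤ U0 (-yy V (min x (-(1 / ε)))) / B := div_nonneg (U0_nonneg _) hB.le
  simp only at h1
  linarith

theorem yy_sub_mono (h : SPair c W V I k lam) {B : ℝ} {s : Set ℝ} (hs : Convex ℝ s)
    (hg : ∀ x ∈ s, B ≤ gg V I x) : MonotoneOn (fun t => yy V t - B * t) s := by
  have hd : ∀ t, HasDerivAt (fun t => yy V t - B * t) (gg V I t - B) t := by
    intro t
    have h1 := (hyy h t).fun_sub ((hasDerivAt_id' t).const_mul B)
    exact h1.congr_deriv (by ring)
  refine monotoneOn_of_deriv_nonneg hs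
    (fun t _ => (hd t).continuousAt.continuousWithinAt)
    (fun t _ => (hd t).differentiableAt.differentiableWithinAt) fun t ht => ?_
  rw [(hd t).deriv]
  linarith [hg t (interior_subset ht)]

theorem yy_sub_anti (h : SPair c W V I k lam) {B : ℝ} {s : Set ℝ} (hs : Convex ℝ s)
    (hg : ∀ x ∈ s, gg V I x ≤ B) : AntitoneOn (fun t => yy V t - B * t) s := by
  have hd : ∀ t, HasDerivAt (fun t => yy V t - B * t) (gg V I t - B) t := by
    intro t
    have h1 := (hyy h t).fun_sub ((hasDerivAt_id' t).const_mul B)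
    exact h1.congr_deriv (by ring)
  refine antitoneOn_of_deriv_nonpos hs
    (fun t _ => (hd t).continuousAt.continuousWithinAt)
    (fun t _ => (hd t).differentiableAt.differentiableWithinAt) fun t ht => ?_
  rw [(hd t).deriv]
  linarith [hg t (interior_subset ht)]

/-- `a x ≤ K` for all large `x` is impossible for `a > 0` -/
theorem lin_absurd {a K x1 : ℝ} (ha : 0 < a) (hK : ∀ x ≥ x1, a * x ≤ K) : False := by
  have h1 := hK (max x1 (K / a + 1)) (le_max_left _ _)
  have h2 : K / a + 1 ≤ max x1 (K / a + 1) := le_max_right _ _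
  have h3 := mul_le_mul_of_nonneg_left h2 ha.le
  have h4 : a * (K / a + 1) = K + a := by field_simp
  linarith

theorem end_up_right (h : SPair c W V I k lam) {B x0 : ℝ} (hB0 : 0 < B) (hB : 1 + c < B ^ 2)
    (hg : ∀ x ≥ x0, B < gg V I x) : False := by
  have hc0 := h.c_pos
  have hc1 := h.c_lt
  have hm := yy_sub_mono h (convex_Ici x0) (B := B) fun x hx => (hg x hx).le
  obtain ⟨x1, hx1⟩ := exists_yy_gt h 0
  refine lin_absurd (a := B ^ 2 - (1 + c)) (K := (1 + c) + 1 / B - B * (yy V x0 - B * x0))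
    (x1 := max x0 (max x1 0)) (by linarith) fun x hx => ?_
  have hxx0 : x0 ≤ x := (le_max_left _ _).trans hx
  have hxx1 : x1 ≤ x := ((le_max_left _ _).trans (le_max_right _ _)).trans hx
  have hx0 : 0 ≤ x := ((le_max_right _ _).trans (le_max_right _ _)).trans hx
  have hy := hx1 x hxx1
  have hp := ph_pos (yy V x)
  have h1 := hm (mem_Ici.2 le_rfl) (mem_Ici.2 hxx0) hxx0
  simp only at h1
  have h2 := U_le_of_gt h hB0 hg hxx0
  have h3 := U0_le_ph hy.le
  have h4 := mills_upper (yy V x)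
  rw [Phi_yy h x] at h4
  have h5 := W_le_right h hx0
  have h6 := hg x hxx0
  have h7 := gg_mul V I x
  rw [I_eq h x] at h7
  have hV0 := h.V_pos x
  have hV1 := h.V_lt x
  have hW0 := h.W_pos x
  have hU0 := h.U_pos x
  set y := yy V x
  -- `y φ g ≤ (1+c) φ W + (1-c) y U0/B ≤ φ ((1+c) (x+1) + 1/B)`
  have h8 : y * ((1 + c) * (1 - V x) * W x) ≤ (1 + c) * ph y * (x + 1) := by
    calc y * ((1 + c) * (1 - V x) * W x) = (1 + c) * (y * (1 - V x)) * W x := by ring
      _ ≤ (1 + c) * ph y * W x := by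
          refine mul_le_mul_of_nonneg_right ?_ hW0.le
          exact mul_le_mul_of_nonneg_left h4.le (by linarith)
      _ ≤ (1 + c) * ph y * (x + 1) := mul_le_mul_of_nonneg_left h5 (by positivity)
  have h9 : y * ((1 - c) * V x * (W x - x)) ≤ ph y * (1 / B) := by
    have e1 : (1 - c) * V x * (W x - x) ≤ U0 y / B := by
      have : (1 - c) * V x ≤ 1 := by nlinarith
      calc (1 - c) * V x * (W x - x) ≤ 1 * (W x - x) :=
            mul_le_mul_of_nonneg_right this (by linarith)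
        _ ≤ U0 y / B := by linarith
    have e2 : y * U0 y ≤ ph y := by
      have hU := U0_nonneg y
      nlinarith [mul_nonneg hU (sq_nonneg (y - 1))]
    calc y * ((1 - c) * V x * (W x - x)) ≤ y * (U0 y / B) := mul_le_mul_of_nonneg_left e1 hy.le
      _ = (y * U0 y) * (1 / B) := by ring
      _ ≤ ph y * (1 / B) := mul_le_mul_of_nonneg_right e2 (by positivity)
  have h10 : y * (gg V I x * ph y) ≤ (1 + c) * ph y * (x + 1) + ph y * (1 / B) := by
    rw [h7]; linarith
  have h11 : ph y * (y * gg V I x) ≤ ph y * ((1 + c) * (x + 1) + 1 / B) := by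
    nlinarith
  have h12 := le_of_mul_le_mul_left h11 hp
  have h13 : y * B ≤ y * gg V I x := mul_le_mul_of_nonneg_left h6.le hy.le
  nlinarith

theorem end_up_left (h : SPair c W V I k lam) {B x0 : ℝ} (hB0 : 0 < B) (hB : 1 - c < B ^ 2)
    (hg : ∀ x ≤ x0, B < gg V I x) : False := by
  have hc0 := h.c_pos
  have hc1 := h.c_lt
  have hm := yy_sub_mono h (convex_Iic x0) (B := B) fun x hx => (hg x hx).le
  obtain ⟨x1, hx1⟩ := exists_yy_lt h 0
  refine lin_absurd (a := B ^ 2 - (1 - c)) (K := 1 + (1 + c) / B + B * (yy V x0 - B * x0))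
    (x1 := max (-x0) (max (-x1) 0)) (by linarith) fun t ht => ?_
  have hxx0 : -t ≤ x0 := by have := (le_max_left _ _).trans ht; linarith
  have hxx1 : -t ≤ x1 := by
    have := ((le_max_left _ _).trans (le_max_right _ _)).trans ht; linarith
  have hx0 : -t ≤ 0 := by
    have := ((le_max_right _ _).trans (le_max_right _ _)).trans ht; linarith
  obtain ⟨x, rfl⟩ : ∃ x, t = -x := ⟨-t, by ring⟩
  rw [neg_neg] at hxx0 hxx1 hx0
  have hy := hx1 x hxx1
  have hp := ph_pos (yy V x)
  have h1 := hm (mem_Iic.2 hxx0) (mem_Iic.2 le_rfl) hxx0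
  simp only at h1
  have h2 := W_le_of_gt h hB0 hg hxx0
  have h3 := U0_le_ph (z := -yy V x) (by linarith)
  rw [ph_neg] at h3
  have h4 := mills_upper (-yy V x)
  rw [Phi_neg, Phi_yy h x, ph_neg] at h4
  have h5 := W_le_left h hx0
  have h6 := hg x hxx0
  have h7 := gg_mul V I x
  rw [I_eq h x] at h7
  have hV0 := h.V_pos x
  have hV1 := h.V_lt x
  have hW0 := h.W_pos x
  have hU0 := h.U_pos x
  set y := yy V x
  set z := -y with hz
  have hzp : 0 < z := by linarith
  have h8 : z * ((1 - c) * V x * (W x - x)) ≤ (1 - c) * ph y * (1 - x) := by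
    calc z * ((1 - c) * V x * (W x - x)) = (1 - c) * (z * (1 - (1 - V x))) * (W x - x) := by ring
      _ ≤ (1 - c) * ph y * (W x - x) := by
          refine mul_le_mul_of_nonneg_right ?_ (by linarith)
          exact mul_le_mul_of_nonneg_left h4.le (by linarith)
      _ ≤ (1 - c) * ph y * (1 - x) := mul_le_mul_of_nonneg_left (by linarith)
          (mul_nonneg (by linarith) hp.le)
  have h9 : z * ((1 + c) * (1 - V x) * W x) ≤ ph y * ((1 + c) / B) := by
    have e1 : (1 + c) * (1 - V x) * W x ≤ (1 + c) * (U0 z / B) := by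
      have : (1 + c) * (1 - V x) ≤ 1 + c := by nlinarith
      calc (1 + c) * (1 - V x) * W x ≤ (1 + c) * W x :=
            mul_le_mul_of_nonneg_right this (by linarith)
        _ ≤ (1 + c) * (U0 z / B) := mul_le_mul_of_nonneg_left h2 (by linarith)
    have e2 : z * U0 z ≤ ph y := by
      have hU := U0_nonneg z
      nlinarith [mul_nonneg hU (sq_nonneg (z - 1))]
    calc z * ((1 + c) * (1 - V x) * W x) ≤ z * ((1 + c) * (U0 z / B)) :=
          mul_le_mul_of_nonneg_left e1 hzp.le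
      _ = (z * U0 z) * ((1 + c) / B) := by ring
      _ ≤ ph y * ((1 + c) / B) := mul_le_mul_of_nonneg_right e2 (by positivity)
  have h10 : z * (gg V I x * ph y) ≤ (1 - c) * ph y * (1 - x) + ph y * ((1 + c) / B) := by
    rw [h7]; linarith
  have h11 : ph y * (z * gg V I x) ≤ ph y * ((1 - c) * (1 - x) + (1 + c) / B) := by
    nlinarith
  have h12 := le_of_mul_le_mul_left h11 hp
  have h13 : z * B ≤ z * gg V I x := mul_le_mul_of_nonneg_left h6.le hzp.le
  nlinarith

theorem end_dn_right (h : SPair c W V I k lam) {b x0 : ℝ} (hb : b ^ 2 < 1 + c)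
    (hg : ∀ x ≥ x0, gg V I x < b) : False := by
  have hc0 := h.c_pos
  have hc1 := h.c_lt
  have hb0 : 0 < b := (gg_pos h x0).trans (hg x0 le_rfl)
  have hm := yy_sub_anti h (convex_Ici x0) (B := b) fun x hx => (hg x hx).le
  obtain ⟨x1, hx1⟩ := exists_yy_gt h 1
  refine lin_absurd (a := (1 + c) - b ^ 2) (K := b * (yy V x0 - b * x0 + 1))
    (x1 := max x0 (max x1 0)) (by linarith) fun x hx => ?_
  have hxx0 : x0 ≤ x := (le_max_left _ _).trans hx
  have hxx1 : x1 ≤ x := ((le_max_left _ _).trans (le_max_right _ _)).trans hx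
  have hx0 : 0 ≤ x := ((le_max_right _ _).trans (le_max_right _ _)).trans hx
  have hy := hx1 x hxx1
  have hp := ph_pos (yy V x)
  have h1 := hm (mem_Ici.2 le_rfl) (mem_Ici.2 hxx0) hxx0
  simp only at h1
  have h4 := mills_lower (yy V x)
  rw [Phi_yy h x] at h4
  have h6 := hg x hxx0
  have h7 := gg_mul V I x
  rw [I_eq h x] at h7
  have hV0 := h.V_pos x
  have hV1 := h.V_lt x
  have hW0 := h.W_pos x
  have hU0 := h.U_pos x
  set y := yy V x
  -- `φ ≤ (y+1)(1-V)`
  have h8 : ph y ≤ (y + 1) * (1 - V x) := by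
    have e1 : (1 + y ^ 2) * (1 - V x) ≤ y * (y + 1) * (1 - V x) := by
      refine mul_le_mul_of_nonneg_right ?_ (by linarith)
      nlinarith
    have e2 : y * ph y ≤ y * ((y + 1) * (1 - V x)) := by nlinarith
    exact le_of_mul_le_mul_left e2 (by linarith)
  have h9 : (1 + c) * x * ph y ≤ (y + 1) * (gg V I x * ph y) := by
    rw [h7]
    have e1 : (1 + c) * x * ph y ≤ (1 + c) * x * ((y + 1) * (1 - V x)) :=
      mul_le_mul_of_nonneg_left h8 (by positivity)
    have e2 : (1 + c) * x * ((y + 1) * (1 - V x)) ≤ (y + 1) * ((1 + c) * (1 - V x) * W x) := by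
      have : 0 ≤ (y + 1) * (1 + c) * (1 - V x) * (W x - x) := by
        have := mul_nonneg (mul_nonneg (mul_nonneg (by linarith : 0 ≤ y + 1)
          (by linarith : 0 ≤ 1 + c)) (by linarith : 0 ≤ 1 - V x)) (by linarith : 0 ≤ W x - x)
        exact this
      nlinarith
    have e3 : 0 ≤ (y + 1) * ((1 - c) * V x * (W x - x)) :=
      mul_nonneg (by linarith) (mul_nonneg (mul_nonneg (by linarith) hV0.le) (by linarith))
    linarith
  have h10 : ph y * ((1 + c) * x) ≤ ph y * ((y + 1) * gg V I x) := by nlinarith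
  have h11 := le_of_mul_le_mul_left h10 hp
  have h12 : (y + 1) * gg V I x ≤ (y + 1) * b :=
    mul_le_mul_of_nonneg_left h6.le (by linarith)
  nlinarith

theorem end_dn_left (h : SPair c W V I k lam) {b x0 : ℝ} (hb : b ^ 2 < 1 - c)
    (hg : ∀ x ≤ x0, gg V I x < b) : False := by
  have hc0 := h.c_pos
  have hc1 := h.c_lt
  have hb0 : 0 < b := (gg_pos h x0).trans (hg x0 le_rfl)
  have hm := yy_sub_anti h (convex_Iic x0) (B := b) fun x hx => (hg x hx).le
  obtain ⟨x1, hx1⟩ := exists_yy_lt h (-1)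
  refine lin_absurd (a := (1 - c) - b ^ 2) (K := b * (1 - (yy V x0 - b * x0)))
    (x1 := max (-x0) (max (-x1) 0)) (by linarith) fun t ht => ?_
  have hxx0 : -t ≤ x0 := by have := (le_max_left _ _).trans ht; linarith
  have hxx1 : -t ≤ x1 := by
    have := ((le_max_left _ _).trans (le_max_right _ _)).trans ht; linarith
  have hx0 : -t ≤ 0 := by
    have := ((le_max_right _ _).trans (le_max_right _ _)).trans ht; linarith
  obtain ⟨x, rfl⟩ : ∃ x, t = -x := ⟨-t, by ring⟩
  rw [neg_neg] at hxx0 hxx1 hx0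
  have hy := hx1 x hxx1
  have hp := ph_pos (yy V x)
  have h1 := hm (mem_Iic.2 hxx0) (mem_Iic.2 le_rfl) hxx0
  simp only at h1
  have h4 := mills_lower (-yy V x)
  rw [Phi_neg, Phi_yy h x, ph_neg] at h4
  have h6 := hg x hxx0
  have h7 := gg_mul V I x
  rw [I_eq h x] at h7
  have hV0 := h.V_pos x
  have hV1 := h.V_lt x
  have hW0 := h.W_pos x
  have hU0 := h.U_pos x
  set y := yy V x
  set z := -y with hz
  have hzp : 1 < z := by linarith
  have h8 : ph y ≤ (z + 1) * V x := by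
    have e1 : (1 + z ^ 2) * (1 - (1 - V x)) ≤ z * (z + 1) * V x := by
      have : (1 + z ^ 2) ≤ z * (z + 1) := by nlinarith
      have := mul_le_mul_of_nonneg_right this hV0.le
      linarith
    have e2 : z * ph y ≤ z * ((z + 1) * V x) := by nlinarith
    exact le_of_mul_le_mul_left e2 (by linarith)
  have h9 : (1 - c) * (-x) * ph y ≤ (z + 1) * (gg V I x * ph y) := by
    rw [h7]
    have e1 : (1 - c) * (-x) * ph y ≤ (1 - c) * (-x) * ((z + 1) * V x) :=
      mul_le_mul_of_nonneg_left h8 (mul_nonneg (by linarith) (by linarith))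
    have e2 : (1 - c) * (-x) * ((z + 1) * V x) ≤ (z + 1) * ((1 - c) * V x * (W x - x)) := by
      have : 0 ≤ (z + 1) * ((1 - c) * V x * W x) :=
        mul_nonneg (by linarith) (mul_nonneg (mul_nonneg (by linarith) hV0.le) hW0.le)
      nlinarith
    have e3 : 0 ≤ (z + 1) * ((1 + c) * (1 - V x) * W x) :=
      mul_nonneg (by linarith) (mul_nonneg (mul_nonneg (by linarith) (by linarith)) hW0.le)
    linarith
  have h10 : ph y * ((1 - c) * (-x)) ≤ ph y * ((z + 1) * gg V I x) := by nlinarith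
  have h11 := le_of_mul_le_mul_left h10 hp
  have h12 : (z + 1) * gg V I x ≤ (z + 1) * b :=
    mul_le_mul_of_nonneg_left h6.le (by linarith)
  nlinarith

/-! ### result -/

theorem gg_le (h : SPair c W V I k lam) (x : ℝ) : gg V I x ≤ Real.sqrt (1 + 2 * c) := by
  have hc0 := h.c_pos
  have hs : Real.sqrt (1 + 2 * c) ^ 2 = 1 + 2 * c := Real.sq_sqrt (by linarith)
  have hs0 : 0 < Real.sqrt (1 + 2 * c) := Real.sqrt_pos.2 (by linarith)
  by_contra hcon
  push Not at hcon
  rcases dichotomy_up h hs0 hs.ge hcon with h1 | h1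
  · exact end_up_right h hs0 (by linarith) h1
  · exact end_up_left h hs0 (by linarith) h1

theorem le_gg (h : SPair c W V I k lam) (x : ℝ) : Real.sqrt (1 - 2 * c) ≤ gg V I x := by
  have hc0 := h.c_pos
  have hc1 := h.c_lt
  by_contra hcon
  push Not at hcon
  have hpos : 0 < Real.sqrt (1 - 2 * c) := (gg_pos h x).trans hcon
  have hs : Real.sqrt (1 - 2 * c) ^ 2 = 1 - 2 * c := Real.sq_sqrt (Real.sqrt_pos.1 hpos).le
  rcases dichotomy_dn h hs.le hcon with h1 | h1
  · exact end_dn_right h (by linarith) h1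
  · exact end_dn_left h (by linarith) h1

/-- **Ratio bound**: `√(1-2c) φ(y) ≤ I x ≤ √(1+2c) φ(y)` whenever `V x = Φ y`. -/
theorem ratio_bound (h : SPair c W V I k lam) {x y : ℝ} (hy : Phi y = V x) :
    Real.sqrt (1 - 2 * c) * ph y ≤ I x ∧ I x ≤ Real.sqrt (1 + 2 * c) * ph y := by
  have e : yy V x = y := by unfold yy; rw [← hy, Qn_Phi]
  have h1 := gg_mul V I x
  have h2 := gg_le h x
  have h3 := le_gg h x
  rw [e] at h1
  have hp := (ph_pos y).le
  rw [← h1]
  exact ⟨mul_le_mul_of_nonneg_right h3 hp, mul_le_mul_of_nonneg_right h2 hp⟩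

end Crest.Agent.R146.RatioB_39
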