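import Crest.Agent.R146.PairQ_355
import Crest.Agent.R146.PtRef_846
import Crest.Agent.R146.RatioB_39

/-!
Row 146 (helper355).  **Static side of REF: `PtRef_846.WS` from inequalities in `x = ξ`.**

`XD` = data as functions of `x` (shapes of the slope barriers `K± = I (1 ± δ b±)`, positions `N±`,
dual factors `G± = g± G0`, law constants `F± = Λ ± δ f±`), `XWS` = the inequalities, at the vertices of
`n`, for the labels `x` (level `v = V x`) and `z` (position `η = W z`).  `ws_of_xws : SPair c .. c → XWS .. →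
∃ M, WS ..`.
-/

set_option autoImplicit false

open Set Filter Topology

namespace Crest.Agent.R146.RefWS_355

open SPair_307 RefX_355 YWRef_177 PairQ_355 PtRef_846 ILin_355 ILog_371 SlopeT_371 YW_177 MaxP2_371
open StepStart_483 (Phi ph)

/-- data of the REF window step as functions of `x = ξ` -/
structure XD where
  bp : ℝ → ℝ
  bp1 : ℝ → ℝ
  bp2 : ℝ → ℝ
  bm : ℝ → ℝ
  bm1 : ℝ → ℝ
  bm2 : ℝ → ℝ
  np : ℝ → ℝ
  np1 : ℝ → ℝ
  nm : ℝ → ℝ
  nm1 : ℝ → ℝ
  fp : ℝ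
  fm : ℝ
  gp : ℝ → ℝ
  gp1 : ℝ → ℝ
  gm : ℝ → ℝ
  gm1 : ℝ → ℝ

/-- lower end of `n` -/
noncomputable def nl (c δ e0 : ℝ) : ℝ := max 0 (c - δ - e0)
/-- upper end of `n` -/
noncomputable def nu (c δ e0 : ℝ) : ℝ := min (7 / 10) (c + δ) + e0

/-- `x` = label of the level, `z` = label of the position -/
structure PosX (e0 : ℝ) (W : ℝ → ℝ) (D : XD) (x z : ℝ) : Prop where
  lo : (1 - e0) * D.nm x ≤ W z
  hi : W z ≤ (1 + e0) * D.np x

/-- `k'/V = dΛ/dη` and `d²Λ/dη²` at the label `z` -/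
noncomputable def L1 (c : ℝ) (W V k : ℝ → ℝ) (z : ℝ) : ℝ := k1 c W V k c z / V z

noncomputable def L2 (c : ℝ) (W V I k : ℝ → ℝ) (z : ℝ) : ℝ :=
  (k2 c W V I k c z * V z - k1 c W V k c z * I z) / V z ^ 3

/-- closure expression with `H = -G0`: `I² j(j-g) + 2VR²(c j g - T) + g H (j k - L) + j g' H` -/
noncomputable def CloX (c T j L g g1 : ℝ) (W V I k : ℝ → ℝ) (x : ℝ) : ℝ :=
  I x ^ 2 * (j * (j - g)) + 2 * (V x * (1 - V x) ^ 2) * (c * j * g - T)
    + g * -G0x c W V I k x * (j * k x - L) + j * g1 * -G0x c W V I k x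

/-- the inequalities of the REF window step in the variable `x` -/
structure XWS (c δ e0 κ B tlo thi : ℝ) (W V I k : ℝ → ℝ) (D : XD) : Prop where
  δ_pos : 0 < δ
  δ_le : δ ≤ c
  e0_pos : 0 < e0
  e0_le : e0 ≤ 1 / 100
  κ_pos : 0 < κ
  κ_le : κ ≤ 1 / 2
  B_pos : 0 < B
  -- regularity
  dbp : ∀ x, HasDerivAt D.bp (D.bp1 x) x
  dbp1 : ∀ x, HasSide D.bp1 (D.bp2 x) x
  dbm : ∀ x, HasDerivAt D.bm (D.bm1 x) x
  dbm1 : ∀ x, HasSide D.bm1 (D.bm2 x) x
  dnp : ∀ x, HasDerivAt D.np (D.np1 x) x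
  dnm : ∀ x, HasDerivAt D.nm (D.nm1 x) x
  dgp : ∀ x, HasDerivAt D.gp (D.gp1 x) x
  dgm : ∀ x, HasDerivAt D.gm (D.gm1 x) x
  -- bounds
  bpm : ∀ x, 0 ≤ D.bp x + D.bm x
  bp_le : ∀ x, D.bp x ≤ B
  Tm : ∀ x, κ ≤ 1 - δ * D.bm x
  bm_side : ∀ x, |D.bm2 x + k1x c W V I x * D.bm1 x| ≤ B
  -- slope barriers
  up : ∀ x y, (y = nl c δ e0 ∨ y = nu c δ e0) →
    Exx c y ((y - c) / δ) (1 + δ * D.bp x) W V I D.bp D.bp1 D.bp2 x ≤ 0
  low : ∀ x y, (y = nl c δ e0 ∨ y = nu c δ e0) →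
    Exx c y (-((y - c) / δ)) (1 - δ * D.bm x) W V I D.bm D.bm1 D.bm2 x ≤ 0
  conc : ∀ x, κ * (1 + δ * D.bp x) ≤
    Jx c W V I x * (1 + δ * D.bp x) + 2 * δ * c * qx V I x * D.bp1 x
  lin_p : ∀ x, κ * (1 + δ * D.bp x) ≤
    (1 / 2 + nu c δ e0 * sx c W V I x) * (1 + δ * D.bp x) + nu c δ e0 * (δ * qx V I x * D.bp1 x)
  lin_m : ∀ x, κ * (1 - δ * D.bm x) ≤
    (1 / 2 + nu c δ e0 * sx c W V I x) * (1 - δ * D.bm x) - nu c δ e0 * (δ * qx V I x * D.bm1 x)
  lin_m2 : ∀ x y, (y = 0 ∨ y = nu c δ e0) → κ * (1 - δ * D.bm x) ≤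
    (1 / 2 + y * sx c W V I x) * (1 - δ * D.bm x) - y * (δ * qx V I x * D.bm1 x)
      + 1 / 2 * (1 - δ * D.bm x) ^ 2 * (Jx c W V I x * (1 - δ * D.bm x)
        + δ * (D.bm2 x + k1x c W V I x * D.bm1 x))
  -- positions
  pos_p : ∀ x, V x ≤ D.np1 x * (1 - δ * D.bm x)
  pos_m : ∀ x, D.nm1 x * (1 + δ * D.bp x) ≤ V x
  np_lim : Tendsto D.np atBot (𝓝 0)
  nm_lim : Tendsto D.nm atBot (𝓝 0)
  nm_nonneg : ∀ x, 0 ≤ D.nm x
  np_le : ∀ x, D.np x ≤ B * (1 + |x|)
  -- law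
  fp_nonneg : 0 ≤ D.fp
  fm_nonneg : 0 ≤ D.fm
  law_p : ∀ x z, PosX e0 W D x z → ∀ y, (y = nl c δ e0 ∨ y = nu c δ e0) →
    ∀ j, (j = (1 - e0) * (1 - δ * D.bm x) ∨ j = (1 + e0) * (1 + δ * D.bp x)) →
    LStat 1 y (V x) (j * I x) (W z) (k z) (L1 c W V k z) (L2 c W V I k z) ≤
      δ * D.fp * PotR y (V x) (L1 c W V k z)
  law_m : ∀ x z, PosX e0 W D x z → ∀ y, (y = nl c δ e0 ∨ y = nu c δ e0) →
    ∀ j, (j = (1 - e0) * (1 - δ * D.bm x) ∨ j = (1 + e0) * (1 + δ * D.bp x)) →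
    -(δ * D.fm * PotR y (V x) (L1 c W V k z)) ≤
      LStat 1 y (V x) (j * I x) (W z) (k z) (L1 c W V k z) (L2 c W V I k z)
  pot : ∀ x z, PosX e0 W D x z → ∀ y, (y = nl c δ e0 ∨ y = nu c δ e0) →
    κ ≤ PotR y (V x) (L1 c W V k z)
  -- closure
  gp_bd : ∀ x, |D.gp x| ≤ B
  gp1_bd : ∀ x, |D.gp1 x| ≤ B
  gm_bd : ∀ x, |D.gm x| ≤ B
  gm1_bd : ∀ x, |D.gm1 x| ≤ B
  clo_p : ∀ x z j L, PosX e0 W D x z → (1 - e0) * (1 - δ * D.bm x) ≤ j →
    j ≤ (1 + e0) * (1 + δ * D.bp x) → 0 ≤ L → k z - δ * D.fm ≤ L → L ≤ k z + δ * D.fp →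
    CloX c thi j L (D.gp x) (D.gp1 x) W V I k x ≤ 0
  clo_m : ∀ x z j L, PosX e0 W D x z → (1 - e0) * (1 - δ * D.bm x) ≤ j →
    j ≤ (1 + e0) * (1 + δ * D.bp x) → 0 ≤ L → k z - δ * D.fm ≤ L → L ≤ k z + δ * D.fp →
    0 ≤ CloX c tlo j L (D.gm x) (D.gm1 x) W V I k x

/-- derivative of `G = g G0` in `v` -/
noncomputable def G1x (c : ℝ) (g g1 : ℝ → ℝ) (W V I k : ℝ → ℝ) (x : ℝ) : ℝ :=
  (g1 x * G0x c W V I k x
    + g x * (k x * G0x c W V I k x + I x ^ 2 - 2 * c * (V x * (1 - V x) ^ 2))) / I x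

/-- the functions of `PtRef_846.WData` -/
noncomputable def wd (c δ κ : ℝ) (W V I k : ℝ → ℝ) (D : XD) : WData where
  Kp := LL δ (Iv V I) (ev V D.bp)
  Kp1 := LL1 δ (Iv V I) (I1v c W V I) (ev V D.bp) (e1v V I D.bp1)
  Kp2 := LL2 δ (Iv V I) (I1v c W V I) (I2v c W V I) (ev V D.bp) (e1v V I D.bp1)
    (e2v c W V I D.bp1 D.bp2)
  Km := LL (-δ) (Iv V I) (ev V D.bm)
  Km1 := LL1 (-δ) (Iv V I) (I1v c W V I) (ev V D.bm) (e1v V I D.bm1)
  Km2 := LL2 (-δ) (Iv V I) (I1v c W V I) (I2v c W V I) (ev V D.bm) (e1v V I D.bm1)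
    (e2v c W V I D.bm1 D.bm2)
  Np := fun v => D.np (X V v)
  Np1 := fun v => D.np1 (X V v) / I (X V v)
  Nm := fun v => D.nm (X V v)
  Nm1 := fun v => D.nm1 (X V v) / I (X V v)
  Ub := fun v => κ⁻¹ * (W (X V v) - X V v)
  Ub1 := fun v => κ⁻¹ * ((V (X V v) - 1) / I (X V v))
  Fp := fun η => Lam W k η + δ * D.fp
  Fp1 := Lam1 c W V k c
  Fp2 := Lam2 c W V I k c
  Fm := fun η => Lam W k η - δ * D.fm
  Fm1 := Lam1 c W V k c
  Fm2 := Lam2 c W V I k c
  Gp := fun v => D.gp (X V v) * G0x c W V I k (X V v)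
  Gp1 := fun v => G1x c D.gp D.gp1 W V I k (X V v)
  Gm := fun v => D.gm (X V v) * G0x c W V I k (X V v)
  Gm1 := fun v => G1x c D.gm D.gm1 W V I k (X V v)

section alg

variable {c : ℝ} {W V I k : ℝ → ℝ} {lam : ℝ} {a v : ℝ} {e e1 e2 : ℝ → ℝ}

lemma LL_eq : LL a (Iv V I) (ev V e) v = I (X V v) * (1 + a * e (X V v)) := rfl

/-- `K K''` in the variable `x` -/
lemma KK_eq (h : SPair c W V I k lam) (hv : v ∈ Ioo (0:ℝ) 1) :
    LL a (Iv V I) (ev V e) v * LL2 a (Iv V I) (I1v c W V I) (I2v c W V I) (ev V e) (e1v V I e1)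
      (e2v c W V I e1 e2) v
    = -Jx c W V I (X V v) * (1 + a * e (X V v)) ^ 2
      + a * (1 + a * e (X V v)) * (e2 (X V v) + k1x c W V I (X V v) * e1 (X V v)) := by
  have hI := (h.I_pos (X V v)).ne'
  rw [LLLL_eq (refI h) hv, Jc_eq h hv]
  have e2' : Iv V I v ^ 2 * (e2v c W V I e1 e2 v + 2 * (I1v c W V I v / Iv V I v) * e1v V I e1 v) =
      e2 (X V v) + k1x c W V I (X V v) * e1 (X V v) := by
    unfold Iv e2v I1v e1v; field_simp; ring
  rw [e2']
  rfl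

/-- `LinR` in the variable `x` -/
lemma Lin_eq (h : SPair c W V I k lam) (hv : v ∈ Ioo (0:ℝ) 1) (n : ℝ) :
    LinR n v (LL a (Iv V I) (ev V e) v) (LL1 a (Iv V I) (I1v c W V I) (ev V e) (e1v V I e1) v)
    = I (X V v) * ((1 / 2 + n * sx c W V I (X V v)) * (1 + a * e (X V v))
        + n * (a * qx V I (X V v) * e1 (X V v))) := by
  have hI := (h.I_pos (X V v)).ne'
  have hV := V_X h hv
  unfold LinR LL LL1 Iv I1v ev e1v sx qx
  rw [hV]
  field_simp
  ring

/-- `Stat 1` in the variable `x` -/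
lemma Stat_eq (h : SPair c W V I k lam) (hv : v ∈ Ioo (0:ℝ) 1) (ha : a ≠ 0) (y : ℝ) :
    Stat 1 y v (LL a (Iv V I) (ev V e) v)
      (LL1 a (Iv V I) (I1v c W V I) (ev V e) (e1v V I e1) v)
      (LL2 a (Iv V I) (I1v c W V I) (I2v c W V I) (ev V e) (e1v V I e1) (e2v c W V I e1 e2) v)
    = I (X V v) * a * Exx c y ((y - c) / a) (1 + a * e (X V v)) W V I e e1 e2 (X V v) := by
  rw [stat_eq (refI h) hv ha, ← Ex_eq h hv]
  rfl

/-- `Exx` is affine in `y` -/
lemma Exx_vertices {τ0 yl yu y T x : ℝ}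
    (hl : Exx c yl ((yl - c) * τ0) T W V I e e1 e2 x ≤ 0)
    (hu : Exx c yu ((yu - c) * τ0) T W V I e e1 e2 x ≤ 0) (hy : y ∈ Icc yl yu) :
    Exx c y ((y - c) * τ0) T W V I e e1 e2 x ≤ 0 := by
  set A : ℝ := 1 / 2 * T ^ 2 * (e2 x + k1x c W V I x * e1 x - Jx c W V I x * e x)
    + (-c * τ0 * sx c W V I x - 1 / 2 * Jx c W V I x * e x) * T with hA
  set B : ℝ := τ0 * sx c W V I x * T + qx V I x * e1 x with hB
  have key : ∀ z, Exx c z ((z - c) * τ0) T W V I e e1 e2 x = A + B * z := by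
    intro z; rw [hA, hB]; unfold Exx; ring
  rw [key] at hl hu ⊢
  exact affine_nonpos hl hu hy

/-- `|q A| ≤ 1/2` -/
lemma qA_le (h : SPair c W V I k lam) (x : ℝ) : |qx V I x * Ad c W x| ≤ 1 / 2 := by
  have hI := h.I_pos x
  have hV := h.V_pos x
  have hV1 := h.V_lt x
  have hW := h.W_pos x
  have hU := h.U_pos x
  have hc := h.c_pos
  have hc1 := h.c_lt
  have e1 : I x = (1 + c) * W x - 2 * Ad c W x * V x := h.eqI x
  have e2 : I x = (1 - c) * (W x - x) + 2 * Ad c W x * (1 - V x) := by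
    rw [h.eqI]; unfold Ad; ring
  have e3 : qx V I x * Ad c W x = V x * (1 - V x) * Ad c W x / I x := by
    unfold qx; ring
  rw [e3, abs_le]
  constructor
  · rw [le_div_iff₀ hI]
    have h1 : 0 < (1 + c) * W x := by positivity
    nlinarith [mul_pos h1 (show 0 < 1 - V x by linarith)]
  · rw [div_le_iff₀ hI]
    have h1 : 0 < (1 - c) * (W x - x) := mul_pos (by linarith) (by linarith)
    nlinarith [mul_pos h1 hV]

lemma q_pos (h : SPair c W V I k lam) (x : ℝ) : 0 < qx V I x := by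
  have hI := h.I_pos x
  have hV := h.V_pos x
  have hV1 : 0 < 1 - V x := by linarith [h.V_lt x]
  unfold qx
  positivity

/-- `q` is bounded -/
lemma q_bdd (h : SPair c W V I k lam) : ∃ M, 0 < M ∧ ∀ x, qx V I x ≤ M := by
  have hc := h.c_pos
  have hc1 := h.c_lt
  have h1c : 0 < 1 - c := by linarith
  set a : ℝ := 3 / (1 - c) with ha
  have ha0 : 0 < a := by positivity
  obtain ⟨B, hB⟩ := (isCompact_Icc (a := -a) (b := 2)).exists_bound_of_continuousOn
    (f := qx V I) (by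
      apply Continuous.continuousOn
      unfold qx
      exact (h.cV.mul (continuous_const.sub h.cV)).div h.cI fun x => (h.I_pos x).ne')
  refine ⟨|B| + 1, by positivity, fun x => ?_⟩
  have hq := q_pos h x
  have hqA := abs_le.1 (qA_le h x)
  rcases le_total x (-a) with hx | hx
  · have h1 := A_le_left h (x := x) (by linarith)
    have h2 : (1 - c) / 2 * x ≤ (1 - c) / 2 * (-a) := mul_le_mul_of_nonneg_left hx (by linarith)
    have h3 : (1 - c) / 2 * (-a) = -(3 / 2) := by rw [ha]; field_simp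
    have h4 : Ad c W x ≤ -1 := by linarith
    have := abs_nonneg B
    nlinarith [hqA.1]
  · rcases le_total x 2 with hx2 | hx2
    · have := hB x ⟨hx, hx2⟩
      rw [Real.norm_eq_abs] at this
      have h5 := (le_abs_self _).trans this
      have := le_abs_self B
      linarith
    · have h1 := A_ge_right h x
      have h4 : 1 ≤ Ad c W x := by nlinarith
      have := abs_nonneg B
      nlinarith [hqA.2]

/-- `s` is bounded -/
lemma s_bdd (h : SPair c W V I k lam) : ∃ M, 0 < M ∧ ∀ x, |sx c W V I x| ≤ M := by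
  obtain ⟨M, hM, hq⟩ := q_bdd h
  have hc := h.c_pos
  have hc1 := h.c_lt
  refine ⟨1 + 2 * M ^ 2 + 3, by positivity, fun x => ?_⟩
  have h1 := abs_le.1 (qA_le h x)
  have h2 := hq x
  have h3 := q_pos h x
  have h4 := h.V_pos x
  have h5 := h.V_lt x
  have h6 : qx V I x ^ 2 ≤ M ^ 2 := pow_le_pow_left₀ h3.le h2 2
  have h7 : 0 ≤ c * qx V I x ^ 2 := by positivity
  have h8 : c * qx V I x ^ 2 ≤ M ^ 2 := by nlinarith [sq_nonneg (qx V I x)]
  have e : sx c W V I x = -2 * (qx V I x * Ad c W x) + 2 * (c * qx V I x ^ 2) + 3 * V x - 3 / 2 := by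
    unfold sx k1x; ring
  rw [e, abs_le]
  constructor <;> linarith

lemma J_bdd (h : SPair c W V I k lam) : ∃ M, 0 < M ∧ ∀ x, |Jx c W V I x| ≤ M := by
  obtain ⟨M, hM, hs⟩ := s_bdd h
  have hc := h.c_pos
  have hc1 := h.c_lt
  refine ⟨1 + 2 * M, by positivity, fun x => ?_⟩
  have h1 := abs_le.1 (hs x)
  unfold Jx
  rw [abs_le]
  constructor
  · nlinarith
  · nlinarith

/-- affine in two variables -/
lemma biaffine_nonpos {A B C D yl yu jl ju y j : ℝ}
    (h1 : A + B * yl + (C + D * yl) * jl ≤ 0) (h2 : A + B * yu + (C + D * yu) * jl ≤ 0)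
    (h3 : A + B * yl + (C + D * yl) * ju ≤ 0) (h4 : A + B * yu + (C + D * yu) * ju ≤ 0)
    (hy : y ∈ Icc yl yu) (hj : j ∈ Icc jl ju) : A + B * y + (C + D * y) * j ≤ 0 := by
  have k1 : (A + C * jl) + (B + D * jl) * y ≤ 0 :=
    affine_nonpos (by linarith) (by linarith) hy
  have k2 : (A + C * ju) + (B + D * ju) * y ≤ 0 :=
    affine_nonpos (by linarith) (by linarith) hy
  have k3 : (A + B * y) + (C + D * y) * j ≤ 0 :=
    affine_nonpos (by linarith) (by linarith) hj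
  linarith

lemma lstat_add (ω y v J η F F1 F2 C : ℝ) : LStat ω y v J η (F + C) F1 F2 =
    LStat ω y v J η F F1 F2 - C * ((1 + ω * y) / 2 - y * (1 - v) + v * F1) := by
  unfold LStat; ring

end alg

section main

variable {c δ e0 κ B tlo thi : ℝ} {W V I k : ℝ → ℝ} {D : XD}

lemma mem_vert (hX : XWS c δ e0 κ B tlo thi W V I k D) (hc : c < 1 / 2) :
    c ∈ Icc (nl c δ e0) (nu c δ e0) := by
  have h1 := hX.δ_pos
  have h2 := hX.e0_pos
  have h3 := hX.δ_le
  constructor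
  · unfold nl; exact max_le (by linarith) (by linarith)
  · unfold nu
    have : c ≤ min (7 / 10) (c + δ) := le_min (by linarith) (by linarith)
    linarith

lemma mem_win (hX : XWS c δ e0 κ B tlo thi W V I k D) {n : ℝ} (hn : 0 ≤ n)
    (h1 : max 0 (c - δ) - e0 ≤ n) (h2 : n ≤ min (7 / 10) (c + δ) + e0) :
    n ∈ Icc (nl c δ e0) (nu c δ e0) := by
  refine ⟨?_, h2⟩
  unfold nl
  refine max_le hn ?_
  have := le_max_right 0 (c - δ)
  linarith

lemma nu_pos (hX : XWS c δ e0 κ B tlo thi W V I k D) : 0 < nu c δ e0 := by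
  have h1 := hX.δ_pos
  have h2 := hX.e0_pos
  have h3 := hX.δ_le
  unfold nu
  have : 0 ≤ min (7 / 10) (c + δ) := le_min (by norm_num) (by linarith)
  linarith

lemma Tp_ge (hX : XWS c δ e0 κ B tlo thi W V I k D) (x : ℝ) : κ ≤ 1 + δ * D.bp x := by
  have h1 := hX.Tm x
  have h2 := hX.bpm x
  have h3 := hX.δ_pos
  nlinarith

/-- `K₊ K₊'' ≤ -κ` -/
lemma KKp_le (hX : XWS c δ e0 κ B tlo thi W V I k D) (hc : c < 1 / 2) (x : ℝ) :
    -Jx c W V I x * (1 + δ * D.bp x) ^ 2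
      + δ * (1 + δ * D.bp x) * (D.bp2 x + k1x c W V I x * D.bp1 x) ≤ -κ := by
  have hδ := hX.δ_pos
  have hT := (hX.κ_pos).trans_le (Tp_ge hX x)
  have hl := hX.up x _ (Or.inl rfl)
  have hu := hX.up x _ (Or.inr rfl)
  rw [div_eq_mul_inv] at hl hu
  have h1 := Exx_vertices hl hu (mem_vert hX hc)
  have h2 := hX.conc x
  unfold Exx at h1
  simp only [sub_self, zero_mul, zero_sub] at h1
  set T := 1 + δ * D.bp x with hTd
  set S := D.bp2 x + k1x c W V I x * D.bp1 x with hS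
  set J := Jx c W V I x with hJ
  set qb := qx V I x * D.bp1 x with hqb
  have hb : δ * D.bp x = T - 1 := by rw [hTd]; ring
  -- multiply `h1` by `2 δ / T`
  have h3 : T ^ 2 * (δ * S - J * (T - 1)) - J * (T - 1) * T + 2 * δ * c * qb ≤ 0 := by
    have e : T ^ 2 * (δ * S - J * (T - 1)) - J * (T - 1) * T + 2 * δ * c * qb
        = 2 * δ * (1 / 2 * T ^ 2 * (S - J * D.bp x) + -(1 / 2 * J * D.bp x) * T
          + c * qx V I x * D.bp1 x) := by
      rw [← hb, hqb]; ring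
    rw [e]
    exact mul_nonpos_of_nonneg_of_nonpos (by positivity) h1
  have h4 : κ * T ≤ J * T + 2 * δ * c * qb := by
    have e : 2 * δ * c * qx V I x * D.bp1 x = 2 * δ * c * qb := by rw [hqb]; ring
    rw [e] at h2
    exact h2
  have h5 : T * (-J * T ^ 2 + δ * T * S + κ) ≤ 0 := by nlinarith
  have h6 : -J * T ^ 2 + δ * T * S + κ ≤ 0 := by
    by_contra hcon
    push Not at hcon
    nlinarith [mul_pos hT hcon]
  linarith

lemma wd_Km (x : ℝ) : (1 + -δ * D.bm x) = 1 - δ * D.bm x := by ring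

/-- the closure expression -/
lemma clo_eq (h : SPair c W V I k c) (x : ℝ) (T j L : ℝ) (g g1 : ℝ → ℝ) :
    CloR T (V x) (j * I x) L (g x * G0x c W V I k x) (G1x c g g1 W V I k x)
      = CloX c T j L (g x) (g1 x) W V I k x := by
  have hI := (h.I_pos x).ne'
  unfold CloR CloX G1x
  field_simp
  ring

lemma dG (h : SPair c W V I k c) {g g1 : ℝ → ℝ} (hg : ∀ x, HasDerivAt g (g1 x) x) {v : ℝ}
    (hv : v ∈ Ioo (0:ℝ) 1) : HasDerivAt (fun v => g (X V v) * G0x c W V I k (X V v))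
      (G1x c g g1 W V I k (X V v)) v := by
  have h1 := (hg (X V v)).mul (dG0 h (X V v))
  exact comp_X h hv h1

/-- `|K₊ G'| ≤ M` -/
lemma KG_bdd (h : SPair c W V I k c) {g g1 : ℝ → ℝ} {BT : ℝ} (hB : 0 < B)
    (hg : ∀ x, |g x| ≤ B) (hg1 : ∀ x, |g1 x| ≤ B) {T : ℝ → ℝ} (hT0 : ∀ x, 0 ≤ T x)
    (hT : ∀ x, T x ≤ BT) :
    ∃ M, 0 < M ∧ ∀ x, |I x * T x * G1x c g g1 W V I k x| ≤ M := by
  obtain ⟨MG, hMG, hG⟩ := G0_bdd h
  obtain ⟨Mk, hMk, hk⟩ := k_lin h
  obtain ⟨MI, hMI, hIl⟩ := I_lin h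
  have hBT : 0 ≤ BT := (hT0 0).trans (hT 0)
  have hc := h.c_pos
  have hc1 := h.c_lt
  refine ⟨(BT + 1) * (B * MG + B * (Mk * MG + MI ^ 2 + 2)), by positivity, fun x => ?_⟩
  have hI := h.I_pos x
  have hkp := h.k_pos x
  have hV := h.V_pos x
  have hV1 := h.V_lt x
  have hx := abs_nonneg x
  have k1' : k x ≤ Mk := by nlinarith [hk x, mul_nonneg hkp.le hx]
  have i1 : I x ≤ MI := by
    have := hIl x
    nlinarith [mul_nonneg hI.le (show 0 ≤ (1 + |x|) ^ 2 - 1 by nlinarith)]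
  have e : I x * T x * G1x c g g1 W V I k x = T x * (g1 x * G0x c W V I k x
    + g x * (k x * G0x c W V I k x + I x ^ 2 - 2 * c * (V x * (1 - V x) ^ 2))) := by
    unfold G1x; field_simp
  rw [e, abs_mul, abs_of_nonneg (hT0 x)]
  have b1 : |g1 x * G0x c W V I k x| ≤ B * MG := by
    rw [abs_mul]; exact mul_le_mul (hg1 x) (hG x) (abs_nonneg _) hB.le
  have b2 : |k x * G0x c W V I k x + I x ^ 2 - 2 * c * (V x * (1 - V x) ^ 2)|
      ≤ Mk * MG + MI ^ 2 + 2 := by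
    have b3 : |k x * G0x c W V I k x| ≤ Mk * MG := by
      rw [abs_mul, abs_of_pos hkp]; exact mul_le_mul k1' (hG x) (abs_nonneg _) hMk.le
    have b4 : I x ^ 2 ≤ MI ^ 2 := pow_le_pow_left₀ hI.le i1 2
    have b5 : 0 ≤ V x * (1 - V x) ^ 2 := by
      have : 0 ≤ 1 - V x := by linarith
      positivity
    have b6 : V x * (1 - V x) ^ 2 ≤ 1 := by
      have : (1 - V x) ^ 2 ≤ 1 := by nlinarith
      nlinarith
    have b7 : 2 * c * (V x * (1 - V x) ^ 2) ≤ 2 := by nlinarith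
    have b8 : 0 ≤ 2 * c * (V x * (1 - V x) ^ 2) := by positivity
    have b9 := abs_le.1 b3
    rw [abs_le]
    constructor <;> nlinarith [sq_nonneg (I x), mul_nonneg hMk.le hMG.le, sq_nonneg MI]
  have b3 : |g x * (k x * G0x c W V I k x + I x ^ 2 - 2 * c * (V x * (1 - V x) ^ 2))|
      ≤ B * (Mk * MG + MI ^ 2 + 2) := by
    rw [abs_mul]; exact mul_le_mul (hg x) b2 (abs_nonneg _) hB.le
  have b4 := (abs_add_le (g1 x * G0x c W V I k x)
    (g x * (k x * G0x c W V I k x + I x ^ 2 - 2 * c * (V x * (1 - V x) ^ 2)))).trans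
    (add_le_add b1 b3)
  have hT1 := hT x
  have hT2 := hT0 x
  have h9 : 0 ≤ B * MG + B * (Mk * MG + MI ^ 2 + 2) := by positivity
  calc _ ≤ T x * (B * MG + B * (Mk * MG + MI ^ 2 + 2)) := mul_le_mul_of_nonneg_left b4 hT2
    _ ≤ (BT + 1) * (B * MG + B * (Mk * MG + MI ^ 2 + 2)) :=
        mul_le_mul_of_nonneg_right (by linarith) h9

/-- growth of the dual functions -/
lemma G_growth (h : SPair c W V I k c) {g : ℝ → ℝ} (hB : 0 < B) (hκ : 0 < κ)
    (hg : ∀ x, |g x| ≤ B) {np : ℝ → ℝ} (hnp : ∀ x, np x ≤ B * (1 + |x|)) :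
    ∃ M, 0 < M ∧ (∀ v ∈ Ioc (0:ℝ) (1 / 2), |g (X V v) * G0x c W V I k (X V v)| *
        (1 + np (X V v) + κ⁻¹ * (W (X V v) - X V v)) ≤ M * v) ∧
      (∀ v ∈ Ico (1 / 2 : ℝ) 1, |g (X V v) * G0x c W V I k (X V v)| *
        (1 + np (X V v) + κ⁻¹ * (W (X V v) - X V v)) ≤ M * (1 - v)) := by
  have hhalf : (1 / 2 : ℝ) ∈ Ioo (0:ℝ) 1 := by constructor <;> norm_num
  obtain ⟨M1, hM1, h1⟩ := G0_left h (X V (1 / 2))
  obtain ⟨M2, hM2, h2⟩ := G0_right h (X V (1 / 2))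
  have hκi : 0 < κ⁻¹ := inv_pos.2 hκ
  have key : ∀ x, |g x * G0x c W V I k x| * (1 + np x + κ⁻¹ * (W x - x)) ≤
      (B * (1 + B + κ⁻¹)) * (|G0x c W V I k x| * (1 + |x|)) := by
    intro x
    have hU := U_le_abs h x
    have hx := abs_nonneg x
    have a1 : 1 + np x + κ⁻¹ * (W x - x) ≤ (1 + B + κ⁻¹) * (1 + |x|) := by
      have := hnp x
      have := mul_le_mul_of_nonneg_left hU hκi.le
      nlinarith
    rw [abs_mul]
    have hG := abs_nonneg (G0x c W V I k x)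
    have hgx := abs_nonneg (g x)
    calc |g x| * |G0x c W V I k x| * (1 + np x + κ⁻¹ * (W x - x))
        ≤ |g x| * |G0x c W V I k x| * ((1 + B + κ⁻¹) * (1 + |x|)) :=
          mul_le_mul_of_nonneg_left a1 (by positivity)
      _ = |g x| * ((1 + B + κ⁻¹) * (|G0x c W V I k x| * (1 + |x|))) := by ring
      _ ≤ B * ((1 + B + κ⁻¹) * (|G0x c W V I k x| * (1 + |x|))) :=
          mul_le_mul_of_nonneg_right (hg x) (by positivity)
      _ = _ := by ring
  have hBB : 0 < B * (1 + B + κ⁻¹) := by positivity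
  refine ⟨(B * (1 + B + κ⁻¹)) * (M1 + M2), by positivity, ?_, ?_⟩
  · intro v hv
    have hvm : v ∈ Ioo (0:ℝ) 1 := ⟨hv.1, by linarith [hv.2]⟩
    have hx : X V v ≤ X V (1 / 2) := (X_le_iff h hvm hhalf).2 hv.2
    have a1 := h1 _ hx
    rw [V_X h hvm] at a1
    refine (key _).trans ?_
    have a2 := mul_le_mul_of_nonneg_left a1 hBB.le
    have a3 : 0 ≤ (B * (1 + B + κ⁻¹)) * (M2 * v) := by have := hv.1; positivity
    nlinarith
  · intro v hv
    have hvm : v ∈ Ioo (0:ℝ) 1 := ⟨by linarith [hv.1], hv.2⟩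
    have hx : X V v ≥ X V (1 / 2) := (X_le_iff h hhalf hvm).2 hv.1
    have a1 := h2 _ hx
    rw [V_X h hvm] at a1
    refine (key _).trans ?_
    have a2 := mul_le_mul_of_nonneg_left a1 hBB.le
    have a3 : 0 ≤ (B * (1 + B + κ⁻¹)) * (M1 * (1 - v)) := by
      have : 0 ≤ 1 - v := by linarith [hv.2]
      positivity
    nlinarith

/-- `φ(z) ≤ M K₊(Φ z)` and `K₋(Φ z) ≤ M φ(z)` -/
lemma gau (h : SPair c W V I k c) (hc : c < 1 / 2) (z : ℝ) :
    Real.sqrt (1 - 2 * c) * ph z ≤ I (X V (Phi z)) ∧ I (X V (Phi z)) ≤ Real.sqrt (1 + 2 * c) * ph z := by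
  have hz : Phi z ∈ Ioo (0:ℝ) 1 := ⟨StepStart_483.Phi_pos z, StepStart_483.Phi_lt_one z⟩
  exact RatioB_39.ratio_bound h (V_X h hz).symm

lemma law_p_aux (h : SPair c W V I k c) (hX : XWS c δ e0 κ B tlo thi W V I k D) :
    ∀ v η J n, AdmR e0 (wd c δ κ W V I k D) v η J → 0 ≤ n → max 0 (c - δ) - e0 ≤ n →
      n ≤ min (7 / 10) (c + δ) + e0 →
      LStat 1 n v J η (Lam W k η + δ * D.fp) (Lam1 c W V k c η) (Lam2 c W V I k c η) ≤ 0 := by
  intro v η J n hA hn0 hn1 hn2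
  have hwin : ∀ n, 0 ≤ n → max 0 (c - δ) - e0 ≤ n → n ≤ min (7 / 10) (c + δ) + e0 →
      n ∈ Icc (nl c δ e0) (nu c δ e0) := fun n => mem_win hX
  have hv : v ∈ Ioo (0:ℝ) 1 := ⟨hA.v_pos, hA.v_lt⟩
  have hη := hA.η_pos
  have hWi := W_Wi h hη
  have hVX := V_X h hv
  set x := X V v with hx
  set z := Wi W η with hz
  have hI := h.I_pos x
  have hP : PosX e0 W D x z := ⟨by rw [hWi]; exact hA.η_lo, by rw [hWi]; exact hA.η_hi⟩
  have hJ1 : (1 - e0) * (I x * (1 + -δ * D.bm x)) ≤ J := hA.J_lo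
  have hJ2 : J ≤ (1 + e0) * (I x * (1 + δ * D.bp x)) := hA.J_hi
  rw [wd_Km] at hJ1
  show LStat 1 n v J η (Lam W k η + δ * D.fp) (Lam1 c W V k c η) (Lam2 c W V I k c η) ≤ 0
  rw [lstat_add]
  have hy := hwin n hn0 hn1 hn2
  have hL := hX.law_p x z hP
  have q1 := hL _ (Or.inl rfl) _ (Or.inl rfl)
  have q2 := hL _ (Or.inr rfl) _ (Or.inl rfl)
  have q3 := hL _ (Or.inl rfl) _ (Or.inr rfl)
  have q4 := hL _ (Or.inr rfl) _ (Or.inr rfl)
  rw [hVX, hWi] at q1 q2 q3 q4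
  have eL1 : L1 c W V k z = Lam1 c W V k c η := rfl
  have eL2 : L2 c W V I k z = Lam2 c W V I k c η := rfl
  have eL : k z = Lam W k η := rfl
  rw [eL1, eL2, eL] at q1 q2 q3 q4
  set F := Lam W k η
  set F1 := Lam1 c W V k c η
  set F2 := Lam2 c W V I k c η
  set j := J / I x with hj
  have hjI : j * I x = J := by rw [hj]; field_simp
  have hj1 : (1 - e0) * (1 - δ * D.bm x) ≤ j := by
    rw [hj, le_div_iff₀ hI]; linarith
  have hj2 : j ≤ (1 + e0) * (1 + δ * D.bp x) := by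
    rw [hj, div_le_iff₀ hI]; linarith
  have key := biaffine_nonpos
    (A := v ^ 2 * F2 / 2 + (-(F * v) - 1 / 2 * η) * F1 - 1 / 2 * F
      - δ * D.fp * (1 / 2 + v * F1))
    (B := -(1 / 2 * η) * F1 - (1 / 2 - (1 - v)) * F - δ * D.fp * (1 / 2 - (1 - v)))
    (C := I x * F1) (D := I x)
    (yl := nl c δ e0) (yu := nu c δ e0) (y := n)
    (jl := (1 - e0) * (1 - δ * D.bm x)) (ju := (1 + e0) * (1 + δ * D.bp x)) (j := j)
    (by unfold LStat PotR at q1; linarith) (by unfold LStat PotR at q2; linarith)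
    (by unfold LStat PotR at q3; linarith) (by unfold LStat PotR at q4; linarith)
    hy ⟨hj1, hj2⟩
  unfold LStat
  rw [← hjI]
  linarith

lemma law_m_aux (h : SPair c W V I k c) (hX : XWS c δ e0 κ B tlo thi W V I k D) :
    ∀ v η J n, AdmR e0 (wd c δ κ W V I k D) v η J → 0 ≤ n → max 0 (c - δ) - e0 ≤ n →
      n ≤ min (7 / 10) (c + δ) + e0 →
      0 ≤ LStat 1 n v J η (Lam W k η - δ * D.fm) (Lam1 c W V k c η) (Lam2 c W V I k c η) := by
  intro v η J n hA hn0 hn1 hn2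
  have hwin : ∀ n, 0 ≤ n → max 0 (c - δ) - e0 ≤ n → n ≤ min (7 / 10) (c + δ) + e0 →
      n ∈ Icc (nl c δ e0) (nu c δ e0) := fun n => mem_win hX
  have hv : v ∈ Ioo (0:ℝ) 1 := ⟨hA.v_pos, hA.v_lt⟩
  have hη := hA.η_pos
  have hWi := W_Wi h hη
  have hVX := V_X h hv
  set x := X V v with hx
  set z := Wi W η with hz
  have hI := h.I_pos x
  have hP : PosX e0 W D x z := ⟨by rw [hWi]; exact hA.η_lo, by rw [hWi]; exact hA.η_hi⟩
  have hJ1 : (1 - e0) * (I x * (1 + -δ * D.bm x)) ≤ J := hA.J_lo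
  have hJ2 : J ≤ (1 + e0) * (I x * (1 + δ * D.bp x)) := hA.J_hi
  rw [wd_Km] at hJ1
  have e9 : Lam W k η - δ * D.fm = Lam W k η + (-(δ * D.fm)) := by ring
  show 0 ≤ LStat 1 n v J η (Lam W k η - δ * D.fm) (Lam1 c W V k c η) (Lam2 c W V I k c η)
  rw [e9, lstat_add]
  have hy := hwin n hn0 hn1 hn2
  have hL := hX.law_m x z hP
  have q1 := hL _ (Or.inl rfl) _ (Or.inl rfl)
  have q2 := hL _ (Or.inr rfl) _ (Or.inl rfl)
  have q3 := hL _ (Or.inl rfl) _ (Or.inr rfl)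
  have q4 := hL _ (Or.inr rfl) _ (Or.inr rfl)
  rw [hVX, hWi] at q1 q2 q3 q4
  have eL1 : L1 c W V k z = Lam1 c W V k c η := rfl
  have eL2 : L2 c W V I k z = Lam2 c W V I k c η := rfl
  have eL : k z = Lam W k η := rfl
  rw [eL1, eL2, eL] at q1 q2 q3 q4
  set F := Lam W k η
  set F1 := Lam1 c W V k c η
  set F2 := Lam2 c W V I k c η
  set j := J / I x with hj
  have hjI : j * I x = J := by rw [hj]; field_simp
  have hj1 : (1 - e0) * (1 - δ * D.bm x) ≤ j := by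
    rw [hj, le_div_iff₀ hI]; linarith
  have hj2 : j ≤ (1 + e0) * (1 + δ * D.bp x) := by
    rw [hj, div_le_iff₀ hI]; linarith
  have key := biaffine_nonpos
    (A := -(v ^ 2 * F2 / 2 + (-(F * v) - 1 / 2 * η) * F1 - 1 / 2 * F
      + δ * D.fm * (1 / 2 + v * F1)))
    (B := -(-(1 / 2 * η) * F1 - (1 / 2 - (1 - v)) * F + δ * D.fm * (1 / 2 - (1 - v))))
    (C := -(I x * F1)) (D := -(I x))
    (yl := nl c δ e0) (yu := nu c δ e0) (y := n)
    (jl := (1 - e0) * (1 - δ * D.bm x)) (ju := (1 + e0) * (1 + δ * D.bp x)) (j := j)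
    (by unfold LStat PotR at q1; linarith) (by unfold LStat PotR at q2; linarith)
    (by unfold LStat PotR at q3; linarith) (by unfold LStat PotR at q4; linarith)
    hy ⟨hj1, hj2⟩
  unfold LStat
  rw [← hjI]
  linarith

lemma pot_p_aux (h : SPair c W V I k c) (hX : XWS c δ e0 κ B tlo thi W V I k D) :
    ∀ v η J n, AdmR e0 (wd c δ κ W V I k D) v η J → 0 ≤ n → max 0 (c - δ) - e0 ≤ n →
      n ≤ min (7 / 10) (c + δ) + e0 → κ ≤ PotR n v (Lam1 c W V k c η) := by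
  intro v η J n hA hn0 hn1 hn2
  have hwin : ∀ n, 0 ≤ n → max 0 (c - δ) - e0 ≤ n → n ≤ min (7 / 10) (c + δ) + e0 →
      n ∈ Icc (nl c δ e0) (nu c δ e0) := fun n => mem_win hX
  have hv : v ∈ Ioo (0:ℝ) 1 := ⟨hA.v_pos, hA.v_lt⟩
  have hWi := W_Wi h hA.η_pos
  have hVX := V_X h hv
  have hP : PosX e0 W D (X V v) (Wi W η) :=
    ⟨by rw [hWi]; exact hA.η_lo, by rw [hWi]; exact hA.η_hi⟩
  have q1 := hX.pot _ _ hP _ (Or.inl rfl)
  have q2 := hX.pot _ _ hP _ (Or.inr rfl)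
  rw [hVX] at q1 q2
  have key := affine_nonpos (A := κ - (1 / 2 + v * L1 c W V k (Wi W η)))
    (B := -(1 / 2 - (1 - v))) (by unfold PotR at q1; linarith) (by unfold PotR at q2; linarith)
    (hwin n hn0 hn1 hn2)
  show κ ≤ PotR n v (L1 c W V k (Wi W η))
  unfold PotR
  linarith

lemma clo_p_aux (h : SPair c W V I k c) (hX : XWS c δ e0 κ B tlo thi W V I k D) :
    ∀ v η J L, AdmR e0 (wd c δ κ W V I k D) v η J → 0 ≤ L →
      Lam W k η - δ * D.fm ≤ L → L ≤ Lam W k η + δ * D.fp →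
      CloR thi v J L (D.gp (X V v) * G0x c W V I k (X V v)) (G1x c D.gp D.gp1 W V I k (X V v)) ≤ 0 := by
  intro v η J L hA hL0 hL1 hL2
  have hv : v ∈ Ioo (0:ℝ) 1 := ⟨hA.v_pos, hA.v_lt⟩
  have hWi := W_Wi h hA.η_pos
  have hVX := V_X h hv
  have hP : PosX e0 W D (X V v) (Wi W η) :=
    ⟨by rw [hWi]; exact hA.η_lo, by rw [hWi]; exact hA.η_hi⟩
  have hJ1 : (1 - e0) * (I (X V v) * (1 + -δ * D.bm (X V v))) ≤ J := hA.J_lo
  have hJ2 : J ≤ (1 + e0) * (I (X V v) * (1 + δ * D.bp (X V v))) := hA.J_hi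
  rw [wd_Km] at hJ1
  set x := X V v with hx
  have hI := h.I_pos x
  have hjI : J / I x * I x = J := by field_simp
  have hj1 : (1 - e0) * (1 - δ * D.bm x) ≤ J / I x := by
    rw [le_div_iff₀ hI]; linarith
  have hj2 : J / I x ≤ (1 + e0) * (1 + δ * D.bp x) := by
    rw [div_le_iff₀ hI]; linarith
  have key := hX.clo_p x (Wi W η) (J / I x) L hP hj1 hj2 hL0 hL1 hL2
  rw [← clo_eq h, hVX, hjI] at key
  exact key

lemma clo_m_aux (h : SPair c W V I k c) (hX : XWS c δ e0 κ B tlo thi W V I k D) :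
    ∀ v η J L, AdmR e0 (wd c δ κ W V I k D) v η J → 0 ≤ L →
      Lam W k η - δ * D.fm ≤ L → L ≤ Lam W k η + δ * D.fp →
      0 ≤ CloR tlo v J L (D.gm (X V v) * G0x c W V I k (X V v)) (G1x c D.gm D.gm1 W V I k (X V v)) := by
  intro v η J L hA hL0 hL1 hL2
  have hv : v ∈ Ioo (0:ℝ) 1 := ⟨hA.v_pos, hA.v_lt⟩
  have hWi := W_Wi h hA.η_pos
  have hVX := V_X h hv
  have hP : PosX e0 W D (X V v) (Wi W η) :=
    ⟨by rw [hWi]; exact hA.η_lo, by rw [hWi]; exact hA.η_hi⟩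
  have hJ1 : (1 - e0) * (I (X V v) * (1 + -δ * D.bm (X V v))) ≤ J := hA.J_lo
  have hJ2 : J ≤ (1 + e0) * (I (X V v) * (1 + δ * D.bp (X V v))) := hA.J_hi
  rw [wd_Km] at hJ1
  set x := X V v with hx
  have hI := h.I_pos x
  have hjI : J / I x * I x = J := by field_simp
  have hj1 : (1 - e0) * (1 - δ * D.bm x) ≤ J / I x := by
    rw [le_div_iff₀ hI]; linarith
  have hj2 : J / I x ≤ (1 + e0) * (1 + δ * D.bp x) := by
    rw [div_le_iff₀ hI]; linarith
  have key := hX.clo_m x (Wi W η) (J / I x) L hP hj1 hj2 hL0 hL1 hL2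
  rw [← clo_eq h, hVX, hjI] at key
  exact key


/-- **the static glue of REF** -/
theorem ws_of_xws (h : SPair c W V I k c) (hc : c < 1 / 2)
    (hX : XWS c δ e0 κ B tlo thi W V I k D) :
    ∃ M, WS (max 0 (c - δ)) (min (7 / 10) (c + δ)) tlo thi e0 κ M (wd c δ κ W V I k D) := by
  have hc0 := h.c_pos
  have hδ := hX.δ_pos
  have he0 := hX.e0_pos
  have he1 := hX.e0_le
  have hκ := hX.κ_pos
  have hB := hX.B_pos
  have hκi : 0 < κ⁻¹ := inv_pos.2 hκ
  have hnu := nu_pos hX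
  -- the bounds
  have hKI : ∀ x, I x ≤ 1 := fun x => by
    have h1 := h.I_le x
    have h2 := Stat8_307.W0_le h
    have h3 := h.W_pos 0
    nlinarith
  have hTp : ∀ x, κ ≤ 1 + δ * D.bp x := Tp_ge hX
  have hTp' : ∀ x, 1 + δ * D.bp x ≤ 1 + δ * B := fun x => by
    have := mul_le_mul_of_nonneg_left (hX.bp_le x) hδ.le
    linarith
  have hTm := hX.Tm
  have hTm' : ∀ x, 1 - δ * D.bm x ≤ 1 + δ * B := fun x => by
    have := hX.bpm x
    have h2 := hTp' x
    nlinarith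
  obtain ⟨MJ, hMJ, hJ⟩ := J_bdd h
  obtain ⟨Mk, hMk, hk⟩ := k_lin h
  obtain ⟨M1, hM1, hk1⟩ := k1_ge h
  obtain ⟨MG, hMG, hGl, hGr⟩ := G_growth h hB hκ hX.gp_bd hX.np_le
  obtain ⟨MG', hMG', hGl', hGr'⟩ := G_growth h hB hκ hX.gm_bd hX.np_le
  obtain ⟨MD, hMD, hKD⟩ := KG_bdd h hB hX.gp_bd hX.gp1_bd (T := fun x => 1 + δ * D.bp x)
    (fun x => hκ.le.trans (hTp x)) hTp'
  obtain ⟨MD', hMD', hKD'⟩ := KG_bdd h hB hX.gm_bd hX.gm1_bd (T := fun x => 1 + δ * D.bp x)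
    (fun x => hκ.le.trans (hTp x)) hTp'
  have hfp := hX.fp_nonneg
  have hfm := hX.fm_nonneg
  set T0 : ℝ := 1 + δ * B with hT0
  have hT00 : 1 ≤ T0 := by rw [hT0]; nlinarith [mul_pos hδ hB]
  set MKK : ℝ := MJ * T0 ^ 2 + δ * T0 * B with hMKK
  have hMKK0 : 0 < MKK := by positivity
  set s1 : ℝ := Real.sqrt (1 - 2 * c) with hs1
  have hs10 : 0 < s1 := Real.sqrt_pos.2 (by linarith)
  set s2 : ℝ := Real.sqrt (1 + 2 * c) with hs2
  have hs20 : 0 < s2 := Real.sqrt_pos.2 (by linarith)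
  set Mg : ℝ := (κ * s1)⁻¹ with hMg
  have hMg0 : 0 < Mg := by positivity
  set Mh : ℝ := s2 * T0 with hMh
  have hMh0 : 0 < Mh := by positivity
  set MF : ℝ := Mk + δ * D.fp + δ * D.fm with hMF
  have hMF0 : 0 < MF := by positivity
  set M : ℝ := T0 + MKK + Mg + Mh + MF + M1 + MG + MG' + MD + MD' with hM
  have hM0 : 0 < M := by positivity
  have hKKm : ∀ x, |-Jx c W V I x * (1 + -δ * D.bm x) ^ 2
      + -δ * (1 + -δ * D.bm x) * (D.bm2 x + k1x c W V I x * D.bm1 x)| ≤ MKK := by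
    intro x
    rw [wd_Km]
    have a1 := hTm x
    have a2 := hTm' x
    have a3 := abs_le.1 (hJ x)
    have a4 := abs_le.1 (hX.bm_side x)
    set T := 1 - δ * D.bm x
    set S := D.bm2 x + k1x c W V I x * D.bm1 x
    set J := Jx c W V I x
    have a5 : T ^ 2 ≤ T0 ^ 2 := pow_le_pow_left₀ (hκ.le.trans a1) a2 2
    have a0 : 0 ≤ T := hκ.le.trans a1
    have b1 : |J * T ^ 2| ≤ MJ * T0 ^ 2 := by
      rw [abs_mul, abs_of_nonneg (sq_nonneg T)]
      exact mul_le_mul (abs_le.2 a3) a5 (sq_nonneg T) hMJ.le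
    have b2 : |δ * T * S| ≤ δ * T0 * B := by
      rw [abs_mul, abs_mul, abs_of_pos hδ, abs_of_nonneg a0]
      exact mul_le_mul (mul_le_mul_of_nonneg_left a2 hδ.le) (abs_le.2 a4) (abs_nonneg _)
        (by positivity)
    have b3 := abs_le.1 b1
    have b4 := abs_le.1 b2
    rw [abs_le, hMKK]
    constructor <;> nlinarith
  refine ⟨M, ?_⟩
  have hwin : ∀ n, 0 ≤ n → max 0 (c - δ) - e0 ≤ n → n ≤ min (7 / 10) (c + δ) + e0 →
      n ∈ Icc (nl c δ e0) (nu c δ e0) := fun n => mem_win hX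
  -- affine extension of the linear parts
  have hlin : ∀ (T A C : ℝ), κ * T ≤ 1 / 2 * T + C →
      κ * T ≤ (1 / 2 * T + C) + A * nu c δ e0 → ∀ n, 0 ≤ n → n ≤ nu c δ e0 →
      κ * T ≤ (1 / 2 * T + C) + A * n := by
    intro T A C h1 h2 n hn0 hn1
    have := affine_nonpos (A := κ * T - (1 / 2 * T + C)) (B := -A) (yl := 0) (yu := nu c δ e0)
      (y := n) (by linarith) (by linarith) ⟨hn0, hn1⟩
    linarith
  exact
  { lo_nonneg := le_max_left _ _
    lo_le := by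
      have h3 := hX.δ_le
      refine max_le (le_min (by norm_num) (by linarith)) (le_min (by linarith) (by linarith))
    hi_lt := by
      have := min_le_left (7 / 10 : ℝ) (c + δ)
      linarith
    e0_pos := he0
    e0_le := he1
    κ_pos := hκ
    M_pos := hM0
    Kp_pos := fun v _ => mul_pos (h.I_pos _) (hκ.trans_le (hTp _))
    Km_pos := fun v _ => by
      show 0 < I (X V v) * (1 + -δ * D.bm (X V v))
      rw [wd_Km]
      exact mul_pos (h.I_pos _) (hκ.trans_le (hTm _))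
    Kp_le := fun v _ => by
      show I (X V v) * (1 + δ * D.bp (X V v)) ≤ M
      have h1 := hKI (X V v)
      have h2 := h.I_pos (X V v)
      have h3 := hTp' (X V v)
      have h4 := hκ.trans_le (hTp (X V v))
      have : I (X V v) * (1 + δ * D.bp (X V v)) ≤ T0 := by nlinarith
      have : T0 ≤ M := by rw [hM]; linarith
      linarith
    Km_le := fun v _ => by
      show I (X V v) * (1 + -δ * D.bm (X V v)) ≤ I (X V v) * (1 + δ * D.bp (X V v))
      apply mul_le_mul_of_nonneg_left _ (h.I_pos _).le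
      have := mul_nonneg hδ.le (hX.bpm (X V v))
      linarith
    dKp := fun v hv => LL_hasDerivAt (refI h) hv (ev_hasDerivAt h hv hX.dbp)
    dKp1 := fun v hv => LL1_hasSide (refI h) hv (ev_hasDerivAt h hv hX.dbp)
      (e1v_hasSide h hv hX.dbp1)
    dKm := fun v hv => LL_hasDerivAt (refI h) hv (ev_hasDerivAt h hv hX.dbm)
    dKm1 := fun v hv => LL1_hasSide (refI h) hv (ev_hasDerivAt h hv hX.dbm)
      (e1v_hasSide h hv hX.dbm1)
    KKp := fun v hv => by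
      have := KKp_le hX hc (X V v)
      rw [← KK_eq h hv] at this
      exact this
    KKm_le := fun v hv => by
      have := (abs_le.1 (hKKm (X V v))).2
      rw [← KK_eq h hv] at this
      refine this.trans ?_
      rw [hM]; linarith
    KKm_ge := fun v hv => by
      have := (abs_le.1 (hKKm (X V v))).1
      rw [← KK_eq h hv] at this
      refine le_trans ?_ this
      rw [hM]; linarith
    stat_p := fun v hv n hn0 hn1 hn2 => by
      have hy := hwin n hn0 hn1 hn2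
      have hl := hX.up (X V v) _ (Or.inl rfl)
      have hu := hX.up (X V v) _ (Or.inr rfl)
      rw [div_eq_mul_inv] at hl hu
      have h1 := Exx_vertices hl hu hy
      rw [← div_eq_mul_inv] at h1
      show Stat 1 n v (LL δ (Iv V I) (ev V D.bp) v) _ _ ≤ 0
      rw [show (wd c δ κ W V I k D).Kp1 v = LL1 δ (Iv V I) (I1v c W V I) (ev V D.bp)
          (e1v V I D.bp1) v from rfl,
        show (wd c δ κ W V I k D).Kp2 v = LL2 δ (Iv V I) (I1v c W V I) (I2v c W V I) (ev V D.bp)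
          (e1v V I D.bp1) (e2v c W V I D.bp1 D.bp2) v from rfl, Stat_eq h hv hδ.ne']
      exact mul_nonpos_of_nonneg_of_nonpos (mul_pos (h.I_pos _) hδ).le h1
    stat_m := fun v hv n hn0 hn1 hn2 => by
      have hy := hwin n hn0 hn1 hn2
      have hl := hX.low (X V v) _ (Or.inl rfl)
      have hu := hX.low (X V v) _ (Or.inr rfl)
      have e0' : ∀ y : ℝ, -((y - c) / δ) = (y - c) * (-δ)⁻¹ := fun y => by
        rw [inv_neg, div_eq_mul_inv]; ring
      rw [e0'] at hl hu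
      have h1 := Exx_vertices hl hu hy
      rw [← div_eq_mul_inv] at h1
      show 0 ≤ Stat 1 n v (LL (-δ) (Iv V I) (ev V D.bm) v) _ _
      rw [show (wd c δ κ W V I k D).Km1 v = LL1 (-δ) (Iv V I) (I1v c W V I) (ev V D.bm)
          (e1v V I D.bm1) v from rfl,
        show (wd c δ κ W V I k D).Km2 v = LL2 (-δ) (Iv V I) (I1v c W V I) (I2v c W V I) (ev V D.bm)
          (e1v V I D.bm1) (e2v c W V I D.bm1 D.bm2) v from rfl,
        Stat_eq h hv (neg_ne_zero.2 hδ.ne'), wd_Km]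
      refine mul_nonneg_of_nonpos_of_nonpos ?_ h1
      have := h.I_pos (X V v)
      nlinarith
    lin_p := fun v hv n hn0 hn1 => by
      have hI := h.I_pos (X V v)
      show κ * (I (X V v) * (1 + δ * D.bp (X V v))) ≤ LinR n v (LL δ (Iv V I) (ev V D.bp) v)
        (LL1 δ (Iv V I) (I1v c W V I) (ev V D.bp) (e1v V I D.bp1) v)
      rw [Lin_eq h hv]
      have h1 := hX.lin_p (X V v)
      have h2 := hTp (X V v)
      have h3 := hlin (1 + δ * D.bp (X V v))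
        (sx c W V I (X V v) * (1 + δ * D.bp (X V v)) + δ * qx V I (X V v) * D.bp1 (X V v)) 0
        (by nlinarith [hX.κ_le]) (by linarith) n hn0 hn1
      have h4 := mul_le_mul_of_nonneg_left h3 hI.le
      linarith
    lin_m := fun v hv n hn0 hn1 => by
      have hI := h.I_pos (X V v)
      show κ * (I (X V v) * (1 + -δ * D.bm (X V v))) ≤ LinR n v (LL (-δ) (Iv V I) (ev V D.bm) v)
        (LL1 (-δ) (Iv V I) (I1v c W V I) (ev V D.bm) (e1v V I D.bm1) v)
      rw [Lin_eq h hv, wd_Km]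
      have h1 := hX.lin_m (X V v)
      have h2 := hTm (X V v)
      have h3 := hlin (1 - δ * D.bm (X V v))
        (sx c W V I (X V v) * (1 - δ * D.bm (X V v)) - δ * qx V I (X V v) * D.bm1 (X V v)) 0
        (by nlinarith [hX.κ_le]) (by linarith) n hn0 hn1
      have h4 := mul_le_mul_of_nonneg_left h3 hI.le
      linarith
    lin_m2 := fun v hv n hn0 hn1 => by
      have hI := h.I_pos (X V v)
      have hKK := KK_eq (a := -δ) (e := D.bm) (e1 := D.bm1) (e2 := D.bm2) h hv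
      show κ * (I (X V v) * (1 + -δ * D.bm (X V v))) ≤ LinR n v (LL (-δ) (Iv V I) (ev V D.bm) v)
        (LL1 (-δ) (Iv V I) (I1v c W V I) (ev V D.bm) (e1v V I D.bm1) v)
        - LL (-δ) (Iv V I) (ev V D.bm) v ^ 2 * LL2 (-δ) (Iv V I) (I1v c W V I) (I2v c W V I)
          (ev V D.bm) (e1v V I D.bm1) (e2v c W V I D.bm1 D.bm2) v / 2
      have e5 : LL (-δ) (Iv V I) (ev V D.bm) v ^ 2 * LL2 (-δ) (Iv V I) (I1v c W V I) (I2v c W V I)
          (ev V D.bm) (e1v V I D.bm1) (e2v c W V I D.bm1 D.bm2) v / 2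
          = LL (-δ) (Iv V I) (ev V D.bm) v * (LL (-δ) (Iv V I) (ev V D.bm) v *
            LL2 (-δ) (Iv V I) (I1v c W V I) (I2v c W V I)
          (ev V D.bm) (e1v V I D.bm1) (e2v c W V I D.bm1 D.bm2) v) / 2 := by ring
      rw [e5, hKK, Lin_eq h hv, LL_eq, wd_Km]
      have h1 := hX.lin_m2 (X V v) 0 (Or.inl rfl)
      have h1' := hX.lin_m2 (X V v) _ (Or.inr rfl)
      have h3 := hlin (1 - δ * D.bm (X V v))
        (sx c W V I (X V v) * (1 - δ * D.bm (X V v)) - δ * qx V I (X V v) * D.bm1 (X V v))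
        (1 / 2 * (1 - δ * D.bm (X V v)) ^ 2 * (Jx c W V I (X V v) * (1 - δ * D.bm (X V v))
        + δ * (D.bm2 (X V v) + k1x c W V I (X V v) * D.bm1 (X V v))))
        (by linarith) (by linarith) n hn0 hn1
      have h4 := mul_le_mul_of_nonneg_left h3 hI.le
      linarith
    gau_p := fun z => by
      obtain ⟨h1, h2⟩ := gau h hc z
      show ph z ≤ M * (I (X V (Phi z)) * (1 + δ * D.bp (X V (Phi z))))
      have hp := StepStart_483.ph_pos z
      have h3 := hTp (X V (Phi z))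
      have h4 := h.I_pos (X V (Phi z))
      have h5 : ph z ≤ Mg * (I (X V (Phi z)) * (1 + δ * D.bp (X V (Phi z)))) := by
        have h6 : s1 * ph z * κ ≤ I (X V (Phi z)) * (1 + δ * D.bp (X V (Phi z))) :=
          mul_le_mul h1 h3 hκ.le h4.le
        have h7 := mul_le_mul_of_nonneg_left h6 hMg0.le
        have h8 : Mg * (s1 * ph z * κ) = ph z := by rw [hMg]; field_simp
        linarith
      refine h5.trans (mul_le_mul_of_nonneg_right ?_ ?_)
      · rw [hM]; linarith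
      · exact mul_nonneg h4.le (hκ.le.trans h3)
    gau_m := fun z => by
      obtain ⟨h1, h2⟩ := gau h hc z
      show I (X V (Phi z)) * (1 + -δ * D.bm (X V (Phi z))) ≤ M * ph z
      rw [wd_Km]
      have hp := StepStart_483.ph_pos z
      have h3 := hTm' (X V (Phi z))
      have h4 := h.I_pos (X V (Phi z))
      have h5 : I (X V (Phi z)) * (1 - δ * D.bm (X V (Phi z))) ≤ (s2 * ph z) * T0 :=
        mul_le_mul h2 h3 (hκ.le.trans (hTm _)) (by positivity)
      have h6 : s2 * ph z * T0 = Mh * ph z := by rw [hMh]; ring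
      have h7 : Mh ≤ M := by rw [hM]; linarith
      have := mul_le_mul_of_nonneg_right h7 hp.le
      linarith
    dNp := fun v hv => comp_X h hv (hX.dnp _)
    Np_ge := fun v hv => by
      show v ≤ D.np1 (X V v) / I (X V v) * (I (X V v) * (1 + -δ * D.bm (X V v)))
      have h1 := hX.pos_p (X V v)
      rw [V_X h hv] at h1
      have hI := (h.I_pos (X V v)).ne'
      rw [wd_Km]
      have e : D.np1 (X V v) / I (X V v) * (I (X V v) * (1 - δ * D.bm (X V v))) =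
        D.np1 (X V v) * (1 - δ * D.bm (X V v)) := by field_simp
      rw [e]; exact h1
    Np_lim := hX.np_lim.comp (X_atBot h)
    dNm := fun v hv => comp_X h hv (hX.dnm _)
    Nm_le := fun v hv => by
      show D.nm1 (X V v) / I (X V v) * (I (X V v) * (1 + δ * D.bp (X V v))) ≤ v
      have h1 := hX.pos_m (X V v)
      rw [V_X h hv] at h1
      have hI := (h.I_pos (X V v)).ne'
      have e : D.nm1 (X V v) / I (X V v) * (I (X V v) * (1 + δ * D.bp (X V v))) =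
        D.nm1 (X V v) * (1 + δ * D.bp (X V v)) := by field_simp
      rw [e]; exact h1
    Nm_lim := hX.nm_lim.comp (X_atBot h)
    Nm_nonneg := fun v _ => hX.nm_nonneg _
    dUb := fun v hv => by
      have h1 : HasDerivAt (fun x => W x - x) (V (X V v) - 1) (X V v) :=
        (h.dW _).sub (hasDerivAt_id _)
      exact (comp_X h hv h1).const_mul κ⁻¹
    Ub_ge := fun v hv => by
      show 1 - v ≤ -(κ⁻¹ * ((V (X V v) - 1) / I (X V v))) * (I (X V v) * (1 + -δ * D.bm (X V v)))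
      rw [wd_Km]
      have hI := (h.I_pos (X V v)).ne'
      have e : -(κ⁻¹ * ((V (X V v) - 1) / I (X V v))) * (I (X V v) * (1 - δ * D.bm (X V v)))
          = (1 - v) * (κ⁻¹ * (1 - δ * D.bm (X V v))) := by
        rw [V_X h hv]; field_simp; ring
      rw [e]
      have h1 : 1 ≤ κ⁻¹ * (1 - δ * D.bm (X V v)) := by
        have := mul_le_mul_of_nonneg_left (hTm (X V v)) hκi.le
        rw [inv_mul_cancel₀ hκ.ne'] at this
        exact this
      have h2 : 0 < 1 - v := by linarith [hv.2]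
      nlinarith
    Ub_lim := by
      have h1 := ((Stat7_307.tendsto_U h).comp (X_atTop h)).const_mul κ⁻¹
      rw [mul_zero] at h1
      exact h1
    dFp := fun η hη => (Lam_deriv h hη).add_const _
    dFp1 := fun η hη => Lam1_side h hη
    dFm := fun η hη => (Lam_deriv h hη).sub_const _
    dFm1 := fun η hη => Lam1_side h hη
    Fp_nonneg := fun η _ => by
      show 0 ≤ k (Wi W η) + δ * D.fp
      have := h.k_pos (Wi W η)
      positivity
    Fp_le := fun η _ => by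
      show k (Wi W η) + δ * D.fp ≤ M
      have h1 := hk (Wi W η)
      have h2 := h.k_pos (Wi W η)
      have h3 := mul_nonneg h2.le (abs_nonneg (Wi W η))
      have h4 : k (Wi W η) ≤ Mk := by linarith
      have h5 : 0 ≤ δ * D.fm := mul_nonneg hδ.le hfm
      rw [hM, hMF]; linarith
    Fm_le := fun η _ => by
      show k (Wi W η) - δ * D.fm ≤ k (Wi W η) + δ * D.fp
      have h5 : 0 ≤ δ * D.fm := mul_nonneg hδ.le hfm
      have h6 : 0 ≤ δ * D.fp := mul_nonneg hδ.le hfp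
      linarith
    Fm_ge := fun η _ => by
      show -M ≤ k (Wi W η) - δ * D.fm
      have h2 := h.k_pos (Wi W η)
      have h6 : 0 ≤ δ * D.fp := mul_nonneg hδ.le hfp
      rw [hM, hMF]; linarith
    Fp1_ge := fun η _ => by
      show -M ≤ k1 c W V k c (Wi W η) / V (Wi W η)
      have hV := h.V_pos (Wi W η)
      rw [le_div_iff₀ hV]
      have h1 := hk1 (Wi W η)
      have h2 : M1 ≤ M := by rw [hM]; linarith
      nlinarith
    Fm1_ge := fun η _ => by
      show -M ≤ k1 c W V k c (Wi W η) / V (Wi W η)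
      have hV := h.V_pos (Wi W η)
      rw [le_div_iff₀ hV]
      have h1 := hk1 (Wi W η)
      have h2 : M1 ≤ M := by rw [hM]; linarith
      nlinarith
    law_p := law_p_aux h hX
    law_m := law_m_aux h hX
    pot_p := pot_p_aux h hX
    pot_m := pot_p_aux h hX
    dGp := fun v hv => dG h hX.dgp hv
    dGm := fun v hv => dG h hX.dgm hv
    Gp_l := fun v hv => by
      refine (hGl v hv).trans (mul_le_mul_of_nonneg_right ?_ hv.1.le)
      rw [hM]; linarith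
    Gp_r := fun v hv => by
      refine (hGr v hv).trans (mul_le_mul_of_nonneg_right ?_ (by linarith [hv.2]))
      rw [hM]; linarith
    Gm_l := fun v hv => by
      refine (hGl' v hv).trans (mul_le_mul_of_nonneg_right ?_ hv.1.le)
      rw [hM]; linarith
    Gm_r := fun v hv => by
      refine (hGr' v hv).trans (mul_le_mul_of_nonneg_right ?_ (by linarith [hv.2]))
      rw [hM]; linarith
    KGp := fun v _ => by
      refine (hKD (X V v)).trans ?_
      rw [hM]; linarith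
    KGm := fun v _ => by
      refine (hKD' (X V v)).trans ?_
      rw [hM]; linarith
    clo_p := clo_p_aux h hX
    clo_m := clo_m_aux h hX }

end main

end Crest.Agent.R146.RefWS_355
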