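import Crest.Agent.R146.EqEta_889
import Crest.Agent.R146.RefWS_355

/-!
# Row 146, helper889: reduction of the LAW fields of `XWS` (package C2 of NUMREF)

`x` = label of the position `η = W x` (base point), `y` = label of the level `v = V y`;
`r = (V y / V x - 1)/δ`, `β = (j-1)/δ`, `ε ≥ 0` the concavity gap:
`j I y / V x = (1 + δ β)(p + δ (T r - ε))`, `p = I/V`, `T = dI/dV`.

* `SX`, `PX` : the residual `S/δ` and the potential in these variables (`lstat_SX`, `pot_PX`);
* `Prof.level_le2` : upper comparison without monotonicity of the barrier;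
* `r_upper`, `r_lower` : `- mm ≤ r ≤ mp` from one-point inequalities;
* `eps_taylor_left/right`, `eps_chord_left/right` : bounds of the gap `ε`.
-/

set_option autoImplicit false

namespace Crest.Agent.R146.C2R_889

open Set Filter Topology
open Crest.Agent.R146.SPair_307 Crest.Agent.R146.RefX_355
open Crest.Agent.R146.EqEta_889 (Prof)
open Crest.Agent.R146.YW_177 (LStat)
open Crest.Agent.R146.PtRef_846 (PotR)

/-! ### the residual in one-point form -/

/-- the residual `S/δ`, `n = c + δ ν` -/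
noncomputable def SX (c δ ν p z V k k1 k2 r h : ℝ) : ℝ :=
  r * (1 + δ * r / 2) * (k2 - k1 * p) + (h - k * r - ν * z / 2) * k1 + ν * (1 / 2 - V) * k
    - (c + δ * ν) * V * r * k + ν * V * p + (c + δ * ν) * V * h

/-- the potential, `n = c + δ ν` -/
noncomputable def PX (c δ ν V k1 r : ℝ) : ℝ :=
  (1 + (c + δ * ν)) / 2 - (c + δ * ν) * (1 - V - δ * V * r) + (1 + δ * r) * k1

/-- `h = β p + (1 + δ β)(T r - ε)` -/
noncomputable def HX (δ p T r β ε : ℝ) : ℝ := β * p + (1 + δ * β) * (T * r - ε)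

section alg

variable {c : ℝ} {W V I k : ℝ → ℝ} {lam : ℝ}

lemma lstat_SX (h : SPair c W V I k lam) (x δ ν r hh : ℝ) :
    LStat 1 (c + δ * ν) (V x * (1 + δ * r)) (V x * (I x / V x + δ * hh)) (W x) (k x)
      (YWRef_177.k1 c W V k lam x / V x)
      ((YWRef_177.k2 c W V I k lam x * V x - YWRef_177.k1 c W V k lam x * I x) / V x ^ 3)
    = δ * SX c δ ν (I x / V x) (W x / V x) (V x) (k x) (YWRef_177.k1 c W V k lam x)
        (YWRef_177.k2 c W V I k lam x) r hh := by
  have hV := (h.V_pos x).ne'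
  rw [YWRef_177.lstat_diff h]
  unfold SX
  generalize YWRef_177.k1 c W V k lam x = K1
  generalize YWRef_177.k2 c W V I k lam x = K2
  field_simp
  ring

lemma pot_PX (h : SPair c W V I k lam) (x δ ν r K1 : ℝ) :
    PotR (c + δ * ν) (V x * (1 + δ * r)) (K1 / V x) = PX c δ ν (V x) K1 r := by
  have hV := (h.V_pos x).ne'
  unfold PotR PX
  field_simp
  ring

end alg

/-! ### upper comparison without monotonicity -/

section general

variable {W V I : ℝ → ℝ}

theorem level_le2 (h : Prof W V I) {Pm g Z Z' : ℝ → ℝ} (hg : ∀ y, 0 < g y)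
    (hP : ∀ y, HasDerivAt Pm (V y / g y) y) (hP0 : ∀ y, 0 ≤ Pm y)
    (hPt : Tendsto Pm atTop atTop)
    (cZ : Continuous Z) (hZ : ∀ x, HasDerivWithinAt Z (Z' x) (Ici x) x)
    (Z_pos : ∀ x, 0 < Z x)
    (hcomp : ∀ x y, V y = Z x → V x * I y * g y ≤ Z' x * V y)
    {x y : ℝ} (hxy : Pm y ≤ W x) : V y ≤ Z x := by
  by_contra hcon
  push Not at hcon
  have hZ1 : Z x < 1 := hcon.trans (h.V_lt y)
  -- comparison on `[a, x]`
  have key : ∀ a ≤ x, (∀ z ∈ Icc a x, Z z < 1) →
      W x - W a + Pm (EqEta_889.X V (Z a)) ≤ Pm (EqEta_889.X V (Z x)) := by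
    intro a hax hlt
    have := image_le_of_deriv_right_le_deriv_boundary (a := a) (b := x)
      (f := fun z => W z - W a + Pm (EqEta_889.X V (Z a))) (f' := fun z => V z)
      (B := fun z => Pm (EqEta_889.X V (Z z)))
      (B' := fun z => V (EqEta_889.X V (Z z)) / g (EqEta_889.X V (Z z)) *
        ((I (EqEta_889.X V (Z z)))⁻¹ * Z' z))
      (fun z _ => (((h.dW z).continuousAt.sub continuousAt_const).add
        continuousAt_const).continuousWithinAt)
      (fun z _ => (((h.dW z).sub_const (W a)).add_const _).hasDerivWithinAt)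
      (by simp)
      (fun z hz => by
        have hz1 := hlt z hz
        have e1 := (hP (EqEta_889.X V (Z z))).continuousAt
        have e2 := h.X_cont (Z_pos z) hz1
        exact (ContinuousAt.comp (g := Pm) (f := fun z => EqEta_889.X V (Z z)) e1
          (ContinuousAt.comp (g := EqEta_889.X V) (f := Z) e2
            cZ.continuousAt)).continuousWithinAt)
      (fun z hz => by
        have hz1 := hlt z (Ico_subset_Icc_self hz)
        have e3 := (h.X_deriv (Z_pos z) hz1).comp_hasDerivWithinAt z (hZ z)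
        exact (hP (EqEta_889.X V (Z z))).comp_hasDerivWithinAt z e3)
      (fun z hz => by
        have hz1 := hlt z (Ico_subset_Icc_self hz)
        have e1 := h.V_X (Z_pos z) hz1
        have e2 := hcomp z (EqEta_889.X V (Z z)) e1
        have e3 := hg (EqEta_889.X V (Z z))
        have e4 := h.I_pos (EqEta_889.X V (Z z))
        rw [← mul_assoc, div_mul_eq_mul_div, ← div_eq_mul_inv, div_div, div_mul_eq_mul_div,
          le_div_iff₀ (mul_pos e4 e3)]
        nlinarith [e2])
      (x := x) ⟨hax, le_rfl⟩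
    exact this
  have hPm : StrictMono Pm := strictMono_of_hasDerivAt_pos hP fun z => div_pos (h.V_pos z) (hg z)
  have hlim : W x ≤ Pm (EqEta_889.X V (Z x)) := by
    by_cases hall : ∀ z ≤ x, Z z < 1
    · have h1 : Tendsto (fun a => W x - W a) atBot (𝓝 (W x - 0)) :=
        tendsto_const_nhds.sub h.W_bot
      rw [sub_zero] at h1
      refine le_of_tendsto h1 ?_
      filter_upwards [eventually_le_atBot x] with a ha
      have := key a ha fun z hz => hall z hz.2
      have h2 := hP0 (EqEta_889.X V (Z a))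
      linarith
    · push Not at hall
      obtain ⟨w, hwx, hw1⟩ := hall
      -- the last point with `Z ≥ 1`
      set S : Set ℝ := {z | z ≤ x ∧ 1 ≤ Z z} with hS
      have hSc : IsClosed S := isClosed_Iic.inter (isClosed_Ici.preimage cZ)
      have hSne : S.Nonempty := ⟨w, hwx, hw1⟩
      have hSb : BddAbove S := ⟨x, fun z hz => hz.1⟩
      set z0 := sSup S with hz0
      have hz0S : z0 ∈ S := hSc.csSup_mem hSne hSb
      have hz0x : z0 < x := by
        refine lt_of_le_of_ne hz0S.1 fun he => ?_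
        have := hz0S.2
        rw [he] at this
        exact absurd hZ1 (not_lt.2 this)
      have hlt : ∀ z, z0 < z → z ≤ x → Z z < 1 := by
        intro z h1 h2
        by_contra hc
        push Not at hc
        exact absurd (le_csSup hSb (show z ∈ S from ⟨h2, hc⟩)) (not_le.2 h1)
      -- a point just right of `z0` with large position
      obtain ⟨M, hM⟩ := (hPt.eventually (eventually_ge_atTop (W x))).exists
      have hVM : V M < Z z0 := lt_of_lt_of_le (h.V_lt M) hz0S.2
      have hev : ∀ᶠ a in 𝓝[>] z0, V M < Z a ∧ a < x := by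
        refine ((cZ.continuousAt.eventually (lt_mem_nhds hVM)).filter_mono
          nhdsWithin_le_nhds).and ?_
        exact (gt_mem_nhds hz0x).filter_mono nhdsWithin_le_nhds
      obtain ⟨a, ⟨ha1, ha2⟩, ha3⟩ := (hev.and self_mem_nhdsWithin).exists
      have hZa := hlt a ha3 ha2.le
      have h1 := key a ha2.le fun z hz => hlt z (lt_of_lt_of_le ha3 hz.1) hz.2
      have h2 : M < EqEta_889.X V (Z a) := by
        rw [← h.V_mono.lt_iff_lt, h.V_X (Z_pos a) hZa]
        exact ha1
      have h3 := hPm h2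
      have h4 := h.W_mono ha2
      linarith
  have h2 : y ≤ EqEta_889.X V (Z x) := hPm.le_iff_le.1 (hxy.trans hlim)
  have h3 := h.V_mono.monotone h2
  rw [h.V_X (Z_pos x) hZ1] at h3
  exact absurd h3 (not_le.2 hcon)

end general

/-! ### the range of `r` -/

section pair

variable {c : ℝ} {W V I k : ℝ → ℝ} {lam : ℝ}

/-- **upper bound of the level** -/
theorem r_upper (h : SPair c W V I k lam) (hJ : ∀ x, 0 ≤ Jx c W V I x) {δ ε0 : ℝ} (hδ : 0 < δ)
    (hε : 0 ≤ ε0) (hδε : δ * ε0 < 1) {b Ep mp mp' Pm : ℝ → ℝ} (b0 : ∀ y, 0 ≤ b y)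
    (b1 : ∀ y, δ * (b y + 2 * ε0) ≤ 1)
    (hP : ∀ y, HasDerivAt Pm (V y / (1 + δ * b y)) y) (hPb : Tendsto Pm atBot (𝓝 0))
    (hPt : Tendsto Pm atTop atTop)
    (cm : Continuous mp) (dm : ∀ x, HasDerivWithinAt mp (mp' x) (Ici x) x) (m0 : ∀ x, 0 ≤ mp x)
    (hE : ∀ x y, x ≤ y → V y ≤ V x * (1 + δ * mp x) → b y + 2 * ε0 ≤ Ep x)
    (hU : ∀ x, V x * (1 + δ * mp x) < 1 →
      (I x / V x + δ * k1x c W V I x * mp x) * (1 + δ * Ep x)
        ≤ (I x / V x + δ * (I x / V x * mp x + mp' x)) * (1 + δ * mp x))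
    {x y : ℝ} (hxy : (1 - δ * ε0) * Pm y ≤ W x) : V y ≤ V x * (1 + δ * mp x) := by
  have hg0 : ∀ y, 0 < 1 + δ * b y := fun y => by nlinarith [mul_nonneg hδ.le (b0 y)]
  have h1e : 0 < 1 - δ * ε0 := by linarith
  have hg : ∀ y, 0 < (1 + δ * b y) / (1 - δ * ε0) := fun y => div_pos (hg0 y) h1e
  have hPmono : Monotone Pm := monotone_of_hasDerivAt_nonneg hP fun z =>
    div_nonneg (h.V_pos z).le (hg0 z).le
  have hP0 : ∀ y, 0 ≤ Pm y := fun y => by
    refine le_of_tendsto hPb ?_
    filter_upwards [eventually_le_atBot y] with a ha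
    exact hPmono ha
  have cZ : Continuous (fun x => V x * (1 + δ * mp x)) :=
    h.cV.mul (continuous_const.add (continuous_const.mul cm))
  have hZ : ∀ x, HasDerivWithinAt (fun x => V x * (1 + δ * mp x))
      (I x * (1 + δ * mp x) + V x * (δ * mp' x)) (Ici x) x := fun x =>
    (h.dV x).hasDerivWithinAt.mul (((dm x).const_mul δ).const_add 1)
  have hmp : ∀ x, 0 < 1 + δ * mp x := fun x => by nlinarith [mul_nonneg hδ.le (m0 x)]
  refine level_le2 (EqEta_889.prof h) (g := fun y => (1 + δ * b y) / (1 - δ * ε0))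
    (Pm := fun y => (1 - δ * ε0) * Pm y) (Z := fun x => V x * (1 + δ * mp x))
    (Z' := fun x => I x * (1 + δ * mp x) + V x * (δ * mp' x)) hg
    (fun y => ?_) (fun y => mul_nonneg h1e.le (hP0 y)) (hPt.const_mul_atTop h1e) cZ hZ
    (fun x => mul_pos (h.V_pos x) (hmp x)) ?_ hxy
  · refine ((hP y).const_mul (1 - δ * ε0)).congr_deriv ?_
    have := (hg0 y).ne'
    field_simp
  · intro x y hVy
    have a2 : 0 < V x := h.V_pos x
    have hlt : V x * (1 + δ * mp x) < 1 := by rw [← hVy]; exact h.V_lt y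
    have hxy' : x ≤ y := by
      by_contra hcon
      push Not at hcon
      have := h.V_strictMono hcon
      nlinarith [mul_nonneg hδ.le (m0 x)]
    have h1 := hU x hlt
    have h2 := EqEta_889.tangent h hJ x y
    have h3 := hE x y hxy' hVy.le
    have h4 : I y ≤ V x * (I x / V x + δ * k1x c W V I x * mp x) := by
      have e : V x * (I x / V x + δ * k1x c W V I x * mp x)
          = I x + k1x c W V I x * (V y - V x) := by
        rw [hVy]; field_simp; ring
      rw [e]
      exact h2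
    have h5 : (1 + δ * b y) / (1 - δ * ε0) ≤ 1 + δ * Ep x := by
      rw [div_le_iff₀ h1e]
      have e1 := b1 y
      have e2 : δ * b y + 2 * (δ * ε0) ≤ δ * Ep x := by nlinarith
      nlinarith [mul_nonneg hδ.le hε, mul_nonneg (mul_nonneg hδ.le hε) (sub_nonneg.2 e1)]
    have h6 : V x * I y * ((1 + δ * b y) / (1 - δ * ε0))
        ≤ V x * (V x * (I x / V x + δ * k1x c W V I x * mp x)) * (1 + δ * Ep x) := by
      apply mul_le_mul (mul_le_mul_of_nonneg_left h4 a2.le) h5 (hg y).le
      exact mul_nonneg a2.le ((h.I_pos y).le.trans h4)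
    refine h6.trans ?_
    rw [hVy]
    have e7 : (I x * (1 + δ * mp x) + V x * (δ * mp' x)) * (V x * (1 + δ * mp x))
        = V x * V x * ((I x / V x + δ * (I x / V x * mp x + mp' x)) * (1 + δ * mp x)) := by
      field_simp
      ring
    rw [e7]
    have e8 : V x * (V x * (I x / V x + δ * k1x c W V I x * mp x)) * (1 + δ * Ep x)
        = V x * V x * ((I x / V x + δ * k1x c W V I x * mp x) * (1 + δ * Ep x)) := by ring
    rw [e8]
    exact mul_le_mul_of_nonneg_left h1 (mul_pos a2 a2).le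

/-- **lower bound of the level**; `V x * L x` is a lower bound of `I y` at the level
`V y = V x (1 - δ mm x)` -/
theorem r_lower (h : SPair c W V I k lam) {δ ε0 : ℝ} (hδ : 0 < δ)
    (hε : 0 ≤ ε0) {b Em mm mm' L Pp : ℝ → ℝ} (b0 : ∀ y, 0 ≤ b y)
    (b1 : ∀ y, δ * (b y + 2 * ε0) < 1)
    (hP : ∀ y, HasDerivAt Pp (V y / (1 - δ * b y)) y) (hPb : Tendsto Pp atBot (𝓝 0))
    (cm : Continuous mm) (dm : ∀ x, HasDerivWithinAt mm (mm' x) (Ici x) x) (m0 : ∀ x, 0 ≤ mm x)
    (m1 : ∀ x, δ * mm x < 1)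
    (hE : ∀ x y, y ≤ x → V x * (1 - δ * mm x) ≤ V y → b y + 2 * ε0 ≤ Em x)
    (hL : ∀ x y, y ≤ x → V y = V x * (1 - δ * mm x) → V x * L x ≤ I y) (hL0 : ∀ x, 0 ≤ L x)
    (hU : ∀ x, (I x / V x - δ * (I x / V x * mm x + mm' x)) * (1 - δ * mm x)
      ≤ L x * (1 - δ * Em x))
    {x y : ℝ} (hxy : W x ≤ (1 + δ * ε0) * Pp y) : V x * (1 - δ * mm x) ≤ V y := by
  have hδε : 0 ≤ δ * ε0 := mul_nonneg hδ.le hε
  have hg0 : ∀ y, 0 < 1 - δ * b y := fun y => by nlinarith [b1 y]
  have h1e : 0 < 1 + δ * ε0 := by linarith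
  have hg : ∀ y, 0 < (1 - δ * b y) / (1 + δ * ε0) := fun y => div_pos (hg0 y) h1e
  have cZ : Continuous (fun x => V x * (1 - δ * mm x)) :=
    h.cV.mul (continuous_const.sub (continuous_const.mul cm))
  have hZ : ∀ x, HasDerivWithinAt (fun x => V x * (1 - δ * mm x))
      (I x * (1 - δ * mm x) + V x * (-(δ * mm' x))) (Ici x) x := fun x =>
    (h.dV x).hasDerivWithinAt.mul (((dm x).const_mul δ).const_sub 1)
  have hmm : ∀ x, 0 < 1 - δ * mm x := fun x => by linarith [m1 x]
  refine (EqEta_889.prof h).le_level (g := fun y => (1 - δ * b y) / (1 + δ * ε0))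
    (Pp := fun y => (1 + δ * ε0) * Pp y) (Z := fun x => V x * (1 - δ * mm x))
    (Z' := fun x => I x * (1 - δ * mm x) + V x * (-(δ * mm' x))) hg
    (fun y => ?_) ?_ cZ hZ (fun x => mul_pos (h.V_pos x) (hmm x))
    (fun x => ?_) ?_ hxy
  · refine ((hP y).const_mul (1 + δ * ε0)).congr_deriv ?_
    have := (hg0 y).ne'
    field_simp
  · simpa using hPb.const_mul (1 + δ * ε0)
  · have e1 := h.V_pos x
    have e2 := mul_nonneg e1.le (mul_nonneg hδ.le (m0 x))
    nlinarith
  · intro x y hVy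
    have a2 : 0 < V x := h.V_pos x
    have hyx : y ≤ x := by
      by_contra hcon
      push Not at hcon
      have := h.V_strictMono hcon
      nlinarith [mul_nonneg hδ.le (m0 x), mul_nonneg a2.le (mul_nonneg hδ.le (m0 x))]
    have h1 := hU x
    have h2 := hL x y hyx hVy
    have h3 := hE x y hyx hVy.ge
    have h5 : 1 - δ * Em x ≤ (1 - δ * b y) / (1 + δ * ε0) := by
      rw [le_div_iff₀ h1e]
      have e2 : δ * b y + 2 * (δ * ε0) ≤ δ * Em x := by nlinarith
      have e3 : 0 ≤ δ * Em x := by nlinarith [mul_nonneg hδ.le (b0 y)]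
      nlinarith [mul_nonneg hδε e3]
    rw [hVy]
    have e7 : (I x * (1 - δ * mm x) + V x * (-(δ * mm' x))) * (V x * (1 - δ * mm x))
        = V x * V x * ((I x / V x - δ * (I x / V x * mm x + mm' x)) * (1 - δ * mm x)) := by
      field_simp
      ring
    rw [e7]
    calc V x * V x * ((I x / V x - δ * (I x / V x * mm x + mm' x)) * (1 - δ * mm x))
        ≤ V x * V x * (L x * (1 - δ * Em x)) :=
          mul_le_mul_of_nonneg_left h1 (mul_pos a2 a2).le
      _ ≤ V x * V x * (L x * ((1 - δ * b y) / (1 + δ * ε0))) :=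
          mul_le_mul_of_nonneg_left (mul_le_mul_of_nonneg_left h5 (hL0 x)) (mul_pos a2 a2).le
      _ = V x * (V x * L x) * ((1 - δ * b y) / (1 + δ * ε0)) := by ring
      _ ≤ V x * I y * ((1 - δ * b y) / (1 + δ * ε0)) :=
          mul_le_mul_of_nonneg_right (mul_le_mul_of_nonneg_left h2 a2.le) (hg y).le

/-! ### the concavity gap -/

/-- second order lower bound for larger levels -/
lemma taylor_right (h : SPair c W V I k lam) {J2 : ℝ} (hJ : ∀ x, 0 ≤ Jx c W V I x)
    (hJ2 : ∀ x, Jx c W V I x ≤ J2) {x y m0 : ℝ} (hxy : x ≤ y) (hm : 0 < m0)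
    (hm0 : ∀ z ∈ Icc x y, m0 ≤ I z) :
    I x + k1x c W V I x * (V y - V x) - J2 / 2 * (V y - V x) ^ 2 / m0 ≤ I y := by
  have hJ20 : 0 ≤ J2 := (hJ 0).trans (hJ2 0)
  have a1 : ∀ z ∈ Icc x y, k1x c W V I x - k1x c W V I z ≤ J2 * (z - x) := by
    intro z hz
    have hm : Monotone (fun z => k1x c W V I z + J2 * z) :=
      monotone_of_hasDerivAt_nonneg
        (fun z => (EqEta_889.dk1v h z).add ((hasDerivAt_id z).const_mul J2)) fun z => by
          show (0 : ℝ) ≤ -EqEta_889.Jc c W V I z + J2 * 1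
          have : EqEta_889.Jc c W V I z ≤ J2 := hJ2 z
          linarith
    have := hm hz.1
    simp only at this
    linarith
  have a2 : ∀ z ∈ Icc x y, m0 * (z - x) ≤ V z - V x := by
    intro z hz
    have hd : ∀ w, HasDerivAt (fun z => V z - m0 * z) (I w - m0 * 1) w := fun w =>
      (h.dV w).sub ((hasDerivAt_id w).const_mul m0)
    have hm : MonotoneOn (fun z => V z - m0 * z) (Icc x z) := by
      refine monotoneOn_of_deriv_nonneg (convex_Icc x z)
        (fun w _ => (hd w).continuousAt.continuousWithinAt)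
        (fun w _ => (hd w).differentiableAt.differentiableWithinAt) fun w hw => ?_
      rw [(hd w).deriv]
      rw [interior_Icc] at hw
      have := hm0 w ⟨hw.1.le, hw.2.le.trans hz.2⟩
      linarith
    have := hm (left_mem_Icc.2 hz.1) (right_mem_Icc.2 hz.1) hz.1
    simp only at this
    linarith
  have hd : ∀ z, HasDerivAt (fun z => I z - (I x + k1x c W V I x * (V z - V x)
      - J2 / 2 * (V z - V x) ^ 2 / m0))
      (I z * (k1x c W V I z - k1x c W V I x + J2 * (V z - V x) / m0)) z := fun z => by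
    have e1 : HasDerivAt (fun z => V z - V x) (I z) z := (h.dV z).sub_const (V x)
    have e2 := ((e1.pow 2).const_mul (J2 / 2)).div_const m0
    have e3 := ((e1.const_mul (k1x c W V I x)).const_add (I x)).sub e2
    refine ((EqEta_889.dI' h z).sub e3).congr_deriv ?_
    simp only [Nat.cast_ofNat, Nat.add_one_sub_one, pow_one]
    show k1x c W V I z * I z - _ = _
    ring
  have hm : MonotoneOn (fun z => I z - (I x + k1x c W V I x * (V z - V x)
      - J2 / 2 * (V z - V x) ^ 2 / m0)) (Icc x y) := by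
    refine monotoneOn_of_deriv_nonneg (convex_Icc x y)
      (fun w _ => (hd w).continuousAt.continuousWithinAt)
      (fun w _ => (hd w).differentiableAt.differentiableWithinAt) fun w hw => ?_
    rw [(hd w).deriv]
    rw [interior_Icc] at hw
    have hw' : w ∈ Icc x y := ⟨hw.1.le, hw.2.le⟩
    have b1 := a1 w hw'
    have b2 := a2 w hw'
    have b3 : J2 * (w - x) ≤ J2 * (V w - V x) / m0 := by
      rw [le_div_iff₀ hm]
      nlinarith
    exact mul_nonneg (h.I_pos w).le (by linarith)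
  have := hm (left_mem_Icc.2 hxy) (right_mem_Icc.2 hxy) hxy
  simp only [sub_self, mul_zero, add_zero] at this
  norm_num at this
  linarith

/-- the concavity gap `ε` : `I y / V x = p + δ (T r - ε)` with `V y = V x (1 + δ r)` -/
noncomputable def gap (c δ : ℝ) (W V I : ℝ → ℝ) (x y : ℝ) : ℝ :=
  (I x + k1x c W V I x * (V y - V x) - I y) / (δ * V x)

lemma gap_eq (h : SPair c W V I k lam) {δ x y r : ℝ} (hδ : 0 < δ) (hr : V y = V x * (1 + δ * r)) :
    I y = V x * (I x / V x + δ * (k1x c W V I x * r - gap c δ W V I x y)) := by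
  have hV := (h.V_pos x).ne'
  unfold gap
  rw [hr]
  field_simp
  ring

lemma gap_nonneg (h : SPair c W V I k lam) (hJ : ∀ x, 0 ≤ Jx c W V I x) {δ x y : ℝ}
    (hδ : 0 < δ) : 0 ≤ gap c δ W V I x y := by
  have := EqEta_889.tangent h hJ x y
  refine div_nonneg ?_ (mul_pos hδ (h.V_pos x)).le
  have e : EqEta_889.k1 c W V I x = k1x c W V I x := rfl
  rw [e] at this
  linarith

/-- Taylor bound of the gap, `y ≤ x` -/
lemma gap_taylor_left (h : SPair c W V I k lam) {J2 : ℝ} (hJ : ∀ x, 0 ≤ Jx c W V I x)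
    (hJ2 : ∀ x, Jx c W V I x ≤ J2) {δ x y r m : ℝ} (hδ : 0 < δ) (hyx : y ≤ x)
    (hr : V y = V x * (1 + δ * r)) (hm : -m ≤ r) (hm1 : δ * m < 1) :
    gap c δ W V I x y * (2 * (I x / V x) * (1 - δ * m)) ≤ J2 * δ * r ^ 2 := by
  have hV := h.V_pos x
  have hI := h.I_pos x
  have h1m : 0 < 1 - δ * m := by linarith
  have hle : 1 - δ * m ≤ 1 + δ * r := by nlinarith
  have hm0 : ∀ z ∈ Icc y x, I x * (1 - δ * m) ≤ I z := fun z hz => by
    refine le_trans ?_ (EqEta_889.I_ge h hJ hz.1 hz.2)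
    rw [hr, show I x * (V x * (1 + δ * r)) / V x = I x * (1 + δ * r) by field_simp]
    exact mul_le_mul_of_nonneg_left hle hI.le
  have ht := EqEta_889.taylor_lower h hJ hJ2 hyx (mul_pos hI h1m) hm0
  have e0 : EqEta_889.k1 c W V I x = k1x c W V I x := rfl
  rw [e0] at ht
  have e1 : gap c δ W V I x y * (2 * (I x / V x) * (1 - δ * m))
      = (I x + k1x c W V I x * (V y - V x) - I y) * (2 * (I x * (1 - δ * m)) / (δ * V x ^ 2)) := by
    unfold gap
    field_simp
  rw [e1]
  have h3 : I x + k1x c W V I x * (V y - V x) - I y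
      ≤ J2 / 2 * (V x - V y) ^ 2 / (I x * (1 - δ * m)) := by linarith
  refine (mul_le_mul_of_nonneg_right h3 (by positivity)).trans (le_of_eq ?_)
  rw [hr]
  have := h1m.ne'
  field_simp
  ring

/-- Taylor bound of the gap, `x ≤ y` -/
lemma gap_taylor_right (h : SPair c W V I k lam) {J2 : ℝ} (hJ : ∀ x, 0 ≤ Jx c W V I x)
    (hJ2 : ∀ x, Jx c W V I x ≤ J2) {δ x y r m : ℝ} (hδ : 0 < δ) (hxy : x ≤ y)
    (hr : V y = V x * (1 + δ * r)) (hm : r ≤ m) :
    gap c δ W V I x y * (2 * (I x / V x) * (1 - V x - δ * V x * m))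
      ≤ J2 * δ * r ^ 2 * (1 - V x) := by
  have hV := h.V_pos x
  have hI := h.I_pos x
  have hR : 0 < 1 - V x := by linarith [h.V_lt x]
  have hJ20 : 0 ≤ J2 := (hJ 0).trans (hJ2 0)
  have hg := gap_nonneg (y := y) h hJ (x := x) hδ
  rcases le_or_gt (1 - V x - δ * V x * m) 0 with hneg | hpos
  · have h1 : gap c δ W V I x y * (2 * (I x / V x) * (1 - V x - δ * V x * m)) ≤ 0 :=
      mul_nonpos_of_nonneg_of_nonpos hg
        (mul_nonpos_of_nonneg_of_nonpos (by positivity) hneg)
    exact h1.trans (by positivity)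
  have hle : 1 - V x - δ * V x * m ≤ 1 - V y := by
    rw [hr]
    nlinarith [mul_pos hδ hV]
  have hm0 : ∀ z ∈ Icc x y, I x * (1 - V x - δ * V x * m) / (1 - V x) ≤ I z := fun z hz => by
    have h1 := EqEta_889.chord_one h hJ hz.1
    have h2 := h.V_strictMono.monotone hz.2
    rw [div_le_iff₀ hR]
    nlinarith
  have ht := taylor_right h hJ hJ2 hxy (by positivity) hm0
  have e1 : gap c δ W V I x y * (2 * (I x / V x) * (1 - V x - δ * V x * m))
      = (I x + k1x c W V I x * (V y - V x) - I y)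
        * (2 * (I x * (1 - V x - δ * V x * m)) / (δ * V x ^ 2)) := by
    unfold gap
    field_simp
  rw [e1]
  have h3 : I x + k1x c W V I x * (V y - V x) - I y
      ≤ J2 / 2 * (V y - V x) ^ 2 / (I x * (1 - V x - δ * V x * m) / (1 - V x)) := by linarith
  refine (mul_le_mul_of_nonneg_right h3 (by positivity)).trans (le_of_eq ?_)
  rw [hr]
  generalize 1 - V x - δ * V x * m = Q at hpos
  generalize 1 - V x = R at hR
  field_simp
  ring

/-- chord bound of the gap, `y ≤ x` -/
lemma gap_chord_left (h : SPair c W V I k lam) (hJ : ∀ x, 0 ≤ Jx c W V I x) {δ x y r : ℝ}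
    (hδ : 0 < δ) (hyx : y ≤ x) (hr : V y = V x * (1 + δ * r)) :
    gap c δ W V I x y ≤ (I x / V x - k1x c W V I x) * (-r) := by
  have hV := h.V_pos x
  have h1 := EqEta_889.chord_zero h hJ hyx
  unfold gap
  rw [div_le_iff₀ (mul_pos hδ hV)]
  have e : (I x / V x - k1x c W V I x) * (-r) * (δ * V x)
      = (k1x c W V I x * V x - I x) * (δ * r) := by field_simp; ring
  rw [e, hr]
  have h2 : I x * (1 + δ * r) ≤ I y := by
    rw [hr] at h1
    have : V x * (I x * (1 + δ * r)) ≤ V x * I y := by nlinarith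
    exact le_of_mul_le_mul_left this hV
  nlinarith

/-- chord bound of the gap, `x ≤ y` -/
lemma gap_chord_right (h : SPair c W V I k lam) (hJ : ∀ x, 0 ≤ Jx c W V I x) {δ x y r : ℝ}
    (hδ : 0 < δ) (hxy : x ≤ y) (hr : V y = V x * (1 + δ * r)) :
    gap c δ W V I x y ≤ (I x / (1 - V x) + k1x c W V I x) * r := by
  have hV := h.V_pos x
  have hR : 0 < 1 - V x := by linarith [h.V_lt x]
  have h1 := EqEta_889.chord_one h hJ hxy
  unfold gap
  rw [div_le_iff₀ (mul_pos hδ hV)]
  have e : (I x / (1 - V x) + k1x c W V I x) * r * (δ * V x)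
      = k1x c W V I x * (δ * r * V x) + I x * (δ * r * V x) / (1 - V x) := by field_simp; ring
  rw [e, hr]
  have h2 : I x - I x * (δ * r * V x) / (1 - V x) ≤ I y := by
    rw [hr] at h1
    rw [sub_le_iff_le_add, ← sub_le_iff_le_add', le_div_iff₀ hR]
    nlinarith
  nlinarith

end pair

end Crest.Agent.R146.C2R_889
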