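import Crest.Agent.R146.SPair_307

/-!
# Row 146, helper889: level comparison at equal `η` (helper865 #1195 (4), PT-NUM C2)

Reference pair `SPair c W V I k lam` (`' = d/dx`, `I = V'`, `V = W'`).  A point of the true profile is given by
its level `V y` (label `y`) and its position `η = W x`.  If the slope of the true profile at level `V z`
lies in `I z (1 ± d e z)`, then `Pm y ≤ W x ≤ Pp y` with `Pm' = V/(1 + d e)`, `Pp' = V/(1 - d e)`
(`pos_bounds`).  This file converts this into `V x - d D₋ x ≤ V y ≤ V x + d D₊ x` for explicit `D±`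
satisfying one-point differential inequalities.

* `level_le`, `le_level` : general comparison (two-point form);
* `SPair.dk1v` : `k1 = dI/dV`, `k1' = -J`, `J = 1 + 2 c s`;
* `tangent`, `taylor_lower`, `chord_zero`, `chord_lower` : bounds for `I y` in terms of `V y - V x`.
-/

set_option autoImplicit false

namespace Crest.Agent.R146.EqEta_889

open Set Filter Topology
open Crest.Agent.R146.SPair_307

/-! ### the abstract comparison -/

section general

variable {W V I : ℝ → ℝ}

/-- the inverse of the level function -/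
noncomputable def X (V : ℝ → ℝ) (v : ℝ) : ℝ := Function.invFun V v

/-- data of the reference profile used by the comparison -/
structure Prof (W V I : ℝ → ℝ) : Prop where
  dW : ∀ x, HasDerivAt W (V x) x
  dV : ∀ x, HasDerivAt V (I x) x
  I_pos : ∀ x, 0 < I x
  V_pos : ∀ x, 0 < V x
  V_lt : ∀ x, V x < 1
  V_bot : Tendsto V atBot (𝓝 0)
  V_top : Tendsto V atTop (𝓝 1)
  W_bot : Tendsto W atBot (𝓝 0)

namespace Prof

variable (h : Prof W V I)
include h

lemma V_mono : StrictMono V := strictMono_of_hasDerivAt_pos h.dV h.I_pos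

lemma cV : Continuous V := continuous_iff_continuousAt.2 fun x => (h.dV x).continuousAt

lemma W_mono : StrictMono W := strictMono_of_hasDerivAt_pos h.dW h.V_pos

lemma exists_label {v : ℝ} (h0 : 0 < v) (h1 : v < 1) : ∃ y, V y = v := by
  obtain ⟨a, ha⟩ := (h.V_bot.eventually (gt_mem_nhds h0)).exists
  obtain ⟨b, hb⟩ := (h.V_top.eventually (lt_mem_nhds h1)).exists
  have hab : a ≤ b := by
    by_contra hcon
    push Not at hcon
    have := h.V_mono hcon
    linarith
  obtain ⟨y, -, hy⟩ := intermediate_value_Icc hab h.cV.continuousOn ⟨ha.le, hb.le⟩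
  exact ⟨y, hy⟩

lemma X_V (x : ℝ) : X V (V x) = x := Function.leftInverse_invFun h.V_mono.injective x

lemma V_X {v : ℝ} (h0 : 0 < v) (h1 : v < 1) : V (X V v) = v := by
  obtain ⟨y, rfl⟩ := h.exists_label h0 h1
  rw [h.X_V]

lemma X_lt {v w : ℝ} (h0 : 0 < v) (hvw : v < w) (h1 : w < 1) : X V v < X V w := by
  have e1 := h.V_X h0 (hvw.trans h1)
  have e2 := h.V_X (h0.trans hvw) h1
  rw [← e1, ← e2] at hvw
  exact h.V_mono.lt_iff_lt.1 hvw

lemma X_cont {v : ℝ} (h0 : 0 < v) (h1 : v < 1) : ContinuousAt (X V) v := by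
  have hm : StrictMonoOn (X V) (Ioo 0 1) := fun a ha b hb hab => h.X_lt ha.1 hab hb.2
  have hs : X V '' Ioo 0 1 = univ := by
    refine eq_univ_of_forall fun y => ⟨V y, ⟨h.V_pos y, h.V_lt y⟩, h.X_V y⟩
  have hn : Ioo (0 : ℝ) 1 ∈ 𝓝 v := Ioo_mem_nhds h0 h1
  refine hm.continuousAt_of_image_mem_nhds hn ?_
  rw [hs]
  exact univ_mem

lemma X_deriv {v : ℝ} (h0 : 0 < v) (h1 : v < 1) : HasDerivAt (X V) (I (X V v))⁻¹ v := by
  have hc := h.X_cont h0 h1
  have hd := h.dV (X V v)
  refine HasDerivAt.of_local_left_inverse (f := V) hc hd (h.I_pos _).ne' ?_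
  filter_upwards [Ioo_mem_nhds h0 h1] with w hw
  exact h.V_X hw.1 hw.2

/-- **Upper comparison.**  `Pm' = V/(1+d e)`; `Z` = the barrier level `V + d D`. -/
theorem level_le {Pm g Z Z' : ℝ → ℝ} (hg : ∀ y, 0 < g y)
    (hP : ∀ y, HasDerivAt Pm (V y / g y) y) (hP0 : ∀ y, 0 ≤ Pm y)
    (cZ : Continuous Z) (hZ : ∀ x, HasDerivWithinAt Z (Z' x) (Ici x) x)
    (Z_pos : ∀ x, 0 < Z x) (Z_mono : Monotone Z)
    (hcomp : ∀ x y, V y = Z x → V x * I y * g y ≤ Z' x * V y)
    {x y : ℝ} (hxy : Pm y ≤ W x) : V y ≤ Z x := by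
  by_contra hcon
  push Not at hcon
  have hZ1 : Z x < 1 := hcon.trans (h.V_lt y)
  have hlt : ∀ z ≤ x, Z z < 1 := fun z hz => (Z_mono hz).trans_lt hZ1
  -- comparison on `[a, x]`
  have key : ∀ a ≤ x, W x - W a ≤ Pm (X V (Z x)) := by
    intro a hax
    have := image_le_of_deriv_right_le_deriv_boundary (a := a) (b := x)
      (f := fun z => W z - W a) (f' := fun z => V z)
      (B := fun z => Pm (X V (Z z))) (B' := fun z => V (X V (Z z)) / g (X V (Z z)) *
        ((I (X V (Z z)))⁻¹ * Z' z))
      (fun z _ => ((h.dW z).continuousAt.sub continuousAt_const).continuousWithinAt)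
      (fun z _ => ((h.dW z).sub_const (W a)).hasDerivWithinAt)
      (by simpa using hP0 _)
      (fun z hz => by
        have hz1 := hlt z hz.2
        have e1 := (hP (X V (Z z))).continuousAt
        have e2 := h.X_cont (Z_pos z) hz1
        exact (ContinuousAt.comp (g := Pm) (f := fun z => X V (Z z)) e1
          (ContinuousAt.comp (g := X V) (f := Z) e2 cZ.continuousAt)).continuousWithinAt)
      (fun z hz => by
        have hz1 := hlt z hz.2.le
        have e3 := (h.X_deriv (Z_pos z) hz1).comp_hasDerivWithinAt z (hZ z)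
        exact (hP (X V (Z z))).comp_hasDerivWithinAt z e3)
      (fun z hz => by
        have hz1 := hlt z hz.2.le
        have e1 := h.V_X (Z_pos z) hz1
        have e2 := hcomp z (X V (Z z)) e1
        have e3 := hg (X V (Z z))
        have e4 := h.I_pos (X V (Z z))
        rw [← mul_assoc, div_mul_eq_mul_div, ← div_eq_mul_inv, div_div, div_mul_eq_mul_div,
          le_div_iff₀ (mul_pos e4 e3)]
        nlinarith [e2])
      (x := x) ⟨hax, le_rfl⟩
    exact this
  have hlim : W x ≤ Pm (X V (Z x)) := by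
    have h1 : Tendsto (fun a => W x - W a) atBot (𝓝 (W x - 0)) :=
      tendsto_const_nhds.sub h.W_bot
    rw [sub_zero] at h1
    refine le_of_tendsto h1 ?_
    filter_upwards [eventually_le_atBot x] with a ha
    exact key a ha
  have hPm : StrictMono Pm := strictMono_of_hasDerivAt_pos hP fun z => div_pos (h.V_pos z) (hg z)
  have h2 : y ≤ X V (Z x) := hPm.le_iff_le.1 (hxy.trans hlim)
  have h3 := h.V_mono.monotone h2
  rw [h.V_X (Z_pos x) hZ1] at h3
  exact absurd h3 (not_le.2 hcon)

/-- **Lower comparison.**  `Pp' = V/g`, `g = 1 - d e`; `Z` = the barrier level `V - d D`. -/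
theorem le_level {Pp g Z Z' : ℝ → ℝ} (hg : ∀ y, 0 < g y)
    (hP : ∀ y, HasDerivAt Pp (V y / g y) y) (hPb : Tendsto Pp atBot (𝓝 0))
    (cZ : Continuous Z) (hZ : ∀ x, HasDerivWithinAt Z (Z' x) (Ici x) x)
    (Z_pos : ∀ x, 0 < Z x) (Z_le : ∀ x, Z x ≤ V x)
    (hcomp : ∀ x y, V y = Z x → Z' x * V y ≤ V x * I y * g y)
    {x y : ℝ} (hxy : W x ≤ Pp y) : Z x ≤ V y := by
  have hlt : ∀ z, Z z < 1 := fun z => (Z_le z).trans_lt (h.V_lt z)
  have key : ∀ a ≤ x, Pp (X V (Z x)) ≤ W x + Pp (X V (Z a)) := by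
    intro a hax
    have := image_le_of_deriv_right_le_deriv_boundary (a := a) (b := x)
      (f := fun z => Pp (X V (Z z)) - Pp (X V (Z a)))
      (f' := fun z => V (X V (Z z)) / g (X V (Z z)) * ((I (X V (Z z)))⁻¹ * Z' z))
      (B := fun z => W z - W a) (B' := fun z => V z)
      (fun z hz => by
        have e1 := (hP (X V (Z z))).continuousAt
        have e2 := h.X_cont (Z_pos z) (hlt z)
        exact ((ContinuousAt.comp (g := Pp) (f := fun z => X V (Z z)) e1
          (ContinuousAt.comp (g := X V) (f := Z) e2 cZ.continuousAt)).sub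
            continuousAt_const).continuousWithinAt)
      (fun z hz => by
        have e3 := (h.X_deriv (Z_pos z) (hlt z)).comp_hasDerivWithinAt z (hZ z)
        exact ((hP (X V (Z z))).comp_hasDerivWithinAt z e3).sub_const _)
      (by simp)
      (fun z _ => ((h.dW z).continuousAt.sub continuousAt_const).continuousWithinAt)
      (fun z _ => ((h.dW z).sub_const (W a)).hasDerivWithinAt)
      (fun z hz => by
        have e1 := h.V_X (Z_pos z) (hlt z)
        have e2 := hcomp z (X V (Z z)) e1
        have e3 := hg (X V (Z z))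
        have e4 := h.I_pos (X V (Z z))
        rw [← mul_assoc, div_mul_eq_mul_div, ← div_eq_mul_inv, div_div, div_mul_eq_mul_div,
          div_le_iff₀ (mul_pos e4 e3)]
        nlinarith [e2])
      (x := x) ⟨hax, le_rfl⟩
    have hWa : 0 ≤ W a := by
      refine le_of_tendsto h.W_bot ?_
      filter_upwards [eventually_le_atBot a] with b hb
      exact h.W_mono.monotone hb
    linarith
  have hlim : Pp (X V (Z x)) ≤ W x := by
    have hX : Tendsto (fun a => X V (Z a)) atBot atBot := by
      refine tendsto_atBot.2 fun b => ?_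
      have hb := h.V_pos b
      have hz : Tendsto Z atBot (𝓝 0) :=
        squeeze_zero (fun a => (Z_pos a).le) Z_le h.V_bot
      filter_upwards [hz.eventually (gt_mem_nhds hb)] with a ha
      have e1 := h.V_X (Z_pos a) (hlt a)
      have : V (X V (Z a)) < V b := by rw [e1]; exact ha
      exact (h.V_mono.lt_iff_lt.1 this).le
    have h1 : Tendsto (fun a => W x + Pp (X V (Z a))) atBot (𝓝 (W x + 0)) :=
      tendsto_const_nhds.add (hPb.comp hX)
    rw [add_zero] at h1
    refine ge_of_tendsto h1 ?_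
    filter_upwards [eventually_le_atBot x] with a ha
    exact key a ha
  have hPm : StrictMono Pp := strictMono_of_hasDerivAt_pos hP fun z => div_pos (h.V_pos z) (hg z)
  have h2 : X V (Z x) ≤ y := hPm.le_iff_le.1 (hlim.trans hxy)
  have h3 := h.V_mono.monotone h2
  rwa [h.V_X (Z_pos x) (hlt x)] at h3

/-! ### the true profile at a fixed time -/

/-- `η, v, i` = position, level, slope of the true profile (functions of `x'`), `s` the scale. -/
structure Tru (s : ℝ) (η v i : ℝ → ℝ) : Prop where
  s_pos : 0 < s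
  dη : ∀ x, HasDerivAt η (s * v x) x
  dv : ∀ x, HasDerivAt v (s * i x) x
  v_pos : ∀ x, 0 < v x
  v_lt : ∀ x, v x < 1
  η_bot : Tendsto η atBot (𝓝 0)
  v_bot : Tendsto v atBot (𝓝 0)

omit h in
lemma nonneg_of_deriv_nonneg {F F' : ℝ → ℝ} (hF : ∀ x, HasDerivAt F (F' x) x)
    (h0 : ∀ x, 0 ≤ F' x) (hl : Tendsto F atBot (𝓝 0)) (x : ℝ) : 0 ≤ F x := by
  have hm : Monotone F := monotone_of_hasDerivAt_nonneg hF h0
  refine le_of_tendsto hl ?_
  filter_upwards [eventually_le_atBot x] with a ha
  exact hm ha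

lemma X_bot {v : ℝ → ℝ} (v_pos : ∀ x, 0 < v x) (v_lt : ∀ x, v x < 1)
    (v_bot : Tendsto v atBot (𝓝 0)) : Tendsto (fun x => X V (v x)) atBot atBot := by
  refine tendsto_atBot.2 fun b => ?_
  filter_upwards [v_bot.eventually (gt_mem_nhds (h.V_pos b))] with a ha
  have e1 := h.V_X (v_pos a) (v_lt a)
  have : V (X V (v a)) < V b := by rw [e1]; exact ha
  exact (h.V_mono.lt_iff_lt.1 this).le

/-- slope below `I g` at every level ⟹ the position is at least `Pm`, `Pm' = V/g` -/
theorem pos_ge {s : ℝ} {η v i : ℝ → ℝ} (ht : Tru s η v i) {Pm g : ℝ → ℝ} (hg : ∀ y, 0 < g y)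
    (hP : ∀ y, HasDerivAt Pm (V y / g y) y) (hPb : Tendsto Pm atBot (𝓝 0))
    (hband : ∀ x, i x ≤ I (X V (v x)) * g (X V (v x))) (x : ℝ) : Pm (X V (v x)) ≤ η x := by
  have hX := h.X_bot ht.v_pos ht.v_lt ht.v_bot
  have := nonneg_of_deriv_nonneg (F := fun x => η x - Pm (X V (v x)))
    (F' := fun x => s * v x - V (X V (v x)) / g (X V (v x)) * ((I (X V (v x)))⁻¹ * (s * i x)))
    (fun x => (ht.dη x).sub ((hP (X V (v x))).comp x
      ((h.X_deriv (ht.v_pos x) (ht.v_lt x)).comp x (ht.dv x))))
    (fun x => by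
      have e1 := h.V_X (ht.v_pos x) (ht.v_lt x)
      rw [e1]
      have e3 := hg (X V (v x))
      have e4 := h.I_pos (X V (v x))
      have e5 := hband x
      have e6 : v x / g (X V (v x)) * ((I (X V (v x)))⁻¹ * (s * i x))
          = s * v x * (i x / (I (X V (v x)) * g (X V (v x)))) := by
        field_simp
      rw [e6]
      have e7 : i x / (I (X V (v x)) * g (X V (v x))) ≤ 1 := by
        rw [div_le_one (mul_pos e4 e3)]
        exact e5
      nlinarith [mul_pos ht.s_pos (ht.v_pos x)])
    (by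
      have := ht.η_bot.sub (hPb.comp hX)
      simpa using this) x
  linarith

/-- slope above `I g` at every level ⟹ the position is at most `Pp`, `Pp' = V/g` -/
theorem pos_le {s : ℝ} {η v i : ℝ → ℝ} (ht : Tru s η v i) {Pp g : ℝ → ℝ} (hg : ∀ y, 0 < g y)
    (hP : ∀ y, HasDerivAt Pp (V y / g y) y) (hPb : Tendsto Pp atBot (𝓝 0))
    (hband : ∀ x, I (X V (v x)) * g (X V (v x)) ≤ i x) (x : ℝ) : η x ≤ Pp (X V (v x)) := by
  have hX := h.X_bot ht.v_pos ht.v_lt ht.v_bot
  have := nonneg_of_deriv_nonneg (F := fun x => Pp (X V (v x)) - η x)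
    (F' := fun x => V (X V (v x)) / g (X V (v x)) * ((I (X V (v x)))⁻¹ * (s * i x)) - s * v x)
    (fun x => ((hP (X V (v x))).comp x
      ((h.X_deriv (ht.v_pos x) (ht.v_lt x)).comp x (ht.dv x))).sub (ht.dη x))
    (fun x => by
      have e1 := h.V_X (ht.v_pos x) (ht.v_lt x)
      rw [e1]
      have e3 := hg (X V (v x))
      have e4 := h.I_pos (X V (v x))
      have e5 := hband x
      have e6 : v x / g (X V (v x)) * ((I (X V (v x)))⁻¹ * (s * i x))
          = s * v x * (i x / (I (X V (v x)) * g (X V (v x)))) := by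
        field_simp
      rw [e6]
      have e7 : 1 ≤ i x / (I (X V (v x)) * g (X V (v x))) := by
        rw [le_div_iff₀ (mul_pos e4 e3), one_mul]
        exact e5
      nlinarith [mul_pos ht.s_pos (ht.v_pos x)])
    (by
      have := (hPb.comp hX).sub ht.η_bot
      simpa using this) x
  linarith

end Prof

end general

/-! ### the stationary pair -/

section pair

variable {c : ℝ} {W V I k : ℝ → ℝ} {lam : ℝ}

/-- `k1 = dI/dV = I'/I` -/
noncomputable def k1 (c : ℝ) (W V I : ℝ → ℝ) (x : ℝ) : ℝ :=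
  -2 * Ad c W x + 2 * c * (V x * (1 - V x) / I x)

/-- `J = 1 + 2 c s`, `s = q k1 + 3 V - 3/2`, `q = V (1 - V)/I` -/
noncomputable def Jc (c : ℝ) (W V I : ℝ → ℝ) (x : ℝ) : ℝ :=
  1 + 2 * c * (V x * (1 - V x) / I x * k1 c W V I x + 3 * V x - 3 / 2)

lemma W_bot (h : SPair c W V I k lam) : Tendsto W atBot (𝓝 0) := by
  have h1 : Tendsto (fun x : ℝ => (x + Real.sqrt (x ^ 2 + 1)) / 2) atBot (𝓝 0) := by
    have h2 : ∀ x : ℝ, x < 0 → (x + Real.sqrt (x ^ 2 + 1)) / 2 ≤ 1 / (-x) := by
      intro x hx
      have e1 : Real.sqrt (x ^ 2 + 1) ≤ -x + 1 / (-x) := by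
        obtain ⟨y, rfl⟩ : ∃ y, x = -y := ⟨-x, by ring⟩
        have hy : 0 < y := by linarith
        rw [neg_neg, Real.sqrt_le_left (by positivity)]
        have : (y + 1 / y) ^ 2 = (-y) ^ 2 + 2 + (1 / y) ^ 2 := by
          field_simp
          ring
        rw [this]
        nlinarith [sq_nonneg (1 / y)]
      have : 0 < 1 / (-x) := by
        apply div_pos one_pos; linarith
      linarith
    have h3 : Tendsto (fun x : ℝ => 1 / (-x)) atBot (𝓝 0) := by
      have := tendsto_inv_atTop_zero.comp (tendsto_neg_atBot_atTop (G := ℝ))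
      refine this.congr fun x => ?_
      simp
    refine squeeze_zero' (Eventually.of_forall fun x => ?_) ?_ h3
    · have : |x| ≤ Real.sqrt (x ^ 2 + 1) := by
        rw [← Real.sqrt_sq_eq_abs]
        exact Real.sqrt_le_sqrt (by linarith)
      have := neg_abs_le x
      linarith
    · filter_upwards [eventually_lt_atBot 0] with x hx
      exact h2 x hx
  exact squeeze_zero (fun x => (h.W_pos x).le) h.W_le h1

lemma V_bot (h : SPair c W V I k lam) : Tendsto V atBot (𝓝 0) := by
  -- `V x ≤ W (x+1)`, since `V` is increasing and `W > 0`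
  have key : ∀ x, V x ≤ W (x + 1) := by
    intro x
    obtain ⟨z, hz, hz2⟩ := exists_hasDerivAt_eq_slope W V (show x < x + 1 by linarith)
      (h.cW.continuousOn) (fun y _ => h.dW y)
    have e1 : V x ≤ V z := h.V_strictMono.monotone hz.1.le
    have e2 : V z = W (x + 1) - W x := by
      rw [hz2]; simp
    linarith [h.W_pos x]
  have h1 : Tendsto (fun x => W (x + 1)) atBot (𝓝 0) :=
    (W_bot h).comp (tendsto_atBot_add_const_right _ _ tendsto_id)
  exact squeeze_zero (fun x => (h.V_pos x).le) key h1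

lemma V_top (h : SPair c W V I k lam) : Tendsto V atTop (𝓝 1) := by
  -- `1 - V x ≤ U (x-1)`, and `U ≤ (-x+√(x²+1))/2 → 0`
  have key : ∀ x, 1 - V x ≤ W (x - 1) - (x - 1) := by
    intro x
    obtain ⟨z, hz, hz2⟩ := exists_hasDerivAt_eq_slope W V (show x - 1 < x by linarith)
      (h.cW.continuousOn) (fun y _ => h.dW y)
    have e1 : V z ≤ V x := h.V_strictMono.monotone hz.2.le
    have e2 : V z = W x - W (x - 1) := by
      rw [hz2]; simp
    linarith [h.U_pos x]
  have h1 : Tendsto (fun x => W (x - 1) - (x - 1)) atTop (𝓝 0) := by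
    have h2 : ∀ x : ℝ, 1 < x → W (x - 1) - (x - 1) ≤ 1 / (x - 1) := by
      intro x hx
      have e0 := h.W_le (x - 1)
      have hx1 : 0 < x - 1 := by linarith
      have e1 : Real.sqrt ((x - 1) ^ 2 + 1) ≤ (x - 1) + 1 / (x - 1) := by
        rw [Real.sqrt_le_left (by positivity)]
        have : ((x - 1) + 1 / (x - 1)) ^ 2 = (x - 1) ^ 2 + 2 + (1 / (x - 1)) ^ 2 := by
          field_simp
          ring
        rw [this]
        nlinarith [sq_nonneg (1 / (x - 1))]
      have : 0 < 1 / (x - 1) := by positivity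
      linarith
    have h3 : Tendsto (fun x : ℝ => 1 / (x - 1)) atTop (𝓝 0) := by
      have := tendsto_inv_atTop_zero.comp (tendsto_atTop_add_const_right atTop (-1 : ℝ) tendsto_id)
      refine this.congr fun x => ?_
      simp [sub_eq_add_neg]
    refine squeeze_zero' (Eventually.of_forall fun x => ?_) ?_ h3
    · linarith [h.U_pos (x - 1)]
    · filter_upwards [eventually_gt_atTop 1] with x hx
      exact h2 x hx
  have h2 : Tendsto (fun x => 1 - V x) atTop (𝓝 0) :=
    squeeze_zero (fun x => by linarith [h.V_lt x]) key h1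
  have h3 := (tendsto_const_nhds (x := (1 : ℝ))).sub h2
  simpa using h3

lemma prof (h : SPair c W V I k lam) : Prof W V I where
  dW := h.dW
  dV := h.dV
  I_pos := h.I_pos
  V_pos := h.V_pos
  V_lt := h.V_lt
  V_bot := V_bot h
  V_top := V_top h
  W_bot := W_bot h

lemma dI' (h : SPair c W V I k lam) (x : ℝ) : HasDerivAt I (k1 c W V I x * I x) x := by
  refine (h.dI x).congr_deriv ?_
  unfold k1
  have := (h.I_pos x).ne'
  field_simp

lemma dk1v (h : SPair c W V I k lam) (x : ℝ) : HasDerivAt (k1 c W V I) (-Jc c W V I x) x := by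
  have hI := (h.I_pos x).ne'
  have h1 : HasDerivAt (fun x => V x * (1 - V x) / I x)
      (((I x * (1 - V x) + V x * (-I x)) * I x - V x * (1 - V x) * (k1 c W V I x * I x)) / I x ^ 2)
      x := by
    have := ((h.dV x).mul ((h.dV x).const_sub 1)).div (dI' h x) hI
    exact this
  have h2 := ((h.dA x).const_mul (-2)).add (h1.const_mul (2 * c))
  refine h2.congr_deriv ?_
  unfold Jc Ad1
  field_simp
  ring

lemma k1_anti (h : SPair c W V I k lam) (hJ : ∀ x, 0 ≤ Jc c W V I x) : Antitone (k1 c W V I) :=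
  antitone_of_hasDerivAt_nonpos (fun x => dk1v h x) fun x => neg_nonpos.2 (hJ x)

/-- concavity of `I` as a function of `V`: tangent line -/
lemma tangent (h : SPair c W V I k lam) (hJ : ∀ x, 0 ≤ Jc c W V I x) (x y : ℝ) :
    I y ≤ I x + k1 c W V I x * (V y - V x) := by
  have hk := k1_anti h hJ
  have hG : ∀ z, HasDerivAt (fun z => I x + k1 c W V I x * (V z - V x) - I z)
      (I z * (k1 c W V I x - k1 c W V I z)) z := fun z => by
    have := ((((h.dV z).sub_const (V x)).const_mul (k1 c W V I x)).const_add (I x)).sub (dI' h z)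
    refine this.congr_deriv ?_
    ring
  have hcont : Continuous (fun z => I x + k1 c W V I x * (V z - V x) - I z) :=
    continuous_iff_continuousAt.2 fun z => (hG z).continuousAt
  rcases le_total x y with hxy | hxy
  · have hm : MonotoneOn (fun z => I x + k1 c W V I x * (V z - V x) - I z) (Icc x y) := by
      refine monotoneOn_of_deriv_nonneg (convex_Icc x y) hcont.continuousOn
        (fun z _ => (hG z).differentiableAt.differentiableWithinAt) fun z hz => ?_
      rw [(hG z).deriv]
      rw [interior_Icc] at hz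
      exact mul_nonneg (h.I_pos z).le (by linarith [hk hz.1.le])
    have := hm (left_mem_Icc.2 hxy) (right_mem_Icc.2 hxy) hxy
    simp only [sub_self, mul_zero, add_zero] at this
    linarith
  · have hm : AntitoneOn (fun z => I x + k1 c W V I x * (V z - V x) - I z) (Icc y x) := by
      refine antitoneOn_of_deriv_nonpos (convex_Icc y x) hcont.continuousOn
        (fun z _ => (hG z).differentiableAt.differentiableWithinAt) fun z hz => ?_
      rw [(hG z).deriv]
      rw [interior_Icc] at hz
      exact mul_nonpos_of_nonneg_of_nonpos (h.I_pos z).le (by linarith [hk hz.2.le])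
    have := hm (left_mem_Icc.2 hxy) (right_mem_Icc.2 hxy) hxy
    simp only [sub_self, mul_zero, add_zero] at this
    linarith

/-- `k1 V ≤ I` (chord through the origin is steeper than the tangent) -/
lemma k1_mul_le (h : SPair c W V I k lam) (hJ : ∀ x, 0 ≤ Jc c W V I x) (x : ℝ) :
    k1 c W V I x * V x ≤ I x := by
  have h1 : Tendsto (fun y => I x + k1 c W V I x * (V y - V x)) atBot
      (𝓝 (I x + k1 c W V I x * (0 - V x))) :=
    (((V_bot h).sub_const (V x)).const_mul _).const_add _
  have h2 : 0 ≤ I x + k1 c W V I x * (0 - V x) :=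
    ge_of_tendsto' h1 fun y => (h.I_pos y).le.trans (tangent h hJ x y)
  linarith

/-- `p = I/V` is nonincreasing -/
lemma p_anti (h : SPair c W V I k lam) (hJ : ∀ x, 0 ≤ Jc c W V I x) :
    Antitone (fun x => I x / V x) := by
  refine antitone_of_hasDerivAt_nonpos
    (f' := fun x => (k1 c W V I x * I x * V x - I x * I x) / V x ^ 2)
    (fun x => (dI' h x).div (h.dV x) (h.V_pos x).ne') fun x => ?_
  apply div_nonpos_of_nonpos_of_nonneg _ (by positivity)
  have := k1_mul_le h hJ x
  nlinarith [h.I_pos x]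

lemma chord_zero (h : SPair c W V I k lam) (hJ : ∀ x, 0 ≤ Jc c W V I x) {x y : ℝ} (hxy : y ≤ x) :
    I x * V y ≤ I y * V x := by
  have := p_anti h hJ hxy
  simp only at this
  rwa [div_le_div_iff₀ (h.V_pos x) (h.V_pos y)] at this

/-- `I ≥ min` of the end values times ... : on `[y, x]` the slope is at least `I x V y / V x` or `I x` -/
lemma I_ge (h : SPair c W V I k lam) (hJ : ∀ x, 0 ≤ Jc c W V I x) {x y z : ℝ} (hyz : y ≤ z)
    (hzx : z ≤ x) : I x * V y / V x ≤ I z := by
  have h1 := chord_zero h hJ hzx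
  have h2 := h.V_strictMono.monotone hyz
  rw [div_le_iff₀ (h.V_pos x)]
  nlinarith [h.I_pos x]

/-- second order lower bound for smaller levels -/
lemma taylor_lower (h : SPair c W V I k lam) {J2 : ℝ} (hJ : ∀ x, 0 ≤ Jc c W V I x)
    (hJ2 : ∀ x, Jc c W V I x ≤ J2) {x y m0 : ℝ} (hyx : y ≤ x) (hm : 0 < m0)
    (hm0 : ∀ z ∈ Icc y x, m0 ≤ I z) :
    I x - k1 c W V I x * (V x - V y) - J2 / 2 * (V x - V y) ^ 2 / m0 ≤ I y := by
  have hJ20 : 0 ≤ J2 := (hJ 0).trans (hJ2 0)
  -- `k1 z - k1 x ≤ J2 (x - z)`, `V x - V z ≥ m0 (x - z)` on `[y, x]`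
  have a1 : ∀ z ∈ Icc y x, k1 c W V I z - k1 c W V I x ≤ J2 * (x - z) := by
    intro z hz
    have hm : Monotone (fun z => k1 c W V I z + J2 * z) :=
      monotone_of_hasDerivAt_nonneg
        (fun z => (dk1v h z).add ((hasDerivAt_id z).const_mul J2)) fun z => by
          show (0 : ℝ) ≤ -Jc c W V I z + J2 * 1
          linarith [hJ2 z]
    have := hm hz.2
    simp only at this
    linarith
  have a2 : ∀ z ∈ Icc y x, m0 * (x - z) ≤ V x - V z := by
    intro z hz
    have hm : MonotoneOn (fun z => V z - m0 * z) (Icc z x) := by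
      have hd : ∀ w, HasDerivAt (fun z => V z - m0 * z) (I w - m0 * 1) w := fun w =>
        (h.dV w).sub ((hasDerivAt_id w).const_mul m0)
      refine monotoneOn_of_deriv_nonneg (convex_Icc z x)
        (fun w _ => (hd w).continuousAt.continuousWithinAt)
        (fun w _ => (hd w).differentiableAt.differentiableWithinAt) fun w hw => ?_
      rw [(hd w).deriv]
      rw [interior_Icc] at hw
      have := hm0 w ⟨hz.1.trans hw.1.le, hw.2.le⟩
      linarith
    have := hm (left_mem_Icc.2 hz.2) (right_mem_Icc.2 hz.2) hz.2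
    simp only at this
    linarith
  -- G decreasing
  have hd : ∀ z, HasDerivAt (fun z => I z - (I x - k1 c W V I x * (V x - V z)
      - J2 / 2 * (V x - V z) ^ 2 / m0))
      (I z * (k1 c W V I z - k1 c W V I x - J2 * (V x - V z) / m0)) z := fun z => by
    have e1 : HasDerivAt (fun z => V x - V z) (-I z) z := (h.dV z).const_sub (V x)
    have e2 := ((e1.pow 2).const_mul (J2 / 2)).div_const m0
    have e3 := ((e1.const_mul (k1 c W V I x)).const_sub (I x)).sub e2
    refine ((dI' h z).sub e3).congr_deriv ?_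
    simp only [Nat.cast_ofNat, Nat.add_one_sub_one, pow_one]
    ring
  have hm : AntitoneOn (fun z => I z - (I x - k1 c W V I x * (V x - V z)
      - J2 / 2 * (V x - V z) ^ 2 / m0)) (Icc y x) := by
    refine antitoneOn_of_deriv_nonpos (convex_Icc y x)
      (fun w _ => (hd w).continuousAt.continuousWithinAt)
      (fun w _ => (hd w).differentiableAt.differentiableWithinAt) fun w hw => ?_
    rw [(hd w).deriv]
    rw [interior_Icc] at hw
    have hw' : w ∈ Icc y x := ⟨hw.1.le, hw.2.le⟩
    have b1 := a1 w hw'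
    have b2 := a2 w hw'
    have b3 : J2 * (x - w) ≤ J2 * (V x - V w) / m0 := by
      rw [le_div_iff₀ hm]
      nlinarith
    exact mul_nonpos_of_nonneg_of_nonpos (h.I_pos w).le (by linarith)
  have := hm (left_mem_Icc.2 hyx) (right_mem_Icc.2 hyx) hyx
  simp only [sub_self, mul_zero, sub_zero] at this
  norm_num at this
  linarith

/-- chord between the labels `X2` and `x` -/
lemma chord_lower (h : SPair c W V I k lam) (hJ : ∀ x, 0 ≤ Jc c W V I x) {x y X2 σ : ℝ}
    (h1 : X2 ≤ y) (h2 : y ≤ x) (hσ : I x + σ * (V x - V X2) ≤ I X2) :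
    I x + σ * (V x - V y) ≤ I y := by
  have hk := k1_anti h hJ
  have hd : ∀ z, HasDerivAt (fun z => I z - (I x + σ * (V x - V z)))
      (I z * (k1 c W V I z + σ)) z := fun z => by
    have e1 : HasDerivAt (fun z => V x - V z) (-I z) z := (h.dV z).const_sub (V x)
    refine ((dI' h z).sub ((e1.const_mul σ).const_add (I x))).congr_deriv ?_
    ring
  rcases le_total 0 (k1 c W V I y + σ) with hs | hs
  · have hm : MonotoneOn (fun z => I z - (I x + σ * (V x - V z))) (Icc X2 y) := by
      refine monotoneOn_of_deriv_nonneg (convex_Icc X2 y)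
        (fun w _ => (hd w).continuousAt.continuousWithinAt)
        (fun w _ => (hd w).differentiableAt.differentiableWithinAt) fun w hw => ?_
      rw [(hd w).deriv]
      rw [interior_Icc] at hw
      exact mul_nonneg (h.I_pos w).le (by linarith [hk hw.2.le])
    have := hm (left_mem_Icc.2 h1) (right_mem_Icc.2 h1) h1
    simp only at this
    linarith
  · have hm : AntitoneOn (fun z => I z - (I x + σ * (V x - V z))) (Icc y x) := by
      refine antitoneOn_of_deriv_nonpos (convex_Icc y x)
        (fun w _ => (hd w).continuousAt.continuousWithinAt)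
        (fun w _ => (hd w).differentiableAt.differentiableWithinAt) fun w hw => ?_
      rw [(hd w).deriv]
      rw [interior_Icc] at hw
      exact mul_nonpos_of_nonneg_of_nonpos (h.I_pos w).le (by linarith [hk hw.1.le])
    have := hm (left_mem_Icc.2 h2) (right_mem_Icc.2 h2) h2
    simp only [sub_self, mul_zero, add_zero] at this
    linarith

/-- chord to the right end: `I/R` is nondecreasing, so `I y ≥ I x (1 - V y)/(1 - V x)` for `y ≥ x` -/
lemma chord_one (h : SPair c W V I k lam) (hJ : ∀ x, 0 ≤ Jc c W V I x) {x y : ℝ} (hxy : x ≤ y) :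
    I x * (1 - V y) ≤ I y * (1 - V x) := by
  -- `0 ≤ I z + k1 z (1 - V z)` by the tangent line at `z` evaluated at `+∞`
  have key : ∀ z, 0 ≤ I z + k1 c W V I z * (1 - V z) := by
    intro z
    have h1 : Tendsto (fun y => I z + k1 c W V I z * (V y - V z)) atTop
        (𝓝 (I z + k1 c W V I z * (1 - V z))) :=
      (((V_top h).sub_const (V z)).const_mul _).const_add _
    exact ge_of_tendsto' h1 fun y => (h.I_pos y).le.trans (tangent h hJ z y)
  have hR : ∀ z, 0 < 1 - V z := fun z => by linarith [h.V_lt z]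
  have hm : Monotone (fun z => I z / (1 - V z)) := by
    refine monotone_of_hasDerivAt_nonneg
      (f' := fun z => (k1 c W V I z * I z * (1 - V z) - I z * (-I z)) / (1 - V z) ^ 2)
      (fun z => (dI' h z).div ((h.dV z).const_sub 1) (hR z).ne') fun z => ?_
    refine div_nonneg ?_ (sq_nonneg _)
    have := mul_nonneg (h.I_pos z).le (key z)
    linarith
  have := hm hxy
  simp only at this
  rwa [div_le_div_iff₀ (hR x) (hR y)] at this

/-- continuous with nonnegative right derivative ⟹ monotone -/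
lemma monotone_of_right {Z Z' : ℝ → ℝ} (cZ : Continuous Z)
    (hZ : ∀ x, HasDerivWithinAt Z (Z' x) (Ici x) x) (h0 : ∀ x, 0 ≤ Z' x) : Monotone Z := by
  intro a b hab
  have := image_le_of_deriv_right_le_deriv_boundary (a := a) (b := b)
    (f := fun _ => Z a) (f' := fun _ => 0) (B := Z) (B' := Z') continuousOn_const
    (fun z _ => hasDerivWithinAt_const _ _ _) le_rfl cZ.continuousOn (fun z _ => hZ z)
    (fun z _ => h0 z) (x := b) ⟨hab, le_rfl⟩
  exact this

/-- **Upper level bound** from the one-point inequality (U). -/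
theorem level_upper (h : SPair c W V I k lam) (hJ : ∀ x, 0 ≤ Jc c W V I x) {d : ℝ} (hd : 0 ≤ d)
    {e E D D' Pm : ℝ → ℝ} (he : ∀ y, 0 ≤ e y)
    (hP : ∀ y, HasDerivAt Pm (V y / (1 + d * e y)) y) (hPb : Tendsto Pm atBot (𝓝 0))
    (cD : Continuous D) (hD : ∀ x, HasDerivWithinAt D (D' x) (Ici x) x) (D0 : ∀ x, 0 ≤ D x)
    (hmono : ∀ x, 0 ≤ I x + d * D' x)
    (hE : ∀ x y, x ≤ y → V y = V x + d * D x → e y ≤ E x)
    (hU : ∀ x, V x + d * D x < 1 →
      V x * (I x + k1 c W V I x * (d * D x)) * (1 + d * E x) ≤ (I x + d * D' x) * (V x + d * D x))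
    {x y : ℝ} (hxy : Pm y ≤ W x) : V y ≤ V x + d * D x := by
  have hg : ∀ y, 0 < 1 + d * e y := fun y => by nlinarith [mul_nonneg hd (he y)]
  have hPmono : Monotone Pm := monotone_of_hasDerivAt_nonneg hP fun z =>
    div_nonneg (h.V_pos z).le (hg z).le
  have hP0 : ∀ y, 0 ≤ Pm y := fun y => by
    refine le_of_tendsto hPb ?_
    filter_upwards [eventually_le_atBot y] with a ha
    exact hPmono ha
  have cZ : Continuous (fun x => V x + d * D x) := h.cV.add (continuous_const.mul cD)
  have hZ : ∀ x, HasDerivWithinAt (fun x => V x + d * D x) (I x + d * D' x) (Ici x) x := fun x =>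
    (h.dV x).hasDerivWithinAt.add ((hD x).const_mul d)
  refine (prof h).level_le (g := fun y => 1 + d * e y) (Z := fun x => V x + d * D x)
    (Z' := fun x => I x + d * D' x) hg hP hP0 cZ hZ
    (fun x => by nlinarith [h.V_pos x, mul_nonneg hd (D0 x)]) (monotone_of_right cZ hZ hmono) ?_ hxy
  intro x y hVy
  have hdD := mul_nonneg hd (D0 x)
  have hxy' : x ≤ y := by
    by_contra hcon
    push Not at hcon
    have := h.V_strictMono hcon
    linarith
  have h1 := hU x (by rw [← hVy]; exact h.V_lt y)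
  have h2 := tangent h hJ x y
  have h3 := hE x y hxy' hVy
  have h4 : I y ≤ I x + k1 c W V I x * (d * D x) := by
    rw [hVy] at h2
    linarith
  have h5 : d * e y ≤ d * E x := mul_le_mul_of_nonneg_left h3 hd
  rw [hVy]
  have h6 : V x * I y * (1 + d * e y) ≤ V x * (I x + k1 c W V I x * (d * D x)) * (1 + d * E x) := by
    have a1 : 0 < I y := h.I_pos y
    have a2 : 0 < V x := h.V_pos x
    have a3 := hg y
    apply mul_le_mul (mul_le_mul_of_nonneg_left h4 a2.le) (by linarith) a3.le
    exact mul_nonneg a2.le (a1.le.trans h4)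
  exact h6.trans h1

/-- **Lower level bound**; `L x` is any lower bound of `I y` at the level `V y = V x - d D x`. -/
theorem level_lower (h : SPair c W V I k lam) {d : ℝ} (hd : 0 ≤ d)
    {e E D D' L Pp : ℝ → ℝ} (he : ∀ y, d * e y < 1)
    (hP : ∀ y, HasDerivAt Pp (V y / (1 - d * e y)) y) (hPb : Tendsto Pp atBot (𝓝 0))
    (cD : Continuous D) (hD : ∀ x, HasDerivWithinAt D (D' x) (Ici x) x) (D0 : ∀ x, 0 ≤ D x)
    (hDV : ∀ x, d * D x < V x)
    (hE : ∀ x y, y ≤ x → V y = V x - d * D x → e y ≤ E x)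
    (hL : ∀ x y, y ≤ x → V y = V x - d * D x → L x ≤ I y) (hL0 : ∀ x, 0 ≤ L x)
    (hU : ∀ x, (I x - d * D' x) * (V x - d * D x) ≤ V x * L x * (1 - d * E x))
    {x y : ℝ} (hxy : W x ≤ Pp y) : V x - d * D x ≤ V y := by
  have hg : ∀ y, 0 < 1 - d * e y := fun y => by linarith [he y]
  have cZ : Continuous (fun x => V x - d * D x) := h.cV.sub (continuous_const.mul cD)
  have hZ : ∀ x, HasDerivWithinAt (fun x => V x - d * D x) (I x - d * D' x) (Ici x) x := fun x =>
    (h.dV x).hasDerivWithinAt.sub ((hD x).const_mul d)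
  refine (prof h).le_level (g := fun y => 1 - d * e y) (Z := fun x => V x - d * D x)
    (Z' := fun x => I x - d * D' x) hg hP hPb cZ hZ
    (fun x => by linarith [hDV x]) (fun x => by nlinarith [mul_nonneg hd (D0 x)]) ?_ hxy
  intro x y hVy
  have hyx : y ≤ x := by
    by_contra hcon
    push Not at hcon
    have := h.V_strictMono hcon
    nlinarith [mul_nonneg hd (D0 x)]
  have h1 := hU x
  have h2 := hL x y hyx hVy
  have h3 := mul_le_mul_of_nonneg_left (hE x y hyx hVy) hd
  rw [hVy]
  refine h1.trans ?_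
  have a2 : 0 < V x := h.V_pos x
  have a3 := hg y
  have a4 := hL0 x
  calc V x * L x * (1 - d * E x) ≤ V x * L x * (1 - d * e y) :=
        mul_le_mul_of_nonneg_left (by linarith) (mul_nonneg a2.le a4)
    _ ≤ V x * I y * (1 - d * e y) :=
        mul_le_mul_of_nonneg_right (mul_le_mul_of_nonneg_left h2 a2.le) a3.le

end pair

end Crest.Agent.R146.EqEta_889
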