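import Crest.Agent.R146.PP2_865

/-!
# Row 146, helper865: piecewise polynomial certificates, part 3: Taylor models

`TM` : a dyadic polynomial with an error radius; `TM.Mem t x v` : `|2^e v - ev c x| ≤ r`.
`Ex.evT dg pr v e` : value of the expression `e` on Taylor models; after every product the polynomial is
cut at `dg` coefficients and rounded to scale `2 ^ pr` (all errors go into the radius).

`checkT P n dg pr err e p ps a b = true` : the expression is positive at every `z ∈ [a/8, b/8]` for ALL values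
`w i` (`i ≤ m`) with `|w i - cv P p ps z i| ≤ err i / 2 ^ P` (`checkT_sound`);
`checkBoxT` : the same with parameter boxes (`Prm`, index `> m`, affine) as in `PP2_865`.
-/

set_option autoImplicit false

namespace Crest.Agent.R146.PP865

open Function

structure TM where
  c : Poly
  e : ℕ
  r : ℕ

namespace TM

/-- the Taylor model `t` contains the value `v` at the local coordinate `x` -/
def Mem (t : TM) (x v : ℝ) : Prop := |2 ^ t.e * v - ev t.c x| ≤ t.r

def add (p q : TM) : TM :=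
  if p.e ≤ q.e then ⟨padd (psmul (2 ^ (q.e - p.e)) p.c) q.c, q.e, 2 ^ (q.e - p.e) * p.r + q.r⟩
  else ⟨padd p.c (psmul (2 ^ (p.e - q.e)) q.c), p.e, p.r + 2 ^ (p.e - q.e) * q.r⟩

theorem add_mem {p q : TM} {x v w : ℝ} (hp : p.Mem x v) (hq : q.Mem x w) :
    (p.add q).Mem x (v + w) := by
  unfold add Mem at *
  split_ifs with h
  · obtain ⟨k, hk⟩ := Nat.exists_eq_add_of_le h
    simp only [ev_padd, ev_psmul, hk, Nat.add_sub_cancel_left]
    rw [hk] at hq
    push_cast
    have e1 : (2:ℝ) ^ (p.e + k) * (v + w) - (2 ^ k * ev p.c x + ev q.c x)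
        = 2 ^ k * (2 ^ p.e * v - ev p.c x) + (2 ^ (p.e + k) * w - ev q.c x) := by ring
    rw [e1]
    refine (abs_add_le _ _).trans (add_le_add ?_ hq)
    rw [abs_mul, abs_of_pos (show (0:ℝ) < 2 ^ k by positivity)]
    exact mul_le_mul_of_nonneg_left hp (by positivity)
  · obtain ⟨k, hk⟩ := Nat.exists_eq_add_of_le (le_of_not_ge h)
    simp only [ev_padd, ev_psmul, hk, Nat.add_sub_cancel_left]
    rw [hk] at hp
    push_cast
    have e1 : (2:ℝ) ^ (q.e + k) * (v + w) - (ev p.c x + 2 ^ k * ev q.c x)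
        = (2 ^ (q.e + k) * v - ev p.c x) + 2 ^ k * (2 ^ q.e * w - ev q.c x) := by ring
    rw [e1]
    refine (abs_add_le _ _).trans (add_le_add hp ?_)
    rw [abs_mul, abs_of_pos (show (0:ℝ) < 2 ^ k by positivity)]
    exact mul_le_mul_of_nonneg_left hq (by positivity)

def neg (p : TM) : TM := ⟨psmul (-1) p.c, p.e, p.r⟩

theorem neg_mem {p : TM} {x v : ℝ} (hp : p.Mem x v) : p.neg.Mem x (-v) := by
  unfold neg Mem at *
  simp only [ev_psmul]
  push_cast
  have e1 : (2:ℝ) ^ p.e * -v - -1 * ev p.c x = -(2 ^ p.e * v - ev p.c x) := by ring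
  rw [e1, abs_neg]
  exact hp

def nsumAbs : Poly → ℕ
  | [] => 0
  | c :: cs => c.natAbs + nsumAbs cs

theorem nsumAbs_eq (l : Poly) : ((nsumAbs l : ℕ) : ℤ) = sumAbs l := by
  induction l with
  | nil => rfl
  | cons c cs ih => simp only [nsumAbs, sumAbs]; push_cast; rw [ih]

theorem abs_ev_le' (l : Poly) {x : ℝ} (hx : |x| ≤ 1) : |ev l x| ≤ (nsumAbs l : ℝ) := by
  have h := abs_ev_le l hx
  have e1 : ((nsumAbs l : ℕ) : ℝ) = (sumAbs l : ℝ) := by exact_mod_cast nsumAbs_eq l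
  rw [e1]
  exact h

def mul (p q : TM) : TM :=
  ⟨pmul p.c q.c, p.e + q.e, nsumAbs p.c * q.r + nsumAbs q.c * p.r + p.r * q.r⟩

theorem mul_mem {p q : TM} {x v w : ℝ} (hx : |x| ≤ 1) (hp : p.Mem x v) (hq : q.Mem x w) :
    (p.mul q).Mem x (v * w) := by
  unfold mul Mem at *
  simp only [ev_pmul]
  push_cast
  set a := (2:ℝ) ^ p.e * v - ev p.c x with ha
  set b := (2:ℝ) ^ q.e * w - ev q.c x with hb
  have e1 : (2:ℝ) ^ (p.e + q.e) * (v * w) - ev p.c x * ev q.c x
      = ev p.c x * b + ev q.c x * a + a * b := by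
    rw [ha, hb, pow_add]; ring
  rw [e1]
  have h1 := abs_ev_le' p.c hx
  have h2 := abs_ev_le' q.c hx
  refine (abs_add_le _ _).trans (add_le_add ((abs_add_le _ _).trans (add_le_add ?_ ?_)) ?_)
  · rw [abs_mul]; exact mul_le_mul h1 hq (abs_nonneg _) (by positivity)
  · rw [abs_mul]; exact mul_le_mul h2 hp (abs_nonneg _) (by positivity)
  · rw [abs_mul]; exact mul_le_mul hp hq (abs_nonneg _) (by positivity)

/-- cut the polynomial after `n` coefficients -/
def cutP : ℕ → Poly → Poly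
  | _, [] => []
  | 0, _ => []
  | n + 1, c :: cs => c :: cutP n cs

def cutR : ℕ → Poly → ℕ
  | _, [] => 0
  | 0, l => nsumAbs l
  | n + 1, _ :: cs => cutR n cs

theorem cut_bound : ∀ (n : ℕ) (l : Poly) {x : ℝ}, |x| ≤ 1 →
    |ev l x - ev (cutP n l) x| ≤ (cutR n l : ℝ)
  | _, [], x, _ => by cases ‹ℕ› <;> simp [cutP, cutR]
  | 0, c :: cs, x, hx => by
    simp only [cutP, cutR, ev_nil, sub_zero]
    exact abs_ev_le' (c :: cs) hx
  | n + 1, c :: cs, x, hx => by
    have ih := cut_bound n cs hx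
    simp only [cutP, cutR, ev_cons]
    have e1 : (c:ℝ) + x * ev cs x - (c + x * ev (cutP n cs) x)
        = x * (ev cs x - ev (cutP n cs) x) := by ring
    rw [e1, abs_mul]
    calc |x| * |ev cs x - ev (cutP n cs) x| ≤ 1 * (cutR n cs : ℝ) :=
          mul_le_mul hx ih (abs_nonneg _) zero_le_one
      _ = _ := one_mul _

/-- divide all coefficients by `m` (rounding down) -/
def divP (m : ℤ) : Poly → Poly
  | [] => []
  | c :: cs => (c / m) :: divP m cs

/-- sum of the remainders -/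
def remP (m : ℤ) : Poly → ℤ
  | [] => 0
  | c :: cs => (c % m) + remP m cs

theorem remP_nonneg {m : ℤ} (hm : 0 < m) (l : Poly) : 0 ≤ remP m l := by
  induction l with
  | nil => simp [remP]
  | cons c cs ih => simp only [remP]; have := Int.emod_nonneg c hm.ne'; omega

theorem div_bound {m : ℤ} (hm : 0 < m) (l : Poly) {x : ℝ} (hx : |x| ≤ 1) :
    |ev l x - m * ev (divP m l) x| ≤ (remP m l : ℝ) := by
  induction l with
  | nil => simp [divP, remP]
  | cons c cs ih =>
    simp only [divP, remP, ev_cons]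
    have h1 : (c : ℝ) = m * ((c / m : ℤ) : ℝ) + ((c % m : ℤ) : ℝ) := by
      have := Int.mul_ediv_add_emod c m
      exact_mod_cast this.symm
    have e1 : (c:ℝ) + x * ev cs x - m * (((c / m : ℤ) : ℝ) + x * ev (divP m cs) x)
        = ((c % m : ℤ) : ℝ) + x * (ev cs x - m * ev (divP m cs) x) := by
      rw [h1]
      ring
    rw [e1]
    push_cast
    refine (abs_add_le _ _).trans (add_le_add ?_ ?_)
    · have := Int.emod_nonneg c hm.ne'
      rw [abs_of_nonneg (by exact_mod_cast this)]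
    · rw [abs_mul]
      calc |x| * |ev cs x - m * ev (divP m cs) x| ≤ 1 * (remP m cs : ℝ) :=
            mul_le_mul hx ih (abs_nonneg _) zero_le_one
        _ = _ := one_mul _

/-- normalise: at most `dg` coefficients and scale at most `2 ^ pr` -/
def norm (dg pr : ℕ) (p : TM) : TM :=
  let c1 := cutP dg p.c
  let r1 := p.r + cutR dg p.c
  if p.e ≤ pr then ⟨c1, p.e, r1⟩
  else ⟨divP (2 ^ (p.e - pr)) c1, pr, (r1 + (remP (2 ^ (p.e - pr)) c1).toNat) / 2 ^ (p.e - pr) + 1⟩

theorem norm_mem {dg pr : ℕ} {p : TM} {x v : ℝ} (hx : |x| ≤ 1) (hp : p.Mem x v) :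
    (norm dg pr p).Mem x v := by
  unfold Mem at hp
  have h1 := cut_bound dg p.c hx
  have h2 : |2 ^ p.e * v - ev (cutP dg p.c) x| ≤ ((p.r + cutR dg p.c : ℕ) : ℝ) := by
    have e1 : 2 ^ p.e * v - ev (cutP dg p.c) x
        = (2 ^ p.e * v - ev p.c x) + (ev p.c x - ev (cutP dg p.c) x) := by ring
    rw [e1]
    push_cast
    exact (abs_add_le _ _).trans (add_le_add hp h1)
  unfold norm
  split_ifs with h
  · exact h2
  · obtain ⟨k, hk⟩ := Nat.exists_eq_add_of_le (le_of_not_ge h)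
    unfold Mem
    simp only [hk, Nat.add_sub_cancel_left]
    rw [hk] at h2
    have hm : (0:ℤ) < 2 ^ k := by positivity
    have h3 := div_bound hm (cutP dg p.c) hx
    set c1 := cutP dg p.c
    set r1 := p.r + cutR dg p.c
    have hrem := remP_nonneg hm c1
    have h4 : |2 ^ (pr + k) * v - 2 ^ k * ev (divP (2 ^ k) c1) x|
        ≤ ((r1 + (remP (2 ^ k) c1).toNat : ℕ) : ℝ) := by
      have e1 : 2 ^ (pr + k) * v - 2 ^ k * ev (divP (2 ^ k) c1) x
          = (2 ^ (pr + k) * v - ev c1 x) + (ev c1 x - 2 ^ k * ev (divP (2 ^ k) c1) x) := by ring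
      rw [e1]
      have h5 : ((remP (2 ^ k) c1).toNat : ℝ) = (remP (2 ^ k) c1 : ℝ) := by
        exact_mod_cast Int.toNat_of_nonneg hrem
      push_cast at h3 ⊢
      rw [h5]
      exact (abs_add_le _ _).trans (add_le_add h2 h3)
    have hk0 : (0:ℝ) < 2 ^ k := by positivity
    have e2 : 2 ^ (pr + k) * v - 2 ^ k * ev (divP (2 ^ k) c1) x
        = 2 ^ k * (2 ^ pr * v - ev (divP (2 ^ k) c1) x) := by rw [pow_add]; ring
    rw [e2, abs_mul, abs_of_pos hk0] at h4
    set N := r1 + (remP (2 ^ k) c1).toNat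
    have h6 : (N : ℝ) < 2 ^ k * ((N / 2 ^ k + 1 : ℕ) : ℝ) := by
      have := Nat.lt_mul_div_succ N (show 0 < 2 ^ k by positivity)
      exact_mod_cast this
    have h7 : 2 ^ k * |2 ^ pr * v - ev (divP (2 ^ k) c1) x| < 2 ^ k * ((N / 2 ^ k + 1 : ℕ) : ℝ) :=
      lt_of_le_of_lt h4 h6
    exact (lt_of_mul_lt_mul_left h7 hk0.le).le

/-- the test: positive on the whole piece -/
def posT (n : ℕ) (t : TM) : Bool :=
  pos n (padd t.c [-(t.r : ℤ)])

theorem posT_sound {n : ℕ} {t : TM} {x v : ℝ} (hx : |x| ≤ 1) (ht : t.Mem x v)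
    (h : posT n t = true) : 0 < v := by
  have h1 := pos_sound h hx
  rw [ev_padd] at h1
  simp only [ev_cons, ev_nil, mul_zero, add_zero] at h1
  push_cast at h1
  unfold Mem at ht
  have h2 := (abs_le.1 ht).1
  have h3 : 0 < 2 ^ t.e * v := by linarith
  exact pos_of_mul_pos_right h3 (by positivity)

end TM

namespace Ex

/-- value of an expression on Taylor models -/
def evT (dg pr : ℕ) (v : ℕ → TM) : Ex → TM
  | cst n e => ⟨[n], e, 0⟩
  | var i => v i
  | add a b => (a.evT dg pr v).add (b.evT dg pr v)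
  | mul a b => TM.norm dg pr ((a.evT dg pr v).mul (b.evT dg pr v))
  | neg a => (a.evT dg pr v).neg

theorem evT_mem {dg pr m : ℕ} {v : ℕ → TM} {x : ℝ} (hx : |x| ≤ 1) {w : ℕ → ℝ}
    (hv : ∀ i ≤ m, (v i).Mem x (w i)) {e : Ex} (he : e.bnd m = true) :
    (e.evT dg pr v).Mem x (e.evR w) := by
  induction e with
  | cst n e =>
    show |2 ^ e * ((n : ℝ) / 2 ^ e) - ev [n] x| ≤ ((0 : ℕ) : ℝ)
    have : (2:ℝ) ^ e ≠ 0 := by positivity
    have e1 : (2:ℝ) ^ e * ((n : ℝ) / 2 ^ e) - ev [n] x = 0 := by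
      simp only [ev_cons, ev_nil, mul_zero, add_zero]
      field_simp
      ring
    rw [e1]; simp
  | var i => exact hv i (by simpa [Ex.bnd] using he)
  | add a b iha ihb =>
    simp only [Ex.bnd, Bool.and_eq_true] at he
    exact TM.add_mem (iha he.1) (ihb he.2)
  | mul a b iha ihb =>
    simp only [Ex.bnd, Bool.and_eq_true] at he
    exact TM.norm_mem hx (TM.mul_mem hx (iha he.1) (ihb he.2))
  | neg a iha =>
    simp only [Ex.bnd] at he
    exact TM.neg_mem (iha he)

end Ex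

/-- the Taylor models of the certificate variables on a piece, with error radii `err i / 2 ^ P`
(`err 0` is not used: the coordinate is exact) -/
def Pc.envT (P : ℕ) (err : ℕ → ℕ) (p : Pc) (i : ℕ) : TM :=
  match i with
  | 0 => ⟨[p.c, 1], p.j, 0⟩
  | i + 1 =>
    let l := p.f.getD (i / 3) []
    match i % 3 with
    | 0 => ⟨l, P, err (i + 1)⟩
    | 1 => ⟨psmul (2 ^ p.j) (pder l), P, err (i + 1)⟩
    | _ => ⟨psmul (2 ^ (2 * p.j)) (pder (pder l)), P, err (i + 1)⟩

theorem Pc.envT_mem {P : ℕ} {err : ℕ → ℕ} {p : Pc} {z w : ℝ} {i : ℕ}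
    (h0 : i = 0 → w = z)
    (hw : |w - val (fun k => p.v0 P k) (fun k => p.v1 P k) (fun k => p.v2 P k) i z|
      ≤ (err i : ℝ) / 2 ^ P) : (p.envT P err i).Mem (p.loc z) w := by
  have hP : (0:ℝ) < 2 ^ P := by positivity
  have key : ∀ (l : Poly) (a : ℝ), |w - ev l (p.loc z) / 2 ^ P| ≤ a / 2 ^ P →
      |2 ^ P * w - ev l (p.loc z)| ≤ a := by
    intro l a h
    have e1 : 2 ^ P * w - ev l (p.loc z) = 2 ^ P * (w - ev l (p.loc z) / 2 ^ P) := by
      field_simp
    rw [e1, abs_mul, abs_of_pos hP]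
    calc 2 ^ P * |w - ev l (p.loc z) / 2 ^ P| ≤ 2 ^ P * (a / 2 ^ P) :=
          mul_le_mul_of_nonneg_left h hP.le
      _ = a := by field_simp
  unfold Pc.envT TM.Mem
  unfold val at hw
  cases i with
  | zero =>
    rw [h0 rfl]
    simp only [ev_cons, ev_nil, Pc.loc, mul_zero, add_zero]
    have e1 : (2:ℝ) ^ p.j * z - ((p.c : ℝ) + (2 ^ p.j * z - p.c) * ((1 : ℤ) : ℝ)) = 0 := by
      push_cast; ring
    rw [e1]; simp
  | succ i =>
    have h3 : i % 3 = 0 ∨ i % 3 = 1 ∨ i % 3 = 2 := by omega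
    rcases h3 with h3 | h3 | h3
    · simp only [h3] at hw ⊢
      exact key _ _ hw
    · simp only [h3] at hw ⊢
      refine key _ _ ?_
      have e1 : ev (psmul (2 ^ p.j) (pder (p.f.getD (i / 3) []))) (p.loc z) / 2 ^ P
          = p.v1 P (i / 3) z := by
        rw [ev_psmul, Pc.v1]; push_cast; rfl
      rw [e1]; exact hw
    · simp only [h3] at hw ⊢
      refine key _ _ ?_
      have e1 : ev (psmul (2 ^ (2 * p.j)) (pder (pder (p.f.getD (i / 3) [])))) (p.loc z) / 2 ^ P
          = p.v2 P (i / 3) z := by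
        rw [ev_psmul, Pc.v2]; push_cast; rfl
      rw [e1]; exact hw

/-- does the piece meet `[a / 8, b / 8]`? -/
def Pc.meets (a b : ℤ) (q : Pc) : Bool :=
  decide (a * 2 ^ q.j ≤ 8 * (q.c + 1)) && decide (8 * (q.c - 1) ≤ b * 2 ^ q.j)

theorem Pc.meets_of {a b : ℤ} {q : Pc} {z : ℝ} (h1 : q.lo ≤ z) (h2 : z ≤ q.hi)
    (ha : (a : ℝ) / 8 ≤ z) (hb : z ≤ (b : ℝ) / 8) : q.meets a b = true := by
  have hj : (0:ℝ) < 2 ^ q.j := by positivity
  unfold Pc.lo at h1
  unfold Pc.hi at h2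
  rw [div_le_iff₀ hj] at h1
  rw [le_div_iff₀ hj] at h2
  simp only [Pc.meets, Bool.and_eq_true, decide_eq_true_eq]
  constructor
  · have h3 : (a : ℝ) * 2 ^ q.j ≤ 8 * ((q.c : ℝ) + 1) := by nlinarith
    exact_mod_cast h3
  · have h3 : 8 * ((q.c : ℝ) - 1) ≤ (b : ℝ) * 2 ^ q.j := by nlinarith
    exact_mod_cast h3

/-- the test on all pieces meeting `[a / 8, b / 8]` -/
def checkT (P n dg pr : ℕ) (err : ℕ → ℕ) (a b : ℤ) (e : Ex) (p : Pc) (ps : List Pc) : Bool :=
  (p :: ps).all fun q => !(q.meets a b) || TM.posT n (e.evT dg pr (q.envT P err))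

theorem pieceT_sound {P n dg pr m : ℕ} {err : ℕ → ℕ} {a b : ℤ} {e : Ex} {q : Pc}
    (he : e.bnd m = true)
    (h : (!(q.meets a b) || TM.posT n (e.evT dg pr (q.envT P err))) = true) {z : ℝ}
    (h1 : q.lo ≤ z) (h2 : z ≤ q.hi) (ha : (a : ℝ) / 8 ≤ z) (hb : z ≤ (b : ℝ) / 8) {w : ℕ → ℝ}
    (hw0 : w 0 = z)
    (hw : ∀ i ≤ m, |w i - val (fun k => q.v0 P k) (fun k => q.v1 P k) (fun k => q.v2 P k) i z|
      ≤ (err i : ℝ) / 2 ^ P) : 0 < e.evR w := by
  rw [Pc.meets_of h1 h2 ha hb] at h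
  simp only [Bool.not_true, Bool.false_or] at h
  refine TM.posT_sound (Pc.abs_loc_le h1 h2) (Ex.evT_mem (Pc.abs_loc_le h1 h2) ?_ he) h
  intro i hi
  exact Pc.envT_mem (fun hi0 => by rw [hi0, hw0]) (hw i hi)

theorem checkT_sound {P n dg pr m : ℕ} {err : ℕ → ℕ} {a b : ℤ} {e : Ex} (he : e.bnd m = true) :
    ∀ {p : Pc} {ps : List Pc}, chain adj p ps = true →
    checkT P n dg pr err a b e p ps = true → ∀ z, p.lo ≤ z → z ≤ hiL p ps →
    (a : ℝ) / 8 ≤ z → z ≤ (b : ℝ) / 8 → ∀ w : ℕ → ℝ, w 0 = z →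
    (∀ i ≤ m, |w i - cv P p ps z i| ≤ (err i : ℝ) / 2 ^ P) → 0 < e.evR w
  | p, [], _, h, z, h1, h2, ha, hb, w, hw0, hw => by
    simp only [checkT, List.all_cons, List.all_nil, Bool.and_true] at h
    exact pieceT_sound he h h1 h2 ha hb hw0 hw
  | p, q :: ps, hch, h, z, h1, h2, ha, hb, w, hw0, hw => by
    by_cases hz : z ≤ p.hi
    · simp only [checkT, List.all_cons, Bool.and_eq_true] at h
      refine pieceT_sound he h.1 h1 hz ha hb hw0 ?_
      intro i hi
      have := hw i hi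
      unfold cv at this
      rwa [val_sel P p (q :: ps) z hz] at this
    · simp only [chain, Bool.and_eq_true] at hch
      have h' : checkT P n dg pr err a b e q ps = true := by
        simp only [checkT, List.all_cons, Bool.and_eq_true] at h ⊢
        exact h.2
      have hq : q.lo ≤ z := by
        rw [← adj_sound hch.1]
        exact (not_le.1 hz).le
      refine checkT_sound he hch.2 h' z hq h2 ha hb w hw0 ?_
      have e2 : ∀ i, cv P p (q :: ps) z i = cv P q ps z i := by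
        intro i
        have hs : ∀ g, sel g p (q :: ps) z = sel g q ps z := fun g => by simp [sel, hz]
        unfold cv val
        split
        · rfl
        · split <;> exact hs _
      intro i hi
      rw [← e2]
      exact hw i hi

/-- Taylor model test with parameter boxes -/
def checkBoxT (P n dg pr m : ℕ) (err : ℕ → ℕ) (a b : ℤ) (ps : List Prm) (e : Ex) (p : Pc)
    (pcs : List Pc) : Bool :=
  okdeg ps e && (verts ps e).all fun e' => e'.bnd m && checkT P n dg pr err a b e' p pcs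

theorem checkBoxT_sound {P n dg pr m : ℕ} {err : ℕ → ℕ} {a b : ℤ} {ps : List Prm} {e : Ex} {p : Pc}
    {pcs : List Pc} (hch : chain adj p pcs = true)
    (h : checkBoxT P n dg pr m err a b ps e p pcs = true) {z : ℝ}
    (h1 : p.lo ≤ z) (h2 : z ≤ hiL p pcs) (ha : (a : ℝ) / 8 ≤ z) (hb : z ≤ (b : ℝ) / 8)
    {w : ℕ → ℝ} (hw0 : w 0 = z)
    (hw : ∀ i ≤ m, |w i - cv P p pcs z i| ≤ (err i : ℝ) / 2 ^ P)
    (hbox : ∀ q ∈ ps, q.2.1.evR w ≤ w q.1 ∧ w q.1 ≤ q.2.2.evR w) : 0 < e.evR w := by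
  simp only [checkBoxT, Bool.and_eq_true, List.all_eq_true] at h
  refine verts_sound h.1 hbox fun e' he' => ?_
  have k := h.2 e' he'
  exact checkT_sound k.1 hch k.2 z h1 h2 ha hb w hw0 hw

end Crest.Agent.R146.PP865
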