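import Crest.Agent.R146.Tail_34
import Crest.Agent.R146.RefX_355

/-!
# Row 146, helper34: tails of `q`, `k1`, `s`, `J` of the stationary pair (`|ξ| ≥ 3`)

`c ∈ [.4157, .4158]` (the closed pair).  Inputs (crude numbers, from the enclosure): bounds of `V, W` at `-3`
and of `R, U` at `3`; they are propagated into the tails by `V t³`, `W t³` (resp. `R x³`, `U x³`) monotone.
-/

set_option autoImplicit false

namespace Crest.Agent.R146.Tail2_34

open Set Filter Topology SPair_307 RefX_355 Tail_34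

variable {c : ℝ} {W V I k : ℝ → ℝ} {lam : ℝ}

/-- admissible range of `c` -/
structure CR (c : ℝ) : Prop where
  lo : 4157 / 10000 ≤ c
  hi : c ≤ 4158 / 10000

/-- numeric inputs at `±3` -/
structure In3 (W V : ℝ → ℝ) : Prop where
  V3 : V (-3) ≤ 1 / 200
  W3 : W (-3) ≤ 1 / 400
  R3 : 1 - V 3 ≤ 1 / 2000
  U3 : W 3 - 3 ≤ 1 / 5000

/-! ### explicit ratio bounds -/

lemma z_up (h : SPair c W V I k lam) (hc : CR c) :
    ∀ x ≤ -3, W x * ((1 - c) * x ^ 2 + 199 / 100) ≤ (-x) * V x :=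
  W_le_left h (by norm_num) (by norm_num) (by nlinarith [hc.lo, hc.hi, mul_nonneg (sub_nonneg.2 hc.lo) (sub_nonneg.2 hc.hi)])

lemma z_lo (h : SPair c W V I k lam) (hc : CR c) :
    ∀ x ≤ 0, (-x) * V x ≤ W x * ((1 - c) * x ^ 2 + 137 / 40) :=
  le_W_left h (by nlinarith [hc.lo, hc.hi])

lemma y_up (h : SPair c W V I k lam) (hc : CR c) :
    ∀ x, 3 ≤ x → (W x - x) * ((1 + c) * x ^ 2 + 119 / 100) ≤ x * (1 - V x) :=
  U_le_right h (by norm_num) (by norm_num) (by nlinarith [hc.lo, hc.hi])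

lemma y_up2 (h : SPair c W V I k lam) (hc : CR c) :
    ∀ x, 2 ≤ x → (W x - x) * ((1 + c) * x ^ 2 + 1) ≤ x * (1 - V x) :=
  U_le_right h (by norm_num) (by norm_num) (by nlinarith [hc.lo, hc.hi])

lemma y_lo (h : SPair c W V I k lam) (hc : CR c) :
    ∀ x, 0 < x → x * (1 - V x) ≤ (W x - x) * ((1 + c) * x ^ 2 + 163 / 100) :=
  le_U_right h (by nlinarith [hc.lo, hc.hi, mul_nonneg (sub_nonneg.2 hc.lo) (sub_nonneg.2 hc.hi)])

/-! ### decay -/

lemma Wt3 (h : SPair c W V I k lam) (hc : CR c) :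
    ∀ x ≤ -3, W x * (-x) ^ 3 ≤ W (-3) * 27 := by
  have hmono : MonotoneOn (fun x => W x * (-x) ^ 3) (Iic (-3)) := by
    apply monotoneOn_of_deriv_nonneg (convex_Iic _)
    · exact (h.cW.mul (continuous_neg.pow 3)).continuousOn
    · intro x hx
      exact ((h.dW x).mul ((hasDerivAt_neg x).pow 3)).differentiableAt.differentiableWithinAt
    · intro x hx
      rw [interior_Iic] at hx
      have hx' : x < -3 := hx
      have e : HasDerivAt (fun x => W x * (-x) ^ 3)
          (V x * (-x) ^ 3 + W x * (3 * (-x) ^ 2 * (-1))) x := by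
        refine ((h.dW x).mul ((hasDerivAt_neg x).pow 3)).congr_deriv ?_
        simp only [Pi.pow_apply]
        push_cast
        ring
      rw [e.deriv]
      have h1 := z_up h hc x hx'.le
      have h2 := h.W_pos x
      have hp : (0:ℝ) < (-x) ^ 2 := by have : 0 < -x := by linarith
                                       positivity
      have e2 : V x * (-x) ^ 3 + W x * (3 * (-x) ^ 2 * (-1))
          = (-x) ^ 2 * ((-x) * V x - 3 * W x) := by ring
      rw [e2]
      apply mul_nonneg hp.le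
      have h3 : 3 ≤ (1 - c) * x ^ 2 + 199 / 100 := by nlinarith [hc.hi]
      nlinarith
  intro x hx
  have := hmono (show x ∈ Iic (-3) from hx) (show (-3:ℝ) ∈ Iic (-3:ℝ) from mem_Iic.2 le_rfl) hx
  norm_num at this
  linarith

lemma two_A_left (c : ℝ) (W : ℝ → ℝ) (x : ℝ) :
    -2 * Ad c W x = (1 - c) * (-x) - 2 * c * W x := by unfold Ad; ring

lemma I_left (h : SPair c W V I k lam) (x : ℝ) :
    I x = (1 + c) * W x + ((1 - c) * (-x) - 2 * c * W x) * V x := by
  rw [h.eqI x]; unfold Ad; ring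

lemma Vt3 (h : SPair c W V I k lam) (hc : CR c) :
    ∀ x ≤ -3, V x * (-x) ^ 3 ≤ V (-3) * 27 := by
  have hmono : MonotoneOn (fun x => V x * (-x) ^ 3) (Iic (-3)) := by
    apply monotoneOn_of_deriv_nonneg (convex_Iic _)
    · exact (h.cV.mul (continuous_neg.pow 3)).continuousOn
    · intro x hx
      exact ((h.dV x).mul ((hasDerivAt_neg x).pow 3)).differentiableAt.differentiableWithinAt
    · intro x hx
      rw [interior_Iic] at hx
      have hx' : x < -3 := hx
      have e : HasDerivAt (fun x => V x * (-x) ^ 3)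
          (I x * (-x) ^ 3 + V x * (3 * (-x) ^ 2 * (-1))) x := by
        refine ((h.dV x).mul ((hasDerivAt_neg x).pow 3)).congr_deriv ?_
        simp only [Pi.pow_apply]
        push_cast
        ring
      rw [e.deriv]
      have h2 := h.W_pos x
      have h2' := h.V_pos x
      have h4 := W_left h (x := x) (by linarith)
      have hp : (0:ℝ) < (-x) ^ 2 := by have : 0 < -x := by linarith
                                       positivity
      have e2 : I x * (-x) ^ 3 + V x * (3 * (-x) ^ 2 * (-1))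
          = (-x) ^ 2 * ((-x) * I x - 3 * V x) := by ring
      rw [e2]
      apply mul_nonneg hp.le
      rw [I_left h x]
      have h3 : 3 ≤ (-x) * ((1 - c) * (-x) - 2 * c * W x) := by
        have : (-x) * ((1 - c) * (-x) - 2 * c * W x)
            = (1 - c) * x ^ 2 - c / 2 * (W x * (4 * -x)) := by ring
        rw [this]
        nlinarith [hc.lo, hc.hi]
      have h5 : 0 ≤ (-x) * ((1 + c) * W x) := by
        have := hc.lo
        have : 0 ≤ -x := by linarith
        positivity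
      nlinarith
  intro x hx
  have := hmono (show x ∈ Iic (-3) from hx) (show (-3:ℝ) ∈ Iic (-3:ℝ) from mem_Iic.2 le_rfl) hx
  norm_num at this
  linarith

lemma Ut3 (h : SPair c W V I k lam) (hc : CR c) :
    ∀ x, 3 ≤ x → (W x - x) * x ^ 3 ≤ (W 3 - 3) * 27 := by
  have hanti : AntitoneOn (fun x => (W x - x) * x ^ 3) (Ici 3) := by
    apply antitoneOn_of_deriv_nonpos (convex_Ici _)
    · exact ((h.cW.sub continuous_id).mul (continuous_id.pow 3)).continuousOn
    · intro x hx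
      exact (((h.dW x).sub (hasDerivAt_id x)).mul
        ((hasDerivAt_id x).pow 3)).differentiableAt.differentiableWithinAt
    · intro x hx
      rw [interior_Ici] at hx
      have hx' : 3 < x := hx
      have e : HasDerivAt (fun x => (W x - x) * x ^ 3)
          ((V x - 1) * x ^ 3 + (W x - x) * (3 * x ^ 2)) x := by
        refine (((h.dW x).sub (hasDerivAt_id x)).mul ((hasDerivAt_id x).pow 3)).congr_deriv ?_
        simp
      rw [e.deriv]
      have h1 := y_up h hc x hx'.le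
      have h2 := h.U_pos x
      have hp : (0:ℝ) < x ^ 2 := by positivity
      have e2 : (V x - 1) * x ^ 3 + (W x - x) * (3 * x ^ 2)
          = x ^ 2 * (3 * (W x - x) - x * (1 - V x)) := by ring
      rw [e2]
      apply mul_nonpos_of_nonneg_of_nonpos hp.le
      have h3 : 3 ≤ (1 + c) * x ^ 2 + 119 / 100 := by nlinarith [hc.lo]
      nlinarith
  intro x hx
  have := hanti (show (3:ℝ) ∈ Ici (3:ℝ) from mem_Ici.2 le_rfl) (show x ∈ Ici 3 from hx) hx
  norm_num at this
  linarith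

lemma Rt3 (h : SPair c W V I k lam) (hc : CR c) :
    ∀ x, 3 ≤ x → (1 - V x) * x ^ 3 ≤ (1 - V 3) * 27 := by
  have hanti : AntitoneOn (fun x => (1 - V x) * x ^ 3) (Ici 3) := by
    apply antitoneOn_of_deriv_nonpos (convex_Ici _)
    · exact ((continuous_const.sub h.cV).mul (continuous_id.pow 3)).continuousOn
    · intro x hx
      exact (((hasDerivAt_const x (1:ℝ)).sub (h.dV x)).mul
        ((hasDerivAt_id x).pow 3)).differentiableAt.differentiableWithinAt
    · intro x hx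
      rw [interior_Ici] at hx
      have hx' : 3 < x := hx
      have e : HasDerivAt (fun x => (1 - V x) * x ^ 3)
          (-I x * x ^ 3 + (1 - V x) * (3 * x ^ 2)) x := by
        refine (((hasDerivAt_const x (1:ℝ)).sub (h.dV x)).mul
          ((hasDerivAt_id x).pow 3)).congr_deriv ?_
        simp
      rw [e.deriv]
      have h2 := h.U_pos x
      have h2' := h.V_lt x
      have hp : (0:ℝ) < x ^ 2 := by positivity
      have e2 : -I x * x ^ 3 + (1 - V x) * (3 * x ^ 2)
          = x ^ 2 * (3 * (1 - V x) - x * I x) := by ring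
      rw [e2]
      apply mul_nonpos_of_nonneg_of_nonpos hp.le
      rw [eqI' h x]
      have h3 : 3 ≤ x * (2 * Ad c W x) := by
        have : x * (2 * Ad c W x) = (1 + c) * x ^ 2 + 2 * c * x * (W x - x) := by unfold Ad; ring
        rw [this]
        have : 0 ≤ 2 * c * x * (W x - x) := by
          have := hc.lo
          have h7 : 0 < W x - x := by linarith
          positivity
        nlinarith [hc.lo]
      have h5 : 0 ≤ x * ((1 - c) * (W x - x)) := by
        have h6 : 0 < 1 - c := by linarith [hc.hi]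
        have h7 : 0 < W x - x := by linarith
        positivity
      nlinarith
  intro x hx
  have := hanti (show (3:ℝ) ∈ Ici (3:ℝ) from mem_Ici.2 le_rfl) (show x ∈ Ici 3 from hx) hx
  norm_num at this
  linarith

/-- smallness on the left: `V ≤ 1/200`, `W t ≤ 3/400`, `V t² ≤ 9/200`, ... -/
lemma small_left (h : SPair c W V I k lam) (hc : CR c) (h3 : In3 W V) {x : ℝ} (hx : x ≤ -3) :
    V x ≤ 1 / 200 ∧ W x ≤ 1 / 400 ∧ W x * (-x) ≤ 3 / 400 ∧ V x * (-x) ≤ 3 / 200 ∧
      V x * x ^ 2 ≤ 9 / 200 ∧ W x * x ^ 2 ≤ 9 / 400 := by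
  have h1 := Vt3 h hc x hx
  have h2 := Wt3 h hc x hx
  have hV := h.V_pos x
  have hW := h.W_pos x
  have hV3 := h3.V3
  have hW3 := h3.W3
  have ht : 3 ≤ -x := by linarith
  set t := -x with htdef
  have e : x ^ 2 = t ^ 2 := by rw [htdef]; ring
  rw [e]
  have m1 : V x ≤ 1 / 200 := (h.V_strictMono.monotone hx).trans hV3
  have m2 : W x ≤ 1 / 400 := (h.W_strictMono.monotone hx).trans hW3
  have q1 : V x * t ^ 2 ≤ 9 / 200 := by
    have : V x * t ^ 2 * 3 ≤ V x * t ^ 3 := by nlinarith [mul_pos hV (pow_pos (show 0 < t by linarith) 2)]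
    linarith
  have q2 : W x * t ^ 2 ≤ 9 / 400 := by
    have : W x * t ^ 2 * 3 ≤ W x * t ^ 3 := by nlinarith [mul_pos hW (pow_pos (show 0 < t by linarith) 2)]
    linarith
  refine ⟨m1, m2, ?_, ?_, q1, q2⟩
  · have : W x * t * 3 ≤ W x * t ^ 2 := by nlinarith [mul_pos hW (show 0 < t by linarith)]
    linarith
  · have : V x * t * 3 ≤ V x * t ^ 2 := by nlinarith [mul_pos hV (show 0 < t by linarith)]
    linarith

/-! ### `p = I/V`, `q = R/p`, `s` on the left -/

/-- the drift `a = -2A` on the left -/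
noncomputable def al (c : ℝ) (W : ℝ → ℝ) (x : ℝ) : ℝ := (1 - c) * (-x) - 2 * c * W x

/-- `p = I / V` -/
noncomputable def px (V I : ℝ → ℝ) (x : ℝ) : ℝ := I x / V x

lemma I_eq_p (h : SPair c W V I k lam) (x : ℝ) : I x = px V I x * V x := by
  unfold px
  have := (h.V_pos x).ne'
  field_simp

lemma p_eq (h : SPair c W V I k lam) (x : ℝ) :
    px V I x = (1 + c) * (W x / V x) + al c W x := by
  unfold px al
  rw [I_left h x]
  have := (h.V_pos x).ne'
  field_simp

lemma p_pos (h : SPair c W V I k lam) (x : ℝ) : 0 < px V I x :=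
  div_pos (h.I_pos x) (h.V_pos x)

lemma q_eq_left (h : SPair c W V I k lam) (x : ℝ) : qx V I x = (1 - V x) / px V I x := by
  unfold qx px
  have := (h.V_pos x).ne'
  have := (h.I_pos x).ne'
  field_simp

lemma k1_eq_left (c : ℝ) (W V I : ℝ → ℝ) (x : ℝ) :
    k1x c W V I x = al c W x + 2 * c * qx V I x := by
  unfold k1x al Ad; ring

lemma s_eq_left (h : SPair c W V I k lam) (x : ℝ) :
    sx c W V I x = (1 - V x) * (al c W x * px V I x + 2 * c * (1 - V x)) / px V I x ^ 2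
      + 3 * V x - 3 / 2 := by
  unfold sx
  rw [k1_eq_left, q_eq_left h x]
  have := (p_pos h x).ne'
  field_simp

/-- lower bound of `s` from `(1-m) p² ≤ a p + 2 c R` -/
lemma s_ge_of (h : SPair c W V I k lam) {x m : ℝ} (hm0 : 0 ≤ m)
    (hk : (1 - m) * px V I x ^ 2 ≤ al c W x * px V I x + 2 * c * (1 - V x)) :
    -1 / 2 - m ≤ sx c W V I x := by
  rw [s_eq_left h x]
  have hp := p_pos h x
  have hR : 0 < 1 - V x := sub_pos.2 (h.V_lt x)
  have hV := h.V_pos x
  have h1 : (1 - m - 3 * V x) ≤ (1 - V x) * (al c W x * px V I x + 2 * c * (1 - V x)) / px V I x ^ 2 := by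
    rw [le_div_iff₀ (by positivity)]
    have h2 : (1 - V x) * ((1 - m) * px V I x ^ 2)
        ≤ (1 - V x) * (al c W x * px V I x + 2 * c * (1 - V x)) := by gcongr
    have h3 : (1 - m - 3 * V x) * px V I x ^ 2 ≤ (1 - V x) * ((1 - m) * px V I x ^ 2) := by
      have : 0 < px V I x ^ 2 := by positivity
      nlinarith [mul_pos hV this, mul_nonneg (mul_nonneg hV.le hm0) this.le]
    linarith
  linarith

lemma cub1 {D : ℝ} (hD : 72 / 10 ≤ D) :
    0 ≤ (613 / 10000 * (D - 199 / 100) + 826 / 1000) * D ^ 2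
          - 79 / 100 * (14158 / 10000 * (D - 199 / 100)) * D
          - 895 / 1000 * (34313 / 10000 * (D - 199 / 100)) := by
  obtain ⟨u, hu⟩ : ∃ u, D = 72 / 10 + u := ⟨D - 72 / 10, by ring⟩
  have hu0 : 0 ≤ u := by linarith
  rw [hu]
  have e : (613 / 10000 * (72 / 10 + u - 199 / 100) + 826 / 1000) * (72 / 10 + u) ^ 2
          - 79 / 100 * (14158 / 10000 * (72 / 10 + u - 199 / 100)) * (72 / 10 + u)
          - 895 / 1000 * (34313 / 10000 * (72 / 10 + u - 199 / 100))
      = 613 / 10000 * u ^ 3 + (613 / 10000 * (3 * 72 / 10 - 199 / 100) + 826 / 1000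
          - 79 / 100 * 14158 / 10000) * u ^ 2
        + (613 / 10000 * (3 * (72 / 10) ^ 2 - 2 * (72 / 10) * (199 / 100)) + 826 / 1000 * (2 * 72 / 10)
          - 79 / 100 * 14158 / 10000 * (2 * 72 / 10 - 199 / 100) - 895 / 1000 * 34313 / 10000) * u
        + ((613 / 10000 * (72 / 10 - 199 / 100) + 826 / 1000) * (72 / 10) ^ 2
          - 79 / 100 * (14158 / 10000 * (72 / 10 - 199 / 100)) * (72 / 10)
          - 895 / 1000 * (34313 / 10000 * (72 / 10 - 199 / 100))) := by ring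
  rw [e]
  norm_num
  positivity

set_option maxHeartbeats 1000000 in
lemma algL {c t w v z : ℝ} (hcl : 4157 / 10000 ≤ c) (hch : c ≤ 4158 / 10000) (ht : 3 ≤ t)
    (hw : 0 < w) (hwt : w * t ≤ 3 / 400) (hv : v ≤ 1 / 200) (hz : 0 < z)
    (hzD : z * ((1 - c) * t ^ 2 + 199 / 100) ≤ t) :
    0 ≤ 105 / 1000 * ((1 - c) * t - 2 * c * w) ^ 2
      - 79 / 100 * ((1 - c) * t - 2 * c * w) * ((1 + c) * z) - 895 / 1000 * ((1 + c) * z) ^ 2
        + 2 * c * (1 - v) := by
  obtain ⟨D, hD⟩ : ∃ D, D = (1 - c) * t ^ 2 + 199 / 100 := ⟨_, rfl⟩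
  obtain ⟨a, hae⟩ : ∃ a, a = (1 - c) * t - 2 * c * w := ⟨_, rfl⟩
  obtain ⟨y, hy⟩ : ∃ y, y = (1 + c) * z := ⟨_, rfl⟩
  rw [← hD] at hzD
  rw [← hae, ← hy]
  have hc1 : 0 < 1 - c := by linarith
  have hyp : 0 < y := by rw [hy]; positivity
  have hD0 : 72 / 10 ≤ D := by
    rw [hD]
    have : 9 ≤ t ^ 2 := by nlinarith
    nlinarith
  have hDpos : 0 < D := by linarith
  have hyD : y * D ≤ (1 + c) * t := by
    have : y * D = (1 + c) * (z * D) := by rw [hy]; ring
    rw [this]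
    gcongr
  have hcw : 0 ≤ 2 * c * w := by positivity
  have hcw2 : 2 * c * w ≤ w := by nlinarith
  have hw3 : w ≤ 1 / 400 := by nlinarith
  have ha1 : a ≤ (1 - c) * t := by rw [hae]; linarith
  have hct0 : 1 ≤ (1 - c) * t := by nlinarith
  have ha0 : 0 ≤ a := by rw [hae]; linarith
  have ha2 : (1 - c) ^ 2 * t ^ 2 - 75 / 10000 ≤ a ^ 2 := by
    have e : a ^ 2 = (1 - c) ^ 2 * t ^ 2 - 4 * c * (1 - c) * (w * t) + 4 * c ^ 2 * w ^ 2 := by
      rw [hae]; ring
    rw [e]
    have h5 : 4 * c * (1 - c) ≤ 1 := by nlinarith [sq_nonneg (2 * c - 1)]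
    have h6 : 0 ≤ w * t := by positivity
    have h7 : 4 * c * (1 - c) * (w * t) ≤ 1 * (w * t) := by gcongr
    have h8 : 0 ≤ 4 * c ^ 2 * w ^ 2 := by positivity
    linarith
  have hyD0 : 0 ≤ y * D := by positivity
  have h1 : a * (y * D) ≤ ((1 - c) * t) * ((1 + c) * t) := by
    apply mul_le_mul ha1 hyD hyD0 (by linarith)
  have h2 : (y * D) ^ 2 ≤ ((1 + c) * t) ^ 2 := by gcongr
  have ht2 : (1 - c) * t ^ 2 = D - 199 / 100 := by rw [hD]; ring
  have hD1 : 0 ≤ D - 199 / 100 := by linarith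
  have hct : (1 + c) ^ 2 * t ^ 2 ≤ 34313 / 10000 * (D - 199 / 100) := by
    rw [← ht2]
    have : (1 + c) ^ 2 ≤ 34313 / 10000 * (1 - c) := by nlinarith
    nlinarith [sq_nonneg t]
  have e : (105 / 1000 * a ^ 2 - 79 / 100 * a * y - 895 / 1000 * y ^ 2 + 2 * c * (1 - v)) * D ^ 2
        = (105 / 1000 * a ^ 2 + 2 * c * (1 - v)) * D ^ 2 - 79 / 100 * (a * (y * D)) * D
          - 895 / 1000 * (y * D) ^ 2 := by ring
  have f1 : (613 / 10000 * (D - 199 / 100) + 826 / 1000) * D ^ 2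
      ≤ (105 / 1000 * a ^ 2 + 2 * c * (1 - v)) * D ^ 2 := by
    have g1 : 613 / 10000 * (D - 199 / 100) ≤ 105 / 1000 * ((1 - c) ^ 2 * t ^ 2) := by
      have e5 : 105 / 1000 * ((1 - c) ^ 2 * t ^ 2) = 105 / 1000 * (1 - c) * (D - 199 / 100) := by
        rw [← ht2]; ring
      rw [e5]
      exact mul_le_mul_of_nonneg_right (by linarith) hD1
    have g2 : 8272 / 10000 ≤ 2 * c * (1 - v) := by nlinarith
    have g3 : 613 / 10000 * (D - 199 / 100) + 826 / 1000
        ≤ 105 / 1000 * a ^ 2 + 2 * c * (1 - v) := by linarith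
    exact mul_le_mul_of_nonneg_right g3 (sq_nonneg D)
  have f2 : 79 / 100 * (a * (y * D)) * D
      ≤ 79 / 100 * (14158 / 10000 * (D - 199 / 100)) * D := by
    have g1 : a * (y * D) ≤ 14158 / 10000 * (D - 199 / 100) := by
      have e1 : ((1 - c) * t) * ((1 + c) * t) = (1 + c) * (D - 199 / 100) := by
        rw [← ht2]; ring
      rw [e1] at h1
      have := mul_le_mul_of_nonneg_right (show 1 + c ≤ 14158 / 10000 by linarith) hD1
      linarith
    exact mul_le_mul_of_nonneg_right (by linarith) hDpos.le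
  have f3 : 895 / 1000 * (y * D) ^ 2 ≤ 895 / 1000 * (34313 / 10000 * (D - 199 / 100)) := by
    have e1 : ((1 + c) * t) ^ 2 = (1 + c) ^ 2 * t ^ 2 := by ring
    rw [e1] at h2
    linarith
  have f4 := cub1 hD0
  by_contra hcon
  push Not at hcon
  have h9 := mul_neg_of_neg_of_pos hcon (show 0 < D ^ 2 by positivity)
  rw [e] at h9
  linarith

/-- `s ≥ -.605` for `x ≤ -3` -/
theorem sx_ge_left (h : SPair c W V I k lam) (hc : CR c) (h3 : In3 W V) {x : ℝ} (hx : x ≤ -3) :
    -605 / 1000 ≤ sx c W V I x := by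
  have key : (1 - (105 / 1000 : ℝ)) * px V I x ^ 2
      ≤ al c W x * px V I x + 2 * c * (1 - V x) := by
    obtain ⟨hVs, hWs, hWt, -, -, -⟩ := small_left h hc h3 hx
    have hzu := z_up h hc x hx
    have hVp := h.V_pos x
    have hWp := h.W_pos x
    have hzD : W x / V x * ((1 - c) * (-x) ^ 2 + 199 / 100) ≤ -x := by
      rw [div_mul_eq_mul_div, div_le_iff₀ hVp]
      have : (-x) ^ 2 = x ^ 2 := by ring
      rw [this]
      exact hzu
    have := algL hc.lo hc.hi (by linarith : 3 ≤ -x) hWp hWt hVs (div_pos hWp hVp) hzD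
    rw [p_eq h x]
    unfold al
    nlinarith
  have := s_ge_of h (by norm_num) key
  linarith

set_option maxHeartbeats 1000000 in
lemma algL2 {c t w z : ℝ} (hcl : 4157 / 10000 ≤ c) (hch : c ≤ 4158 / 10000) (ht : 3 ≤ t)
    (hw : 0 < w) (hwt : w * t ≤ 3 / 400) (hz : 0 < z)
    (hzD : t ≤ z * ((1 - c) * t ^ 2 + 137 / 40)) :
    95 / 100 ≤ (1 + c) * z * (((1 - c) * t - 2 * c * w) + (1 + c) * z) := by
  obtain ⟨D, hD⟩ : ∃ D, D = (1 - c) * t ^ 2 + 137 / 40 := ⟨_, rfl⟩
  obtain ⟨a, hae⟩ : ∃ a, a = (1 - c) * t - 2 * c * w := ⟨_, rfl⟩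
  obtain ⟨y, hy⟩ : ∃ y, y = (1 + c) * z := ⟨_, rfl⟩
  rw [← hD] at hzD
  rw [← hae, ← hy]
  have hc1 : 0 < 1 - c := by linarith
  have hyp : 0 < y := by rw [hy]; positivity
  have hD0 : 868 / 100 ≤ D := by
    rw [hD]
    have : 9 ≤ t ^ 2 := by nlinarith
    nlinarith
  have hDpos : 0 < D := by linarith
  have hyD : (1 + c) * t ≤ y * D := by
    have : y * D = (1 + c) * (z * D) := by rw [hy]; ring
    rw [this]
    gcongr
  have hcw : 0 ≤ 2 * c * w := by positivity
  have hcw2 : 2 * c * w ≤ w := by nlinarith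
  have hw3 : w ≤ 1 / 400 := by nlinarith
  have ha0 : (1 - c) * t - 3 / 1000 ≤ a := by rw [hae]; linarith
  have hct0 : 1 ≤ (1 - c) * t := by nlinarith
  have ht2 : (1 - c) * t ^ 2 = D - 137 / 40 := by rw [hD]; ring
  have h0 : 0 ≤ (1 - c) * t - 3 / 1000 := by linarith
  have hge : (1 + c) * t * (((1 - c) * t - 3 / 1000) * D + (1 + c) * t)
      ≤ (y * D) * (a * D + y * D) := by
    have g1 : ((1 - c) * t - 3 / 1000) * D + (1 + c) * t ≤ a * D + y * D := by
      have := mul_le_mul_of_nonneg_right ha0 hDpos.le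
      linarith
    apply mul_le_mul hyD g1 _ (by positivity)
    have : 0 ≤ ((1 - c) * t - 3 / 1000) * D := mul_nonneg h0 hDpos.le
    positivity
  have e : (1 + c) * t * (((1 - c) * t - 3 / 1000) * D + (1 + c) * t)
      = (1 + c) * ((D - 137 / 40) * D) - 3 / 1000 * ((1 + c) * t) * D + (1 + c) ^ 2 * t ^ 2 := by
    rw [← ht2]; ring
  have e1 : 14157 / 10000 * ((D - 137 / 40) * D) ≤ (1 + c) * ((D - 137 / 40) * D) := by
    have : 0 ≤ (D - 137 / 40) * D := mul_nonneg (by linarith) hDpos.le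
    exact mul_le_mul_of_nonneg_right (by linarith) this
  have e2 : 3 / 1000 * ((1 + c) * t) * D ≤ 3 / 1000 * D * D := by
    have : (1 + c) * t ≤ D := by
      rw [hD]
      nlinarith [sq_nonneg (t - 3)]
    exact mul_le_mul_of_nonneg_right (by linarith) hDpos.le
  have e3 : 34 / 10 * (D - 137 / 40) ≤ (1 + c) ^ 2 * t ^ 2 := by
    rw [← ht2]
    have : 34 / 10 * (1 - c) ≤ (1 + c) ^ 2 := by nlinarith
    nlinarith [sq_nonneg t]
  have h1 : 95 / 100 * D ^ 2 ≤ (y * D) * (a * D + y * D) := by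
    refine le_trans ?_ hge
    rw [e]
    nlinarith [mul_nonneg (sub_nonneg.2 hD0) (sub_nonneg.2 hD0)]
  have e4 : (y * D) * (a * D + y * D) = y * (a + y) * D ^ 2 := by ring
  rw [e4] at h1
  exact le_of_mul_le_mul_right h1 (by positivity)

set_option maxHeartbeats 1000000 in
lemma algL3 {c t w v z : ℝ} (hcl : 4157 / 10000 ≤ c) (hch : c ≤ 4158 / 10000) (ht : 3 ≤ t)
    (hw : 0 < w) (hwt : w * t ≤ 3 / 400) (hv0 : 0 < v) (hv : v * t ^ 2 ≤ 9 / 200) (hz : 0 < z)
    (hzD : z * ((1 - c) * t ^ 2 + 199 / 100) ≤ t) :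
    v * (((1 - c) * t - 2 * c * w) + (1 + c) * z) ^ 2 ≤ 35 / 1000 := by
  have hc1 : 0 < 1 - c := by linarith
  have hz1 : z ≤ 45 / 100 := by
    by_contra hcon
    push Not at hcon
    have h0 : 0 < (1 - c) * t ^ 2 + 199 / 100 := by positivity
    have h1 := mul_lt_mul_of_pos_right hcon h0
    nlinarith [sq_nonneg (t - 3)]
  have hcw : 0 ≤ 2 * c * w := by positivity
  have hcw2 : 2 * c * w ≤ w := by nlinarith
  have hw3 : w ≤ 1 / 400 := by nlinarith
  have hct0 : 1 ≤ (1 - c) * t := by nlinarith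
  have hay : ((1 - c) * t - 2 * c * w) + (1 + c) * z ≤ 8 / 10 * t := by nlinarith
  have hay0 : 0 ≤ ((1 - c) * t - 2 * c * w) + (1 + c) * z := by
    have : 0 < (1 + c) * z := by positivity
    linarith
  calc v * (((1 - c) * t - 2 * c * w) + (1 + c) * z) ^ 2 ≤ v * (8 / 10 * t) ^ 2 := by gcongr
    _ = 64 / 100 * (v * t ^ 2) := by ring
    _ ≤ 64 / 100 * (9 / 200) := by gcongr
    _ ≤ 35 / 1000 := by norm_num

/-- `s ≤ -1/2` for `x ≤ -3` -/
theorem sx_le_left (h : SPair c W V I k lam) (hc : CR c) (h3 : In3 W V) {x : ℝ} (hx : x ≤ -3) :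
    sx c W V I x ≤ -1 / 2 := by
  rw [s_eq_left h x]
  have hp := p_pos h x
  obtain ⟨hVs, hWs, hWt, hVt, hVt2, -⟩ := small_left h hc h3 hx
  have hzl := z_lo h hc x (by linarith)
  have hzu := z_up h hc x hx
  have hVp := h.V_pos x
  have hWp := h.W_pos x
  have ex : (-x) ^ 2 = x ^ 2 := by ring
  have hzD : W x / V x * ((1 - c) * (-x) ^ 2 + 199 / 100) ≤ -x := by
    rw [div_mul_eq_mul_div, div_le_iff₀ hVp, ex]
    exact hzu
  have hzD2 : -x ≤ W x / V x * ((1 - c) * (-x) ^ 2 + 137 / 40) := by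
    rw [div_mul_eq_mul_div, le_div_iff₀ hVp, ex]
    exact hzl
  have hyy := algL2 hc.lo hc.hi (by linarith : 3 ≤ -x) hWp hWt (div_pos hWp hVp) hzD2
  have hVp2 := algL3 hc.lo hc.hi (by linarith : 3 ≤ -x) hWp hWt hVp (by rw [ex]; exact hVt2)
    (div_pos hWp hVp) hzD
  obtain ⟨y, hy⟩ : ∃ y, y = (1 + c) * (W x / V x) := ⟨_, rfl⟩
  obtain ⟨a, hae⟩ : ∃ a, a = al c W x := ⟨_, rfl⟩
  have hae' : a = (1 - c) * (-x) - 2 * c * W x := hae
  rw [← hae', ← hy] at hyy hVp2
  have hpe : px V I x = a + y := by rw [p_eq h x, hae, hy]; ring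
  have hR : 0 < 1 - V x := sub_pos.2 (h.V_lt x)
  rw [← hae]
  have h5 : (1 - V x) * (a * px V I x + 2 * c * (1 - V x)) / px V I x ^ 2 ≤ 1 - 3 * V x := by
    rw [div_le_iff₀ (by positivity), hpe]
    have e : (1 - 3 * V x) * (a + y) ^ 2 - (1 - V x) * (a * (a + y) + 2 * c * (1 - V x))
        = (1 - V x) * (y * (a + y) - 2 * c * (1 - V x)) - 2 * (V x * (a + y) ^ 2) := by ring
    have h6 : 2 * c * (1 - V x) ≤ 8316 / 10000 := by nlinarith [hc.lo, hc.hi]
    have h7 : (1 - V x) * (95 / 100 - 8316 / 10000)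
        ≤ (1 - V x) * (y * (a + y) - 2 * c * (1 - V x)) := by
      apply mul_le_mul_of_nonneg_left _ hR.le
      linarith
    nlinarith
  linarith

end Crest.Agent.R146.Tail2_34
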