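import Crest.Agent.R146.QEnc_865
import Crest.Agent.R146.Enc3_848
import Crest.Agent.R146.PP3_865
import Crest.Agent.R146.EqEta_889
import Crest.Agent.R146.Tail2_34

/-!
Row 146, NUMREF C2 (helper791): `0 < J < 153/100` on the whole line for the closed pair,
`J = 1 + 2 c s`, `s = q k1 + 3 V - 3/2` (`EqEta_889.Jc` = `RefX_355.Jx`).
-/

set_option autoImplicit false

namespace Crest.Agent.R146.J_791

open Set Filter Topology
open Crest.Agent.R146.PP865 Crest.Agent.R146.EncData_848 Crest.Agent.R146.EncR_848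
open Crest.Agent.R146.Enc0_848 Crest.Agent.R146.Enc1_848 Crest.Agent.R146.Enc3_848
open Crest.Agent.R146.SPair_307 Crest.Agent.R146.QEnc_865 Crest.Agent.R146.RefX_355

noncomputable section

/-- error radii of `W, V, q` -/
def err (i : ℕ) : ℕ := if i = 1 then 851968 else if i = 2 then 6422528 else if i = 7 then 37355520 else 0

/-- `J`; parameters `19, 20 = c` -/
def eJ : Ex := 1 + 2 * .var 19 * (.var 7 * (-((1 - .var 20) * .var 0 + 2 * .var 20 * .var 1)
    + 2 * .var 20 * .var 7) + 3 * .var 2 - .cst 3 1)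

def prm : List Prm := [(19, .cst 435929 20, .cst 435931 20), (20, .cst 435929 20, .cst 435931 20)]

theorem cJ1 : checkBoxT 36 4 8 40 18 err (-48) 48 prm eJ p0 ps = true := by decide +kernel
theorem cJ2 : checkBoxT 36 4 8 40 18 err (-48) 48 prm (.cst 1530 0 * .cst 1 0 - 1000 * eJ) p0 ps
    = true := by decide +kernel

theorem evR_three (v : ℕ → ℝ) : (3 : Ex).evR v = 3 := by simpa using Ex.evR_ofNat v 3
theorem evR_1000 (v : ℕ → ℝ) : (1000 : Ex).evR v = 1000 := by simpa using Ex.evR_ofNat v 1000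

/-- values of the certificate variables: `W, V, q`, the rest as in the spline -/
def env (c : ℝ) (W V I : ℝ → ℝ) (z : ℝ) (i : ℕ) : ℝ :=
  if i = 1 then W z else if i = 2 then V z else if i = 7 then qv V I z
  else if i = 19 then c else if i = 20 then c else cv 36 p0 ps z i

section main

variable {c : ℝ} {W V I k : ℝ → ℝ}

theorem Jx_eq (x : ℝ) : EqEta_889.Jc c W V I x = Jx c W V I x := by
  unfold EqEta_889.Jc EqEta_889.k1 Jx sx k1x qx
  ring

theorem chkE (h : SPair c W V I k c) {e : Ex} (he : checkBoxT 36 4 8 40 18 err (-48) 48 prm e p0 ps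
    = true) {x : ℝ} (h1 : -6 ≤ x) (h2 : x ≤ 6) : 0 < e.evR (env c W V I x) := by
  have E := enc h
  refine checkBoxT_sound adj_ps he (z := x) (by rw [lo8]; linarith) (by rw [hi8]; linarith)
    (by push_cast; linarith) (by push_cast; linarith) rfl ?_ ?_
  · intro i hi
    unfold env
    by_cases i1 : i = 1
    · rw [if_pos i1, i1]
      have := E.W8 x (by linarith) (by linarith)
      have e1 : cv 36 p0 ps x 1 = F 0 x := rfl
      rw [e1]
      refine this.trans (le_of_eq ?_)
      simp only [err]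
      norm_num
    rw [if_neg i1]
    by_cases i2 : i = 2
    · rw [if_pos i2, i2]
      have := E.V8 x (by linarith) (by linarith)
      have e1 : cv 36 p0 ps x 2 = F1 0 x := rfl
      rw [e1]
      refine this.trans (le_of_eq ?_)
      simp only [err]
      norm_num
    rw [if_neg i2]
    by_cases i7 : i = 7
    · rw [if_pos i7, i7]
      have := encQ h E.c_lo E.c_hi x ⟨h1, h2⟩
      have e1 : cv 36 p0 ps x 7 = F 2 x := rfl
      rw [e1]
      refine this.trans (le_of_eq ?_)
      simp only [err]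
      norm_num
    rw [if_neg i7, if_neg (by omega), if_neg (by omega), sub_self, abs_zero]
    positivity
  · intro q hq
    simp only [prm, List.mem_cons, List.not_mem_nil, or_false] at hq
    have e19 : env c W V I x 19 = c := rfl
    have e20 : env c W V I x 20 = c := rfl
    have c1 := E.c_lo
    have c2 := E.c_hi
    rcases hq with rfl | rfl
    · simp only [Ex.evR_cst, e19]
      push_cast
      exact ⟨c1, c2⟩
    · simp only [Ex.evR_cst, e20]
      push_cast
      exact ⟨c1, c2⟩

theorem eJ_eq (x : ℝ) : eJ.evR (env c W V I x) = Jx c W V I x := by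
  have e0 : env c W V I x 0 = x := rfl
  have e1 : env c W V I x 1 = W x := rfl
  have e2 : env c W V I x 2 = V x := rfl
  have e7 : env c W V I x 7 = qx V I x := rfl
  have e19 : env c W V I x 19 = c := rfl
  have e20 : env c W V I x 20 = c := rfl
  simp only [eJ, Ex.evR_sub, Ex.evR_add, Ex.evR_mul, Ex.evR_neg, Ex.evR_cst, Ex.evR_var, evR_one,
    evR_two, evR_three, e0, e1, e2, e7, e19, e20]
  unfold Jx sx k1x Ad
  push_cast
  ring

theorem CR_of (h : SPair c W V I k c) : Tail2_34.CR c := by
  have E := enc h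
  have c1 := E.c_lo
  have c2 := E.c_hi
  exact ⟨le_trans (by norm_num) c1, c2.trans (by norm_num)⟩

/-- numeric inputs at `±3` -/
theorem g1 : chkBoxR 36 4 18 (-24) (-24) [] (.cst 9 11 + .cst 1 3 * ((.var 0 + 3) * (.var 0 + 3))
    - .var 2) p0 ps = true := by decide +kernel
theorem g2 : chkBoxR 36 4 18 (-24) (-24) [] (.cst 1 9 + .cst 1 3 * ((.var 0 + 3) * (.var 0 + 3))
    - .var 1) p0 ps = true := by decide +kernel
theorem g3 : chkBoxR 36 4 18 24 24 [] (.cst 13 15 + .cst 1 3 * ((.var 0 - 3) * (.var 0 - 3))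
    - (1 - .var 2)) p0 ps = true := by decide +kernel
theorem g4 : chkBoxR 36 4 18 24 24 [] (.cst 1 13 + .cst 1 3 * ((.var 0 - 3) * (.var 0 - 3))
    - (.var 1 - .var 0)) p0 ps = true := by decide +kernel

theorem In3_of (h : SPair c W V I k c) : Tail2_34.In3 W V := by
  have E := enc h
  have a1 := chk (z := -3) (s := 0) (t := 0) g1 (by norm_num) (by norm_num) (by norm_num)
    (by norm_num) (by simp)
  have a2 := chk (z := -3) (s := 0) (t := 0) g2 (by norm_num) (by norm_num) (by norm_num)
    (by norm_num) (by simp)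
  have a3 := chk (z := 3) (s := 0) (t := 0) g3 (by norm_num) (by norm_num) (by norm_num)
    (by norm_num) (by simp)
  have a4 := chk (z := 3) (s := 0) (t := 0) g4 (by norm_num) (by norm_num) (by norm_num)
    (by norm_num) (by simp)
  simp only [Ex.evR_sub, Ex.evR_add, Ex.evR_mul, Ex.evR_cst, Ex.evR_var, evR_one, evR_three,
    env0, env1, env2] at a1 a2 a3 a4
  have b1 := (abs_le.1 (E.V8 (-3) (by norm_num) (by norm_num))).2
  have b2 := (abs_le.1 (E.W8 (-3) (by norm_num) (by norm_num))).2
  have b3 := (abs_le.1 (E.V8 3 (by norm_num) (by norm_num))).1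
  have b4 := (abs_le.1 (E.W8 3 (by norm_num) (by norm_num))).2
  norm_num at a1 a2 a3 a4 b1 b2 b3 b4
  exact ⟨by linarith, by linarith, by linarith, by linarith⟩

theorem V_right (h : SPair c W V I k c) {x : ℝ} (hx : 3 ≤ x) : 1 - V x ≤ 1 / 2000 := by
  have h1 := (In3_of h).R3
  have h2 := h.V_strictMono.monotone hx
  linarith

/-- right tail: `-1 ≤ q k1 ≤ -9/10` -/
theorem qk_right (h : SPair c W V I k c) {x : ℝ} (hx : 6 ≤ x) :
    -1 ≤ qx V I x * k1x c W V I x ∧ qx V I x * k1x c W V I x ≤ -9 / 10 := by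
  have hc := CR_of h
  have hI := h.I_pos x
  have hU := h.U_pos x
  have hV := h.V_lt x
  have hV0 := h.V_pos x
  have hVr := V_right h (x := x) (by linarith)
  have hA : (1 + c) * x ≤ 2 * Ad c W x := by
    unfold Ad
    nlinarith [h.c_pos]
  have hy := Tail2_34.y_up h hc x (by linarith)
  -- I = 2 A R + (1-c) U
  have hIeq : I x = 2 * Ad c W x * (1 - V x) + (1 - c) * (W x - x) := by
    rw [h.eqI x]
    unfold Ad
    ring
  have hc0 := h.c_pos
  have hc1 := hc.lo
  have hc2 := hc.hi
  have hR0 : 0 < 1 - V x := by linarith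
  have hAp : 0 < 2 * Ad c W x := by nlinarith
  have hIA : 2 * Ad c W x * (1 - V x) ≤ I x := by
    rw [hIeq]
    nlinarith
  have hx0 : 0 < x := by linarith
  -- `U ≤ R / ((1+c) x)`
  have hU2 : (W x - x) * ((1 + c) * x) ≤ 1 - V x := by
    have h1 : (W x - x) * ((1 + c) * x ^ 2) ≤ x * (1 - V x) := by nlinarith
    have h2 : x * ((W x - x) * ((1 + c) * x)) ≤ x * (1 - V x) := by
      calc x * ((W x - x) * ((1 + c) * x)) = (W x - x) * ((1 + c) * x ^ 2) := by ring
        _ ≤ _ := h1
    exact le_of_mul_le_mul_left h2 hx0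
  have hU3 : (W x - x) * 8 ≤ 1 - V x := by
    have : (W x - x) * 8 ≤ (W x - x) * ((1 + c) * x) := by
      apply mul_le_mul_of_nonneg_left _ (by linarith)
      nlinarith
    linarith
  have hqk : qx V I x * k1x c W V I x =
      V x * (1 - V x) * (-(2 * Ad c W x) * I x + 2 * c * (V x * (1 - V x))) / I x ^ 2 := by
    unfold qx k1x qx
    field_simp
  rw [hqk]
  have hI2 : 0 < I x ^ 2 := by positivity
  set R := 1 - V x with hR
  set a := 2 * Ad c W x with ha
  have ha8 : 8 ≤ a := by nlinarith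
  constructor
  · rw [le_div_iff₀ hI2]
    -- V R a I ≤ I^2
    have h1 : V x * R * (a * I x) ≤ I x * I x := by
      have h2 : V x * R * a ≤ I x := by nlinarith
      nlinarith
    have h3 : 0 ≤ V x * R * (2 * c * (V x * R)) := by positivity
    nlinarith
  · rw [div_le_iff₀ hI2]
    -- I ≤ a R + (1-c) R/8 ≤ (1 + 1/100) a R
    have hI3 : I x ≤ (a + 3 / 40) * R := by
      rw [hIeq]
      nlinarith
    have hI4 : I x ≤ (101 / 100) * (a * R) := by nlinarith [mul_pos hAp hR0]
    have hV9 : 99 / 100 ≤ V x := by linarith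
    -- V R a I ≥ (99/100)(100/101) I^2
    have h1 : 98 / 100 * (I x * I x) ≤ V x * (a * R) * I x := by
      have h2 : 98 / 100 * I x ≤ V x * (a * R) := by nlinarith [mul_pos hAp hR0]
      nlinarith
    -- 2c (V R)^2 ≤ 2c I^2/64
    have h4 : V x * R ≤ I x / 8 := by nlinarith
    have h5 : (V x * R) * (V x * R) ≤ I x / 8 * (I x / 8) :=
      mul_le_mul h4 h4 (by positivity) (by positivity)
    have h6 : 2 * c * ((V x * R) * (V x * R)) ≤ 1 * (I x / 8 * (I x / 8)) :=
      mul_le_mul (by linarith) h5 (by positivity) (by norm_num)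
    have e1 : V x * R * (-a * I x + 2 * c * (V x * R)) =
        -(V x * (a * R) * I x) + 2 * c * ((V x * R) * (V x * R)) := by ring
    have e2 : -9 / 10 * I x ^ 2 = -(9 / 10 * (I x * I x)) := by ring
    have e3 : 1 * (I x / 8 * (I x / 8)) = 1 / 64 * (I x * I x) := by ring
    rw [e1, e2]
    rw [e3] at h6
    have h7 : 0 ≤ I x * I x := by positivity
    linarith

/-- **`0 < J`** -/
theorem Jx_pos (h : SPair c W V I k c) (x : ℝ) : 0 < Jx c W V I x := by
  have hc := CR_of h
  have hc1 := hc.lo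
  have hc2 := hc.hi
  rcases le_or_gt x (-6) with hx | hx
  · have h1 := Tail2_34.sx_ge_left h hc (In3_of h) (x := x) (by linarith)
    unfold Jx
    nlinarith
  rcases le_or_gt x 6 with hx2 | hx2
  · have := chkE h cJ1 hx.le hx2
    rwa [eJ_eq] at this
  · have h1 := (qk_right h hx2.le).1
    have h2 := V_right h (x := x) (by linarith)
    unfold Jx sx
    nlinarith

/-- **`J ≤ 153/100`** -/
theorem Jx_le (h : SPair c W V I k c) (x : ℝ) : Jx c W V I x ≤ 153 / 100 := by
  have hc := CR_of h
  have hc1 := hc.lo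
  have hc2 := hc.hi
  rcases le_or_gt x (-6) with hx | hx
  · have h1 := Tail2_34.sx_le_left h hc (In3_of h) (x := x) (by linarith)
    unfold Jx
    nlinarith
  rcases le_or_gt x 6 with hx2 | hx2
  · have h1 := chkE h cJ2 hx.le hx2
    simp only [Ex.evR_sub, Ex.evR_mul, Ex.evR_cst, evR_1000, eJ_eq] at h1
    norm_num at h1
    linarith
  · have h1 := (qk_right h hx2.le).2
    have h2 := h.V_lt x
    unfold Jx sx
    nlinarith

theorem Jc_nonneg (h : SPair c W V I k c) (x : ℝ) : 0 ≤ EqEta_889.Jc c W V I x := by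
  rw [Jx_eq]
  exact (Jx_pos h x).le

theorem Jc_le (h : SPair c W V I k c) (x : ℝ) : EqEta_889.Jc c W V I x ≤ 153 / 100 := by
  rw [Jx_eq]
  exact Jx_le h x

end main

end

end Crest.Agent.R146.J_791
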