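import Crest.Agent.R146.PP3_865

/-!
# Row 146, helper454: piecewise polynomial certificates, part 4: triangle parameters

`Tri` : a pair of variables `(i, j)` lying in a triangle with vertices given by expressions
(used for `(δ, δ²)` with `δ ∈ [a, b]`: vertices `(a, a²)`, `(b, b²)`, `((a+b)/2, ab)`);
`vt ps e` : the vertex expressions; `checkO` : the Taylor model test of `PP3_865` on the half open range
`(a/8, b/8]` (only the pieces which really meet it); `checkTri`, `checkTri_sound` : everything together.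
-/

set_option autoImplicit false

namespace Crest.Agent.R146.PP4_454

open Crest.Agent.R146.PP865 Function

/-- total degree in the two variables `i`, `j` (upper bound) -/
def deg2 (i j : ℕ) : Ex → ℕ
  | .cst _ _ => 0
  | .var k => if i = k then 1 else if j = k then 1 else 0
  | .add a b => max (deg2 i j a) (deg2 i j b)
  | .mul a b => deg2 i j a + deg2 i j b
  | .neg a => deg2 i j a

theorem const2 {i j : ℕ} {e : Ex} (h : deg2 i j e = 0) (v : ℕ → ℝ) (x y : ℝ) :
    e.evR (update (update v i x) j y) = e.evR v := by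
  induction e with
  | cst n e => rfl
  | var k =>
    have h1 : i ≠ k := by intro hh; simp [deg2, hh] at h
    have h2 : j ≠ k := by intro hh; simp [deg2, hh] at h
    simp [Ex.evR, update_of_ne h1.symm, update_of_ne h2.symm]
  | add a b iha ihb =>
    simp only [deg2] at h
    simp only [Ex.evR, iha (by omega), ihb (by omega)]
  | mul a b iha ihb =>
    simp only [deg2] at h
    simp only [Ex.evR, iha (by omega), ihb (by omega)]
  | neg a iha =>
    simp only [deg2] at h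
    simp only [Ex.evR, iha h]

theorem aff2 {i j : ℕ} (hij : i ≠ j) {e : Ex} (h : deg2 i j e ≤ 1) (v : ℕ → ℝ) :
    ∃ α β γ : ℝ, ∀ x y, e.evR (update (update v i x) j y) = α + β * x + γ * y := by
  induction e with
  | cst n e => exact ⟨_, 0, 0, fun x y => by simp [Ex.evR]; rfl⟩
  | var k =>
    by_cases h1 : i = k
    · subst h1
      exact ⟨0, 1, 0, fun x y => by simp [Ex.evR, update_of_ne hij]⟩
    · by_cases h2 : j = k
      · subst h2
        exact ⟨0, 0, 1, fun x y => by simp [Ex.evR]⟩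
      · exact ⟨v k, 0, 0, fun x y => by
          simp [Ex.evR, update_of_ne (Ne.symm h1), update_of_ne (Ne.symm h2)]⟩
  | add a b iha ihb =>
    simp only [deg2] at h
    obtain ⟨α, β, γ, h1⟩ := iha (by omega)
    obtain ⟨α', β', γ', h2⟩ := ihb (by omega)
    exact ⟨α + α', β + β', γ + γ', fun x y => by simp only [Ex.evR, h1, h2]; ring⟩
  | mul a b iha ihb =>
    simp only [deg2] at h
    rcases Nat.eq_zero_or_pos (deg2 i j a) with h0 | h0
    · obtain ⟨α', β', γ', h2⟩ := ihb (by omega)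
      refine ⟨a.evR v * α', a.evR v * β', a.evR v * γ', fun x y => ?_⟩
      simp only [Ex.evR, h2, const2 h0]
      ring
    · obtain ⟨α, β, γ, h1⟩ := iha (by omega)
      refine ⟨α * b.evR v, β * b.evR v, γ * b.evR v, fun x y => ?_⟩
      simp only [Ex.evR, h1, const2 (show deg2 i j b = 0 by omega)]
      ring
  | neg a iha =>
    simp only [deg2] at h
    obtain ⟨α, β, γ, h1⟩ := iha h
    exact ⟨-α, -β, -γ, fun x y => by simp only [Ex.evR, h1]; ring⟩

/-- a pair of parameters `(i, j)` in the triangle with vertices `(a0,b0)`, `(a1,b1)`, `(a2,b2)` -/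
structure Tri where
  i : ℕ
  j : ℕ
  a0 : Ex
  b0 : Ex
  a1 : Ex
  b1 : Ex
  a2 : Ex
  b2 : Ex

/-- the parameters of `v` lie in the triangle -/
def Tri.In (t : Tri) (v : ℕ → ℝ) : Prop :=
  ∃ l0 l1 l2 : ℝ, 0 ≤ l0 ∧ 0 ≤ l1 ∧ 0 ≤ l2 ∧ l0 + l1 + l2 = 1 ∧
    v t.i = l0 * t.a0.evR v + l1 * t.a1.evR v + l2 * t.a2.evR v ∧
    v t.j = l0 * t.b0.evR v + l1 * t.b1.evR v + l2 * t.b2.evR v

def sub2 (e : Ex) (i j : ℕ) (a b : Ex) : Ex := (e.subst i a).subst j b

theorem evR_sub2 {i j : ℕ} (hij : i ≠ j) {a : Ex} (ha : a.deg j = 0) (e b : Ex) (v : ℕ → ℝ) :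
    (sub2 e i j a b).evR v = e.evR (update (update v i (a.evR v)) j (b.evR v)) := by
  unfold sub2
  rw [Ex.evR_subst, Ex.evR_subst, Ex.evR_update_of_deg_zero ha, update_comm hij]

def vt : List Tri → Ex → List Ex
  | [], e => [e]
  | t :: ts, e => vt ts (sub2 e t.i t.j t.a0 t.b0) ++ (vt ts (sub2 e t.i t.j t.a1 t.b1) ++
      vt ts (sub2 e t.i t.j t.a2 t.b2))

def okt : List Tri → Ex → Bool
  | [], _ => true
  | t :: ts, e => decide (t.i ≠ t.j) && decide (deg2 t.i t.j e ≤ 1) &&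
      decide (t.a0.deg t.j = 0) && decide (t.a1.deg t.j = 0) && decide (t.a2.deg t.j = 0) &&
      okt ts (sub2 e t.i t.j t.a0 t.b0) && okt ts (sub2 e t.i t.j t.a1 t.b1) &&
      okt ts (sub2 e t.i t.j t.a2 t.b2)

theorem vt_sound {v : ℕ → ℝ} : ∀ {ts : List Tri} {e : Ex}, okt ts e = true →
    (∀ t ∈ ts, t.In v) → (∀ e' ∈ vt ts e, 0 < e'.evR v) → 0 < e.evR v
  | [], e, _, _, h => h e (by simp [vt])
  | t :: ts, e, hd, hb, hv => by
    simp only [okt, Bool.and_eq_true, decide_eq_true_eq] at hd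
    obtain ⟨⟨⟨⟨⟨⟨⟨hij, hdeg⟩, d0⟩, d1⟩, d2⟩, o0⟩, o1⟩, o2⟩ := hd
    have hb' : ∀ q ∈ ts, q.In v := fun q hq => hb q (by simp [hq])
    have k0 := vt_sound o0 hb' fun e' he' => hv e' (by simp [vt, he'])
    have k1 := vt_sound o1 hb' fun e' he' => hv e' (by simp [vt, he'])
    have k2 := vt_sound o2 hb' fun e' he' => hv e' (by simp [vt, he'])
    rw [evR_sub2 hij d0] at k0
    rw [evR_sub2 hij d1] at k1
    rw [evR_sub2 hij d2] at k2
    obtain ⟨α, β, γ, haff⟩ := aff2 hij hdeg v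
    rw [haff] at k0 k1 k2
    obtain ⟨l0, l1, l2, p0, p1, p2, hs, hi, hj⟩ := hb t (by simp)
    have e1 : e.evR v = e.evR (update (update v t.i (v t.i)) t.j (v t.j)) := by simp
    rw [e1, haff]
    have e2 : α + β * v t.i + γ * v t.j
        = l0 * (α + β * t.a0.evR v + γ * t.b0.evR v) + l1 * (α + β * t.a1.evR v + γ * t.b1.evR v)
          + l2 * (α + β * t.a2.evR v + γ * t.b2.evR v) := by
      rw [hi, hj]
      linear_combination (-α) * hs
    rw [e2]
    rcases eq_or_lt_of_le p0 with q0 | q0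
    · rcases eq_or_lt_of_le p1 with q1 | q1
      · have : l2 = 1 := by linarith
        rw [← q0, ← q1, this]
        linarith
      · have h1 := mul_pos q1 k1
        have h2 := mul_nonneg p2 k2.le
        rw [← q0]
        linarith
    · have h0 := mul_pos q0 k0
      have h1 := mul_nonneg p1 k1.le
      have h2 := mul_nonneg p2 k2.le
      linarith

/-- `(δ, δ²)` -/
theorem tri_sq {a b x : ℝ} (ha : a ≤ x) (hb : x ≤ b) : ∃ l0 l1 l2 : ℝ, 0 ≤ l0 ∧ 0 ≤ l1 ∧ 0 ≤ l2 ∧
    l0 + l1 + l2 = 1 ∧ x = l0 * a + l1 * b + l2 * ((a + b) / 2) ∧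
    x ^ 2 = l0 * a ^ 2 + l1 * b ^ 2 + l2 * (a * b) := by
  rcases eq_or_lt_of_le (ha.trans hb) with h | h
  · have : x = a := le_antisymm (by rw [h]; exact hb) ha
    exact ⟨1, 0, 0, by norm_num, le_rfl, le_rfl, by norm_num, by rw [this]; ring,
      by rw [this]; ring⟩
  · have hd : 0 < b - a := sub_pos.2 h
    set s := (x - a) / (b - a) with hs
    have hs0 : 0 ≤ s := div_nonneg (by linarith) hd.le
    have hs1 : s ≤ 1 := (div_le_one hd).2 (by linarith)
    have hx : x = (1 - s) * a + s * b := by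
      rw [hs]; field_simp; ring
    refine ⟨(1 - s) ^ 2, s ^ 2, 2 * s * (1 - s), sq_nonneg _, sq_nonneg _,
      mul_nonneg (by linarith) (by linarith), by ring, by rw [hx]; ring, by rw [hx]; ring⟩

/-- the triangle of `(x, x²)`, `x ∈ [a, b]`; `m = (a+b)/2`, `a2 = a²`, `b2 = b²`, `ab = a b` -/
def sqTri (i j : ℕ) (a b m a2 b2 ab : Ex) : Tri := ⟨i, j, a, a2, b, b2, m, ab⟩

theorem sqTri_in {i j : ℕ} {a b m a2 b2 ab : Ex} {v : ℕ → ℝ} {x : ℝ} (hi : v i = x)
    (hj : v j = x ^ 2) (ha : a.evR v ≤ x) (hb : x ≤ b.evR v) (hm : m.evR v = (a.evR v + b.evR v) / 2)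
    (h2 : a2.evR v = a.evR v ^ 2) (h3 : b2.evR v = b.evR v ^ 2)
    (h4 : ab.evR v = a.evR v * b.evR v) : (sqTri i j a b m a2 b2 ab).In v := by
  obtain ⟨l0, l1, l2, p0, p1, p2, hs, e1, e2⟩ := tri_sq ha hb
  exact ⟨l0, l1, l2, p0, p1, p2, hs, by simp only [sqTri]; rw [hi, hm]; exact e1,
    by simp only [sqTri]; rw [hj, h2, h3, h4]; exact e2⟩

/-! ### half open ranges -/

/-- does the piece really meet `(a / 8, b / 8]`? -/
def inO (a b : ℤ) (q : Pc) : Bool :=
  decide (a * 2 ^ q.j < 8 * (q.c + 1)) && decide (8 * (q.c - 1) < b * 2 ^ q.j)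

theorem inO_of {a b : ℤ} {q : Pc} {z : ℝ} (h1 : q.lo < z) (h2 : z ≤ q.hi)
    (ha : (a : ℝ) / 8 < z) (hb : z ≤ (b : ℝ) / 8) : inO a b q = true := by
  have hj : (0:ℝ) < 2 ^ q.j := by positivity
  unfold Pc.lo at h1
  unfold Pc.hi at h2
  rw [div_lt_iff₀ hj] at h1
  rw [le_div_iff₀ hj] at h2
  simp only [inO, Bool.and_eq_true, decide_eq_true_eq]
  constructor
  · have h3 : (a : ℝ) * 2 ^ q.j < 8 * ((q.c : ℝ) + 1) := by nlinarith
    exact_mod_cast h3
  · have h3 : 8 * ((q.c : ℝ) - 1) < (b : ℝ) * 2 ^ q.j := by nlinarith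
    exact_mod_cast h3

/-- the test on all pieces meeting `(a / 8, b / 8]` -/
def checkO (P n dg pr : ℕ) (err : ℕ → ℕ) (a b : ℤ) (e : Ex) (p : Pc) (ps : List Pc) : Bool :=
  (p :: ps).all fun q => !(inO a b q) || TM.posT n (e.evT dg pr (q.envT P err))

theorem pieceO_sound {P n dg pr m : ℕ} {err : ℕ → ℕ} {a b : ℤ} {e : Ex} {q : Pc}
    (he : e.bnd m = true)
    (h : (!(inO a b q) || TM.posT n (e.evT dg pr (q.envT P err))) = true) {z : ℝ}
    (h1 : q.lo < z) (h2 : z ≤ q.hi) (ha : (a : ℝ) / 8 < z) (hb : z ≤ (b : ℝ) / 8) {w : ℕ → ℝ}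
    (hw0 : w 0 = z)
    (hw : ∀ i ≤ m, |w i - val (fun k => q.v0 P k) (fun k => q.v1 P k) (fun k => q.v2 P k) i z|
      ≤ (err i : ℝ) / 2 ^ P) : 0 < e.evR w := by
  rw [inO_of h1 h2 ha hb] at h
  simp only [Bool.not_true, Bool.false_or] at h
  refine TM.posT_sound (Pc.abs_loc_le h1.le h2) (Ex.evT_mem (Pc.abs_loc_le h1.le h2) ?_ he) h
  intro i hi
  exact Pc.envT_mem (fun hi0 => by rw [hi0, hw0]) (hw i hi)

theorem checkO_sound {P n dg pr m : ℕ} {err : ℕ → ℕ} {a b : ℤ} {e : Ex} (he : e.bnd m = true) :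
    ∀ {p : Pc} {ps : List Pc}, chain adj p ps = true →
    checkO P n dg pr err a b e p ps = true → ∀ z, p.lo < z → z ≤ hiL p ps →
    (a : ℝ) / 8 < z → z ≤ (b : ℝ) / 8 → ∀ w : ℕ → ℝ, w 0 = z →
    (∀ i ≤ m, |w i - cv P p ps z i| ≤ (err i : ℝ) / 2 ^ P) → 0 < e.evR w
  | p, [], _, h, z, h1, h2, ha, hb, w, hw0, hw => by
    simp only [checkO, List.all_cons, List.all_nil, Bool.and_true] at h
    exact pieceO_sound he h h1 h2 ha hb hw0 hw
  | p, q :: ps, hch, h, z, h1, h2, ha, hb, w, hw0, hw => by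
    by_cases hz : z ≤ p.hi
    · simp only [checkO, List.all_cons, Bool.and_eq_true] at h
      refine pieceO_sound he h.1 h1 hz ha hb hw0 ?_
      intro i hi
      have := hw i hi
      unfold cv at this
      rwa [val_sel P p (q :: ps) z hz] at this
    · simp only [chain, Bool.and_eq_true] at hch
      have h' : checkO P n dg pr err a b e q ps = true := by
        simp only [checkO, List.all_cons, Bool.and_eq_true] at h ⊢
        exact h.2
      have hq : q.lo < z := by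
        rw [← adj_sound hch.1]
        exact not_le.1 hz
      refine checkO_sound he hch.2 h' z hq h2 ha hb w hw0 ?_
      have e2 : ∀ i, cv P p (q :: ps) z i = cv P q ps z i := by
        intro i
        have hs : ∀ g, sel g p (q :: ps) z = sel g q ps z := fun g => by simp [sel, hz]
        unfold cv val
        split
        · rfl
        · split <;> exact hs _
      intro i hi
      rw [← e2]
      exact hw i hi

/-- Taylor model test with triangle parameters -/
def checkTri (P n dg pr m : ℕ) (err : ℕ → ℕ) (a b : ℤ) (ts : List Tri) (e : Ex) (p : Pc)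
    (pcs : List Pc) : Bool :=
  okt ts e && (vt ts e).all fun e' => e'.bnd m && checkO P n dg pr err a b e' p pcs

theorem checkTri_sound {P n dg pr m : ℕ} {err : ℕ → ℕ} {a b : ℤ} {ts : List Tri} {e : Ex} {p : Pc}
    {pcs : List Pc} (hch : chain adj p pcs = true)
    (h : checkTri P n dg pr m err a b ts e p pcs = true) {z : ℝ}
    (h1 : p.lo < z) (h2 : z ≤ hiL p pcs) (ha : (a : ℝ) / 8 < z) (hb : z ≤ (b : ℝ) / 8)
    {w : ℕ → ℝ} (hw0 : w 0 = z)
    (hw : ∀ i ≤ m, |w i - cv P p pcs z i| ≤ (err i : ℝ) / 2 ^ P)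
    (hin : ∀ t ∈ ts, t.In w) : 0 < e.evR w := by
  simp only [checkTri, Bool.and_eq_true, List.all_eq_true] at h
  refine vt_sound h.1 hin fun e' he' => ?_
  have k := h.2 e' he'
  exact checkO_sound k.1 hch k.2 z h1 h2 ha hb w hw0 hw

end Crest.Agent.R146.PP4_454
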