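import Crest.Agent.R146.C2D_889
import Crest.Agent.R146.C2R_889
import Crest.Agent.R146.J_791
import Crest.Agent.R146.PP4_454
import Crest.Agent.R146.PtNum_846

/-!
# Row 146, helper889: windows of C2: final functions, check template, interface

`x` = label of the position `η = W x`.  `mpF, mmF` = the windows on the whole line.
Template `chkW`: integer check `checkBO` on `(a/8, b/8]`, variables
`0 = x`, `1 = W`, `2 = V`, `7 = q`, `19, 20, 21 = b, b', b''`, `22, 23, 24 = mm, mm', mm''`,
`25, 26, 27 = mp, mp', mp''`, parameters `28 = c`, `29 = δ ∈ [0, c]` (affine in each).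
-/

set_option autoImplicit false
set_option linter.style.longLine false

namespace Crest.Agent.R146.C2S_889

open Set Filter Topology
open PP865 EncR_848 Enc3_848
open Crest.Agent.R146.SPair_307 Crest.Agent.R146.RefX_355 Crest.Agent.R146.QEnc_865
open Crest.Agent.R146.C2D_889 Crest.Agent.R146.PP4_454
open Crest.Agent.R146.C1D_445 (b b1 b2)

/-! ### template -/

def checkBO (n dg pr : ℕ) (err : ℕ → ℕ) (a b : ℤ) (prm : List Prm) (e : Ex) : Bool :=
  okdeg prm e && (verts prm e).all fun e' => e'.bnd 27 && checkO 36 n dg pr err a b e' P1 PS1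

/-- error radii, `Q` = radius of `q` (units `2^-20`) -/
def err (Q : ℕ) (i : ℕ) : ℕ :=
  if i = 1 then 851968 else if i = 2 then 6422528 else if i = 7 then Q * 65536 else 0

def prm : List Prm := [(28, .cst 435929 20, .cst 435931 20), (29, .cst 0 0, .cst 435931 20)]

/-- values of the variables -/
noncomputable def env (c δ : ℝ) (W V I : ℝ → ℝ) (z : ℝ) (i : ℕ) : ℝ :=
  if i = 1 then W z else if i = 2 then V z else if i = 7 then qv V I z
  else if i = 28 then c else if i = 29 then δ else cv 36 P1 PS1 z i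

theorem lo8 : P1.lo = -8 := by
  have h : P1.c = -63 ∧ P1.j = 3 := by decide +kernel
  unfold Pc.lo
  rw [h.1, h.2]
  norm_num

theorem last_hi : (Enc1_848.lastP P1 PS1).c = 63 ∧ (Enc1_848.lastP P1 PS1).j = 3 := by
  decide +kernel

theorem hi8 : hiL P1 PS1 = 8 := by
  rw [Enc1_848.hiL_eq]
  unfold Pc.hi
  rw [last_hi.1, last_hi.2]
  norm_num

theorem F0_eq : Fn 36 0 P1 PS1 = Enc1_848.F 0 :=
  (Fn_exts (by norm_num) len7 _ _).trans ((Fn_exts (by norm_num) C1D_445.len6 _ _))
theorem F10_eq : Fn1 36 0 P1 PS1 = Enc1_848.F1 0 :=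
  (Fn1_exts (by norm_num) len7 _ _).trans ((Fn1_exts (by norm_num) C1D_445.len6 _ _))
theorem F2_eq : Fn 36 2 P1 PS1 = Enc1_848.F 2 :=
  (Fn_exts (by norm_num) len7 _ _).trans ((Fn_exts (by norm_num) C1D_445.len6 _ _))

section
variable {c : ℝ} {W V I k : ℝ → ℝ}

theorem chkW (h : SPair c W V I k c) {δ : ℝ} (hδ : 0 ≤ δ) (hδc : δ ≤ c) {Q n dg pr : ℕ}
    {a b : ℤ} {e : Ex} (he : checkBO n dg pr (err Q) a b prm e = true) {x : ℝ}
    (hQ : |qv V I x - Enc1_848.F 2 x| ≤ (Q : ℝ) / 2 ^ 20)
    (h8 : -8 < x) (h8' : x ≤ 8) (h1 : (a : ℝ) / 8 < x) (h2 : x ≤ (b : ℝ) / 8) :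
    0 < e.evR (env c δ W V I x) := by
  have E := enc h
  simp only [checkBO, Bool.and_eq_true, List.all_eq_true] at he
  refine verts_sound he.1 ?_ fun e' he' => ?_
  · intro q hq
    simp only [prm, List.mem_cons, List.not_mem_nil, or_false] at hq
    have e28 : env c δ W V I x 28 = c := rfl
    have e29 : env c δ W V I x 29 = δ := rfl
    have c1 := E.c_lo
    have c2 := E.c_hi
    rcases hq with rfl | rfl
    · simp only [Ex.evR_cst, e28]
      push_cast
      exact ⟨c1, c2⟩
    · simp only [Ex.evR_cst, e29]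
      push_cast
      exact ⟨by simpa using hδ, hδc.trans c2⟩
  · have k := he.2 e' he'
    refine checkO_sound k.1 adj_PS1 k.2 x (by rw [lo8]; exact h8) (by rw [hi8]; exact h8') h1 h2 _ rfl
      ?_
    intro i hi
    unfold env
    by_cases i1 : i = 1
    · rw [if_pos i1, i1]
      have := E.W8 x (by linarith) (by linarith)
      have e1 : cv 36 P1 PS1 x 1 = Enc1_848.F 0 x := congrFun F0_eq x
      rw [e1]
      refine this.trans (le_of_eq ?_)
      simp only [err]
      norm_num
    rw [if_neg i1]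
    by_cases i2 : i = 2
    · rw [if_pos i2, i2]
      have := E.V8 x (by linarith) (by linarith)
      have e1 : cv 36 P1 PS1 x 2 = Enc1_848.F1 0 x := congrFun F10_eq x
      rw [e1]
      refine this.trans (le_of_eq ?_)
      simp only [err]
      norm_num
    rw [if_neg i2]
    by_cases i7 : i = 7
    · rw [if_pos i7, i7]
      have e1 : cv 36 P1 PS1 x 7 = Enc1_848.F 2 x := congrFun F2_eq x
      rw [e1]
      refine hQ.trans (le_of_eq ?_)
      simp only [err]
      push_cast
      norm_num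
      ring
    rw [if_neg i7, if_neg (by omega), if_neg (by omega), sub_self, abs_zero]
    positivity

end

/-! ### values of the variables -/

section
variable (c δ : ℝ) (W V I : ℝ → ℝ) (x : ℝ)
theorem v0 : env c δ W V I x 0 = x := rfl
theorem v1 : env c δ W V I x 1 = W x := rfl
theorem v2 : env c δ W V I x 2 = V x := rfl
theorem v7 : env c δ W V I x 7 = qv V I x := rfl
theorem v28 : env c δ W V I x 28 = c := rfl
theorem v29 : env c δ W V I x 29 = δ := rfl
theorem v19 : env c δ W V I x 19 = b x := (congrFun b_eq x).symm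
theorem v20 : env c δ W V I x 20 = b1 x := (congrFun b1_eq x).symm
theorem v21 : env c δ W V I x 21 = b2 x := (congrFun b2_eq x).symm
theorem v22 : env c δ W V I x 22 = mm x := rfl
theorem v23 : env c δ W V I x 23 = mm1 x := rfl
theorem v25 : env c δ W V I x 25 = mp x := rfl
theorem v26 : env c δ W V I x 26 = mp1 x := rfl
end

/-! ### the windows on the whole line and the majorants -/

noncomputable def mpF (x : ℝ) : ℝ := if x ≤ 3 then mp x else mp 3 * Real.exp (-(x - 3))
noncomputable def mmF (x : ℝ) : ℝ := if x ≤ 3 then mm x else mm 3 * Real.exp (-(x - 3))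
/-- right derivatives -/
noncomputable def mpF1 (x : ℝ) : ℝ := if x < 3 then mp1 x else -(mp 3 * Real.exp (-(x - 3)))
noncomputable def mmF1 (x : ℝ) : ℝ := if x < 3 then mm1 x else -(mm 3 * Real.exp (-(x - 3)))

/-- constant majorants of `b + 2/1000` over the windows, `x > -1/4` -/
noncomputable def Ek (x : ℝ) : ℝ :=
  if x ≤ 0 then 332 / 1024 else if x ≤ 1 / 4 then 309 / 1024 else if x ≤ 1 / 2 then 330 / 1024
  else if x ≤ 3 / 4 then 360 / 1024 else 484 / 1024

noncomputable def Ep (x : ℝ) : ℝ := if x ≤ -1 / 4 then b x + 2098 / 2 ^ 20 else Ek x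
noncomputable def Em (x : ℝ) : ℝ :=
  if x ≤ -3 / 2 then b x - b1 x / 4 + 2706 / 2 ^ 20
  else if x ≤ -1 / 4 then b x - b1 x / 4 + 2098 / 2 ^ 20 + 15 / 1024 else Ek x

noncomputable def sg (x : ℝ) : ℝ :=
  if x ≤ 5 / 2 then 458 / 256 else if x ≤ 11 / 4 then 555 / 256 else 652 / 256

/-- lower bound of `I y / V x` at the lower end of the window -/
noncomputable def Lx (c δ : ℝ) (W V I : ℝ → ℝ) (x : ℝ) : ℝ :=
  if x ≤ -3 / 2 then I x / V x * (1 - δ * mmF x)
  else if x ≤ 2 then max 0 (I x / V x - δ * (k1x c W V I x * mmF x)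
    - δ ^ 2 * mmF x ^ 2 * (153 / 100) / (2 * (I x / V x) * (1 - δ * mmF x)))
  else I x / V x + δ * (sg x * mmF x)

end Crest.Agent.R146.C2S_889
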