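import Crest.Agent.R146.C2Mid_454
import Crest.Agent.R146.C2S_889
import Crest.Agent.R146.PtNum_846

/-!
# Row 146, helper454: assembly of `PtNum_846.C2`

`c2_of` : windows on the whole line + two point bounds of the slope shape + tails ⇒ `C2`.
-/

set_option autoImplicit false

namespace Crest.Agent.R146.C2Asm_454

open Set
open Crest.Agent.R146.SPair_307 Crest.Agent.R146.RefX_355 Crest.Agent.R146.RefWS_355
open Crest.Agent.R146.C2R_889 Crest.Agent.R146.C2Prof_454 Crest.Agent.R146.C2Env_454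
open Crest.Agent.R146.PtNum_846
open Crest.Agent.R146.C2S_889 (mpF mmF Ek)
open Crest.Agent.R146.YW_177 (LStat)
open Crest.Agent.R146.PtRef_846 (PotR)
open Crest.Agent.R146.C1D_445 (b b1)

noncomputable section

/-- the level window at the position label `z` -/
def Wd (δ : ℝ) (V : ℝ → ℝ) (x z : ℝ) : Prop :=
  V z * (1 - δ * mmF z) ≤ V x ∧ V x ≤ V z * (1 + δ * mpF z)

/-- the three inequalities of `C2` at one point -/
def Th (c δ : ℝ) (W V I k : ℝ → ℝ) (x z y j : ℝ) : Prop :=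
  1 / 100 ≤ PotR y (V x) (L1 c W V k z) ∧
    LStat 1 y (V x) (j * I x) (W z) (k z) (L1 c W V k z) (L2 c W V I k z)
      ≤ δ * (7 / 5) * PotR y (V x) (L1 c W V k z) ∧
    -(δ * (23 / 20) * PotR y (V x) (L1 c W V k z))
      ≤ LStat 1 y (V x) (j * I x) (W z) (k z) (L1 c W V k z) (L2 c W V I k z)

/-- bounds of the shape over the window -/
structure Bd (δ : ℝ) (V : ℝ → ℝ) (x z : ℝ) : Prop where
  emL : z ≤ -1 / 4 → x ≤ z → b x + 2 / 1000 ≤ b z - 3 / 5 * δ * b1 z + δ ^ 2 / 10 + 2 / 1000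
  epL : z ≤ -1 / 4 → z ≤ x → b x ≤ b z
  eR : -1 / 4 < z → b x + 2 / 1000 ≤ Ek z
  eR' : 3 / 4 < z → b x + 2 / 1000 ≤ 472 / 1000

theorem Ek_le {δ x z r : ℝ} (hz : -1 / 4 < z) (h1 : b x + 2 / 1000 ≤ Ek z)
    (h2 : 3 / 4 < z → b x + 2 / 1000 ≤ 472 / 1000) : b x + 2 / 1000 ≤ BX δ z r := by
  have h0 : ¬ z ≤ -(1 / 4) := by linarith
  unfold BX
  rw [if_neg h0]
  unfold Ek at h1
  split_ifs at h1 ⊢ with a1 a2 a3 a4
  · exact h1.trans (by norm_num)
  · exact h1.trans (by norm_num)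
  · exact h1.trans (by norm_num)
  · exact h1.trans (by norm_num)
  · exact h2 (not_le.1 a4)

theorem mid_of {c : ℝ} {W V I k : ℝ → ℝ} (h : SPair c W V I k c) {δ : ℝ} (hδ : 0 < δ)
    (hδc : δ ≤ c) {x z : ℝ} (hz1 : -5 < z) (hz2 : z ≤ 3) (hw : Wd δ V x z) (hb : Bd δ V x z)
    {y j : ℝ} (hy : y = nl c δ (δ / 1000) ∨ y = nu c δ (δ / 1000))
    (hj : j = (1 - δ / 1000) * (1 - δ * b x) ∨ j = (1 + δ / 1000) * (1 + δ * b x)) :
    Th c δ W V I k x z y j := by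
  obtain ⟨w1, w2⟩ := hw
  have e1 : mmF z = C2D_889.mm z := if_pos hz2
  have e2 : mpF z = C2D_889.mp z := if_pos hz2
  rw [e1] at w1
  rw [e2] at w2
  refine C2Mid_454.mid2 h hδ hδc hz1 hz2 w1 w2 ?_ ?_ hy hj
  · intro hzx
    rcases le_or_gt z (-1 / 4) with g | g
    · have := hb.epL g hzx
      unfold BX
      rw [if_pos (by linarith), if_pos le_rfl]
      linarith
    · exact Ek_le g (hb.eR g) hb.eR'
  · intro hxz
    rcases le_or_gt z (-1 / 4) with g | g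
    · have := hb.emL g hxz.le
      unfold BX
      rw [if_pos (by linarith), if_neg (by norm_num)]
      exact this
    · exact Ek_le g (hb.eR g) hb.eR'

theorem c2_of
    (win : ∀ (c : ℝ) (W V I k : ℝ → ℝ), SPair c W V I k c → ∀ δ, 0 < δ → δ ≤ c → ∀ x z,
      Pos δ W V x z → Wd δ V x z)
    (bd : ∀ (c : ℝ) (W V I k : ℝ → ℝ), SPair c W V I k c → ∀ δ, 0 < δ → δ ≤ c → ∀ x z,
      -5 < z → z ≤ 3 → Wd δ V x z → Bd δ V x z)
    (tails : ∀ (c : ℝ) (W V I k : ℝ → ℝ), SPair c W V I k c → ∀ δ, 0 < δ → δ ≤ c → ∀ x z,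
      (z ≤ -5 ∨ 3 < z) → Wd δ V x z → ∀ y j,
      (y = nl c δ (δ / 1000) ∨ y = nu c δ (δ / 1000)) →
      (j = (1 - δ / 1000) * (1 - δ * b x) ∨ j = (1 + δ / 1000) * (1 + δ * b x)) →
      Th c δ W V I k x z y j) : C2 := by
  have key : ∀ (c : ℝ) (W V I k : ℝ → ℝ), SPair c W V I k c → ∀ δ, 0 < δ → δ ≤ c → ∀ x z,
      Pos δ W V x z → ∀ y j, (y = nl c δ (δ / 1000) ∨ y = nu c δ (δ / 1000)) →
      (j = (1 - δ / 1000) * (1 - δ * b x) ∨ j = (1 + δ / 1000) * (1 + δ * b x)) →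
      Th c δ W V I k x z y j := by
    intro c W V I k h δ hδ hδc x z hp y j hy hj
    have hw := win c W V I k h δ hδ hδc x z hp
    rcases le_or_gt z (-5) with g | g
    · exact tails c W V I k h δ hδ hδc x z (Or.inl g) hw y j hy hj
    rcases le_or_gt z 3 with g' | g'
    · exact mid_of h hδ hδc g g' hw (bd c W V I k h δ hδ hδc x z g g' hw) hy hj
    · exact tails c W V I k h δ hδ hδc x z (Or.inr g') hw y j hy hj
  refine ⟨?_, ?_, ?_⟩
  · intro c W V I k h δ hδ hδc x z hp y j hy hj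
    exact (key c W V I k h δ hδ hδc x z hp y j hy hj).2.1
  · intro c W V I k h δ hδ hδc x z hp y j hy hj
    exact (key c W V I k h δ hδ hδc x z hp y j hy hj).2.2
  · intro c W V I k h δ hδ hδc x z hp y hy
    exact (key c W V I k h δ hδ hδc x z hp y _ hy (Or.inl rfl)).1

end

end Crest.Agent.R146.C2Asm_454
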