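import Crest.Agent.R146.C2Prof_454

/-!
# Row 146, helper454: law cells of NUMREF (C2), the theorem

`law` : for the closed stationary pair, `-5 < x ≤ 3` the label of the position, `r`, `β`, `ε` the level
shift, the slope ratio and the concavity gap: potential `≥ 1/100` and `-23/20 PX ≤ SX ≤ 7/5 PX`.
-/

set_option autoImplicit false
set_option linter.unusedVariables false
set_option linter.unusedSimpArgs false

namespace Crest.Agent.R146.C2Cell_454

open Set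
open PP865 EncR_848 PP4_454 C2Data_454 C2Eng_454 C2Ex_454 C2Alg_454 C2Env_454 C2Comp_454 C2Prof_454
open Crest.Agent.R146.SPair_307 Crest.Agent.R146.RefX_355
open Crest.Agent.R146.C2R_889 (SX PX HX)

noncomputable section

variable {c : ℝ} {W V I k : ℝ → ℝ}

/-- both inequalities for `q P`, `q S` -/
def Fin2 (c : ℝ) (W V I k : ℝ → ℝ) (x δ ν r H : ℝ) : Prop :=
  0 < 1433 / 1024 * QP (qx V I x) (V x) (K1 c W V k x) (c + δ * ν) δ r
      - QS (qx V I x) (V x) (k x) (K1 c W V k x) (gQ c W V I k x) (gB c W V I k x) (c + δ * ν) ν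
        δ r H ∧
    0 < 1177 / 1024 * QP (qx V I x) (V x) (K1 c W V k x) (c + δ * ν) δ r
      + QS (qx V I x) (V x) (k x) (K1 c W V k x) (gQ c W V I k x) (gB c W V I k x) (c + δ * ν) ν
        δ r H

section base

variable {x : ℝ} (h : SPair c W V I k c)
include h

theorem q_pos (x : ℝ) : 0 < qx V I x :=
  div_pos (mul_pos (h.V_pos x) (by linarith [h.V_lt x])) (h.I_pos x)

theorem q_p (x : ℝ) : qx V I x * (I x / V x) = 1 - V x := by
  have := (h.V_pos x).ne'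
  have := (h.I_pos x).ne'
  unfold qx
  field_simp

theorem q_ir (x : ℝ) : qx V I x * (I x / (1 - V x)) = V x := by
  have := (h.I_pos x).ne'
  have : 1 - V x ≠ 0 := by linarith [h.V_lt x]
  unfold qx
  field_simp

end base

theorem wf25 (x : ℝ) : wf c W V I k x 25 = Mm x := rfl
theorem wf22 (x : ℝ) : wf c W V I k x 22 = Mp x := rfl

/-- upper form -/
theorem form_p (h : SPair c W V I k c) {x δ r β ε : ℝ} {j : ℕ} {B : ℝ}
    (hj : wf c W V I k x j = B) (hβ : |β| ≤ B) (hδ : 0 < δ) (hε : 0 ≤ ε)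
    (hpos : 0 ≤ I x / V x + δ * (k1x c W V I x * r - ε)) :
    qx V I x * HX δ (I x / V x) (k1x c W V I x) r β ε
      ≤ HF.val (fP (.var j)) (wf c W V I k x) δ r := by
  have := h_le (q_pos h x) (q_p h x) (rfl : qx V I x * k1x c W V I x = gT c W V I x) hβ hδ.le hε
    hpos
  unfold HX
  refine this.trans (le_of_eq ?_)
  simp only [HF.val, fP, C2Ex_454.eR, Ex.evR_mul, Ex.evR_sub, Ex.evR_var, Ex.evR_cst,
    Enc1_848.evR_one, hj]
  rw [show wf c W V I k x 2 = V x from rfl, show wf c W V I k x 34 = gT c W V I x from rfl]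
  norm_num [gT]

/-- Taylor form -/
theorem form_t (h : SPair c W V I k c) {x δ r β ε : ℝ} {j l : ℕ} {B K : ℝ}
    (hj : wf c W V I k x j = B) (hl : wf c W V I k x l = K) (hβ : |β| ≤ B) (hδ : 0 < δ)
    (hε : 0 ≤ ε) (hpos : 0 ≤ I x / V x + δ * (k1x c W V I x * r - ε)) (hK : ε ≤ δ * K) :
    HF.val (fT (.var j) (.var l)) (wf c W V I k x) δ r
      ≤ qx V I x * HX δ (I x / V x) (k1x c W V I x) r β ε := by
  have := le_h_T (q_pos h x) (q_p h x) (rfl : qx V I x * k1x c W V I x = gT c W V I x) hβ hδ.le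
    hpos hε hK
  unfold HX
  refine le_trans (le_of_eq ?_) this
  simp only [HF.val, fT, C2Ex_454.eR, Ex.evR_mul, Ex.evR_sub, Ex.evR_neg, Ex.evR_var, Ex.evR_cst,
    Enc1_848.evR_one, hj, hl]
  rw [show wf c W V I k x 2 = V x from rfl, show wf c W V I k x 34 = gT c W V I x from rfl,
    show wf c W V I k x 7 = qx V I x from rfl]
  rfl

/-- chord form, `r ≤ 0` -/
theorem form_c0 (h : SPair c W V I k c) {x δ r β ε : ℝ} {j : ℕ} {B : ℝ}
    (hj : wf c W V I k x j = B) (hβ : |β| ≤ B) (hδB : δ * B ≤ 1)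
    (hpos : 0 ≤ I x / V x + δ * (k1x c W V I x * r - ε))
    (hc : ε ≤ (I x / V x - k1x c W V I x) * (-r)) :
    HF.val (fC0 (.var j)) (wf c W V I k x) δ r
      ≤ qx V I x * HX δ (I x / V x) (k1x c W V I x) r β ε := by
  have := le_h_C0 (q_pos h x) (q_p h x) hβ hδB hpos hc
  unfold HX
  refine le_trans (le_of_eq ?_) this
  simp only [HF.val, fC0, C2Ex_454.eR, Ex.evR_mul, Ex.evR_sub, Ex.evR_neg, Ex.evR_var, Ex.evR_cst,
    Enc1_848.evR_one, hj]
  rw [show wf c W V I k x 2 = V x from rfl]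
  norm_num

/-- chord form, `0 ≤ r` -/
theorem form_c1 (h : SPair c W V I k c) {x δ r β ε : ℝ} {j : ℕ} {B : ℝ}
    (hj : wf c W V I k x j = B) (hβ : |β| ≤ B) (hδB : δ * B ≤ 1)
    (hpos : 0 ≤ I x / V x + δ * (k1x c W V I x * r - ε))
    (hc : ε ≤ (I x / (1 - V x) + k1x c W V I x) * r) :
    HF.val (fC1 (.var j)) (wf c W V I k x) δ r
      ≤ qx V I x * HX δ (I x / V x) (k1x c W V I x) r β ε := by
  have := le_h_C1 (q_pos h x) (q_p h x) (q_ir h x) hβ hδB hpos hc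
  unfold HX
  refine le_trans (le_of_eq ?_) this
  simp only [HF.val, fC1, C2Ex_454.eR, Ex.evR_mul, Ex.evR_sub, Ex.evR_neg, Ex.evR_var, Ex.evR_cst,
    Enc1_848.evR_one, hj]
  rw [show wf c W V I k x 2 = V x from rfl]
  norm_num

section main

variable {x δ ν r β ε : ℝ}

theorem right_side (h : SPair c W V I k c) (h1 : -5 < x) (h2 : x ≤ 3) (hδ : 0 < δ)
    (hδc : δ ≤ c) (hν : |ν| ≤ 1001 / 1000) (hn7 : c + δ * ν ≤ 7 / 10 + δ / 1000) (hr : 0 ≤ r)
    (hr2 : r ≤ Mp x) (hβ : |β| ≤ BX δ x r) (hε : 0 ≤ ε)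
    (hpos : 0 ≤ I x / V x + δ * (k1x c W V I x * r - ε))
    (ht1 : x ≤ 3 / 4 → ε * (2 * (I x / V x) * (1 - V x - δ * V x * Mp x))
      ≤ 153 / 100 * δ * r ^ 2 * (1 - V x))
    (hc1 : 3 / 4 < x → ε ≤ (I x / (1 - V x) + k1x c W V I x) * r) :
    Fin2 c W V I k x δ ν r (qx V I x * HX δ (I x / V x) (k1x c W V I x) r β ε) := by
  have hc2 : c ≤ 435931 / 2 ^ 20 := (Enc3_848.enc h).c_hi
  have hB : |β| ≤ wf c W V I k x 46 := hβ.trans (BX_p h1 h2 hr)
  have hB2 : wf c W V I k x 46 ≤ 5 / 4 := Bp_le h1 h2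
  have hδB : δ * wf c W V I k x 46 ≤ 1 := by
    have hB0 : 0 ≤ wf c W V I k x 46 := (abs_nonneg β).trans hB
    norm_num at hc2
    nlinarith
  have hrM : (0 ≤ r ∧ r ≤ (Ex.var 22).evR (wf c W V I k x)) ∨
      (r ≤ 0 ∧ (Ex.var 22).evR (wf c W V I k x) ≤ r) := Or.inl ⟨hr, hr2⟩
  have hu := form_p (j := 46) h rfl hB hδ hε hpos
  rcases le_or_gt x (3 / 4) with hx | hx
  · have hK : 0 < cv 36 P1 PS1 x 28 :=
      use0 rfl C2X5_454.kp h1 h2 (by norm_num; linarith) (by norm_num; linarith)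
    rcases le_or_gt x (-4) with g1 | g1
    · have hp := proA h h1 g1
      have hl := form_t (j := 46) (l := 28) h rfl rfl hB hδ hε hpos
        (epsP h h1 h2 hp C2X1_454.kPA hK hδ hδc hε hr hr2 (ht1 hx))
      exact cell h h1 h2 hp.prf C2X1_454.cAp (Or.inl (kpos_of h h1 h2 hp C2X5_454.kA))
        (sig_of h h1 h2 hp C2X5_454.sA) hrM hδ hδc rfl hν hn7 hu hl
    rcases le_or_gt x (-2) with g2 | g2
    · have hp := proB h g1 g2
      have hl := form_t (j := 46) (l := 28) h rfl rfl hB hδ hε hpos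
        (epsP h h1 h2 hp C2X1_454.kPB hK hδ hδc hε hr hr2 (ht1 hx))
      exact cell h h1 h2 hp.prf C2X1_454.cBp (Or.inl (kpos_of h h1 h2 hp C2X5_454.kB))
        (sig_of h h1 h2 hp C2X5_454.sB) hrM hδ hδc rfl hν hn7 hu hl
    rcases le_or_gt x (-(1 / 4)) with g3 | g3
    · have hp := proC h g2 g3
      have hl := form_t (j := 46) (l := 28) h rfl rfl hB hδ hε hpos
        (epsP h h1 h2 hp C2X2_454.kPC hK hδ hδc hε hr hr2 (ht1 hx))
      exact cell h h1 h2 hp.prf C2X2_454.cCp (Or.inl (kpos_of h h1 h2 hp C2X5_454.kC))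
        (sig_of h h1 h2 hp C2X5_454.sC) hrM hδ hδc rfl hν hn7 hu hl
    · have hp := proD h g3 hx
      have hl := form_t (j := 46) (l := 28) h rfl rfl hB hδ hε hpos
        (epsP h h1 h2 hp C2X3_454.kPD hK hδ hδc hε hr hr2 (ht1 hx))
      exact cell h h1 h2 hp.prf C2X3_454.cDp (Or.inr C2X3_454.xDp)
        (sig_of h h1 h2 hp C2X5_454.sD) hrM hδ hδc rfl hν hn7 hu hl
  · have hl := form_c1 (j := 46) h rfl hB hδB hpos (hc1 hx)
    rcases le_or_gt x 1 with g1 | g1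
    · have hp := proE h hx g1
      exact cell h h1 h2 hp.prf C2X3_454.cEp (Or.inr C2X3_454.xEp)
        (sig_of h h1 h2 hp C2X5_454.sE) hrM hδ hδc rfl hν hn7 hu hl
    · have hp := proF h g1 h2
      exact cell h h1 h2 hp.prf C2X4_454.cFp (Or.inr C2X4_454.xFp)
        (sig_of h h1 h2 hp C2X5_454.sF) hrM hδ hδc rfl hν hn7 hu hl

theorem left_side (h : SPair c W V I k c) (h1 : -5 < x) (h2 : x ≤ 3) (hδ : 0 < δ)
    (hδc : δ ≤ c) (hν : |ν| ≤ 1001 / 1000) (hn7 : c + δ * ν ≤ 7 / 10 + δ / 1000) (hr : r < 0)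
    (hr2 : -Mm x ≤ r) (hβ : |β| ≤ BX δ x r) (hε : 0 ≤ ε)
    (hpos : 0 ≤ I x / V x + δ * (k1x c W V I x * r - ε))
    (ht1 : -2 < x → x ≤ 1 → ε * (2 * (I x / V x) * (1 - δ * Mm x)) ≤ 153 / 100 * δ * r ^ 2)
    (hc1 : (x ≤ -2 ∨ 1 < x) → ε ≤ (I x / V x - k1x c W V I x) * (-r)) :
    Fin2 c W V I k x δ ν r (qx V I x * HX δ (I x / V x) (k1x c W V I x) r β ε) := by
  have hc2 : c ≤ 435931 / 2 ^ 20 := (Enc3_848.enc h).c_hi
  have hB : |β| ≤ wf c W V I k x 49 := hβ.trans (BX_m h1 h2 hr hδ (hδc.trans hc2))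
  have hB2 : wf c W V I k x 49 ≤ 5 / 4 := Bm_le h1 h2
  have hδB : δ * wf c W V I k x 49 ≤ 1 := by
    have hB0 : 0 ≤ wf c W V I k x 49 := (abs_nonneg β).trans hB
    norm_num at hc2
    nlinarith
  have hrM : (0 ≤ r ∧ r ≤ (-(Ex.var 25)).evR (wf c W V I k x)) ∨
      (r ≤ 0 ∧ (-(Ex.var 25)).evR (wf c W V I k x) ≤ r) := by
    refine Or.inr ⟨hr.le, ?_⟩
    rw [Ex.evR_neg]
    exact hr2
  have hu := form_p (j := 49) h rfl hB hδ hε hpos
  rcases le_or_gt x (-4) with g1 | g1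
  · have hp := proA h h1 g1
    have hl := form_c0 (j := 49) h rfl hB hδB hpos (hc1 (Or.inl (by linarith)))
    exact cell h h1 h2 hp.prf C2X1_454.cAm (Or.inl (kpos_of h h1 h2 hp C2X5_454.kA))
      (sig_of h h1 h2 hp C2X5_454.sA) hrM hδ hδc rfl hν hn7 hu hl
  rcases le_or_gt x (-2) with g2 | g2
  · have hp := proB h g1 g2
    have hl := form_c0 (j := 49) h rfl hB hδB hpos (hc1 (Or.inl g2))
    exact cell h h1 h2 hp.prf C2X1_454.cBm (Or.inl (kpos_of h h1 h2 hp C2X5_454.kB))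
      (sig_of h h1 h2 hp C2X5_454.sB) hrM hδ hδc rfl hν hn7 hu hl
  rcases le_or_gt x 1 with g5 | g5
  · rcases le_or_gt x (-(1 / 4)) with g3 | g3
    · have hp := proC h g2 g3
      have hl := form_t (j := 49) (l := 31) h rfl rfl hB hδ hε hpos
        (epsM h h1 h2 hp C2X2_454.kMC hδ hδc hε hr.le hr2 (ht1 g2 g5))
      exact cell h h1 h2 hp.prf C2X2_454.cCm (Or.inl (kpos_of h h1 h2 hp C2X5_454.kC))
        (sig_of h h1 h2 hp C2X5_454.sC) hrM hδ hδc rfl hν hn7 hu hl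
    rcases le_or_gt x (3 / 4) with g4 | g4
    · have hp := proD h g3 g4
      have hl := form_t (j := 49) (l := 31) h rfl rfl hB hδ hε hpos
        (epsM h h1 h2 hp C2X3_454.kMD hδ hδc hε hr.le hr2 (ht1 g2 g5))
      exact cell h h1 h2 hp.prf C2X3_454.cDm (Or.inr C2X3_454.xDm)
        (sig_of h h1 h2 hp C2X5_454.sD) hrM hδ hδc rfl hν hn7 hu hl
    · have hp := proE h g4 g5
      have hl := form_t (j := 49) (l := 31) h rfl rfl hB hδ hε hpos
        (epsM h h1 h2 hp C2X3_454.kME hδ hδc hε hr.le hr2 (ht1 g2 g5))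
      exact cell h h1 h2 hp.prf C2X3_454.cEm (Or.inr C2X3_454.xEm)
        (sig_of h h1 h2 hp C2X5_454.sE) hrM hδ hδc rfl hν hn7 hu hl
  · have hp := proF h g5 h2
    have hl := form_c0 (j := 49) h rfl hB hδB hpos (hc1 (Or.inr g5))
    exact cell h h1 h2 hp.prf C2X4_454.cFm (Or.inr C2X4_454.xFm)
      (sig_of h h1 h2 hp C2X5_454.sF) hrM hδ hδc rfl hν hn7 hu hl

/-- `k' ≥ -70/1024` -/
theorem k_low (h : SPair c W V I k c) (h1 : -5 < x) (h2 : x ≤ 3) :
    -(70 / 1024) ≤ K1 c W V k x := by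
  rcases le_or_gt x (-4) with g1 | g1
  · linarith [kpos_of h h1 h2 (proA h h1 g1) C2X5_454.kA]
  rcases le_or_gt x (-2) with g2 | g2
  · linarith [kpos_of h h1 h2 (proB h g1 g2) C2X5_454.kB]
  rcases le_or_gt x (-(1 / 4)) with g3 | g3
  · linarith [kpos_of h h1 h2 (proC h g2 g3) C2X5_454.kC]
  rcases le_or_gt x (3 / 4) with g4 | g4
  · exact klow_of h h1 h2 (proD h g3 g4) C2X5_454.kD
  rcases le_or_gt x 1 with g5 | g5
  · exact klow_of h h1 h2 (proE h g4 g5) C2X5_454.kE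
  · exact klow_of h h1 h2 (proF h g5 h2) C2X5_454.kF

/-- the potential -/
theorem pot (h : SPair c W V I k c) (h1 : -5 < x) (h2 : x ≤ 3) (hδ : 0 < δ) (hδc : δ ≤ c)
    (hn0 : 0 ≤ c + δ * ν) (hn7 : c + δ * ν ≤ 7 / 10 + δ / 1000) (hr1 : -Mm x ≤ r)
    (hr2 : r ≤ Mp x) : 1 / 100 ≤ PX c δ ν (V x) (K1 c W V k x) r := by
  have hc2 : c ≤ 435931 / 2 ^ 20 := (Enc3_848.enc h).c_hi
  have hk := k_low h h1 h2
  have hV := h.V_pos x
  have a1 := Mp_le h1 h2
  have a2 := Mm_le h1 h2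
  norm_num at hc2
  have e1 : PX c δ ν (V x) (K1 c W V k x) r
      = (1 - (c + δ * ν)) / 2 + (1 + δ * r) * (K1 c W V k x + (c + δ * ν) * V x) := by
    unfold PX; ring
  rw [e1]
  have b1 : -(55 / 100) ≤ δ * r := by nlinarith
  have b2 : δ * r ≤ 55 / 100 := by nlinarith
  have b3 : -(70 / 1024) ≤ K1 c W V k x + (c + δ * ν) * V x := by
    have := mul_nonneg hn0 hV.le
    linarith
  have b4 : -(155 / 100 * (70 / 1024)) ≤ (1 + δ * r) * (K1 c W V k x + (c + δ * ν) * V x) := by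
    rcases le_total 0 (K1 c W V k x + (c + δ * ν) * V x) with hs | hs
    · have := mul_nonneg (by linarith : 0 ≤ 1 + δ * r) hs
      linarith
    · nlinarith
  linarith

/-- **the law cells**: position label `x ∈ (-5, 3]` -/
theorem law (h : SPair c W V I k c) (h1 : -5 < x) (h2 : x ≤ 3) (hδ : 0 < δ) (hδc : δ ≤ c)
    (hν : |ν| ≤ 1001 / 1000) (hn0 : 0 ≤ c + δ * ν) (hn7 : c + δ * ν ≤ 7 / 10 + δ / 1000)
    (hr1 : -Mm x ≤ r) (hr2 : r ≤ Mp x) (hβ : |β| ≤ BX δ x r) (hε : 0 ≤ ε)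
    (hpos : 0 ≤ I x / V x + δ * (k1x c W V I x * r - ε))
    (ht0 : r < 0 → -2 < x → x ≤ 1 →
      ε * (2 * (I x / V x) * (1 - δ * Mm x)) ≤ 153 / 100 * δ * r ^ 2)
    (ht1 : 0 ≤ r → x ≤ 3 / 4 → ε * (2 * (I x / V x) * (1 - V x - δ * V x * Mp x))
      ≤ 153 / 100 * δ * r ^ 2 * (1 - V x))
    (hc0 : r < 0 → (x ≤ -2 ∨ 1 < x) → ε ≤ (I x / V x - k1x c W V I x) * (-r))
    (hc1 : 0 ≤ r → 3 / 4 < x → ε ≤ (I x / (1 - V x) + k1x c W V I x) * r) :
    1 / 100 ≤ PX c δ ν (V x) (K1 c W V k x) r ∧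
    SX c δ ν (I x / V x) (W x / V x) (V x) (k x) (K1 c W V k x) (K2 c W V I k x) r
        (HX δ (I x / V x) (k1x c W V I x) r β ε)
      ≤ 7 / 5 * PX c δ ν (V x) (K1 c W V k x) r ∧
    -(23 / 20 * PX c δ ν (V x) (K1 c W V k x) r)
      ≤ SX c δ ν (I x / V x) (W x / V x) (V x) (k x) (K1 c W V k x) (K2 c W V I k x) r
        (HX δ (I x / V x) (k1x c W V I x) r β ε) := by
  have hP := pot (ν := ν) h h1 h2 hδ hδc hn0 hn7 hr1 hr2
  have hF : Fin2 c W V I k x δ ν r (qx V I x * HX δ (I x / V x) (k1x c W V I x) r β ε) := by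
    rcases lt_or_ge r 0 with hr | hr
    · exact left_side h h1 h2 hδ hδc hν hn7 hr hr1 hβ hε hpos (ht0 hr) (hc0 hr)
    · exact right_side h h1 h2 hδ hδc hν hn7 hr hr2 hβ hε hpos (ht1 hr) (hc1 hr)
  have hq := q_pos h x
  have hqp := q_p h x
  set H := HX δ (I x / V x) (k1x c W V I x) r β ε with hH
  have eP : QP (qx V I x) (V x) (K1 c W V k x) (c + δ * ν) δ r
      = qx V I x * PX c δ ν (V x) (K1 c W V k x) r := by
    unfold QP PX; ring
  have eS : QS (qx V I x) (V x) (k x) (K1 c W V k x) (gQ c W V I k x) (gB c W V I k x)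
      (c + δ * ν) ν δ r (qx V I x * H)
      = qx V I x * SX c δ ν (I x / V x) (W x / V x) (V x) (k x) (K1 c W V k x) (K2 c W V I k x) r
        H := by
    have e3 : SX c δ ν (I x / V x) (W x / V x) (V x) (k x) (K1 c W V k x) (K2 c W V I k x) r H
      = r * (1 + δ * r / 2) * (K2 c W V I k x - K1 c W V k x * (I x / V x))
        + (H - k x * r - ν * (W x / V x) / 2) * K1 c W V k x + ν * (1 / 2 - V x) * k x
        - (c + δ * ν) * V x * r * k x + ν * V x * (I x / V x) + (c + δ * ν) * V x * H := rfl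
    rw [e3]
    unfold QS gQ gB
    rw [← hqp]
    ring
  unfold Fin2 at hF
  rw [eP, eS] at hF
  obtain ⟨f1, f2⟩ := hF
  have g1 : 0 < qx V I x * (1433 / 1024 * PX c δ ν (V x) (K1 c W V k x) r
      - SX c δ ν (I x / V x) (W x / V x) (V x) (k x) (K1 c W V k x) (K2 c W V I k x) r H) := by
    linarith
  have g2 : 0 < qx V I x * (1177 / 1024 * PX c δ ν (V x) (K1 c W V k x) r
      + SX c δ ν (I x / V x) (W x / V x) (V x) (k x) (K1 c W V k x) (K2 c W V I k x) r H) := by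
    linarith
  have g3 := pos_of_mul_pos_right g1 hq.le
  have g4 := pos_of_mul_pos_right g2 hq.le
  refine ⟨hP, ?_, ?_⟩
  · linarith
  · linarith

end main

end

end Crest.Agent.R146.C2Cell_454
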