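import Crest.Agent.R146.C2Env_454

/-!
# Row 146, helper454: law cells of NUMREF (C2), composites and the generic cell

`comps` : `q T`, `q k'' - R k'`, `q B` inside their radii; `cellU`, `cellD` : upper and lower inequality
from the checks of one profile.
-/

set_option autoImplicit false
set_option linter.unusedVariables false
set_option linter.unusedSimpArgs false

namespace Crest.Agent.R146.C2Comp_454

open Set
open PP865 EncR_848 PP4_454 C2Data_454 C2Eng_454 C2Ex_454 C2Alg_454 C2Env_454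
open Crest.Agent.R146.SPair_307 Crest.Agent.R146.RefX_355

noncomputable section

variable {c : ℝ} {W V I k : ℝ → ℝ}

/-- the radii of the base values -/
structure Rad (c : ℝ) (W V k : ℝ → ℝ) (x : ℝ) (er : ℕ → ℕ) : Prop where
  a1 : 851968 ≤ er 1
  a2 : 6422528 ≤ er 2
  a4 : |k x - Enc1_848.F 1 x| ≤ (er 4 : ℝ) / 2 ^ 36
  a5 : |K1 c W V k x - Enc1_848.F1 1 x| ≤ (er 5 : ℝ) / 2 ^ 36
  a7 : 352 * 65536 ≤ er 7
  a43 : 65536 ≤ er 43

theorem abs_of_two {e d : ℝ} {N : ℤ} (h1 : 0 < (N : ℝ) / 2 ^ 20 - e)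
    (h2 : 0 < (N : ℝ) / 2 ^ 20 + e) : |e| ≤ (N : ℝ) / 2 ^ 20 :=
  abs_le.2 ⟨by linarith, by linarith⟩

theorem comps (h : SPair c W V I k c) {x : ℝ} (h1 : -5 < x) (h2 : x ≤ 3) {er : ℕ → ℕ}
    (hr : Rad c W V k x er) {lo hi t q b : ℤ} (hlo : (lo : ℝ) / 8 < x) (hhi : x ≤ (hi : ℝ) / 8)
    (hc : encl er lo hi t q b = true) :
    |gT c W V I x - cv 36 P1 PS1 x 34| ≤ (t : ℝ) / 2 ^ 20 ∧
    |gQ c W V I k x - cv 36 P1 PS1 x 37| ≤ (q : ℝ) / 2 ^ 20 ∧
    |gB c W V I k x - cv 36 P1 PS1 x 40| ≤ (b : ℝ) / 2 ^ 20 := by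
  have hI := (h.I_pos x).ne'
  have hV := (h.V_pos x).ne'
  set w := wv c W V I k x (cv 36 P1 PS1 x 34) (cv 36 P1 PS1 x 37) (cv 36 P1 PS1 x 40) with hw
  have hwe : ∀ i ≤ 49, |w i - cv 36 P1 PS1 x i| ≤ (er i : ℝ) / 2 ^ 36 :=
    wv_err h h1 h2 _ _ _ hr.a1 hr.a2 hr.a4 hr.a5 hr.a7 hr.a43 (by simp; positivity)
      (by simp; positivity) (by simp; positivity)
  have w0 : w 0 = x := rfl
  have w1 : w 1 = W x := rfl
  have w2 : w 2 = V x := rfl
  have w4 : w 4 = k x := rfl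
  have w7 : w 7 = qx V I x := rfl
  have w43 : w 43 = c := rfl
  have w34 : w 34 = cv 36 P1 PS1 x 34 := rfl
  have w37 : w 37 = cv 36 P1 PS1 x 37 := rfl
  have w40 : w 40 = cv 36 P1 PS1 x 40 := rfl
  simp only [encl, Bool.and_eq_true] at hc
  obtain ⟨⟨⟨⟨⟨c1, c2⟩, c3⟩, c4⟩, c5⟩, c6⟩ := hc
  have eT' : eT.evR w = gT c W V I x := by
    simp only [eT, eA2, Ex.evR_add, Ex.evR_mul, Ex.evR_sub, Ex.evR_var, Ex.evR_cst,
      Enc1_848.evR_one, Enc1_848.evR_two, w0, w1, w7, w43, gT, k1x, Ad]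
    ring
  have eK : eK1.evR w = K1 c W V k x := by
    simp only [eK1, eA2, eA2d, C2Ex_454.eR, Ex.evR_add, Ex.evR_mul, Ex.evR_sub, Ex.evR_var,
      Ex.evR_cst, Enc1_848.evR_one, Enc1_848.evR_two, w0, w1, w2, w4, w43, K1, YWRef_177.k1, Ad,
      Ad1]
    ring
  have eQ' : eQ.evR w = gQ c W V I k x := by
    simp only [eQ, eK2, Ex.evR_add, Ex.evR_mul, Ex.evR_sub, eK]
    simp only [eI, eA2, eA2d, C2Ex_454.eR, Ex.evR_add, Ex.evR_mul, Ex.evR_sub, Ex.evR_var,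
      Ex.evR_cst, Enc1_848.evR_one, Enc1_848.evR_two, w0, w1, w2, w4, w7, w43, gQ, K2,
      YWRef_177.k2, Ad, Ad1]
    rw [h.eqI x]
    simp only [Ad]
    ring
  have eqx : qx V I x * I x = V x * (1 - V x) := by
    unfold qx
    field_simp
  have hz : (1 + c) * (qx V I x * (W x / V x)) = (1 - V x) + 2 * Ad c W x * qx V I x := by
    have e1 : (1 + c) * W x = I x + 2 * Ad c W x * V x := by rw [h.eqI x]; ring
    have e2 : (1 + c) * (qx V I x * (W x / V x)) * V x = ((1 - V x) + 2 * Ad c W x * qx V I x) * V x := by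
      have : (1 + c) * (qx V I x * (W x / V x)) * V x = qx V I x * ((1 + c) * W x) := by
        field_simp
      rw [this, e1]
      linear_combination eqx
    exact mul_right_cancel₀ hV e2
  have eB' : eB.evR w = (1 + c) * gB c W V I k x := by
    simp only [eB, Ex.evR_add, Ex.evR_mul, Ex.evR_sub, eK]
    simp only [eA2, eA2d, hf, C2Ex_454.eR, Ex.evR_add, Ex.evR_mul, Ex.evR_sub, Ex.evR_var,
      Ex.evR_cst, Enc1_848.evR_one, Enc1_848.evR_two, w0, w1, w2, w4, w7, w43, gB]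
    push_cast
    have e3 : (1 + c) * (qx V I x * (W x / V x)) * K1 c W V k x
        = ((1 - V x) + 2 * Ad c W x * qx V I x) * K1 c W V k x := by rw [hz]
    simp only [Ad] at e3
    linear_combination (1 / 2 : ℝ) * e3
  have k1 := use 1 6 30 rfl c1 h1 h2 hlo hhi w0 hwe
  have k2 := use 1 6 30 rfl c2 h1 h2 hlo hhi w0 hwe
  have k3 := use 1 6 30 rfl c3 h1 h2 hlo hhi w0 hwe
  have k4 := use 1 6 30 rfl c4 h1 h2 hlo hhi w0 hwe
  have k5 := use 1 6 30 rfl c5 h1 h2 hlo hhi w0 hwe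
  have k6 := use 1 6 30 rfl c6 h1 h2 hlo hhi w0 hwe
  simp only [Ex.evR_add, Ex.evR_mul, Ex.evR_sub, Ex.evR_var, Ex.evR_cst, eT', eQ', eB', w34, w37,
    w40, w43, Enc1_848.evR_one] at k1 k2 k3 k4 k5 k6
  refine ⟨abs_of_two (d := 0) k1 k2, abs_of_two (d := 0) k3 k4, ?_⟩
  have hb := abs_of_two (d := 0) k5 k6
  rw [← mul_sub, abs_mul, abs_of_pos (by linarith [h.c_pos] : (0:ℝ) < 1 + c)] at hb
  have := abs_nonneg (gB c W V I k x - cv 36 P1 PS1 x 40)
  nlinarith [h.c_pos]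

/-- the values with the composites -/
def wf (c : ℝ) (W V I k : ℝ → ℝ) (x : ℝ) : ℕ → ℝ :=
  wv c W V I k x (gT c W V I x) (gQ c W V I k x) (gB c W V I k x)

/-- a profile is valid at `x` -/
structure Prf (c : ℝ) (W V I k : ℝ → ℝ) (x : ℝ) (er : ℕ → ℕ) (lo hi : ℤ) : Prop where
  hlo : (lo : ℝ) / 8 < x
  hhi : x ≤ (hi : ℝ) / 8
  err : ∀ i ≤ 49, |wf c W V I k x i - cv 36 P1 PS1 x i| ≤ (er i : ℝ) / 2 ^ 36

theorem use9 {x : ℝ} (h1 : -5 < x) (h2 : x ≤ 3) {er : ℕ → ℕ} {lo hi : ℤ}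
    (hp : Prf c W V I k x er lo hi) {a b : ℤ} {C : C9} {M : Ex}
    (hc : chk9 36 1 3 20 49 er lo hi a b C M P1 PS1 = true) {d r : ℝ}
    (ha : (a : ℝ) / 2 ^ 12 ≤ d) (hb : d ≤ (b : ℝ) / 2 ^ 12)
    (hr : (0 ≤ r ∧ r ≤ M.evR (wf c W V I k x)) ∨ (r ≤ 0 ∧ M.evR (wf c W V I k x) ≤ r)) :
    0 < C.val (wf c W V I k x) d r :=
  chk9_sound adj1 hc (by rw [lo1]; linarith) (by rw [hi1]; linarith) hp.hlo hp.hhi rfl hp.err
    ha hb hr

/-- both inequalities at one point -/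
theorem cell {x δ r n ν H : ℝ} (h : SPair c W V I k c) (h1 : -5 < x) (h2 : x ≤ 3) {er : ℕ → ℕ}
    {lo hi : ℤ} (hp : Prf c W V I k x er lo hi) {Hu Hl : HF} {M : Ex}
    (hall : allC er lo hi Hu Hl M = true)
    (hmix : 1 / 100 ≤ K1 c W V k x ∨ mixC er lo hi Hu Hl M = true)
    (hX : 0 ≤ K1 c W V k x + c * V x)
    (hr : (0 ≤ r ∧ r ≤ M.evR (wf c W V I k x)) ∨ (r ≤ 0 ∧ M.evR (wf c W V I k x) ≤ r))
    (hδ : 0 < δ) (hδc : δ ≤ c) (hn : n = c + δ * ν) (hν : |ν| ≤ 1001 / 1000)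
    (hn7 : n ≤ 7 / 10 + δ / 1000)
    (hu : H ≤ HF.val Hu (wf c W V I k x) δ r) (hl : HF.val Hl (wf c W V I k x) δ r ≤ H) :
    0 < 1433 / 1024 * QP (qx V I x) (V x) (K1 c W V k x) n δ r
      - QS (qx V I x) (V x) (k x) (K1 c W V k x) (gQ c W V I k x) (gB c W V I k x) n ν δ r H ∧
    0 < 1177 / 1024 * QP (qx V I x) (V x) (K1 c W V k x) n δ r
      + QS (qx V I x) (V x) (k x) (K1 c W V k x) (gQ c W V I k x) (gB c W V I k x) n ν δ r H := by
  have hV := (h.V_pos x).le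
  have hV1 := (h.V_lt x).le
  have hc1 : 435929 / 2 ^ 20 ≤ c := (Enc3_848.enc h).c_lo
  have hc2 : c ≤ 435931 / 2 ^ 20 := (Enc3_848.enc h).c_hi
  have hδ3 : δ ≤ 1703 / 4096 := by norm_num at hc2 ⊢; linarith
  set w := wf c W V I k x with hw
  have w2 : w 2 = V x := rfl
  have w4 : w 4 = k x := rfl
  have w5 : w 5 = K1 c W V k x := rfl
  have w7 : w 7 = qx V I x := rfl
  have w43 : w 43 = c := rfl
  have w37 : w 37 = gQ c W V I k x := rfl
  have w40 : w 40 = gB c W V I k x := rfl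
  have eVv : eV.evR w = 4101 / 4096 := by
    simp only [eV, Ex.evR_cst]; norm_num
  have eVn : (-eV).evR w = -(4101 / 4096) := by
    simp only [Ex.evR_neg, eVv]
  have eNv : eN.evR w = 5738 / 8192 := by
    simp only [eN, Ex.evR_cst]; norm_num
  have eLv : (Ex.cst 2804 12).evR w = 2804 / 4096 := by
    simp only [Ex.evR_cst]; norm_num
  have e0v : (Ex.cst 0 0).evR w = 0 := by
    simp only [Ex.evR_cst]; norm_num
  have e43 : (Ex.var 43).evR w = c := rfl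
  have a0 : ((0 : ℤ) : ℝ) / 2 ^ 12 ≤ δ := by norm_num; linarith
  have b3 : δ ≤ ((1703 : ℤ) : ℝ) / 2 ^ 12 := by push_cast; norm_num; linarith
  simp only [allC, Bool.and_eq_true] at hall
  obtain ⟨⟨⟨⟨⟨c1, c2⟩, c3⟩, c4⟩, c5⟩, c6⟩ := hall
  have u0 : δ ≤ 1166 / 4096 → 0 < 1433 / 1024 * QP (qx V I x) (V x) (K1 c W V k x)
      (c + 4101 / 4096 * δ) δ r - QS (qx V I x) (V x) (k x) (K1 c W V k x) (gQ c W V I k x)
      (gB c W V I k x) (c + 4101 / 4096 * δ) (4101 / 4096) δ r (HF.val Hu w δ r) := by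
    intro hd
    have := use9 h1 h2 hp c1 a0 (by push_cast; norm_num; linarith) hr
    rwa [up_val, ← hw, w2, w4, w5, w7, w37, w40, eVv, e43] at this
  have uE : 1166 / 4096 ≤ δ → 0 < 1433 / 1024 * QP (qx V I x) (V x) (K1 c W V k x)
      (5738 / 8192) δ r - QS (qx V I x) (V x) (k x) (K1 c W V k x) (gQ c W V I k x)
      (gB c W V I k x) (5738 / 8192) (4101 / 4096) δ r (HF.val Hu w δ r) := by
    intro hd
    have := use9 h1 h2 hp c2 (by push_cast; norm_num; linarith) b3 hr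
    rwa [up_val, ← hw, w2, w4, w5, w7, w37, w40, eVv, eNv, e0v, zero_mul, add_zero] at this
  have uL : 1166 / 4096 ≤ δ → 0 < 1433 / 1024 * QP (qx V I x) (V x) (K1 c W V k x)
      (5738 / 8192) δ r - QS (qx V I x) (V x) (k x) (K1 c W V k x) (gQ c W V I k x)
      (gB c W V I k x) (5738 / 8192) (2804 / 4096) δ r (HF.val Hu w δ r) := by
    intro hd
    have := use9 h1 h2 hp c3 (by push_cast; norm_num; linarith) b3 hr
    rwa [up_val, ← hw, w2, w4, w5, w7, w37, w40, eNv, e0v, eLv, zero_mul, add_zero] at this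
  have u2 := use9 h1 h2 hp c4 a0 b3 hr
  have d0 := use9 h1 h2 hp c5 a0 b3 hr
  have d2 := use9 h1 h2 hp c6 a0 b3 hr
  rw [up_val, ← hw, w2, w4, w5, w7, w37, w40, eVn, e43] at u2
  rw [dn_val, ← hw, w2, w4, w5, w7, w37, w40, eVv, e43] at d0
  rw [dn_val, ← hw, w2, w4, w5, w7, w37, w40, eVn, e43] at d2
  -- the lower vertex in `ν`
  have key : 0 < 1433 / 1024 * QP (qx V I x) (V x) (K1 c W V k x) (c + -(4101 / 4096) * δ) δ r
        - QS (qx V I x) (V x) (k x) (K1 c W V k x) (gQ c W V I k x) (gB c W V I k x)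
          (c + -(4101 / 4096) * δ) (-(4101 / 4096)) δ r H ∧
      0 < 1177 / 1024 * QP (qx V I x) (V x) (K1 c W V k x) (c + -(4101 / 4096) * δ) δ r
        + QS (qx V I x) (V x) (k x) (K1 c W V k x) (gQ c W V I k x) (gB c W V I k x)
          (c + -(4101 / 4096) * δ) (-(4101 / 4096)) δ r H := by
    rcases le_total 0 (K1 c W V k x + (c + -(4101 / 4096) * δ) * V x) with hs | hs
    · have m1 := QS_mono (q := qx V I x) (k := k x) (gQ := gQ c W V I k x) (gB := gB c W V I k x)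
        (δ := δ) (r := r) (ν := -(4101 / 4096)) hs hu
      have m2 := QS_mono (q := qx V I x) (k := k x) (gQ := gQ c W V I k x) (gB := gB c W V I k x)
        (δ := δ) (r := r) (ν := -(4101 / 4096)) hs hl
      exact ⟨by linarith, by linarith⟩
    · rcases hmix with hm | hm
      · exfalso
        have : -(1 / 1000) ≤ c + -(4101 / 4096) * δ := by
          norm_num at hc2
          linarith
        nlinarith
      · simp only [mixC, Bool.and_eq_true] at hm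
        obtain ⟨g1, g2⟩ := hm
        have v2 := use9 h1 h2 hp g1 a0 b3 hr
        have f2 := use9 h1 h2 hp g2 a0 b3 hr
        rw [up_val, ← hw, w2, w4, w5, w7, w37, w40, eVn, e43] at v2
        rw [dn_val, ← hw, w2, w4, w5, w7, w37, w40, eVn, e43] at f2
        have m1 := QS_anti (q := qx V I x) (k := k x) (gQ := gQ c W V I k x)
          (gB := gB c W V I k x) (δ := δ) (r := r) (ν := -(4101 / 4096)) hs hl
        have m2 := QS_anti (q := qx V I x) (k := k x) (gQ := gQ c W V I k x)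
          (gB := gB c W V I k x) (δ := δ) (r := r) (ν := -(4101 / 4096)) hs hu
        exact ⟨by linarith, by linarith⟩
  exact ⟨vert_up hV hc1 hδ hu hX hn hν hn7 hδ3 u0 uE uL key.1 hc2,
    vert_dn hV hδ hl hX hn hν d0 key.2⟩

end

end Crest.Agent.R146.C2Comp_454
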