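import Crest.Agent.R146.C1D_445

/-!
# Row 146, helper889: level windows of C2 (data)

`mm`, `mp` = functions number `7`, `8` of the extended list: `C²` cubic splines on helper848's grid
(pieces `[(c-1)/8,(c+1)/8]`), constant `mL` on `x ≤ -6`; used on `x ≤ 3`.
-/

set_option autoImplicit false
set_option linter.style.longLine false

namespace Crest.Agent.R146.C2D_889

open PP865 EncR_848

def g0 : List Poly := [[82806969456, 0, 0, 0],
   [82806969456, 0, 0, 0]]

def gs1 : List (List Poly) := [
  [[82806969456, 0, 0, 0],
   [82806969456, 0, 0, 0]],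
  [[82806969456, 0, 0, 0],
   [82806969456, 0, 0, 0]],
  [[82806969456, 0, 0, 0],
   [82806969456, 0, 0, 0]],
  [[82806969456, 0, 0, 0],
   [82806969456, 0, 0, 0]],
  [[82806969456, 0, 0, 0],
   [82806969456, 0, 0, 0]],
  [[82806969456, 0, 0, 0],
   [82806969456, 0, 0, 0]],
  [[82806969456, 0, 0, 0],
   [82806969456, 0, 0, 0]],
  [[82811761158, 14375106, 14375106, 4791702],
   [82762545531, -133271775, -133271775, -44423925]],
  [[82915699399, 67437921, -18812715, -15854309],
   [81704794061, -907634235, -108003585, 52846655]],
  [[82861064944, -160339542, -76213464, -3279274],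
   [79817265512, -894545652, 20019408, -10172324]],
  [[82218166402, -477938916, -69283338, 5589316],
   [78036349888, -908105988, -12584616, -695684]],
  [[81027654918, -694644960, -42391926, 3374488],
   [76164927018, -964713534, -14679594, -2642]],
  [[79494641326, -827174424, -25600614, 2222616],
   [74177517202, -1021193322, -12425154, 754122]],
  [[77754173168, -907398834, -16758264, 724834],
   [72090487246, -1064771490, -10827438, -221550]],
  [[75879160079, -962676993, -9352371, 1743797],
   [69917117406, -1106973966, -8390862, 1033742]],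
  [[73927587552, -987439212, -7167888, -1015636],
   [67675010285, -1136729541, -10785441, -1831935]]]

def gs2 : List (List Poly) := [
  [[71916127681, -1027652817, -12616125, -800443],
   [65347003640, -1192105482, -12028008, 1417746]],
  [[69806602942, -1079775816, -9471966, 1848496],
   [62924219773, -1228613079, -8930049, -385093]],
  [[67621428239, -1103051253, -5950515, -674679],
   [60426947946, -1272688578, -14974794, -1629822]],
  [[65384854302, -1138765278, -13814406, -1946618],
   [57809567406, -1349342514, -21950622, -695454]],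
  [[63037614627, -1214017971, -22129767, -825169],
   [55017918122, -1444284858, -24917754, -293590]],
  [[60515678933, -1308777063, -23418777, 395499],
   [52027658706, -1546488846, -25689186, 36446]],
  [[57806245576, -1401810528, -25150128, -972616],
   [48832722685, -1647287697, -23949969, 543293]],
  [[54899179687, -1499272611, -16176003, 3963991],
   [45446919329, -1735891347, -20013501, 768863]],
  [[51908709683, -1393206825, 130809849, 45031293],
   [41901131813, -1807024161, -15705489, 667141]],
  [[49848952501, -800091729, -69502209, -111801979],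
   [38229608600, -1861810614, -11672832, 677078]],
  [[47278763115, -1812468093, -133057863, 90616761],
   [34467222196, -1892848422, -81780, 3186606]],
  [[43697592812, -1704108672, -36167556, -58319992],
   [30700937879, -1872195873, 1778253, -2566595]],
  [[39753169806, -2323545306, -161014014, 16704506],
   [26958917699, -1848508059, 33752625, 13224719]],
  [[34614896643, -2709434919, -3074607, 35941963],
   [23489151139, -1595477013, 72424857, -333975]],
  [[29443692013, -2373145995, 129860967, 8369895],
   [20579931293, -1325665629, 54540663, -5627423]],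
  [[25249440960, -1856349660, 76994064, -25992196],
   [18098399832, -1185062466, 10745712, -8970894]]]

def gs3 : List (List Poly) := [
  [[21699654424, -1671657468, 109663176, 36881900],
   [15734848420, -1143656874, 62993820, 26386930]],
  [[19010266547, -1029764499, 91612041, -42898945],
   [13847053685, -765693555, 30660279, -37164777]],
  [[17012537922, -1062472368, -50150322, -4355176],
   [12183804271, -960585375, -63883995, 5650019]],
  [[14665655094, -1274821956, -35767566, 9149428],
   [10053355860, -1145146626, -26809380, 6708186]],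
  [[12041301024, -1322605038, 4623048, 4314110],
   [7708855386, -1173791484, 11534166, 6072996]],
  [[9449956001, -1249763583, 33087651, 5174091],
   [5454191473, -1060183599, 42567411, 4271419]],
  [[7119702171, -1068733875, 50722209, 704095],
   [3535349618, -847403886, 59448966, 1355766]],
  [[5192184179, -853111413, 59231265, 2132257],
   [2086802403, -600483135, 60439257, -1025669]],
  [[3731894658, -614748702, 47875374, -5917554],
   [1117790288, -375826698, 49492680, -2623190]],
  [[2648899891, -487233135, 19394769, -3575981],
   [543224183, -209027985, 34059813, -2521099]],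
  [[1735029433, -417692079, 32812635, 8048603],
   [241437756, -102444672, 19530468, -2322016]],
  [[1077325705, -243735105, 27227451, -9910331],
   [97641891, -47543787, 10241577, -774281]],
  [[635791837, -204821715, 16693023, 6398855],
   [37128300, -16463082, 5001660, -972358]],
  [[333056852, -94426824, 21922692, -4655632],
   [17205428, -5798190, 1494060, -196842]],
  [[198781731, -50205195, 6387345, -522817],
   [10104654, -1901748, 595314, -102740]],
  [[119943123, -30314805, 3865257, -317879],
   [7928951, -548001, 184245, -34283]]]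

def gs4 : List (List Poly) := [
  [[72356984, -18291900, 2334408, -192404],
   [7319855, -149847, 51117, -10093]],
  [[43647792, -11034492, 1408608, -116196],
   [7151344, -44118, 12936, -2634]],
  [[26329763, -6656139, 849705, -70105],
   [7095796, -17934, 3180, -618]],
  [[15883285, -4015119, 512535, -42285],
   [7068186, -11184, 918, -136]],
  [[9581686, -2422062, 309162, -25506],
   [7048506, -8832, 414, -32]],
  [[5780285, -1461117, 186495, -15383],
   [7032262, -7500, 282, -12]],
  [[3487069, -881427, 112503, -9281],
   [7018298, -6504, 222, -8]],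
  [[2103662, -531738, 67866, -5598],
   [7006117, -5703, 183, -5]],
  [[1269087, -320787, 40941, -3377],
   [6995404, -5028, 156, -4]],
  [[765601, -193527, 24699, -2037],
   [6985941, -4449, 135, -3]],
  [[461856, -116748, 14904, -1228],
   [6977558, -3948, 114, -4]],
  [[278636, -70416, 8988, -744],
   [6970087, -3537, 93, -3]],
  [[168103, -42495, 5421, -445],
   [6963364, -3192, 84, 0]],
  [[101345, -25827, 3075, -337],
   [6957297, -2913, 27, -19]],
  [[60087, -15195, 3429, 455],
   [6951593, -2535, 411, 147]]]

def gs : List (List Poly) := gs1 ++ gs2 ++ gs3 ++ gs4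

/-- the extended list: functions `0..5` of helper848, `6` = `b` of helper445, `7 = mm`, `8 = mp` -/
def P1 : Pc := extP C1D_445.P0 g0
def PS1 : List Pc := exts C1D_445.PS gs

theorem sm : smooth 9 P1 PS1 = true := by decide +kernel

theorem adj_PS1 : chain adj P1 PS1 = true := by decide +kernel

theorem len7 : lens 7 C1D_445.P0 C1D_445.PS = true := by decide +kernel

/-- all pieces meeting `(-oo, a/8)` have `f_k = [C,0,0,0]` -/
def cstL (k : ℕ) (a C : ℤ) : Pc → List Pc → Bool
  | p, [] => decide (p.f.getD k [] = [C, 0, 0, 0])
  | p, q :: ps => decide (p.f.getD k [] = [C, 0, 0, 0]) &&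
      (decide (a ≤ p.c + 1 ∧ p.j = 3) || cstL k a C q ps)

theorem sel_cstL {k : ℕ} {a C : ℤ} {g : Pc → ℝ → ℝ} {D : ℝ}
    (hg : ∀ (p : Pc) z, p.f.getD k [] = [C, 0, 0, 0] → g p z = D) :
    ∀ (p : Pc) (ps : List Pc), cstL k a C p ps = true → ∀ z, z ≤ (a : ℝ) / 8 → sel g p ps z = D
  | p, [], h, z, _ => hg p z (by simpa [cstL] using h)
  | p, q :: ps, h, z, hz => by
    simp only [cstL, Bool.and_eq_true, Bool.or_eq_true, decide_eq_true_eq] at h
    by_cases hp : z ≤ p.hi
    · rw [sel_of_le hp]; exact hg p z h.1
    · have e : sel g p (q :: ps) z = sel g q ps z := by simp [sel, hp]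
      rw [e]
      rcases h.2 with h2 | h2
      · exfalso
        apply hp
        unfold Pc.hi
        rw [h2.2]
        have : (a : ℝ) ≤ (p.c : ℝ) + 1 := by exact_mod_cast h2.1
        norm_num
        linarith
      · exact sel_cstL hg q ps h2 z hz

theorem v0_cst {k : ℕ} {C : ℤ} (p : Pc) (z : ℝ) (h : p.f.getD k [] = [C, 0, 0, 0]) :
    p.v0 36 k z = (C : ℝ) / 2 ^ 36 := by
  unfold Pc.v0; rw [h]; simp

theorem v1_cst {k : ℕ} {C : ℤ} (p : Pc) (z : ℝ) (h : p.f.getD k [] = [C, 0, 0, 0]) :
    p.v1 36 k z = 0 := by
  unfold Pc.v1; rw [h]; simp [pder, pderAux]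

theorem cL7 : cstL 7 (-48) 82806969456 P1 PS1 = true := by decide +kernel
theorem cL8 : cstL 8 (-48) 82806969456 P1 PS1 = true := by decide +kernel

/-- lower and upper level windows (for `x ≤ 3`) -/
noncomputable def mm : ℝ → ℝ := Fn 36 7 P1 PS1
noncomputable def mm1 : ℝ → ℝ := Fn1 36 7 P1 PS1
noncomputable def mp : ℝ → ℝ := Fn 36 8 P1 PS1
noncomputable def mp1 : ℝ → ℝ := Fn1 36 8 P1 PS1

theorem hmm (x : ℝ) : HasDerivAt mm (mm1 x) x := (smooth_sound sm (by norm_num) 36 x).1
theorem hmp (x : ℝ) : HasDerivAt mp (mp1 x) x := (smooth_sound sm (by norm_num) 36 x).1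

/-- the constant value for `x ≤ -6` -/
noncomputable def mL : ℝ := 82806969456 / 2 ^ 36

theorem mm_left {x : ℝ} (hx : x ≤ -6) : mm x = mL :=
  sel_cstL (k := 7) (g := fun p z => p.v0 36 7 z) (fun p z h => by
    rw [v0_cst p z h]; unfold mL; norm_num) P1 PS1 cL7 x (by norm_num; exact hx)
theorem mm1_left {x : ℝ} (hx : x ≤ -6) : mm1 x = 0 :=
  sel_cstL (k := 7) (g := fun p z => p.v1 36 7 z) (fun p z h => v1_cst p z h) P1 PS1 cL7 x
    (by norm_num; exact hx)
theorem mp_left {x : ℝ} (hx : x ≤ -6) : mp x = mL :=
  sel_cstL (k := 8) (g := fun p z => p.v0 36 8 z) (fun p z h => by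
    rw [v0_cst p z h]; unfold mL; norm_num) P1 PS1 cL8 x (by norm_num; exact hx)
theorem mp1_left {x : ℝ} (hx : x ≤ -6) : mp1 x = 0 :=
  sel_cstL (k := 8) (g := fun p z => p.v1 36 8 z) (fun p z h => v1_cst p z h) P1 PS1 cL8 x
    (by norm_num; exact hx)

/-! ### the functions `b`, `b1` are unchanged -/

theorem b_eq : C1D_445.b = Fn 36 6 P1 PS1 := (Fn_exts (by norm_num) len7 g0 gs).symm
theorem b1_eq : C1D_445.b1 = Fn1 36 6 P1 PS1 := (Fn1_exts (by norm_num) len7 g0 gs).symm
theorem b2_eq : C1D_445.b2 = Fn2 36 6 P1 PS1 := (Fn2_exts (by norm_num) len7 g0 gs).symm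

end Crest.Agent.R146.C2D_889
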