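import Crest.Agent.R146.C2V_889

/-!
# Row 146, helper889: displacement of the lower window, `x ≤ -1/4`: `x - (3/5) δ ≤ y`
-/

set_option autoImplicit false
set_option linter.style.longLine false

namespace Crest.Agent.R146.C2Disp_889

open Set Filter Topology PP865
open Crest.Agent.R146.SPair_307 Crest.Agent.R146.RefX_355 Crest.Agent.R146.QEnc_865
open Crest.Agent.R146.C2D_889 Crest.Agent.R146.C2S_889 Crest.Agent.R146.C2T_889
open Crest.Agent.R146.C1D_445 (b b1 b2)

/-- `a = (3/5) c`, lower bound `261557/2^20` -/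
def aE : Ex := .cst 261557 20
def dsp : Ex := (Ex.cst 1 0 - cE * mmE) * (qE * qE * qE + aE * RE * (qE * qE)
    + aE * aE * .cst 1 1 * (RE * RE * qE) + aE * aE * aE * .cst 682 12 * (RE * RE * RE)) - qE * qE * qE

theorem d1 : checkBO 4 8 40 (err 570) (-48) (-2) prm dsp = true := by decide +kernel
/-- `p ≥ 3` on `(-6, -47/8]` -/
theorem d2 : checkBO 4 8 40 (err 570) (-48) (-46) prm (RE - .cst 3 0 * qE) = true := by decide +kernel

section
variable {c : ℝ} {W V I k : ℝ → ℝ}

theorem exp_ge {t : ℝ} (ht : 0 ≤ t) : 1 + t + t ^ 2 / 2 + t ^ 3 / 6 ≤ Real.exp t := by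
  have h := Real.sum_le_exp_of_nonneg ht 4
  simp only [Finset.sum_range_succ, Finset.sum_range_zero, Nat.factorial] at h
  norm_num at h
  linarith

theorem end_mid (h : SPair c W V I k c) {x : ℝ} (h1 : -6 < x) (h2 : x ≤ -1 / 4) :
    1 ≤ (1 - c * mm x) * Real.exp (3 / 5 * c * (I x / V x)) := by
  have E := Enc3_848.enc h
  have Q := hq h h1.le (by linarith)
  have w := chkW h h.c_pos.le le_rfl d1 Q (by linarith) (by linarith) (by push_cast; linarith)
    (by push_cast; linarith)
  simp only [dsp, aE, cE, mmE, qE, RE, Ex.evR_sub, Ex.evR_add, Ex.evR_mul, Ex.evR_cst, Ex.evR_var,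
    v2, v7, v22, v28] at w
  have hq := C2V_889.qv_pos h x
  have hp := C2V_889.p_mul_q h x
  have hc0 := h.c_pos
  have hp0 : 0 < I x / V x := div_pos (h.I_pos x) (h.V_pos x)
  set p := I x / V x with hpd
  set q := qv V I x with hqd
  have hVx : V x = 1 - p * q := by linarith
  rw [hVx] at w
  have hc : (435929 : ℝ) / 2 ^ 20 ≤ c := E.c_lo
  have hc2 : c ≤ 435931 / 2 ^ 20 := E.c_hi
  have hm : 0 < 1 - c * mm x := by
    have h1 := mm_pos (x := x) (by linarith)
    have h2 := mm_lt (x := x) (by linarith)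
    have : c ≤ 1 / 2 := hc2.trans (by norm_num)
    nlinarith
  set t0 : ℝ := 261557 / 2 ^ 20 * p with ht0
  have h3 : 1 + t0 + t0 ^ 2 / 2 + t0 ^ 3 / 6 ≤ Real.exp t0 := exp_ge (by positivity)
  have h4 : Real.exp t0 ≤ Real.exp (3 / 5 * c * p) := by
    apply Real.exp_le_exp.2
    rw [ht0]
    apply mul_le_mul_of_nonneg_right _ hp0.le
    linarith
  have h5 : q ^ 3 * 1 ≤ q ^ 3 * ((1 - c * mm x) * (1 + t0 + t0 ^ 2 / 2 + t0 ^ 3 / 6)) := by
    have e : q ^ 3 * ((1 - c * mm x) * (1 + t0 + t0 ^ 2 / 2 + t0 ^ 3 / 6)) - q ^ 3 * 1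
        = ((1 - c * mm x) * (q * q * q + 261557 / 2 ^ 20 * (p * q) * (q * q)
        + 261557 / 2 ^ 20 * (261557 / 2 ^ 20) * (1 / 2) * (p * q * (p * q) * q)
        + 261557 / 2 ^ 20 * (261557 / 2 ^ 20) * (261557 / 2 ^ 20) * (1 / 6)
          * (p * q * (p * q) * (p * q))) - q * q * q) := by
      rw [ht0]; ring
    have h6 : 0 ≤ (1 - c * mm x) * ((1 / 6 - 682 / 2 ^ 12) * (261557 / 2 ^ 20 * (261557 / 2 ^ 20)
        * (261557 / 2 ^ 20)) * (p * q * (p * q) * (p * q))) := by
      apply mul_nonneg hm.le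
      apply mul_nonneg (by norm_num)
      positivity
    push_cast at w
    norm_num at w h6 e ⊢
    nlinarith
  have h6 := le_of_mul_le_mul_left h5 (by positivity)
  exact h6.trans (mul_le_mul_of_nonneg_left (h3.trans h4) hm.le)

theorem p_left (h : SPair c W V I k c) {x : ℝ} (h1 : x ≤ -6) : 3 ≤ I x / V x := by
  have Q := hq h (x := -47 / 8) (by linarith) (by linarith)
  have w := chkW h h.c_pos.le le_rfl d2 Q (by norm_num) (by norm_num) (by push_cast; norm_num)
    (by push_cast; norm_num)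
  simp only [qE, RE, Ex.evR_sub, Ex.evR_mul, Ex.evR_cst, Ex.evR_var, v2, v7] at w
  have hq := C2V_889.qv_pos h (-47 / 8)
  have hp := C2V_889.p_mul_q h (-47 / 8)
  have hVx : V (-47 / 8) = 1 - I (-47 / 8) / V (-47 / 8) * qv V I (-47 / 8) := by linarith
  have h2 := EqEta_889.p_anti h (J_791.Jc_nonneg h) (show x ≤ -47 / 8 by linarith)
  simp only at h2
  refine le_trans ?_ h2
  rw [hVx] at w
  norm_num at w
  have : 3 * qv V I (-47 / 8) < I (-47 / 8) / V (-47 / 8) * qv V I (-47 / 8) := by linarith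
  exact (lt_of_mul_lt_mul_right this hq.le).le

/-- end value -/
theorem end_all (h : SPair c W V I k c) {x : ℝ} (h2 : x ≤ -1 / 4) :
    1 ≤ (1 - c * mmF x) * Real.exp (3 / 5 * c * (I x / V x)) := by
  have em : mmF x = mm x := by unfold mmF; rw [if_pos (by linarith)]
  rw [em]
  rcases le_or_gt x (-6) with g | g
  · rw [mm_left g]
    have E := Enc3_848.enc h
    have hc : (435929 : ℝ) / 2 ^ 20 ≤ c := E.c_lo
    have hc2 : c ≤ 435931 / 2 ^ 20 := E.c_hi
    have hp := p_left h g
    have h3 : (37 : ℝ) / 50 ≤ 3 / 5 * c * (I x / V x) := by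
      have : (247 : ℝ) / 1000 * 3 ≤ 3 / 5 * c * (I x / V x) := by
        apply mul_le_mul _ hp (by norm_num)
        · have := h.c_pos; positivity
        · linarith
      linarith
    have h4 : (205 : ℝ) / 100 ≤ Real.exp (37 / 50) := by
      have := exp_ge (t := 37 / 50) (by norm_num)
      norm_num at this
      linarith
    have h5 := Real.exp_le_exp.2 h3
    have h6 : (49 : ℝ) / 100 ≤ 1 - c * mL := by
      unfold mL
      have : c * (82806969456 / 2 ^ 36) ≤ 51 / 100 := by
        rw [show (82806969456 : ℝ) / 2 ^ 36 = 82806969456 / 68719476736 by norm_num]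
        have : c ≤ 4158 / 10000 := hc2.trans (by norm_num)
        nlinarith
      linarith
    nlinarith
  · exact end_mid h g h2

/-- **displacement** -/
theorem disp (h : SPair c W V I k c) {δ : ℝ} (hδ : 0 < δ) (hδc : δ ≤ c) {x y : ℝ}
    (hx : x ≤ -1 / 4) (hy : V x * (1 - δ * mmF x) ≤ V y) : x - 3 / 5 * δ ≤ y := by
  by_contra hcon
  push Not at hcon
  have hp0 : 0 < I x / V x := div_pos (h.I_pos x) (h.V_pos x)
  have hc0 := h.c_pos
  have hVx := h.V_pos x
  -- convexity in `δ`
  have h1 := end_all h hx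
  set p := I x / V x with hp
  set A := 3 / 5 * p with hA
  have hA0 : 0 < A := by positivity
  have e1 : 3 / 5 * c * p = A * c := by rw [hA]; ring
  rw [e1] at h1
  have h2 : Real.exp (-(A * c)) ≤ 1 - c * mmF x := by
    have h3 := Real.exp_pos (A * c)
    have h4 : Real.exp (-(A * c)) * Real.exp (A * c) = 1 := by rw [← Real.exp_add]; simp
    have h5 : Real.exp (-(A * c)) * Real.exp (A * c) ≤ (1 - c * mmF x) * Real.exp (A * c) := by
      rw [h4]; exact h1
    exact le_of_mul_le_mul_right h5 h3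
  have h3 : Real.exp (-(A * δ)) ≤ 1 - δ * mmF x := by
    have hs0 : 0 ≤ δ / c := by positivity
    have hs1 : δ / c ≤ 1 := (div_le_one hc0).2 hδc
    have h4 := convexOn_exp.2 (mem_univ (0 : ℝ)) (mem_univ (-(A * c)))
      (show 0 ≤ 1 - δ / c by linarith) hs0 (by ring)
    simp only [smul_eq_mul, Real.exp_zero, mul_one, mul_zero, zero_add] at h4
    have e2 : δ / c * -(A * c) = -(A * δ) := by field_simp
    rw [e2] at h4
    refine h4.trans ?_
    have h5 := mul_le_mul_of_nonneg_left h2 hs0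
    have e3 : δ / c * (1 - c * mmF x) = δ / c - δ * mmF x := by field_simp
    rw [e3] at h5
    linarith
  -- `V (x - s) ≤ V x e^{-p s}`
  have hmono : MonotoneOn (fun t => Real.log (V t) - p * t) (Iic x) := by
    have hd : ∀ t, HasDerivAt (fun t => Real.log (V t) - p * t) (I t / V t - p) t := fun t => by
      have := ((h.dV t).log (h.V_pos t).ne').sub ((hasDerivAt_id' t).const_mul p)
      rw [mul_one] at this
      exact this
    apply monotoneOn_of_deriv_nonneg (convex_Iic x)
    · exact fun t _ => (hd t).continuousAt.continuousWithinAt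
    · exact fun t _ => (hd t).differentiableAt.differentiableWithinAt
    · intro t ht
      rw [interior_Iic] at ht
      rw [(hd t).deriv]
      have := EqEta_889.p_anti h (J_791.Jc_nonneg h) (le_of_lt ht)
      simp only at this
      linarith
  have hyx : y < x := by linarith
  have h6 := hmono (mem_Iic.2 hyx.le) (mem_Iic.2 le_rfl) hyx.le
  simp only at h6
  have h7 : Real.log (V y) < Real.log (V x) - A * δ := by
    have : p * (x - y) > p * (3 / 5 * δ) := mul_lt_mul_of_pos_left (by linarith) hp0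
    have e4 : A * δ = p * (3 / 5 * δ) := by rw [hA]; ring
    rw [e4]
    nlinarith
  have h8 : V y < V x * Real.exp (-(A * δ)) := by
    have h9 := Real.exp_lt_exp.2 h7
    rw [Real.exp_log (h.V_pos y), sub_eq_add_neg, Real.exp_add, Real.exp_log hVx] at h9
    exact h9
  have h10 := mul_le_mul_of_nonneg_left h3 hVx.le
  linarith

end

end Crest.Agent.R146.C2Disp_889
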