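import Crest.Agent.R146.PP4_454

/-!
# Row 146, helper454: nine vertex test with shared coefficients

`E = c00 + r c01 + δ (c10 + r c11 + r² c12) + δ² (c20 + r c21)` for `δ ∈ [a/2^12, b/2^12]` and
`r = s M`, `s ∈ [0,1]`: positive if positive at the nine vertices (Bernstein). `chk9` is the test on the
pieces meeting `(lo/8, hi/8]`; the vertex expressions share their subterms (cheap for the kernel).
-/

set_option autoImplicit false

namespace Crest.Agent.R146.C2Eng_454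

open Crest.Agent.R146.PP865 Crest.Agent.R146.PP4_454

structure C9 where
  c00 : Ex
  c01 : Ex
  c10 : Ex
  c11 : Ex
  c12 : Ex
  c20 : Ex
  c21 : Ex

/-- the value at `(δ, r)` -/
noncomputable def C9.val (C : C9) (v : ℕ → ℝ) (d r : ℝ) : ℝ :=
  C.c00.evR v + r * C.c01.evR v + d * (C.c10.evR v + r * C.c11.evR v + r ^ 2 * C.c12.evR v)
    + d ^ 2 * (C.c20.evR v + r * C.c21.evR v)

/-- coefficients at the vertex `r = 0` (`0`), `r = M` (`1`), `(M/2, 0)` (`2`) -/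
def C9.a0 (C : C9) (M : Ex) : ℕ → Ex
  | 0 => C.c00
  | 1 => C.c00 + M * C.c01
  | _ => C.c00 + .cst 1 1 * (M * C.c01)

def C9.a1 (C : C9) (M : Ex) : ℕ → Ex
  | 0 => C.c10
  | 1 => C.c10 + M * (C.c11 + M * C.c12)
  | _ => C.c10 + .cst 1 1 * (M * C.c11)

def C9.a2 (C : C9) (M : Ex) : ℕ → Ex
  | 0 => C.c20
  | 1 => C.c20 + M * C.c21
  | _ => C.c20 + .cst 1 1 * (M * C.c21)

/-- vertex expression: `x = d`, `y = d²` (or the middle vertex) -/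
def vx (A0 A1 A2 x y : Ex) : Ex := A0 + (x * A1 + y * A2)

def C9.vs (C : C9) (M : Ex) (a b : ℤ) : List Ex :=
  [vx (C.a0 M 0) (C.a1 M 0) (C.a2 M 0) (.cst a 12) (.cst (a * a) 24),
   vx (C.a0 M 0) (C.a1 M 0) (C.a2 M 0) (.cst b 12) (.cst (b * b) 24),
   vx (C.a0 M 0) (C.a1 M 0) (C.a2 M 0) (.cst (a + b) 13) (.cst (a * b) 24),
   vx (C.a0 M 1) (C.a1 M 1) (C.a2 M 1) (.cst a 12) (.cst (a * a) 24),
   vx (C.a0 M 1) (C.a1 M 1) (C.a2 M 1) (.cst b 12) (.cst (b * b) 24),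
   vx (C.a0 M 1) (C.a1 M 1) (C.a2 M 1) (.cst (a + b) 13) (.cst (a * b) 24),
   vx (C.a0 M 2) (C.a1 M 2) (C.a2 M 2) (.cst a 12) (.cst (a * a) 24),
   vx (C.a0 M 2) (C.a1 M 2) (C.a2 M 2) (.cst b 12) (.cst (b * b) 24),
   vx (C.a0 M 2) (C.a1 M 2) (C.a2 M 2) (.cst (a + b) 13) (.cst (a * b) 24)]

def chk9 (P n dg pr m : ℕ) (err : ℕ → ℕ) (lo hi a b : ℤ) (C : C9) (M : Ex) (p : Pc)
    (ps : List Pc) : Bool :=
  (C.vs M a b).all (fun e => e.bnd m) &&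
    (p :: ps).all fun q => !(inO lo hi q) ||
      (C.vs M a b).all fun e => TM.posT n (e.evT dg pr (q.envT P err))

theorem chk9_iff {P n dg pr m : ℕ} {err : ℕ → ℕ} {lo hi a b : ℤ} {C : C9} {M : Ex} {p : Pc}
    {ps : List Pc} (h : chk9 P n dg pr m err lo hi a b C M p ps = true) :
    ∀ e ∈ C.vs M a b, e.bnd m = true ∧ checkO P n dg pr err lo hi e p ps = true := by
  simp only [chk9, Bool.and_eq_true, List.all_eq_true] at h
  intro e he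
  refine ⟨h.1 e he, ?_⟩
  simp only [checkO, List.all_eq_true]
  intro q hq
  have := h.2 q hq
  rcases hio : inO lo hi q with _ | _
  · simp
  · rw [hio] at this
    simp only [Bool.not_true, Bool.false_or, List.all_eq_true] at this ⊢
    exact this e he

theorem bern {x0 x1 x2 l0 l1 l2 : ℝ} (h0 : 0 < x0) (h1 : 0 < x1) (h2 : 0 < x2) (p0 : 0 ≤ l0)
    (p1 : 0 ≤ l1) (p2 : 0 ≤ l2) (hs : l0 + l1 + l2 = 1) : 0 < l0 * x0 + l1 * x1 + l2 * x2 := by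
  rcases eq_or_lt_of_le p0 with q0 | q0
  · rcases eq_or_lt_of_le p1 with q1 | q1
    · have : l2 = 1 := by linarith
      rw [← q0, ← q1, this]; linarith
    · have := mul_pos q1 h1
      have := mul_nonneg p2 h2.le
      rw [← q0]; linarith
  · have := mul_pos q0 h0
    have := mul_nonneg p1 h1.le
    have := mul_nonneg p2 h2.le
    linarith

/-- the nine vertices -/
theorem nine {c00 c01 c10 c11 c12 c20 c21 a b d M s : ℝ} (ha : a ≤ d) (hb : d ≤ b)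
    (h0 : 0 ≤ s) (h1 : s ≤ 1)
    (g00 : 0 < c00 + (a * c10 + a ^ 2 * c20))
    (g01 : 0 < c00 + (b * c10 + b ^ 2 * c20))
    (g02 : 0 < c00 + ((a + b) / 2 * c10 + a * b * c20))
    (g10 : 0 < c00 + M * c01 + (a * (c10 + M * (c11 + M * c12)) + a ^ 2 * (c20 + M * c21)))
    (g11 : 0 < c00 + M * c01 + (b * (c10 + M * (c11 + M * c12)) + b ^ 2 * (c20 + M * c21)))
    (g12 : 0 < c00 + M * c01 + ((a + b) / 2 * (c10 + M * (c11 + M * c12))
      + a * b * (c20 + M * c21)))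
    (g20 : 0 < c00 + 1 / 2 * (M * c01) + (a * (c10 + 1 / 2 * (M * c11))
      + a ^ 2 * (c20 + 1 / 2 * (M * c21))))
    (g21 : 0 < c00 + 1 / 2 * (M * c01) + (b * (c10 + 1 / 2 * (M * c11))
      + b ^ 2 * (c20 + 1 / 2 * (M * c21))))
    (g22 : 0 < c00 + 1 / 2 * (M * c01) + ((a + b) / 2 * (c10 + 1 / 2 * (M * c11))
      + a * b * (c20 + 1 / 2 * (M * c21)))) :
    0 < c00 + s * M * c01 + d * (c10 + s * M * c11 + (s * M) ^ 2 * c12)
      + d ^ 2 * (c20 + s * M * c21) := by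
  obtain ⟨l0, l1, l2, p0, p1, p2, hs, e1, e2⟩ := tri_sq ha hb
  have k0 := bern g00 g01 g02 p0 p1 p2 hs
  have k1 := bern g10 g11 g12 p0 p1 p2 hs
  have k2 := bern g20 g21 g22 p0 p1 p2 hs
  have k := bern k0 k1 k2 (sq_nonneg (1 - s)) (sq_nonneg s)
    (show (0:ℝ) ≤ 2 * s * (1 - s) from mul_nonneg (by linarith) (by linarith)) (by ring)
  refine lt_of_lt_of_eq k ?_
  rw [e2, e1]
  linear_combination (c00 + s * M * c01) * hs

theorem sM {M r : ℝ} (h : (0 ≤ r ∧ r ≤ M) ∨ (r ≤ 0 ∧ M ≤ r)) :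
    ∃ s : ℝ, 0 ≤ s ∧ s ≤ 1 ∧ r = s * M := by
  rcases h with ⟨h1, h2⟩ | ⟨h1, h2⟩
  · rcases eq_or_lt_of_le (h1.trans h2) with h3 | h3
    · exact ⟨0, le_rfl, zero_le_one, by rw [zero_mul]; exact le_antisymm (h3 ▸ h2) h1⟩
    · exact ⟨r / M, div_nonneg h1 h3.le, (div_le_one h3).2 h2, by field_simp⟩
  · rcases eq_or_lt_of_le (h2.trans h1) with h3 | h3
    · exact ⟨0, le_rfl, zero_le_one, by rw [zero_mul]; exact le_antisymm h1 (h3 ▸ h2)⟩
    · have h4 := h3.ne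
      exact ⟨r / M, div_nonneg_of_nonpos h1 h3.le, (div_le_one_of_neg h3).2 h2, by
        field_simp⟩

theorem chk9_sound {P n dg pr m : ℕ} {err : ℕ → ℕ} {lo hi a b : ℤ} {C : C9} {M : Ex} {p : Pc}
    {ps : List Pc} (hch : chain adj p ps = true)
    (h : chk9 P n dg pr m err lo hi a b C M p ps = true) {z : ℝ}
    (h1 : p.lo < z) (h2 : z ≤ hiL p ps) (hlo : (lo : ℝ) / 8 < z) (hhi : z ≤ (hi : ℝ) / 8)
    {w : ℕ → ℝ} (hw0 : w 0 = z)
    (hw : ∀ i ≤ m, |w i - cv P p ps z i| ≤ (err i : ℝ) / 2 ^ P) {d r : ℝ}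
    (ha : (a : ℝ) / 2 ^ 12 ≤ d) (hb : d ≤ (b : ℝ) / 2 ^ 12)
    (hr : (0 ≤ r ∧ r ≤ M.evR w) ∨ (r ≤ 0 ∧ M.evR w ≤ r)) : 0 < C.val w d r := by
  have key : ∀ e ∈ C.vs M a b, 0 < e.evR w := fun e he =>
    checkO_sound (chk9_iff h e he).1 hch (chk9_iff h e he).2 z h1 h2 hlo hhi w hw0 hw
  obtain ⟨s, s0, s1, rfl⟩ := sM hr
  simp only [C9.vs, List.mem_cons, List.not_mem_nil, or_false, forall_eq_or_imp, forall_eq, vx,
    C9.a0, C9.a1, C9.a2, Ex.evR_add, Ex.evR_mul, Ex.evR_cst] at key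
  obtain ⟨g00, g01, g02, g10, g11, g12, g20, g21, g22⟩ := key
  push_cast at g00 g01 g02 g10 g11 g12 g20 g21 g22
  have e1 : ((a : ℝ) * a) / 2 ^ 24 = (a / 2 ^ 12) ^ 2 := by ring
  have e2 : ((b : ℝ) * b) / 2 ^ 24 = (b / 2 ^ 12) ^ 2 := by ring
  have e3 : ((a : ℝ) * b) / 2 ^ 24 = a / 2 ^ 12 * (b / 2 ^ 12) := by ring
  have e4 : ((a : ℝ) + b) / 2 ^ 13 = (a / 2 ^ 12 + b / 2 ^ 12) / 2 := by ring
  have e5 : (1 : ℝ) / 2 ^ 1 = 1 / 2 := by norm_num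
  rw [e1] at g00 g10 g20
  rw [e2] at g01 g11 g21
  rw [e3, e4] at g02 g12 g22
  rw [e5] at g20 g21 g22
  exact nine ha hb s0 s1 g00 g01 g02 g10 g11 g12 g20 g21 g22

end Crest.Agent.R146.C2Eng_454
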