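import Crest.Agent.R146.C2Ex_454

/-! Row 146, helper454: law cells of NUMREF (C2), auxiliary checks -/

set_option autoImplicit false

namespace Crest.Agent.R146.C2X5_454

open PP865 EncR_848 PP4_454 C2Data_454 C2Eng_454 C2Ex_454

/-- no errors -/
def e0 : ℕ → ℕ := fun _ => 0

theorem sA : checkO 36 2 6 30 erA (-40) (-32) (.var 5 + .var 43 * .var 2) P1 PS1 = true := by decide +kernel
theorem kA : checkO 36 2 6 30 erA (-40) (-32) (.var 5 - .cst 10486 20) P1 PS1 = true := by decide +kernel
theorem sB : checkO 36 2 6 30 erB (-32) (-16) (.var 5 + .var 43 * .var 2) P1 PS1 = true := by decide +kernel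
theorem kB : checkO 36 2 6 30 erB (-32) (-16) (.var 5 - .cst 10486 20) P1 PS1 = true := by decide +kernel
theorem sC : checkO 36 2 6 30 erC (-16) (-2) (.var 5 + .var 43 * .var 2) P1 PS1 = true := by decide +kernel
theorem kC : checkO 36 2 6 30 erC (-16) (-2) (.var 5 - .cst 10486 20) P1 PS1 = true := by decide +kernel
theorem sD : checkO 36 2 6 30 erD (-2) (6) (.var 5 + .var 43 * .var 2) P1 PS1 = true := by decide +kernel
theorem kD : checkO 36 2 6 30 erD (-2) (6) (.var 5 + .cst 70 10) P1 PS1 = true := by decide +kernel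
theorem sE : checkO 36 2 6 30 erE (6) (8) (.var 5 + .var 43 * .var 2) P1 PS1 = true := by decide +kernel
theorem kE : checkO 36 2 6 30 erE (6) (8) (.var 5 + .cst 70 10) P1 PS1 = true := by decide +kernel
theorem sF : checkO 36 2 6 30 erF (8) (24) (.var 5 + .var 43 * .var 2) P1 PS1 = true := by decide +kernel
theorem kF : checkO 36 2 6 30 erF (8) (24) (.var 5 + .cst 70 10) P1 PS1 = true := by decide +kernel

theorem mp : checkO 36 2 6 30 e0 (-40) 24 (.cst 21 4 - .var 22) P1 PS1 = true := by decide +kernel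
theorem mm : checkO 36 2 6 30 e0 (-40) 24 (.cst 21 4 - .var 25) P1 PS1 = true := by decide +kernel
theorem bp : checkO 36 2 6 30 e0 (-40) 24 (.cst 5 2 - .var 46) P1 PS1 = true := by decide +kernel
theorem bm : checkO 36 2 6 30 e0 (-40) 24 (.cst 5 2 - .var 49) P1 PS1 = true := by decide +kernel
theorem b0p : checkO 36 2 6 30 e0 (-40) (-2) (.var 46 - .var 19 - .cst 2100 20) P1 PS1 = true := by decide +kernel
theorem b0m : checkO 36 2 6 30 e0 (-40) (-2) (.var 49 - .var 19 + .cst 1 2 * .var 20 - .cst 20300 20) P1 PS1 = true := by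
  decide +kernel
theorem b0d : checkO 36 2 6 30 e0 (-40) (-2) (-.var 20) P1 PS1 = true := by decide +kernel
theorem b1p : checkO 36 2 6 30 e0 (-2) (0) (.var 46 - .cst 346031 20) P1 PS1 = true := by decide +kernel
theorem b1m : checkO 36 2 6 30 e0 (-2) (0) (.var 49 - .cst 346031 20) P1 PS1 = true := by decide +kernel
theorem b2p : checkO 36 2 6 30 e0 (0) (2) (.var 46 - .cst 319816 20) P1 PS1 = true := by decide +kernel
theorem b2m : checkO 36 2 6 30 e0 (0) (2) (.var 49 - .cst 319816 20) P1 PS1 = true := by decide +kernel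
theorem b3p : checkO 36 2 6 30 e0 (2) (4) (.var 46 - .cst 340788 20) P1 PS1 = true := by decide +kernel
theorem b3m : checkO 36 2 6 30 e0 (2) (4) (.var 49 - .cst 340788 20) P1 PS1 = true := by decide +kernel
theorem b4p : checkO 36 2 6 30 e0 (4) (6) (.var 46 - .cst 369099 20) P1 PS1 = true := by decide +kernel
theorem b4m : checkO 36 2 6 30 e0 (4) (6) (.var 49 - .cst 369099 20) P1 PS1 = true := by decide +kernel
theorem b5p : checkO 36 2 6 30 e0 (6) (24) (.var 46 - .cst 494928 20) P1 PS1 = true := by decide +kernel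
theorem b5m : checkO 36 2 6 30 e0 (6) (24) (.var 49 - .cst 494928 20) P1 PS1 = true := by decide +kernel
theorem kp : checkO 36 2 6 30 e0 (-40) 6 (.var 28) P1 PS1 = true := by decide +kernel
theorem km : checkO 36 2 6 30 e0 (-16) 8 (.var 31) P1 PS1 = true := by decide +kernel

theorem allc : ((P1 :: PS1).all fun q => decide (q.f.getD 14 [] = [28569108480])) = true := by
  decide +kernel

end Crest.Agent.R146.C2X5_454
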