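import Crest.Agent.R146.C2Alg_454
import Crest.Agent.R146.C2X5_454
import Crest.Agent.R146.QEnc_848
import Crest.Agent.R146.C2R_889

/-!
# Row 146, helper454: law cells of NUMREF (C2), values of the variables

`wv` : real values of the certificate variables; `wv_err` : all radii at once; `Enc` : the composites
`q T`, `q k'' - R k'`, `q B` inside their radii.
-/

set_option autoImplicit false

namespace Crest.Agent.R146.C2Env_454

open Set
open PP865 EncR_848 PP4_454 C2Data_454 C2Eng_454 C2Ex_454 C2Alg_454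
open Crest.Agent.R146.SPair_307 Crest.Agent.R146.RefX_355

noncomputable section

variable {c : ℝ} {W V I k : ℝ → ℝ}

abbrev K1 (c : ℝ) (W V k : ℝ → ℝ) (x : ℝ) : ℝ := YWRef_177.k1 c W V k c x
abbrev K2 (c : ℝ) (W V I k : ℝ → ℝ) (x : ℝ) : ℝ := YWRef_177.k2 c W V I k c x

/-- `q T` -/
def gT (c : ℝ) (W V I : ℝ → ℝ) (x : ℝ) : ℝ := qx V I x * k1x c W V I x
/-- `q k'' - R k'` -/
def gQ (c : ℝ) (W V I k : ℝ → ℝ) (x : ℝ) : ℝ :=
  qx V I x * K2 c W V I k x - (1 - V x) * K1 c W V k x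
/-- the coefficient of `ν` in `q S` -/
def gB (c : ℝ) (W V I k : ℝ → ℝ) (x : ℝ) : ℝ :=
  (1 / 2 - V x) * (k x * qx V I x) - qx V I x * (W x / V x) / 2 * K1 c W V k x
    + V x * (1 - V x)

def wv (c : ℝ) (W V I k : ℝ → ℝ) (x t g b : ℝ) (i : ℕ) : ℝ :=
  if i = 1 then W x else if i = 2 then V x else if i = 4 then k x
  else if i = 5 then K1 c W V k x else if i = 7 then qx V I x else if i = 43 then c
  else if i = 34 then t else if i = 37 then g else if i = 40 then b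
  else cv 36 P1 PS1 x i

theorem Fn_const {P k : ℕ} {C : ℤ} : ∀ (p : Pc) (ps : List Pc),
    ((p :: ps).all fun q => decide (q.f.getD k [] = [C])) = true → ∀ z, Fn P k p ps z = C / 2 ^ P
  | p, [], h, z => by
    simp only [List.all_cons, List.all_nil, Bool.and_true, decide_eq_true_eq] at h
    show Pc.v0 P k p z = _
    unfold Pc.v0
    rw [h]
    simp
  | p, q :: ps, h, z => by
    have h2 : ((q :: ps).all fun q => decide (q.f.getD k [] = [C])) = true := by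
      rw [List.all_cons] at h
      exact (Bool.and_eq_true _ _ ▸ h).2
    have h1 : p.f.getD k [] = [C] := by
      rw [List.all_cons] at h
      exact of_decide_eq_true (Bool.and_eq_true _ _ ▸ h).1
    show (if z ≤ p.hi then Pc.v0 P k p z else Fn P k q ps z) = _
    rw [Fn_const q ps h2 z]
    unfold Pc.v0
    rw [h1]
    simp

theorem F_old (k : ℕ) (hk : k < 6) : Fn 36 k P1 PS1 = Enc1_848.F k := by
  have h1 : Fn 36 k P1 PS1 = Fn 36 k C1D_445.P0 C1D_445.PS := Fn_exts (by omega) len7 _ _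
  have h2 : Fn 36 k C1D_445.P0 C1D_445.PS = Enc1_848.F k := Fn_exts hk C1D_445.len6 _ _
  rw [h1, h2]

theorem F1_old (k : ℕ) (hk : k < 6) : Fn1 36 k P1 PS1 = Enc1_848.F1 k := by
  have h1 : Fn1 36 k P1 PS1 = Fn1 36 k C1D_445.P0 C1D_445.PS := Fn1_exts (by omega) len7 _ _
  have h2 : Fn1 36 k C1D_445.P0 C1D_445.PS = Enc1_848.F1 k := Fn1_exts hk C1D_445.len6 _ _
  rw [h1, h2]

theorem cv1 (x : ℝ) : cv 36 P1 PS1 x 1 = Enc1_848.F 0 x := congrFun (F_old 0 (by norm_num)) x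
theorem cv2 (x : ℝ) : cv 36 P1 PS1 x 2 = Enc1_848.F1 0 x := congrFun (F1_old 0 (by norm_num)) x
theorem cv4 (x : ℝ) : cv 36 P1 PS1 x 4 = Enc1_848.F 1 x := congrFun (F_old 1 (by norm_num)) x
theorem cv5 (x : ℝ) : cv 36 P1 PS1 x 5 = Enc1_848.F1 1 x := congrFun (F1_old 1 (by norm_num)) x
theorem cv7 (x : ℝ) : cv 36 P1 PS1 x 7 = Enc1_848.F 2 x := congrFun (F_old 2 (by norm_num)) x
theorem cv19 (x : ℝ) : cv 36 P1 PS1 x 19 = C1D_445.b x :=
  congrFun (Fn_exts (by norm_num) len7 _ _ : Fn 36 6 P1 PS1 = Fn 36 6 C1D_445.P0 C1D_445.PS) x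
theorem cv20 (x : ℝ) : cv 36 P1 PS1 x 20 = C1D_445.b1 x :=
  congrFun (Fn1_exts (by norm_num) len7 _ _ : Fn1 36 6 P1 PS1 = Fn1 36 6 C1D_445.P0 C1D_445.PS) x
theorem cv43 (x : ℝ) : cv 36 P1 PS1 x 43 = 435930 / 2 ^ 20 := by
  have := Fn_const (P := 36) (k := 14) P1 PS1 C2X5_454.allc x
  rw [show cv 36 P1 PS1 x 43 = Fn 36 14 P1 PS1 x from rfl, this]
  norm_num

theorem lo1 : P1.lo = -8 := by
  have h1 : P1.c = -63 := by decide +kernel
  have h2 : P1.j = 3 := by decide +kernel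
  unfold Pc.lo
  rw [h1, h2]
  norm_num

theorem hi1 : hiL P1 PS1 = 8 := by
  rw [Enc1_848.hiL_eq]
  have h1 : (Enc1_848.lastP P1 PS1).c = 63 := by decide +kernel
  have h2 : (Enc1_848.lastP P1 PS1).j = 3 := by decide +kernel
  unfold Pc.hi
  rw [h1, h2]
  norm_num

theorem K1_eq (x : ℝ) : K1 c W V k x = Enc3_848.kd c W V k x := rfl

/-- all radii at once -/
theorem wv_err (h : SPair c W V I k c) {x : ℝ} (h1 : -5 < x) (h2 : x ≤ 3) (t g b : ℝ) {er : ℕ → ℕ}
    (a1 : 851968 ≤ er 1) (a2 : 6422528 ≤ er 2)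
    (a4 : |k x - Enc1_848.F 1 x| ≤ (er 4 : ℝ) / 2 ^ 36)
    (a5 : |K1 c W V k x - Enc1_848.F1 1 x| ≤ (er 5 : ℝ) / 2 ^ 36)
    (a7 : 352 * 65536 ≤ er 7) (a43 : 65536 ≤ er 43)
    (bt : |t - cv 36 P1 PS1 x 34| ≤ (er 34 : ℝ) / 2 ^ 36)
    (bg : |g - cv 36 P1 PS1 x 37| ≤ (er 37 : ℝ) / 2 ^ 36)
    (bb : |b - cv 36 P1 PS1 x 40| ≤ (er 40 : ℝ) / 2 ^ 36) :
    ∀ i ≤ 49, |wv c W V I k x t g b i - cv 36 P1 PS1 x i| ≤ (er i : ℝ) / 2 ^ 36 := by
  have he := Enc3_848.enc h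
  intro i _
  by_cases i1 : i = 1
  · subst i1
    rw [show wv c W V I k x t g b 1 = W x from rfl, cv1]
    refine (he.W8 x (by linarith) (by linarith)).trans ?_
    have : (851968 : ℝ) ≤ er 1 := by exact_mod_cast a1
    rw [div_le_div_iff₀ (by positivity) (by positivity)]
    nlinarith
  by_cases i2 : i = 2
  · subst i2
    rw [show wv c W V I k x t g b 2 = V x from rfl, cv2]
    refine (he.V8 x (by linarith) (by linarith)).trans ?_
    have : (6422528 : ℝ) ≤ er 2 := by exact_mod_cast a2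
    rw [div_le_div_iff₀ (by positivity) (by positivity)]
    nlinarith
  by_cases i4 : i = 4
  · subst i4
    rw [show wv c W V I k x t g b 4 = k x from rfl, cv4]
    exact a4
  by_cases i5 : i = 5
  · subst i5
    rw [show wv c W V I k x t g b 5 = K1 c W V k x from rfl, cv5]
    exact a5
  by_cases i7 : i = 7
  · subst i7
    rw [show wv c W V I k x t g b 7 = V x * (1 - V x) / I x from rfl, cv7]
    refine (QEnc_848.encQ h (by linarith) (by linarith)).trans ?_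
    have : (352 * 65536 : ℝ) ≤ er 7 := by exact_mod_cast a7
    rw [div_le_div_iff₀ (by positivity) (by positivity)]
    nlinarith
  by_cases i43 : i = 43
  · subst i43
    rw [show wv c W V I k x t g b 43 = c from rfl, cv43]
    have : (65536 : ℝ) ≤ er 43 := by exact_mod_cast a43
    have c1 := he.c_lo
    have c2 := he.c_hi
    have e : (65536 : ℝ) / 2 ^ 36 ≤ (er 43 : ℝ) / 2 ^ 36 := by gcongr
    refine le_trans ?_ e
    rw [abs_le]
    constructor
    · norm_num at c1 ⊢; linarith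
    · norm_num at c2 ⊢; linarith
  by_cases i34 : i = 34
  · subst i34
    exact bt
  by_cases i37 : i = 37
  · subst i37
    exact bg
  by_cases i40 : i = 40
  · subst i40
    exact bb
  have e1 : wv c W V I k x t g b i = cv 36 P1 PS1 x i := by
    unfold wv
    rw [if_neg i1, if_neg i2, if_neg i4, if_neg i5, if_neg i7, if_neg i43, if_neg i34, if_neg i37,
      if_neg i40]
  rw [e1, sub_self, abs_zero]
  positivity

theorem cvE (x : ℝ) (i : ℕ) : |cv 36 P1 PS1 x i - cv 36 P1 PS1 x i| ≤ ((0 : ℕ) : ℝ) / 2 ^ 36 := by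
  simp

/-- a check applied to the values -/
theorem use (n dg pr : ℕ) {er : ℕ → ℕ} {lo hi : ℤ} {e : Ex} (he : e.bnd 49 = true)
    (hc : checkO 36 n dg pr er lo hi e P1 PS1 = true) {x : ℝ} (h1 : -5 < x) (h2 : x ≤ 3)
    (hlo : (lo : ℝ) / 8 < x) (hhi : x ≤ (hi : ℝ) / 8) {w : ℕ → ℝ} (w0 : w 0 = x)
    (hw : ∀ i ≤ 49, |w i - cv 36 P1 PS1 x i| ≤ (er i : ℝ) / 2 ^ 36) : 0 < e.evR w :=
  checkO_sound he adj1 hc x (by rw [lo1]; linarith) (by rw [hi1]; linarith) hlo hhi w w0 hw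

end

end Crest.Agent.R146.C2Env_454
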