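import Crest.Agent.R146.C2Eng_454
import Crest.Agent.R146.C2Data_454

/-!
# Row 146, helper454: law cells of NUMREF (C2), expressions

Variables: 0 = x, 1 = W, 2 = V, 4 = k, 5 = k', 7 = q, 19 = b, 20 = b', 22 = M+, 25 = M-, 28 = K+,
31 = K-, 34 = q T, 37 = q k'' - R k', 40 = q B, 43 = c, 46, 49 = majorants of the slope ratio.
-/

set_option autoImplicit false

namespace Crest.Agent.R146.C2Ex_454

open PP865 EncR_848 PP4_454 C2Data_454 C2Eng_454

def hf : Ex := .cst 1 1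
def eR : Ex := 1 - .var 2

/-- coefficients of `q h` : `y0 + r y1' + δ (z0 + r y2)` -/
structure HF where
  y0 : Ex
  y1 : Ex
  z0 : Ex
  y2 : Ex

/-- `h₊`, `B` = majorant of the slope ratio -/
def fP (B : Ex) : HF := ⟨B * eR, .var 34, .cst 0 0, B * .var 34⟩
/-- `h₋`, Taylor form -/
def fT (B K : Ex) : HF := ⟨-(B * eR), .var 34, -(.var 7 * K), -(B * .var 34)⟩
/-- `h₋`, chord, `r ≤ 0` -/
def fC0 (B : Ex) : HF := ⟨-(B * eR), eR, .cst 0 0, -(B * eR)⟩
/-- `h₋`, chord, `0 ≤ r` -/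
def fC1 (B : Ex) : HF := ⟨-(B * eR), -(.var 2), .cst 0 0, B * .var 2⟩

/-- the law numerator `q S` (as a polynomial in `δ`, `r`), `n = nA + nB δ` -/
def cS (nA nB nu : Ex) (H : HF) : C9 :=
  { c00 := H.y0 * (.var 5 + nA * .var 2) + nu * .var 40
    c01 := .var 37 + (H.y1 - .var 7 * .var 4) * (.var 5 + nA * .var 2)
    c10 := H.z0 * (.var 5 + nA * .var 2) + nB * (.var 2 * H.y0)
    c11 := H.y2 * (.var 5 + nA * .var 2) + nB * (.var 2 * (H.y1 - .var 7 * .var 4))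
    c12 := hf * .var 37
    c20 := nB * (.var 2 * H.z0)
    c21 := nB * (.var 2 * H.y2) }

/-- `q P`, `n = nA + nB δ` -/
def cP (nA nB : Ex) : C9 :=
  { c00 := hf * (.var 7 * (1 - nA)) + (.var 7 * .var 5 + nA * (.var 7 * .var 2))
    c01 := .cst 0 0
    c10 := nB * (.var 7 * .var 2 - hf * .var 7)
    c11 := .var 7 * .var 5 + nA * (.var 7 * .var 2)
    c12 := .cst 0 0
    c20 := .cst 0 0
    c21 := nB * (.var 7 * .var 2) }

/-- `f q P - q S` -/
def up (nA nB nu : Ex) (H : HF) : C9 :=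
  let P := cP nA nB
  let S := cS nA nB nu H
  { c00 := .cst 1433 10 * P.c00 - S.c00
    c01 := - S.c01
    c10 := .cst 1433 10 * P.c10 - S.c10
    c11 := .cst 1433 10 * P.c11 - S.c11
    c12 := - S.c12
    c20 := - S.c20
    c21 := .cst 1433 10 * P.c21 - S.c21 }

/-- `f q P + q S` -/
def dn (nA nB nu : Ex) (H : HF) : C9 :=
  let P := cP nA nB
  let S := cS nA nB nu H
  { c00 := .cst 1177 10 * P.c00 + S.c00
    c01 := S.c01
    c10 := .cst 1177 10 * P.c10 + S.c10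
    c11 := .cst 1177 10 * P.c11 + S.c11
    c12 := S.c12
    c20 := S.c20
    c21 := .cst 1177 10 * P.c21 + S.c21 }

def eV : Ex := .cst 4101 12
def eN : Ex := .cst 5738 13

/-! ### the values of the composite functions -/

def eA2 : Ex := (1 + .var 43) * .var 0 + 2 * .var 43 * (.var 1 - .var 0)
def eA2d : Ex := (1 + .var 43) - 2 * (.var 43 * eR)
def eI : Ex := (1 + .var 43) * .var 1 - eA2 * .var 2
def eK1 : Ex := .var 4 * .var 4 + eA2 * .var 4 - eA2d + 2 * .var 43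
def eK2 : Ex := (2 * .var 4 + eA2) * eK1 + eA2d * .var 4 - 2 * (.var 43 * eI)
def eT : Ex := .var 7 * (2 * (.var 43 * .var 7) - eA2)
def eQ : Ex := .var 7 * eK2 - eR * eK1
def eB : Ex := (1 + .var 43) * ((hf - .var 2) * (.var 4 * .var 7) + .var 2 * eR)
  - hf * ((eR + eA2 * .var 7) * eK1)

/-! ### errors -/

def erA : ℕ → ℕ
  | 1 => 851968
  | 2 => 6422528
  | 4 => 22020096
  | 5 => 87818240
  | 7 => 23592960
  | 43 => 65536
  | _ => 0

def errA : ℕ → ℕ
  | 1 => 851968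
  | 2 => 6422528
  | 4 => 22020096
  | 5 => 87818240
  | 7 => 23592960
  | 34 => 82706432
  | 37 => 149487616
  | 40 => 23461888
  | 43 => 65536
  | _ => 0

def erB : ℕ → ℕ
  | 1 => 851968
  | 2 => 6422528
  | 4 => 16252928
  | 5 => 28180480
  | 7 => 23592960
  | 43 => 65536
  | _ => 0

def errB : ℕ → ℕ
  | 1 => 851968
  | 2 => 6422528
  | 4 => 16252928
  | 5 => 28180480
  | 7 => 23592960
  | 34 => 71041024
  | 37 => 95682560
  | 40 => 26148864
  | 43 => 65536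
  | _ => 0

def erC : ℕ → ℕ
  | 1 => 851968
  | 2 => 6422528
  | 4 => 16252928
  | 5 => 28180480
  | 7 => 23592960
  | 43 => 65536
  | _ => 0

def errC : ℕ → ℕ
  | 1 => 851968
  | 2 => 6422528
  | 4 => 16252928
  | 5 => 28180480
  | 7 => 23592960
  | 34 => 49872896
  | 37 => 56360960
  | 40 => 27459584
  | 43 => 65536
  | _ => 0

def erD : ℕ → ℕ
  | 1 => 851968
  | 2 => 6422528
  | 4 => 16252928
  | 5 => 28180480
  | 7 => 37355520
  | 43 => 65536
  | _ => 0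

def errD : ℕ → ℕ
  | 1 => 851968
  | 2 => 6422528
  | 4 => 16252928
  | 5 => 28180480
  | 7 => 37355520
  | 34 => 45809664
  | 37 => 62914560
  | 40 => 34406400
  | 43 => 65536
  | _ => 0

def erE : ℕ → ℕ
  | 1 => 851968
  | 2 => 6422528
  | 4 => 16252928
  | 5 => 28180480
  | 7 => 37355520
  | 43 => 65536
  | _ => 0

def errE : ℕ → ℕ
  | 1 => 851968
  | 2 => 6422528
  | 4 => 16252928
  | 5 => 28180480
  | 7 => 37355520
  | 34 => 57802752
  | 37 => 68878336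
  | 40 => 38928384
  | 43 => 65536
  | _ => 0

def erF : ℕ → ℕ
  | 1 => 851968
  | 2 => 6422528
  | 4 => 16252928
  | 5 => 28180480
  | 7 => 27066368
  | 43 => 65536
  | _ => 0

def errF : ℕ → ℕ
  | 1 => 851968
  | 2 => 6422528
  | 4 => 16252928
  | 5 => 28180480
  | 7 => 27066368
  | 34 => 117178368
  | 37 => 102957056
  | 40 => 56688640
  | 43 => 65536
  | _ => 0

/-- pieces `(lo, hi]/8` with the base errors `er` : composites, majorants -/
def encl (err : ℕ → ℕ) (lo hi t q b : ℤ) : Bool :=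
  checkO 36 1 6 30 err lo hi (.cst t 20 - (eT - .var 34)) P1 PS1 &&
  checkO 36 1 6 30 err lo hi (.cst t 20 + (eT - .var 34)) P1 PS1 &&
  checkO 36 1 6 30 err lo hi (.cst q 20 - (eQ - .var 37)) P1 PS1 &&
  checkO 36 1 6 30 err lo hi (.cst q 20 + (eQ - .var 37)) P1 PS1 &&
  checkO 36 1 6 30 err lo hi (.cst b 20 - (eB - (1 + .var 43) * .var 40)) P1 PS1 &&
  checkO 36 1 6 30 err lo hi (.cst b 20 + (eB - (1 + .var 43) * .var 40)) P1 PS1

/-- Taylor remainder majorants, `1567 / 1024 >= 1.53` -/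
def kP (err : ℕ → ℕ) (lo hi : ℤ) : Bool :=
  checkO 36 3 6 30 err lo hi (2 * (.var 28 * (eR - .var 43 * (.var 2 * .var 22)))
    - .cst 1567 10 * (.var 22 * .var 22 * .var 7)) P1 PS1
def kM (err : ℕ → ℕ) (lo hi : ℤ) : Bool :=
  checkO 36 3 6 30 err lo hi (2 * (.var 31 * (eR * (1 - .var 43 * .var 25)))
    - .cst 1567 10 * (.var 25 * .var 25 * .var 7)) P1 PS1

/-- the `δ`-ranges and types -/
def u0 (err : ℕ → ℕ) (lo hi : ℤ) (H : HF) (M : Ex) : Bool :=
  chk9 36 1 3 20 49 err lo hi 0 1166 (up (.var 43) eV eV H) M P1 PS1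
def uE (err : ℕ → ℕ) (lo hi : ℤ) (H : HF) (M : Ex) : Bool :=
  chk9 36 1 3 20 49 err lo hi 1166 1703 (up eN (.cst 0 0) eV H) M P1 PS1
def uL (err : ℕ → ℕ) (lo hi : ℤ) (H : HF) (M : Ex) : Bool :=
  chk9 36 1 3 20 49 err lo hi 1166 1703 (up eN (.cst 0 0) (.cst 2804 12) H) M P1 PS1
def u2 (err : ℕ → ℕ) (lo hi : ℤ) (H : HF) (M : Ex) : Bool :=
  chk9 36 1 3 20 49 err lo hi 0 1703 (up (.var 43) (-eV) (-eV) H) M P1 PS1
def d0 (err : ℕ → ℕ) (lo hi : ℤ) (H : HF) (M : Ex) : Bool :=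
  chk9 36 1 3 20 49 err lo hi 0 1703 (dn (.var 43) eV eV H) M P1 PS1
def d2 (err : ℕ → ℕ) (lo hi : ℤ) (H : HF) (M : Ex) : Bool :=
  chk9 36 1 3 20 49 err lo hi 0 1703 (dn (.var 43) (-eV) (-eV) H) M P1 PS1

/-- all checks with `H` = upper form, `G` = lower form -/
def allC (err : ℕ → ℕ) (lo hi : ℤ) (H G : HF) (M : Ex) : Bool :=
  u0 err lo hi H M && uE err lo hi H M && uL err lo hi H M && u2 err lo hi H M &&
    d0 err lo hi G M && d2 err lo hi G M

/-- the two mixed checks (needed where `k' + n V` may be negative) -/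
def mixC (err : ℕ → ℕ) (lo hi : ℤ) (H G : HF) (M : Ex) : Bool :=
  u2 err lo hi G M && d2 err lo hi H M

end Crest.Agent.R146.C2Ex_454
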