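import Crest.Agent.R146.LawTail_490
import Crest.Agent.R146.C2S_889

/-!
Row 146, NUMREF, C2 (helper490): the level windows on the right tail `x ≥ 3`
(one-point inequalities (U), (L) in the form of `C2S_889`), and the size of `h` there.
-/

set_option autoImplicit false

namespace Crest.Agent.R146.C2P_490

open Set Filter Topology
open SPair_307 TailK_445
open QEnc_865 (qv)
open C2S_889
open C2D_889 (mm mp)
open RefX_355 (k1x qx Jx)

noncomputable section

variable {c : ℝ} {W V I k : ℝ → ℝ}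

/-! ### the data at `3` -/

theorem ck1 : checkBO 4 8 40 (err 570) 22 24 prm (.var 22 - .cst 1 6) = true := by decide +kernel
theorem ck2 : checkBO 4 8 40 (err 570) 22 24 prm
    (.cst 20971 20 - .var 22 + .cst 1 3 * (3 - .var 0)) = true := by decide +kernel
theorem ck3 : checkBO 4 8 40 (err 570) 22 24 prm (.var 25 - .cst 1 9) = true := by decide +kernel
theorem ck4 : checkBO 4 8 40 (err 570) 22 24 prm
    (.cst 3145 20 - .var 25 + .cst 1 3 * (3 - .var 0)) = true := by decide +kernel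

theorem dat (h : SPair c W V I k c) : 1 / 64 ≤ mm 3 ∧ mm 3 ≤ 1 / 50 ∧ 1 / 512 ≤ mp 3 ∧
    mp 3 ≤ 3 / 1000 := by
  have hc0 := h.c_pos
  have E := Enc3_848.enc h
  have hQ : |qv V I 3 - Enc1_848.F 2 3| ≤ ((570 : ℕ) : ℝ) / 2 ^ 20 := by
    have := QEnc_865.encQ h E.c_lo E.c_hi 3 ⟨by norm_num, by norm_num⟩
    push_cast
    exact this
  have k1 := chkW h le_rfl hc0.le ck1 (x := 3) hQ (by norm_num) (by norm_num) (by norm_num)
    (by norm_num)
  have k2 := chkW h le_rfl hc0.le ck2 (x := 3) hQ (by norm_num) (by norm_num) (by norm_num)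
    (by norm_num)
  have k3 := chkW h le_rfl hc0.le ck3 (x := 3) hQ (by norm_num) (by norm_num) (by norm_num)
    (by norm_num)
  have k4 := chkW h le_rfl hc0.le ck4 (x := 3) hQ (by norm_num) (by norm_num) (by norm_num)
    (by norm_num)
  have e3 : ∀ v : ℕ → ℝ, (3 : PP865.Ex).evR v = 3 := fun v => by simpa using PP865.Ex.evR_ofNat v 3
  simp only [PP865.Ex.evR_sub, PP865.Ex.evR_add, PP865.Ex.evR_mul, PP865.Ex.evR_cst,
    PP865.Ex.evR_var, e3, v0, v22, v25] at k1 k2 k3 k4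
  norm_num at k1 k2 k3 k4
  exact ⟨by linarith, by linarith, by linarith, by linarith⟩

theorem crange (h : SPair c W V I k c) : 4157 / 10000 ≤ c ∧ c ≤ 4158 / 10000 := by
  have E := Enc3_848.enc h
  have h1 := E.c_lo
  have h2 := E.c_hi
  norm_num at h1 h2
  exact ⟨by linarith, by linarith⟩

/-! ### numbers on the right tail -/

theorem qx_le (h : SPair c W V I k c) (c0 : 4157 / 10000 ≤ c) {x : ℝ} (hx : 3 ≤ x) :
    qx V I x ≤ 236 / 1000 := by
  have h1 := LawTail_490.al_ge h c0 hx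
  have hR : 0 < 1 - V x := by linarith [h.V_lt x]
  have hI := h.I_pos x
  have hU : 0 < W x - x := by linarith [h.U_pos x]
  have h2 : 42471 / 10000 * (1 - V x) ≤ I x := by
    have e1 := I_eq h x
    have e2 := mul_le_mul_of_nonneg_right h1 hR.le
    have e3 := mul_pos (show 0 < 1 - c by linarith [h.c_lt]) hU
    linarith
  unfold qx
  rw [div_le_iff₀ hI]
  have h3 : V x * (1 - V x) ≤ 1 * (1 - V x) := mul_le_mul_of_nonneg_right (h.V_lt x).le hR.le
  linarith

theorem qx_pos (h : SPair c W V I k c) (x : ℝ) : 0 < qx V I x := by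
  have h1 := h.V_pos x
  have h2 := h.I_pos x
  have h3 : 0 < 1 - V x := by linarith [h.V_lt x]
  unfold qx
  positivity

/-- `dI/dV ≤ -4` on the right tail -/
theorem T_le (h : SPair c W V I k c) (c0 : 4157 / 10000 ≤ c) (c1 : c ≤ 4158 / 10000) {x : ℝ}
    (hx : 3 ≤ x) : k1x c W V I x ≤ -4 := by
  have h1 := LawTail_490.al_ge h c0 hx
  have h2 := qx_le h c0 hx
  have hq := qx_pos h x
  have h3 : c * qx V I x ≤ 4158 / 10000 * (236 / 1000) := mul_le_mul c1 h2 hq.le (by norm_num)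
  unfold k1x
  linarith

/-- the numbers at `3` -/
theorem at3 (h : SPair c W V I k c) (c0 : 4157 / 10000 ≤ c) (c1 : c ≤ 4158 / 10000) :
    1 - V 3 ≤ 1 / 2000 ∧ 2 * Ad c W 3 ≤ 42476 / 10000 ∧
      I 3 ≤ 43853 / 10000 * (1 - V 3) := by
  have hR3 := J_791.V_right h (le_refl (3 : ℝ))
  have hR : 0 < 1 - V 3 := by linarith [h.V_lt 3]
  have e1 := LawTail_490.al_ge h c0 (le_refl (3 : ℝ))
  have e2 := aU_le_R h 3
  have hU : 0 < W 3 - 3 := by linarith [h.U_pos 3]
  have e3 : 42471 / 10000 * (W 3 - 3) ≤ 1 - V 3 := (mul_le_mul_of_nonneg_right e1 hU.le).trans e2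
  have e4 : W 3 - 3 ≤ 12 / 100000 := by linarith
  have e5 : 2 * Ad c W 3 ≤ 42476 / 10000 := by
    have : c * (W 3 - 3) ≤ 4158 / 10000 * (12 / 100000) := mul_le_mul c1 e4 hU.le (by norm_num)
    unfold Ad
    linarith
  refine ⟨hR3, e5, ?_⟩
  have e6 : 2 * Ad c W 3 * (1 - V 3) ≤ 42476 / 10000 * (1 - V 3) :=
    mul_le_mul_of_nonneg_right e5 hR.le
  have e7 : (1 - c) * (W 3 - 3) ≤ 5843 / 10000 * (W 3 - 3) :=
    mul_le_mul_of_nonneg_right (by linarith) hU.le
  rw [I_eq h]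
  linarith

/-- `dI/dV ≥ -4.06 exp (x-3)` on the right tail -/
theorem T_ge (h : SPair c W V I k c) (c0 : 4157 / 10000 ≤ c) (c1 : c ≤ 4158 / 10000) {x : ℝ}
    (hx : 3 ≤ x) : -(406 / 100 * Real.exp (x - 3)) ≤ k1x c W V I x := by
  obtain ⟨a1, a2, a3⟩ := at3 h c0 c1
  have hI := h.I_pos 3
  have hV := h.V_pos 3
  have hR : 0 < 1 - V 3 := by linarith [h.V_lt 3]
  have hq : 2279 / 10000 ≤ qx V I 3 := by
    unfold qx
    rw [le_div_iff₀ hI]
    have : 9995 / 10000 * (1 - V 3) ≤ V 3 * (1 - V 3) :=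
      mul_le_mul_of_nonneg_right (by linarith) hR.le
    linarith
  have h3 : -(406 / 100) ≤ k1x c W V I 3 := by
    have : 4157 / 10000 * (2279 / 10000) ≤ c * qx V I 3 :=
      mul_le_mul c0 hq (by norm_num) h.c_pos.le
    unfold k1x
    linarith
  have hm : Monotone fun y => k1x c W V I y + 153 / 100 * y :=
    monotone_of_hasDerivAt_nonneg
      (fun z => (EqEta_889.dk1v h z).add ((hasDerivAt_id z).const_mul (153 / 100))) fun z => by
        show (0 : ℝ) ≤ -EqEta_889.Jc c W V I z + 153 / 100 * 1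
        linarith [J_791.Jc_le h z]
  have h4 := hm hx
  simp only at h4
  have h5 := Real.add_one_le_exp (x - 3)
  linarith

/-- `I/(1-V) ≤ 4.39 exp (x-3)` on the right tail -/
theorem IR_le (h : SPair c W V I k c) (c0 : 4157 / 10000 ≤ c) (c1 : c ≤ 4158 / 10000) {x : ℝ}
    (hx : 3 ≤ x) : I x / (1 - V x) ≤ 439 / 100 * Real.exp (x - 3) := by
  have hR : 0 < 1 - V x := by linarith [h.V_lt x]
  have hRx := J_791.V_right h hx
  have e1 := LawTail_490.al_ge h c0 hx
  have e2 := aU_le_R h x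
  have hU : 0 < W x - x := by linarith [h.U_pos x]
  have e3 : 42471 / 10000 * (W x - x) ≤ 1 - V x := (mul_le_mul_of_nonneg_right e1 hU.le).trans e2
  have e4 : W x - x ≤ 12 / 100000 := by linarith
  have e5 : 2 * Ad c W x ≤ 42476 / 10000 + 15 / 10 * (x - 3) := by
    have e8 : c * (W x - x) ≤ 4158 / 10000 * (12 / 100000) := mul_le_mul c1 e4 hU.le (by norm_num)
    have e9 : (1 + c) * (x - 3) ≤ 15 / 10 * (x - 3) :=
      mul_le_mul_of_nonneg_right (by linarith) (by linarith)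
    unfold Ad
    linarith
  have e6 : 2 * Ad c W x * (1 - V x) ≤ (42476 / 10000 + 15 / 10 * (x - 3)) * (1 - V x) :=
    mul_le_mul_of_nonneg_right e5 hR.le
  have e7 : (1 - c) * (W x - x) ≤ 5843 / 10000 * (W x - x) :=
    mul_le_mul_of_nonneg_right (by linarith) hU.le
  have h5 := Real.add_one_le_exp (x - 3)
  rw [div_le_iff₀ hR, I_eq h]
  have h6 : (439 / 100 * (x - 3 + 1)) * (1 - V x) ≤ 439 / 100 * Real.exp (x - 3) * (1 - V x) :=
    mul_le_mul_of_nonneg_right (by linarith) hR.le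
  have h7 : 0 ≤ (x - 3) * (1 - V x) := mul_nonneg (by linarith) hR.le
  linarith

/-- `I/V ≤ 3/1000 · exp (-(x-3))` on the right tail -/
theorem p_right (h : SPair c W V I k c) (c0 : 4157 / 10000 ≤ c) (c1 : c ≤ 4158 / 10000) {x : ℝ}
    (hx : 3 ≤ x) : I x / V x ≤ 3 / 1000 * Real.exp (-(x - 3)) := by
  obtain ⟨a1, a2, a3⟩ := at3 h c0 c1
  have hV3 := h.V_pos 3
  have h3 : I 3 ≤ 299 / 100000 * V 3 := by linarith
  -- `(I/V) exp(x-3)` is nonincreasing
  have hd : ∀ y, HasDerivAt (fun y => I y / V y * Real.exp (y - 3))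
      ((k1x c W V I y * I y * V y - I y * I y) / V y ^ 2 * Real.exp (y - 3) +
        I y / V y * (Real.exp (y - 3) * 1)) y := fun y =>
    ((RefX_355.dI' h y).div (h.dV y) (h.V_pos y).ne').mul
      (((hasDerivAt_id y).sub_const 3).exp)
  have hm : AntitoneOn (fun y => I y / V y * Real.exp (y - 3)) (Ici 3) := by
    refine antitoneOn_of_deriv_nonpos (convex_Ici 3)
      (fun w _ => (hd w).continuousAt.continuousWithinAt)
      (fun w _ => (hd w).differentiableAt.differentiableWithinAt) fun w hw => ?_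
    rw [(hd w).deriv]
    rw [interior_Ici] at hw
    have hT := T_le h c0 c1 (le_of_lt hw)
    have hV := h.V_pos w
    have hI := h.I_pos w
    have e1 : (k1x c W V I w * I w * V w - I w * I w) / V w ^ 2 =
        I w / V w * (k1x c W V I w - I w / V w) := by field_simp
    rw [e1]
    have e2 : 0 < I w / V w := div_pos hI hV
    have e3 : I w / V w * (k1x c W V I w - I w / V w) * Real.exp (w - 3) +
        I w / V w * (Real.exp (w - 3) * 1) =
        I w / V w * Real.exp (w - 3) * (k1x c W V I w - I w / V w + 1) := by ring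
    rw [e3]
    exact mul_nonpos_of_nonneg_of_nonpos (mul_pos e2 (Real.exp_pos _)).le (by linarith)
  have h1 := hm (mem_Ici.2 le_rfl) (mem_Ici.2 hx) hx
  simp only [sub_self, Real.exp_zero, mul_one] at h1
  have h2 : I 3 / V 3 ≤ 3 / 1000 := by
    rw [div_le_iff₀ hV3]; linarith
  have h4 : I x / V x = I x / V x * Real.exp (x - 3) * Real.exp (-(x - 3)) := by
    rw [mul_assoc, ← Real.exp_add, add_neg_cancel, Real.exp_zero, mul_one]
  rw [h4]
  exact mul_le_mul_of_nonneg_right (h1.trans h2) (Real.exp_pos _).le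

/-! ### algebra -/

/-- from the `p`-form to the `q`-form -/
theorem q_form (h : SPair c W V I k c) {x A B : ℝ} (hAB : 0 ≤ I x / V x * B + A) :
    0 ≤ qv V I x * A + (1 - V x) * B := by
  have hq := qx_pos h x
  have hV := (h.V_pos x).ne'
  have hI := (h.I_pos x).ne'
  have e : qv V I x * A + (1 - V x) * B = qx V I x * (I x / V x * B + A) := by
    unfold qv qx
    field_simp
    ring
  rw [e]
  exact mul_nonneg hq.le hAB

theorem alg_U {p T u δ E : ℝ} (hp0 : 0 ≤ p) (hp : p ≤ 2 * u) (hT : T ≤ -4) (hu0 : 0 ≤ u)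
    (hu : u ≤ 1 / 2) (hδ : 0 ≤ δ) (hδ1 : δ ≤ 1 / 2) (hE0 : 0 ≤ E) (hE : E ≤ 1 / 2) :
    0 ≤ p * (u * (2 + δ * u) - E) + (-u * (1 + δ * u) - T * u * (1 + δ * E)) := by
  have h1 : 0 ≤ p * (u * (2 + δ * u)) := by positivity
  have h2 : p * E ≤ 2 * u * (1 / 2) := mul_le_mul hp hE hE0 (by positivity)
  have h3 : u * (δ * u) ≤ u * (1 / 2 * (1 / 2)) :=
    mul_le_mul_of_nonneg_left (mul_le_mul hδ1 hu hu0 (by norm_num)) hu0
  have h4 : 4 * (u * (1 + δ * E)) ≤ -T * (u * (1 + δ * E)) :=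
    mul_le_mul_of_nonneg_right (by linarith) (by positivity)
  have h5 : 0 ≤ u * (δ * E) := by positivity
  linarith

theorem alg_L {p σ u δ E : ℝ} (hp0 : 0 ≤ p) (hp : p ≤ 1 / 5 * u) (hσ : 5 / 2 ≤ σ) (hu0 : 0 ≤ u)
    (hu : u ≤ 1 / 2) (hδ : 0 ≤ δ) (hδ1 : δ ≤ 1 / 2) (hE0 : 0 ≤ E) (hE : E ≤ 1 / 2) :
    0 ≤ p * (u * (2 - δ * u) - E) + (-u * (1 - δ * u) + σ * u * (1 - δ * E)) := by
  have h1 : 0 ≤ p * (u * (2 - δ * u)) := by
    have : 0 ≤ 2 - δ * u := by nlinarith
    positivity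
  have h2 : p * E ≤ 1 / 5 * u * (1 / 2) := mul_le_mul hp hE hE0 (by positivity)
  have h3 : 0 ≤ u * (δ * u) := by positivity
  have h4 : δ * E ≤ 1 / 2 * (1 / 2) := mul_le_mul hδ1 hE hE0 (by norm_num)
  have h5 : 5 / 2 * (u * (1 - δ * E)) ≤ σ * (u * (1 - δ * E)) :=
    mul_le_mul_of_nonneg_right hσ (mul_nonneg hu0 (by linarith))
  have h6 : u * (δ * E) ≤ u * (1 / 2 * (1 / 2)) := mul_le_mul_of_nonneg_left h4 hu0
  linarith

theorem mpF_ge {x : ℝ} (hx : 3 ≤ x) : mpF x = mp 3 * Real.exp (-(x - 3)) := by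
  unfold mpF
  split_ifs with h
  · have : x = 3 := le_antisymm h hx
    rw [this]; simp
  · rfl

theorem mmF_ge {x : ℝ} (hx : 3 ≤ x) : mmF x = mm 3 * Real.exp (-(x - 3)) := by
  unfold mmF
  split_ifs with h
  · have : x = 3 := le_antisymm h hx
    rw [this]; simp
  · rfl

theorem Ek_right {x : ℝ} (hx : 3 ≤ x) : Ek x = 484 / 1024 := by
  unfold Ek
  rw [if_neg (by linarith), if_neg (by linarith), if_neg (by linarith), if_neg (by linarith)]

theorem Ep_right {x : ℝ} (hx : 3 ≤ x) : Ep x = 484 / 1024 := by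
  unfold Ep
  rw [if_neg (by linarith), Ek_right hx]

theorem Em_right {x : ℝ} (hx : 3 ≤ x) : Em x = 484 / 1024 := by
  unfold Em
  rw [if_neg (by linarith), if_neg (by linarith), Ek_right hx]

theorem sg_right {x : ℝ} (hx : 3 ≤ x) : sg x = 652 / 256 := by
  unfold sg
  rw [if_neg (by linarith), if_neg (by linarith)]

/-- **(U) on the right tail** -/
theorem U_right (h : SPair c W V I k c) {δ : ℝ} (hδ : 0 < δ) (hδc : δ ≤ c) {x : ℝ} (hx : 3 ≤ x) :
    0 ≤ qv V I x * (-(mpF x) * (1 + δ * mpF x) - k1x c W V I x * mpF x * (1 + δ * Ep x)) +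
      (1 - V x) * (mpF x * (2 + δ * mpF x) - Ep x) := by
  obtain ⟨c0, c1⟩ := crange h
  obtain ⟨m1, m2, m3, m4⟩ := dat h
  have he : Real.exp (-(x - 3)) ≤ 1 := Real.exp_le_one_iff.2 (by linarith)
  have he0 : 0 < Real.exp (-(x - 3)) := Real.exp_pos _
  have hp := p_right h c0 c1 hx
  have hu := mpF_ge hx
  have hu0 : 0 ≤ mpF x := by rw [hu]; exact mul_nonneg (by linarith) he0.le
  have hu1 : mpF x ≤ 1 / 2 := by
    rw [hu]
    calc mp 3 * Real.exp (-(x - 3)) ≤ 1 / 2 * 1 := mul_le_mul (by linarith) he he0.le (by norm_num)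
      _ = 1 / 2 := by norm_num
  have hpu : I x / V x ≤ 2 * mpF x := by
    rw [hu]
    have := mul_le_mul_of_nonneg_right m3 he0.le
    linarith
  rw [Ep_right hx]
  exact q_form h (alg_U (div_pos (h.I_pos x) (h.V_pos x)).le hpu (T_le h c0 c1 hx) hu0 hu1 hδ.le
    (by linarith) (by norm_num) (by norm_num))

/-- **(L) on the right tail** -/
theorem L_right (h : SPair c W V I k c) {δ : ℝ} (hδ : 0 < δ) (hδc : δ ≤ c) {x : ℝ} (hx : 3 ≤ x) :
    0 ≤ qv V I x * (-(mmF x) * (1 - δ * mmF x) + sg x * mmF x * (1 - δ * Em x)) +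
      (1 - V x) * (mmF x * (2 - δ * mmF x) - Em x) := by
  obtain ⟨c0, c1⟩ := crange h
  obtain ⟨m1, m2, m3, m4⟩ := dat h
  have he : Real.exp (-(x - 3)) ≤ 1 := Real.exp_le_one_iff.2 (by linarith)
  have he0 : 0 < Real.exp (-(x - 3)) := Real.exp_pos _
  have hp := p_right h c0 c1 hx
  have hu := mmF_ge hx
  have hu0 : 0 ≤ mmF x := by rw [hu]; exact mul_nonneg (by linarith) he0.le
  have hu1 : mmF x ≤ 1 / 2 := by
    rw [hu]
    calc mm 3 * Real.exp (-(x - 3)) ≤ 1 / 2 * 1 := mul_le_mul (by linarith) he he0.le (by norm_num)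
      _ = 1 / 2 := by norm_num
  have hpu : I x / V x ≤ 1 / 5 * mmF x := by
    rw [hu]
    have := mul_le_mul_of_nonneg_right m1 he0.le
    linarith
  rw [Em_right hx, sg_right hx]
  exact q_form h (alg_L (div_pos (h.I_pos x) (h.V_pos x)).le hpu (by norm_num) hu0 hu1 hδ.le
    (by linarith) (by norm_num) (by norm_num))

/-- **sizes on the right tail** -/
theorem out_right (h : SPair c W V I k c) {x : ℝ} (hx : 3 ≤ x) :
    mmF x * V x ≤ 1 / 50 ∧ mmF x ≤ 1 / 50 ∧ mpF x ≤ 1 / 50 := by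
  obtain ⟨m1, m2, m3, m4⟩ := dat h
  have he : Real.exp (-(x - 3)) ≤ 1 := Real.exp_le_one_iff.2 (by linarith)
  have he0 : 0 < Real.exp (-(x - 3)) := Real.exp_pos _
  have hmm : mmF x ≤ 1 / 50 := by
    rw [mmF_ge hx]
    calc mm 3 * Real.exp (-(x - 3)) ≤ 1 / 50 * 1 := mul_le_mul m2 he he0.le (by norm_num)
      _ = 1 / 50 := by norm_num
  have hmp : mpF x ≤ 1 / 50 := by
    rw [mpF_ge hx]
    calc mp 3 * Real.exp (-(x - 3)) ≤ 1 / 50 * 1 := mul_le_mul (by linarith) he he0.le (by norm_num)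
      _ = 1 / 50 := by norm_num
  refine ⟨?_, hmm, hmp⟩
  calc mmF x * V x ≤ 1 / 50 * 1 := mul_le_mul hmm (h.V_lt x).le (h.V_pos x).le (by norm_num)
    _ = 1 / 50 := by norm_num

theorem exp_cancel (t a b : ℝ) : a * Real.exp t * (b * Real.exp (-t)) = a * b := by
  have : Real.exp t * Real.exp (-t) = 1 := by rw [← Real.exp_add]; simp
  calc a * Real.exp t * (b * Real.exp (-t)) = a * b * (Real.exp t * Real.exp (-t)) := by ring
    _ = a * b := by rw [this, mul_one]

/-- **size of `h` on the right tail** -/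
theorem h_right (h : SPair c W V I k c) {δ : ℝ} (hδ : 0 < δ) (hδc : δ ≤ c) {x β r ε : ℝ}
    (hx : 3 ≤ x) (hβ : |β| ≤ 472 / 1000) (hr0 : -(mmF x) ≤ r) (hr1 : r ≤ mpF x) (hε : 0 ≤ ε)
    (h1 : r ≤ 0 → ε ≤ (I x / V x - k1x c W V I x) * (-r))
    (h2 : 0 ≤ r → ε ≤ (I x / (1 - V x) + k1x c W V I x) * r) :
    |β * (I x / V x) + (1 + δ * β) * (k1x c W V I x * r - ε)| ≤ 1 / 10 := by
  obtain ⟨c0, c1⟩ := crange h
  obtain ⟨m1, m2, m3, m4⟩ := dat h
  have he : Real.exp (-(x - 3)) ≤ 1 := Real.exp_le_one_iff.2 (by linarith)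
  have he0 : 0 < Real.exp (-(x - 3)) := Real.exp_pos _
  have hex : 0 < Real.exp (x - 3) := Real.exp_pos _
  have hp := p_right h c0 c1 hx
  have hp0 : 0 < I x / V x := div_pos (h.I_pos x) (h.V_pos x)
  have hp1 : I x / V x ≤ 3 / 1000 := by
    refine hp.trans ?_
    linarith
  have hT0 := T_le h c0 c1 hx
  have hT1 := T_ge h c0 c1 hx
  have hR1 := IR_le h c0 c1 hx
  have hR0 : 0 < I x / (1 - V x) := div_pos (h.I_pos x) (by linarith [h.V_lt x])
  set p : ℝ := I x / V x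
  set T : ℝ := k1x c W V I x
  set P : ℝ := I x / (1 - V x)
  -- `g = T r - ε`
  have hg : -(132 / 10000) ≤ T * r - ε ∧ T * r - ε ≤ 812 / 10000 := by
    rcases le_or_gt r 0 with hr | hr
    · have e1 := h1 hr
      have e2 : -r ≤ 1 / 50 * Real.exp (-(x - 3)) := by
        have : mmF x ≤ 1 / 50 * Real.exp (-(x - 3)) := by
          rw [mmF_ge hx]; exact mul_le_mul_of_nonneg_right m2 he0.le
        linarith
      constructor
      · have e3 : p * (-r) ≤ 3 / 1000 * (1 / 50) := by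
          apply mul_le_mul hp1 _ (by linarith) (by norm_num)
          linarith
        linarith
      · have e3 : -T * -r ≤ 406 / 100 * Real.exp (x - 3) * (1 / 50 * Real.exp (-(x - 3))) :=
          mul_le_mul (by linarith) e2 (by linarith) (by positivity)
        rw [exp_cancel] at e3
        linarith
    · have e1 := h2 hr.le
      have e2 : r ≤ 3 / 1000 * Real.exp (-(x - 3)) := by
        have : mpF x ≤ 3 / 1000 * Real.exp (-(x - 3)) := by
          rw [mpF_ge hx]; exact mul_le_mul_of_nonneg_right m4 he0.le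
        linarith
      constructor
      · have e3 : P * r ≤ 439 / 100 * Real.exp (x - 3) * (3 / 1000 * Real.exp (-(x - 3))) :=
          mul_le_mul hR1 e2 hr.le (by positivity)
        rw [exp_cancel] at e3
        linarith
      · have e3 : T * r ≤ 0 := mul_nonpos_of_nonpos_of_nonneg (by linarith) hr.le
        linarith
  have hg' : |T * r - ε| ≤ 812 / 10000 := by
    rw [abs_le]; constructor <;> linarith [hg.1, hg.2]
  have hδβ : |1 + δ * β| ≤ 11963 / 10000 := by
    have e1 : |δ * β| ≤ 4158 / 10000 * (472 / 1000) :=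
      LawTail_490.abs_mul_le' (by rw [abs_of_pos hδ]; linarith) hβ
    refine (abs_add_le _ _).trans ?_
    rw [abs_one]; linarith
  have e1 : |β * p| ≤ 472 / 1000 * (3 / 1000) :=
    LawTail_490.abs_mul_le' hβ (by rw [abs_of_pos hp0]; exact hp1)
  have e2 := LawTail_490.abs_mul_le' hδβ hg'
  refine (abs_add_le _ _).trans ?_
  linarith

end

end Crest.Agent.R146.C2P_490
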