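import Crest.Agent.R146.C2P_490

/-!
Row 146, NUMREF, C2 (helper490): the fields of `PtNum_846.C2` on the tails `z ≤ -5` and `z ≥ 3`
from the level windows `V z (1 - δ mmF z) ≤ V x ≤ V z (1 + δ mpF z)`
(`x` = label of the level, `z` = label of the position).
-/

set_option autoImplicit false

namespace Crest.Agent.R146.C2Q_490

open Set Filter Topology
open SPair_307 TailK_445
open QEnc_865 (qv)
open C2S_889
open C2D_889 (mm mp mm_left mp_left mL)
open C1D_445 (b)
open RefX_355 (k1x qx Jx)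
open RefWS_355 (L1 L2 nl nu)
open PtRef_846 (PotR)
open YW_177 (LStat)

noncomputable section

variable {c : ℝ} {W V I k : ℝ → ℝ}

/-! ### bounds of the data -/

theorem ck5 : checkBO 4 8 40 (err 570) (-48) (-40) prm (.cst 1268776 20 - .var 22) = true := by
  decide +kernel
theorem ck6 : checkBO 4 8 40 (err 570) (-48) (-40) prm (.cst 1268776 20 - .var 25) = true := by
  decide +kernel
theorem ck7 : checkBO 4 8 40 (err 570) (-48) 32 prm (.cst 1258291 20 - .var 19) = true := by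
  decide +kernel
theorem ck8 : checkBO 4 8 40 (err 570) (-8) 32 prm (.cst 492830 20 - .var 19) = true := by
  decide +kernel
theorem ck9 : checkBO 4 8 40 (err 570) (-48) 32 prm (.var 19) = true := by
  decide +kernel

theorem hQ (h : SPair c W V I k c) {x : ℝ} (h1 : -6 ≤ x) (h2 : x ≤ 6) :
    |qv V I x - Enc1_848.F 2 x| ≤ ((570 : ℕ) : ℝ) / 2 ^ 20 := by
  have E := Enc3_848.enc h
  have := QEnc_865.encQ h E.c_lo E.c_hi x ⟨h1, h2⟩
  push_cast
  exact this

theorem m_left (h : SPair c W V I k c) {x : ℝ} (hx : x ≤ -5) : mmF x ≤ 121 / 100 ∧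
    mpF x ≤ 121 / 100 := by
  unfold mmF mpF
  rw [if_pos (by linarith), if_pos (by linarith)]
  rcases le_or_gt x (-6) with h6 | h6
  · rw [mm_left h6, mp_left h6]
    unfold mL
    norm_num
  · have k1 := chkW h le_rfl h.c_pos.le ck5 (x := x) (hQ h h6.le (by linarith)) (by linarith)
      (by linarith) (by norm_num; linarith) (by norm_num; linarith)
    have k2 := chkW h le_rfl h.c_pos.le ck6 (x := x) (hQ h h6.le (by linarith)) (by linarith)
      (by linarith) (by norm_num; linarith) (by norm_num; linarith)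
    simp only [PP865.Ex.evR_sub, PP865.Ex.evR_cst, PP865.Ex.evR_var, v22, v25] at k1 k2
    norm_num at k1 k2
    constructor <;> linarith

theorem b_all (h : SPair c W V I k c) (x : ℝ) : 0 ≤ b x ∧ b x ≤ 6 / 5 := by
  rcases le_or_gt x (-6) with h6 | h6
  · rw [C1D_445.b_left h6]
    unfold C1D_445.bL
    norm_num
  rcases le_or_gt x 4 with h4 | h4
  · have k1 := chkW h le_rfl h.c_pos.le ck7 (x := x) (hQ h h6.le (by linarith)) (by linarith)
      (by linarith) (by norm_num; linarith) (by norm_num; linarith)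
    have k2 := chkW h le_rfl h.c_pos.le ck9 (x := x) (hQ h h6.le (by linarith)) (by linarith)
      (by linarith) (by norm_num; linarith) (by norm_num; linarith)
    simp only [PP865.Ex.evR_sub, PP865.Ex.evR_cst, PP865.Ex.evR_var, v19] at k1 k2
    norm_num at k1 k2
    constructor <;> linarith
  · rw [C1D_445.b_right (by linarith)]
    unfold C1D_445.bR
    norm_num

theorem b_right (h : SPair c W V I k c) {x : ℝ} (hx : -1 < x) : b x ≤ 47 / 100 := by
  rcases le_or_gt x 4 with h4 | h4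
  · have k1 := chkW h le_rfl h.c_pos.le ck8 (x := x) (hQ h (by linarith) (by linarith)) (by linarith)
      (by linarith) (by norm_num; linarith) (by norm_num; linarith)
    simp only [PP865.Ex.evR_sub, PP865.Ex.evR_cst, PP865.Ex.evR_var, v19] at k1
    norm_num at k1
    linarith
  · rw [C1D_445.b_right (by linarith)]
    unfold C1D_445.bR
    norm_num

/-! ### the endpoints `y`, `j` -/

theorem y_bd {δ y : ℝ} (c1 : c ≤ 4158 / 10000) (hδ : 0 < δ) (hδc : δ ≤ c)
    (hy : y = nl c δ (δ / 1000) ∨ y = nu c δ (δ / 1000)) :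
    0 ≤ y ∧ y ≤ 7005 / 10000 ∧ |y - c| ≤ 1001 / 1000 * δ := by
  rcases hy with rfl | rfl
  · unfold nl
    have h1 := le_max_left (0 : ℝ) (c - δ - δ / 1000)
    have h2 := le_max_right (0 : ℝ) (c - δ - δ / 1000)
    have h3 : max 0 (c - δ - δ / 1000) ≤ c := max_le (by linarith) (by linarith)
    refine ⟨h1, by linarith, ?_⟩
    rw [abs_le]
    constructor <;> linarith
  · unfold nu
    have h1 := min_le_left (7 / 10 : ℝ) (c + δ)
    have h2 := min_le_right (7 / 10 : ℝ) (c + δ)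
    have h3 : c ≤ min (7 / 10) (c + δ) := le_min (by linarith) (by linarith)
    refine ⟨by linarith, by linarith, ?_⟩
    rw [abs_le]
    constructor <;> linarith

theorem j_bd {δ j x B : ℝ} (hδ : 0 < δ) (hδ1 : δ ≤ 1 / 2) (hb0 : 0 ≤ b x) (hb : b x ≤ B)
    (hB : B ≤ 2) (hj : j = (1 - δ / 1000) * (1 - δ * b x) ∨ j = (1 + δ / 1000) * (1 + δ * b x)) :
    |j - 1| ≤ (B + 2 / 1000) * δ := by
  have h1 : 0 ≤ δ * b x := mul_nonneg hδ.le hb0
  have h2 : δ * b x ≤ B * δ := by
    have := mul_le_mul_of_nonneg_left hb hδ.le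
    linarith
  have h3 : δ * b x ≤ 1 := by
    have : δ * b x ≤ 1 / 2 * 2 := mul_le_mul hδ1 (hb.trans hB) hb0 (by norm_num)
    linarith
  have h4 : δ * (δ * b x) ≤ δ * 1 := mul_le_mul_of_nonneg_left h3 hδ.le
  have h5 : 0 ≤ δ * (δ * b x) := mul_nonneg hδ.le h1
  rw [abs_le]
  rcases hj with rfl | rfl
  · constructor <;> linarith
  · constructor <;> linarith

/-- `V (-1) ≤ 1/2` -/
theorem V1_le (h : SPair c W V I k c) : V (-1) ≤ 1 / 2 := by
  obtain ⟨t, ht, ht2⟩ := exists_hasDerivAt_eq_slope W V (show (-1 : ℝ) < 0 by norm_num)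
    (h.cW.continuousOn) (fun y _ => h.dW y)
  have e1 : V (-1) ≤ V t := h.V_strictMono.monotone ht.1.le
  have e2 : V t = W 0 - W (-1) := by rw [ht2]; norm_num
  have e3 := Stat8_307.W0_le h
  have e4 := h.W_pos (-1)
  linarith

/-! ### the fields of `C2` on the tails -/

/-- **left tail** -/
theorem c2_left (h : SPair c W V I k c) {δ : ℝ} (hδ : 0 < δ) (hδc : δ ≤ c) {x z : ℝ}
    (hz : z ≤ -5) (hw1 : V z * (1 - δ * mmF z) ≤ V x) (hw2 : V x ≤ V z * (1 + δ * mpF z))
    {y j : ℝ} (hy : y = nl c δ (δ / 1000) ∨ y = nu c δ (δ / 1000))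
    (hj : j = (1 - δ / 1000) * (1 - δ * b x) ∨ j = (1 + δ / 1000) * (1 + δ * b x)) :
    1 / 10 ≤ PotR y (V x) (L1 c W V k z) ∧
    LStat 1 y (V x) (j * I x) (W z) (k z) (L1 c W V k z) (L2 c W V I k z) ≤
      27 / 20 * δ * PotR y (V x) (L1 c W V k z) ∧
    -(11 / 10 * δ * PotR y (V x) (L1 c W V k z)) ≤
      LStat 1 y (V x) (j * I x) (W z) (k z) (L1 c W V k z) (L2 c W V I k z) := by
  obtain ⟨c0, c1⟩ := C2P_490.crange h
  obtain ⟨y0, y1, y2⟩ := y_bd c1 hδ hδc hy
  obtain ⟨b0, b1⟩ := b_all h x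
  have hj' := j_bd hδ (by linarith) b0 b1 (by norm_num) hj
  obtain ⟨m1, m2⟩ := m_left h hz
  have hV := h.V_pos z
  refine LawTail_490.law_left' h (J_791.Jc_nonneg h) c0 c1 hz hδ hδc ?_ ?_ y0 y1 y2
  · have h1 : δ * V z * mmF z ≤ δ * V z * (121 / 100) :=
      mul_le_mul_of_nonneg_left m1 (mul_pos hδ hV).le
    have h2 : δ * V z * mpF z ≤ δ * V z * (121 / 100) :=
      mul_le_mul_of_nonneg_left m2 (mul_pos hδ hV).le
    rw [abs_le]
    constructor <;> linarith
  · refine hj'.trans ?_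
    apply mul_le_mul_of_nonneg_right _ hδ.le
    norm_num

/-- **right tail** -/
theorem c2_right (h : SPair c W V I k c) {δ : ℝ} (hδ : 0 < δ) (hδc : δ ≤ c) {x z : ℝ}
    (hz : 3 ≤ z) (hw1 : V z * (1 - δ * mmF z) ≤ V x) (hw2 : V x ≤ V z * (1 + δ * mpF z))
    {y j : ℝ} (hy : y = nl c δ (δ / 1000) ∨ y = nu c δ (δ / 1000))
    (hj : j = (1 - δ / 1000) * (1 - δ * b x) ∨ j = (1 + δ / 1000) * (1 + δ * b x)) :
    1 / 10 ≤ PotR y (V x) (L1 c W V k z) ∧
    LStat 1 y (V x) (j * I x) (W z) (k z) (L1 c W V k z) (L2 c W V I k z) ≤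
      27 / 20 * δ * PotR y (V x) (L1 c W V k z) ∧
    -(11 / 10 * δ * PotR y (V x) (L1 c W V k z)) ≤
      LStat 1 y (V x) (j * I x) (W z) (k z) (L1 c W V k z) (L2 c W V I k z) := by
  obtain ⟨c0, c1⟩ := C2P_490.crange h
  obtain ⟨y0, y1, y2⟩ := y_bd c1 hδ hδc hy
  obtain ⟨m1, m2, m3⟩ := C2P_490.out_right h hz
  have hV := h.V_pos z
  have hV1 := h.V_lt z
  have hJ : ∀ x, 0 ≤ Jx c W V I x := J_791.Jc_nonneg h
  -- the label is `> -1`
  have hx1 : -1 < x := by
    rw [← h.V_strictMono.lt_iff_lt]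
    have h1 := V1_le h
    have h2 := (LawTail_490.V3_ge h c0).trans (h.V_strictMono.monotone hz)
    have h3 : δ * (mmF z * V z) ≤ 4158 / 10000 * (1 / 50) := by
      have hm0 : 0 ≤ mmF z * V z := by
        rw [C2P_490.mmF_ge hz]
        have := (C2P_490.dat h).1
        have : 0 ≤ mm 3 := by linarith
        positivity
      exact mul_le_mul (hδc.trans c1) m1 hm0 (by norm_num)
    linarith
  obtain ⟨b0, -⟩ := b_all h x
  have hj' := j_bd hδ (by linarith) b0 (b_right h hx1) (by norm_num) hj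
  -- parameters
  set r : ℝ := (V x - V z) / (δ * V z) with hr
  set β : ℝ := (j - 1) / δ with hβ
  have er : V x = V z * (1 + δ * r) := by rw [hr]; field_simp; ring
  have eβ : j = 1 + δ * β := by rw [hβ]; field_simp; ring
  have hr0 : -(mmF z) ≤ r := by
    rw [hr, le_div_iff₀ (mul_pos hδ hV)]
    linarith
  have hr1 : r ≤ mpF z := by
    rw [hr, div_le_iff₀ (mul_pos hδ hV)]
    linarith
  have hβ' : |β| ≤ 472 / 1000 := by
    rw [hβ, abs_div, abs_of_pos hδ, div_le_iff₀ hδ]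
    refine hj'.trans ?_
    apply mul_le_mul_of_nonneg_right _ hδ.le
    norm_num
  have hg := C2R_889.gap_eq (x := z) (y := x) h hδ er
  have hg0 := C2R_889.gap_nonneg (x := z) (y := x) h hJ hδ
  set ε : ℝ := C2R_889.gap c δ W V I z x with hε
  have hh := C2P_490.h_right h hδ hδc hz hβ' hr0 hr1 hg0 ?_ ?_
  · refine LawTail_490.law_right' h c0 c1 hz hδ hδc ?_ ?_ y0 y2
    · rw [abs_le]
      have h1 : δ * (mmF z * V z) ≤ δ * (1 / 50) := mul_le_mul_of_nonneg_left m1 hδ.le
      have h2 : δ * (mpF z * V z) ≤ δ * (1 / 50) := by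
        apply mul_le_mul_of_nonneg_left _ hδ.le
        have h3 : mpF z * V z ≤ 1 / 50 * V z := mul_le_mul_of_nonneg_right m3 hV.le
        linarith
      constructor <;> linarith
    · have e1 : j * I x - I z = δ * V z *
          (β * (I z / V z) + (1 + δ * β) * (k1x c W V I z * r - ε)) := by
        rw [hg, eβ]
        field_simp
        ring
      rw [e1, abs_mul, abs_of_pos (mul_pos hδ hV)]
      have h1 : δ * V z * |β * (I z / V z) + (1 + δ * β) * (k1x c W V I z * r - ε)| ≤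
          δ * V z * (1 / 10) := mul_le_mul_of_nonneg_left hh (mul_pos hδ hV).le
      have h2 : δ * V z ≤ δ * 1 := mul_le_mul_of_nonneg_left hV1.le hδ.le
      linarith
  · intro hr'
    have hxz : x ≤ z := by
      rw [← h.V_strictMono.le_iff_le]
      have : V z * (δ * r) ≤ 0 :=
        mul_nonpos_of_nonneg_of_nonpos hV.le (mul_nonpos_of_nonneg_of_nonpos hδ.le hr')
      rw [er]; linarith
    exact C2R_889.gap_chord_left h hJ hδ hxz er
  · intro hr'
    have hxz : z ≤ x := by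
      rw [← h.V_strictMono.le_iff_le]
      have : 0 ≤ V z * (δ * r) := by positivity
      rw [er]; linarith
    exact C2R_889.gap_chord_right h hJ hδ hxz er

/-- **both tails**, in the form of `C2Asm_454.c2_of` (`Wd`, `Th` unfolded) -/
theorem tails (c : ℝ) (W V I k : ℝ → ℝ) (h : SPair c W V I k c) (δ : ℝ) (hδ : 0 < δ) (hδc : δ ≤ c)
    (x z : ℝ) (hz : z ≤ -5 ∨ 3 < z)
    (hw : V z * (1 - δ * mmF z) ≤ V x ∧ V x ≤ V z * (1 + δ * mpF z)) (y j : ℝ)
    (hy : y = nl c δ (δ / 1000) ∨ y = nu c δ (δ / 1000))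
    (hj : j = (1 - δ / 1000) * (1 - δ * b x) ∨ j = (1 + δ / 1000) * (1 + δ * b x)) :
    1 / 100 ≤ PotR y (V x) (L1 c W V k z) ∧
    LStat 1 y (V x) (j * I x) (W z) (k z) (L1 c W V k z) (L2 c W V I k z)
      ≤ δ * (7 / 5) * PotR y (V x) (L1 c W V k z) ∧
    -(δ * (23 / 20) * PotR y (V x) (L1 c W V k z))
      ≤ LStat 1 y (V x) (j * I x) (W z) (k z) (L1 c W V k z) (L2 c W V I k z) := by
  have key : 1 / 10 ≤ PotR y (V x) (L1 c W V k z) ∧
      LStat 1 y (V x) (j * I x) (W z) (k z) (L1 c W V k z) (L2 c W V I k z) ≤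
        27 / 20 * δ * PotR y (V x) (L1 c W V k z) ∧
      -(11 / 10 * δ * PotR y (V x) (L1 c W V k z)) ≤
        LStat 1 y (V x) (j * I x) (W z) (k z) (L1 c W V k z) (L2 c W V I k z) := by
    rcases hz with hz | hz
    · exact c2_left h hδ hδc hz hw.1 hw.2 hy hj
    · exact c2_right h hδ hδc hz.le hw.1 hw.2 hy hj
  obtain ⟨k1, k2, k3⟩ := key
  have hP : 0 ≤ δ * PotR y (V x) (L1 c W V k z) := mul_nonneg hδ.le (by linarith)
  refine ⟨by linarith, by linarith, by linarith⟩

end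

end Crest.Agent.R146.C2Q_490
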