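import Crest.Agent.R146.PP2_865
import Crest.Agent.R146.SPair_307

/-!
# Row 146, helper848: enclosures, part 0: fences, maximum principle, range checks

* `fwd`, `bwd` : one-sided comparison for first order equations (touching form);
* `maxp` : maximum principle for second order equations (touching form);
* `meanv` : bound of a derivative from a bound of the function and a one-sided first order equation;
* `chkBoxR` : `checkBox` of helper865 restricted to a range `[a/8, b/8]` of pieces;
* `extP`, `exts`, `Fn_exts` : adding functions to an existing list of pieces.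
-/

set_option autoImplicit false

namespace Crest.Agent.R146.Enc0_848

open Set Filter Topology

/-! ### fences -/

theorem fwd {f f' B B' : ℝ → ℝ} {u v : ℝ} (hf : ∀ x, HasDerivAt f (f' x) x)
    (hB : ∀ x ∈ Icc u v, HasDerivAt B (B' x) x) (h0 : f u ≤ B u)
    (h : ∀ x ∈ Ico u v, f x = B x → f' x < B' x) : ∀ x ∈ Icc u v, f x ≤ B x := by
  intro x hx
  exact image_le_of_deriv_right_lt_deriv_boundary' (f := f) (f' := f') (a := u) (b := v)
    (fun y _ => (hf y).continuousAt.continuousWithinAt)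
    (fun y _ => (hf y).hasDerivWithinAt) h0
    (fun y hy => (hB y hy).continuousAt.continuousWithinAt)
    (fun y hy => (hB y ⟨hy.1, hy.2.le⟩).hasDerivWithinAt) h hx

theorem bwd {f f' B B' : ℝ → ℝ} {u v : ℝ} (hf : ∀ x, HasDerivAt f (f' x) x)
    (hB : ∀ x ∈ Icc u v, HasDerivAt B (B' x) x) (h0 : f v ≤ B v)
    (h : ∀ x ∈ Ioc u v, f x = B x → B' x < f' x) : ∀ x ∈ Icc u v, f x ≤ B x := by
  intro x hx
  have key := fwd (f := fun t => f (-t)) (f' := fun t => -f' (-t)) (B := fun t => B (-t))
    (B' := fun t => -B' (-t)) (u := -v) (v := -u)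
    (fun t => by
      exact ((hf (-t)).comp t (hasDerivAt_neg t)).congr_deriv (by ring))
    (fun t ht => by
      have h1 : -t ∈ Icc u v := ⟨by linarith [ht.2], by linarith [ht.1]⟩
      exact ((hB (-t) h1).comp t (hasDerivAt_neg t)).congr_deriv (by ring))
    (by simpa using h0)
    (fun t ht he => by
      have h1 : -t ∈ Ioc u v := ⟨by linarith [ht.2], by linarith [ht.1]⟩
      have := h (-t) h1 he
      linarith)
  have := key (-x) ⟨by linarith [hx.2], by linarith [hx.1]⟩
  simpa using this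

/-- two-sided forward fence -/
theorem fwd_abs {f f' B B' : ℝ → ℝ} {u v : ℝ} (hf : ∀ x, HasDerivAt f (f' x) x)
    (hB : ∀ x ∈ Icc u v, HasDerivAt B (B' x) x) (h0 : |f u| ≤ B u)
    (h : ∀ x ∈ Ico u v, f x = B x → f' x < B' x)
    (h' : ∀ x ∈ Ico u v, f x = -B x → -B' x < f' x) : ∀ x ∈ Icc u v, |f x| ≤ B x := by
  intro x hx
  have h1 := fwd hf hB ((le_abs_self _).trans h0) h x hx
  have h2 := fwd (f := fun t => -f t) (f' := fun t => -f' t) (fun t => (hf t).neg) hB
    ((neg_le_abs _).trans h0) (fun t ht he => by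
      have := h' t ht (by linarith)
      linarith) x hx
  exact abs_le.2 ⟨by linarith, h1⟩

/-- two-sided backward fence -/
theorem bwd_abs {f f' B B' : ℝ → ℝ} {u v : ℝ} (hf : ∀ x, HasDerivAt f (f' x) x)
    (hB : ∀ x ∈ Icc u v, HasDerivAt B (B' x) x) (h0 : |f v| ≤ B v)
    (h : ∀ x ∈ Ioc u v, f x = B x → B' x < f' x)
    (h' : ∀ x ∈ Ioc u v, f x = -B x → f' x < -B' x) : ∀ x ∈ Icc u v, |f x| ≤ B x := by
  intro x hx
  have h1 := bwd hf hB ((le_abs_self _).trans h0) h x hx
  have h2 := bwd (f := fun t => -f t) (f' := fun t => -f' t) (fun t => (hf t).neg) hB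
    ((neg_le_abs _).trans h0) (fun t ht he => by
      have := h' t ht (by linarith)
      linarith) x hx
  exact abs_le.2 ⟨by linarith, h1⟩

/-! ### maximum principle -/

theorem maxp {e e1 e2 : ℝ → ℝ} {u v M : ℝ} (h1 : ∀ x, HasDerivAt e (e1 x) x)
    (h2 : ∀ x, HasDerivAt e1 (e2 x) x) (hu : e u ≤ M) (hv : e v ≤ M)
    (h : ∀ x ∈ Ioo u v, M < e x → e1 x = 0 → 0 < e2 x) : ∀ x ∈ Icc u v, e x ≤ M := by
  intro x hx
  by_contra hcon
  push Not at hcon
  have hc : ContinuousOn e (Icc u v) := fun y _ => (h1 y).continuousAt.continuousWithinAt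
  obtain ⟨y, hy, hmax⟩ := isCompact_Icc.exists_isMaxOn ⟨x, hx⟩ hc
  have hyM : M < e y := lt_of_lt_of_le hcon (hmax hx)
  have hyu : u < y := by
    rcases eq_or_lt_of_le hy.1 with h0 | h0
    · rw [← h0] at hyM; exact absurd hyM (not_lt.2 hu)
    · exact h0
  have hyv : y < v := by
    rcases eq_or_lt_of_le hy.2 with h0 | h0
    · rw [h0] at hyM; exact absurd hyM (not_lt.2 hv)
    · exact h0
  have hloc : IsLocalMax e y := hmax.isLocalMax (Icc_mem_nhds hyu hyv)
  have hd : e1 y = 0 := hloc.hasDerivAt_eq_zero (h1 y)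
  have hp := h y ⟨hyu, hyv⟩ hyM hd
  have hs := (h2 y).tendsto_slope
  have hev : ∀ᶠ t in 𝓝[≠] y, 0 < slope e1 y t := hs.eventually (lt_mem_nhds hp)
  have hev2 : ∀ᶠ t in 𝓝[>] y, 0 < slope e1 y t :=
    hev.filter_mono (nhdsWithin_mono y (fun t ht => ne_of_gt ht))
  obtain ⟨w, hw1, hw2⟩ := (mem_nhdsGT_iff_exists_Ioo_subset).1 hev2
  have hw1' : y < w := hw1
  set t0 := min ((y + w) / 2) v with ht0
  have hyt0 : y < t0 := lt_min (by linarith) hyv
  have ht0w : t0 < w := lt_of_le_of_lt (min_le_left _ _) (by linarith)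
  have ht0v : t0 ≤ v := min_le_right _ _
  have hpos : ∀ t ∈ Ioo y t0, 0 < e1 t := by
    intro t ht
    have := hw2 ⟨ht.1, ht.2.trans ht0w⟩
    simp only [slope, Set.mem_ofPred_eq, vsub_eq_sub, smul_eq_mul] at this
    rw [hd, sub_zero] at this
    exact pos_of_mul_pos_right this (inv_nonneg.2 (by linarith [ht.1]))
  have hmono : StrictMonoOn e (Icc y t0) := by
    refine strictMonoOn_of_deriv_pos (convex_Icc _ _)
      (fun t _ => (h1 t).continuousAt.continuousWithinAt) ?_
    intro t ht
    rw [interior_Icc] at ht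
    rw [(h1 t).deriv]
    exact hpos t ht
  have := hmono (left_mem_Icc.2 hyt0.le) (right_mem_Icc.2 hyt0.le) hyt0
  exact absurd (hmax (show t0 ∈ Icc u v from ⟨by linarith, ht0v⟩)) (not_le.2 this)

/-- two-sided maximum principle for `e'' = m e - a e' + s` -/
theorem maxp_abs {e e1 m a s : ℝ → ℝ} {u v M m0 r : ℝ} (h1 : ∀ x, HasDerivAt e (e1 x) x)
    (h2 : ∀ x, HasDerivAt e1 (m x * e x - a x * e1 x + s x) x) (hu : |e u| ≤ M) (hv : |e v| ≤ M)
    (hm : ∀ x ∈ Ioo u v, m0 ≤ m x) (hs : ∀ x ∈ Ioo u v, |s x| ≤ r) (hm0 : 0 < m0)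
    (hM : r ≤ m0 * M) : ∀ x ∈ Icc u v, |e x| ≤ M := by
  have hM0 : 0 ≤ M := (abs_nonneg _).trans hu
  intro x hx
  have k1 := maxp h1 h2 ((le_abs_self _).trans hu) ((le_abs_self _).trans hv)
    (fun y hy hM' h0 => by
      have a1 := hm y hy
      have a2 := (abs_le.1 (hs y hy)).1
      rw [h0]
      have : m0 * M < m y * e y := by
        calc m0 * M < m0 * e y := by gcongr
          _ ≤ m y * e y := by
            apply mul_le_mul_of_nonneg_right a1
            linarith
      linarith) x hx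
  have k2 := maxp (e := fun t => -e t) (e1 := fun t => -e1 t)
    (e2 := fun t => -(m t * e t - a t * e1 t + s t)) (M := M)
    (fun t => (h1 t).neg) (fun t => (h2 t).neg)
    ((neg_le_abs _).trans hu) ((neg_le_abs _).trans hv)
    (fun y hy hM' h0 => by
      have a1 := hm y hy
      have a2 := (abs_le.1 (hs y hy)).2
      have h0' : e1 y = 0 := by linarith
      rw [h0']
      have hM'' : M < -e y := hM'
      have : m0 * M < m y * (-e y) := by
        calc m0 * M < m0 * (-e y) := by gcongr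
          _ ≤ m y * (-e y) := by
            apply mul_le_mul_of_nonneg_right a1
            linarith
      have e3 : m y * (-e y) = -(m y * e y) := by ring
      linarith) x hx
  exact abs_le.2 ⟨by linarith, k1⟩

/-- derivative bound: `f' = s - a f`, `f = e'`, `|e| ≤ E` on `[u, u+L]`, `a ≥ -b` there -/
theorem meanv {e f a s : ℝ → ℝ} {u L E S b : ℝ} (hL : 0 < L)
    (h1 : ∀ x, HasDerivAt e (f x) x) (h2 : ∀ x, HasDerivAt f (s x - a x * f x) x)
    (hE : ∀ x ∈ Icc u (u + L), |e x| ≤ E) (hs : ∀ x ∈ Icc u (u + L), |s x| < S)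
    (ha : ∀ x ∈ Icc u (u + L), -b ≤ a x) (hb : 0 ≤ b) (hbL : b * L < 1) :
    |f (u + L)| ≤ (2 * E / L + S * L) / (1 - b * L) := by
  have hE0 : 0 ≤ E := (abs_nonneg _).trans (hE u ⟨le_rfl, by linarith⟩)
  have hS0 : 0 < S := lt_of_le_of_lt (abs_nonneg _) (hs u ⟨le_rfl, by linarith⟩)
  obtain ⟨y, hy, hyf⟩ := exists_hasDerivAt_eq_slope e f (show u < u + L by linarith)
    (fun x _ => (h1 x).continuousAt.continuousWithinAt) (fun x _ => h1 x)
  have hfy : |f y| ≤ 2 * E / L := by
    rw [hyf, abs_div, show u + L - u = L by ring, abs_of_pos hL]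
    gcongr
    have k1 := abs_le.1 (hE u ⟨le_rfl, by linarith⟩)
    have k2 := abs_le.1 (hE (u + L) ⟨by linarith, le_rfl⟩)
    rw [abs_le]
    constructor <;> linarith
  have hD : 0 < 1 - b * L := by linarith
  set F0 := 2 * E / L with hF0
  have hF0' : 0 ≤ F0 := by positivity
  set k := (b * F0 + S) / (1 - b * L) with hk
  have hk0 : 0 < k := by positivity
  have hkeq : k * (1 - b * L) = b * F0 + S := by
    rw [hk]; field_simp
  have key := fwd_abs (f := f) (f' := fun x => s x - a x * f x) (B := fun x => F0 + k * (x - y))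
    (B' := fun _ => k) (u := y) (v := u + L) h2
    (fun x _ => by
      have := (((hasDerivAt_id x).sub_const y).const_mul k).const_add F0
      simpa using this)
    (by simpa using hfy)
    (fun x hx he => by
      have hx' : x ∈ Icc u (u + L) := ⟨by linarith [hx.1, hy.1], hx.2.le⟩
      have hxy : x - y < L := by linarith [hx.2, hy.1]
      have hxy0 : 0 ≤ x - y := by linarith [hx.1]
      have p1 := (abs_lt.1 (hs x hx')).2
      have p2 := ha x hx'
      have hB0 : 0 ≤ F0 + k * (x - y) := by positivity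
      rw [he]
      have p3 : -(a x * (F0 + k * (x - y))) ≤ b * (F0 + k * (x - y)) := by nlinarith
      have p4 : b * (k * (x - y)) ≤ b * (k * L) := by gcongr
      nlinarith)
    (fun x hx he => by
      have hx' : x ∈ Icc u (u + L) := ⟨by linarith [hx.1, hy.1], hx.2.le⟩
      have hxy : x - y < L := by linarith [hx.2, hy.1]
      have hxy0 : 0 ≤ x - y := by linarith [hx.1]
      have p1 := (abs_lt.1 (hs x hx')).1
      have p2 := ha x hx'
      have hB0 : 0 ≤ F0 + k * (x - y) := by positivity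
      rw [he]
      have p3 : -(a x * (F0 + k * (x - y))) ≤ b * (F0 + k * (x - y)) := by nlinarith
      have p4 : b * (k * (x - y)) ≤ b * (k * L) := by gcongr
      nlinarith)
    (u + L) ⟨hy.2.le, le_rfl⟩
  refine key.trans ?_
  have hyu : u + L - y ≤ L := by linarith [hy.1]
  rw [le_div_iff₀ hD]
  have p5 : k * (u + L - y) ≤ k * L := by gcongr
  have p6 : (F0 + k * (u + L - y)) * (1 - b * L) ≤ (F0 + k * L) * (1 - b * L) := by gcongr
  have p7 : (F0 + k * L) * (1 - b * L) = F0 * (1 - b * L) + L * (k * (1 - b * L)) := by ring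
  rw [hkeq] at p7
  have p8 : F0 * (1 - b * L) + L * (b * F0 + S) = F0 + S * L := by ring
  linarith

end Crest.Agent.R146.Enc0_848
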