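import Crest.Agent.R146.Stat7_307

/-!
# Row 146: Gaussian tails of the stationary pair and the closure identity

For a stationary pair `SPair c W V I k lam` and `q = exp(-∫ k)`:
`∫ q (I² - 2 c V R²) = (lam - c) ∫ q V R`, `R = 1 - V`.
-/

namespace Crest.Agent.R146.Stat8_307

open Set Filter Topology MeasureTheory
open SPair_307 Stat7_307

variable {c : ℝ} {W V I k : ℝ → ℝ} {lam : ℝ}

/-- integrating factor `exp (2 ∫ A)` -/
noncomputable def mm (c : ℝ) (W : ℝ → ℝ) (x : ℝ) : ℝ := Real.exp (2 * ∫ t in (0 : ℝ)..x, Ad c W t)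

lemma mm_pos (x : ℝ) : 0 < mm c W x := Real.exp_pos _

lemma mm_zero : mm c W 0 = 1 := by simp [mm]

lemma cA (h : SPair c W V I k lam) : Continuous (Ad c W) :=
  continuous_iff_continuousAt.2 fun x => (h.dA x).continuousAt

lemma dprim (h : SPair c W V I k lam) (x : ℝ) :
    HasDerivAt (fun x => ∫ t in (0 : ℝ)..x, Ad c W t) (Ad c W x) x :=
  ((cA h).integral_hasStrictDerivAt 0 x).hasDerivAt

lemma dmm (h : SPair c W V I k lam) (x : ℝ) : HasDerivAt (mm c W) (mm c W x * (2 * Ad c W x)) x :=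
  ((dprim h x).const_mul 2).exp

lemma mono_mm (h : SPair c W V I k lam) {f f' : ℝ → ℝ} (hf : ∀ x, HasDerivAt f (f' x) x)
    (h0 : ∀ x, 0 ≤ f' x + 2 * Ad c W x * f x) : Monotone fun x => mm c W x * f x := by
  have hd : ∀ x, HasDerivAt (fun x => mm c W x * f x)
      (mm c W x * (f' x + 2 * Ad c W x * f x)) x := fun x => by
    refine ((dmm h x).mul (hf x)).congr_deriv ?_
    ring
  apply monotone_of_deriv_nonneg
  · exact fun x => (hd x).differentiableAt
  · intro x
    rw [(hd x).deriv]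
    exact mul_nonneg (mm_pos x).le (h0 x)

lemma W0_le (h : SPair c W V I k lam) : W 0 ≤ 1 / 2 := by
  have := h.W_le 0
  simpa using this

/-- `m V` is nondecreasing. -/
lemma mono_mV (h : SPair c W V I k lam) : Monotone fun x => mm c W x * V x :=
  mono_mm h h.dV fun x => by
    rw [h.eqI]
    have h1 := h.W_pos x
    have h2 := h.c_pos
    nlinarith [mul_pos (show 0 < 1 + c by linarith) h1]

/-- `m I` is nondecreasing. -/
lemma mono_mI (h : SPair c W V I k lam) : Monotone fun x => mm c W x * I x :=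
  mono_mm h h.dI fun x => by
    have h1 := h.V_pos x
    have h2 := h.c_pos
    have h3 : 0 < 1 - V x := by linarith [h.V_lt x]
    have h4 : 0 < 2 * c * V x * (1 - V x) := by positivity
    linarith

/-- `m R` is nonincreasing. -/
lemma mono_mR (h : SPair c W V I k lam) : Monotone fun x => mm c W x * (V x - 1) :=
  mono_mm h (fun x => (h.dV x).sub_const 1) fun x => by
    have h1 : I x + 2 * Ad c W x * (V x - 1) = (1 - c) * (W x - x) := by
      rw [h.eqI]; unfold Ad; ring
    rw [h1]
    exact mul_nonneg (by linarith [h.c_lt]) (by linarith [h.U_pos x])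

lemma mm_ge_right (h : SPair c W V I k lam) {x : ℝ} (hx : 0 ≤ x) :
    Real.exp ((1 + c) / 2 * x ^ 2) ≤ mm c W x := by
  apply Real.exp_le_exp.2
  have hd : ∀ x, HasDerivAt (fun x => 2 * (∫ t in (0 : ℝ)..x, Ad c W t) - (1 + c) / 2 * x ^ 2)
      (2 * Ad c W x - (1 + c) / 2 * (2 * x)) x := fun x => by
    have h2 : HasDerivAt (fun x : ℝ => x ^ 2) (2 * x) x := by simpa using hasDerivAt_pow 2 x
    exact ((dprim h x).const_mul 2).sub (h2.const_mul _)
  have hmono : Monotone fun x => 2 * (∫ t in (0 : ℝ)..x, Ad c W t) - (1 + c) / 2 * x ^ 2 := by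
    apply monotone_of_deriv_nonneg
    · exact fun x => (hd x).differentiableAt
    · intro x
      rw [(hd x).deriv]
      have h1 := h.U_pos x
      have h2 := h.c_pos
      unfold Ad
      nlinarith [mul_pos h2 (sub_pos.2 h1)]
  have h1 := hmono hx
  simp only [intervalIntegral.integral_same] at h1
  norm_num at h1
  linarith

lemma mm_ge_left (h : SPair c W V I k lam) {x : ℝ} (hx : x ≤ 0) :
    Real.exp ((1 - c) / 2 * x ^ 2 + x) ≤ mm c W x := by
  apply Real.exp_le_exp.2
  set f : ℝ → ℝ := fun x => 2 * (∫ t in (0 : ℝ)..x, Ad c W t) - ((1 - c) / 2 * x ^ 2 + x) with hf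
  have hd : ∀ x, HasDerivAt f (2 * Ad c W x - ((1 - c) / 2 * (2 * x) + 1)) x := fun x => by
    have h2 : HasDerivAt (fun x : ℝ => x ^ 2) (2 * x) x := by simpa using hasDerivAt_pow 2 x
    exact ((dprim h x).const_mul 2).sub ((h2.const_mul _).add (hasDerivAt_id x))
  have hanti : AntitoneOn f (Iic 0) := by
    apply antitoneOn_of_deriv_nonpos (convex_Iic 0)
    · exact fun w _ => (hd w).continuousAt.continuousWithinAt
    · exact fun w _ => (hd w).differentiableAt.differentiableWithinAt
    · intro w hw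
      rw [interior_Iic] at hw
      rw [(hd w).deriv]
      have h1 := h.W_strictMono hw
      have h2 := W0_le h
      have h3 := h.c_pos
      have h4 := h.c_lt
      unfold Ad
      nlinarith
  have h0 : f 0 = 0 := by simp [hf]
  have := hanti (show x ∈ Iic 0 from hx) (mem_Iic.2 (le_refl (0 : ℝ))) hx
  rw [h0] at this
  simp only [hf] at this
  linarith

/-- **Gaussian decay of `R`** -/
lemma R_le (h : SPair c W V I k lam) {x : ℝ} (hx : 0 ≤ x) :
    1 - V x ≤ Real.exp (-((1 + c) / 2 * x ^ 2)) := by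
  have h1 := mono_mR h hx
  simp only [mm_zero, one_mul] at h1
  have h2 := h.V_pos 0
  have h3 : mm c W x * (1 - V x) ≤ 1 := by nlinarith
  have h4 := mm_ge_right h hx
  have h5 : 0 < 1 - V x := by linarith [h.V_lt x]
  have h6 : Real.exp ((1 + c) / 2 * x ^ 2) * (1 - V x) ≤ 1 :=
    (mul_le_mul_of_nonneg_right h4 h5.le).trans h3
  rw [Real.exp_neg, ← one_div, le_div_iff₀ (Real.exp_pos _)]
  linarith

/-- **Gaussian decay of `V`** -/
lemma V_le (h : SPair c W V I k lam) {x : ℝ} (hx : x ≤ 0) :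
    V x ≤ Real.exp (-((1 - c) / 2 * x ^ 2 + x)) := by
  have h1 := mono_mV h hx
  simp only [mm_zero, one_mul] at h1
  have h2 := h.V_lt 0
  have h3 := h.V_pos x
  have h4 := mm_ge_left h hx
  have h6 : Real.exp ((1 - c) / 2 * x ^ 2 + x) * V x ≤ 1 :=
    (mul_le_mul_of_nonneg_right h4 h3.le).trans (h1.trans h2.le)
  rw [Real.exp_neg, ← one_div, le_div_iff₀ (Real.exp_pos _)]
  linarith

lemma I_left (h : SPair c W V I k lam) {x : ℝ} (hx : x ≤ 0) :
    I x ≤ I 0 * Real.exp (-((1 - c) / 2 * x ^ 2 + x)) := by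
  have h1 := mono_mI h hx
  simp only [mm_zero, one_mul] at h1
  have h3 := h.I_pos x
  have h4 := mm_ge_left h hx
  have h6 : Real.exp ((1 - c) / 2 * x ^ 2 + x) * I x ≤ I 0 :=
    (mul_le_mul_of_nonneg_right h4 h3.le).trans h1
  rw [Real.exp_neg, ← div_eq_mul_inv, le_div_iff₀ (Real.exp_pos _)]
  linarith

/-- **Gaussian decay of `U`** -/
lemma U_le (h : SPair c W V I k lam) {x : ℝ} (hx : 0 ≤ x) :
    W x - x ≤ Real.exp (-(x ^ 2 / 2)) := by
  have hc := h.c_pos
  rcases le_or_gt x 1 with h1 | h1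
  · have hUanti : W x - x ≤ W 0 - 0 := by
      have hA : Antitone fun x => W x - x := by
        apply antitone_of_deriv_nonpos
        · exact fun x => ((h.dW x).sub (hasDerivAt_id x)).differentiableAt
        · intro x
          have e : deriv (fun x => W x - x) x = V x - 1 := ((h.dW x).sub (hasDerivAt_id x)).deriv
          rw [e]
          linarith [h.V_lt x]
      exact hA hx
    have h2 := W0_le h
    have h3 : (1 : ℝ) / 2 ≤ Real.exp (-(x ^ 2 / 2)) := by
      have := Real.add_one_le_exp (-(x ^ 2 / 2))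
      nlinarith
    linarith
  · have hd : ∀ x, HasDerivAt (fun x => (W x - x) - Real.exp (-(x ^ 2 / 2)))
        ((V x - 1) - Real.exp (-(x ^ 2 / 2)) * (-x)) x := fun x => by
      have h2 : HasDerivAt (fun x : ℝ => -(x ^ 2 / 2)) (-x) x := by
        have h3 : HasDerivAt (fun x : ℝ => x ^ 2) (2 * x) x := by simpa using hasDerivAt_pow 2 x
        have h4 := (h3.div_const 2).neg
        refine h4.congr_deriv ?_
        ring
      exact ((h.dW x).sub (hasDerivAt_id x)).sub h2.exp
    have hmono : MonotoneOn (fun x => (W x - x) - Real.exp (-(x ^ 2 / 2))) (Ici 1) := by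
      apply monotoneOn_of_deriv_nonneg (convex_Ici 1)
      · exact fun w _ => (hd w).continuousAt.continuousWithinAt
      · exact fun w _ => (hd w).differentiableAt.differentiableWithinAt
      · intro w hw
        rw [interior_Ici] at hw
        have hw' : 1 < w := hw
        rw [(hd w).deriv]
        have h2 := R_le h (show 0 ≤ w by linarith)
        have h3 : Real.exp (-((1 + c) / 2 * w ^ 2)) ≤ Real.exp (-(w ^ 2 / 2)) := by
          apply Real.exp_le_exp.2
          nlinarith [mul_pos hc (show 0 < w ^ 2 by positivity)]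
        have h4 := Real.exp_pos (-(w ^ 2 / 2))
        nlinarith
    have hlim : Tendsto (fun x => (W x - x) - Real.exp (-(x ^ 2 / 2))) atTop (𝓝 (0 - 0)) := by
      apply (tendsto_U h).sub
      apply Real.tendsto_exp_atBot.comp
      apply tendsto_neg_atTop_atBot.comp
      exact (tendsto_pow_atTop (by norm_num)).atTop_div_const (by norm_num)
    rw [sub_zero] at hlim
    have h5 : (W x - x) - Real.exp (-(x ^ 2 / 2)) ≤ 0 := by
      refine ge_of_tendsto hlim ?_
      filter_upwards [eventually_ge_atTop x] with t ht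
      exact hmono (show x ∈ Ici 1 from h1.le) (show t ∈ Ici 1 from h1.le.trans ht) ht
    linarith

lemma I_right (h : SPair c W V I k lam) {x : ℝ} (hx : 0 ≤ x) :
    I x ≤ (2 + 2 * x) * Real.exp (-(x ^ 2 / 2)) := by
  have hc := h.c_pos
  have hc1 := h.c_lt
  have h1 : I x = (1 - c) * (W x - x) + 2 * Ad c W x * (1 - V x) := by
    rw [h.eqI]; unfold Ad; ring
  have h2 := U_le h hx
  have h3 := R_le h hx
  have h4 : Real.exp (-((1 + c) / 2 * x ^ 2)) ≤ Real.exp (-(x ^ 2 / 2)) := by
    apply Real.exp_le_exp.2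
    nlinarith [mul_nonneg hc.le (sq_nonneg x)]
  have hU0 := h.U_pos x
  have hU1 : W x - x ≤ 1 / 2 := by
    have hr := Real.sq_sqrt (show (0 : ℝ) ≤ x ^ 2 + 1 by positivity)
    have hr0 := Real.sqrt_nonneg (x ^ 2 + 1)
    have := h.W_le x
    nlinarith
  have h5 : 2 * Ad c W x ≤ 1 + 2 * x := by unfold Ad; nlinarith
  have h6 : 0 < 1 - V x := by linarith [h.V_lt x]
  have h7 : 2 * Ad c W x * (1 - V x) ≤ (1 + 2 * x) * Real.exp (-(x ^ 2 / 2)) :=
    mul_le_mul h5 (h3.trans h4) h6.le (by linarith)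
  have h8 : (1 - c) * (W x - x) ≤ 1 * Real.exp (-(x ^ 2 / 2)) :=
    mul_le_mul (by linarith) h2 (by linarith) (by norm_num)
  rw [h1]
  linarith

/-- **Uniform Gaussian bounds.** -/
theorem gauss (h : SPair c W V I k lam) : ∃ C b : ℝ, 0 < C ∧ 0 < b ∧
    ∀ x, I x ≤ C * Real.exp (-b * x ^ 2) ∧ V x * (1 - V x) ≤ C * Real.exp (-b * x ^ 2) := by
  have hc := h.c_pos
  have hc1 := h.c_lt
  set b := (1 - c) / 4 with hb
  have hb0 : 0 < b := by rw [hb]; linarith
  set C1 := Real.exp (1 / (1 - c)) with hC1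
  have hC10 : 0 < C1 := Real.exp_pos _
  have hI0 := h.I_pos 0
  refine ⟨(I 0 + 1) * C1 + 8, b, by positivity, hb0, fun x => ?_⟩
  have hG := Real.exp_pos (-b * x ^ 2)
  rcases le_total x 0 with hx | hx
  · have h1 : Real.exp (-((1 - c) / 2 * x ^ 2 + x)) ≤ C1 * Real.exp (-b * x ^ 2) := by
      rw [hC1, ← Real.exp_add]
      apply Real.exp_le_exp.2
      have h3 : 0 < 1 - c := by linarith
      have h4 : -x ≤ (1 - c) / 4 * x ^ 2 + 1 / (1 - c) := by
        have h5 : 0 ≤ ((1 - c) / 2 * x + 1) ^ 2 / (1 - c) := by positivity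
        have h6 : ((1 - c) / 2 * x + 1) ^ 2 / (1 - c) = (1 - c) / 4 * x ^ 2 + x + 1 / (1 - c) := by
          field_simp; ring
        linarith
      rw [hb]
      linarith
    have h2 := I_left h hx
    have h3 := V_le h hx
    have hV := h.V_pos x
    constructor
    · have h4 : I 0 * Real.exp (-((1 - c) / 2 * x ^ 2 + x)) ≤
          I 0 * (C1 * Real.exp (-b * x ^ 2)) := mul_le_mul_of_nonneg_left h1 hI0.le
      nlinarith [mul_pos hC10 hG]
    · have h4 : V x * (1 - V x) ≤ V x := by nlinarith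
      nlinarith [mul_pos hC10 hG, mul_pos (mul_pos hI0 hC10) hG]
  · have h1 : Real.exp (-(x ^ 2 / 2)) ≤ Real.exp (-b * x ^ 2) := by
      apply Real.exp_le_exp.2
      rw [hb]
      nlinarith [mul_nonneg (show 0 ≤ 1 + c by linarith) (sq_nonneg x)]
    constructor
    · have h2 := I_right h hx
      have h3 : (2 + 2 * x) * Real.exp (-(x ^ 2 / 2)) ≤ 8 * Real.exp (-b * x ^ 2) := by
        have h4 : Real.exp (-(x ^ 2 / 2)) = Real.exp (-(x ^ 2 / 4)) * Real.exp (-(x ^ 2 / 4)) := by
          rw [← Real.exp_add]; congr 1; ring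
        have h5 : Real.exp (-(x ^ 2 / 4)) ≤ Real.exp (-b * x ^ 2) := by
          apply Real.exp_le_exp.2
          rw [hb]
          nlinarith [mul_nonneg hc.le (sq_nonneg x)]
        have h6 : (2 + 2 * x) * Real.exp (-(x ^ 2 / 4)) ≤ 8 := by
          rw [Real.exp_neg, ← div_eq_mul_inv, div_le_iff₀ (Real.exp_pos _)]
          have := Real.add_one_le_exp (x ^ 2 / 4)
          nlinarith [sq_nonneg (x - 1)]
        have h7 := Real.exp_pos (-(x ^ 2 / 4))
        rw [h4, ← mul_assoc]
        exact mul_le_mul h6 h5 h7.le (by norm_num)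
      nlinarith [mul_pos (mul_pos (show 0 < I 0 + 1 by linarith) hC10) hG]
    · have h2 := R_le h hx
      have h3 : Real.exp (-((1 + c) / 2 * x ^ 2)) ≤ Real.exp (-(x ^ 2 / 2)) := by
        apply Real.exp_le_exp.2
        nlinarith [mul_nonneg hc.le (sq_nonneg x)]
      have h4 := h.V_lt x
      have h5 : V x * (1 - V x) ≤ 1 - V x := by nlinarith
      nlinarith [mul_pos (mul_pos (show 0 < I 0 + 1 by linarith) hC10) hG]

end Crest.Agent.R146.Stat8_307
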