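import Crest.Agent.R146.PtNum_846
import Crest.Agent.R146.EqEta_889
import Crest.Agent.R146.Enc1_848

/-!
Row 146, PT (helper846): `C1, C2, C3 ⟹ XWS` (the exact position integrals, bounds of the frozen data).
-/

set_option autoImplicit false

namespace Crest.Agent.R146.PtNumRef_846

open Set Filter Topology MeasureTheory
open Crest.Agent.R146.YW_177 Crest.Agent.R146.PtRef_846 Crest.Agent.R146.SPair_307
open Crest.Agent.R146.RefX_355 Crest.Agent.R146.PairQ_355 Crest.Agent.R146.RefWS_355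
open Crest.Agent.R146.MaxP2_371
open Crest.Agent.R146.PtNum_846
open Crest.Agent.R146.C1D_445 (b b1 b2 hb hb1 P0 PS adj_PS b_left b1_left b2_left b_right b1_right
  b2_right bL bR)
open PP865 EncR_848

noncomputable section

/-! ### bounds of the shape -/

theorem hiS : hiL P0 PS = 8 := by
  rw [Enc1_848.hiL_eq]
  have h1 : (Enc1_848.lastP P0 PS).c = 63 := by decide +kernel
  have h2 : (Enc1_848.lastP P0 PS).j = 3 := by decide +kernel
  unfold Pc.hi
  rw [h1, h2]
  norm_num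

theorem loS : P0.lo = -8 := by
  have h1 : P0.c = -63 := rfl
  have h2 : P0.j = 3 := rfl
  unfold Pc.lo
  rw [h1, h2]
  norm_num

theorem cb0 : chkR 36 18 (.var 19) (-48) 32 P0 PS = true := by decide +kernel
theorem cb1 : chkR 36 18 (.add (.cst 5 2) (.neg (.var 19))) (-48) 32 P0 PS = true := by decide +kernel
theorem cb2 : chkR 36 18 (.add (.cst 8 0) (.neg (.var 20))) (-48) 32 P0 PS = true := by decide +kernel
theorem cb3 : chkR 36 18 (.add (.cst 8 0) (.var 20)) (-48) 32 P0 PS = true := by decide +kernel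
theorem cb4 : chkR 36 18 (.add (.cst 8 0) (.neg (.var 21))) (-48) 32 P0 PS = true := by decide +kernel
theorem cb5 : chkR 36 18 (.add (.cst 8 0) (.var 21)) (-48) 32 P0 PS = true := by decide +kernel

lemma mid {x : ℝ} (h1 : -6 ≤ x) (h2 : x ≤ 4) :
    0 < b x ∧ b x < 5 / 4 ∧ |b1 x| ≤ 8 ∧ |b2 x| ≤ 8 := by
  have ha : ((-48 : ℤ) : ℝ) / 8 ≤ x := by push_cast; linarith
  have hb' : x ≤ ((32 : ℤ) : ℝ) / 8 := by push_cast; linarith
  have hl : P0.lo ≤ x := by rw [loS]; linarith
  have hh : x ≤ hiL P0 PS := by rw [hiS]; linarith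
  have k0 := chkR_sound adj_PS cb0 x hl hh ha hb'
  have k1 := chkR_sound adj_PS cb1 x hl hh ha hb'
  have k2 := chkR_sound adj_PS cb2 x hl hh ha hb'
  have k3 := chkR_sound adj_PS cb3 x hl hh ha hb'
  have k4 := chkR_sound adj_PS cb4 x hl hh ha hb'
  have k5 := chkR_sound adj_PS cb5 x hl hh ha hb'
  have e0 : val (fun k => Fn 36 k P0 PS) (fun k => Fn1 36 k P0 PS) (fun k => Fn2 36 k P0 PS) 19 x
      = b x := rfl
  have e1 : val (fun k => Fn 36 k P0 PS) (fun k => Fn1 36 k P0 PS) (fun k => Fn2 36 k P0 PS) 20 x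
      = b1 x := rfl
  have e2 : val (fun k => Fn 36 k P0 PS) (fun k => Fn1 36 k P0 PS) (fun k => Fn2 36 k P0 PS) 21 x
      = b2 x := rfl
  simp only [Ex.evR, e0, e1, e2] at k0 k1 k2 k3 k4 k5
  norm_num at k0 k1 k2 k3 k4 k5
  refine ⟨k0, by linarith, abs_le.2 ⟨by linarith, by linarith⟩, abs_le.2 ⟨by linarith, by linarith⟩⟩

lemma b_bd (x : ℝ) : 0 < b x ∧ b x < 5 / 4 := by
  rcases le_or_gt x (-6) with h | h
  · rw [b_left h, bL]; norm_num
  · rcases le_or_gt x 4 with h' | h'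
    · exact ⟨(mid h.le h').1, (mid h.le h').2.1⟩
    · rw [b_right (by linarith), bR]; norm_num

lemma b12_zero {x : ℝ} (h : x ≤ -6 ∨ 4 ≤ x) : b1 x = 0 ∧ b2 x = 0 := by
  rcases h with h | h
  · exact ⟨b1_left h, b2_left h⟩
  · exact ⟨b1_right (by linarith), b2_right (by linarith)⟩

lemma cb : Continuous b := continuous_iff_continuousAt.2 fun x => (hb x).continuousAt

/-! ### the position integrals -/

section pos

variable {c : ℝ} {W V I k : ℝ → ℝ} {lam : ℝ} {δ : ℝ}

lemma V_intOn (h : SPair c W V I k lam) (x : ℝ) : IntegrableOn V (Iic x) := by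
  refine integrableOn_Iic_of_intervalIntegral_norm_bounded (W x) x (l := atBot) (a := id) ?_
    tendsto_id ?_
  · intro i
    exact (h.cV.integrableOn_Icc).mono_set Ioc_subset_Icc_self
  · filter_upwards [eventually_le_atBot x] with i hi
    have e : ∀ t, ‖V t‖ = V t := fun t => Real.norm_of_nonneg (h.V_pos t).le
    simp only [e, id]
    rw [intervalIntegral.integral_eq_sub_of_hasDerivAt (fun t _ => h.dW t)
      (h.cV.intervalIntegrable _ _)]
    have := h.W_pos i
    linarith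

lemma V_int (h : SPair c W V I k lam) (x : ℝ) : ∫ t in Iic x, V t = W x := by
  rw [integral_Iic_of_hasDerivAt_of_tendsto' (fun y _ => h.dW y) (V_intOn h x) (EqEta_889.W_bot h),
    sub_zero]

lemma int_deriv {g : ℝ → ℝ} (cg : Continuous g) (hg : ∀ x, IntegrableOn g (Iic x)) (x : ℝ) :
    HasDerivAt (fun x => ∫ t in Iic x, g t) (g x) x := by
  have h1 : (fun x => ∫ t in Iic x, g t) = fun y => (∫ t in Iic x, g t) + ∫ t in x..y, g t := by
    funext y
    rw [← intervalIntegral.integral_Iic_sub_Iic (hg x) (hg y)]; ring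
  rw [h1]
  exact (intervalIntegral.integral_hasDerivAt_right (cg.intervalIntegrable _ _)
    (cg.stronglyMeasurableAtFilter _ _) cg.continuousAt).const_add _

lemma den_bd (hδ : 0 < δ) (hδ2 : δ < 1 / 2) (x : ℝ) :
    3 / 8 < 1 - δ * b x ∧ 1 < 1 + δ * b x := by
  obtain ⟨h1, h2⟩ := b_bd x
  constructor
  · nlinarith
  · nlinarith

lemma cgp (h : SPair c W V I k lam) (hδ : 0 < δ) (hδ2 : δ < 1 / 2) :
    Continuous fun t => V t / (1 - δ * b t) :=
  h.cV.div (continuous_const.sub (cb.const_mul δ)) fun x => by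
    have := (den_bd hδ hδ2 x).1; linarith

lemma cgm (h : SPair c W V I k lam) (hδ : 0 < δ) (hδ2 : δ < 1 / 2) :
    Continuous fun t => V t / (1 + δ * b t) :=
  h.cV.div (continuous_const.add (cb.const_mul δ)) fun x => by
    have := (den_bd hδ hδ2 x).2; linarith

lemma gp_bd (h : SPair c W V I k lam) (hδ : 0 < δ) (hδ2 : δ < 1 / 2) (t : ℝ) :
    0 ≤ V t / (1 - δ * b t) ∧ V t / (1 - δ * b t) ≤ 3 * V t := by
  have h1 := (den_bd hδ hδ2 t).1
  have h2 := h.V_pos t
  constructor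
  · exact div_nonneg h2.le (by linarith)
  · rw [div_le_iff₀ (by linarith)]; nlinarith

lemma gm_bd (h : SPair c W V I k lam) (hδ : 0 < δ) (hδ2 : δ < 1 / 2) (t : ℝ) :
    0 ≤ V t / (1 + δ * b t) ∧ V t / (1 + δ * b t) ≤ V t := by
  have h1 := (den_bd hδ hδ2 t).2
  have h2 := h.V_pos t
  constructor
  · exact div_nonneg h2.le (by linarith)
  · rw [div_le_iff₀ (by linarith)]; nlinarith

lemma int_gp (h : SPair c W V I k lam) (hδ : 0 < δ) (hδ2 : δ < 1 / 2) (x : ℝ) :
    IntegrableOn (fun t => V t / (1 - δ * b t)) (Iic x) := by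
  refine Integrable.mono' ((V_intOn h x).const_mul 3) (cgp h hδ hδ2).aestronglyMeasurable ?_
  refine Eventually.of_forall fun t => ?_
  obtain ⟨h1, h2⟩ := gp_bd h hδ hδ2 t
  rw [Real.norm_of_nonneg h1]; exact h2

lemma int_gm (h : SPair c W V I k lam) (hδ : 0 < δ) (hδ2 : δ < 1 / 2) (x : ℝ) :
    IntegrableOn (fun t => V t / (1 + δ * b t)) (Iic x) := by
  refine Integrable.mono' (V_intOn h x) (cgm h hδ hδ2).aestronglyMeasurable ?_
  refine Eventually.of_forall fun t => ?_
  obtain ⟨h1, h2⟩ := gm_bd h hδ hδ2 t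
  rw [Real.norm_of_nonneg h1]; exact h2

lemma dPp (h : SPair c W V I k lam) (hδ : 0 < δ) (hδ2 : δ < 1 / 2) (x : ℝ) :
    HasDerivAt (Pp δ V) (V x / (1 - δ * b x)) x :=
  int_deriv (cgp h hδ hδ2) (int_gp h hδ hδ2) x

lemma dPm (h : SPair c W V I k lam) (hδ : 0 < δ) (hδ2 : δ < 1 / 2) (x : ℝ) :
    HasDerivAt (Pm δ V) (V x / (1 + δ * b x)) x :=
  int_deriv (cgm h hδ hδ2) (int_gm h hδ hδ2) x

lemma Pp_lim : Tendsto (Pp δ V) atBot (𝓝 0) := tendsto_integral_Iic_zero tendsto_id

lemma Pm_lim : Tendsto (Pm δ V) atBot (𝓝 0) := tendsto_integral_Iic_zero tendsto_id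

lemma Pm_nonneg (h : SPair c W V I k lam) (hδ : 0 < δ) (hδ2 : δ < 1 / 2) (x : ℝ) :
    0 ≤ Pm δ V x := by
  unfold Pm
  exact setIntegral_nonneg measurableSet_Iic fun t _ => (gm_bd h hδ hδ2 t).1

lemma Pp_nonneg (h : SPair c W V I k lam) (hδ : 0 < δ) (hδ2 : δ < 1 / 2) (x : ℝ) :
    0 ≤ Pp δ V x := by
  unfold Pp
  exact setIntegral_nonneg measurableSet_Iic fun t _ => (gp_bd h hδ hδ2 t).1

lemma Pp_le (h : SPair c W V I k lam) (hδ : 0 < δ) (hδ2 : δ < 1 / 2) (x : ℝ) :
    Pp δ V x ≤ 3 * W x := by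
  unfold Pp
  calc ∫ t in Iic x, V t / (1 - δ * b t) ≤ ∫ t in Iic x, 3 * V t :=
        setIntegral_mono (int_gp h hδ hδ2 x) ((V_intOn h x).const_mul 3)
          fun t => (gp_bd h hδ hδ2 t).2
    _ = 3 * W x := by rw [integral_const_mul, V_int h]

end pos

/-! ### the bounds of the data -/

section main

variable {c : ℝ} {W V I k : ℝ → ℝ} {lam : ℝ} {δ : ℝ}

lemma side_bd (h : SPair c W V I k lam) :
    ∃ B, 0 < B ∧ ∀ x, |b2 x + k1x c W V I x * b1 x| ≤ B := by
  have ck : Continuous (k1x c W V I) := continuous_iff_continuousAt.2 fun x => (dk1x h x).continuousAt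
  obtain ⟨C, hC⟩ := (isCompact_Icc (a := (-6 : ℝ)) (b := 4)).exists_bound_of_continuousOn
    ck.continuousOn
  refine ⟨8 + |C| * 8 + 1, by positivity, fun x => ?_⟩
  by_cases hx : -6 ≤ x ∧ x ≤ 4
  · obtain ⟨-, -, h1, h2⟩ := mid hx.1 hx.2
    have h3 := hC x ⟨hx.1, hx.2⟩
    rw [Real.norm_eq_abs] at h3
    have h4 : |k1x c W V I x * b1 x| ≤ |C| * 8 := by
      rw [abs_mul]
      exact mul_le_mul (h3.trans (le_abs_self C)) h1 (abs_nonneg _) (abs_nonneg _)
    have h5 := abs_add_le (b2 x) (k1x c W V I x * b1 x)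
    linarith
  · have hz : x ≤ -6 ∨ 4 ≤ x := by
      rcases le_or_gt x (-6) with h' | h'
      · exact Or.inl h'
      · right
        by_contra hcon
        push Not at hcon
        exact hx ⟨h'.le, hcon.le⟩
    obtain ⟨h1, h2⟩ := b12_zero hz
    rw [h1, h2]
    simp
    positivity

theorem xws (h1 : C1) (h2 : C2) (h3 : C3) (hS : SPair c W V I k c) (hc : c < 1 / 2)
    (hδ : 0 < δ) (hδc : δ ≤ c) :
    ∃ B, XWS c δ (δ / 1000) (1 / 100) B (c - gr * δ) (c + gr * δ) W V I k (D0 δ V I) := by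
  obtain ⟨B, hB, hB'⟩ := side_bd hS
  have hδ2 : δ < 1 / 2 := lt_of_le_of_lt hδc hc
  have hI1 : ∀ x, I x ≤ 1 := fun x => by
    have h4 := hS.I_le x
    have h5 : W 0 ≤ 1 / 2 := W_le_half hS le_rfl
    have := hS.c_pos
    nlinarith [hS.W_pos 0]
  refine ⟨B + 3, ?_⟩
  refine
    { δ_pos := hδ
      δ_le := hδc
      e0_pos := by positivity
      e0_le := by linarith
      κ_pos := by norm_num
      κ_le := by norm_num
      B_pos := by linarith
      dbp := hb
      dbp1 := fun x => HasSide.of_hasDerivAt (hb1 x)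
      dbm := hb
      dbm1 := fun x => HasSide.of_hasDerivAt (hb1 x)
      dnp := fun x => dPp hS hδ hδ2 x
      dnm := fun x => dPm hS hδ hδ2 x
      dgp := ?_
      dgm := ?_
      bpm := fun x => by
        have := (b_bd x).1
        exact (add_pos this this).le
      bp_le := fun x => by
        have := (b_bd x).2
        show b x ≤ B + 3
        linarith
      Tm := fun x => by
        have := (den_bd hδ hδ2 x).1
        show 1 / 100 ≤ 1 - δ * b x
        linarith
      bm_side := fun x => (hB' x).trans (by linarith)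
      up := fun x y hy => h1.up c W V I k hS δ hδ hδc x y hy
      low := fun x y hy => h1.low c W V I k hS δ hδ hδc x y hy
      conc := fun x => h1.conc c W V I k hS δ hδ hδc x
      lin_p := fun x => h1.lin_p c W V I k hS δ hδ hδc x
      lin_m := fun x => h1.lin_m c W V I k hS δ hδ hδc x
      lin_m2 := fun x y hy => h1.lin_m2 c W V I k hS δ hδ hδc x y hy
      pos_p := ?_
      pos_m := ?_
      np_lim := Pp_lim
      nm_lim := Pm_lim
      nm_nonneg := Pm_nonneg hS hδ hδ2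
      np_le := ?_
      fp_nonneg := by show (0:ℝ) ≤ 7 / 5; norm_num
      fm_nonneg := by show (0:ℝ) ≤ 23 / 20; norm_num
      law_p := fun x z hp y hy j hj => h2.law_p c W V I k hS δ hδ hδc x z ⟨hp.lo, hp.hi⟩ y j hy hj
      law_m := fun x z hp y hy j hj => h2.law_m c W V I k hS δ hδ hδc x z ⟨hp.lo, hp.hi⟩ y j hy hj
      pot := fun x z hp y hy => h2.pot c W V I k hS δ hδ hδc x z ⟨hp.lo, hp.hi⟩ y hy
      gp_bd := ?_
      gp1_bd := ?_
      gm_bd := ?_
      gm1_bd := ?_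
      clo_p := fun x z j L hp hj1 hj2 hL h4 h5 =>
        h3.clo_p c W V I k hS δ hδ hδc x z ⟨hp.lo, hp.hi⟩ j L hj1 hj2 hL h4 h5
      clo_m := fun x z j L hp hj1 hj2 hL h4 h5 =>
        h3.clo_m c W V I k hS δ hδ hδc x z ⟨hp.lo, hp.hi⟩ j L hj1 hj2 hL h4 h5 }
  · intro x
    exact ((hS.dV x).const_mul (9 / 10 * δ)).const_add 1
  · intro x
    exact ((hS.dV x).const_mul (9 / 10 * δ)).const_sub 1
  · intro x
    have h4 := (den_bd hδ hδ2 x).1
    show V x ≤ V x / (1 - δ * b x) * (1 - δ * b x)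
    rw [div_mul_cancel₀ _ (by linarith)]
  · intro x
    have h4 := (den_bd hδ hδ2 x).2
    show V x / (1 + δ * b x) * (1 + δ * b x) ≤ V x
    rw [div_mul_cancel₀ _ (by linarith)]
  · intro x
    have h4 := Pp_le hS hδ hδ2 x
    have h5 := W_le_abs hS x
    have h6 : 0 ≤ B * (1 + |x|) := by positivity
    show Pp δ V x ≤ (B + 3) * (1 + |x|)
    nlinarith
  · intro x
    have h4 := hS.V_pos x
    have h5 := hS.V_lt x
    have h6 : 0 < δ * V x := mul_pos hδ h4
    have h7 : δ * V x < 1 := by nlinarith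
    show |1 + 9 / 10 * δ * V x| ≤ B + 3
    rw [abs_le]
    constructor <;> nlinarith
  · intro x
    have h4 := hS.I_pos x
    have h5 := hI1 x
    have h6 : 0 < δ * I x := mul_pos hδ h4
    have h7 : δ * I x < 1 := by nlinarith
    show |9 / 10 * δ * I x| ≤ B + 3
    rw [abs_le]
    constructor <;> nlinarith
  · intro x
    have h4 := hS.V_pos x
    have h5 := hS.V_lt x
    have h6 : 0 < δ * V x := mul_pos hδ h4
    have h7 : δ * V x < 1 := by nlinarith
    show |1 - 9 / 10 * δ * V x| ≤ B + 3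
    rw [abs_le]
    constructor <;> nlinarith
  · intro x
    have h4 := hS.I_pos x
    have h5 := hI1 x
    have h6 : 0 < δ * I x := mul_pos hδ h4
    have h7 : δ * I x < 1 := by nlinarith
    show |-(9 / 10 * δ * I x)| ≤ B + 3
    rw [abs_neg, abs_le]
    constructor <;> nlinarith

end main

end

end Crest.Agent.R146.PtNumRef_846
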