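import Crest.Agent.R146.C2S_889
import Crest.Agent.R146.QEnc_848

/-!
# Row 146, helper865: the secant labels `X2` of the lower window, `x > 2` (package (2) of C2)

`T_X2 : k1x (X2 x) ≤ -sg x`, `V_X2 : V (X2 x) ≤ V x (1 - c mmF x)`.
-/

set_option autoImplicit false

namespace Crest.Agent.R146.C2X_865

open PP865 Crest.Agent.R146.C2D_889 Crest.Agent.R146.C2S_889
open Crest.Agent.R146.SPair_307 Crest.Agent.R146.RefX_355 Crest.Agent.R146.QEnc_865

noncomputable def X2 (x : ℝ) : ℝ := if x ≤ 5 / 2 then 3 / 2 else if x ≤ 11 / 4 then 7 / 4 else 2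

def cn (n : ℤ) : Ex := .cst n 0

def eT : Ex := cn 2 * .var 28 * .var 7 - ((cn 1 - .var 28) * .var 0 + cn 2 * .var 28 * .var 1)

theorem kT1 : checkBO 4 8 30 (err 352) 11 12 prm (.cst (-458) 8 - eT + cn 8 * (.cst 3 1 - .var 0))
    = true := by decide +kernel
theorem kT2 : checkBO 4 8 30 (err 352) 13 14 prm (.cst (-555) 8 - eT + cn 8 * (.cst 7 2 - .var 0))
    = true := by decide +kernel
theorem kT3 : checkBO 4 8 30 (err 352) 15 16 prm (.cst (-652) 8 - eT + cn 8 * (cn 2 - .var 0))
    = true := by decide +kernel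

theorem kV1 : checkBO 4 8 30 (err 352) 11 12 prm (.cst 242 8 - .var 2 + cn 4 * (.cst 3 1 - .var 0))
    = true := by decide +kernel
theorem kV2 : checkBO 4 8 30 (err 352) 13 14 prm (.cst 249 8 - .var 2 + cn 4 * (.cst 7 2 - .var 0))
    = true := by decide +kernel
theorem kV3 : checkBO 4 8 30 (err 352) 15 16 prm
    (.cst 64586 16 - .var 2 + cn 4 * (cn 2 - .var 0)) = true := by decide +kernel

theorem kW1 : checkBO 6 8 30 (err 352) 16 20 prm
    (.var 2 * (cn 1 - .var 28 * .var 22) - .cst 242 8) = true := by decide +kernel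
theorem kW2 : checkBO 6 8 30 (err 352) 20 22 prm
    (.var 2 * (cn 1 - .var 28 * .var 22) - .cst 249 8) = true := by decide +kernel
theorem kW3 : checkBO 6 8 30 (err 352) 22 24 prm
    (.var 2 * (cn 1 - .var 28 * .var 22) - .cst 64586 16) = true := by decide +kernel

theorem kW0 : checkBO 6 8 30 (err 352) 22 24 prm (.var 22) = true := by decide +kernel

section

variable {c : ℝ} {W V I k : ℝ → ℝ}

/-- reading a check at `x` -/
theorem rd (h : SPair c W V I k c) {a b : ℤ} {n dg pr : ℕ} {e : Ex}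
    (he : checkBO n dg pr (err 352) a b prm e = true) {x : ℝ} (h6 : -6 ≤ x) (h6' : x ≤ 6)
    (h1 : (a : ℝ) / 8 < x) (h2 : x ≤ (b : ℝ) / 8) : 0 < e.evR (env c c W V I x) := by
  refine chkW h h.c_pos.le le_rfl he ?_ (by linarith) (by linarith) h1 h2
  have := QEnc_848.encQ h h6 h6'
  unfold qv
  exact_mod_cast this

theorem T_eq (h : SPair c W V I k c) (x : ℝ) :
    eT.evR (env c c W V I x) = k1x c W V I x := by
  simp only [eT, cn, Ex.evR_sub, Ex.evR_add, Ex.evR_mul, Ex.evR_cst, Ex.evR_var, v0, v1, v2, v7, v28]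
  unfold k1x qx Ad qv
  push_cast
  ring

theorem T_X2 (h : SPair c W V I k c) {x : ℝ} (hx : 2 < x) : k1x c W V I (X2 x) ≤ - sg x := by
  unfold X2 sg
  split_ifs with h1 h2
  · have := rd h kT1 (x := 3 / 2) (by norm_num) (by norm_num) (by norm_num) (by norm_num)
    rw [Ex.evR_add, Ex.evR_sub, T_eq h] at this
    simp only [cn, Ex.evR_sub, Ex.evR_mul, Ex.evR_cst, Ex.evR_var, v0] at this
    norm_num at this ⊢
    linarith
  · have := rd h kT2 (x := 7 / 4) (by norm_num) (by norm_num) (by norm_num) (by norm_num)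
    rw [Ex.evR_add, Ex.evR_sub, T_eq h] at this
    simp only [cn, Ex.evR_sub, Ex.evR_mul, Ex.evR_cst, Ex.evR_var, v0] at this
    norm_num at this ⊢
    linarith
  · have := rd h kT3 (x := 2) (by norm_num) (by norm_num) (by norm_num) (by norm_num)
    rw [Ex.evR_add, Ex.evR_sub, T_eq h] at this
    simp only [cn, Ex.evR_sub, Ex.evR_mul, Ex.evR_cst, Ex.evR_var, v0] at this
    norm_num at this ⊢
    linarith

theorem V_X2_le (h : SPair c W V I k c) (x : ℝ) :
    (x ≤ 5 / 2 → V (X2 x) ≤ 242 / 2 ^ 8) ∧ (5 / 2 < x → x ≤ 11 / 4 → V (X2 x) ≤ 249 / 2 ^ 8) ∧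
      (11 / 4 < x → V (X2 x) ≤ 64586 / 2 ^ 16) := by
  refine ⟨fun h1 => ?_, fun h1 h2 => ?_, fun h1 => ?_⟩
  · have := rd h kV1 (x := 3 / 2) (by norm_num) (by norm_num) (by norm_num) (by norm_num)
    simp only [cn, Ex.evR_sub, Ex.evR_add, Ex.evR_mul, Ex.evR_cst, Ex.evR_var, v0, v2] at this
    unfold X2
    rw [if_pos h1]
    norm_num at this ⊢
    linarith
  · have := rd h kV2 (x := 7 / 4) (by norm_num) (by norm_num) (by norm_num) (by norm_num)
    simp only [cn, Ex.evR_sub, Ex.evR_add, Ex.evR_mul, Ex.evR_cst, Ex.evR_var, v0, v2] at this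
    unfold X2
    rw [if_neg (not_le.2 h1), if_pos h2]
    norm_num at this ⊢
    linarith
  · have := rd h kV3 (x := 2) (by norm_num) (by norm_num) (by norm_num) (by norm_num)
    simp only [cn, Ex.evR_sub, Ex.evR_add, Ex.evR_mul, Ex.evR_cst, Ex.evR_var, v0, v2] at this
    unfold X2
    rw [if_neg (by linarith), if_neg (not_le.2 h1)]
    norm_num at this ⊢
    linarith

theorem VW3 (h : SPair c W V I k c) {x : ℝ} (h1 : 11 / 4 < x) (h2 : x ≤ 3) :
    64586 / 2 ^ 16 ≤ V x * (1 - c * mm x) := by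
  have := rd h kW3 (x := x) (by linarith) (by linarith) (by norm_num; linarith)
    (by norm_num; linarith)
  simp only [cn, Ex.evR_sub, Ex.evR_mul, Ex.evR_cst, Ex.evR_var, v2, v22, v28] at this
  norm_num at this ⊢
  linarith

theorem V_X2 (h : SPair c W V I k c) {x : ℝ} (hx : 2 < x) :
    V (X2 x) ≤ V x * (1 - c * mmF x) := by
  obtain ⟨a1, a2, a3⟩ := V_X2_le h x
  rcases le_or_gt x (5 / 2) with h1 | h1
  · refine (a1 h1).trans ?_
    have := rd h kW1 (x := x) (by linarith) (by linarith) (by norm_num; linarith)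
      (by norm_num; linarith)
    simp only [cn, Ex.evR_sub, Ex.evR_mul, Ex.evR_cst, Ex.evR_var, v2, v22, v28] at this
    unfold mmF
    rw [if_pos (by linarith)]
    norm_num at this ⊢
    linarith
  rcases le_or_gt x (11 / 4) with h2 | h2
  · refine (a2 h1 h2).trans ?_
    have := rd h kW2 (x := x) (by linarith) (by linarith) (by norm_num; linarith)
      (by norm_num; linarith)
    simp only [cn, Ex.evR_sub, Ex.evR_mul, Ex.evR_cst, Ex.evR_var, v2, v22, v28] at this
    unfold mmF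
    rw [if_pos (by linarith)]
    norm_num at this ⊢
    linarith
  refine (a3 h2).trans ?_
  rcases le_or_gt x 3 with h3 | h3
  · unfold mmF
    rw [if_pos h3]
    exact VW3 h h2 h3
  · have b1 := VW3 h (x := 3) (by norm_num) le_rfl
    unfold mmF
    rw [if_neg (not_le.2 h3)]
    have b2 : V 3 ≤ V x := (h.V_strictMono h3).le
    have b3 : Real.exp (-(x - 3)) ≤ 1 := Real.exp_le_one_iff.2 (by linarith)
    have b4 := Real.exp_pos (-(x - 3))
    have b5 := h.V_pos 3
    have b6 := h.c_pos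
    have b7 : 0 < 1 - c * mm 3 := by
      by_contra hcon
      have : V 3 * (1 - c * mm 3) ≤ 0 :=
        mul_nonpos_of_nonneg_of_nonpos b5.le (not_lt.1 hcon)
      norm_num at b1
      linarith
    have b8 : 1 - c * mm 3 ≤ 1 - c * (mm 3 * Real.exp (-(x - 3))) := by
      rcases le_or_gt 0 (mm 3) with hm | hm
      · have : mm 3 * Real.exp (-(x - 3)) ≤ mm 3 := mul_le_of_le_one_right hm b3
        have := mul_le_mul_of_nonneg_left this b6.le
        linarith
      · exfalso
        have := rd h kW0 (x := 3) (by norm_num) (by norm_num) (by norm_num) (by norm_num)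
        simp only [cn, Ex.evR_sub, Ex.evR_mul, Ex.evR_cst, Ex.evR_var, v2, v22, v28] at this
        linarith
    calc 64586 / 2 ^ 16 ≤ V 3 * (1 - c * mm 3) := b1
      _ ≤ V x * (1 - c * mm 3) := mul_le_mul_of_nonneg_right b2 b7.le
      _ ≤ _ := mul_le_mul_of_nonneg_left b8 (h.V_pos x).le

end

end Crest.Agent.R146.C2X_865
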