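import Crest.Agent.R146.C2Asm_454
import Crest.Agent.R146.C2V_889
import Crest.Agent.R146.C2X_865
import Crest.Agent.R146.C2P_490
import Crest.Agent.R146.C2Q_490

/-!
# Row 146, helper454: `PtNum_846.C2` from the two point bounds of the slope shape

`c2_of3` : `C2` from the four two point bounds (`C2Y_924`, `C2Z_649`).
-/

set_option autoImplicit false

namespace Crest.Agent.R146.C2Fin_454

open Set
open Crest.Agent.R146.SPair_307 Crest.Agent.R146.RefX_355 Crest.Agent.R146.RefWS_355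
open Crest.Agent.R146.PtNum_846 Crest.Agent.R146.C2Asm_454
open Crest.Agent.R146.C2S_889 (mpF mmF Ek Ep Em sg)
open Crest.Agent.R146.C1D_445 (b b1)

theorem c2_of3
    (yp : ∀ (c : ℝ) (W V I k : ℝ → ℝ), SPair c W V I k c → ∀ δ, 0 < δ → δ ≤ c → ∀ x y,
      x ≤ -1 / 4 → x ≤ y → V y ≤ V x * (1 + δ * mpF x) → b y + 2 / 1000 ≤ Ep x ∧ b y ≤ b x)
    (ym : ∀ (c : ℝ) (W V I k : ℝ → ℝ), SPair c W V I k c → ∀ δ, 0 < δ → δ ≤ c → ∀ x y,
      x ≤ -1 / 4 → y ≤ x → V x * (1 - δ * mmF x) ≤ V y → b y + 2 / 1000 ≤ Em x ∧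
        b y + 2 / 1000 ≤ b x - 3 / 5 * δ * b1 x + δ ^ 2 / 10 + 2 / 1000)
    (zp : ∀ (c : ℝ) (W V I k : ℝ → ℝ), SPair c W V I k c → ∀ δ, 0 < δ → δ ≤ c → ∀ x y,
      -1 / 4 < x → x ≤ y → V y ≤ V x * (1 + δ * mpF x) → b y + 2 / 1000 ≤ Ek x ∧
        (3 / 4 < x → b y + 2 / 1000 ≤ 472 / 1000))
    (zm : ∀ (c : ℝ) (W V I k : ℝ → ℝ), SPair c W V I k c → ∀ δ, 0 < δ → δ ≤ c → ∀ x y,
      -1 / 4 < x → y ≤ x → V x * (1 - δ * mmF x) ≤ V y → b y + 2 / 1000 ≤ Ek x ∧
        (3 / 4 < x → b y + 2 / 1000 ≤ 472 / 1000)) : C2 := by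
  refine c2_of ?_ ?_ fun c W V I k h δ hδ hδc x z hz hw y j hy hj =>
    C2Q_490.tails c W V I k h δ hδ hδc x z hz hw y j hy hj
  · intro c W V I k h δ hδ hδc x z hp
    have hEp : ∀ x y, x ≤ y → V y ≤ V x * (1 + δ * mpF x) → b y + 2 / 1000 ≤ Ep x := by
      intro x y hxy hV
      rcases le_or_gt x (-1 / 4) with hx | hx
      · exact (yp c W V I k h δ hδ hδc x y hx hxy hV).1
      · have := (zp c W V I k h δ hδ hδc x y hx hxy hV).1
        unfold Ep
        rw [if_neg (not_le.2 hx)]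
        exact this
    have hEm : ∀ x y, y ≤ x → V x * (1 - δ * mmF x) ≤ V y → b y + 2 / 1000 ≤ Em x := by
      intro x y hxy hV
      rcases le_or_gt x (-1 / 4) with hx | hx
      · exact (ym c W V I k h δ hδ hδc x y hx hxy hV).1
      · have := (zm c W V I k h δ hδ hδc x y hx hxy hV).1
        unfold Em
        rw [if_neg (by linarith), if_neg (not_le.2 hx)]
        exact this
    exact ⟨C2V_889.lower h hδ hδc (fun x hx => C2P_490.L_right h hδ hδc hx)
        (fun x hx => ⟨C2X_865.X2 x, C2X_865.T_X2 h hx, C2X_865.V_X2 h hx⟩) hEm hp.2,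
      C2V_889.upper h hδ hδc (fun x hx => C2P_490.U_right h hδ hδc hx) hEp hp.1⟩
  · intro c W V I k h δ hδ hδc x z _ _ hw
    refine ⟨?_, ?_, ?_, ?_⟩
    · intro hz hxz
      exact (ym c W V I k h δ hδ hδc z x hz hxz hw.1).2
    · intro hz hzx
      exact (yp c W V I k h δ hδ hδc z x hz hzx hw.2).2
    · intro hz
      rcases le_total x z with g | g
      · exact (zm c W V I k h δ hδ hδc z x hz g hw.1).1
      · exact (zp c W V I k h δ hδ hδc z x hz g hw.2).1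
    · intro hz
      rcases le_total x z with g | g
      · exact (zm c W V I k h δ hδ hδc z x (by linarith) g hw.1).2 hz
      · exact (zp c W V I k h δ hδ hδc z x (by linarith) g hw.2).2 hz

end Crest.Agent.R146.C2Fin_454
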