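import Crest.Agent.R146.C2Prof_454
import Crest.Agent.R146.C2D_889

/-!
# Row 146, helper454: the majorants `Mm`, `Mp` dominate helper889's windows `mm`, `mp` on `(-5, 3]`
-/

set_option autoImplicit false

namespace Crest.Agent.R146.C2M_454

open PP865 EncR_848 PP4_454

/-- same grid and same function -/
def same (k k' : ℕ) : Pc → List Pc → Pc → List Pc → Bool
  | p, [], p', [] => decide (p.c = p'.c) && decide (p.j = p'.j) &&
      decide (p.f.getD k [] = p'.f.getD k' [])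
  | p, q :: ps, p', q' :: ps' => decide (p.c = p'.c) && decide (p.j = p'.j) &&
      decide (p.f.getD k [] = p'.f.getD k' []) && same k k' q ps q' ps'
  | _, [], _, _ :: _ => false
  | _, _ :: _, _, [] => false

theorem v0_same {P k k' : ℕ} {p p' : Pc} (h1 : p.c = p'.c) (h2 : p.j = p'.j)
    (h3 : p.f.getD k [] = p'.f.getD k' []) (z : ℝ) : Pc.v0 P k p z = Pc.v0 P k' p' z := by
  unfold Pc.v0 Pc.loc
  rw [h1, h2, h3]

theorem Fn_same {P k k' : ℕ} : ∀ {p : Pc} {ps : List Pc} {p' : Pc} {ps' : List Pc},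
    same k k' p ps p' ps' = true → ∀ z, Fn P k p ps z = Fn P k' p' ps' z
  | p, [], p', [], h, z => by
    simp only [same, Bool.and_eq_true, decide_eq_true_eq] at h
    exact v0_same h.1.1 h.1.2 h.2 z
  | p, q :: ps, p', q' :: ps', h, z => by
    simp only [same, Bool.and_eq_true, decide_eq_true_eq] at h
    obtain ⟨⟨⟨h1, h2⟩, h3⟩, h4⟩ := h
    have e1 : p.hi = p'.hi := by unfold Pc.hi; rw [h1, h2]
    have e2 := Fn_same (P := P) h4 z
    show (if z ≤ p.hi then Pc.v0 P k p z else Fn P k q ps z)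
      = (if z ≤ p'.hi then Pc.v0 P k' p' z else Fn P k' q' ps' z)
    rw [e1, v0_same h1 h2 h3, e2]
  | _, [], _, _ :: _, h, _ => by simp [same] at h
  | _, _ :: _, _, [], h, _ => by simp [same] at h

def P2 : Pc := extP C2D_889.P1 C2Data_454.g0
def PS2 : List Pc := exts C2D_889.PS1 C2Data_454.gs

theorem adj2 : chain adj P2 PS2 = true := by decide +kernel
theorem len9 : lens 9 C2D_889.P1 C2D_889.PS1 = true := by decide +kernel
theorem s7 : same 7 9 C2Data_454.P1 C2Data_454.PS1 P2 PS2 = true := by decide +kernel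
theorem s8 : same 8 10 C2Data_454.P1 C2Data_454.PS1 P2 PS2 = true := by decide +kernel

theorem c1 : checkO 36 2 6 30 C2X5_454.e0 (-40) 24 (.var 31 - .var 22) P2 PS2 = true := by
  decide +kernel
theorem c2 : checkO 36 2 6 30 C2X5_454.e0 (-40) 24 (.var 28 - .var 25) P2 PS2 = true := by
  decide +kernel

theorem lo2 : P2.lo = -8 := by
  have h1 : P2.c = -63 := by decide +kernel
  have h2 : P2.j = 3 := by decide +kernel
  unfold Pc.lo
  rw [h1, h2]
  norm_num

theorem hi2 : hiL P2 PS2 = 8 := by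
  rw [Enc1_848.hiL_eq]
  have h1 : (Enc1_848.lastP P2 PS2).c = 63 := by decide +kernel
  have h2 : (Enc1_848.lastP P2 PS2).j = 3 := by decide +kernel
  unfold Pc.hi
  rw [h1, h2]
  norm_num

theorem use2 {e : Ex} (he : e.bnd 49 = true)
    (hc : checkO 36 2 6 30 C2X5_454.e0 (-40) 24 e P2 PS2 = true) {x : ℝ} (h1 : -5 < x)
    (h2 : x ≤ 3) : 0 < e.evR (cv 36 P2 PS2 x) :=
  checkO_sound he adj2 hc x (by rw [lo2]; linarith) (by rw [hi2]; linarith)
    (by norm_num; linarith) (by norm_num; linarith) _ rfl fun i _ => by simp <;> positivity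

theorem mm_le {x : ℝ} (h1 : -5 < x) (h2 : x ≤ 3) : C2D_889.mm x ≤ C2Prof_454.Mm x := by
  have := use2 rfl c1 h1 h2
  simp only [Ex.evR_sub, Ex.evR_var] at this
  have e1 : cv 36 P2 PS2 x 31 = C2Prof_454.Mm x := (Fn_same s8 x).symm
  have e2 : cv 36 P2 PS2 x 22 = C2D_889.mm x :=
    congrFun (Fn_exts (by norm_num) len9 _ _ : Fn 36 7 P2 PS2 = Fn 36 7 C2D_889.P1 C2D_889.PS1) x
  rw [e1, e2] at this
  linarith

theorem mp_le {x : ℝ} (h1 : -5 < x) (h2 : x ≤ 3) : C2D_889.mp x ≤ C2Prof_454.Mp x := by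
  have := use2 rfl c2 h1 h2
  simp only [Ex.evR_sub, Ex.evR_var] at this
  have e1 : cv 36 P2 PS2 x 28 = C2Prof_454.Mp x := (Fn_same s7 x).symm
  have e2 : cv 36 P2 PS2 x 25 = C2D_889.mp x :=
    congrFun (Fn_exts (by norm_num) len9 _ _ : Fn 36 8 P2 PS2 = Fn 36 8 C2D_889.P1 C2D_889.PS1) x
  rw [e1, e2] at this
  linarith

end Crest.Agent.R146.C2M_454
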