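import Crest.Agent.R146.C2Cell_454
import Crest.Agent.R146.C2M_454
import Crest.Agent.R146.J_791
import Crest.Agent.R146.PtNumRef_846

/-!
# Row 146, helper454: the C2 fields for positions with label `z ∈ (-5, 3]`

`mid` : window of the level (`V z (1 - δ mm z) ≤ V x ≤ V z (1 + δ mp z)`) and `b x + 2/1000 ≤ BX δ z r`
imply the three inequalities of `PtNum_846.C2` at `(x, z)`.
-/

set_option autoImplicit false
set_option linter.unusedVariables false

namespace Crest.Agent.R146.C2Mid_454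

open Set
open Crest.Agent.R146.SPair_307 Crest.Agent.R146.RefX_355 Crest.Agent.R146.RefWS_355
open Crest.Agent.R146.C2R_889 Crest.Agent.R146.C2Prof_454 Crest.Agent.R146.C2Env_454
open Crest.Agent.R146.YW_177 (LStat)
open Crest.Agent.R146.PtRef_846 (PotR)
open Crest.Agent.R146.C1D_445 (b b1)

noncomputable section

variable {c : ℝ} {W V I k : ℝ → ℝ}

/-- bounds of `ν = (y - c)/δ` at the two ends of `n` -/
theorem nu_bd (hc0 : 0 < c) (hc7 : c ≤ 7 / 10) {δ y : ℝ} (hδ : 0 < δ) (hδc : δ ≤ c)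
    (hy : y = nl c δ (δ / 1000) ∨ y = nu c δ (δ / 1000)) :
    |(y - c) / δ| ≤ 1001 / 1000 ∧ 0 ≤ y ∧ y ≤ 7 / 10 + δ / 1000 := by
  have key : c - δ - δ / 1000 ≤ y ∧ y ≤ c + δ + δ / 1000 ∧ 0 ≤ y ∧ y ≤ 7 / 10 + δ / 1000 := by
    rcases hy with rfl | rfl
    · unfold nl
      refine ⟨le_max_right _ _, max_le (by linarith) (by linarith), le_max_left _ _,
        max_le (by linarith) (by linarith)⟩
    · unfold nu
      have a1 : c ≤ min (7 / 10) (c + δ) := le_min hc7 (by linarith)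
      have a2 := min_le_left (7 / 10 : ℝ) (c + δ)
      have a3 := min_le_right (7 / 10 : ℝ) (c + δ)
      exact ⟨by linarith, by linarith, by linarith, by linarith⟩
  obtain ⟨k1, k2, k3, k4⟩ := key
  refine ⟨?_, k3, k4⟩
  rw [abs_le]
  constructor
  · rw [le_div_iff₀ hδ]; linarith
  · rw [div_le_iff₀ hδ]; linarith

/-- bound of `β = (j - 1)/δ` at the two ends of `j` -/
theorem beta_bd {δ j x : ℝ} (hδ : 0 < δ) (hδ1 : δ ≤ 1 / 2)
    (hj : j = (1 - δ / 1000) * (1 - δ * b x) ∨ j = (1 + δ / 1000) * (1 + δ * b x)) :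
    |(j - 1) / δ| ≤ b x + 2 / 1000 := by
  obtain ⟨b0, b5⟩ := PtNumRef_846.b_bd x
  have hb : 0 ≤ δ * b x := (mul_pos hδ b0).le
  have hb2 : δ * b x ≤ 5 / 8 := by nlinarith
  rcases hj with rfl | rfl
  · have e : ((1 - δ / 1000) * (1 - δ * b x) - 1) / δ = -(b x + 1 / 1000 - δ * b x / 1000) := by
      field_simp
      ring
    rw [e, abs_neg, abs_of_nonneg (by linarith)]
    linarith
  · have e : ((1 + δ / 1000) * (1 + δ * b x) - 1) / δ = b x + 1 / 1000 + δ * b x / 1000 := by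
      field_simp
      ring
    rw [e, abs_of_nonneg (by linarith)]
    linarith

theorem mid (h : SPair c W V I k c) {δ : ℝ} (hδ : 0 < δ) (hδc : δ ≤ c) {x z : ℝ} (hz1 : -5 < z)
    (hz2 : z ≤ 3) (hw1 : V z * (1 - δ * C2D_889.mm z) ≤ V x)
    (hw2 : V x ≤ V z * (1 + δ * C2D_889.mp z))
    (hb : b x + 2 / 1000 ≤ BX δ z ((V x / V z - 1) / δ)) {y j : ℝ}
    (hy : y = nl c δ (δ / 1000) ∨ y = nu c δ (δ / 1000))
    (hj : j = (1 - δ / 1000) * (1 - δ * b x) ∨ j = (1 + δ / 1000) * (1 + δ * b x)) :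
    1 / 100 ≤ PotR y (V x) (L1 c W V k z) ∧
    LStat 1 y (V x) (j * I x) (W z) (k z) (L1 c W V k z) (L2 c W V I k z)
      ≤ δ * (7 / 5) * PotR y (V x) (L1 c W V k z) ∧
    -(δ * (23 / 20) * PotR y (V x) (L1 c W V k z))
      ≤ LStat 1 y (V x) (j * I x) (W z) (k z) (L1 c W V k z) (L2 c W V I k z) := by
  have hc1 : 435929 / 2 ^ 20 ≤ c := (Enc3_848.enc h).c_lo
  have hc2 : c ≤ 435931 / 2 ^ 20 := (Enc3_848.enc h).c_hi
  have hc0 := h.c_pos
  have hVz := h.V_pos z
  have hVz1 := h.V_lt z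
  have hIz := h.I_pos z
  have hJ0 : ∀ x, 0 ≤ Jx c W V I x := fun x => (J_791.Jx_pos h x).le
  have hJ2 : ∀ x, Jx c W V I x ≤ 153 / 100 := J_791.Jx_le h
  obtain ⟨hν, hn0, hn7⟩ := nu_bd hc0 (by norm_num at hc2; linarith) hδ hδc hy
  have hβ := beta_bd hδ (by norm_num at hc2; linarith) hj
  set r := (V x / V z - 1) / δ with hr
  set ν := (y - c) / δ with hνd
  set β := (j - 1) / δ with hβd
  set ε := gap c δ W V I z x with hε
  have er : V x = V z * (1 + δ * r) := by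
    rw [hr]; field_simp; ring
  have ey : y = c + δ * ν := by
    rw [hνd]; field_simp; ring
  have ej : j = 1 + δ * β := by
    rw [hβd]; field_simp; ring
  have eI := gap_eq h hδ er
  have hr1 : -Mm z ≤ r := by
    have h1 := C2M_454.mm_le hz1 hz2
    rw [er] at hw1
    have h2 : 1 - δ * C2D_889.mm z ≤ 1 + δ * r := le_of_mul_le_mul_left hw1 hVz
    have h3 : 0 ≤ δ * (r + C2D_889.mm z) := by linarith
    have h4 := nonneg_of_mul_nonneg_right h3 hδ
    linarith
  have hr2 : r ≤ Mp z := by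
    have h1 := C2M_454.mp_le hz1 hz2
    rw [er] at hw2
    have h2 : 1 + δ * r ≤ 1 + δ * C2D_889.mp z := le_of_mul_le_mul_left hw2 hVz
    have h3 : 0 ≤ δ * (C2D_889.mp z - r) := by linarith
    have h4 := nonneg_of_mul_nonneg_right h3 hδ
    linarith
  have hε0 : 0 ≤ ε := gap_nonneg h hJ0 hδ
  have hpos : 0 ≤ I z / V z + δ * (k1x c W V I z * r - ε) := by
    have h1 : V z * (I z / V z + δ * (k1x c W V I z * r - ε)) = I x := eI.symm
    have h2 : 0 < V z * (I z / V z + δ * (k1x c W V I z * r - ε)) := by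
      rw [h1]; exact h.I_pos x
    exact (pos_of_mul_pos_right h2 hVz.le).le
  have hlt : r < 0 → x ≤ z := by
    intro h1
    refine (h.V_strictMono.le_iff_le).1 ?_
    rw [er]
    nlinarith [mul_pos hVz hδ]
  have hge : 0 ≤ r → z ≤ x := by
    intro h1
    refine (h.V_strictMono.le_iff_le).1 ?_
    rw [er]
    have := mul_nonneg hδ.le h1
    nlinarith
  have hMm := Mm_le hz1 hz2
  have key := C2Cell_454.law (x := z) (δ := δ) (ν := ν) (r := r) (β := β) (ε := ε) h hz1 hz2 hδ hδc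
    hν (by rw [← ey]; exact hn0) (by rw [← ey]; exact hn7) hr1 hr2 (hβ.trans hb) hε0 hpos
    (fun h1 _ _ => gap_taylor_left h hJ0 hJ2 hδ (hlt h1) er hr1 (by
      norm_num at hc2
      nlinarith))
    (fun h1 _ => gap_taylor_right h hJ0 hJ2 hδ (hge h1) er hr2)
    (fun h1 _ => gap_chord_left h hJ0 hδ (hlt h1) er)
    (fun h1 _ => gap_chord_right h hJ0 hδ (hge h1) er)
  obtain ⟨k1, k2, k3⟩ := key
  have ejI : j * I x = V z * (I z / V z + δ * HX δ (I z / V z) (k1x c W V I z) r β ε) := by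
    rw [eI, ej]
    unfold HX
    ring
  have eL : LStat 1 y (V x) (j * I x) (W z) (k z) (L1 c W V k z) (L2 c W V I k z)
      = δ * SX c δ ν (I z / V z) (W z / V z) (V z) (k z) (YWRef_177.k1 c W V k c z)
        (YWRef_177.k2 c W V I k c z) r (HX δ (I z / V z) (k1x c W V I z) r β ε) := by
    rw [← lstat_SX h z δ ν r (HX δ (I z / V z) (k1x c W V I z) r β ε), ← ejI, ← er, ← ey]
    rfl
  have eP : PotR y (V x) (L1 c W V k z) = PX c δ ν (V z) (YWRef_177.k1 c W V k c z) r := by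
    rw [← pot_PX h z δ ν r (YWRef_177.k1 c W V k c z), ← er, ← ey]
    rfl
  rw [eL, eP]
  refine ⟨k1, ?_, ?_⟩
  · have := mul_le_mul_of_nonneg_left k2 hδ.le
    linarith
  · have := mul_le_mul_of_nonneg_left k3 hδ.le
    linarith

/-- same with the two signs of `r` separated: `BX δ z 0` (level right of the position), `BX δ z (-1)` -/
theorem mid2 (h : SPair c W V I k c) {δ : ℝ} (hδ : 0 < δ) (hδc : δ ≤ c) {x z : ℝ} (hz1 : -5 < z)
    (hz2 : z ≤ 3) (hw1 : V z * (1 - δ * C2D_889.mm z) ≤ V x)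
    (hw2 : V x ≤ V z * (1 + δ * C2D_889.mp z))
    (hb1 : z ≤ x → b x + 2 / 1000 ≤ BX δ z 0) (hb2 : x < z → b x + 2 / 1000 ≤ BX δ z (-1))
    {y j : ℝ} (hy : y = nl c δ (δ / 1000) ∨ y = nu c δ (δ / 1000))
    (hj : j = (1 - δ / 1000) * (1 - δ * b x) ∨ j = (1 + δ / 1000) * (1 + δ * b x)) :
    1 / 100 ≤ PotR y (V x) (L1 c W V k z) ∧
    LStat 1 y (V x) (j * I x) (W z) (k z) (L1 c W V k z) (L2 c W V I k z)
      ≤ δ * (7 / 5) * PotR y (V x) (L1 c W V k z) ∧
    -(δ * (23 / 20) * PotR y (V x) (L1 c W V k z))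
      ≤ LStat 1 y (V x) (j * I x) (W z) (k z) (L1 c W V k z) (L2 c W V I k z) := by
  refine mid h hδ hδc hz1 hz2 hw1 hw2 ?_ hy hj
  have hVz := h.V_pos z
  rcases le_or_gt z x with hzx | hzx
  · have h1 : V z ≤ V x := h.V_strictMono.monotone hzx
    have h2 : 0 ≤ (V x / V z - 1) / δ := by
      refine div_nonneg ?_ hδ.le
      rw [sub_nonneg, le_div_iff₀ hVz]
      linarith
    refine (hb1 hzx).trans (le_of_eq ?_)
    unfold BX
    simp only [le_refl, if_true, h2]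
  · have h1 : V x < V z := h.V_strictMono hzx
    have h2 : ¬ 0 ≤ (V x / V z - 1) / δ := by
      rw [not_le]
      refine div_neg_of_neg_of_pos ?_ hδ
      rw [sub_neg, div_lt_one hVz]
      exact h1
    have h3 : ¬ (0 : ℝ) ≤ -1 := by norm_num
    refine (hb2 hzx).trans (le_of_eq ?_)
    unfold BX
    simp only [h2, h3, if_false]

end

end Crest.Agent.R146.C2Mid_454
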