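import Crest.Agent.R146.C2Ex_454

/-! Row 146, helper454: law cells of NUMREF (C2), the checks, profiles A, B -/

set_option autoImplicit false

namespace Crest.Agent.R146.C2X1_454

open PP865 EncR_848 PP4_454 C2Data_454 C2Eng_454 C2Ex_454

theorem enA : encl erA (-40) (-32) 1262 2281 358 = true := by decide +kernel
theorem kPA : kP erA (-40) (-32) = true := by decide +kernel
theorem cAp : allC errA (-40) (-32) (fP (.var 46)) (fT (.var 46) (.var 28)) (.var 22) = true := by decide +kernel
theorem cAm : allC errA (-40) (-32) (fP (.var 49)) (fC0 (.var 49)) (-.var 25) = true := by decide +kernel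
theorem enB : encl erB (-32) (-16) 1084 1460 399 = true := by decide +kernel
theorem kPB : kP erB (-32) (-16) = true := by decide +kernel
theorem cBp : allC errB (-32) (-16) (fP (.var 46)) (fT (.var 46) (.var 28)) (.var 22) = true := by decide +kernel
theorem cBm : allC errB (-32) (-16) (fP (.var 49)) (fC0 (.var 49)) (-.var 25) = true := by decide +kernel

end Crest.Agent.R146.C2X1_454
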