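import Crest.Agent.R146.C2Ex_454

/-! Row 146, helper454: law cells of NUMREF (C2), the checks, profiles C -/

set_option autoImplicit false

namespace Crest.Agent.R146.C2X2_454

open PP865 EncR_848 PP4_454 C2Data_454 C2Eng_454 C2Ex_454

theorem enC : encl erC (-16) (-2) 761 860 419 = true := by decide +kernel
theorem kPC : kP erC (-16) (-2) = true := by decide +kernel
theorem kMC : kM erC (-16) (-2) = true := by decide +kernel
theorem cCp : allC errC (-16) (-2) (fP (.var 46)) (fT (.var 46) (.var 28)) (.var 22) = true := by decide +kernel
theorem cCm : allC errC (-16) (-2) (fP (.var 49)) (fT (.var 49) (.var 31)) (-.var 25) = true := by decide +kernel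

end Crest.Agent.R146.C2X2_454
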