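import Crest.Agent.R146.C2Ex_454

/-! Row 146, helper454: law cells of NUMREF (C2), the checks, profiles D, E -/

set_option autoImplicit false

namespace Crest.Agent.R146.C2X3_454

open PP865 EncR_848 PP4_454 C2Data_454 C2Eng_454 C2Ex_454

theorem enD : encl erD (-2) 6 699 960 525 = true := by decide +kernel
theorem kPD : kP erD (-2) (6) = true := by decide +kernel
theorem kMD : kM erD (-2) (6) = true := by decide +kernel
theorem cDp : allC errD (-2) (6) (fP (.var 46)) (fT (.var 46) (.var 28)) (.var 22) = true := by decide +kernel
theorem xDp : mixC errD (-2) (6) (fP (.var 46)) (fT (.var 46) (.var 28)) (.var 22) = true := by decide +kernel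
theorem cDm : allC errD (-2) (6) (fP (.var 49)) (fT (.var 49) (.var 31)) (-.var 25) = true := by decide +kernel
theorem xDm : mixC errD (-2) (6) (fP (.var 49)) (fT (.var 49) (.var 31)) (-.var 25) = true := by decide +kernel
theorem enE : encl erE (6) 8 882 1051 594 = true := by decide +kernel
theorem kME : kM erE (6) (8) = true := by decide +kernel
theorem cEp : allC errE (6) (8) (fP (.var 46)) (fC1 (.var 46)) (.var 22) = true := by decide +kernel
theorem xEp : mixC errE (6) (8) (fP (.var 46)) (fC1 (.var 46)) (.var 22) = true := by decide +kernel
theorem cEm : allC errE (6) (8) (fP (.var 49)) (fT (.var 49) (.var 31)) (-.var 25) = true := by decide +kernel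
theorem xEm : mixC errE (6) (8) (fP (.var 49)) (fT (.var 49) (.var 31)) (-.var 25) = true := by decide +kernel

end Crest.Agent.R146.C2X3_454
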