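import Crest.Agent.R146.C2Ex_454

/-! Row 146, helper454: law cells of NUMREF (C2), the checks, profiles F -/

set_option autoImplicit false

namespace Crest.Agent.R146.C2X4_454

open PP865 EncR_848 PP4_454 C2Data_454 C2Eng_454 C2Ex_454

theorem enF : encl erF (8) 24 1788 1571 865 = true := by decide +kernel
theorem cFp : allC errF (8) (24) (fP (.var 46)) (fC1 (.var 46)) (.var 22) = true := by decide +kernel
theorem xFp : mixC errF (8) (24) (fP (.var 46)) (fC1 (.var 46)) (.var 22) = true := by decide +kernel
theorem cFm : allC errF (8) (24) (fP (.var 49)) (fC0 (.var 49)) (-.var 25) = true := by decide +kernel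
theorem xFm : mixC errF (8) (24) (fP (.var 49)) (fC0 (.var 49)) (-.var 25) = true := by decide +kernel

end Crest.Agent.R146.C2X4_454
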