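import Crest.Agent.R146.C2Comp_454
import Crest.Agent.R146.C2X1_454
import Crest.Agent.R146.C2X2_454
import Crest.Agent.R146.C2X3_454
import Crest.Agent.R146.C2X4_454

/-!
# Row 146, helper454: law cells of NUMREF (C2), the profiles

`Mp`, `Mm` : majorants of the level shift; `BX` : majorant of the slope ratio; `proA` .. `proF` : the six
profiles; `epsP`, `epsM` : Taylor bounds of the gap.
-/

set_option autoImplicit false
set_option linter.unusedVariables false
set_option linter.unusedSimpArgs false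

namespace Crest.Agent.R146.C2Prof_454

open Set
open PP865 EncR_848 PP4_454 C2Data_454 C2Eng_454 C2Ex_454 C2Alg_454 C2Env_454 C2Comp_454
open Crest.Agent.R146.SPair_307 Crest.Agent.R146.RefX_355
open Crest.Agent.R146.C2R_889 (SX PX HX)

noncomputable section

variable {c : ℝ} {W V I k : ℝ → ℝ}

/-- majorant of the level shift to the right -/
def Mp (x : ℝ) : ℝ := Fn 36 7 P1 PS1 x
/-- majorant of the level shift to the left -/
def Mm (x : ℝ) : ℝ := Fn 36 8 P1 PS1 x

/-- majorant of the slope ratio -/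
def BX (δ x r : ℝ) : ℝ :=
  if x ≤ -(1 / 4) then
    if 0 ≤ r then C1D_445.b x + 2 / 1000
    else C1D_445.b x - 3 / 5 * δ * C1D_445.b1 x + δ ^ 2 / 10 + 2 / 1000
  else if x ≤ 0 then 330 / 1000
  else if x ≤ 1 / 4 then 305 / 1000
  else if x ≤ 1 / 2 then 325 / 1000
  else if x ≤ 3 / 4 then 352 / 1000
  else 472 / 1000

/-! ### pure data -/

/-- the certificate values without errors -/
theorem use0 {n dg pr : ℕ} {lo hi : ℤ} {e : Ex} (he : e.bnd 49 = true)
    (hc : checkO 36 n dg pr C2X5_454.e0 lo hi e P1 PS1 = true) {x : ℝ} (h1 : -5 < x) (h2 : x ≤ 3)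
    (hlo : (lo : ℝ) / 8 < x) (hhi : x ≤ (hi : ℝ) / 8) : 0 < e.evR (cv 36 P1 PS1 x) :=
  use n dg pr he hc h1 h2 hlo hhi rfl fun i _ => by simp <;> positivity

theorem Mp_le {x : ℝ} (h1 : -5 < x) (h2 : x ≤ 3) : Mp x ≤ 21 / 16 := by
  have := use0 rfl C2X5_454.mp h1 h2 (by norm_num; linarith) (by norm_num; linarith)
  simp only [Ex.evR_sub, Ex.evR_cst, Ex.evR_var] at this
  norm_num at this
  exact this.le

theorem Mm_le {x : ℝ} (h1 : -5 < x) (h2 : x ≤ 3) : Mm x ≤ 21 / 16 := by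
  have := use0 rfl C2X5_454.mm h1 h2 (by norm_num; linarith) (by norm_num; linarith)
  simp only [Ex.evR_sub, Ex.evR_cst, Ex.evR_var] at this
  norm_num at this
  exact this.le

theorem Bp_le {x : ℝ} (h1 : -5 < x) (h2 : x ≤ 3) : cv 36 P1 PS1 x 46 ≤ 5 / 4 := by
  have := use0 rfl C2X5_454.bp h1 h2 (by norm_num; linarith) (by norm_num; linarith)
  simp only [Ex.evR_sub, Ex.evR_cst, Ex.evR_var] at this
  norm_num at this
  exact this.le

theorem Bm_le {x : ℝ} (h1 : -5 < x) (h2 : x ≤ 3) : cv 36 P1 PS1 x 49 ≤ 5 / 4 := by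
  have := use0 rfl C2X5_454.bm h1 h2 (by norm_num; linarith) (by norm_num; linarith)
  simp only [Ex.evR_sub, Ex.evR_cst, Ex.evR_var] at this
  norm_num at this
  exact this.le

theorem BX_p {x δ r : ℝ} (h1 : -5 < x) (h2 : x ≤ 3) (hr : 0 ≤ r) :
    BX δ x r ≤ cv 36 P1 PS1 x 46 := by
  unfold BX
  split_ifs with a0 a1 a2 a3 a4
  · have := use0 rfl C2X5_454.b0p h1 h2 (by norm_num; linarith) (by norm_num; linarith)
    simp only [Ex.evR_sub, Ex.evR_cst, Ex.evR_var, cv19] at this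
    norm_num at this
    linarith
  · push Not at a0
    have := use0 rfl C2X5_454.b1p h1 h2 (by norm_num; linarith) (by norm_num; linarith)
    simp only [Ex.evR_sub, Ex.evR_cst, Ex.evR_var] at this
    norm_num at this
    linarith
  · have := use0 rfl C2X5_454.b2p h1 h2 (by norm_num; linarith) (by norm_num; linarith)
    simp only [Ex.evR_sub, Ex.evR_cst, Ex.evR_var] at this
    norm_num at this
    linarith
  · have := use0 rfl C2X5_454.b3p h1 h2 (by norm_num; linarith) (by norm_num; linarith)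
    simp only [Ex.evR_sub, Ex.evR_cst, Ex.evR_var] at this
    norm_num at this
    linarith
  · have := use0 rfl C2X5_454.b4p h1 h2 (by norm_num; linarith) (by norm_num; linarith)
    simp only [Ex.evR_sub, Ex.evR_cst, Ex.evR_var] at this
    norm_num at this
    linarith
  · have := use0 rfl C2X5_454.b5p h1 h2 (by norm_num; linarith) (by norm_num; linarith)
    simp only [Ex.evR_sub, Ex.evR_cst, Ex.evR_var] at this
    norm_num at this
    linarith

theorem BX_m {x δ r : ℝ} (h1 : -5 < x) (h2 : x ≤ 3) (hr : r < 0) (hδ : 0 < δ)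
    (hδ2 : δ ≤ 435931 / 2 ^ 20) : BX δ x r ≤ cv 36 P1 PS1 x 49 := by
  unfold BX
  split_ifs with a0 a0' a1 a2 a3 a4
  · exact absurd hr (not_lt.2 a0')
  · have k1 := use0 rfl C2X5_454.b0m h1 h2 (by norm_num; linarith) (by norm_num; linarith)
    have k2 := use0 rfl C2X5_454.b0d h1 h2 (by norm_num; linarith) (by norm_num; linarith)
    simp only [Ex.evR_sub, Ex.evR_add, Ex.evR_mul, Ex.evR_neg, Ex.evR_cst, Ex.evR_var, cv19,
      cv20] at k1 k2
    have e1 : 3 / 5 * δ * (-C1D_445.b1 x) ≤ 1 / 4 * (-C1D_445.b1 x) := by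
      refine mul_le_mul_of_nonneg_right ?_ k2.le
      norm_num at hδ2
      linarith
    have e2 : δ ^ 2 ≤ (435931 / 2 ^ 20) ^ 2 := pow_le_pow_left₀ hδ.le hδ2 2
    norm_num at k1 e2
    linarith
  · push Not at a0
    have := use0 rfl C2X5_454.b1m h1 h2 (by norm_num; linarith) (by norm_num; linarith)
    simp only [Ex.evR_sub, Ex.evR_cst, Ex.evR_var] at this
    norm_num at this
    linarith
  · have := use0 rfl C2X5_454.b2m h1 h2 (by norm_num; linarith) (by norm_num; linarith)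
    simp only [Ex.evR_sub, Ex.evR_cst, Ex.evR_var] at this
    norm_num at this
    linarith
  · have := use0 rfl C2X5_454.b3m h1 h2 (by norm_num; linarith) (by norm_num; linarith)
    simp only [Ex.evR_sub, Ex.evR_cst, Ex.evR_var] at this
    norm_num at this
    linarith
  · have := use0 rfl C2X5_454.b4m h1 h2 (by norm_num; linarith) (by norm_num; linarith)
    simp only [Ex.evR_sub, Ex.evR_cst, Ex.evR_var] at this
    norm_num at this
    linarith
  · have := use0 rfl C2X5_454.b5m h1 h2 (by norm_num; linarith) (by norm_num; linarith)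
    simp only [Ex.evR_sub, Ex.evR_cst, Ex.evR_var] at this
    norm_num at this
    linarith

/-! ### the profiles -/

/-- everything known at `x` about one profile -/
structure Pro (c : ℝ) (W V I k : ℝ → ℝ) (x : ℝ) (er er' : ℕ → ℕ) (lo hi : ℤ) : Prop where
  rad : Rad c W V k x er
  prf : Prf c W V I k x er' lo hi

theorem mk_pro (h : SPair c W V I k c) {x : ℝ} (h1 : -5 < x) (h2 : x ≤ 3) {er er' : ℕ → ℕ}
    {lo hi t q b : ℤ} (hr : Rad c W V k x er) (hr' : Rad c W V k x er')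
    (hlo : (lo : ℝ) / 8 < x) (hhi : x ≤ (hi : ℝ) / 8) (hc : encl er lo hi t q b = true)
    (ht : (t : ℝ) / 2 ^ 20 ≤ (er' 34 : ℝ) / 2 ^ 36) (hq : (q : ℝ) / 2 ^ 20 ≤ (er' 37 : ℝ) / 2 ^ 36)
    (hb : (b : ℝ) / 2 ^ 20 ≤ (er' 40 : ℝ) / 2 ^ 36) : Pro c W V I k x er er' lo hi := by
  obtain ⟨k1, k2, k3⟩ := comps h h1 h2 hr hlo hhi hc
  exact ⟨hr, hlo, hhi, wv_err h h1 h2 _ _ _ hr'.a1 hr'.a2 hr'.a4 hr'.a5 hr'.a7 hr'.a43
    (k1.trans ht) (k2.trans hq) (k3.trans hb)⟩

theorem radL (h : SPair c W V I k c) {x : ℝ} (h1 : -5 < x) (h2 : x ≤ 3) {er : ℕ → ℕ}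
    (a1 : er 1 = 851968) (a2 : er 2 = 6422528) (a4 : er 4 = 336 * 65536)
    (a5 : er 5 = 1340 * 65536) (a7 : 352 * 65536 ≤ er 7) (a43 : er 43 = 65536) :
    Rad c W V k x er := by
  have he := Enc3_848.enc h
  refine ⟨a1.ge, a2.ge, ?_, ?_, a7, a43.ge⟩
  · refine (he.k6 x (by linarith) (by linarith)).trans (le_of_eq ?_)
    rw [a4]; norm_num
  · refine (he.kd6 x (by linarith) (by linarith)).trans (le_of_eq ?_)
    rw [a5]; norm_num

theorem radR (h : SPair c W V I k c) {x : ℝ} (h1 : -4 < x) (h2 : x ≤ 3) {er : ℕ → ℕ}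
    (a1 : er 1 = 851968) (a2 : er 2 = 6422528) (a4 : er 4 = 248 * 65536)
    (a5 : er 5 = 430 * 65536) (a7 : 352 * 65536 ≤ er 7) (a43 : er 43 = 65536) :
    Rad c W V k x er := by
  have he := Enc3_848.enc h
  refine ⟨a1.ge, a2.ge, ?_, ?_, a7, a43.ge⟩
  · refine (he.k4 x (by linarith) (by linarith)).trans (le_of_eq ?_)
    rw [a4]; norm_num
  · refine (he.kd4 x (by linarith) (by linarith)).trans (le_of_eq ?_)
    rw [a5]; norm_num

theorem proA (h : SPair c W V I k c) {x : ℝ} (h1 : -5 < x) (h2 : x ≤ -4) :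
    Pro c W V I k x erA errA (-40) (-32) :=
  mk_pro h h1 (by linarith) (radL h h1 (by linarith) rfl rfl rfl rfl (by decide) rfl)
    (radL h h1 (by linarith) rfl rfl rfl rfl (by decide) rfl) (by norm_num; linarith)
    (by norm_num; linarith) C2X1_454.enA (by norm_num [errA]) (by norm_num [errA])
    (by norm_num [errA])

theorem proB (h : SPair c W V I k c) {x : ℝ} (h1 : -4 < x) (h2 : x ≤ -2) :
    Pro c W V I k x erB errB (-32) (-16) :=
  mk_pro h (by linarith) (by linarith) (radR h h1 (by linarith) rfl rfl rfl rfl (by decide) rfl)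
    (radR h h1 (by linarith) rfl rfl rfl rfl (by decide) rfl) (by norm_num; linarith)
    (by norm_num; linarith) C2X1_454.enB (by norm_num [errB]) (by norm_num [errB])
    (by norm_num [errB])

theorem proC (h : SPair c W V I k c) {x : ℝ} (h1 : -2 < x) (h2 : x ≤ -(1 / 4)) :
    Pro c W V I k x erC errC (-16) (-2) :=
  mk_pro h (by linarith) (by linarith)
    (radR h (by linarith) (by linarith) rfl rfl rfl rfl (by decide) rfl)
    (radR h (by linarith) (by linarith) rfl rfl rfl rfl (by decide) rfl) (by norm_num; linarith)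
    (by norm_num; linarith) C2X2_454.enC (by norm_num [errC]) (by norm_num [errC])
    (by norm_num [errC])

theorem proD (h : SPair c W V I k c) {x : ℝ} (h1 : -(1 / 4) < x) (h2 : x ≤ 3 / 4) :
    Pro c W V I k x erD errD (-2) 6 :=
  mk_pro h (by linarith) (by linarith)
    (radR h (by linarith) (by linarith) rfl rfl rfl rfl (by decide) rfl)
    (radR h (by linarith) (by linarith) rfl rfl rfl rfl (by decide) rfl) (by norm_num; linarith)
    (by norm_num; linarith) C2X3_454.enD (by norm_num [errD]) (by norm_num [errD])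
    (by norm_num [errD])

theorem proE (h : SPair c W V I k c) {x : ℝ} (h1 : 3 / 4 < x) (h2 : x ≤ 1) :
    Pro c W V I k x erE errE 6 8 :=
  mk_pro h (by linarith) (by linarith)
    (radR h (by linarith) (by linarith) rfl rfl rfl rfl (by decide) rfl)
    (radR h (by linarith) (by linarith) rfl rfl rfl rfl (by decide) rfl) (by norm_num; linarith)
    (by norm_num; linarith) C2X3_454.enE (by norm_num [errE]) (by norm_num [errE])
    (by norm_num [errE])

theorem proF (h : SPair c W V I k c) {x : ℝ} (h1 : 1 < x) (h2 : x ≤ 3) :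
    Pro c W V I k x erF errF 8 24 :=
  mk_pro h (by linarith) (by linarith)
    (radR h (by linarith) (by linarith) rfl rfl rfl rfl (by decide) rfl)
    (radR h (by linarith) (by linarith) rfl rfl rfl rfl (by decide) rfl) (by norm_num; linarith)
    (by norm_num; linarith) C2X4_454.enF (by norm_num [errF]) (by norm_num [errF])
    (by norm_num [errF])

/-- a base check applied at `x` -/
theorem useP (h : SPair c W V I k c) {x : ℝ} (h1 : -5 < x) (h2 : x ≤ 3) {er er' : ℕ → ℕ}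
    {lo hi : ℤ} (hp : Pro c W V I k x er er' lo hi) {n dg pr : ℕ} {e : Ex} (he : e.bnd 49 = true)
    (hc : checkO 36 n dg pr er lo hi e P1 PS1 = true) :
    0 < e.evR (wv c W V I k x (cv 36 P1 PS1 x 34) (cv 36 P1 PS1 x 37) (cv 36 P1 PS1 x 40)) :=
  use n dg pr he hc h1 h2 hp.prf.hlo hp.prf.hhi rfl
    (wv_err h h1 h2 _ _ _ hp.rad.a1 hp.rad.a2 hp.rad.a4 hp.rad.a5 hp.rad.a7 hp.rad.a43
      (by simp; positivity) (by simp; positivity) (by simp; positivity))

theorem sig_of (h : SPair c W V I k c) {x : ℝ} (h1 : -5 < x) (h2 : x ≤ 3) {er er' : ℕ → ℕ}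
    {lo hi : ℤ} (hp : Pro c W V I k x er er' lo hi)
    (hc : checkO 36 2 6 30 er lo hi (.var 5 + .var 43 * .var 2) P1 PS1 = true) :
    0 ≤ K1 c W V k x + c * V x := by
  have := useP h h1 h2 hp (by decide) hc
  simp only [Ex.evR_add, Ex.evR_mul, Ex.evR_var] at this
  exact this.le

theorem kpos_of (h : SPair c W V I k c) {x : ℝ} (h1 : -5 < x) (h2 : x ≤ 3) {er er' : ℕ → ℕ}
    {lo hi : ℤ} (hp : Pro c W V I k x er er' lo hi)
    (hc : checkO 36 2 6 30 er lo hi (.var 5 - .cst 10486 20) P1 PS1 = true) :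
    1 / 100 ≤ K1 c W V k x := by
  have := useP h h1 h2 hp (by decide) hc
  simp only [Ex.evR_sub, Ex.evR_var, Ex.evR_cst] at this
  have e : (1 : ℝ) / 100 ≤ ((10486 : ℤ) : ℝ) / 2 ^ 20 := by norm_num
  have e2 : wv c W V I k x (cv 36 P1 PS1 x 34) (cv 36 P1 PS1 x 37) (cv 36 P1 PS1 x 40) 5
    = K1 c W V k x := rfl
  rw [e2] at this
  linarith

theorem klow_of (h : SPair c W V I k c) {x : ℝ} (h1 : -5 < x) (h2 : x ≤ 3) {er er' : ℕ → ℕ}
    {lo hi : ℤ} (hp : Pro c W V I k x er er' lo hi)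
    (hc : checkO 36 2 6 30 er lo hi (.var 5 + .cst 70 10) P1 PS1 = true) :
    -(70 / 1024) ≤ K1 c W V k x := by
  have := useP h h1 h2 hp (by decide) hc
  simp only [Ex.evR_add, Ex.evR_var, Ex.evR_cst] at this
  have e2 : wv c W V I k x (cv 36 P1 PS1 x 34) (cv 36 P1 PS1 x 37) (cv 36 P1 PS1 x 40) 5
    = K1 c W V k x := rfl
  rw [e2] at this
  norm_num at this ⊢
  linarith

/-- `ε ≤ δ K` on the right -/
theorem epsP (h : SPair c W V I k c) {x δ r ε : ℝ} (h1 : -5 < x) (h2 : x ≤ 3) {er er' : ℕ → ℕ}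
    {lo hi : ℤ} (hp : Pro c W V I k x er er' lo hi) (hc : kP er lo hi = true)
    (hK : 0 < cv 36 P1 PS1 x 28) (hδ : 0 < δ) (hδc : δ ≤ c) (hε : 0 ≤ ε) (hr : 0 ≤ r)
    (hrM : r ≤ Mp x)
    (ht : ε * (2 * (I x / V x) * (1 - V x - δ * V x * Mp x)) ≤ 153 / 100 * δ * r ^ 2 * (1 - V x)) :
    ε ≤ δ * cv 36 P1 PS1 x 28 := by
  have hV := h.V_pos x
  have hI := h.I_pos x
  have hR : 0 < 1 - V x := by linarith [h.V_lt x]
  have hq : 0 < qx V I x := div_pos (mul_pos hV hR) hI
  have hM : 0 ≤ Mp x := hr.trans hrM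
  have hk := useP h h1 h2 hp (by decide) hc
  simp only [Ex.evR_sub, Ex.evR_mul, Ex.evR_var, Ex.evR_cst, C2Ex_454.eR, Enc1_848.evR_one,
    Enc1_848.evR_two] at hk
  have e28 : wv c W V I k x (cv 36 P1 PS1 x 34) (cv 36 P1 PS1 x 37) (cv 36 P1 PS1 x 40) 28
    = cv 36 P1 PS1 x 28 := rfl
  have e22 : wv c W V I k x (cv 36 P1 PS1 x 34) (cv 36 P1 PS1 x 37) (cv 36 P1 PS1 x 40) 22
    = Mp x := rfl
  have e2 : wv c W V I k x (cv 36 P1 PS1 x 34) (cv 36 P1 PS1 x 37) (cv 36 P1 PS1 x 40) 2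
    = V x := rfl
  have e7 : wv c W V I k x (cv 36 P1 PS1 x 34) (cv 36 P1 PS1 x 37) (cv 36 P1 PS1 x 40) 7
    = qx V I x := rfl
  have e43 : wv c W V I k x (cv 36 P1 PS1 x 34) (cv 36 P1 PS1 x 37) (cv 36 P1 PS1 x 40) 43
    = c := rfl
  rw [e28, e22, e2, e7, e43] at hk
  set K := cv 36 P1 PS1 x 28 with hKdef
  set M := Mp x with hMdef
  have hMq : 0 ≤ M * M * qx V I x := by positivity
  have hD : 0 < 1 - V x - c * (V x * M) := by
    by_contra hcon
    push Not at hcon
    have := mul_nonpos_of_nonneg_of_nonpos hK.le hcon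
    norm_num at hk
    nlinarith
  have hD2 : 1 - V x - c * (V x * M) ≤ 1 - V x - δ * V x * M := by
    have : 0 ≤ (c - δ) * (V x * M) := mul_nonneg (by linarith) (by positivity)
    nlinarith
  -- multiply by `q`
  have hqp : qx V I x * (I x / V x) = 1 - V x := by
    unfold qx; field_simp
  have s1 : ε * 2 * (1 - V x - c * (V x * M)) ≤ 153 / 100 * δ * M ^ 2 * qx V I x := by
    have t1 := mul_le_mul_of_nonneg_left ht hq.le
    have t2 : qx V I x * (ε * (2 * (I x / V x) * (1 - V x - δ * V x * M)))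
        = (1 - V x) * (ε * 2 * (1 - V x - δ * V x * M)) := by rw [← hqp]; ring
    have t3 : qx V I x * (153 / 100 * δ * r ^ 2 * (1 - V x))
        = (1 - V x) * (153 / 100 * δ * r ^ 2 * qx V I x) := by ring
    rw [t2, t3] at t1
    have t4 := le_of_mul_le_mul_left t1 hR
    have t5 : ε * 2 * (1 - V x - c * (V x * M)) ≤ ε * 2 * (1 - V x - δ * V x * M) :=
      mul_le_mul_of_nonneg_left hD2 (by linarith)
    have t6 : r ^ 2 ≤ M ^ 2 := pow_le_pow_left₀ hr hrM 2
    have t7 : 153 / 100 * δ * r ^ 2 * qx V I x ≤ 153 / 100 * δ * M ^ 2 * qx V I x := by gcongr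
    linarith
  have s2 : 153 / 100 * δ * M ^ 2 * qx V I x ≤ δ * K * 2 * (1 - V x - c * (V x * M)) := by
    have t1 : 153 / 100 * (M * M * qx V I x) ≤ 2 * (K * (1 - V x - c * (V x * M))) := by
      norm_num at hk
      nlinarith
    have t2 := mul_le_mul_of_nonneg_left t1 hδ.le
    nlinarith [t2]
  have s3 := s1.trans s2
  have s4 : (ε - δ * K) * (2 * (1 - V x - c * (V x * M))) ≤ 0 := by nlinarith [s3]
  by_contra hcon
  push Not at hcon
  have := mul_pos (sub_pos.2 hcon) (by linarith : 0 < 2 * (1 - V x - c * (V x * M)))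
  linarith

/-- `ε ≤ δ K` on the left -/
theorem epsM (h : SPair c W V I k c) {x δ r ε : ℝ} (h1 : -5 < x) (h2 : x ≤ 3) {er er' : ℕ → ℕ}
    {lo hi : ℤ} (hp : Pro c W V I k x er er' lo hi) (hc : kM er lo hi = true)
    (hδ : 0 < δ) (hδc : δ ≤ c) (hε : 0 ≤ ε) (hr : r ≤ 0) (hrM : -Mm x ≤ r)
    (ht : ε * (2 * (I x / V x) * (1 - δ * Mm x)) ≤ 153 / 100 * δ * r ^ 2) :
    ε ≤ δ * cv 36 P1 PS1 x 31 := by
  have hV := h.V_pos x
  have hI := h.I_pos x
  have hR : 0 < 1 - V x := by linarith [h.V_lt x]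
  have hq : 0 < qx V I x := div_pos (mul_pos hV hR) hI
  have hM : 0 ≤ Mm x := by linarith
  have hM2 := Mm_le h1 h2
  have hk := useP h h1 h2 hp (by decide) hc
  simp only [Ex.evR_sub, Ex.evR_mul, Ex.evR_var, Ex.evR_cst, C2Ex_454.eR, Enc1_848.evR_one,
    Enc1_848.evR_two] at hk
  have e31 : wv c W V I k x (cv 36 P1 PS1 x 34) (cv 36 P1 PS1 x 37) (cv 36 P1 PS1 x 40) 31
    = cv 36 P1 PS1 x 31 := rfl
  have e25 : wv c W V I k x (cv 36 P1 PS1 x 34) (cv 36 P1 PS1 x 37) (cv 36 P1 PS1 x 40) 25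
    = Mm x := rfl
  have e2 : wv c W V I k x (cv 36 P1 PS1 x 34) (cv 36 P1 PS1 x 37) (cv 36 P1 PS1 x 40) 2
    = V x := rfl
  have e7 : wv c W V I k x (cv 36 P1 PS1 x 34) (cv 36 P1 PS1 x 37) (cv 36 P1 PS1 x 40) 7
    = qx V I x := rfl
  have e43 : wv c W V I k x (cv 36 P1 PS1 x 34) (cv 36 P1 PS1 x 37) (cv 36 P1 PS1 x 40) 43
    = c := rfl
  rw [e31, e25, e2, e7, e43] at hk
  set K := cv 36 P1 PS1 x 31 with hKdef
  set M := Mm x with hMdef
  have hc2 : c ≤ 435931 / 2 ^ 20 := (Enc3_848.enc h).c_hi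
  have hD : 0 < 1 - c * M := by
    norm_num at hc2
    nlinarith [h.c_pos]
  have hD2 : 1 - c * M ≤ 1 - δ * M := by nlinarith
  have hqp : qx V I x * (I x / V x) = 1 - V x := by
    unfold qx; field_simp
  have s1 : ε * 2 * ((1 - V x) * (1 - c * M)) ≤ 153 / 100 * δ * M ^ 2 * qx V I x := by
    have t1 := mul_le_mul_of_nonneg_left ht hq.le
    have t2 : qx V I x * (ε * (2 * (I x / V x) * (1 - δ * M)))
        = ε * 2 * ((1 - V x) * (1 - δ * M)) := by rw [← hqp]; ring
    have t5 : ε * 2 * ((1 - V x) * (1 - c * M)) ≤ ε * 2 * ((1 - V x) * (1 - δ * M)) :=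
      mul_le_mul_of_nonneg_left (mul_le_mul_of_nonneg_left hD2 hR.le) (by linarith)
    have t6 : r ^ 2 ≤ M ^ 2 := sq_le_sq' hrM (hr.trans hM)
    have t7 : 153 / 100 * δ * r ^ 2 * qx V I x ≤ 153 / 100 * δ * M ^ 2 * qx V I x := by gcongr
    rw [t2] at t1
    have t8 : qx V I x * (153 / 100 * δ * r ^ 2) = 153 / 100 * δ * r ^ 2 * qx V I x := by ring
    rw [t8] at t1
    exact t5.trans (t1.trans t7)
  have s2 : 153 / 100 * δ * M ^ 2 * qx V I x ≤ δ * K * 2 * ((1 - V x) * (1 - c * M)) := by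
    have hMq : 0 ≤ M * M * qx V I x := by positivity
    have t1 : 153 / 100 * (M * M * qx V I x) ≤ 2 * (K * ((1 - V x) * (1 - c * M))) := by
      norm_num at hk
      nlinarith
    have t2 := mul_le_mul_of_nonneg_left t1 hδ.le
    have t3 : δ * (153 / 100 * (M * M * qx V I x)) = 153 / 100 * δ * M ^ 2 * qx V I x := by ring
    have t4 : δ * (2 * (K * ((1 - V x) * (1 - c * M)))) = δ * K * 2 * ((1 - V x) * (1 - c * M)) := by
      ring
    rw [t3, t4] at t2
    exact t2
  have s3 := s1.trans s2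
  have hDR : 0 < (1 - V x) * (1 - c * M) := mul_pos hR hD
  have s4 : (ε - δ * K) * (2 * ((1 - V x) * (1 - c * M))) ≤ 0 := by
    have e : (ε - δ * K) * (2 * ((1 - V x) * (1 - c * M)))
      = ε * 2 * ((1 - V x) * (1 - c * M)) - δ * K * 2 * ((1 - V x) * (1 - c * M)) := by ring
    rw [e]
    linarith
  by_contra hcon
  push Not at hcon
  have := mul_pos (sub_pos.2 hcon) (by linarith : 0 < 2 * ((1 - V x) * (1 - c * M)))
  linarith

end

end Crest.Agent.R146.C2Prof_454
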