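import Crest.Agent.R146.C2S_889

/-!
# Row 146, helper889: one-point inequalities (U), (L) of the windows on `(-6, 3]`
-/

set_option autoImplicit false
set_option linter.style.longLine false

namespace Crest.Agent.R146.C2T_889

open Set Filter Topology
open PP865 EncR_848 Enc3_848
open Crest.Agent.R146.SPair_307 Crest.Agent.R146.RefX_355 Crest.Agent.R146.QEnc_865
open Crest.Agent.R146.C2D_889 Crest.Agent.R146.PP4_454 Crest.Agent.R146.C2S_889
open Crest.Agent.R146.C1D_445 (b b1 b2)

def cE : Ex := .var 28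
def dE : Ex := .var 29
def qE : Ex := .var 7
def RE : Ex := .cst 1 0 - .var 2
def TE : Ex := .cst 2 0 * cE * qE - (.cst 1 0 - cE) * .var 0 - .cst 2 0 * cE * .var 1
def mpE : Ex := .var 25
def mp1E : Ex := .var 26
def mmE : Ex := .var 22
def mm1E : Ex := .var 23
def UE (E : Ex) : Ex := qE * (mp1E * (.cst 1 0 + dE * mpE) - TE * mpE * (.cst 1 0 + dE * E))
  + RE * (mpE * (.cst 2 0 + dE * mpE) - E)
def e0 : Ex := .var 19 + .cst 2098 20
def eL : Ex := .var 19 - .cst 1 2 * .var 20 + .cst 2706 20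
def eM : Ex := .var 19 - .cst 1 2 * .var 20 + .cst 2098 20 + .cst 15 10
def LA (E : Ex) : Ex := qE * mm1E + RE * (mmE - E)
def LB (E K : Ex) : Ex := qE * RE * (mm1E * (.cst 1 0 - dE * mmE) - TE * mmE * (.cst 1 0 - dE * E))
  + RE * RE * (mmE * (.cst 2 0 - dE * mmE) - E) - qE * qE * K * dE * mmE * mmE * .cst 196 8
def KB (E K : Ex) : Ex := K * (.cst 1 0 - dE * mmE) - (.cst 1 0 - dE * E)
def LC (E S : Ex) : Ex := qE * (mm1E * (.cst 1 0 - dE * mmE) + S * mmE * (.cst 1 0 - dE * E))
  + RE * (mmE * (.cst 2 0 - dE * mmE) - E)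

theorem u1 : checkBO 4 8 40 (err 570) (-48) (-2) prm (UE e0) = true := by decide +kernel
theorem u2 : checkBO 4 8 40 (err 570) (-2) 0 prm (UE (.cst 332 10)) = true := by decide +kernel
theorem u3 : checkBO 4 8 40 (err 570) 0 2 prm (UE (.cst 309 10)) = true := by decide +kernel
theorem u4 : checkBO 4 8 40 (err 570) 2 4 prm (UE (.cst 330 10)) = true := by decide +kernel
theorem u5 : checkBO 4 8 40 (err 570) 4 6 prm (UE (.cst 360 10)) = true := by decide +kernel
theorem u6 : checkBO 4 8 40 (err 570) 6 24 prm (UE (.cst 484 10)) = true := by decide +kernel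
theorem l1 : checkBO 4 8 40 (err 570) (-48) (-12) prm (LA eL) = true := by decide +kernel
theorem l2 : checkBO 4 8 40 (err 570) (-12) (-2) prm (LB eM (.cst 1127 10)) = true := by decide +kernel
theorem l3 : checkBO 4 8 40 (err 570) (-2) 0 prm (LB (.cst 332 10) (.cst 1127 10)) = true := by
  decide +kernel
theorem l4 : checkBO 4 8 40 (err 570) 0 2 prm (LB (.cst 309 10) (.cst 1127 10)) = true := by
  decide +kernel
theorem l5 : checkBO 4 8 40 (err 570) 2 4 prm (LB (.cst 330 10) (.cst 1127 10)) = true := by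
  decide +kernel
theorem l6 : checkBO 4 8 40 (err 570) 4 6 prm (LB (.cst 360 10) (.cst 1127 10)) = true := by
  decide +kernel
theorem l7 : checkBO 4 8 40 (err 570) 6 16 prm (LB (.cst 484 10) (.cst 1 0)) = true := by
  decide +kernel
theorem l8 : checkBO 4 8 40 (err 570) 16 20 prm (LC (.cst 484 10) (.cst 458 8)) = true := by
  decide +kernel
theorem l9 : checkBO 4 8 40 (err 570) 20 22 prm (LC (.cst 484 10) (.cst 555 8)) = true := by
  decide +kernel
theorem l10 : checkBO 4 8 40 (err 570) 22 24 prm (LC (.cst 484 10) (.cst 652 8)) = true := by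
  decide +kernel
theorem k1 : checkBO 4 8 40 (err 570) (-12) (-2) prm (KB eM (.cst 1127 10)) = true := by decide +kernel
theorem k2 : checkBO 4 8 40 (err 570) (-2) 0 prm (KB (.cst 332 10) (.cst 1127 10)) = true := by
  decide +kernel
theorem k3 : checkBO 4 8 40 (err 570) 0 2 prm (KB (.cst 309 10) (.cst 1127 10)) = true := by
  decide +kernel
theorem k4 : checkBO 4 8 40 (err 570) 2 4 prm (KB (.cst 330 10) (.cst 1127 10)) = true := by
  decide +kernel
theorem k5 : checkBO 4 8 40 (err 570) 4 6 prm (KB (.cst 360 10) (.cst 1127 10)) = true := by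
  decide +kernel
theorem k6 : checkBO 4 8 40 (err 570) 6 24 prm (.cst 484 10 - mmE) = true := by decide +kernel
/-- signs and sizes of the windows -/
theorem s1 : checkBO 4 8 40 (err 570) (-64) 24 prm mmE = true := by decide +kernel
theorem s2 : checkBO 4 8 40 (err 570) (-64) 24 prm mpE = true := by decide +kernel
theorem s3 : checkBO 4 8 40 (err 570) (-64) 24 prm (.cst 1239 10 - mmE) = true := by decide +kernel
theorem s4 : checkBO 4 8 40 (err 570) (-64) 24 prm (.cst 1239 10 - mpE) = true := by decide +kernel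


section
variable {c : ℝ} {W V I k : ℝ → ℝ}

/-- uniform bound of the enclosure of `q` on `[-6,6]` -/
theorem hq (h : SPair c W V I k c) {x : ℝ} (h1 : -6 ≤ x) (h2 : x ≤ 6) :
    |qv V I x - Enc1_848.F 2 x| ≤ ((570 : ℕ) : ℝ) / 2 ^ 20 := by
  have E := enc h
  have := encQ h E.c_lo E.c_hi x ⟨h1, h2⟩
  push_cast
  exact this

variable {δ x : ℝ}

theorem UE_eq (E : Ex) : (UE E).evR (env c δ W V I x)
    = qv V I x * (mp1 x * (1 + δ * mp x)
      - k1x c W V I x * mp x * (1 + δ * E.evR (env c δ W V I x)))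
      + (1 - V x) * (mp x * (2 + δ * mp x) - E.evR (env c δ W V I x)) := by
  simp only [UE, qE, mp1E, dE, mpE, TE, RE, cE, Ex.evR_sub, Ex.evR_add, Ex.evR_mul, Ex.evR_cst,
    Ex.evR_var, v0, v1, v2, v7, v25, v26, v28, v29]
  have e : k1x c W V I x = 2 * c * qv V I x - (1 - c) * x - 2 * c * W x := by
    unfold k1x Ad; rw [show qx V I x = qv V I x from rfl]; ring
  rw [e]
  push_cast
  ring

theorem e0_eq : e0.evR (env c δ W V I x) = b x + 2098 / 2 ^ 20 := by
  simp only [e0, Ex.evR_add, Ex.evR_cst, Ex.evR_var, v19]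
  push_cast
  ring
theorem eL_eq : eL.evR (env c δ W V I x) = b x - b1 x / 4 + 2706 / 2 ^ 20 := by
  simp only [eL, Ex.evR_add, Ex.evR_sub, Ex.evR_mul, Ex.evR_cst, Ex.evR_var, v19, v20]
  push_cast
  ring
theorem eM_eq : eM.evR (env c δ W V I x) = b x - b1 x / 4 + 2098 / 2 ^ 20 + 15 / 1024 := by
  simp only [eM, Ex.evR_add, Ex.evR_sub, Ex.evR_mul, Ex.evR_cst, Ex.evR_var, v19, v20]
  push_cast
  ring

theorem ck (n : ℤ) (m : ℕ) : (Ex.cst n m).evR (env c δ W V I x) = (n : ℝ) / 2 ^ m := by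
  simp only [Ex.evR_cst]

/-- (U) on `(-6,3]` -/
theorem U_mid (h : SPair c W V I k c) (hδ : 0 ≤ δ) (hδc : δ ≤ c) (h1 : -6 < x) (h2 : x ≤ 3) :
    0 < qv V I x * (mp1 x * (1 + δ * mp x) - k1x c W V I x * mp x * (1 + δ * Ep x))
      + (1 - V x) * (mp x * (2 + δ * mp x) - Ep x) := by
  have Q := hq h h1.le (by linarith)
  have h8 : -8 < x := by linarith
  have h8' : x ≤ 8 := by linarith
  rcases le_or_gt x (-1 / 4) with g1 | g1
  · have := chkW h hδ hδc u1 Q h8 h8' (by push_cast; linarith) (by push_cast; linarith)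
    rw [UE_eq, e0_eq] at this
    have e : Ep x = b x + 2098 / 2 ^ 20 := by unfold Ep; rw [if_pos g1]
    rw [e]; exact this
  have e : Ep x = Ek x := by unfold Ep; rw [if_neg (not_le.2 g1)]
  rw [e]
  unfold Ek
  rcases le_or_gt x 0 with g2 | g2
  · have := chkW h hδ hδc u2 Q h8 h8' (by push_cast; linarith) (by push_cast; linarith)
    rw [UE_eq, ck] at this
    rw [if_pos g2]
    norm_num at this ⊢
    exact this
  rw [if_neg (not_le.2 g2)]
  rcases le_or_gt x (1 / 4) with g3 | g3
  · have := chkW h hδ hδc u3 Q h8 h8' (by push_cast; linarith) (by push_cast; linarith)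
    rw [UE_eq, ck] at this
    rw [if_pos g3]
    norm_num at this ⊢
    exact this
  rw [if_neg (not_le.2 g3)]
  rcases le_or_gt x (1 / 2) with g4 | g4
  · have := chkW h hδ hδc u4 Q h8 h8' (by push_cast; linarith) (by push_cast; linarith)
    rw [UE_eq, ck] at this
    rw [if_pos g4]
    norm_num at this ⊢
    exact this
  rw [if_neg (not_le.2 g4)]
  rcases le_or_gt x (3 / 4) with g5 | g5
  · have := chkW h hδ hδc u5 Q h8 h8' (by push_cast; linarith) (by push_cast; linarith)
    rw [UE_eq, ck] at this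
    rw [if_pos g5]
    norm_num at this ⊢
    exact this
  rw [if_neg (not_le.2 g5)]
  have := chkW h hδ hδc u6 Q h8 h8' (by push_cast; linarith) (by push_cast; linarith)
  rw [UE_eq, ck] at this
  norm_num at this ⊢
  exact this

theorem LA_eq (E : Ex) : (LA E).evR (env c δ W V I x)
    = qv V I x * mm1 x + (1 - V x) * (mm x - E.evR (env c δ W V I x)) := by
  simp only [LA, qE, mm1E, mmE, RE, Ex.evR_sub, Ex.evR_add, Ex.evR_mul, Ex.evR_cst,
    Ex.evR_var, v2, v7, v22, v23]
  push_cast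
  ring

/-- (L), chord, on `(-6,-3/2]` -/
theorem L_a (h : SPair c W V I k c) (h1 : -6 < x) (h2 : x ≤ -3 / 2) :
    0 < qv V I x * mm1 x + (1 - V x) * (mm x - Em x) := by
  have Q := hq h h1.le (by linarith)
  have h8 : -8 < x := by linarith
  have h8' : x ≤ 8 := by linarith
  have := chkW h (le_refl 0) h.c_pos.le l1 Q h8 h8' (by push_cast; linarith) (by push_cast; linarith)
  rw [LA_eq, eL_eq] at this
  have e : Em x = b x - b1 x / 4 + 2706 / 2 ^ 20 := by unfold Em; rw [if_pos h2]
  rw [e]; exact this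

/-- the factor of the second order term -/
noncomputable def Kx (x : ℝ) : ℝ := if x ≤ 3 / 4 then 1127 / 1024 else 1

theorem LB_eq (E K : Ex) : (LB E K).evR (env c δ W V I x)
    = qv V I x * (1 - V x) * (mm1 x * (1 - δ * mm x)
        - k1x c W V I x * mm x * (1 - δ * E.evR (env c δ W V I x)))
      + (1 - V x) ^ 2 * (mm x * (2 - δ * mm x) - E.evR (env c δ W V I x))
      - qv V I x ^ 2 * K.evR (env c δ W V I x) * δ * mm x ^ 2 * (196 / 256) := by
  simp only [LB, qE, mm1E, dE, mmE, TE, RE, cE, Ex.evR_sub, Ex.evR_add, Ex.evR_mul, Ex.evR_cst,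
    Ex.evR_var, v0, v1, v2, v7, v22, v23, v28, v29]
  have e : k1x c W V I x = 2 * c * qv V I x - (1 - c) * x - 2 * c * W x := by
    unfold k1x Ad; rw [show qx V I x = qv V I x from rfl]; ring
  rw [e]
  push_cast
  ring

theorem KB_eq (E K : Ex) : (KB E K).evR (env c δ W V I x)
    = K.evR (env c δ W V I x) * (1 - δ * mm x) - (1 - δ * E.evR (env c δ W V I x)) := by
  simp only [KB, dE, mmE, Ex.evR_sub, Ex.evR_mul, Ex.evR_cst, Ex.evR_var, v22, v29]
  push_cast
  ring

theorem LC_eq (E S : Ex) : (LC E S).evR (env c δ W V I x)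
    = qv V I x * (mm1 x * (1 - δ * mm x)
        + S.evR (env c δ W V I x) * mm x * (1 - δ * E.evR (env c δ W V I x)))
      + (1 - V x) * (mm x * (2 - δ * mm x) - E.evR (env c δ W V I x)) := by
  simp only [LC, qE, mm1E, dE, mmE, RE, Ex.evR_sub, Ex.evR_add, Ex.evR_mul, Ex.evR_cst,
    Ex.evR_var, v2, v7, v22, v23, v29]
  push_cast
  ring

/-- (L), Taylor, on `(-3/2, 2]` -/
theorem L_b (h : SPair c W V I k c) (hδ : 0 ≤ δ) (hδc : δ ≤ c) (h1 : -3 / 2 < x) (h2 : x ≤ 2) :
    0 < qv V I x * (1 - V x) * (mm1 x * (1 - δ * mm x)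
        - k1x c W V I x * mm x * (1 - δ * Em x))
      + (1 - V x) ^ 2 * (mm x * (2 - δ * mm x) - Em x)
      - qv V I x ^ 2 * Kx x * δ * mm x ^ 2 * (196 / 256) ∧
    1 - δ * Em x ≤ Kx x * (1 - δ * mm x) := by
  have Q := hq h (by linarith) (by linarith)
  have h8 : -8 < x := by linarith
  have h8' : x ≤ 8 := by linarith
  have e : Em x = if x ≤ -1 / 4 then b x - b1 x / 4 + 2098 / 2 ^ 20 + 15 / 1024 else Ek x := by
    unfold Em; rw [if_neg (not_le.2 h1)]
  rw [e]
  rcases le_or_gt x (-1 / 4) with g1 | g1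
  · have w1 := chkW h hδ hδc l2 Q h8 h8' (by push_cast; linarith) (by push_cast; linarith)
    have w2 := chkW h hδ hδc k1 Q h8 h8' (by push_cast; linarith) (by push_cast; linarith)
    rw [LB_eq, eM_eq, ck] at w1
    rw [KB_eq, eM_eq, ck] at w2
    rw [if_pos g1]
    unfold Kx
    rw [if_pos (by linarith)]
    norm_num at w1 w2 ⊢
    exact ⟨w1, by linarith⟩
  rw [if_neg (not_le.2 g1)]
  unfold Ek Kx
  rcases le_or_gt x 0 with g2 | g2
  · have w1 := chkW h hδ hδc l3 Q h8 h8' (by push_cast; linarith) (by push_cast; linarith)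
    have w2 := chkW h hδ hδc k2 Q h8 h8' (by push_cast; linarith) (by push_cast; linarith)
    rw [LB_eq, ck, ck] at w1
    rw [KB_eq, ck, ck] at w2
    rw [if_pos g2, if_pos (by linarith)]
    norm_num at w1 w2 ⊢
    exact ⟨w1, by linarith⟩
  rw [if_neg (not_le.2 g2)]
  rcases le_or_gt x (1 / 4) with g3 | g3
  · have w1 := chkW h hδ hδc l4 Q h8 h8' (by push_cast; linarith) (by push_cast; linarith)
    have w2 := chkW h hδ hδc k3 Q h8 h8' (by push_cast; linarith) (by push_cast; linarith)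
    rw [LB_eq, ck, ck] at w1
    rw [KB_eq, ck, ck] at w2
    rw [if_pos g3, if_pos (by linarith)]
    norm_num at w1 w2 ⊢
    exact ⟨w1, by linarith⟩
  rw [if_neg (not_le.2 g3)]
  rcases le_or_gt x (1 / 2) with g4 | g4
  · have w1 := chkW h hδ hδc l5 Q h8 h8' (by push_cast; linarith) (by push_cast; linarith)
    have w2 := chkW h hδ hδc k4 Q h8 h8' (by push_cast; linarith) (by push_cast; linarith)
    rw [LB_eq, ck, ck] at w1
    rw [KB_eq, ck, ck] at w2
    rw [if_pos g4, if_pos (by linarith)]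
    norm_num at w1 w2 ⊢
    exact ⟨w1, by linarith⟩
  rw [if_neg (not_le.2 g4)]
  rcases le_or_gt x (3 / 4) with g5 | g5
  · have w1 := chkW h hδ hδc l6 Q h8 h8' (by push_cast; linarith) (by push_cast; linarith)
    have w2 := chkW h hδ hδc k5 Q h8 h8' (by push_cast; linarith) (by push_cast; linarith)
    rw [LB_eq, ck, ck] at w1
    rw [KB_eq, ck, ck] at w2
    rw [if_pos g5, if_pos g5]
    norm_num at w1 w2 ⊢
    exact ⟨w1, by linarith⟩
  rw [if_neg (not_le.2 g5), if_neg (not_le.2 g5)]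
  have w1 := chkW h hδ hδc l7 Q h8 h8' (by push_cast; linarith) (by push_cast; linarith)
  have w2 := chkW h hδ hδc k6 Q h8 h8' (by push_cast; linarith) (by push_cast; linarith)
  rw [LB_eq, ck, ck] at w1
  simp only [mmE, Ex.evR_sub, Ex.evR_cst, Ex.evR_var, v22] at w2
  norm_num at w1 w2 ⊢
  refine ⟨w1, ?_⟩
  nlinarith

/-- (L), tangent slope, on `(2, 3]` -/
theorem L_c (h : SPair c W V I k c) (hδ : 0 ≤ δ) (hδc : δ ≤ c) (h1 : 2 < x) (h2 : x ≤ 3) :
    0 < qv V I x * (mm1 x * (1 - δ * mm x) + sg x * mm x * (1 - δ * Em x))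
      + (1 - V x) * (mm x * (2 - δ * mm x) - Em x) := by
  have Q := hq h (by linarith) (by linarith)
  have h8 : -8 < x := by linarith
  have h8' : x ≤ 8 := by linarith
  have e : Em x = 484 / 1024 := by
    unfold Em Ek
    rw [if_neg (by linarith), if_neg (by linarith), if_neg (by linarith), if_neg (by linarith),
      if_neg (by linarith), if_neg (by linarith)]
  rw [e]
  unfold sg
  rcases le_or_gt x (5 / 2) with g1 | g1
  · have w1 := chkW h hδ hδc l8 Q h8 h8' (by push_cast; linarith) (by push_cast; linarith)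
    rw [LC_eq, ck, ck] at w1
    rw [if_pos g1]
    norm_num at w1 ⊢
    exact w1
  rw [if_neg (not_le.2 g1)]
  rcases le_or_gt x (11 / 4) with g2 | g2
  · have w1 := chkW h hδ hδc l9 Q h8 h8' (by push_cast; linarith) (by push_cast; linarith)
    rw [LC_eq, ck, ck] at w1
    rw [if_pos g2]
    norm_num at w1 ⊢
    exact w1
  rw [if_neg (not_le.2 g2)]
  have w1 := chkW h hδ hδc l10 Q h8 h8' (by push_cast; linarith) (by push_cast; linarith)
  rw [LC_eq, ck, ck] at w1
  norm_num at w1 ⊢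
  exact w1

end

/-! ### signs and sizes -/

theorem lo_cv {e : Ex} (he : checkBO 4 8 40 (err 570) (-64) 24 prm e = true) (hb : e.bnd 27 = true)
    (hv : verts prm e = [e, e, e, e]) {x : ℝ} (h1 : -8 < x) (h2 : x ≤ 3) :
    0 < e.evR (cv 36 P1 PS1 x) := by
  simp only [checkBO, Bool.and_eq_true, List.all_eq_true] at he
  have k := (he.2 e (by rw [hv]; simp)).2
  refine checkO_sound hb adj_PS1 k x (by rw [lo8]; exact h1) (by rw [hi8]; linarith)
    (by push_cast; linarith) (by push_cast; linarith) _ rfl ?_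
  intro i _
  rw [sub_self, abs_zero]
  positivity

theorem mL_pos : 0 < mL ∧ mL < 1239 / 1024 := by unfold mL; constructor <;> norm_num

theorem mm_pos {x : ℝ} (h2 : x ≤ 3) : 0 < mm x := by
  rcases le_or_gt x (-6) with g | g
  · rw [mm_left g]; exact mL_pos.1
  · exact lo_cv s1 rfl rfl (by linarith) h2
theorem mp_pos {x : ℝ} (h2 : x ≤ 3) : 0 < mp x := by
  rcases le_or_gt x (-6) with g | g
  · rw [mp_left g]; exact mL_pos.1
  · exact lo_cv s2 rfl rfl (by linarith) h2
theorem mm_lt {x : ℝ} (h2 : x ≤ 3) : mm x < 1239 / 1024 := by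
  rcases le_or_gt x (-6) with g | g
  · rw [mm_left g]; exact mL_pos.2
  · have := lo_cv s3 rfl rfl (x := x) (by linarith) h2
    simp only [mmE, Ex.evR_sub, Ex.evR_cst, Ex.evR_var] at this
    have e : cv 36 P1 PS1 x 22 = mm x := rfl
    rw [e] at this
    norm_num at this ⊢
    exact this
theorem mp_lt {x : ℝ} (h2 : x ≤ 3) : mp x < 1239 / 1024 := by
  rcases le_or_gt x (-6) with g | g
  · rw [mp_left g]; exact mL_pos.2
  · have := lo_cv s4 rfl rfl (x := x) (by linarith) h2
    simp only [mpE, Ex.evR_sub, Ex.evR_cst, Ex.evR_var] at this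
    have e : cv 36 P1 PS1 x 25 = mp x := rfl
    rw [e] at this
    norm_num at this ⊢
    exact this

theorem mmF_pos (x : ℝ) : 0 < mmF x := by
  unfold mmF
  split_ifs with g
  · exact mm_pos g
  · have := mm_pos (le_refl 3); positivity
theorem mpF_pos (x : ℝ) : 0 < mpF x := by
  unfold mpF
  split_ifs with g
  · exact mp_pos g
  · have := mp_pos (le_refl 3); positivity
theorem mmF_lt (x : ℝ) : mmF x < 1239 / 1024 := by
  unfold mmF
  split_ifs with g
  · exact mm_lt g
  · have h1 := mm_pos (le_refl 3)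
    have h2 := mm_lt (le_refl 3)
    have h3 : Real.exp (-(x - 3)) ≤ 1 := by
      rw [Real.exp_le_one_iff]; linarith [not_le.1 g]
    have h4 := Real.exp_pos (-(x - 3))
    nlinarith
theorem mpF_lt (x : ℝ) : mpF x < 1239 / 1024 := by
  unfold mpF
  split_ifs with g
  · exact mp_lt g
  · have h1 := mp_pos (le_refl 3)
    have h2 := mp_lt (le_refl 3)
    have h3 : Real.exp (-(x - 3)) ≤ 1 := by
      rw [Real.exp_le_one_iff]; linarith [not_le.1 g]
    have h4 := Real.exp_pos (-(x - 3))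
    nlinarith

end Crest.Agent.R146.C2T_889
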