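import Crest.Agent.R146.C2Disp_889

/-!
# Row 146, helper889: the shape `b` over the windows, position `x ≤ -1/4` (`yp`, `ym` of `C2Fin_454`)
-/

set_option autoImplicit false
set_option linter.style.longLine false

namespace Crest.Agent.R146.C2Ym_889

open Set Filter Topology PP865 EncR_848
open Crest.Agent.R146.SPair_307 Crest.Agent.R146.RefX_355 Crest.Agent.R146.QEnc_865
open Crest.Agent.R146.C2D_889 Crest.Agent.R146.C2S_889 Crest.Agent.R146.C2T_889
open Crest.Agent.R146.C1D_445 (b b1 b2 hb hb1)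
open Crest.Agent.R146.PP4_454

/-! ### the first non constant piece -/

theorem sel_at {g : Pc → ℝ → ℝ} {a b : ℤ} {Q : Pc → Bool} {R : ℝ → ℝ → Prop}
    (hQ : ∀ (p : Pc) (z : ℝ), Q p = true → p.lo < z → z ≤ p.hi → R z (g p z)) :
    ∀ (p : Pc) (ps : List Pc), chain adj p ps = true →
    ((p :: ps).all fun q => !(inO a b q) || Q q) = true → ∀ z, p.lo < z → z ≤ hiL p ps →
      (a : ℝ) / 8 < z → z ≤ (b : ℝ) / 8 → R z (sel g p ps z)
  | p, [], _, h, z, h1, h2, ha, hb => by
    simp only [List.all_cons, List.all_nil, Bool.and_true, Bool.or_eq_true, Bool.not_eq_true'] at h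
    have h3 := inO_of (q := p) h1 h2 ha hb
    rcases h with h | h
    · rw [h3] at h; exact absurd h (by decide)
    · exact hQ p z h h1 h2
  | p, q :: ps, hch, h, z, h1, h2, ha, hb => by
    by_cases hz : z ≤ p.hi
    · rw [sel_of_le hz]
      rw [List.all_cons, Bool.and_eq_true] at h
      have h3 := inO_of (q := p) h1 hz ha hb
      have h4 := h.1
      simp only [Bool.or_eq_true, Bool.not_eq_true'] at h4
      rcases h4 with h4 | h4
      · rw [h3] at h4; exact absurd h4 (by decide)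
      · exact hQ p z h4 h1 hz
    · simp only [chain, Bool.and_eq_true] at hch
      rw [List.all_cons, Bool.and_eq_true] at h
      have e : sel g p (q :: ps) z = sel g q ps z := by simp [sel, hz]
      rw [e]
      have hq : q.lo < z := by
        rw [← adj_sound hch.1]
        exact not_le.1 hz
      exact sel_at hQ q ps hch.2 h.2 z hq h2 ha hb

def Q8 (q : Pc) : Bool :=
  decide (q.c = -47) && decide (q.j = 3) &&
    decide (q.f.getD 6 [] = [82443501568, -55836672, -55836672, -18612224])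

theorem q8 : ((P1 :: PS1).all fun q => !(inO (-48) (-46) q) || Q8 q) = true := by decide +kernel

theorem b1_8 {x : ℝ} (h1 : -6 < x) (h2 : x ≤ -23 / 4) : b1 x ≤ 0 := by
  rw [b1_eq]
  refine sel_at (g := fun p z => p.v1 36 6 z) (R := fun _ v => v ≤ 0) (Q := Q8) ?_ P1 PS1 adj_PS1 q8 x
    (by rw [lo8]; linarith) (by rw [hi8]; linarith) (by push_cast; linarith)
    (by push_cast; linarith)
  intro p z hQ _ _
  simp only [Q8, Bool.and_eq_true, decide_eq_true_eq] at hQ
  obtain ⟨⟨hc, hj⟩, hf⟩ := hQ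
  unfold Pc.v1
  rw [hf, hj]
  generalize p.loc z = t
  have e : PP865.ev (pder [82443501568, -55836672, -55836672, -18612224]) t
      = -55836672 * (t + 1) ^ 2 := by
    simp [pder, pderAux, PP865.ev]
    ring
  rw [e]
  have : 0 ≤ (t + 1) ^ 2 := sq_nonneg _
  apply div_nonpos_of_nonpos_of_nonneg _ (by positivity)
  nlinarith

theorem cb1 : checkBO 4 8 40 (err 570) (-46) 0 prm (-(Ex.var 20)) = true := by decide +kernel
theorem cb2 : checkBO 4 8 40 (err 570) (-48) (-12) prm (Ex.cst 19 10 - Ex.var 21) = true := by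
  decide +kernel
theorem cb3 : checkBO 4 8 40 (err 570) (-48) (-2) prm (Ex.cst 3 3 - Ex.var 21) = true := by
  decide +kernel
theorem cV0 : checkBO 4 8 40 (err 570) (-48) (-2) prm
    (Ex.cst 460 10 - Ex.var 2 * (Ex.cst 1 0 + Ex.var 28 * Ex.var 25)) = true := by decide +kernel
theorem cV1 : checkBO 4 8 40 (err 570) (-2) 0 prm
    (Ex.var 2 - Ex.cst 1 1 * Ex.var 0 - Ex.cst 460 10) = true := by decide +kernel
theorem cV2 : checkBO 4 8 40 (err 570) (-10) (-8) prm
    (Ex.cst 1 2 - Ex.var 2) = true := by decide +kernel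

theorem rdb {e : Ex} {A B : ℤ} (he : checkBO 4 8 40 (err 570) A B prm e = true)
    (hb : e.bnd 27 = true) (hv : verts prm e = [e, e, e, e]) {x : ℝ} (h1 : -8 < x) (h2 : x ≤ 8)
    (h3 : (A : ℝ) / 8 < x) (h4 : x ≤ (B : ℝ) / 8) : 0 < e.evR (cv 36 P1 PS1 x) := by
  simp only [checkBO, Bool.and_eq_true, List.all_eq_true] at he
  have k := (he.2 e (by rw [hv]; simp)).2
  refine checkO_sound hb adj_PS1 k x (by rw [lo8]; exact h1) (by rw [hi8]; exact h2)
    h3 h4 _ rfl ?_
  intro i _
  rw [sub_self, abs_zero]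
  positivity

theorem b1_nonpos {x : ℝ} (hx : x ≤ 0) : b1 x ≤ 0 := by
  rcases le_or_gt x (-6) with g | g
  · rw [C1D_445.b1_left g]
  rcases le_or_gt x (-23 / 4) with g2 | g2
  · exact b1_8 g g2
  · have := rdb cb1 rfl rfl (x := x) (by linarith) (by linarith) (by push_cast; linarith)
      (by push_cast; linarith)
    simp only [Ex.evR_neg, Ex.evR_var] at this
    have e : cv 36 P1 PS1 x 20 = b1 x := (congrFun b1_eq x).symm
    rw [e] at this
    linarith

theorem b2_le1 {x : ℝ} (hx : x ≤ -3 / 2) : b2 x ≤ 19 / 1024 := by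
  rcases le_or_gt x (-6) with g | g
  · rw [C1D_445.b2_left g]; norm_num
  · have := rdb cb2 rfl rfl (x := x) (by linarith) (by linarith) (by push_cast; linarith)
      (by push_cast; linarith)
    simp only [Ex.evR_sub, Ex.evR_cst, Ex.evR_var] at this
    have e : cv 36 P1 PS1 x 21 = b2 x := (congrFun b2_eq x).symm
    rw [e] at this
    norm_num at this ⊢
    linarith

theorem b2_le2 {x : ℝ} (hx : x ≤ -1 / 4) : b2 x ≤ 3 / 8 := by
  rcases le_or_gt x (-6) with g | g
  · rw [C1D_445.b2_left g]; norm_num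
  · have := rdb cb3 rfl rfl (x := x) (by linarith) (by linarith) (by push_cast; linarith)
      (by push_cast; linarith)
    simp only [Ex.evR_sub, Ex.evR_cst, Ex.evR_var] at this
    have e : cv 36 P1 PS1 x 21 = b2 x := (congrFun b2_eq x).symm
    rw [e] at this
    norm_num at this ⊢
    linarith

theorem b_anti {x y : ℝ} (hxy : x ≤ y) (hy : y ≤ 0) : b y ≤ b x := by
  have : AntitoneOn b (Iic 0) := by
    apply antitoneOn_of_deriv_nonpos (convex_Iic 0)
    · exact fun t _ => (hb t).continuousAt.continuousWithinAt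
    · exact fun t _ => (hb t).differentiableAt.differentiableWithinAt
    · intro t ht
      rw [interior_Iic] at ht
      rw [(hb t).deriv]
      exact b1_nonpos (le_of_lt ht)
  exact this (mem_Iic.2 (hxy.trans hy)) (mem_Iic.2 hy) hxy

/-- Taylor -/
theorem b_taylor {D x y : ℝ} (hD : ∀ t ≤ x, b2 t ≤ D) (hyx : y ≤ x) :
    b y ≤ b x + b1 x * (y - x) + D / 2 * (y - x) ^ 2 := by
  have h1 : ∀ t ≤ x, b1 x + D * (t - x) ≤ b1 t := by
    intro t ht
    have hm : MonotoneOn (fun t => D * t - b1 t) (Iic x) := by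
      have hd : ∀ t, HasDerivAt (fun t => D * t - b1 t) (D - b2 t) t := fun t => by
        have := ((hasDerivAt_id' t).const_mul D).sub (hb1 t)
        rw [mul_one] at this
        exact this
      apply monotoneOn_of_deriv_nonneg (convex_Iic x)
      · exact fun t _ => (hd t).continuousAt.continuousWithinAt
      · exact fun t _ => (hd t).differentiableAt.differentiableWithinAt
      · intro s hs
        rw [interior_Iic] at hs
        rw [(hd s).deriv]
        linarith [hD s (le_of_lt hs)]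
    have := hm (mem_Iic.2 ht) (mem_Iic.2 le_rfl) ht
    simp only at this
    linarith
  have hm : AntitoneOn (fun t => b1 x * (t - x) + D / 2 * (t - x) ^ 2 - b t) (Iic x) := by
    have hd : ∀ t, HasDerivAt (fun t => b1 x * (t - x) + D / 2 * (t - x) ^ 2 - b t)
        (b1 x + D * (t - x) - b1 t) t := fun t => by
      have k1 := ((hasDerivAt_id' t).sub_const x)
      have := ((k1.const_mul (b1 x)).add ((k1.pow 2).const_mul (D / 2))).sub (hb t)
      refine this.congr_deriv ?_
      simp only [Nat.cast_ofNat]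
      ring
    apply antitoneOn_of_deriv_nonpos (convex_Iic x)
    · exact fun t _ => (hd t).continuousAt.continuousWithinAt
    · exact fun t _ => (hd t).differentiableAt.differentiableWithinAt
    · intro s hs
      rw [interior_Iic] at hs
      rw [(hd s).deriv]
      linarith [h1 s (le_of_lt hs)]
  have := hm (mem_Iic.2 hyx) (mem_Iic.2 le_rfl) hyx
  simp only [sub_self] at this
  norm_num at this
  linarith

section
variable {c : ℝ} {W V I k : ℝ → ℝ}

theorem V_top_lt (h : SPair c W V I k c) {δ : ℝ} (hδ : 0 < δ) (hδc : δ ≤ c) {x : ℝ}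
    (hx : x ≤ -1 / 4) : V x * (1 + δ * mpF x) < V 0 := by
  have hV0 : (460 : ℝ) / 1024 < V 0 := by
    have Q := hq h (x := 0) (by norm_num) (by norm_num)
    have := chkW h h.c_pos.le le_rfl cV1 Q (by norm_num) (by norm_num) (by push_cast; norm_num)
      (by push_cast; norm_num)
    simp only [Ex.evR_sub, Ex.evR_mul, Ex.evR_cst, Ex.evR_var, v0, v2] at this
    norm_num at this ⊢
    linarith
  have em : mpF x = mp x := by unfold mpF; rw [if_pos (by linarith)]
  rw [em]
  have hV := h.V_pos x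
  have hm := mp_pos (x := x) (by linarith)
  have h1 : V x * (1 + δ * mp x) ≤ V x * (1 + c * mp x) := by
    apply mul_le_mul_of_nonneg_left _ hV.le
    have := mul_le_mul_of_nonneg_right hδc hm.le
    linarith
  refine lt_of_le_of_lt h1 (lt_trans ?_ hV0)
  rcases le_or_gt x (-6) with g | g
  · have Q := hq h (x := -1) (by norm_num) (by norm_num)
    have w := chkW h h.c_pos.le le_rfl cV2 Q (by norm_num) (by norm_num) (by push_cast; norm_num)
      (by push_cast; norm_num)
    simp only [Ex.evR_sub, Ex.evR_cst, Ex.evR_var, v2] at w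
    norm_num at w
    have h2 : V x < V (-1) := h.V_strictMono (by linarith)
    have h3 := mp_lt (x := x) (by linarith)
    have E := Enc3_848.enc h
    have hc1 : c ≤ 1 / 2 := E.c_hi.trans (by norm_num)
    have hc0 := h.c_pos
    have h4 : c * mp x ≤ 1 / 2 * (1239 / 1024) := mul_le_mul hc1 h3.le hm.le (by norm_num)
    have h5 : V x * (1 + c * mp x) ≤ 1 / 4 * (1 + 1 / 2 * (1239 / 1024)) :=
      mul_le_mul (by linarith) (by linarith) (by positivity) (by norm_num)
    refine lt_of_le_of_lt h5 (by norm_num)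
  · have Q := hq h (x := x) g.le (by linarith)
    have w := chkW h h.c_pos.le le_rfl cV0 Q (by linarith) (by linarith) (by push_cast; linarith)
      (by push_cast; linarith)
    simp only [Ex.evR_sub, Ex.evR_add, Ex.evR_mul, Ex.evR_cst, Ex.evR_var, v2, v25, v28] at w
    norm_num at w ⊢
    linarith

/-- `yp` of `C2Fin_454` -/
theorem yp (c : ℝ) (W V I k : ℝ → ℝ) (h : SPair c W V I k c) (δ : ℝ) (hδ : 0 < δ) (hδc : δ ≤ c)
    (x y : ℝ) (hx : x ≤ -1 / 4) (hxy : x ≤ y) (hy : V y ≤ V x * (1 + δ * mpF x)) :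
    b y + 2 / 1000 ≤ Ep x ∧ b y ≤ b x := by
  have h1 := V_top_lt h hδ hδc hx
  have h2 : y < 0 := h.V_strictMono.lt_iff_lt.1 (lt_of_le_of_lt hy h1)
  have h3 := b_anti hxy h2.le
  refine ⟨?_, h3⟩
  unfold Ep
  rw [if_pos hx]
  norm_num at h3 ⊢
  linarith

/-- `ym` of `C2Fin_454` -/
theorem ym (c : ℝ) (W V I k : ℝ → ℝ) (h : SPair c W V I k c) (δ : ℝ) (hδ : 0 < δ) (hδc : δ ≤ c)
    (x y : ℝ) (hx : x ≤ -1 / 4) (hyx : y ≤ x) (hy : V x * (1 - δ * mmF x) ≤ V y) :
    b y + 2 / 1000 ≤ Em x ∧
      b y + 2 / 1000 ≤ b x - 3 / 5 * δ * b1 x + δ ^ 2 / 10 + 2 / 1000 := by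
  have hd := C2Disp_889.disp h hδ hδc hx hy
  have E := Enc3_848.enc h
  have hc1 : c ≤ 5 / 12 := E.c_hi.trans (by norm_num)
  have hs0 : 0 ≤ x - y := by linarith
  have hs1 : x - y ≤ 3 / 5 * δ := by linarith
  have hs2 : (x - y) ^ 2 ≤ (3 / 5 * δ) ^ 2 := pow_le_pow_left₀ hs0 hs1 2
  have hs3 : 3 / 5 * δ ≤ 1 / 4 := by linarith
  have hs4 : (3 / 5 * δ) ^ 2 ≤ (1 / 4) ^ 2 := pow_le_pow_left₀ (by positivity) hs3 2
  have hb0 := b1_nonpos (x := x) (by linarith)
  have h2 : b1 x * (y - x) ≤ -(3 / 5 * δ * b1 x) := by nlinarith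
  have h3 : -(3 / 5 * δ * b1 x) ≤ -(b1 x / 4) := by nlinarith
  have e : (y - x) ^ 2 = (x - y) ^ 2 := by ring
  have t2 := b_taylor (D := 3 / 8) (x := x) (y := y) (fun t ht => b2_le2 (by linarith)) hyx
  rw [e] at t2
  constructor
  · unfold Em
    split_ifs with g1
    · have t1 := b_taylor (D := 19 / 1024) (x := x) (y := y) (fun t ht => b2_le1 (by linarith)) hyx
      rw [e] at t1
      have : 19 / 1024 / 2 * (x - y) ^ 2 ≤ 19 / 1024 / 2 * (1 / 4) ^ 2 :=
        mul_le_mul_of_nonneg_left (hs2.trans hs4) (by norm_num)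
      norm_num at this t1 ⊢
      linarith
    · have : 3 / 8 / 2 * (x - y) ^ 2 ≤ 3 / 8 / 2 * (1 / 4) ^ 2 :=
        mul_le_mul_of_nonneg_left (hs2.trans hs4) (by norm_num)
      norm_num at this t2 ⊢
      linarith
  · nlinarith

end

end Crest.Agent.R146.C2Ym_889
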