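import Crest.Agent.R146.C2X_865

/-!
# Row 146, helper649: bounds of the slope shape `b` over the level windows, `x > -1/4`
(piece (4) of C2, post 2016)

`x` = label of the position, `y` = label of the level.
`hEm_right : y ≤ x → V x (1 - δ mmF x) ≤ V y → b y + 2/1000 ≤ Ek x`,
`hEp_right : x ≤ y → V y ≤ V x (1 + δ mpF x) → b y + 2/1000 ≤ Ek x`,
and `≤ 472/1000` for `x > 3/4`.
-/

set_option autoImplicit false

namespace Crest.Agent.R146.C2Z_649

open PP865 Crest.Agent.R146.C2D_889 Crest.Agent.R146.C2S_889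
open Crest.Agent.R146.SPair_307 Crest.Agent.R146.RefX_355 Crest.Agent.R146.QEnc_865
open Crest.Agent.R146.C2X_865 (cn)
open Crest.Agent.R146.C1D_445 (b)

/-! ### values of `V` at the window ends -/

theorem cV1 : checkBO 4 8 30 (err 352) (-5) (-4) prm (.cst 1225 12 - .var 2) = true := by
  decide +kernel
theorem cV2 : checkBO 4 8 30 (err 352) (-3) (-2) prm (.cst 1600 12 - .var 2) = true := by
  decide +kernel
theorem cV3 : checkBO 4 8 30 (err 352) 1 2 prm
    (.var 2 - .cst 2300 12 + cn 1 * (.cst 1 2 - .var 0)) = true := by decide +kernel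
theorem cV4 : checkBO 4 8 30 (err 352) 3 4 prm
    (.var 2 - .cst 2700 12 + cn 1 * (.cst 1 1 - .var 0)) = true := by decide +kernel
theorem cV5 : checkBO 4 8 30 (err 352) 5 6 prm
    (.var 2 - .cst 48700 16 + cn 16 * (.cst 11 4 - .var 0) * (.cst 11 4 - .var 0)) = true := by
  decide +kernel
theorem cV6 : checkBO 6 8 30 (err 352) 7 8 prm
    (.var 2 - .cst 54468 16 + cn 16 * (.cst 61 6 - .var 0) * (.cst 61 6 - .var 0)) = true := by
  decide +kernel

/-! ### windows -/

theorem cL1 : checkBO 4 8 30 (err 352) (-2) 0 prm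
    (.var 2 * (cn 1 - .var 29 * .var 22) - .cst 1225 12) = true := by decide +kernel
theorem cL2 : checkBO 4 8 30 (err 352) 0 24 prm
    (.var 2 * (cn 1 - .var 29 * .var 22) - .cst 1600 12) = true := by decide +kernel
theorem cM : checkBO 6 8 30 (err 352) 22 24 prm (.var 22) = true := by decide +kernel

theorem cU1 : checkBO 4 8 30 (err 352) (-2) 0 prm
    (.cst 2300 12 - .var 2 * (cn 1 + .var 29 * .var 25)) = true := by decide +kernel
theorem cU2 : checkBO 4 8 30 (err 352) 0 2 prm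
    (.cst 2700 12 - .var 2 * (cn 1 + .var 29 * .var 25)) = true := by decide +kernel
theorem cU3 : checkBO 4 8 30 (err 352) 2 4 prm
    (.cst 48700 16 - .var 2 * (cn 1 + .var 29 * .var 25)) = true := by decide +kernel
theorem cU4 : checkBO 4 8 30 (err 352) 4 6 prm
    (.cst 54468 16 - .var 2 * (cn 1 + .var 29 * .var 25)) = true := by decide +kernel

/-! ### the shape -/

theorem cb1 : checkBO 4 8 30 (err 352) (-4) 2 prm (.cst 21110 16 - .var 19) = true := by
  decide +kernel
theorem cb2 : checkBO 4 8 30 (err 352) (-2) 4 prm (.cst 19630 16 - .var 19) = true := by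
  decide +kernel
theorem cb3 : checkBO 4 8 30 (err 352) 4 6 prm (.cst 20980 16 - .var 19 +
    .cst 9 4 * (.var 0 - .cst 1 1) * (.var 0 - .cst 11 4)) = true := by decide +kernel
theorem cb4 : checkBO 4 8 30 (err 352) (-2) 6 prm (.cst 21400 16 - .var 19) = true := by
  decide +kernel
theorem cb5 : checkBO 4 8 30 (err 352) 6 8 prm (.cst 22900 16 - .var 19 +
    .cst 9 4 * (.var 0 - .cst 3 2) * (.var 0 - .cst 61 6)) = true := by decide +kernel
theorem cb6 : checkBO 4 8 30 (err 352) (-8) 32 prm (.cst 492830 20 - .var 19) = true := by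
  decide +kernel

section

variable {c δ : ℝ} {W V I k : ℝ → ℝ}

/-- reading a check at `x` -/
theorem rd (h : SPair c W V I k c) (hδ : 0 < δ) (hδc : δ ≤ c) {a a' : ℤ} {n dg pr : ℕ} {e : Ex}
    (he : checkBO n dg pr (err 352) a a' prm e = true) {x : ℝ} (h6 : -6 ≤ x) (h6' : x ≤ 6)
    (h1 : (a : ℝ) / 8 < x) (h2 : x ≤ (a' : ℝ) / 8) : 0 < e.evR (env c δ W V I x) := by
  refine chkW h hδ.le hδc he ?_ (by linarith) (by linarith) h1 h2
  have := QEnc_848.encQ h h6 h6'
  unfold qv
  exact_mod_cast this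

theorem V1 (h : SPair c W V I k c) : V (-1 / 2) < 1225 / 4096 := by
  have := rd h h.c_pos le_rfl cV1 (x := -1 / 2) (by norm_num) (by norm_num) (by norm_num)
    (by norm_num)
  simp only [cn, Ex.evR_sub, Ex.evR_add, Ex.evR_mul, Ex.evR_cst, Ex.evR_var, v0, v2] at this
  norm_num at this ⊢
  linarith

theorem V2 (h : SPair c W V I k c) : V (-1 / 4) < 1600 / 4096 := by
  have := rd h h.c_pos le_rfl cV2 (x := -1 / 4) (by norm_num) (by norm_num) (by norm_num)
    (by norm_num)
  simp only [cn, Ex.evR_sub, Ex.evR_add, Ex.evR_mul, Ex.evR_cst, Ex.evR_var, v0, v2] at this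
  norm_num at this ⊢
  linarith

theorem V3 (h : SPair c W V I k c) : 2300 / 4096 < V (1 / 4) := by
  have := rd h h.c_pos le_rfl cV3 (x := 1 / 4) (by norm_num) (by norm_num) (by norm_num)
    (by norm_num)
  simp only [cn, Ex.evR_sub, Ex.evR_add, Ex.evR_mul, Ex.evR_cst, Ex.evR_var, v0, v2] at this
  norm_num at this ⊢
  linarith

theorem V4 (h : SPair c W V I k c) : 2700 / 4096 < V (1 / 2) := by
  have := rd h h.c_pos le_rfl cV4 (x := 1 / 2) (by norm_num) (by norm_num) (by norm_num)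
    (by norm_num)
  simp only [cn, Ex.evR_sub, Ex.evR_add, Ex.evR_mul, Ex.evR_cst, Ex.evR_var, v0, v2] at this
  norm_num at this ⊢
  linarith

theorem V5 (h : SPair c W V I k c) : 48700 / 65536 < V (11 / 16) := by
  have := rd h h.c_pos le_rfl cV5 (x := 11 / 16) (by norm_num) (by norm_num) (by norm_num)
    (by norm_num)
  simp only [cn, Ex.evR_sub, Ex.evR_add, Ex.evR_mul, Ex.evR_cst, Ex.evR_var, v0, v2] at this
  norm_num at this ⊢
  linarith

theorem V6 (h : SPair c W V I k c) : 54468 / 65536 < V (61 / 64) := by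
  have := rd h h.c_pos le_rfl cV6 (x := 61 / 64) (by norm_num) (by norm_num) (by norm_num)
    (by norm_num)
  simp only [cn, Ex.evR_sub, Ex.evR_add, Ex.evR_mul, Ex.evR_cst, Ex.evR_var, v0, v2] at this
  norm_num at this ⊢
  linarith

theorem L1 (h : SPair c W V I k c) (hδ : 0 < δ) (hδc : δ ≤ c) {x : ℝ} (h1 : -1 / 4 < x)
    (h2 : x ≤ 0) : 1225 / 4096 < V x * (1 - δ * mmF x) := by
  have := rd h hδ hδc cL1 (x := x) (by linarith) (by linarith) (by norm_num; linarith)
    (by norm_num; linarith)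
  simp only [cn, Ex.evR_sub, Ex.evR_mul, Ex.evR_cst, Ex.evR_var, v2, v22, v29] at this
  unfold mmF
  rw [if_pos (by linarith)]
  norm_num at this ⊢
  linarith

theorem L2' (h : SPair c W V I k c) (hδ : 0 < δ) (hδc : δ ≤ c) {x : ℝ} (h1 : 0 < x)
    (h2 : x ≤ 3) : 1600 / 4096 < V x * (1 - δ * mm x) := by
  have := rd h hδ hδc cL2 (x := x) (by linarith) (by linarith) (by norm_num; linarith)
    (by norm_num; linarith)
  simp only [cn, Ex.evR_sub, Ex.evR_mul, Ex.evR_cst, Ex.evR_var, v2, v22, v29] at this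
  norm_num at this ⊢
  linarith

theorem L2 (h : SPair c W V I k c) (hδ : 0 < δ) (hδc : δ ≤ c) {x : ℝ} (h1 : 0 < x) :
    1600 / 4096 < V x * (1 - δ * mmF x) := by
  rcases le_or_gt x 3 with h3 | h3
  · unfold mmF
    rw [if_pos h3]
    exact L2' h hδ hδc h1 h3
  · have k1 := L2' h hδ hδc (x := 3) (by norm_num) le_rfl
    have km := rd h hδ hδc cM (x := 3) (by norm_num) (by norm_num) (by norm_num) (by norm_num)
    simp only [Ex.evR_var, v22] at km
    unfold mmF
    rw [if_neg (not_le.2 h3)]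
    have b2 : V 3 ≤ V x := (h.V_strictMono h3).le
    have b3 : Real.exp (-(x - 3)) ≤ 1 := Real.exp_le_one_iff.2 (by linarith)
    have b5 := h.V_pos 3
    have b7 : 0 < 1 - δ * mm 3 := by
      by_contra hcon
      have : V 3 * (1 - δ * mm 3) ≤ 0 :=
        mul_nonpos_of_nonneg_of_nonpos b5.le (not_lt.1 hcon)
      norm_num at k1
      linarith
    have b8 : 1 - δ * mm 3 ≤ 1 - δ * (mm 3 * Real.exp (-(x - 3))) := by
      have : mm 3 * Real.exp (-(x - 3)) ≤ mm 3 := mul_le_of_le_one_right km.le b3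
      have := mul_le_mul_of_nonneg_left this hδ.le
      linarith
    calc (1600 : ℝ) / 4096 < V 3 * (1 - δ * mm 3) := k1
      _ ≤ V x * (1 - δ * mm 3) := mul_le_mul_of_nonneg_right b2 b7.le
      _ ≤ _ := mul_le_mul_of_nonneg_left b8 (h.V_pos x).le

theorem U1 (h : SPair c W V I k c) (hδ : 0 < δ) (hδc : δ ≤ c) {x : ℝ} (h1 : -1 / 4 < x)
    (h2 : x ≤ 0) : V x * (1 + δ * mpF x) < 2300 / 4096 := by
  have := rd h hδ hδc cU1 (x := x) (by linarith) (by linarith) (by norm_num; linarith)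
    (by norm_num; linarith)
  simp only [cn, Ex.evR_sub, Ex.evR_add, Ex.evR_mul, Ex.evR_cst, Ex.evR_var, v2, v25, v29] at this
  unfold mpF
  rw [if_pos (by linarith)]
  norm_num at this ⊢
  linarith

theorem U2 (h : SPair c W V I k c) (hδ : 0 < δ) (hδc : δ ≤ c) {x : ℝ} (h1 : 0 < x)
    (h2 : x ≤ 1 / 4) : V x * (1 + δ * mpF x) < 2700 / 4096 := by
  have := rd h hδ hδc cU2 (x := x) (by linarith) (by linarith) (by norm_num; linarith)
    (by norm_num; linarith)
  simp only [cn, Ex.evR_sub, Ex.evR_add, Ex.evR_mul, Ex.evR_cst, Ex.evR_var, v2, v25, v29] at this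
  unfold mpF
  rw [if_pos (by linarith)]
  norm_num at this ⊢
  linarith

theorem U3 (h : SPair c W V I k c) (hδ : 0 < δ) (hδc : δ ≤ c) {x : ℝ} (h1 : 1 / 4 < x)
    (h2 : x ≤ 1 / 2) : V x * (1 + δ * mpF x) < 48700 / 65536 := by
  have := rd h hδ hδc cU3 (x := x) (by linarith) (by linarith) (by norm_num; linarith)
    (by norm_num; linarith)
  simp only [cn, Ex.evR_sub, Ex.evR_add, Ex.evR_mul, Ex.evR_cst, Ex.evR_var, v2, v25, v29] at this
  unfold mpF
  rw [if_pos (by linarith)]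
  norm_num at this ⊢
  linarith

theorem U4 (h : SPair c W V I k c) (hδ : 0 < δ) (hδc : δ ≤ c) {x : ℝ} (h1 : 1 / 2 < x)
    (h2 : x ≤ 3 / 4) : V x * (1 + δ * mpF x) < 54468 / 65536 := by
  have := rd h hδ hδc cU4 (x := x) (by linarith) (by linarith) (by norm_num; linarith)
    (by norm_num; linarith)
  simp only [cn, Ex.evR_sub, Ex.evR_add, Ex.evR_mul, Ex.evR_cst, Ex.evR_var, v2, v25, v29] at this
  unfold mpF
  rw [if_pos (by linarith)]
  norm_num at this ⊢
  linarith

/-! ### the shape -/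

theorem b1' (h : SPair c W V I k c) {y : ℝ} (h1 : -1 / 2 < y) (h2 : y ≤ 1 / 4) :
    b y < 21110 / 65536 := by
  have := rd h h.c_pos le_rfl cb1 (x := y) (by linarith) (by linarith) (by norm_num; linarith)
    (by norm_num; linarith)
  simp only [Ex.evR_sub, Ex.evR_cst, Ex.evR_var, v19] at this
  norm_num at this ⊢
  linarith

theorem b2' (h : SPair c W V I k c) {y : ℝ} (h1 : -1 / 4 < y) (h2 : y ≤ 1 / 2) :
    b y < 19630 / 65536 := by
  have := rd h h.c_pos le_rfl cb2 (x := y) (by linarith) (by linarith) (by norm_num; linarith)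
    (by norm_num; linarith)
  simp only [Ex.evR_sub, Ex.evR_cst, Ex.evR_var, v19] at this
  norm_num at this ⊢
  linarith

theorem b3' (h : SPair c W V I k c) {y : ℝ} (h1 : -1 / 4 < y) (h2 : y ≤ 11 / 16) :
    b y < 20980 / 65536 := by
  rcases le_or_gt y (1 / 2) with h3 | h3
  · exact (b2' h h1 h3).trans (by norm_num)
  have := rd h h.c_pos le_rfl cb3 (x := y) (by linarith) (by linarith) (by norm_num; linarith)
    (by norm_num; linarith)
  simp only [Ex.evR_sub, Ex.evR_add, Ex.evR_mul, Ex.evR_cst, Ex.evR_var, v0, v19] at this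
  norm_num at this ⊢
  have h4 : (y - 1 / 2) * (y - 11 / 16) ≤ 0 :=
    mul_nonpos_of_nonneg_of_nonpos (by linarith) (by linarith)
  nlinarith

theorem b4' (h : SPair c W V I k c) {y : ℝ} (h1 : -1 / 4 < y) (h2 : y ≤ 61 / 64) :
    b y < 22900 / 65536 := by
  rcases le_or_gt y (3 / 4) with h3 | h3
  · have := rd h h.c_pos le_rfl cb4 (x := y) (by linarith) (by linarith) (by norm_num; linarith)
      (by norm_num; linarith)
    simp only [Ex.evR_sub, Ex.evR_cst, Ex.evR_var, v19] at this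
    norm_num at this ⊢
    linarith
  have := rd h h.c_pos le_rfl cb5 (x := y) (by linarith) (by linarith) (by norm_num; linarith)
    (by norm_num; linarith)
  simp only [Ex.evR_sub, Ex.evR_add, Ex.evR_mul, Ex.evR_cst, Ex.evR_var, v0, v19] at this
  norm_num at this ⊢
  have h4 : (y - 3 / 4) * (y - 61 / 64) ≤ 0 :=
    mul_nonpos_of_nonneg_of_nonpos (by linarith) (by linarith)
  nlinarith

theorem b5' (h : SPair c W V I k c) {y : ℝ} (h1 : -1 < y) : b y ≤ 47 / 100 := by
  rcases le_or_gt y 4 with h4 | h4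
  · have := rd h h.c_pos le_rfl cb6 (x := y) (by linarith) (by linarith) (by norm_num; linarith)
      (by norm_num; linarith)
    simp only [Ex.evR_sub, Ex.evR_cst, Ex.evR_var, v19] at this
    norm_num at this ⊢
    linarith
  · rw [C1D_445.b_right (by linarith)]
    unfold C1D_445.bR
    norm_num

/-- the bound from the range of the level label -/
theorem key (h : SPair c W V I k c) {x y : ℝ} (hx : -1 / 4 < x)
    (h0 : -1 / 2 < y) (h0' : 0 < x → -1 / 4 < y)
    (h1 : x ≤ 0 → y ≤ 1 / 4) (h2 : 0 < x → x ≤ 1 / 4 → y ≤ 1 / 2)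
    (h3 : 1 / 4 < x → x ≤ 1 / 2 → y ≤ 11 / 16) (h4 : 1 / 2 < x → x ≤ 3 / 4 → y ≤ 61 / 64) :
    b y + 2 / 1000 ≤ Ek x ∧ (3 / 4 < x → b y + 2 / 1000 ≤ 472 / 1000) := by
  refine ⟨?_, fun hx3 => ?_⟩
  · unfold Ek
    split_ifs with a1 a2 a3 a4
    · have := b1' h h0 (h1 a1)
      norm_num at this ⊢
      linarith
    · have := b2' h (h0' (not_le.1 a1)) (h2 (not_le.1 a1) a2)
      norm_num at this ⊢
      linarith
    · have := b3' h (h0' (not_le.1 a1)) (h3 (not_le.1 a2) a3)
      norm_num at this ⊢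
      linarith
    · have := b4' h (h0' (not_le.1 a1)) (h4 (not_le.1 a3) a4)
      norm_num at this ⊢
      linarith
    · have := b5' h (y := y) (by linarith)
      norm_num at this ⊢
      linarith
  · have := b5' h (y := y) (by linarith)
    linarith

/-- **lower window** -/
theorem hEm_right (h : SPair c W V I k c) (hδ : 0 < δ) (hδc : δ ≤ c) {x y : ℝ}
    (hx : -1 / 4 < x) (hyx : y ≤ x) (hw : V x * (1 - δ * mmF x) ≤ V y) :
    b y + 2 / 1000 ≤ Ek x ∧ (3 / 4 < x → b y + 2 / 1000 ≤ 472 / 1000) := by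
  have e0 : 0 < x → -1 / 4 < y := fun h1 =>
    h.V_strictMono.lt_iff_lt.1 (((V2 h).trans (L2 h hδ hδc h1)).trans_le hw)
  have e1 : -1 / 2 < y := by
    rcases le_or_gt x 0 with h1 | h1
    · exact h.V_strictMono.lt_iff_lt.1 (((V1 h).trans (L1 h hδ hδc hx h1)).trans_le hw)
    · have := e0 h1
      linarith
  exact key h hx e1 e0 (fun _ => by linarith) (fun _ _ => by linarith) (fun _ _ => by linarith)
    (fun _ _ => by linarith)

/-- **upper window** -/
theorem hEp_right (h : SPair c W V I k c) (hδ : 0 < δ) (hδc : δ ≤ c) {x y : ℝ}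
    (hx : -1 / 4 < x) (hxy : x ≤ y) (hw : V y ≤ V x * (1 + δ * mpF x)) :
    b y + 2 / 1000 ≤ Ek x ∧ (3 / 4 < x → b y + 2 / 1000 ≤ 472 / 1000) := by
  refine key h hx (by linarith) (fun _ => by linarith) (fun h1 => ?_) (fun h1 h2 => ?_)
    (fun h1 h2 => ?_) (fun h1 h2 => ?_)
  · exact (h.V_strictMono.lt_iff_lt.1 ((hw.trans_lt (U1 h hδ hδc hx h1)).trans (V3 h))).le
  · exact (h.V_strictMono.lt_iff_lt.1 ((hw.trans_lt (U2 h hδ hδc h1 h2)).trans (V4 h))).le
  · exact (h.V_strictMono.lt_iff_lt.1 ((hw.trans_lt (U3 h hδ hδc h1 h2)).trans (V5 h))).le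
  · exact (h.V_strictMono.lt_iff_lt.1 ((hw.trans_lt (U4 h hδ hδc h1 h2)).trans (V6 h))).le

/-- both -/
theorem hE_right (h : SPair c W V I k c) (hδ : 0 < δ) (hδc : δ ≤ c) {x y : ℝ}
    (hx : -1 / 4 < x) (hw : V x * (1 - δ * mmF x) ≤ V y) (hw' : V y ≤ V x * (1 + δ * mpF x)) :
    b y + 2 / 1000 ≤ Ek x ∧ (3 / 4 < x → b y + 2 / 1000 ≤ 472 / 1000) := by
  rcases le_total y x with g | g
  · exact hEm_right h hδ hδc hx g hw
  · exact hEp_right h hδ hδc hx g hw'

end

end Crest.Agent.R146.C2Z_649
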