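import Crest.Agent.R146.C2P_490

/-!
# Row 146, helper791: bounds of the shape `b` over the level windows, positions `x > -1/4`

`hEm_right`, `hEp_right` (and `eR`, `eR'` in the form of `C2Asm_454.Bd`).
-/

set_option autoImplicit false
set_option linter.style.longLine false

namespace Crest.Agent.R146.C2Z_791

open Set Filter Topology
open PP865 EncR_848 Enc3_848
open Crest.Agent.R146.SPair_307 Crest.Agent.R146.RefX_355 Crest.Agent.R146.QEnc_865
open Crest.Agent.R146.C2D_889 Crest.Agent.R146.PP4_454 Crest.Agent.R146.C2S_889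
open Crest.Agent.R146.C1D_445 (b b1 b2 b_right)

def dE : Ex := .var 29
def lowE : Ex := .var 2 * (1 - dE * .var 22)
def upE : Ex := .var 2 * (1 + dE * .var 25)

theorem a1 : checkBO 4 8 40 (err 570) (-6) (-4) prm (.cst 308 10 - .var 2) = true := by
  decide +kernel
theorem a2 : checkBO 4 8 40 (err 570) (-2) 0 prm (lowE - .cst 308 10) = true := by decide +kernel
theorem a3 : checkBO 4 8 40 (err 570) (-4) (-2) prm (.cst 400 10 - .var 2) = true := by
  decide +kernel
theorem a4 : checkBO 4 8 40 (err 570) 0 24 prm (lowE - .cst 400 10) = true := by decide +kernel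
theorem p1 : checkBO 4 8 40 (err 570) (-2) 0 prm (.cst 570 10 - upE) = true := by decide +kernel
theorem p2 : checkBO 4 8 40 (err 570) 0 2 prm (.cst 680 10 - upE) = true := by decide +kernel
theorem p3 : checkBO 4 8 40 (err 570) 2 4 prm (.cst 758 10 - upE) = true := by decide +kernel
theorem p4 : checkBO 4 8 40 (err 570) 4 6 prm (.cst 3406 12 - upE) = true := by decide +kernel
theorem n1 : checkBO 4 8 40 (err 570) 0 2 prm (.var 2 + (.cst 1 2 - .var 0) - .cst 570 10) = true := by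
  decide +kernel
theorem n2 : checkBO 4 8 40 (err 570) 2 4 prm (.var 2 + (.cst 1 1 - .var 0) - .cst 680 10) = true := by
  decide +kernel
theorem n3 : checkBO 4 8 40 (err 570) 4 6 prm (.var 2 - .cst 54 7 * (.var 0 - .cst 11 4)
    + .cst 1 1 * ((.var 0 - .cst 11 4) * (.var 0 - .cst 11 4)) - .cst 758 10) = true := by
  decide +kernel
theorem n4 : checkBO 4 8 40 (err 570) 6 8 prm (.var 2 - .cst 37 7 * (.var 0 - .cst 61 6)
    + .cst 1 1 * ((.var 0 - .cst 61 6) * (.var 0 - .cst 61 6)) - .cst 3406 12) = true := by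
  decide +kernel
theorem b1c : checkBO 4 8 40 (err 570) (-4) 2 prm (.cst 332 10 - .cst 2098 20 - .var 19) = true := by
  decide +kernel
theorem b2c : checkBO 4 8 40 (err 570) (-2) 4 prm (.cst 309 10 - .cst 2098 20 - .var 19) = true := by
  decide +kernel
theorem b3c : checkBO 4 8 40 (err 570) 4 6 prm (.cst 330 10 - .cst 2098 20 - .var 19
    - .cst 109 10 * (.cst 11 4 - .var 0)) = true := by decide +kernel
theorem b4c : checkBO 4 8 40 (err 570) (-2) 6 prm (.cst 360 10 - .cst 2098 20 - .var 19) = true := by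
  decide +kernel
theorem b5c : checkBO 4 8 40 (err 570) 6 8 prm (.cst 360 10 - .cst 2098 20 - .var 19
    - .cst 113 10 * (.cst 61 6 - .var 0)) = true := by decide +kernel
theorem b6c : checkBO 4 8 40 (err 570) (-2) 28 prm (.cst 492830 20 - .var 19) = true := by
  decide +kernel

section
variable {c : ℝ} {W V I k : ℝ → ℝ}

theorem hq (h : SPair c W V I k c) {x : ℝ} (h1 : -6 ≤ x) (h2 : x ≤ 6) :
    |qv V I x - Enc1_848.F 2 x| ≤ ((570 : ℕ) : ℝ) / 2 ^ 20 := by
  have E := enc h
  have := encQ h E.c_lo E.c_hi x ⟨h1, h2⟩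
  push_cast
  exact this

/-- reader -/
theorem rd (h : SPair c W V I k c) {δ : ℝ} (hδ : 0 ≤ δ) (hδc : δ ≤ c) {n dg pr : ℕ} {a b : ℤ}
    {e : Ex} (he : checkBO n dg pr (err 570) a b prm e = true) {x : ℝ} (h8 : -6 ≤ x)
    (h8' : x ≤ 6) (h1 : (a : ℝ) / 8 < x) (h2 : x ≤ (b : ℝ) / 8) :
    0 < e.evR (env c δ W V I x) :=
  chkW h hδ hδc he (hq h h8 h8') (by linarith) (by linarith) h1 h2

theorem lowE_eq (c δ : ℝ) (W V I : ℝ → ℝ) (x : ℝ) :
    lowE.evR (env c δ W V I x) = V x * (1 - δ * mm x) := by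
  simp only [lowE, dE, Ex.evR_sub, Ex.evR_mul, Ex.evR_var, v2, v22, v29]
  have : (1 : Ex).evR (env c δ W V I x) = 1 := by simpa using Ex.evR_ofNat (env c δ W V I x) 1
  rw [this]

theorem upE_eq (c δ : ℝ) (W V I : ℝ → ℝ) (x : ℝ) :
    upE.evR (env c δ W V I x) = V x * (1 + δ * mp x) := by
  simp only [upE, dE, Ex.evR_add, Ex.evR_mul, Ex.evR_var, v2, v25, v29]
  have : (1 : Ex).evR (env c δ W V I x) = 1 := by simpa using Ex.evR_ofNat (env c δ W V I x) 1
  rw [this]

/-! ### levels -/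

theorem V_mhalf (h : SPair c W V I k c) : V (-(1 / 2)) < 308 / 1024 := by
  have := rd h le_rfl h.c_pos.le a1 (x := -(1 / 2)) (by norm_num) (by norm_num) (by norm_num)
    (by norm_num)
  simp only [Ex.evR_sub, Ex.evR_cst, Ex.evR_var, v2] at this
  norm_num at this ⊢
  linarith

theorem V_mq (h : SPair c W V I k c) : V (-(1 / 4)) < 400 / 1024 := by
  have := rd h le_rfl h.c_pos.le a3 (x := -(1 / 4)) (by norm_num) (by norm_num) (by norm_num)
    (by norm_num)
  simp only [Ex.evR_sub, Ex.evR_cst, Ex.evR_var, v2] at this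
  norm_num at this ⊢
  linarith

theorem V_q (h : SPair c W V I k c) : 570 / 1024 < V (1 / 4) := by
  have := rd h le_rfl h.c_pos.le n1 (x := 1 / 4) (by norm_num) (by norm_num) (by norm_num)
    (by norm_num)
  simp only [Ex.evR_sub, Ex.evR_add, Ex.evR_cst, Ex.evR_var, v0, v2] at this
  norm_num at this ⊢
  linarith

theorem V_half (h : SPair c W V I k c) : 680 / 1024 < V (1 / 2) := by
  have := rd h le_rfl h.c_pos.le n2 (x := 1 / 2) (by norm_num) (by norm_num) (by norm_num)
    (by norm_num)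
  simp only [Ex.evR_sub, Ex.evR_add, Ex.evR_cst, Ex.evR_var, v0, v2] at this
  norm_num at this ⊢
  linarith

theorem V_11 (h : SPair c W V I k c) : 758 / 1024 < V (11 / 16) := by
  have := rd h le_rfl h.c_pos.le n3 (x := 11 / 16) (by norm_num) (by norm_num) (by norm_num)
    (by norm_num)
  simp only [Ex.evR_sub, Ex.evR_add, Ex.evR_mul, Ex.evR_cst, Ex.evR_var, v0, v2] at this
  norm_num at this ⊢
  linarith

theorem V_61 (h : SPair c W V I k c) : 3406 / 4096 < V (61 / 64) := by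
  have := rd h le_rfl h.c_pos.le n4 (x := 61 / 64) (by norm_num) (by norm_num) (by norm_num)
    (by norm_num)
  simp only [Ex.evR_sub, Ex.evR_add, Ex.evR_mul, Ex.evR_cst, Ex.evR_var, v0, v2] at this
  norm_num at this ⊢
  linarith

/-! ### values of `b` -/

theorem b_1 (h : SPair c W V I k c) {y : ℝ} (h1 : -(1 / 2) < y) (h2 : y ≤ 1 / 4) :
    b y + 2 / 1000 ≤ 332 / 1024 := by
  have := rd h le_rfl h.c_pos.le b1c (x := y) (by linarith) (by linarith)
    (by push_cast; linarith) (by push_cast; linarith)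
  simp only [Ex.evR_sub, Ex.evR_cst, Ex.evR_var, v19] at this
  norm_num at this ⊢
  linarith

theorem b_2 (h : SPair c W V I k c) {y : ℝ} (h1 : -(1 / 4) < y) (h2 : y ≤ 1 / 2) :
    b y + 2 / 1000 ≤ 309 / 1024 := by
  have := rd h le_rfl h.c_pos.le b2c (x := y) (by linarith) (by linarith)
    (by push_cast; linarith) (by push_cast; linarith)
  simp only [Ex.evR_sub, Ex.evR_cst, Ex.evR_var, v19] at this
  norm_num at this ⊢
  linarith

theorem b_3 (h : SPair c W V I k c) {y : ℝ} (h1 : -(1 / 4) < y) (h2 : y ≤ 11 / 16) :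
    b y + 2 / 1000 ≤ 330 / 1024 := by
  rcases le_or_gt y (1 / 2) with g | g
  · exact (b_2 h h1 g).trans (by norm_num)
  have := rd h le_rfl h.c_pos.le b3c (x := y) (by linarith) (by linarith)
    (by push_cast; linarith) (by push_cast; linarith)
  simp only [Ex.evR_sub, Ex.evR_mul, Ex.evR_cst, Ex.evR_var, v19, v0] at this
  norm_num at this ⊢
  linarith

theorem b_4 (h : SPair c W V I k c) {y : ℝ} (h1 : -(1 / 4) < y) (h2 : y ≤ 61 / 64) :
    b y + 2 / 1000 ≤ 360 / 1024 := by
  rcases le_or_gt y (3 / 4) with g | g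
  · have := rd h le_rfl h.c_pos.le b4c (x := y) (by linarith) (by linarith)
      (by push_cast; linarith) (by push_cast; linarith)
    simp only [Ex.evR_sub, Ex.evR_cst, Ex.evR_var, v19] at this
    norm_num at this ⊢
    linarith
  have := rd h le_rfl h.c_pos.le b5c (x := y) (by linarith) (by linarith)
    (by push_cast; linarith) (by push_cast; linarith)
  simp only [Ex.evR_sub, Ex.evR_mul, Ex.evR_cst, Ex.evR_var, v19, v0] at this
  norm_num at this ⊢
  linarith

theorem b_5 (h : SPair c W V I k c) {y : ℝ} (h1 : -(1 / 4) < y) : b y + 2 / 1000 ≤ 472 / 1000 := by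
  rcases le_or_gt y (7 / 2) with g | g
  · have := rd h le_rfl h.c_pos.le b6c (x := y) (by linarith) (by linarith)
      (by push_cast; linarith) (by push_cast; linarith)
    simp only [Ex.evR_sub, Ex.evR_cst, Ex.evR_var, v19] at this
    norm_num at this ⊢
    linarith
  · rw [b_right g]
    unfold C1D_445.bR
    norm_num

/-! ### the windows -/

theorem V_mono (h : SPair c W V I k c) : StrictMono V := h.V_strictMono

variable {δ x y : ℝ}

/-- lower end of the window: `y > -1/2` -/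
theorem lo_1 (h : SPair c W V I k c) (hδ : 0 < δ) (hδc : δ ≤ c) (h1 : -(1 / 4) < x) (h2 : x ≤ 0)
    (hw : V x * (1 - δ * mmF x) ≤ V y) : -(1 / 2) < y := by
  by_contra hy
  have e1 : V y ≤ V (-(1 / 2)) := (V_mono h).monotone (not_lt.1 hy)
  have e2 := V_mhalf h
  have e3 := rd h hδ.le hδc a2 (x := x) (by linarith) (by linarith)
    (by push_cast; linarith) (by push_cast; linarith)
  have e4 : mmF x = mm x := if_pos (by linarith)
  rw [e4] at hw
  simp only [Ex.evR_sub, lowE_eq, Ex.evR_cst] at e3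
  norm_num at e3
  linarith

/-- lower end of the window: `y > -1/4` -/
theorem lo_2 (h : SPair c W V I k c) (hδ : 0 < δ) (hδc : δ ≤ c) (h1 : 0 < x)
    (hw : V x * (1 - δ * mmF x) ≤ V y) : -(1 / 4) < y := by
  by_contra hy
  have e1 : V y ≤ V (-(1 / 4)) := (V_mono h).monotone (not_lt.1 hy)
  have e2 := V_mq h
  rcases le_or_gt x 3 with g | g
  · have e3 := rd h hδ.le hδc a4 (x := x) (by linarith) (by linarith)
      (by push_cast; linarith) (by push_cast; linarith)
    have e4 : mmF x = mm x := if_pos g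
    rw [e4] at hw
    simp only [Ex.evR_sub, lowE_eq, Ex.evR_cst] at e3
    norm_num at e3
    linarith
  · have e3 := (C2P_490.out_right h g.le).2.1
    have e0 : 0 ≤ mmF x := by
      rw [C2P_490.mmF_ge g.le]
      exact mul_nonneg (by linarith [(C2P_490.dat h).1]) (Real.exp_pos _).le
    have e4 : V (1 / 2) ≤ V x := (V_mono h).monotone (by linarith)
    have e5 := V_half h
    have e6 : δ * mmF x ≤ 1 * (1 / 50) :=
      mul_le_mul (hδc.trans h.c_lt.le) e3 e0 (by norm_num)
    have e7 : V x * (49 / 50) ≤ V x * (1 - δ * mmF x) :=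
      mul_le_mul_of_nonneg_left (by linarith) (h.V_pos x).le
    linarith

theorem up_1 (h : SPair c W V I k c) (hδ : 0 < δ) (hδc : δ ≤ c) (h1 : -(1 / 4) < x) (h2 : x ≤ 0)
    (hw : V y ≤ V x * (1 + δ * mpF x)) : y ≤ 1 / 4 := by
  by_contra hy
  have e1 : V (1 / 4) ≤ V y := (V_mono h).monotone (not_le.1 hy).le
  have e2 := V_q h
  have e3 := rd h hδ.le hδc p1 (x := x) (by linarith) (by linarith)
    (by push_cast; linarith) (by push_cast; linarith)
  have e4 : mpF x = mp x := if_pos (by linarith)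
  rw [e4] at hw
  simp only [Ex.evR_sub, upE_eq, Ex.evR_cst] at e3
  norm_num at e3
  linarith

theorem up_2 (h : SPair c W V I k c) (hδ : 0 < δ) (hδc : δ ≤ c) (h1 : 0 < x) (h2 : x ≤ 1 / 4)
    (hw : V y ≤ V x * (1 + δ * mpF x)) : y ≤ 1 / 2 := by
  by_contra hy
  have e1 : V (1 / 2) ≤ V y := (V_mono h).monotone (not_le.1 hy).le
  have e2 := V_half h
  have e3 := rd h hδ.le hδc p2 (x := x) (by linarith) (by linarith)
    (by push_cast; linarith) (by push_cast; linarith)
  have e4 : mpF x = mp x := if_pos (by linarith)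
  rw [e4] at hw
  simp only [Ex.evR_sub, upE_eq, Ex.evR_cst] at e3
  norm_num at e3
  linarith

theorem up_3 (h : SPair c W V I k c) (hδ : 0 < δ) (hδc : δ ≤ c) (h1 : 1 / 4 < x) (h2 : x ≤ 1 / 2)
    (hw : V y ≤ V x * (1 + δ * mpF x)) : y ≤ 11 / 16 := by
  by_contra hy
  have e1 : V (11 / 16) ≤ V y := (V_mono h).monotone (not_le.1 hy).le
  have e2 := V_11 h
  have e3 := rd h hδ.le hδc p3 (x := x) (by linarith) (by linarith)
    (by push_cast; linarith) (by push_cast; linarith)
  have e4 : mpF x = mp x := if_pos (by linarith)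
  rw [e4] at hw
  simp only [Ex.evR_sub, upE_eq, Ex.evR_cst] at e3
  norm_num at e3
  linarith

theorem up_4 (h : SPair c W V I k c) (hδ : 0 < δ) (hδc : δ ≤ c) (h1 : 1 / 2 < x) (h2 : x ≤ 3 / 4)
    (hw : V y ≤ V x * (1 + δ * mpF x)) : y ≤ 61 / 64 := by
  by_contra hy
  have e1 : V (61 / 64) ≤ V y := (V_mono h).monotone (not_le.1 hy).le
  have e2 := V_61 h
  have e3 := rd h hδ.le hδc p4 (x := x) (by linarith) (by linarith)
    (by push_cast; linarith) (by push_cast; linarith)
  have e4 : mpF x = mp x := if_pos (by linarith)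
  rw [e4] at hw
  simp only [Ex.evR_sub, upE_eq, Ex.evR_cst] at e3
  norm_num at e3
  linarith

/-- **the shape over the window, position `x > -1/4`** -/
theorem eR (h : SPair c W V I k c) (hδ : 0 < δ) (hδc : δ ≤ c) (hx : -(1 / 4) < x)
    (hw1 : V x * (1 - δ * mmF x) ≤ V y) (hw2 : V y ≤ V x * (1 + δ * mpF x)) :
    b y + 2 / 1000 ≤ Ek x := by
  unfold Ek
  rcases le_or_gt x 0 with g | g
  · rw [if_pos g]
    exact b_1 h (lo_1 h hδ hδc hx g hw1) (up_1 h hδ hδc hx g hw2)
  rw [if_neg (not_le.2 g)]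
  have l := lo_2 h hδ hδc g hw1
  rcases le_or_gt x (1 / 4) with g2 | g2
  · rw [if_pos g2]
    exact b_2 h l (up_2 h hδ hδc g g2 hw2)
  rw [if_neg (not_le.2 g2)]
  rcases le_or_gt x (1 / 2) with g3 | g3
  · rw [if_pos g3]
    exact b_3 h l (up_3 h hδ hδc g2 g3 hw2)
  rw [if_neg (not_le.2 g3)]
  rcases le_or_gt x (3 / 4) with g4 | g4
  · rw [if_pos g4]
    exact b_4 h l (up_4 h hδ hδc g3 g4 hw2)
  rw [if_neg (not_le.2 g4)]
  exact (b_5 h l).trans (by norm_num)

theorem eR' (h : SPair c W V I k c) (hδ : 0 < δ) (hδc : δ ≤ c) (hx : 3 / 4 < x)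
    (hw1 : V x * (1 - δ * mmF x) ≤ V y) : b y + 2 / 1000 ≤ 472 / 1000 :=
  b_5 h (lo_2 h hδ hδc (by linarith) hw1)

/-- `y ≤ x` gives the upper half of the window for free -/
theorem hEm_right (h : SPair c W V I k c) (hδ : 0 < δ) (hδc : δ ≤ c) (hx : -1 / 4 < x)
    (hyx : y ≤ x) (hw1 : V x * (1 - δ * mmF x) ≤ V y) : b y + 2 / 1000 ≤ Ek x := by
  have hx' : -(1 / 4) < x := by linarith
  unfold Ek
  rcases le_or_gt x 0 with g | g
  · rw [if_pos g]
    exact b_1 h (lo_1 h hδ hδc hx' g hw1) (by linarith)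
  rw [if_neg (not_le.2 g)]
  have l := lo_2 h hδ hδc g hw1
  rcases le_or_gt x (1 / 4) with g2 | g2
  · rw [if_pos g2]
    exact b_2 h l (by linarith)
  rw [if_neg (not_le.2 g2)]
  rcases le_or_gt x (1 / 2) with g3 | g3
  · rw [if_pos g3]
    exact b_3 h l (by linarith)
  rw [if_neg (not_le.2 g3)]
  rcases le_or_gt x (3 / 4) with g4 | g4
  · rw [if_pos g4]
    exact b_4 h l (by linarith)
  rw [if_neg (not_le.2 g4)]
  exact (b_5 h l).trans (by norm_num)

/-- `x ≤ y` gives the lower half of the window for free -/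
theorem hEp_right (h : SPair c W V I k c) (hδ : 0 < δ) (hδc : δ ≤ c) (hx : -1 / 4 < x)
    (hxy : x ≤ y) (hw2 : V y ≤ V x * (1 + δ * mpF x)) : b y + 2 / 1000 ≤ Ek x := by
  have hx' : -(1 / 4) < x := by linarith
  unfold Ek
  rcases le_or_gt x 0 with g | g
  · rw [if_pos g]
    exact b_1 h (by linarith) (up_1 h hδ hδc hx' g hw2)
  rw [if_neg (not_le.2 g)]
  have l : -(1 / 4) < y := by linarith
  rcases le_or_gt x (1 / 4) with g2 | g2
  · rw [if_pos g2]
    exact b_2 h l (up_2 h hδ hδc g g2 hw2)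
  rw [if_neg (not_le.2 g2)]
  rcases le_or_gt x (1 / 2) with g3 | g3
  · rw [if_pos g3]
    exact b_3 h l (up_3 h hδ hδc g2 g3 hw2)
  rw [if_neg (not_le.2 g3)]
  rcases le_or_gt x (3 / 4) with g4 | g4
  · rw [if_pos g4]
    exact b_4 h l (up_4 h hδ hδc g3 g4 hw2)
  rw [if_neg (not_le.2 g4)]
  exact (b_5 h l).trans (by norm_num)

/-- for `x > 3/4`, both halves -/
theorem hE_472m (h : SPair c W V I k c) (hδ : 0 < δ) (hδc : δ ≤ c) (hx : 3 / 4 < x)
    (hw1 : V x * (1 - δ * mmF x) ≤ V y) : b y + 2 / 1000 ≤ 472 / 1000 :=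
  eR' h hδ hδc hx hw1

theorem hE_472p (h : SPair c W V I k c) (hx : 3 / 4 < x) (hxy : x ≤ y) :
    b y + 2 / 1000 ≤ 472 / 1000 := b_5 h (by linarith)

end

end Crest.Agent.R146.C2Z_791
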