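import Crest.Agent.R146.Clo_924

/-!
# Row 146, NUMREF, closure certificate in gauge variables (helper924)

`q = V R / I`, `hq = H q / V = (R k q + R² - (1-c) U q)/2`.

* `gaL` : left gauge (× q / V), used on `(-oo, 3/4]`;
* `gaR` : right gauge (× q² / (R² V), `H ≤ I R / 2`), used on `[3/4, oo)`.
-/

set_option autoImplicit false

namespace Crest.Agent.R146.CloG_924

open Set Filter Topology
open Crest.Agent.R146.SPair_307 Crest.Agent.R146.HFact_924 Crest.Agent.R146.Clo_924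

noncomputable section

/-- left gauge: `u = W - x`, `q = V (1-V) / I` -/
def gaL (c a F G B σ v I k q u : ℝ) : ℝ :=
  2 * G * (q * (1 - v) ^ 2)
    - (B * (I * (1 - v) * (1 + σ * B) + 2 * c * (q * (1 - v) ^ 2)
        + k * (((1 - v) * k * q + (1 - v) ^ 2 - (1 - c) * u * q) / 2))
      + F * (((1 - v) * k * q + (1 - v) ^ 2 - (1 - c) * u * q) / 2)
      + a * (1 + σ * B) * (v * (k * (((1 - v) * k * q + (1 - v) ^ 2 - (1 - c) * u * q) / 2)
          - I * (1 - v) + 2 * c * (q * (1 - v) ^ 2))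
        + I * (((1 - v) * k * q + (1 - v) ^ 2 - (1 - c) * u * q) / 2)))

/-- right gauge -/
def gaR (c a F G B σ v I k q : ℝ) : ℝ :=
  2 * G * q ^ 2
    - (B * (v * (1 + σ * B) + 2 * c * q ^ 2 + k * (q / 2)) + F * (q / 2)
      + a * (1 + σ * B) * (v * (k * (q / 2) - v + 2 * c * q ^ 2) + I * (q / 2)))

variable {c a F G : ℝ} {B W V I k : ℝ → ℝ}

theorem PHI_left (h : SPair c W V I k c) (x σ : ℝ)
    (hG : 0 ≤ gaL c a F G (B x) σ (V x) (I x) (k x) (V x * (1 - V x) / I x) (W x - x)) :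
    PHI c a F (B x) σ (V x) (I x) (k x) (HH c W V I k x) ≤ 2 * G * (V x * (1 - V x) ^ 2) := by
  have hI := h.I_pos x
  have hV := h.V_pos x
  have hR : 0 < 1 - V x := by linarith [h.V_lt x]
  have e : 2 * G * (V x * (1 - V x) ^ 2) - PHI c a F (B x) σ (V x) (I x) (k x) (HH c W V I k x)
      = (I x / (1 - V x))
        * gaL c a F G (B x) σ (V x) (I x) (k x) (V x * (1 - V x) / I x) (W x - x) := by
    unfold PHI gaL HH
    field_simp
  have h2 : 0 ≤ (I x / (1 - V x))
        * gaL c a F G (B x) σ (V x) (I x) (k x) (V x * (1 - V x) / I x) (W x - x) :=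
    mul_nonneg (by positivity) hG
  linarith

theorem PHI_right (h : SPair c W V I k c) (x σ : ℝ) (ha : 0 ≤ a) (hF : 0 ≤ F) (hB : 0 ≤ B x)
    (hs : 0 ≤ 1 + σ * B x)
    (hG : 0 ≤ gaR c a F G (B x) σ (V x) (I x) (k x) (V x * (1 - V x) / I x)) :
    PHI c a F (B x) σ (V x) (I x) (k x) (HH c W V I k x) ≤ 2 * G * (V x * (1 - V x) ^ 2) := by
  have hI := h.I_pos x
  have hV := h.V_pos x
  have hk := h.k_pos x
  have hR : 0 < 1 - V x := by linarith [h.V_lt x]
  have hH := (H_lt h x).le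
  have e : 2 * G * (V x * (1 - V x) ^ 2) - PHI c a F (B x) σ (V x) (I x) (k x)
        (I x * (1 - V x) / 2)
      = (I x ^ 2 / V x) * gaR c a F G (B x) σ (V x) (I x) (k x) (V x * (1 - V x) / I x) := by
    unfold PHI gaR
    field_simp
  have h2 : 0 ≤ (I x ^ 2 / V x)
      * gaR c a F G (B x) σ (V x) (I x) (k x) (V x * (1 - V x) / I x) :=
    mul_nonneg (by positivity) hG
  have h3 : PHI c a F (B x) σ (V x) (I x) (k x) (HH c W V I k x)
      ≤ PHI c a F (B x) σ (V x) (I x) (k x) (I x * (1 - V x) / 2) := by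
    have h4 : 0 ≤ (B x * k x + F + a * (1 + σ * B x) * (V x * k x + I x))
        * (I x * (1 - V x) / 2 - HH c W V I k x) :=
      mul_nonneg (by positivity) (by linarith)
    unfold PHI
    nlinarith
  linarith

/-- **`Cert` from the two gauge forms** -/
theorem cert_of (h : SPair c W V I k c) (ha : 0 ≤ a) (hF : 0 ≤ F) (hB : ∀ x, 0 ≤ B x)
    (hB1 : ∀ x, c * B x ≤ 1) (y0 : ℝ)
    (hL : ∀ x ≤ y0, ∀ σ, σ = c ∨ σ = -c →
      0 ≤ gaL c a F G (B x) σ (V x) (I x) (k x) (V x * (1 - V x) / I x) (W x - x))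
    (hR : ∀ x, y0 ≤ x → ∀ σ, σ = c ∨ σ = -c →
      0 ≤ gaR c a F G (B x) σ (V x) (I x) (k x) (V x * (1 - V x) / I x)) :
    Cert c a F G B W V I k := by
  intro x σ hs
  rcases le_total x y0 with hx | hx
  · exact PHI_left h x σ (hL x hx σ hs)
  · refine PHI_right h x σ ha hF (hB x) ?_ (hR x hx σ hs)
    have h1 := hB1 x
    have h2 := mul_nonneg h.c_pos.le (hB x)
    rcases hs with rfl | rfl <;> linarith

end

end Crest.Agent.R146.CloG_924
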