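import Crest.Agent.R146.CloTail_649
import Crest.Agent.R146.CloG_924

/-!
# Row 146, NUMREF, closure: the tails plugged into `Clo_924.Cert` (helper649)

`cert_of_cells`: `Cert` from the gauge forms `gaL` on `[-5, y0]` and `gaR` on `[y0, 3]` only.
-/

set_option autoImplicit false

namespace Crest.Agent.R146.CloTail2_649

open Crest.Agent.R146.SPair_307 Crest.Agent.R146.HFact_924 Crest.Agent.R146.Clo_924
open Crest.Agent.R146.CloG_924 Crest.Agent.R146.CloTail_649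

variable {c : ℝ} {W V I k : ℝ → ℝ}

/-- `PHI ≤ 2 G w` in the tails -/
theorem phi_tail (h : SPair c W V I k c) (hc1 : 0.4157 ≤ c) (hc2 : c ≤ 0.4158) {x B F a G σ : ℝ}
    (hx : Tail x B) (hb0 : 0 ≤ B) (hF0 : 0 ≤ F) (hF : F ≤ 3 / 2) (ha0 : 4 / 5 ≤ a) (ha : a ≤ 1)
    (hG : 9 / 10 ≤ G) (hσ : σ = c ∨ σ = -c) :
    PHI c a F B σ (V x) (I x) (k x) (HH c W V I k x) ≤ 2 * G * (V x * (1 - V x) ^ 2) := by
  have hc := h.c_pos
  have hw : 0 ≤ V x * (1 - V x) ^ 2 := mul_nonneg (h.V_pos x).le (sq_nonneg _)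
  have hG' : 2 * (9 / 10) * (V x * (1 - V x) ^ 2) ≤ 2 * G * (V x * (1 - V x) ^ 2) :=
    mul_le_mul_of_nonneg_right (by linarith) hw
  have e : HH c W V I k x = Hf c W V I k x := rfl
  rw [e]
  rcases hσ with rfl | rfl
  · have h1 := up_tail h hc1 hc2 hx hb0 hF0 hF ha0 ha hc.le le_rfl
    refine le_trans (le_of_eq ?_) (h1.trans hG')
    unfold PHI
    ring
  · have h1 := lo_tail h hc1 hc2 hx hb0 hF0 hF ha0 ha hc.le le_rfl
    refine le_trans (le_of_eq ?_) (h1.trans hG')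
    unfold PHI
    ring

/-- **`Cert` from the cells on `[-5, 3]`** -/
theorem cert_of_cells (h : SPair c W V I k c) (hc1 : 0.4157 ≤ c) (hc2 : c ≤ 0.4158)
    {a F G : ℝ} {B : ℝ → ℝ} (ha0 : 4 / 5 ≤ a) (ha : a ≤ 1) (hF0 : 0 ≤ F) (hF : F ≤ 3 / 2)
    (hG : 9 / 10 ≤ G) (hB : ∀ x, 0 ≤ B x) (hB1 : ∀ x, c * B x ≤ 1)
    (hBL : ∀ x ≤ -5, B x ≤ 5 / 4) (hBR : ∀ x, 3 ≤ x → B x ≤ 1 / 2) (y0 : ℝ)
    (hL : ∀ x, -5 ≤ x → x ≤ y0 → ∀ σ, σ = c ∨ σ = -c →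
      0 ≤ gaL c a F G (B x) σ (V x) (I x) (k x) (V x * (1 - V x) / I x) (W x - x))
    (hR : ∀ x, y0 ≤ x → x ≤ 3 → ∀ σ, σ = c ∨ σ = -c →
      0 ≤ gaR c a F G (B x) σ (V x) (I x) (k x) (V x * (1 - V x) / I x)) :
    Cert c a F G B W V I k := by
  intro x σ hs
  rcases le_total x (-5) with hx | hx
  · exact phi_tail h hc1 hc2 (Or.inl ⟨hx, hBL x hx⟩) (hB x) hF0 hF ha0 ha hG hs
  rcases le_total 3 x with hx3 | hx3
  · exact phi_tail h hc1 hc2 (Or.inr ⟨hx3, hBR x hx3⟩) (hB x) hF0 hF ha0 ha hG hs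
  rcases le_total x y0 with hx0 | hx0
  · exact PHI_left h x σ (hL x hx hx0 σ hs)
  · refine PHI_right h x σ (by linarith) hF0 (hB x) ?_ (hR x hx0 hx3 σ hs)
    have h1 := hB1 x
    have h2 := mul_nonneg h.c_pos.le (hB x)
    rcases hs with rfl | rfl
    · linarith
    · linarith

end Crest.Agent.R146.CloTail2_649
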