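import Crest.Agent.R146.QEnc_848
import Crest.Agent.R146.C1D_445
import Crest.Agent.R146.PP3_865
import Crest.Agent.R146.CloTail2_649

/-!
# Row 146, NUMREF, closure cells (helper848)

`gaL ≥ 0` on `[-5, 7/8]`, `gaR ≥ 0` on `[7/8, 3]`, for `σ = ±c`, `B = b + 1/512`, `a = 9/10`, `F = 3/2`,
`G = 19/20`; hence `Clo_924.Cert` for the closed stationary pair (`cert`).
-/

set_option autoImplicit false
set_option linter.unusedSimpArgs false

namespace Crest.Agent.R146.C3Cell_848

open Set Filter Topology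
open Crest.Agent.R146.PP865 Crest.Agent.R146.EncData_848 Crest.Agent.R146.EncR_848
open Crest.Agent.R146.Enc1_848 Crest.Agent.R146.Enc2_848
open Crest.Agent.R146.Enc3_848 Crest.Agent.R146.SPair_307 Crest.Agent.R146.C1D_445
open Crest.Agent.R146.CloG_924 Crest.Agent.R146.Clo_924

noncomputable section

def cn (n : ℤ) : Ex := .cst n 0

/-- `20 gaL`; variables `0 x, 1 W, 2 V, 3 I, 4 k, 7 q, 19 b, 24 c, 25 σ` -/
def eB : Ex := .var 19 + .cst 1 9
def eR : Ex := cn 1 - .var 2
def eqR : Ex := .var 7 * (eR * eR)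
def eh : Ex := eR * .var 4 * .var 7 + eR * eR - (cn 1 - .var 24) * (.var 1 - .var 0) * .var 7
def eL20 : Ex := cn 38 * eqR - (cn 20 * eB * (.var 3 * eR * (cn 1 + .var 25 * eB)
    + cn 2 * .var 24 * eqR) + cn 10 * eB * .var 4 * eh + cn 15 * eh
    + cn 9 * (cn 1 + .var 25 * eB) * (.var 2 * (.var 4 * eh - cn 2 * (.var 3 * eR)
      + cn 4 * .var 24 * eqR) + .var 3 * eh))

/-- `20 gaR` -/
def eR20 : Ex := cn 38 * (.var 7 * .var 7) - (cn 20 * eB * (.var 2 * (cn 1 + .var 25 * eB)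
    + cn 2 * .var 24 * (.var 7 * .var 7)) + cn 10 * eB * .var 4 * .var 7 + cn 15 * .var 7
    + cn 9 * (cn 1 + .var 25 * eB) * (.var 2 * (.var 4 * .var 7 - cn 2 * .var 2
      + cn 4 * .var 24 * (.var 7 * .var 7)) + .var 3 * .var 7))

/-- error radii in units `2^-36` -/
def err (i : ℕ) : ℕ :=
  if i = 1 then 13 * 2 ^ 16 else if i = 2 then 98 * 2 ^ 16 else if i = 3 then 460 * 2 ^ 16
  else if i = 4 then 336 * 2 ^ 16 else if i = 7 then 352 * 2 ^ 16 else 0

def prp : List Prm := [(24, .cst 435929 20, .cst 435931 20), (25, .cst 435929 20, .cst 435931 20)]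
def prm : List Prm :=
  [(24, .cst 435929 20, .cst 435931 20), (25, .cst (-435931) 20, .cst (-435929) 20)]

theorem cLp : checkBoxT 36 4 8 30 21 err (-40) 7 prp eL20 P0 PS = true := by decide +kernel
theorem cLm : checkBoxT 36 4 8 30 21 err (-40) 7 prm eL20 P0 PS = true := by decide +kernel
theorem cRp : checkBoxT 36 4 8 30 21 err 7 24 prp eR20 P0 PS = true := by decide +kernel
theorem cRm : checkBoxT 36 4 8 30 21 err 7 24 prm eR20 P0 PS = true := by decide +kernel

section main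

variable {c : ℝ} {W V I k : ℝ → ℝ}

/-- the values of the variables -/
def wv (c : ℝ) (W V I k : ℝ → ℝ) (σ x : ℝ) (i : ℕ) : ℝ :=
  if i = 1 then W x else if i = 2 then V x else if i = 3 then I x else if i = 4 then k x
  else if i = 7 then V x * (1 - V x) / I x else if i = 24 then c else if i = 25 then σ
  else cv 36 P0 PS x i

theorem wv0 (σ x : ℝ) : wv c W V I k σ x 0 = x := rfl
theorem wv1 (σ x : ℝ) : wv c W V I k σ x 1 = W x := rfl
theorem wv2 (σ x : ℝ) : wv c W V I k σ x 2 = V x := rfl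
theorem wv3 (σ x : ℝ) : wv c W V I k σ x 3 = I x := rfl
theorem wv4 (σ x : ℝ) : wv c W V I k σ x 4 = k x := rfl
theorem wv7 (σ x : ℝ) : wv c W V I k σ x 7 = V x * (1 - V x) / I x := rfl
theorem wv19 (σ x : ℝ) : wv c W V I k σ x 19 = b x := rfl
theorem wv24 (σ x : ℝ) : wv c W V I k σ x 24 = c := rfl
theorem wv25 (σ x : ℝ) : wv c W V I k σ x 25 = σ := rfl

theorem F0_eq : Fn 36 0 P0 PS = F 0 := Fn_exts (by norm_num) len6 _ _
theorem F10_eq : Fn1 36 0 P0 PS = F1 0 := Fn1_exts (by norm_num) len6 _ _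
theorem F20_eq : Fn2 36 0 P0 PS = F2 0 := Fn2_exts (by norm_num) len6 _ _
theorem F1_eq : Fn 36 1 P0 PS = F 1 := Fn_exts (by norm_num) len6 _ _
theorem F2_eq : Fn 36 2 P0 PS = F 2 := Fn_exts (by norm_num) len6 _ _

theorem cv1 (x : ℝ) : cv 36 P0 PS x 1 = F 0 x := congrFun F0_eq x
theorem cv2 (x : ℝ) : cv 36 P0 PS x 2 = F1 0 x := congrFun F10_eq x
theorem cv3 (x : ℝ) : cv 36 P0 PS x 3 = F2 0 x := congrFun F20_eq x
theorem cv4 (x : ℝ) : cv 36 P0 PS x 4 = F 1 x := congrFun F1_eq x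
theorem cv7 (x : ℝ) : cv 36 P0 PS x 7 = F 2 x := congrFun F2_eq x

theorem encI5 (h : SPair c W V I k c) {x : ℝ} (h1 : -5 ≤ x) (h2 : x ≤ 3) :
    |I x - F2 0 x| ≤ 460 / 2 ^ 20 := by
  rcases le_total (-3) x with h3 | h3
  · exact (enc h).I3 x h3 h2
  · obtain ⟨hc1, hc2⟩ := c_box h
    refine ((enc h).I8 x (by linarith) (by linarith)).trans ?_
    have a1 : |2 * Ad c W x| ≤ 434 / 100 := by
      have b1 := h.W_pos x
      have b2 := mulW_le h (show x ≤ 0 by linarith)
      have b3 : W x ≤ 1 / 12 := by nlinarith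
      have hc := h.c_pos
      have b4 : 0 < 2 * c * W x := by positivity
      have b5 : 2 * c * W x ≤ 2 * c * (1 / 12) := mul_le_mul_of_nonneg_left b3 (by linarith)
      norm_num at hc1 hc2
      rw [Ad_eq, abs_le]
      constructor
      · nlinarith
      · nlinarith
    have : (26 + 98 * |2 * Ad c W x|) / 2 ^ 20 ≤ (26 + 98 * (434 / 100)) / 2 ^ 20 := by gcongr
    refine this.trans ?_
    norm_num

theorem wv_err (h : SPair c W V I k c) {x : ℝ} (h1 : -5 ≤ x) (h2 : x ≤ 3) (σ : ℝ) :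
    ∀ i ≤ 21, |wv c W V I k σ x i - cv 36 P0 PS x i| ≤ (err i : ℝ) / 2 ^ 36 := by
  intro i hi
  by_cases i1 : i = 1
  · subst i1
    rw [wv1, cv1]
    refine ((enc h).W8 x (by linarith) (by linarith)).trans (le_of_eq ?_)
    norm_num [err]
  by_cases i2 : i = 2
  · subst i2
    rw [wv2, cv2]
    refine ((enc h).V8 x (by linarith) (by linarith)).trans (le_of_eq ?_)
    norm_num [err]
  by_cases i3 : i = 3
  · subst i3
    rw [wv3, cv3]
    refine (encI5 h h1 h2).trans (le_of_eq ?_)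
    norm_num [err]
  by_cases i4 : i = 4
  · subst i4
    rw [wv4, cv4]
    refine ((enc h).k6 x (by linarith) (by linarith)).trans (le_of_eq ?_)
    norm_num [err]
  by_cases i7 : i = 7
  · subst i7
    rw [wv7, cv7]
    refine (QEnc_848.encQ h (by linarith) (by linarith)).trans (le_of_eq ?_)
    norm_num [err]
  have e1 : wv c W V I k σ x i = cv 36 P0 PS x i := by
    unfold wv
    rw [if_neg i1, if_neg i2, if_neg i3, if_neg i4, if_neg i7, if_neg (by omega),
      if_neg (by omega)]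
  rw [e1, sub_self, abs_zero]
  positivity

theorem lo8' : P0.lo = -8 := by
  have h1 : P0.c = -63 := by decide +kernel
  have h2 : P0.j = 3 := by decide +kernel
  unfold Pc.lo
  rw [h1, h2]
  norm_num

theorem hi8' : hiL P0 PS = 8 := by
  rw [hiL_eq]
  have h1 : (lastP P0 PS).c = 63 := by decide +kernel
  have h2 : (lastP P0 PS).j = 3 := by decide +kernel
  unfold Pc.hi
  rw [h1, h2]
  norm_num

theorem evL (σ x : ℝ) : eL20.evR (wv c W V I k σ x)
    = 20 * gaL c (9 / 10) (3 / 2) (19 / 20) (b x + 1 / 512) σ (V x) (I x) (k x)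
      (V x * (1 - V x) / I x) (W x - x) := by
  simp only [eL20, eB, eR, eqR, eh, cn, Ex.evR_sub, Ex.evR_add, Ex.evR_mul, Ex.evR_cst, Ex.evR_var,
    wv0, wv1, wv2, wv3, wv4, wv7, wv19, wv24, wv25]
  push_cast
  unfold gaL
  ring

theorem evRR (σ x : ℝ) : eR20.evR (wv c W V I k σ x)
    = 20 * gaR c (9 / 10) (3 / 2) (19 / 20) (b x + 1 / 512) σ (V x) (I x) (k x)
      (V x * (1 - V x) / I x) := by
  simp only [eR20, eB, eR, eqR, eh, cn, Ex.evR_sub, Ex.evR_add, Ex.evR_mul, Ex.evR_cst, Ex.evR_var,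
    wv0, wv1, wv2, wv3, wv4, wv7, wv19, wv24, wv25]
  push_cast
  unfold gaR
  ring

theorem cells (h : SPair c W V I k c) {σ : ℝ} (hσ : σ = c ∨ σ = -c) :
    (∀ x, -5 ≤ x → x ≤ 7 / 8 → 0 ≤ gaL c (9 / 10) (3 / 2) (19 / 20) (b x + 1 / 512) σ (V x) (I x)
      (k x) (V x * (1 - V x) / I x) (W x - x)) ∧
    (∀ x, 7 / 8 ≤ x → x ≤ 3 → 0 ≤ gaR c (9 / 10) (3 / 2) (19 / 20) (b x + 1 / 512) σ (V x) (I x)
      (k x) (V x * (1 - V x) / I x)) := by
  obtain ⟨hc1, hc2⟩ := c_box h
  have hp : ∀ x : ℝ, ∀ q ∈ prp, q.2.1.evR (wv c W V I k c x) ≤ wv c W V I k c x q.1 ∧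
      wv c W V I k c x q.1 ≤ q.2.2.evR (wv c W V I k c x) := by
    intro x q hq
    simp only [prp, List.mem_cons, List.not_mem_nil, or_false] at hq
    rcases hq with rfl | rfl
    · simp only [Ex.evR_cst, wv24]
      push_cast
      exact ⟨hc1, hc2⟩
    · simp only [Ex.evR_cst, wv25]
      push_cast
      exact ⟨hc1, hc2⟩
  have hm : ∀ x : ℝ, ∀ q ∈ prm, q.2.1.evR (wv c W V I k (-c) x) ≤ wv c W V I k (-c) x q.1 ∧
      wv c W V I k (-c) x q.1 ≤ q.2.2.evR (wv c W V I k (-c) x) := by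
    intro x q hq
    simp only [prm, List.mem_cons, List.not_mem_nil, or_false] at hq
    rcases hq with rfl | rfl
    · simp only [Ex.evR_cst, wv24]
      push_cast
      exact ⟨hc1, hc2⟩
    · simp only [Ex.evR_cst, wv25]
      push_cast
      norm_num at hc1 hc2 ⊢
      exact ⟨by linarith, by linarith⟩
  constructor
  · intro x h1 h2
    have key : 0 < eL20.evR (wv c W V I k σ x) := by
      rcases hσ with rfl | rfl
      · exact checkBoxT_sound adj_PS cLp (by rw [lo8']; linarith) (by rw [hi8']; linarith)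
          (by norm_num; linarith) (by norm_num at h2 ⊢; linarith) (wv0 _ _)
          (wv_err h h1 (by linarith) _) (hp x)
      · exact checkBoxT_sound adj_PS cLm (by rw [lo8']; linarith) (by rw [hi8']; linarith)
          (by norm_num; linarith) (by norm_num at h2 ⊢; linarith) (wv0 _ _)
          (wv_err h h1 (by linarith) _) (hm x)
    rw [evL] at key
    linarith
  · intro x h1 h2
    have key : 0 < eR20.evR (wv c W V I k σ x) := by
      rcases hσ with rfl | rfl
      · exact checkBoxT_sound adj_PS cRp (by rw [lo8']; linarith) (by rw [hi8']; linarith)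
          (by norm_num at h1 ⊢; linarith) (by norm_num at h2 ⊢; linarith) (wv0 _ _)
          (wv_err h (by linarith) h2 _) (hp x)
      · exact checkBoxT_sound adj_PS cRm (by rw [lo8']; linarith) (by rw [hi8']; linarith)
          (by norm_num at h1 ⊢; linarith) (by norm_num at h2 ⊢; linarith) (wv0 _ _)
          (wv_err h (by linarith) h2 _) (hm x)
    rw [evRR] at key
    linarith

end main

end

end Crest.Agent.R146.C3Cell_848
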