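import Crest.Agent.R146.RefWS_355
import Crest.Agent.R146.CloG_924
import Crest.Agent.R146.C1D_445
import Crest.Agent.R146.Enc3_848

/-!
# Row 146, NUMREF, node C3: the fields `clo_p`, `clo_m` of `RefWS_355.XWS` (helper924)

Shape `b = C1D_445.b` (both sides), `gp = 1 + (9/10) δ V`, `gm = 1 - (9/10) δ V`, `e0 ≤ δ/1000`,
`f± + Z ≤ 3/2`, `thi = c + (19/20) δ`, `tlo = c - (19/20) δ`.
-/

set_option autoImplicit false

namespace Crest.Agent.R146.C3_924

open Set Filter Topology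
open Crest.Agent.R146.SPair_307 Crest.Agent.R146.HFact_924 Crest.Agent.R146.Clo_924
open Crest.Agent.R146.CloG_924 Crest.Agent.R146.RefWS_355 Crest.Agent.R146.PairQ_355
open Crest.Agent.R146.PP865 Crest.Agent.R146.EncR_848

noncomputable section

/-! ### bounds of `b` -/

theorem lo8 : (C1D_445.P0).lo = -8 := by
  have h1 : (C1D_445.P0).c = -63 := rfl
  have h2 : (C1D_445.P0).j = 3 := rfl
  unfold Pc.lo
  rw [h1, h2]
  norm_num

theorem hi8 : hiL C1D_445.P0 C1D_445.PS = 8 := by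
  rw [Enc1_848.hiL_eq]
  have h1 : (Enc1_848.lastP C1D_445.P0 C1D_445.PS).c = 63 := by decide +kernel
  have h2 : (Enc1_848.lastP C1D_445.P0 C1D_445.PS).j = 3 := by decide +kernel
  unfold Pc.hi
  rw [h1, h2]
  norm_num

theorem cb1 : chkBoxR 36 3 21 (-64) 64 [] (.cst 1229 10 - .var 19) C1D_445.P0
    C1D_445.PS = true := by decide +kernel
theorem cb2 : chkBoxR 36 3 21 (-64) 64 [] (.var 19 - .cst 1 3) C1D_445.P0
    C1D_445.PS = true := by decide +kernel

theorem b_bd (x : ℝ) : 1 / 8 ≤ C1D_445.b x ∧ C1D_445.b x ≤ 1229 / 1024 := by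
  rcases le_or_gt x (-8) with h1 | h1
  · rw [C1D_445.b_left (by linarith)]
    unfold C1D_445.bL
    norm_num
  rcases le_or_gt x 8 with h2 | h2
  · have a1 := chkBoxR_sound C1D_445.adj_PS cb1 (z := x) (by rw [lo8]; exact h1.le)
      (by rw [hi8]; exact h2) (by norm_num; linarith) (by norm_num; linarith)
      (v := cv 36 C1D_445.P0 C1D_445.PS x) (fun _ _ => rfl) (by simp)
    have a2 := chkBoxR_sound C1D_445.adj_PS cb2 (z := x) (by rw [lo8]; exact h1.le)
      (by rw [hi8]; exact h2) (by norm_num; linarith) (by norm_num; linarith)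
      (v := cv 36 C1D_445.P0 C1D_445.PS x) (fun _ _ => rfl) (by simp)
    simp only [Ex.evR_sub, Ex.evR_var, Ex.evR_cst] at a1 a2
    have e : cv 36 C1D_445.P0 C1D_445.PS x 19 = C1D_445.b x := rfl
    rw [e] at a1 a2
    norm_num at a1 a2 ⊢
    constructor <;> linarith
  · rw [C1D_445.b_right (by linarith)]
    unfold C1D_445.bR
    norm_num

/-- the majorant used in the certificate -/
def BC (x : ℝ) : ℝ := C1D_445.b x + 1 / 512

theorem BC_bd (x : ℝ) : 0 ≤ BC x ∧ BC x ≤ 12026 / 10000 := by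
  have := b_bd x
  unfold BC
  constructor <;> norm_num at this ⊢ <;> linarith

variable {c δ e0 Z thi tlo : ℝ} {W V I k : ℝ → ℝ} {D : XD}

/-- the one-point certificate, constants `a = 9/10`, `F = 3/2`, `G = 19/20` -/
def C3Cert (c : ℝ) (W V I k : ℝ → ℝ) : Prop := Cert c (9 / 10) (3 / 2) (19 / 20) BC W V I k

theorem G0_eq (x : ℝ) : -G0x c W V I k x = HH c W V I k x := by
  unfold G0x HH; ring

/-- **field `clo_p`** -/
theorem clo_p (h : SPair c W V I k c) (hC : C3Cert c W V I k) (hδ : 0 < δ) (hδc : δ ≤ c)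
    (he0 : 0 ≤ e0) (he : e0 ≤ δ / 1000) (hbm : D.bm = C1D_445.b) (hbp : D.bp = C1D_445.b)
    (hgp : D.gp = fun x => 1 + 9 / 10 * δ * V x) (hgp1 : D.gp1 = fun x => 9 / 10 * δ * I x)
    (hZ : ∀ x z, PosX e0 W D x z → |k z - k x| ≤ δ * Z) (hF : D.fm + Z ≤ 3 / 2)
    (x z j L : ℝ) (hP : PosX e0 W D x z) (hj1 : (1 - e0) * (1 - δ * D.bm x) ≤ j)
    (hj2 : j ≤ (1 + e0) * (1 + δ * D.bp x)) (hL0 : 0 ≤ L) (hL1 : k z - δ * D.fm ≤ L) :
    CloX c (c + 19 / 20 * δ) j L (D.gp x) (D.gp1 x) W V I k x ≤ 0 := by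
  obtain ⟨hb1, hb2⟩ := b_bd x
  have hE := Enc3_848.enc h
  have hc2 := hE.c_hi
  have hbm' : D.bm x = C1D_445.b x := by rw [hbm]
  have hbp' : D.bp x = C1D_445.b x := by rw [hbp]
  rw [hbm'] at hj1
  rw [hbp'] at hj2
  have hδ1 : δ ≤ 1 / 2 := by norm_num at hc2; linarith
  have hδb : δ * C1D_445.b x ≤ 5 / 8 := by norm_num at hb2; nlinarith
  have hδb0 : 0 ≤ δ * C1D_445.b x := by positivity
  have hj1' : 1 - δ * BC x ≤ j := by
    refine le_trans ?_ hj1
    unfold BC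
    nlinarith
  have hj2' : j ≤ 1 + δ * BC x := by
    refine hj2.trans ?_
    unfold BC
    nlinarith
  have hz := (abs_le.1 (hZ x z hP)).1
  have hL : k x - δ * (3 / 2) ≤ L := by nlinarith
  have key := up_of h hE.c_lo (a := 9 / 10) (F := 3 / 2) (G := 19 / 20) (B := BC) (by norm_num)
    (by norm_num) hδ hδc hC x hj1' hj2' hL0 hL
  have e : CloX c (c + 19 / 20 * δ) j L (D.gp x) (D.gp1 x) W V I k x
      = I x ^ 2 * j * (j - (1 + 9 / 10 * δ * V x)) + 2 * (V x * (1 - V x) ^ 2) *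
        (c * j * (1 + 9 / 10 * δ * V x) - (c + 19 / 20 * δ))
        + (1 + 9 / 10 * δ * V x) * HH c W V I k x * (j * k x - L)
        + j * (9 / 10 * δ * I x) * HH c W V I k x := by
    rw [hgp, hgp1]
    unfold CloX
    rw [G0_eq]
    ring
  rw [e]
  exact key

/-- **field `clo_m`** -/
theorem clo_m (h : SPair c W V I k c) (hC : C3Cert c W V I k) (hδ : 0 < δ) (hδc : δ ≤ c)
    (he0 : 0 ≤ e0) (he : e0 ≤ δ / 1000) (hbm : D.bm = C1D_445.b)
    (hgm : D.gm = fun x => 1 - 9 / 10 * δ * V x) (hgm1 : D.gm1 = fun x => -(9 / 10 * δ * I x))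
    (hZ : ∀ x z, PosX e0 W D x z → |k z - k x| ≤ δ * Z) (hF : D.fp + Z ≤ 3 / 2)
    (x z j L : ℝ) (hP : PosX e0 W D x z) (hj1 : (1 - e0) * (1 - δ * D.bm x) ≤ j)
    (hL1 : L ≤ k z + δ * D.fp) :
    0 ≤ CloX c (c - 19 / 20 * δ) j L (D.gm x) (D.gm1 x) W V I k x := by
  obtain ⟨hb1, hb2⟩ := b_bd x
  have hE := Enc3_848.enc h
  have hc2 := hE.c_hi
  have hbm' : D.bm x = C1D_445.b x := by rw [hbm]
  rw [hbm'] at hj1
  have hδ1 : δ ≤ 1 / 2 := by norm_num at hc2; linarith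
  have hδb : δ * C1D_445.b x ≤ 5 / 8 := by norm_num at hb2; nlinarith
  have hδb0 : 0 ≤ δ * C1D_445.b x := by positivity
  have hj1' : 1 - δ * BC x ≤ j := by
    refine le_trans ?_ hj1
    unfold BC
    nlinarith
  have hz := (abs_le.1 (hZ x z hP)).2
  have hL : L ≤ k x + δ * (3 / 2) := by nlinarith
  have key := lo_of h hE.c_lo hE.c_hi (a := 9 / 10) (F := 3 / 2) (G := 19 / 20) (B := BC)
    (by norm_num) (by norm_num) (by norm_num) hδ hδc (fun x => (BC_bd x).1) (fun x => (BC_bd x).2)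
    hC x hj1' hL
  have e : CloX c (c - 19 / 20 * δ) j L (D.gm x) (D.gm1 x) W V I k x
      = I x ^ 2 * j * (j - (1 - 9 / 10 * δ * V x)) + 2 * (V x * (1 - V x) ^ 2) *
        (c * j * (1 - 9 / 10 * δ * V x) - (c - 19 / 20 * δ))
        + (1 - 9 / 10 * δ * V x) * HH c W V I k x * (j * k x - L)
        + j * (-(9 / 10 * δ * I x)) * HH c W V I k x := by
    rw [hgm, hgm1]
    unfold CloX
    rw [G0_eq]
    ring
  rw [e]
  exact key

end

end Crest.Agent.R146.C3_924
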