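import Crest.Agent.R146.Fix_181

/-!
# Row 146: existence of the CLOSED stationary pair (`lam = c`)

`exists_closed : ∃ c W V I k, 1/3 < c ∧ c < 9/10 ∧ SPair c W V I k c` and
`0.2936533 < c / (1 + c) < 0.2936535` for every closed pair (`enclosure_of_closure` of helper307/109).
-/

set_option autoImplicit false

namespace Crest.Agent.R146.Fix2_181

open Set Filter Topology
open Stat7_307 SPair_307 Fix_181

variable {c lam : ℝ} {W V I k : ℝ → ℝ}

/-- `lam > c` for `c ≤ 1/3`. -/
lemma lt_lam (h : SPair c W V I k lam) (hc : c ≤ 1 / 3) : c < lam := by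
  have := h.lam_gt
  linarith

lemma W_zero_le (h : SPair c W V I k lam) : W 0 ≤ 1 / 2 := by
  have h1 := h.W_le 0
  have h2 : Real.sqrt ((0 : ℝ) ^ 2 + 1) = 1 := by norm_num
  rw [h2] at h1
  linarith

lemma V_le_half (h : SPair c W V I k lam) {x : ℝ} (hx : x ≤ -1) : V x ≤ 1 / 2 := by
  have h1 : V (-1) ≤ W 0 - W (-1) := by
    have hmono : MonotoneOn (fun t => W t - V (-1) * t) (Ici (-1)) := by
      apply monotoneOn_of_deriv_nonneg (convex_Ici _)
      · exact fun t _ => ((h.dW t).sub ((hasDerivAt_id t).const_mul _)).continuousAt.continuousWithinAt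
      · exact fun t _ =>
          ((h.dW t).sub ((hasDerivAt_id t).const_mul _)).differentiableAt.differentiableWithinAt
      · intro t ht
        rw [interior_Ici] at ht
        have ht' : -1 < t := ht
        have hdd : deriv (fun t => W t - V (-1) * t) t = V t - V (-1) * 1 :=
          ((h.dW t).sub ((hasDerivAt_id t).const_mul _)).deriv
        rw [hdd]
        have := h.V_strictMono ht'
        linarith
    have h2 := hmono (mem_Ici.2 (le_refl (-1 : ℝ))) (mem_Ici.2 (by norm_num : (-1 : ℝ) ≤ 0))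
      (by norm_num)
    simp only [mul_zero, sub_zero] at h2
    linarith
  have h2 := h.V_strictMono.monotone hx
  have h3 := W_zero_le h
  have h4 := h.W_pos (-1)
  linarith

/-- `lam < c` at `c = 9/10` (Riccati blow-up on `[-4,-1]`). -/
lemma lam_lt_of (h : SPair (9 / 10) W V I k lam) : lam < 9 / 10 := by
  by_contra hcon
  push Not at hcon
  have hder : ∀ x, x ≤ -1 → -4 ≤ x →
      (k x - 1 / 5) ^ 2 + 3 / 4 ≤ k x ^ 2 + 2 * Ad (9 / 10) W x * k x - 2 * Ad1 (9 / 10) V x
        + 2 * lam := by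
    intro x hx hx4
    have h1 := V_le_half h hx
    have h2 := h.k_pos x
    have h3 := h.W_pos x
    have h4 : -(1 / 5) ≤ Ad (9 / 10) W x := by
      unfold Ad
      linarith
    have h5 : Ad1 (9 / 10) V x ≤ 1 / 2 := by
      unfold Ad1
      linarith
    nlinarith
  have hdx := h.dk
  -- stage 1
  have hm1 : MonotoneOn (fun x => k x - 3 / 4 * x) (Icc (-4) (-1)) := by
    apply monotoneOn_of_deriv_nonneg (convex_Icc _ _)
    · exact fun t _ => ((hdx t).sub ((hasDerivAt_id t).const_mul _)).continuousAt.continuousWithinAt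
    · exact fun t _ =>
        ((hdx t).sub ((hasDerivAt_id t).const_mul _)).differentiableAt.differentiableWithinAt
    · intro t ht
      rw [interior_Icc] at ht
      have hdd : deriv (fun x => k x - 3 / 4 * x) t =
          (k t ^ 2 + 2 * Ad (9 / 10) W t * k t - 2 * Ad1 (9 / 10) V t + 2 * lam) - 3 / 4 * 1 :=
        ((hdx t).sub ((hasDerivAt_id t).const_mul _)).deriv
      rw [hdd]
      have := hder t ht.2.le ht.1.le
      nlinarith [sq_nonneg (k t - 1 / 5)]
  have hk2 : ∀ x ∈ Icc (-2 : ℝ) (-1), 3 / 2 ≤ k x := by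
    intro x hx
    have h1 := hm1 (a := -4) ⟨le_rfl, by norm_num⟩ (b := x) ⟨by linarith [hx.1], hx.2⟩
      (by linarith [hx.1])
    simp only at h1
    have h2 := h.k_pos (-4)
    linarith [hx.1]
  -- stage 2
  have hd2 : ∀ x ∈ Icc (-2 : ℝ) (-1), HasDerivAt (fun x => (k x - 1 / 5)⁻¹ + x)
      (-(k x ^ 2 + 2 * Ad (9 / 10) W x * k x - 2 * Ad1 (9 / 10) V x + 2 * lam)
        / (k x - 1 / 5) ^ 2 + 1) x := by
    intro x hx
    have h1 := hk2 x hx
    exact (((hdx x).sub_const (1 / 5)).inv (by linarith)).add (hasDerivAt_id x)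
  have hm2 : AntitoneOn (fun x => (k x - 1 / 5)⁻¹ + x) (Icc (-2) (-1)) := by
    apply antitoneOn_of_deriv_nonpos (convex_Icc _ _)
    · exact fun t ht => (hd2 t ht).continuousAt.continuousWithinAt
    · intro t ht
      rw [interior_Icc] at ht
      exact (hd2 t ⟨ht.1.le, ht.2.le⟩).differentiableAt.differentiableWithinAt
    · intro t ht
      rw [interior_Icc] at ht
      rw [(hd2 t ⟨ht.1.le, ht.2.le⟩).deriv]
      have h1 := hk2 t ⟨ht.1.le, ht.2.le⟩
      have h2 := hder t ht.2.le (by linarith [ht.1])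
      have h3 : 0 < (k t - 1 / 5) ^ 2 := by
        have : 0 < k t - 1 / 5 := by linarith
        positivity
      have h4 : -(k t ^ 2 + 2 * Ad (9 / 10) W t * k t - 2 * Ad1 (9 / 10) V t + 2 * lam)
        / (k t - 1 / 5) ^ 2 ≤ -1 := by
        rw [div_le_iff₀ h3]
        linarith
      linarith
  have h1 := hm2 (a := -2) ⟨le_rfl, by norm_num⟩ (b := -1) ⟨by norm_num, le_rfl⟩ (by norm_num)
  simp only at h1
  have h2 := hk2 (-2) ⟨le_rfl, by norm_num⟩
  have h3 := hk2 (-1) ⟨by norm_num, le_rfl⟩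
  have h4 : (k (-2) - 1 / 5)⁻¹ < 1 := by
    apply inv_lt_one_of_one_lt₀
    linarith
  have h5 : 0 < (k (-1) - 1 / 5)⁻¹ := inv_pos.2 (by linarith)
  linarith

/-- **Existence of the closed pair.** -/
theorem exists_closed : ∃ (c : ℝ) (W V I k : ℝ → ℝ), 1 / 3 < c ∧ c < 9 / 10 ∧
    SPair c W V I k c := by
  have hex : ∀ c : Icc (1 / 3 : ℝ) (9 / 10), ∃ lam : ℝ, ∃ W V I k : ℝ → ℝ,
      SPair (c : ℝ) W V I k lam := by
    intro c
    obtain ⟨W, V, I, k, lam, h⟩ := exists_spair (c := (c : ℝ)) (by linarith [c.2.1])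
      (by linarith [c.2.2])
    exact ⟨lam, W, V, I, k, h⟩
  choose L W V I k h using hex
  have hcont : Continuous L := by
    rw [continuous_iff_seqContinuous]
    intro cn c hcn
    exact tendsto_lam (h c) (fun n => h (cn n))
      ((continuous_subtype_val.tendsto c).comp hcn)
  have hcont2 : Continuous fun c : Icc (1 / 3 : ℝ) (9 / 10) => L c - c :=
    hcont.sub continuous_subtype_val
  have : PreconnectedSpace (Icc (1 / 3 : ℝ) (9 / 10)) :=
    Subtype.preconnectedSpace isPreconnected_Icc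
  have ha : (0 : ℝ) ≤ L ⟨1 / 3, by norm_num, by norm_num⟩ -
      ((⟨1 / 3, by norm_num, by norm_num⟩ : Icc (1 / 3 : ℝ) (9 / 10)) : ℝ) := by
    have := lt_lam (h ⟨1 / 3, by norm_num, by norm_num⟩) le_rfl
    linarith
  have hb : L ⟨9 / 10, by norm_num, by norm_num⟩ -
      ((⟨9 / 10, by norm_num, by norm_num⟩ : Icc (1 / 3 : ℝ) (9 / 10)) : ℝ) ≤ 0 := by
    have := lam_lt_of (h ⟨9 / 10, by norm_num, by norm_num⟩)
    simp only
    linarith
  obtain ⟨c, hc⟩ := mem_range_of_exists_le_of_exists_ge hcont2 ⟨_, hb⟩ ⟨_, ha⟩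
  have hc' : L c = c := by simp only at hc; linarith
  have hs := h c
  rw [hc'] at hs
  refine ⟨c, W c, V c, I c, k c, ?_, ?_, hs⟩
  · rcases eq_or_lt_of_le c.2.1 with h1 | h1
    · exfalso
      have := lt_lam hs h1.symm.le
      exact lt_irrefl _ this
    · exact h1
  · rcases eq_or_lt_of_le c.2.2 with h1 | h1
    · exfalso
      have h2 := hs
      rw [h1] at h2
      exact lt_irrefl _ (lam_lt_of h2)
    · exact h1

/-- digits of the constant of a closed pair. -/
theorem closed_digits (h : SPair c W V I k c) : 0.415735 < c ∧ c < 0.415736 := by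
  obtain ⟨h1, h2⟩ := enclosure_of_closure h
  have h1c : 0 < 1 + c := by linarith [h.c_pos]
  rw [lt_div_iff₀ h1c] at h1
  rw [div_lt_iff₀ h1c] at h2
  constructor <;> norm_num at * <;> linarith

/-- **Existence of the closed pair, with its digits.** -/
theorem exists_closed' : ∃ (c : ℝ) (W V I k : ℝ → ℝ), 0.415735 < c ∧ c < 0.415736 ∧
    SPair c W V I k c := by
  obtain ⟨c, W, V, I, k, -, -, h⟩ := exists_closed
  exact ⟨c, W, V, I, k, (closed_digits h).1, (closed_digits h).2, h⟩

end Crest.Agent.R146.Fix2_181
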