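import Crest.Agent.R146.Enc3_848
import Crest.Agent.R146.TailK_445
import Crest.Agent.R146.Fix2_181

/-!
Row 146, NUMREF (helper277): the variation of the law slope `k` in the variable `log W`.

* `shift_of` : `|W k'| ≤ a V` on the interval between `x` and `z` gives
  `|k z - k x| ≤ a |log (W z / W x)|`;
* `slope_mid` : the two bounds (`9/256` for `x ≤ 1/2`, `1/8` for all `x`) on `[-7/2, 5]` from the
  enclosures; `slope_left`, `slope_right` : the tails;
* `kshift`, `kshift_left` : the form used in the closure.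
-/

set_option autoImplicit false
set_option linter.unusedSimpArgs false

namespace Crest.Agent.R146.KShift_277

open Set Filter Topology
open Crest.Agent.R146.PP865 Crest.Agent.R146.EncData_848 Crest.Agent.R146.EncR_848
open Crest.Agent.R146.Enc1_848 Crest.Agent.R146.Enc3_848 Crest.Agent.R146.SPair_307
open Crest.Agent.R146.TailK_445 (k1 aW_le_V A_mono k_le_left le_k_left le_k1_left k1_le_left
  k_le_right le_k_right le_k1_right k1_le_right)

variable {c lam : ℝ} {W V I k : ℝ → ℝ}

/-! ### integration of the slope -/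

lemma dlogW (h : SPair c W V I k lam) (x : ℝ) :
    HasDerivAt (fun y => Real.log (W y)) (V x / W x) x :=
  (h.dW x).log (h.W_pos x).ne'

theorem shift_le (h : SPair c W V I k lam) {a x z : ℝ} (hxz : x ≤ z)
    (ha : ∀ y ∈ Icc x z, |W y * k1 c W V k lam y| ≤ a * V y) :
    |k z - k x| ≤ a * (Real.log (W z) - Real.log (W x)) := by
  have key : ∀ s : ℝ, (s = 1 ∨ s = -1) →
      0 ≤ (a * Real.log (W z) + s * k z) - (a * Real.log (W x) + s * k x) := by
    intro s hs
    have hd : ∀ y, HasDerivAt (fun y => a * Real.log (W y) + s * k y)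
        (a * (V y / W y) + s * k1 c W V k lam y) y := fun y =>
      ((dlogW h y).const_mul a).add ((h.dk y).const_mul s)
    have hm : MonotoneOn (fun y => a * Real.log (W y) + s * k y) (Icc x z) := by
      refine monotoneOn_of_deriv_nonneg (convex_Icc _ _)
        (fun y _ => (hd y).continuousAt.continuousWithinAt)
        (fun y _ => (hd y).differentiableAt.differentiableWithinAt) ?_
      intro y hy
      rw [interior_Icc] at hy
      rw [(hd y).deriv]
      have h1 := abs_le.1 (ha y ⟨hy.1.le, hy.2.le⟩)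
      have hW := h.W_pos y
      have h2 : 0 ≤ W y * (a * (V y / W y) + s * k1 c W V k lam y) := by
        have h3 : W y * (a * (V y / W y) + s * k1 c W V k lam y) =
            a * V y + s * (W y * k1 c W V k lam y) := by
          field_simp
        rw [h3]
        rcases hs with hs | hs <;> rw [hs] <;> linarith [h1.1, h1.2]
      exact nonneg_of_mul_nonneg_right h2 hW
    have := hm (left_mem_Icc.2 hxz) (right_mem_Icc.2 hxz) hxz
    linarith
  have h1 := key 1 (Or.inl rfl)
  have h2 := key (-1) (Or.inr rfl)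
  rw [abs_le]
  constructor <;> linarith

theorem shift_of (h : SPair c W V I k lam) {a x z : ℝ}
    (ha : ∀ y ∈ uIcc x z, |W y * k1 c W V k lam y| ≤ a * V y) :
    |k z - k x| ≤ a * |Real.log (W z / W x)| := by
  have hl : Real.log (W z / W x) = Real.log (W z) - Real.log (W x) :=
    Real.log_div (h.W_pos z).ne' (h.W_pos x).ne'
  rw [hl]
  rcases le_total x z with h0 | h0
  · rw [uIcc_of_le h0] at ha
    have h1 := shift_le h h0 ha
    have h2 : 0 ≤ Real.log (W z) - Real.log (W x) := by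
      have := Real.log_le_log (h.W_pos x) (h.W_strictMono.monotone h0)
      linarith
    rwa [abs_of_nonneg h2]
  · rw [uIcc_of_ge h0] at ha
    have h1 := shift_le h h0 ha
    have h2 : 0 ≤ Real.log (W x) - Real.log (W z) := by
      have := Real.log_le_log (h.W_pos z) (h.W_strictMono.monotone h0)
      linarith
    rw [abs_sub_comm (k z), abs_sub_comm (Real.log (W z)), abs_of_nonneg h2]
    exact h1

/-! ### the middle -/

/-- `9/256 (V̂ - 98/N) - (Ŵ + 13/N)(± κ̂' + 430/N)` -/
def eL (s : ℤ) : Ex := .cst 9 8 * (.var 2 - .cst 98 20) -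
  (.var 1 + .cst 13 20) * (.cst s 0 * .var 5 + .cst 430 20)

/-- `1/8 (V̂ - 98/N) - (Ŵ + 13/N)(± κ̂' + 430/N)` -/
def eB (s : ℤ) : Ex := .cst 1 3 * (.var 2 - .cst 98 20) -
  (.var 1 + .cst 13 20) * (.cst s 0 * .var 5 + .cst 430 20)

theorem cL1 : chkBoxR 36 5 18 (-28) 3 [] (eL 1) p0 ps = true := by decide +kernel
theorem cL2 : chkBoxR 36 5 18 (-28) 3 [] (eL (-1)) p0 ps = true := by decide +kernel
theorem cB1 : chkBoxR 36 5 18 (-28) 40 [] (eB 1) p0 ps = true := by decide +kernel
theorem cB2 : chkBoxR 36 5 18 (-28) 40 [] (eB (-1)) p0 ps = true := by decide +kernel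
/-- `W (-7/2) ≤ 1/128`, `V(-7/2) ≤ 1/64` -/
theorem cW35 : chkBoxR 36 5 18 (-28) (-28) [] (.cst 1 7 - .var 1) p0 ps = true := by decide +kernel
theorem cV35 : chkBoxR 36 5 18 (-28) (-28) [] (.cst 1 6 - .var 2) p0 ps = true := by decide +kernel
/-- `1023/1024 ≤ V 5` -/
theorem cV5 : chkBoxR 36 5 18 40 40 [] (.var 2 - .cst 1023 10) p0 ps = true := by decide +kernel
/-- `W(-1/4) ≤ 300/1024`, `604/1024 ≤ W(3/8)` -/
theorem cWa : chkBoxR 36 5 18 (-2) (-2) []
  (.cst 300 10 + .cst 3 3 * (.var 0 + .cst 1 2) + .cst 1 1 * (.var 0 + .cst 1 2) *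
    (.var 0 + .cst 1 2) - .var 1) p0 ps = true := by decide +kernel
theorem cWb : chkBoxR 36 5 18 3 3 []
  (.var 1 - (.cst 604 10 + .cst 5 3 * (.var 0 - .cst 3 3))) p0 ps = true := by decide +kernel

lemma k1_eq (x : ℝ) : k1 c W V k c x = kd c W V k x := rfl

lemma mul_abs_le {w w0 v v0 d d0 a : ℝ} (hw : 0 < w) (h1 : w ≤ w0) (h2 : v0 ≤ v) (ha : 0 ≤ a)
    (h3 : |d - d0| ≤ 430 / 2 ^ 20)
    (h4 : w0 * (d0 + 430 / 2 ^ 20) < a * v0) (h5 : w0 * (-d0 + 430 / 2 ^ 20) < a * v0) :
    |w * d| ≤ a * v := by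
  have h6 := abs_le.1 h3
  have hw0 : 0 < w0 := lt_of_lt_of_le hw h1
  have h7 : a * v0 ≤ a * v := mul_le_mul_of_nonneg_left h2 ha
  have hpos : 0 ≤ a * v0 := by
    rcases le_total 0 d0 with h | h
    · have : 0 ≤ w0 * (d0 + 430 / 2 ^ 20) := by positivity
      linarith
    · have : 0 ≤ w0 * (-d0 + 430 / 2 ^ 20) := by
        have : 0 ≤ -d0 := by linarith
        positivity
      linarith
  rw [abs_mul, abs_of_pos hw]
  have h8 : |d| ≤ a * v0 / w0 := by
    rw [le_div_iff₀ hw0]
    rcases abs_cases d with ⟨h, _⟩ | ⟨h, _⟩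
    · rw [h]
      have : d * w0 ≤ (d0 + 430 / 2 ^ 20) * w0 :=
        mul_le_mul_of_nonneg_right (by linarith [h6.2]) hw0.le
      linarith
    · rw [h]
      have : -d * w0 ≤ (-d0 + 430 / 2 ^ 20) * w0 :=
        mul_le_mul_of_nonneg_right (by linarith [h6.1]) hw0.le
      linarith
  calc w * |d| ≤ w0 * (a * v0 / w0) := mul_le_mul h1 h8 (abs_nonneg _) hw0.le
    _ = a * v0 := by field_simp
    _ ≤ _ := h7

theorem mid_left (h : SPair c W V I k c) {x : ℝ} (h1 : -(7 / 2) ≤ x) (h2 : x ≤ 3 / 8) :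
    |W x * k1 c W V k c x| ≤ 9 / 256 * V x := by
  have E := enc h
  have a1 := chk (z := x) (s := 0) (t := 0) cL1 (by linarith) (by linarith)
    (by norm_num; linarith) (by norm_num; linarith) (by simp)
  have a2 := chk (z := x) (s := 0) (t := 0) cL2 (by linarith) (by linarith)
    (by norm_num; linarith) (by norm_num; linarith) (by simp)
  simp only [eL, Ex.evR_sub, Ex.evR_add, Ex.evR_mul, Ex.evR_cst, Ex.evR_var, env1, env2, env5]
    at a1 a2
  push_cast at a1 a2
  have b1 := abs_le.1 (E.W8 x (by linarith) (by linarith))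
  have b2 := abs_le.1 (E.V8 x (by linarith) (by linarith))
  have b3 := E.kd4 x (by linarith) (by linarith)
  rw [k1_eq]
  refine mul_abs_le (w0 := F 0 x + 13 / 2 ^ 20) (v0 := F1 0 x - 98 / 2 ^ 20) (h.W_pos x)
    (by linarith [b1.2]) (by linarith [b2.1]) (by norm_num) b3 ?_ ?_ <;> norm_num at * <;> linarith

theorem mid (h : SPair c W V I k c) {x : ℝ} (h1 : -(7 / 2) ≤ x) (h2 : x ≤ 5) :
    |W x * k1 c W V k c x| ≤ 1 / 8 * V x := by
  have E := enc h
  have a1 := chk (z := x) (s := 0) (t := 0) cB1 (by linarith) (by linarith)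
    (by norm_num; linarith) (by norm_num; linarith) (by simp)
  have a2 := chk (z := x) (s := 0) (t := 0) cB2 (by linarith) (by linarith)
    (by norm_num; linarith) (by norm_num; linarith) (by simp)
  simp only [eB, Ex.evR_sub, Ex.evR_add, Ex.evR_mul, Ex.evR_cst, Ex.evR_var, env1, env2, env5]
    at a1 a2
  push_cast at a1 a2
  have b1 := abs_le.1 (E.W8 x (by linarith) (by linarith))
  have b2 := abs_le.1 (E.V8 x (by linarith) (by linarith))
  have b3 := E.kd4 x (by linarith) (by linarith)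
  rw [k1_eq]
  refine mul_abs_le (w0 := F 0 x + 13 / 2 ^ 20) (v0 := F1 0 x - 98 / 2 ^ 20) (h.W_pos x)
    (by linarith [b1.2]) (by linarith [b2.1]) (by norm_num) b3 ?_ ?_ <;> norm_num at * <;> linarith

/-! ### left tail -/

theorem left (h : SPair c W V I k c) {x : ℝ} (hx : x ≤ -(7 / 2)) :
    |W x * k1 c W V k c x| ≤ 9 / 256 * V x := by
  have E := enc h
  have hc1 : 0.4157 < c := by have := E.c_lo; norm_num at this ⊢; linarith
  have hc2 : c < 0.4158 := by have := E.c_hi; norm_num at this ⊢; linarith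
  have a1 := chk (z := -(7 / 2)) (s := 0) (t := 0) cW35 (by norm_num) (by norm_num)
    (by norm_num) (by norm_num) (by simp)
  have a2 := chk (z := -(7 / 2)) (s := 0) (t := 0) cV35 (by norm_num) (by norm_num)
    (by norm_num) (by norm_num) (by simp)
  simp only [Ex.evR_sub, Ex.evR_cst, Ex.evR_var, env1, env2] at a1 a2
  push_cast at a1 a2
  have b1 := abs_le.1 (E.W8 (-(7 / 2)) (by norm_num) (by norm_num))
  have b2 := abs_le.1 (E.V8 (-(7 / 2)) (by norm_num) (by norm_num))
  have hW : W x ≤ 1 / 100 := by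
    have := h.W_strictMono.monotone hx
    norm_num at a1 b1 ⊢
    linarith [b1.2]
  have hV : V x ≤ 1 / 60 := by
    have := h.V_strictMono.monotone hx
    norm_num at a2 b2 ⊢
    linarith [b2.2]
  have hW0 := h.W_pos x
  have hV0 := h.V_pos x
  set a : ℝ := -2 * Ad c W x with ha
  have ha2 : 2 ≤ a := by
    rw [ha]; unfold Ad
    nlinarith
  have hA : Ad c W x < 0 := by
    have : 0 < -2 * Ad c W x := by rw [← ha]; linarith
    linarith
  have hVa := aW_le_V h x
  rw [← ha] at hVa
  have hWV : W x ≤ V x / 2 := by nlinarith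
  have k1u := k1_le_left h hA
  have k1l := le_k1_left h (by linarith) hA
  have kl := k_le_left h (by linarith) hA
  rw [← ha] at k1u kl
  have hk0 := h.k_pos x
  have hk2 : k x ≤ 1 / 8 := by
    refine kl.trans ?_
    rw [div_le_iff₀ (by linarith)]
    linarith
  have hu : k1 c W V k c x ≤ 7 / 100 := by
    have h1 : (2 * c - (1 - c)) * (1 - c + 2 * c * V x) / a ^ 2 ≤ 1 / 25 := by
      rw [div_le_iff₀ (by positivity)]
      have h2 : (2 * c - (1 - c)) * (1 - c + 2 * c * V x) ≤ 0.2475 * 0.6 := by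
        have e1 : 2 * c - (1 - c) ≤ 0.2475 := by linarith
        have e2 : 1 - c + 2 * c * V x ≤ 0.6 := by nlinarith
        have e3 : 0 ≤ 1 - c + 2 * c * V x := by
          have : 0 ≤ 2 * c * V x := by positivity
          linarith
        exact mul_le_mul e1 e2 e3 (by norm_num)
      nlinarith
    have h3 : k x ^ 2 ≤ 1 / 64 := by nlinarith
    linarith
  have hl : -(7 / 100) ≤ k1 c W V k c x := by
    have : 2 * c * V x ≤ 7 / 100 := by nlinarith
    nlinarith [sq_nonneg (k x)]
  rw [abs_mul, abs_of_pos hW0]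
  have : |k1 c W V k c x| ≤ 7 / 100 := abs_le.2 ⟨hl, hu⟩
  calc W x * |k1 c W V k c x| ≤ V x / 2 * (7 / 100) :=
        mul_le_mul hWV this (abs_nonneg _) (by positivity)
    _ ≤ _ := by nlinarith

/-! ### right tail -/

theorem right (h : SPair c W V I k c) {x : ℝ} (hx : 5 ≤ x) :
    |W x * k1 c W V k c x| ≤ 1 / 8 * V x := by
  have E := enc h
  have hc1 : 0.4157 < c := by have := E.c_lo; norm_num at this ⊢; linarith
  have hc2 : c < 0.4158 := by have := E.c_hi; norm_num at this ⊢; linarith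
  have a2 := chk (z := 5) (s := 0) (t := 0) cV5 (by norm_num) (by norm_num)
    (by norm_num) (by norm_num) (by simp)
  simp only [Ex.evR_sub, Ex.evR_cst, Ex.evR_var, env1, env2] at a2
  push_cast at a2
  have b2 := abs_le.1 (E.V8 5 (by norm_num) (by norm_num))
  have hV : 0.998 ≤ V x := by
    have := h.V_strictMono.monotone hx
    norm_num at a2 b2 ⊢
    linarith [b2.1]
  have hV1 := h.V_lt x
  have hW0 := h.W_pos x
  have hU0 := h.U_pos x
  -- exponential smallness
  have hexp : ∀ t : ℝ, 0 < t → Real.exp (-t) ≤ 6 / t ^ 3 := by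
    intro t ht
    have h1 := Real.pow_div_factorial_le_exp t ht.le 3
    have h2 : (Nat.factorial 3 : ℝ) = 6 := by norm_num [Nat.factorial]
    rw [h2] at h1
    rw [Real.exp_neg, inv_le_comm₀ (Real.exp_pos _) (by positivity), inv_div]
    exact h1
  have hU : W x - x ≤ 1 / 100 := by
    have h1 := Stat8_307.U_le h (show (0:ℝ) ≤ x by linarith)
    have h2 := hexp (x ^ 2 / 2) (by positivity)
    have h3 : 6 / (x ^ 2 / 2) ^ 3 ≤ 1 / 100 := by
      rw [div_le_div_iff₀ (by positivity) (by norm_num)]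
      have : (25:ℝ) / 2 ≤ x ^ 2 / 2 := by nlinarith
      have : ((25:ℝ) / 2) ^ 3 ≤ (x ^ 2 / 2) ^ 3 := by gcongr
      norm_num at this ⊢
      linarith
    linarith
  have hR : (1 - V x) * W x ≤ 3 / 50 := by
    have h1 := Stat8_307.U_le h (show (0:ℝ) ≤ x - 1 by linarith)
    have h2 := hexp ((x - 1) ^ 2 / 2) (by
      have : 0 < x - 1 := by linarith
      positivity)
    have hlt : x - 1 < x := by linarith
    obtain ⟨y, hy, hy2⟩ := exists_hasDerivAt_eq_slope W V hlt
      h.cW.continuousOn (fun z _ => h.dW z)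
    have h3 : V y ≤ V x := (h.V_strictMono.monotone hy.2.le)
    have h4 : W x - W (x - 1) = V y := by rw [hy2]; simp
    have h5 : 1 - V x ≤ W (x - 1) - (x - 1) := by linarith
    have h6 : 1 - V x ≤ 6 / ((x - 1) ^ 2 / 2) ^ 3 := h5.trans (h1.trans h2)
    have hx1 : (4:ℝ) ≤ x - 1 := by linarith
    have h7 : W x ≤ 63 / 50 * (x - 1) := by linarith
    have hR0 : 0 < 1 - V x := by linarith
    calc (1 - V x) * W x ≤ 6 / ((x - 1) ^ 2 / 2) ^ 3 * (63 / 50 * (x - 1)) :=
          mul_le_mul h6 h7 hW0.le (by positivity)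
      _ ≤ 3 / 50 + 0 := by
        rw [div_mul_eq_mul_div, add_zero, div_le_div_iff₀ (by positivity) (by norm_num)]
        have e1 : (1024:ℝ) * (x - 1) ≤ (x - 1) ^ 6 := by
          have : (4:ℝ) ^ 5 ≤ (x - 1) ^ 5 := by gcongr
          have e2 : (x - 1) ^ 6 = (x - 1) ^ 5 * (x - 1) := by ring
          rw [e2]
          norm_num at this
          nlinarith
        have e3 : ((x - 1) ^ 2 / 2) ^ 3 = (x - 1) ^ 6 / 8 := by ring
        rw [e3]
        linarith
      _ = _ := by ring
  set a : ℝ := 2 * Ad c W x with ha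
  have hax : 1.4157 * x ≤ a := by
    rw [ha]; unfold Ad
    nlinarith
  have hA : 0 < Ad c W x := by
    have : 0 < 2 * Ad c W x := by rw [← ha]; linarith
    linarith
  have hWx : W x ≤ 1.002 * x := by linarith
  have k1u := k1_le_right h hA
  have k1l := le_k1_right h hA
  have kr := k_le_right h hA
  rw [← ha] at k1l kr
  have hk0 := h.k_pos x
  have hx0 : 0 < x := by linarith
  have hkx : k x * x ≤ 0.413 := by
    have h1 : k x ≤ 0.5843 / (1.4157 * x) := by
      refine kr.trans ?_
      apply div_le_div₀ (by norm_num) (by linarith) (by positivity) hax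
    rw [le_div_iff₀ (by positivity)] at h1
    linarith
  have hu : W x * k1 c W V k c x ≤ 1 / 8 * V x := by
    have h1 : W x * k1 c W V k c x ≤ W x * (k x ^ 2 + 2 * c * (1 - V x)) :=
      mul_le_mul_of_nonneg_left k1u hW0.le
    have h2 : W x * k x ^ 2 ≤ 0.036 := by
      have e1 : W x * k x ^ 2 ≤ 1.002 * x * k x ^ 2 :=
        mul_le_mul_of_nonneg_right hWx (sq_nonneg _)
      have e2 : x * k x ^ 2 ≤ 0.413 * k x := by nlinarith
      have e3 : k x ≤ 0.0826 := by nlinarith
      nlinarith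
    have h3 : W x * (2 * c * (1 - V x)) ≤ 0.05 := by nlinarith
    nlinarith
  have hl : -(1 / 8 * V x) ≤ W x * k1 c W V k c x := by
    have h1 : W x * (k x ^ 2 - ((1 + c) - 2 * c) * (((1 + c) - 2 * c) + 1 + c) / a ^ 2) ≤
        W x * k1 c W V k c x := mul_le_mul_of_nonneg_left k1l hW0.le
    have h2 : W x * (((1 + c) - 2 * c) * (((1 + c) - 2 * c) + 1 + c) / a ^ 2) ≤ 0.1175 := by
      have e0 : ((1 + c) - 2 * c) * (((1 + c) - 2 * c) + 1 + c) ≤ 1.1686 := by nlinarith
      have e1 : ((1 + c) - 2 * c) * (((1 + c) - 2 * c) + 1 + c) / a ^ 2 ≤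
          1.1686 / (1.4157 * x) ^ 2 := by
        apply div_le_div₀ (by norm_num) e0 (by positivity)
        gcongr
      calc W x * (((1 + c) - 2 * c) * (((1 + c) - 2 * c) + 1 + c) / a ^ 2)
          ≤ (1.002 * x) * (1.1686 / (1.4157 * x) ^ 2) := by
            apply mul_le_mul hWx e1 _ (by positivity)
            have : 0 ≤ ((1 + c) - 2 * c) * (((1 + c) - 2 * c) + 1 + c) := by nlinarith
            positivity
        _ ≤ 0.1175 := by
          rw [mul_div_assoc', div_le_iff₀ (by positivity)]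
          nlinarith
    have h3 : 0 ≤ W x * k x ^ 2 := by positivity
    nlinarith
  exact abs_le.2 ⟨hl, hu⟩

/-! ### results -/

theorem slope_left (h : SPair c W V I k c) {x : ℝ} (hx : x ≤ 3 / 8) :
    |W x * k1 c W V k c x| ≤ 9 / 256 * V x := by
  rcases le_total x (-(7 / 2)) with h0 | h0
  · exact left h h0
  · exact mid_left h h0 hx

theorem slope (h : SPair c W V I k c) (x : ℝ) :
    |W x * k1 c W V k c x| ≤ 1 / 8 * V x := by
  rcases le_total x (-(7 / 2)) with h0 | h0
  · refine (left h h0).trans ?_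
    have := h.V_pos x
    nlinarith
  · rcases le_total x 5 with h1 | h1
    · exact mid h h0 h1
    · exact right h h1

/-- **the law slope varies slowly in `log W`** -/
theorem k_shift (h : SPair c W V I k c) (x z : ℝ) :
    |k z - k x| ≤ 1 / 8 * |Real.log (W z / W x)| :=
  shift_of h fun y _ => slope h y

theorem k_shift_left (h : SPair c W V I k c) {x z : ℝ} (hx : x ≤ 3 / 8) (hz : z ≤ 3 / 8) :
    |k z - k x| ≤ 9 / 256 * |Real.log (W z / W x)| :=
  shift_of h fun y hy => slope_left h ((mem_uIcc.1 hy).elim (fun hh => hh.2.trans hz)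
    (fun hh => hh.2.trans hx))

/-! ### position windows -/

lemma neg_log_le {t : ℝ} (h0 : 0 ≤ t) (h1 : t ≤ 1 / 2) : -Real.log (1 - t) ≤ 1.3863 * t := by
  have hc := strictConcaveOn_log_Ioi.concaveOn.2 (show (1:ℝ) ∈ Ioi 0 by simp)
    (show (1 / 2 : ℝ) ∈ Ioi 0 by simp) (show 0 ≤ 1 - 2 * t by linarith)
    (show 0 ≤ 2 * t by linarith) (by ring)
  simp only [smul_eq_mul, Real.log_one, mul_zero, zero_add] at hc
  have e1 : (1 - 2 * t) * 1 + 2 * t * (1 / 2) = 1 - t := by ring
  rw [e1] at hc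
  have e2 : Real.log (1 / 2) = -Real.log 2 := by rw [one_div, Real.log_inv]
  rw [e2] at hc
  have := Real.log_two_lt_d9
  nlinarith

/-- the `log W` window of a position between `(1-e0) W/(1+t)` and `(1+e0) W/(1-t)` -/
lemma log_window (h : SPair c W V I k lam) {x z e0 t P Q : ℝ} (he0 : 0 ≤ e0) (he1 : e0 ≤ 1 / 2)
    (ht0 : 0 ≤ t) (ht : t ≤ 1 / 2) (hQ : W x / (1 + t) ≤ Q) (hP : P ≤ W x / (1 - t))
    (h1 : (1 - e0) * Q ≤ W z) (h2 : W z ≤ (1 + e0) * P) :
    |Real.log (W z / W x)| ≤ 1.3863 * t + 1.3863 * e0 := by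
  have hW := h.W_pos x
  have hz := h.W_pos z
  have hq : 0 < W z / W x := div_pos hz hW
  rw [abs_le]
  constructor
  · have h3 : (1 - e0) * (1 / (1 + t)) ≤ W z / W x := by
      rw [le_div_iff₀ hW]
      calc (1 - e0) * (1 / (1 + t)) * W x = (1 - e0) * (W x / (1 + t)) := by ring
        _ ≤ (1 - e0) * Q := mul_le_mul_of_nonneg_left hQ (by linarith)
        _ ≤ _ := h1
    have h4 : Real.log ((1 - e0) * (1 / (1 + t))) ≤ Real.log (W z / W x) :=
      Real.log_le_log (mul_pos (by linarith) (by positivity)) h3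
    rw [Real.log_mul (by linarith) (by positivity), one_div, Real.log_inv] at h4
    have h5 := neg_log_le he0 he1
    have h6 := Real.log_le_sub_one_of_pos (show 0 < 1 + t by linarith)
    linarith
  · have h3 : W z / W x ≤ (1 + e0) * (1 / (1 - t)) := by
      rw [div_le_iff₀ hW]
      calc W z ≤ (1 + e0) * P := h2
        _ ≤ (1 + e0) * (W x / (1 - t)) := mul_le_mul_of_nonneg_left hP (by linarith)
        _ = _ := by ring
    have h4 : Real.log (W z / W x) ≤ Real.log ((1 + e0) * (1 / (1 - t))) :=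
      Real.log_le_log hq h3
    have h1t : 0 < 1 - t := by linarith
    rw [Real.log_mul (by linarith) (by positivity), one_div, Real.log_inv] at h4
    have h5 := neg_log_le ht0 ht
    have h6 := Real.log_le_sub_one_of_pos (show 0 < 1 + e0 by linarith)
    linarith

/-- **the number `Z`** : `|k z - k x| ≤ (21/100) δ` for all `x`, `≤ (3/50) δ` for `x ≤ -1/4`. -/
theorem kz (h : SPair c W V I k c) {x z e0 δ P Q : ℝ} (hδ : 0 ≤ δ) (hδc : δ ≤ c)
    (he0 : 0 ≤ e0) (he1 : e0 ≤ δ / 1000)
    (hQ : W x / (1 + 6 / 5 * δ) ≤ Q) (hP : P ≤ W x / (1 - 6 / 5 * δ))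
    (h1 : (1 - e0) * Q ≤ W z) (h2 : W z ≤ (1 + e0) * P) :
    |k z - k x| ≤ 21 / 100 * δ ∧ (x ≤ -(1 / 4) → |k z - k x| ≤ 3 / 50 * δ) := by
  have E := enc h
  have hc2 : c < 0.41574 := by have := E.c_hi; norm_num at this ⊢; linarith
  have hw := log_window h he0 (by linarith) (by positivity) (t := 6 / 5 * δ) (by linarith)
    hQ hP h1 h2
  refine ⟨?_, fun hx => ?_⟩
  · refine (k_shift h x z).trans ?_
    linarith
  · have a1 := chk (z := -(1 / 4)) (s := 0) (t := 0) cWa (by norm_num) (by norm_num)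
      (by norm_num) (by norm_num) (by simp)
    have a2 := chk (z := 3 / 8) (s := 0) (t := 0) cWb (by norm_num) (by norm_num)
      (by norm_num) (by norm_num) (by simp)
    simp only [Ex.evR_sub, Ex.evR_add, Ex.evR_mul, Ex.evR_cst, Ex.evR_var, env0, env1] at a1 a2
    push_cast at a1 a2
    have b1 := abs_le.1 (E.W8 (-(1 / 4)) (by norm_num) (by norm_num))
    have b2 := abs_le.1 (E.W8 (3 / 8) (by norm_num) (by norm_num))
    have hWx : W x ≤ 0.29301 := by
      have := h.W_strictMono.monotone hx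
      norm_num at a1 b1 ⊢
      linarith [b1.2]
    have hW3 : 0.5898 ≤ W (3 / 8) := by
      norm_num at a2 b2 ⊢
      linarith [b2.1]
    have hz : z ≤ 3 / 8 := by
      by_contra hcon
      push Not at hcon
      have h3 := h.W_strictMono hcon
      have h4 : W x / (1 - 6 / 5 * δ) ≤ 0.5848 := by
        rw [div_le_iff₀ (by linarith)]
        linarith
      have h5 : (1 + e0) * P ≤ 1.001 * 0.5848 := by
        calc (1 + e0) * P ≤ (1 + e0) * 0.5848 :=
              mul_le_mul_of_nonneg_left (hP.trans h4) (by linarith)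
          _ ≤ _ := by linarith
      linarith
    refine (k_shift_left h (by linarith) hz).trans ?_
    linarith

end Crest.Agent.R146.KShift_277
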