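import Crest.Agent.R146.C3y_924
import Crest.Agent.R146.PtNumRef_846
import Crest.Agent.R146.KShift_277

/-!
# Row 146, NUMREF, node C3 (helper924): `theorem c3 : PtNum_846.C3`
-/

set_option autoImplicit false

namespace Crest.Agent.R146.C3x_924

open MeasureTheory Set
open Crest.Agent.R146.PP865 Crest.Agent.R146.EncR_848
open Crest.Agent.R146.SPair_307 Crest.Agent.R146.PtNum_846 Crest.Agent.R146.PtNumRef_846
open Crest.Agent.R146.C1D_445 (b)

theorem cb : chkBoxR 36 3 21 (-64) 64 [] (.cst 78643 16 - .var 19) C1D_445.P0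
    C1D_445.PS = true := by decide +kernel

theorem b_le (x : ℝ) : C1D_445.b x ≤ 6 / 5 := by
  rcases le_or_gt x (-8) with h1 | h1
  · rw [C1D_445.b_left (by linarith)]
    unfold C1D_445.bL
    norm_num
  rcases le_or_gt x 8 with h2 | h2
  · have a1 := chkBoxR_sound C1D_445.adj_PS cb (z := x) (by rw [C3_924.lo8]; exact h1.le)
      (by rw [C3_924.hi8]; exact h2) (by norm_num; linarith) (by norm_num; linarith)
      (v := cv 36 C1D_445.P0 C1D_445.PS x) (fun _ _ => rfl) (by simp)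
    simp only [Ex.evR_sub, Ex.evR_var, Ex.evR_cst] at a1
    have e : cv 36 C1D_445.P0 C1D_445.PS x 19 = C1D_445.b x := rfl
    rw [e] at a1
    norm_num at a1 ⊢
    linarith
  · rw [C1D_445.b_right (by linarith)]
    unfold C1D_445.bR
    norm_num

variable {c δ : ℝ} {W V I k : ℝ → ℝ}

theorem Pm_ge (h : SPair c W V I k c) (hδ : 0 < δ) (hδ2 : δ < 1 / 2) (x : ℝ) :
    W x / (1 + 6 / 5 * δ) ≤ Pm δ V x := by
  have h1 : W x / (1 + 6 / 5 * δ) = ∫ t in Iic x, V t * (1 + 6 / 5 * δ)⁻¹ := by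
    rw [integral_mul_const, V_int h x, div_eq_mul_inv]
  rw [h1]
  unfold Pm
  refine setIntegral_mono ((V_intOn h x).mul_const _) (int_gm h hδ hδ2 x) fun t => ?_
  have hV := h.V_pos t
  have hb := b_le t
  have hb0 := (b_bd t).1
  have h2 : 0 < 1 + δ * b t := by positivity
  show V t * (1 + 6 / 5 * δ)⁻¹ ≤ V t / (1 + δ * b t)
  rw [← div_eq_mul_inv]
  exact div_le_div_of_nonneg_left hV.le h2 (by nlinarith)

theorem Pp_le' (h : SPair c W V I k c) (hδ : 0 < δ) (hδ2 : δ < 1 / 2) (x : ℝ) :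
    Pp δ V x ≤ W x / (1 - 6 / 5 * δ) := by
  have h1 : W x / (1 - 6 / 5 * δ) = ∫ t in Iic x, V t * (1 - 6 / 5 * δ)⁻¹ := by
    rw [integral_mul_const, V_int h x, div_eq_mul_inv]
  rw [h1]
  unfold Pp
  refine setIntegral_mono (int_gp h hδ hδ2 x) ((V_intOn h x).mul_const _) fun t => ?_
  have hV := h.V_pos t
  have hb := b_le t
  have h2 : 0 < 1 - 6 / 5 * δ := by linarith
  show V t / (1 - δ * b t) ≤ V t * (1 - 6 / 5 * δ)⁻¹
  rw [← div_eq_mul_inv]
  exact div_le_div_of_nonneg_left hV.le h2 (by nlinarith)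

/-- the label shift -/
theorem shift (h : SPair c W V I k c) (hδ : 0 < δ) (hδc : δ ≤ c) {x z : ℝ}
    (hP : Pos δ W V x z) : |k z - k x| ≤ 21 / 100 * δ := by
  have E := Enc3_848.enc h
  have hc2 := E.c_hi
  norm_num at hc2
  have hδ2 : δ < 1 / 2 := by linarith
  exact (KShift_277.kz h (e0 := δ / 1000) hδ.le hδc (by positivity) le_rfl
    (Pm_ge h hδ hδ2 x) (Pp_le' h hδ hδ2 x) hP.1 hP.2).1

/-- **node C3 of NUMREF** -/
theorem c3 : PtNum_846.C3 :=
  C3y_924.c3_of fun _ _ _ _ _ h _ hδ hδc _ _ hP => shift h hδ hδc hP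

end Crest.Agent.R146.C3x_924
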