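import Crest.Agent.R146.CloTail2_649

/-!
# Row 146, NUMREF, closure tails with `F ≤ 33/20`, `G ≥ 19/20` (helper649)
-/

set_option autoImplicit false

namespace Crest.Agent.R146.CloTail3_649

open Crest.Agent.R146.SPair_307 Crest.Agent.R146.HFact_924 Crest.Agent.R146.Clo_924
open Crest.Agent.R146.CloG_924 Crest.Agent.R146.CloTail_649 Crest.Agent.R146.CloTail2_649

variable {c : ℝ} {W V I k : ℝ → ℝ}

/-- the numerical core of the right tail -/
lemma right_num3 {c v R k r b s F a : ℝ} (hc1 : 0.4157 ≤ c) (hc2 : c ≤ 0.4158)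
    (hR0 : 0 < R) (hR1 : R ≤ 1 / 400) (hv : v = 1 - R) (hr : 4.24 ≤ r) (hk0 : 0 < k)
    (hk1 : k ≤ 0.138) (hb0 : 0 ≤ b) (hb : b ≤ 1 / 2)
    (hs : -0.21 ≤ s) (hs1 : s ≤ 0.21) (hF : F ≤ 33 / 20) (ha0 : 4 / 5 ≤ a) (ha : a ≤ 1) :
    (1 + s) * (b - a * (v - R / 2)) * r ^ 2 +
        (b * k + F + a * ((1 + s) * (v * k))) / 2 * r + 2 * c * v * (b + a * (1 + s) * v) ≤
      9 / 5 * v := by
  have hv0 : 0 < v := by linarith
  have hr0 : 0 < r := by linarith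
  have hv1 : v ≤ 1 := by linarith
  have hvl : 399 / 400 ≤ v := by linarith
  have h4 : b - a * (v - R / 2) ≤ -0.29 := by
    have e1 : 0.99 ≤ v - R / 2 := by linarith
    have e2 : 4 / 5 * 0.99 ≤ a * (v - R / 2) := mul_le_mul ha0 e1 (by norm_num) (by linarith)
    linarith
  have h5 : (1 + s) * (b - a * (v - R / 2)) ≤ -0.229 := by
    have e1 : (1 + s) * (b - a * (v - R / 2)) ≤ (1 + s) * (-0.29) :=
      mul_le_mul_of_nonneg_left h4 (by linarith)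
    linarith
  have h6 : (1 + s) * (b - a * (v - R / 2)) * r ^ 2 ≤ -0.229 * r ^ 2 :=
    mul_le_mul_of_nonneg_right h5 (by positivity)
  have h7 : b * k ≤ 0.069 := by
    have := mul_le_mul hb hk1 hk0.le (by norm_num)
    linarith
  have hs2 : 0 ≤ 1 + s := by linarith
  have has : a * (1 + s) ≤ 1.21 := by
    have := mul_le_mul ha (show 1 + s ≤ 1.21 by linarith) hs2 (by norm_num)
    linarith
  have has0 : 0 ≤ a * (1 + s) := mul_nonneg (by linarith) hs2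
  have h8 : a * ((1 + s) * (v * k)) ≤ 0.167 := by
    have e1 : v * k ≤ 1 * 0.138 := mul_le_mul hv1 hk1 hk0.le (by norm_num)
    have e2 : a * ((1 + s) * (v * k)) = a * (1 + s) * (v * k) := by ring
    rw [e2]
    calc a * (1 + s) * (v * k) ≤ 1.21 * (1 * 0.138) :=
          mul_le_mul has e1 (mul_pos hv0 hk0).le (by norm_num)
      _ ≤ 0.167 := by norm_num
  have h9 : (b * k + F + a * ((1 + s) * (v * k))) / 2 * r ≤ 0.943 * r :=
    mul_le_mul_of_nonneg_right (by linarith) hr0.le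
  have h10 : 2 * c * v * (b + a * (1 + s) * v) ≤ 1.43 := by
    have e1 : a * (1 + s) * v ≤ 1.21 * 1 := mul_le_mul has hv1 hv0.le (by norm_num)
    have e2 : 2 * c * v ≤ 0.8316 * 1 := mul_le_mul (by linarith) hv1 hv0.le (by norm_num)
    calc 2 * c * v * (b + a * (1 + s) * v) ≤ 0.8316 * 1 * 1.71 := by
          apply mul_le_mul e2 (by linarith) _ (by norm_num)
          have : 0 ≤ a * (1 + s) * v := mul_nonneg has0 hv0.le
          linarith
      _ ≤ 1.43 := by norm_num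
  have h11 : -0.229 * r ^ 2 + 0.943 * r + 1.43 ≤ 1.4 := by
    have e1 : 4.24 * r ≤ r ^ 2 := by
      rw [sq]; exact mul_le_mul_of_nonneg_right hr hr0.le
    linarith
  linarith

/-- `(U')`, `(L')` in the right tail; `s = ±δ b` -/
lemma right_alg3 {c v I H k r w b s F a : ℝ} (hc1 : 0.4157 ≤ c) (hc2 : c ≤ 0.4158)
    (hn : Rnum v I H k r) (hw : w = v * (1 - v) ^ 2) (hb0 : 0 ≤ b) (hb : b ≤ 1 / 2)
    (hs : -0.21 ≤ s) (hs1 : s ≤ 0.21) (hF0 : 0 ≤ F) (hF : F ≤ 33 / 20) (ha0 : 4 / 5 ≤ a)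
    (ha : a ≤ 1) :
    b * (I ^ 2 * (1 + s) + 2 * c * w + k * H) + F * H
      + a * ((1 + s) * (v * (k * H - I ^ 2 + 2 * c * w) + I * H)) ≤ 2 * (9 / 10) * w := by
  obtain ⟨hR0, hR1, hI, hr, hk0, hk1, hH⟩ := hn
  set R := 1 - v with hR
  have hv : v = 1 - R := by rw [hR]; ring
  have hv0 : 0 < v := by linarith
  have hr0 : 0 < r := by linarith
  have hR2 : 0 < R ^ 2 := by positivity
  have hI0 : 0 < I := by rw [hI]; positivity
  -- replace `H` by its upper bound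
  have hcoef : 0 ≤ b * k + F + a * ((1 + s) * (v * k + I)) := by
    have h1 : 0 ≤ 1 + s := by linarith
    have : 0 ≤ a := by linarith
    positivity
  have h1 : b * (I ^ 2 * (1 + s) + 2 * c * w + k * H) + F * H
      + a * ((1 + s) * (v * (k * H - I ^ 2 + 2 * c * w) + I * H)) ≤
      b * (I ^ 2 * (1 + s) + 2 * c * w + k * (r * R ^ 2 / 2)) + F * (r * R ^ 2 / 2)
      + a * ((1 + s) * (v * (k * (r * R ^ 2 / 2) - I ^ 2 + 2 * c * w) + I * (r * R ^ 2 / 2))) := by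
    have h2 := mul_le_mul_of_nonneg_left hH hcoef
    nlinarith
  refine h1.trans ?_
  have h2 : b * (I ^ 2 * (1 + s) + 2 * c * w + k * (r * R ^ 2 / 2)) + F * (r * R ^ 2 / 2)
      + a * ((1 + s) * (v * (k * (r * R ^ 2 / 2) - I ^ 2 + 2 * c * w) + I * (r * R ^ 2 / 2))) =
      R ^ 2 * ((1 + s) * (b - a * (v - R / 2)) * r ^ 2 +
        (b * k + F + a * ((1 + s) * (v * k))) / 2 * r + 2 * c * v * (b + a * (1 + s) * v)) := by
    rw [hI, hw]; ring
  have h3 : (2 : ℝ) * (9 / 10) * w = R ^ 2 * (9 / 5 * v) := by rw [hw]; ring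
  rw [h2, h3]
  refine mul_le_mul_of_nonneg_left ?_ hR2.le
  exact right_num3 hc1 hc2 hR0 hR1 hv hr hk0 hk1 hb0 hb hs hs1 hF ha0 ha

/-- `PHI ≤ 2 G w` in the tails, `F ≤ 33/20` -/
theorem phi_tail3 (h : SPair c W V I k c) (hc1 : 0.4157 ≤ c) (hc2 : c ≤ 0.4158) {x B F a G σ : ℝ}
    (hx : Tail x B) (hb0 : 0 ≤ B) (hF0 : 0 ≤ F) (hF : F ≤ 33 / 20) (ha0 : 4 / 5 ≤ a) (ha : a ≤ 1)
    (hG : 19 / 20 ≤ G) (hσ : σ = c ∨ σ = -c) :
    PHI c a F B σ (V x) (I x) (k x) (HH c W V I k x) ≤ 2 * G * (V x * (1 - V x) ^ 2) := by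
  have hc := h.c_pos
  have hw : 0 ≤ V x * (1 - V x) ^ 2 := mul_nonneg (h.V_pos x).le (sq_nonneg _)
  have hs : -c ≤ σ ∧ σ ≤ c := by
    rcases hσ with rfl | rfl
    · exact ⟨by linarith, le_rfl⟩
    · exact ⟨le_rfl, by linarith⟩
  rcases hx with ⟨hx, hb⟩ | ⟨hx, hb⟩
  · rcases le_total F (3 / 2) with hF1 | hF1
    · exact phi_tail h hc1 hc2 (Or.inl ⟨hx, hb⟩) hb0 hF0 hF1 ha0 ha (by linarith) hσ
    have h1 := phi_tail h hc1 hc2 (F := 3 / 2) (Or.inl ⟨hx, hb⟩) hb0 (by norm_num) le_rfl ha0 ha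
      (le_refl (9 / 10 : ℝ)) hσ
    have hn := lnum h hc1 hc2 hx
    have e : HH c W V I k x = Hf c W V I k x := rfl
    have e2 : PHI c a F B σ (V x) (I x) (k x) (HH c W V I k x) =
        PHI c a (3 / 2) B σ (V x) (I x) (k x) (HH c W V I k x) +
          (F - 3 / 2) * Hf c W V I k x := by
      rw [e]; unfold PHI; ring
    have h2 : (F - 3 / 2) * Hf c W V I k x ≤ 3 / 20 * (29 / 100 * V x) := by
      calc (F - 3 / 2) * Hf c W V I k x ≤ (F - 3 / 2) * (29 / 100 * V x) :=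
            mul_le_mul_of_nonneg_left hn.H1 (by linarith)
        _ ≤ 3 / 20 * (29 / 100 * V x) :=
            mul_le_mul_of_nonneg_right (by linarith) (mul_nonneg (by norm_num) hn.v0.le)
    have h3 : (1 - 1 / 200) * V x ≤ V x * (1 - V x) ^ 2 := by
      have h4 : 1 - 1 / 200 ≤ (1 - V x) ^ 2 := by nlinarith [hn.v0, hn.v1]
      rw [mul_comm]
      exact mul_le_mul_of_nonneg_left h4 hn.v0.le
    have h5 : 2 * (19 / 20) * (V x * (1 - V x) ^ 2) ≤ 2 * G * (V x * (1 - V x) ^ 2) :=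
      mul_le_mul_of_nonneg_right (by linarith) hw
    rw [e2]
    linarith
  · have hcb : c * B ≤ 0.4158 * (1 / 2) := mul_le_mul hc2 hb hb0 (by norm_num)
    have hcb0 : 0 ≤ c * B := mul_nonneg hc.le hb0
    have hsB : -(c * B) ≤ σ * B ∧ σ * B ≤ c * B := by
      constructor
      · rw [← neg_mul]; exact mul_le_mul_of_nonneg_right hs.1 hb0
      · exact mul_le_mul_of_nonneg_right hs.2 hb0
    have h1 := right_alg3 hc1 hc2 (rnum h hc1 hc2 hx) rfl hb0 hb (s := σ * B)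
      (by linarith [hsB.1]) (by linarith [hsB.2]) hF0 hF ha0 ha
    have hG' : 2 * (9 / 10) * (V x * (1 - V x) ^ 2) ≤ 2 * G * (V x * (1 - V x) ^ 2) :=
      mul_le_mul_of_nonneg_right (by linarith) hw
    have e : HH c W V I k x = Hf c W V I k x := rfl
    rw [e]
    refine le_trans (le_of_eq ?_) (h1.trans hG')
    unfold PHI
    ring

/-- **`Cert` from the cells on `[-5, 3]`**, `F ≤ 33/20`, `G ≥ 19/20` -/
theorem cert_of_cells3 (h : SPair c W V I k c) (hc1 : 0.4157 ≤ c) (hc2 : c ≤ 0.4158)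
    {a F G : ℝ} {B : ℝ → ℝ} (ha0 : 4 / 5 ≤ a) (ha : a ≤ 1) (hF0 : 0 ≤ F) (hF : F ≤ 33 / 20)
    (hG : 19 / 20 ≤ G) (hB : ∀ x, 0 ≤ B x) (hB1 : ∀ x, c * B x ≤ 1)
    (hBL : ∀ x ≤ -5, B x ≤ 5 / 4) (hBR : ∀ x, 3 ≤ x → B x ≤ 1 / 2) (y0 : ℝ)
    (hL : ∀ x, -5 ≤ x → x ≤ y0 → ∀ σ, σ = c ∨ σ = -c →
      0 ≤ gaL c a F G (B x) σ (V x) (I x) (k x) (V x * (1 - V x) / I x) (W x - x))
    (hR : ∀ x, y0 ≤ x → x ≤ 3 → ∀ σ, σ = c ∨ σ = -c →
      0 ≤ gaR c a F G (B x) σ (V x) (I x) (k x) (V x * (1 - V x) / I x)) :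
    Cert c a F G B W V I k := by
  intro x σ hs
  rcases le_total x (-5) with hx | hx
  · exact phi_tail3 h hc1 hc2 (Or.inl ⟨hx, hBL x hx⟩) (hB x) hF0 hF ha0 ha hG hs
  rcases le_total 3 x with hx3 | hx3
  · exact phi_tail3 h hc1 hc2 (Or.inr ⟨hx3, hBR x hx3⟩) (hB x) hF0 hF ha0 ha hG hs
  rcases le_total x y0 with hx0 | hx0
  · exact PHI_left h x σ (hL x hx hx0 σ hs)
  · refine PHI_right h x σ (by linarith) hF0 (hB x) ?_ (hR x hx0 hx3 σ hs)
    have h1 := hB1 x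
    have h2 := mul_nonneg h.c_pos.le (hB x)
    rcases hs with rfl | rfl
    · linarith
    · linarith

end Crest.Agent.R146.CloTail3_649
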