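import Crest.Agent.R146.CloC_924
import Crest.Agent.R146.CloTail3_649

/-!
# Row 146, NUMREF, node C3: the closure certificate at every point (helper924)
-/

set_option autoImplicit false

namespace Crest.Agent.R146.CloD_924

open Set Filter Topology
open Crest.Agent.R146.PP865 Crest.Agent.R146.EncR_848 Crest.Agent.R146.Enc1_848
open Crest.Agent.R146.SPair_307 Crest.Agent.R146.HFact_924 Crest.Agent.R146.Clo_924
open Crest.Agent.R146.CloG_924 Crest.Agent.R146.C3_924 Crest.Agent.R146.CloC_924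
open Crest.Agent.R146.QEnc_865

noncomputable section

/-- the variables of the cells -/
def wv (c σ : ℝ) (W V I k : ℝ → ℝ) (x : ℝ) (i : ℕ) : ℝ :=
  if i = 1 then W x else if i = 2 then V x else if i = 3 then I x else if i = 4 then k x
  else if i = 7 then qv V I x else if i = 22 then c else if i = 23 then σ
  else cv 36 C1D_445.P0 C1D_445.PS x i

theorem cv1 (x : ℝ) : cv 36 C1D_445.P0 C1D_445.PS x 1 = F 0 x :=
  congrFun (Fn_exts (by norm_num) C1D_445.len6 C1D_445.g0 C1D_445.gs) x
theorem cv2 (x : ℝ) : cv 36 C1D_445.P0 C1D_445.PS x 2 = F1 0 x :=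
  congrFun (Fn1_exts (by norm_num) C1D_445.len6 C1D_445.g0 C1D_445.gs) x
theorem cv3 (x : ℝ) : cv 36 C1D_445.P0 C1D_445.PS x 3 = F2 0 x :=
  congrFun (Fn2_exts (by norm_num) C1D_445.len6 C1D_445.g0 C1D_445.gs) x
theorem cv4 (x : ℝ) : cv 36 C1D_445.P0 C1D_445.PS x 4 = F 1 x :=
  congrFun (Fn_exts (by norm_num) C1D_445.len6 C1D_445.g0 C1D_445.gs) x
theorem cv7 (x : ℝ) : cv 36 C1D_445.P0 C1D_445.PS x 7 = F 2 x :=
  congrFun (Fn_exts (by norm_num) C1D_445.len6 C1D_445.g0 C1D_445.gs) x

theorem evR_90 (v : ℕ → ℝ) : (90 : Ex).evR v = 90 := by simpa using Ex.evR_ofNat v 90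
theorem evR_100 (v : ℕ → ℝ) : (100 : Ex).evR v = 100 := by simpa using Ex.evR_ofNat v 100
theorem evR_190 (v : ℕ → ℝ) : (190 : Ex).evR v = 190 := by simpa using Ex.evR_ofNat v 190

section main

variable {c σ : ℝ} {W V I k : ℝ → ℝ}

theorem I_enc (h : SPair c W V I k c) {x : ℝ} (h1 : -5 ≤ x) (h2 : x ≤ 3) :
    |I x - F2 0 x| ≤ 460 / 2 ^ 20 := by
  have E := Enc3_848.enc h
  rcases le_total (-3) x with h3 | h3
  · exact E.I3 x h3 h2
  · refine (E.I8 x (by linarith) (by linarith)).trans ?_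
    have hA := E.A8 x (by linarith) (by linarith)
    have hW := E.W8 x (by linarith) (by linarith)
    have hc1 := E.c_lo
    have hc2 := E.c_hi
    have hWp := h.W_pos x
    have hWm := CloTail_649.W_quarter h (x := x) (by linarith)
    have hW1 : W x ≤ 1 / 12 := by nlinarith
    rw [Enc1_848.Ad_eq]
    have h4 : |(1 - c) * x + 2 * c * W x| ≤ 3 := by
      norm_num at hc1 hc2
      rw [abs_le]
      constructor <;> nlinarith
    norm_num
    linarith

theorem w_bd (h : SPair c W V I k c) {x : ℝ} (h1 : -5 ≤ x) (h2 : x ≤ 3) :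
    ∀ i ≤ 21, |wv c σ W V I k x i - cv 36 C1D_445.P0 C1D_445.PS x i| ≤ (er i : ℝ) / 2 ^ 36 := by
  have E := Enc3_848.enc h
  intro i hi
  by_cases e1 : i = 1
  · subst e1
    rw [cv1]
    refine (E.W8 x (by linarith) (by linarith)).trans ?_
    norm_num [er]
  by_cases e2 : i = 2
  · subst e2
    rw [cv2]
    refine (E.V8 x (by linarith) (by linarith)).trans ?_
    norm_num [er]
  by_cases e3 : i = 3
  · subst e3
    rw [cv3]
    refine (I_enc h h1 h2).trans ?_
    norm_num [er]
  by_cases e4 : i = 4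
  · subst e4
    rw [cv4]
    refine (E.k6 x (by linarith) (by linarith)).trans ?_
    norm_num [er]
  by_cases e7 : i = 7
  · subst e7
    rw [cv7]
    refine (encQ h E.c_lo E.c_hi x ⟨by linarith, by linarith⟩).trans ?_
    norm_num [er]
  have e : wv c σ W V I k x i = cv 36 C1D_445.P0 C1D_445.PS x i := by
    unfold wv
    rw [if_neg e1, if_neg e2, if_neg e3, if_neg e4, if_neg e7, if_neg (by omega), if_neg (by omega)]
  rw [e, sub_self, abs_zero]
  positivity

theorem boxp (h : SPair c W V I k c) (x : ℝ) (hs0 : 0 ≤ σ) (hs : σ ≤ c) :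
    ∀ q ∈ CloC_924.bp, q.2.1.evR (wv c σ W V I k x) ≤ wv c σ W V I k x q.1 ∧
      wv c σ W V I k x q.1 ≤ q.2.2.evR (wv c σ W V I k x) := by
  have E := Enc3_848.enc h
  have hc1 := E.c_lo
  have hc2 := E.c_hi
  intro q hq
  simp only [CloC_924.bp, List.mem_cons, List.not_mem_nil, or_false] at hq
  rcases hq with rfl | rfl
  · simp only [Ex.evR_cst]
    have e : wv c σ W V I k x 22 = c := rfl
    rw [e]
    norm_num at hc1 hc2 ⊢
    exact ⟨by linarith, by linarith⟩
  · simp only [Ex.evR_cst]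
    have e : wv c σ W V I k x 23 = σ := rfl
    rw [e]
    norm_num at hc1 hc2 ⊢
    exact ⟨by linarith, by linarith⟩

theorem boxm (h : SPair c W V I k c) (x : ℝ) (hs0 : -c ≤ σ) (hs : σ ≤ 0) :
    ∀ q ∈ CloC_924.bm, q.2.1.evR (wv c σ W V I k x) ≤ wv c σ W V I k x q.1 ∧
      wv c σ W V I k x q.1 ≤ q.2.2.evR (wv c σ W V I k x) := by
  have E := Enc3_848.enc h
  have hc1 := E.c_lo
  have hc2 := E.c_hi
  intro q hq
  simp only [CloC_924.bm, List.mem_cons, List.not_mem_nil, or_false] at hq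
  rcases hq with rfl | rfl
  · simp only [Ex.evR_cst]
    have e : wv c σ W V I k x 22 = c := rfl
    rw [e]
    norm_num at hc1 hc2 ⊢
    exact ⟨by linarith, by linarith⟩
  · simp only [Ex.evR_cst]
    have e : wv c σ W V I k x 23 = σ := rfl
    rw [e]
    norm_num at hc1 hc2 ⊢
    exact ⟨by linarith, by linarith⟩

theorem evL (x : ℝ) (nF : ℤ) : (eL nF).evR (wv c σ W V I k x)
    = 100 * gaL c (9 / 10) (nF / 100) (19 / 20) (BC x) σ (V x) (I x) (k x)
      (V x * (1 - V x) / I x) (W x - x) := by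
  have e0 : wv c σ W V I k x 0 = x := rfl
  have e1 : wv c σ W V I k x 1 = W x := rfl
  have e2 : wv c σ W V I k x 2 = V x := rfl
  have e3 : wv c σ W V I k x 3 = I x := rfl
  have e4 : wv c σ W V I k x 4 = k x := rfl
  have e7 : wv c σ W V I k x 7 = V x * (1 - V x) / I x := rfl
  have e19 : wv c σ W V I k x 19 = C1D_445.b x := rfl
  have e22 : wv c σ W V I k x 22 = c := rfl
  have e23 : wv c σ W V I k x 23 = σ := rfl
  simp only [eL, xR, xB, xh, xw, Ex.evR_sub, Ex.evR_add, Ex.evR_mul, Ex.evR_cst, Ex.evR_var,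
    evR_90, evR_100, evR_190, Enc1_848.evR_one, Enc1_848.evR_two, e0, e1, e2, e3, e4, e7, e19, e22, e23, gaL, BC]
  push_cast
  ring

theorem evRR (x : ℝ) (nF : ℤ) : (eR nF).evR (wv c σ W V I k x)
    = 100 * gaR c (9 / 10) (nF / 100) (19 / 20) (BC x) σ (V x) (I x) (k x)
      (V x * (1 - V x) / I x) := by
  have e2 : wv c σ W V I k x 2 = V x := rfl
  have e3 : wv c σ W V I k x 3 = I x := rfl
  have e4 : wv c σ W V I k x 4 = k x := rfl
  have e7 : wv c σ W V I k x 7 = V x * (1 - V x) / I x := rfl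
  have e19 : wv c σ W V I k x 19 = C1D_445.b x := rfl
  have e22 : wv c σ W V I k x 22 = c := rfl
  have e23 : wv c σ W V I k x 23 = σ := rfl
  simp only [eR, xB, Ex.evR_sub, Ex.evR_add, Ex.evR_mul, Ex.evR_cst, Ex.evR_var,
    evR_90, evR_100, evR_190, Enc1_848.evR_one, Enc1_848.evR_two, e2, e3, e4, e7, e19, e22, e23, gaR, BC]
  push_cast
  ring

/-- left cells -/
theorem cellL (h : SPair c W V I k c) {x : ℝ} (h1 : -5 ≤ x) (h2 : x ≤ 7 / 8) :
    (∀ σ, 0 ≤ σ → σ ≤ c → 0 ≤ gaL c (9 / 10) (150 / 100) (19 / 20) (BC x) σ (V x) (I x) (k x)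
      (V x * (1 - V x) / I x) (W x - x)) ∧
    (∀ σ, -c ≤ σ → σ ≤ 0 → 0 ≤ gaL c (9 / 10) (161 / 100) (19 / 20) (BC x) σ (V x) (I x) (k x)
      (V x * (1 - V x) / I x) (W x - x)) := by
  constructor
  · intro σ hs0 hs
    have key := checkBoxT_sound C1D_445.adj_PS L1 (z := x) (by rw [C3_924.lo8]; linarith)
      (by rw [C3_924.hi8]; linarith) (by norm_num; linarith) (by norm_num; linarith)
      (w := wv c σ W V I k x) rfl (w_bd h h1 (by linarith)) (boxp h x hs0 hs)
    rw [evL] at key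
    push_cast at key
    linarith
  · intro σ hs0 hs
    have key := checkBoxT_sound C1D_445.adj_PS L2 (z := x) (by rw [C3_924.lo8]; linarith)
      (by rw [C3_924.hi8]; linarith) (by norm_num; linarith) (by norm_num; linarith)
      (w := wv c σ W V I k x) rfl (w_bd h h1 (by linarith)) (boxm h x hs0 hs)
    rw [evL] at key
    push_cast at key
    linarith

/-- right cells -/
theorem cellR (h : SPair c W V I k c) {x : ℝ} (h1 : 7 / 8 ≤ x) (h2 : x ≤ 3) :
    (∀ σ, 0 ≤ σ → σ ≤ c → 0 ≤ gaR c (9 / 10) (150 / 100) (19 / 20) (BC x) σ (V x) (I x) (k x)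
      (V x * (1 - V x) / I x)) ∧
    (∀ σ, -c ≤ σ → σ ≤ 0 → 0 ≤ gaR c (9 / 10) (161 / 100) (19 / 20) (BC x) σ (V x) (I x) (k x)
      (V x * (1 - V x) / I x)) := by
  constructor
  · intro σ hs0 hs
    have key := checkBoxT_sound C1D_445.adj_PS R1 (z := x) (by rw [C3_924.lo8]; linarith)
      (by rw [C3_924.hi8]; linarith) (by norm_num; linarith) (by norm_num; linarith)
      (w := wv c σ W V I k x) rfl (w_bd h (by linarith) (by linarith)) (boxp h x hs0 hs)
    rw [evRR] at key
    push_cast at key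
    linarith
  · intro σ hs0 hs
    have key := checkBoxT_sound C1D_445.adj_PS R2 (z := x) (by rw [C3_924.lo8]; linarith)
      (by rw [C3_924.hi8]; linarith) (by norm_num; linarith) (by norm_num; linarith)
      (w := wv c σ W V I k x) rfl (w_bd h (by linarith) (by linarith)) (boxm h x hs0 hs)
    rw [evRR] at key
    push_cast at key
    linarith

theorem cb3 : chkBoxR 36 3 21 24 64 [] (.cst 127 8 - .var 19) C1D_445.P0
    C1D_445.PS = true := by decide +kernel

theorem tail (x : ℝ) (hx : x ≤ -5 ∨ 3 ≤ x) : CloTail_649.Tail x (BC x) := by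
  rcases hx with hx | hx
  · left
    refine ⟨hx, ?_⟩
    have := (BC_bd x).2
    linarith
  · right
    refine ⟨hx, ?_⟩
    unfold BC
    rcases le_or_gt x 8 with h2 | h2
    · have a1 := chkBoxR_sound C1D_445.adj_PS cb3 (z := x) (by rw [C3_924.lo8]; linarith)
        (by rw [C3_924.hi8]; exact h2) (by norm_num; linarith) (by norm_num; linarith)
        (v := cv 36 C1D_445.P0 C1D_445.PS x) (fun _ _ => rfl) (by simp)
      simp only [Ex.evR_sub, Ex.evR_var, Ex.evR_cst] at a1
      have e : cv 36 C1D_445.P0 C1D_445.PS x 19 = C1D_445.b x := rfl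
      rw [e] at a1
      norm_num at a1 ⊢
      linarith
    · rw [C1D_445.b_right (by linarith)]
      unfold C1D_445.bR
      norm_num

/-- **the certificate**, upper side (`F = 3/2`, `σ ∈ [0,c]`) -/
theorem certU (h : SPair c W V I k c) (x : ℝ) (hs0 : 0 ≤ σ) (hs : σ ≤ c) :
    PHI c (9 / 10) (3 / 2) (BC x) σ (V x) (I x) (k x) (HH c W V I k x)
      ≤ 2 * (19 / 20) * (V x * (1 - V x) ^ 2) := by
  have E := Enc3_848.enc h
  have hc1 := E.c_lo
  have hc2 := E.c_hi
  norm_num at hc1 hc2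
  obtain ⟨hb0, hb1⟩ := BC_bd x
  have hc := h.c_pos
  by_cases hx : x ≤ -5 ∨ 3 ≤ x
  · have ht := tail x hx
    exact PHI_le hc
      (CloTail3_649.phi_tail3 h (by norm_num; linarith) (by norm_num; linarith) ht hb0 (by norm_num)
        (by norm_num) (by norm_num) (by norm_num) le_rfl (Or.inl rfl))
      (CloTail3_649.phi_tail3 h (by norm_num; linarith) (by norm_num; linarith) ht hb0 (by norm_num)
        (by norm_num) (by norm_num) (by norm_num) le_rfl (Or.inr rfl)) (by linarith) hs
  · push Not at hx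
    rcases le_total x (7 / 8) with h8 | h8
    · refine PHI_left h x σ ?_
      have := (cellL h hx.1.le h8).1 σ hs0 hs
      norm_num at this ⊢
      exact this
    · refine PHI_right h x σ (by norm_num) (by norm_num) hb0 ?_ ?_
      · positivity
      · have := (cellR h h8 hx.2.le).1 σ hs0 hs
        norm_num at this ⊢
        exact this

/-- **the certificate**, lower side (`F = 161/100`, `σ ∈ [-c,0]`) -/
theorem certL (h : SPair c W V I k c) (x : ℝ) (hs0 : -c ≤ σ) (hs : σ ≤ 0) :
    PHI c (9 / 10) (161 / 100) (BC x) σ (V x) (I x) (k x) (HH c W V I k x)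
      ≤ 2 * (19 / 20) * (V x * (1 - V x) ^ 2) := by
  have E := Enc3_848.enc h
  have hc1 := E.c_lo
  have hc2 := E.c_hi
  norm_num at hc1 hc2
  obtain ⟨hb0, hb1⟩ := BC_bd x
  have hc := h.c_pos
  by_cases hx : x ≤ -5 ∨ 3 ≤ x
  · have ht := tail x hx
    exact PHI_le hc
      (CloTail3_649.phi_tail3 h (by norm_num; linarith) (by norm_num; linarith) ht hb0 (by norm_num)
        (by norm_num) (by norm_num) (by norm_num) le_rfl (Or.inl rfl))
      (CloTail3_649.phi_tail3 h (by norm_num; linarith) (by norm_num; linarith) ht hb0 (by norm_num)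
        (by norm_num) (by norm_num) (by norm_num) le_rfl (Or.inr rfl)) hs0 (by linarith)
  · push Not at hx
    rcases le_total x (7 / 8) with h8 | h8
    · refine PHI_left h x σ ?_
      have := (cellL h hx.1.le h8).2 σ hs0 hs
      norm_num at this ⊢
      exact this
    · refine PHI_right h x σ (by norm_num) (by norm_num) hb0 ?_ ?_
      · nlinarith
      · have := (cellR h h8 hx.2.le).2 σ hs0 hs
        norm_num at this ⊢
        exact this

end main

end

end Crest.Agent.R146.CloD_924
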