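import Crest.Agent.R146.PtNum_846
import Crest.Agent.R146.CloD_924

/-!
# Row 146, NUMREF, node C3 from the label shift (helper924)
-/

set_option autoImplicit false

namespace Crest.Agent.R146.C3y_924

open Crest.Agent.R146.SPair_307 Crest.Agent.R146.HFact_924 Crest.Agent.R146.Clo_924
open Crest.Agent.R146.C3_924 Crest.Agent.R146.CloD_924 Crest.Agent.R146.PtNum_846
open Crest.Agent.R146.PtRef_846 Crest.Agent.R146.PairQ_355

/-- **C3** from the bound of the label shift -/
theorem c3_of (hZ : ∀ (c : ℝ) (W V I k : ℝ → ℝ), SPair c W V I k c → ∀ δ, 0 < δ → δ ≤ c → ∀ x z,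
    Pos δ W V x z → |k z - k x| ≤ 21 / 100 * δ) : C3 where
  clo_p c W V I k h δ hδ hδc x z hP j L hj1 hj2 hL0 hL1 hL2 := by
    have E := Enc3_848.enc h
    have hc2 := E.c_hi
    norm_num at hc2
    obtain ⟨hb1, hb2⟩ := b_bd x
    norm_num at hb1 hb2
    have hz := (abs_le.1 (hZ c W V I k h δ hδ hδc x z hP)).1
    have hV := h.V_pos x
    have hV1 := h.V_lt x
    have hδb : δ * C1D_445.b x ≤ 5 / 8 := by nlinarith
    have hδb0 : 0 ≤ δ * C1D_445.b x := by positivity
    have key := clo_up (a := 9 / 10) (F := 3 / 2) (B := BC x) (G := 19 / 20) (dl := δ) (v := V x)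
      (I := I x) (k := k x) (H := HH c W V I k x) (j := j) (L := L) h.c_pos hδ (by norm_num) hV.le
      (by nlinarith) (h.I_pos x).le (h.k_pos x).le (H_pos h (by have := E.c_lo; norm_num at this ⊢; linarith) x).le
      (certU h x hδ.le hδc) (by unfold BC; nlinarith) (by unfold BC; nlinarith) hL0 (by linarith)
    unfold Dual_924.EE gr
    rw [G0_eq]
    linarith
  clo_m c W V I k h δ hδ hδc x z hP j L hj1 hj2 hL0 hL1 hL2 := by
    have E := Enc3_848.enc h
    have hc1 := E.c_lo
    have hc2 := E.c_hi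
    norm_num at hc2
    obtain ⟨hb1, hb2⟩ := b_bd x
    norm_num at hb1 hb2
    have hz := (abs_le.1 (hZ c W V I k h δ hδ hδc x z hP)).2
    have hV := h.V_pos x
    have hV1 := h.V_lt x
    have hδb : δ * C1D_445.b x ≤ 5 / 8 := by nlinarith
    have hδb0 : 0 ≤ δ * C1D_445.b x := by positivity
    have hHp := (H_pos h (by have := E.c_lo; norm_num at this ⊢; linarith) x).le
    obtain ⟨hB0, hB1⟩ := BC_bd x
    have key := clo_lo (c := c) (a := 9 / 10) (F := 161 / 100) (B := BC x) (G := 19 / 20) (dl := δ)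
      (v := V x) (I := I x) (k := k x) (H := HH c W V I k x) (j := j) (L := L) hδ (by norm_num) hV.le
      (by nlinarith) (h.k_pos x).le hHp hB0 (by norm_num) (by nlinarith)
      (certL h x (by linarith) (by linarith))
      (hM_of h.c_pos (by norm_num; linarith) hδ hδc (by norm_num) (by norm_num) hV hV1 (h.I_pos x)
        (h.k_pos x).le hHp (H_lt h x).le hB1 (hor h hc1 E.c_hi x))
      (by unfold BC; nlinarith) (by linarith)
    unfold Dual_924.EE gr
    rw [G0_eq]
    linarith

end Crest.Agent.R146.C3y_924
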