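import Crest.Agent.R146.Stat7_307

/-!
# Row 146: the closed stationary pair (post 1221 of helper846; helper43)

* `dG0`   : the algebraic dual function of the closure, `G0' = k G0 + I² - 2 c V R² - (λ - c) V R`;
* `lam_close` : `|λ₁ - λ₂|` is small if the profiles are close (comparison of the Riccati equations);
* `lam_unique`: `λ` is determined by `c`;
* `exists_closed` : there are `c ∈ [1/3, 9/10]` and `SPair c W V I k c` (closure `λ = c`).
-/

set_option autoImplicit false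

open Set Filter Topology

namespace Crest.Agent.R146.CPair_43

open SPair_307

section One

variable {c : ℝ} {W V I k : ℝ → ℝ} {lam : ℝ}

/-! ### The dual function -/

/-- the dual function of the closure -/
noncomputable def G0 (c : ℝ) (W V I k : ℝ → ℝ) (x : ℝ) : ℝ :=
  -(1 / 2) * (V x * (1 - V x) * k x + I x * (1 - V x) - (1 - c) * (W x - x) * V x)

theorem dG0 (h : SPair c W V I k lam) (x : ℝ) : HasDerivAt (G0 c W V I k)
    (k x * G0 c W V I k x + I x ^ 2 - 2 * c * V x * (1 - V x) ^ 2 - (lam - c) * V x * (1 - V x))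
    x := by
  have h1 := (((h.dV x).mul ((h.dV x).const_sub 1)).mul (h.dk x))
  have h2 := (h.dI x).mul ((h.dV x).const_sub 1)
  have h3 := (((h.dW x).sub (hasDerivAt_id x)).const_mul (1 - c)).mul (h.dV x)
  have h4 := ((h1.add h2).sub h3).const_mul (-(1 / 2))
  refine h4.congr_deriv ?_
  have e := h.eqI x
  simp only [G0, Pi.mul_apply, Pi.sub_apply, id]
  rw [e]
  unfold Ad Ad1
  ring

/-! ### Bounds -/

theorem I_eq (h : SPair c W V I k lam) (x : ℝ) :
    I x = (1 + c) * ((1 - V x) * W x) + (1 - c) * (V x * (W x - x)) := by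
  rw [h.eqI x]; unfold Ad; ring

theorem W0_le (h : SPair c W V I k lam) : W 0 ≤ 1 / 2 := by
  have := h.W_le 0
  norm_num at this
  linarith

theorem I_le_one (h : SPair c W V I k lam) (x : ℝ) : I x ≤ 1 := by
  have h1 := h.I_le x
  have h2 := W0_le h
  have h3 := h.c_lt
  have h4 := h.c_pos
  nlinarith

theorem RW_le (h : SPair c W V I k lam) (x : ℝ) : (1 - V x) * W x ≤ 1 / 2 := by
  have h1 := h.I_le x
  have h2 := W0_le h
  have h3 := h.c_lt
  have h4 := h.c_pos
  have h5 := I_eq h x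
  have h6 : 0 ≤ (1 - c) * (V x * (W x - x)) :=
    mul_nonneg (by linarith) (mul_nonneg (h.V_pos x).le (by linarith [h.U_pos x]))
  have h7 : (1 + c) * ((1 - V x) * W x) ≤ (1 + c) * (1 / 2) := by nlinarith
  exact le_of_mul_le_mul_left h7 (by linarith)

theorem RW_nonneg (h : SPair c W V I k lam) (x : ℝ) : 0 ≤ (1 - V x) * W x :=
  mul_nonneg (by linarith [h.V_lt x]) (h.W_pos x).le

theorem VU_le (h : SPair c W V I k lam) (x : ℝ) : V x * (W x - x) ≤ 1 / (1 - c) := by
  have h3 : 0 < 1 - c := by linarith [h.c_lt]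
  rw [le_div_iff₀ h3]
  have h5 := I_eq h x
  have h6 := I_le_one h x
  have h7 : 0 ≤ (1 + c) * ((1 - V x) * W x) := mul_nonneg (by linarith [h.c_pos]) (RW_nonneg h x)
  linarith

theorem VU_nonneg (h : SPair c W V I k lam) (x : ℝ) : 0 ≤ V x * (W x - x) :=
  mul_nonneg (h.V_pos x).le (by linarith [h.U_pos x])

theorem max_le_W (h : SPair c W V I k lam) (x : ℝ) : max 0 x ≤ W x :=
  max_le (h.W_pos x).le (h.U_pos x).le

theorem W_le_max (h : SPair c W V I k lam) (x : ℝ) : W x ≤ max 0 x + 1 / 2 := by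
  have h1 := h.W_le x
  have h2 : Real.sqrt (x ^ 2 + 1) ≤ |x| + 1 := by
    rw [Real.sqrt_le_left (by positivity)]
    nlinarith [abs_nonneg x, sq_abs x]
  have h3 : max 0 x = (x + |x|) / 2 := by
    rcases le_total 0 x with h | h
    · rw [max_eq_right h, abs_of_nonneg h]; ring
    · rw [max_eq_left h, abs_of_nonpos h]; ring
  rw [h3]; linarith

theorem W_le_tail (h : SPair c W V I k lam) {x : ℝ} (hx : 0 < |x|) :
    W x ≤ max 0 x + 1 / (4 * |x|) := by
  have h1 := h.W_le x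
  have h2 : Real.sqrt (x ^ 2 + 1) ≤ |x| + 1 / (2 * |x|) := by
    rw [Real.sqrt_le_left (by positivity)]
    have e : (|x| + 1 / (2 * |x|)) ^ 2 = x ^ 2 + 1 + (1 / (2 * |x|)) ^ 2 := by
      have : |x| * (1 / (2 * |x|)) = 1 / 2 := by field_simp
      rw [← sq_abs x]; nlinarith
    rw [e]; nlinarith [sq_nonneg (1 / (2 * |x|))]
  have h3 : max 0 x = (x + |x|) / 2 := by
    rcases le_total 0 x with h | h
    · rw [max_eq_right h, abs_of_nonneg h]; ring
    · rw [max_eq_left h, abs_of_nonpos h]; ring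
  have h4 : 1 / (2 * |x|) = 2 * (1 / (4 * |x|)) := by field_simp; ring
  rw [h3]; linarith

theorem A_ge (h : SPair c W V I k lam) (x : ℝ) : (1 + c) / 2 * x ≤ Ad c W x := by
  unfold Ad
  have := mul_nonneg h.c_pos.le (sub_nonneg.2 (h.U_pos x).le)
  linarith

theorem A_ge' (h : SPair c W V I k lam) (x : ℝ) : (1 - c) / 2 * x ≤ Ad c W x := by
  unfold Ad
  have := mul_pos h.c_pos (h.W_pos x)
  linarith

theorem A_le (h : SPair c W V I k lam) {x : ℝ} (hx : x ≤ 0) :
    Ad c W x ≤ (1 - c) / 2 * x + 1 / 2 := by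
  unfold Ad
  have h1 : W x ≤ 1 / 2 := (h.W_strictMono.monotone hx).trans (W0_le h)
  have h2 := mul_le_mul_of_nonneg_left h1 h.c_pos.le
  have h3 := h.c_lt
  linarith

theorem kx_bdd (h : SPair c W V I k lam) : ∃ C, 0 ≤ C ∧ ∀ x, k x ≤ C ∧ k x * |x| ≤ C := by
  obtain ⟨C1, h1⟩ := h.k_bdd
  obtain ⟨C2, h2⟩ := h.k_right
  obtain ⟨C3, h3⟩ := h.k_left
  refine ⟨max C1 (max C2 (max C3 0)), by simp, fun x => ⟨(h1 x).trans (le_max_left _ _), ?_⟩⟩
  rcases lt_trichotomy x 0 with hx | hx | hx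
  · have h4 := h3 x hx
    rw [le_div_iff₀ (by linarith)] at h4
    rw [abs_of_neg hx]
    exact h4.trans ((le_max_left _ _).trans ((le_max_right _ _).trans (le_max_right _ _)))
  · rw [hx]; simp
  · have h4 := h2 x hx
    rw [le_div_iff₀ hx] at h4
    rw [abs_of_pos hx]
    exact h4.trans ((le_max_left _ _).trans (le_max_right _ _))

end One

/-! ### Two pairs -/

section Two

variable {c1 c2 : ℝ} {W1 V1 I1 k1 W2 V2 I2 k2 : ℝ → ℝ} {l1 l2 : ℝ}

theorem W_diff_le (h1 : SPair c1 W1 V1 I1 k1 l1) (h2 : SPair c2 W2 V2 I2 k2 l2) (x : ℝ) :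
    W1 x - W2 x ≤ |c1 - c2| / ((1 - c1) * (1 - c2)) := by
  have hc1 : 0 < 1 - c1 := by linarith [h1.c_lt]
  have hc2 : 0 < 1 - c2 := by linarith [h2.c_lt]
  by_contra hcon
  push Not at hcon
  set M := |c1 - c2| / ((1 - c1) * (1 - c2)) with hM
  have hM0 : 0 ≤ M := by positivity
  set m := W1 x - W2 x with hm
  have hm0 : 0 < m := by linarith
  set R := max |x| (1 / (4 * m)) + 1 with hR
  have hRx : |x| < R := lt_of_le_of_lt (le_max_left _ _) (by linarith)
  have hRm : 1 / (4 * m) < R := lt_of_le_of_lt (le_max_right _ _) (by linarith)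
  have hR0 : 0 < R := lt_of_le_of_lt (abs_nonneg x) hRx
  have hcont : ContinuousOn (fun y => W1 y - W2 y) (Icc (-R) R) :=
    (h1.cW.sub h2.cW).continuousOn
  obtain ⟨x0, hx0, hmax⟩ := isCompact_Icc.exists_isMaxOn
    (nonempty_Icc.2 (by linarith : -R ≤ R)) hcont
  have hxm : x ∈ Icc (-R) R := ⟨by linarith [neg_abs_le x], by linarith [le_abs_self x]⟩
  have hge : m ≤ W1 x0 - W2 x0 := hmax hxm
  have htail : ∀ y : ℝ, |y| = R → W1 y - W2 y < m := by
    intro y hy
    have h3 := W_le_tail h1 (x := y) (by rw [hy]; exact hR0)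
    have h4 := max_le_W h2 y
    have h5 : 1 / (4 * |y|) < m := by
      rw [hy, div_lt_iff₀ (by positivity)]
      rw [div_lt_iff₀ (by positivity)] at hRm
      linarith
    linarith
  have hx0' : x0 ∈ Ioo (-R) R := by
    refine ⟨lt_of_le_of_ne hx0.1 ?_, lt_of_le_of_ne hx0.2 ?_⟩
    · intro he
      have := htail x0 (by rw [← he, abs_neg, abs_of_pos hR0])
      linarith
    · intro he
      have := htail x0 (by rw [he, abs_of_pos hR0])
      linarith
  obtain ⟨hV, hI⟩ := Stat1_307.second_deriv_nonpos (g := fun y => W1 y - W2 y)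
    (g1 := fun y => V1 y - V2 y) (g2 := I1 x0 - I2 x0) hx0'
    (fun t _ => (h1.dW t).sub (h2.dW t)) ((h1.dV x0).sub (h2.dV x0))
    (fun t ht => hmax (Ioo_subset_Icc_self ht))
  have hV' : V1 x0 = V2 x0 := by linarith
  have e1 := h1.eqI x0
  have e2 := h2.eqI x0
  have key : I1 x0 - I2 x0 = (W1 x0 - W2 x0) * (1 + c1 - 2 * V2 x0 * c1) +
      (c1 - c2) * ((1 - V2 x0) * W2 x0 - V2 x0 * (W2 x0 - x0)) := by
    rw [e1, e2, hV']; unfold Ad; ring
  have b1 := RW_le h2 x0
  have b2 := RW_nonneg h2 x0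
  have b3 := VU_le h2 x0
  have b4 := VU_nonneg h2 x0
  have b5 : 1 ≤ 1 / (1 - c2) := by
    rw [le_div_iff₀ hc2]; linarith [h2.c_pos]
  have b6 : |(1 - V2 x0) * W2 x0 - V2 x0 * (W2 x0 - x0)| ≤ 1 / (1 - c2) := by
    rw [abs_le]; constructor <;> linarith
  have b7 : -(|c1 - c2| * (1 / (1 - c2))) ≤
      (c1 - c2) * ((1 - V2 x0) * W2 x0 - V2 x0 * (W2 x0 - x0)) := by
    have := abs_mul (c1 - c2) ((1 - V2 x0) * W2 x0 - V2 x0 * (W2 x0 - x0))
    have h3 := mul_le_mul_of_nonneg_left b6 (abs_nonneg (c1 - c2))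
    rw [← this] at h3
    exact (abs_le.1 h3).1
  have b8 : (W1 x0 - W2 x0) * (1 - c1) ≤ (W1 x0 - W2 x0) * (1 + c1 - 2 * V2 x0 * c1) := by
    refine mul_le_mul_of_nonneg_left ?_ (by linarith)
    nlinarith [h2.V_lt x0, h1.c_pos]
  have b9 : (W1 x0 - W2 x0) * (1 - c1) ≤ |c1 - c2| * (1 / (1 - c2)) := by linarith
  have b10 : W1 x0 - W2 x0 ≤ M := by
    have e3 : M = |c1 - c2| * (1 / (1 - c2)) / (1 - c1) := by
      rw [hM]; field_simp
    rw [e3, le_div_iff₀ hc1]; exact b9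
  linarith

theorem W_diff (h1 : SPair c1 W1 V1 I1 k1 l1) (h2 : SPair c2 W2 V2 I2 k2 l2) (x : ℝ) :
    |W1 x - W2 x| ≤ |c1 - c2| / ((1 - c1) * (1 - c2)) := by
  have h3 := W_diff_le h1 h2 x
  have h4 := W_diff_le h2 h1 x
  rw [abs_sub_comm c2 c1, mul_comm (1 - c2)] at h4
  rw [abs_le]; constructor <;> linarith

/-- the slopes are close if the profiles are -/
theorem V_diff (h1 : SPair c1 W1 V1 I1 k1 l1) (h2 : SPair c2 W2 V2 I2 k2 l2) {M s : ℝ}
    (hM : ∀ x, |W1 x - W2 x| ≤ M) (hs : 0 < s) (x : ℝ) : |V1 x - V2 x| ≤ 2 * M / s + s := by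
  have hd : ∀ y, HasDerivAt (fun y => W1 y - W2 y) (V1 y - V2 y) y :=
    fun y => (h1.dW y).sub (h2.dW y)
  obtain ⟨y, hy, hye⟩ := exists_hasDerivAt_eq_slope (fun y => W1 y - W2 y)
    (fun y => V1 y - V2 y) (show x < x + s by linarith)
    (fun z _ => (hd z).continuousAt.continuousWithinAt) (fun z _ => hd z)
  have b1 : |V1 y - V2 y| ≤ 2 * M / s := by
    rw [hye, abs_div, show x + s - x = s by ring, abs_of_pos hs]
    have := abs_sub (W1 (x + s) - W2 (x + s)) (W1 x - W2 x)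
    gcongr
    linarith [hM x, hM (x + s)]
  have b2 : ‖(V1 x - V2 x) - (V1 y - V2 y)‖ ≤ 1 * ‖x - y‖ := by
    refine Convex.norm_image_sub_le_of_norm_hasDerivWithin_le (s := univ)
      (f := fun z => V1 z - V2 z) (f' := fun z => I1 z - I2 z)
      (fun z _ => ((h1.dV z).sub (h2.dV z)).hasDerivWithinAt) (fun z _ => ?_) convex_univ
      (mem_univ _) (mem_univ _)
    rw [Real.norm_eq_abs, abs_le]
    constructor <;> linarith [I_le_one h1 z, I_le_one h2 z, h1.I_pos z, h2.I_pos z]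
  rw [Real.norm_eq_abs, Real.norm_eq_abs, one_mul] at b2
  have b3 : |x - y| ≤ s := by rw [abs_le]; constructor <;> linarith [hy.1, hy.2]
  have b4 : |V1 x - V2 x| ≤ |(V1 x - V2 x) - (V1 y - V2 y)| + |V1 y - V2 y| := by
    have := abs_add_le ((V1 x - V2 x) - (V1 y - V2 y)) (V1 y - V2 y)
    simpa using this
  linarith

/-- right half of the crossing argument -/
theorem neg_of_source {d p r : ℝ → ℝ} {C X ρ : ℝ} (hρ : 0 < ρ)
    (hd : ∀ x, HasDerivAt d (p x * d x + r x) x) (hr : ∀ x, ρ ≤ r x) (hC : ∀ x, |d x| ≤ C)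
    (hp : ∀ x, X ≤ x → 0 ≤ p x) {x0 : ℝ} (hx0 : X ≤ x0) : d x0 < 0 := by
  by_contra hcon
  push Not at hcon
  have hC0 : 0 ≤ C := (abs_nonneg _).trans (hC x0)
  set b := x0 + 2 * (C + 1) / ρ with hb
  have hbx : x0 ≤ b := by rw [hb]; have : 0 ≤ 2 * (C + 1) / ρ := by positivity
                          linarith
  have key := image_le_of_deriv_right_lt_deriv_boundary (f := fun x => ρ / 2 * (x - x0))
    (f' := fun _ => ρ / 2) (a := x0) (b := b) (B := d) (B' := fun x => p x * d x + r x)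
    (by fun_prop)
    (fun x _ => by
      have : HasDerivAt (fun x => ρ / 2 * (x - x0)) (ρ / 2) x := by
        simpa using ((hasDerivAt_id x).sub_const x0).const_mul (ρ / 2)
      exact this.hasDerivWithinAt)
    (by simpa using hcon) hd
    (fun x hx he => by
      have h1 : 0 ≤ d x := by rw [← he]; exact mul_nonneg (by linarith) (by linarith [hx.1])
      have h2 := mul_nonneg (hp x (hx0.trans hx.1)) h1
      have h3 := hr x
      show ρ / 2 < p x * d x + r x
      linarith)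
  have h1 := key (show b ∈ Icc x0 b from ⟨hbx, le_rfl⟩)
  have h2 : ρ / 2 * (b - x0) = C + 1 := by rw [hb]; field_simp; ring
  rw [h2] at h1
  linarith [le_abs_self (d b), hC b]

/-- **crossing**: a bounded solution of `d' = p d + r`, `r ≥ ρ > 0`, `p ≥ 0` far right, `p ≤ 0` far
left does not exist -/
theorem no_cross {d p r : ℝ → ℝ} {C X ρ : ℝ} (hρ : 0 < ρ)
    (hd : ∀ x, HasDerivAt d (p x * d x + r x) x) (hr : ∀ x, ρ ≤ r x) (hC : ∀ x, |d x| ≤ C)
    (hp : ∀ x, X ≤ x → 0 ≤ p x) (hp' : ∀ x, x ≤ -X → p x ≤ 0) : False := by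
  have hR : d (max X 0) < 0 := neg_of_source hρ hd hr hC hp (le_max_left _ _)
  have hL : 0 < d (-(max X 0)) := by
    have := neg_of_source (d := fun y => -d (-y)) (p := fun y => -p (-y)) (r := fun y => r (-y))
      (C := C) (X := X) (x0 := max X 0) hρ (fun y => by
        have h1 : HasDerivAt (fun y => d (-y)) ((p (-y) * d (-y) + r (-y)) * (-1)) y :=
          (hd (-y)).comp y (hasDerivAt_neg y)
        refine h1.neg.congr_deriv ?_
        ring) (fun y => hr (-y)) (fun y => by rw [abs_neg]; exact hC (-y))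
      (fun y hy => by have := hp' (-y) (by linarith); linarith) (le_max_left _ _)
    linarith
  have key := image_le_of_deriv_right_lt_deriv_boundary (f := fun _ => (0 : ℝ))
    (f' := fun _ => 0) (a := -(max X 0)) (b := max X 0) (B := d) (B' := fun x => p x * d x + r x)
    continuousOn_const (fun x _ => (hasDerivAt_const x (0 : ℝ)).hasDerivWithinAt) hL.le hd
    (fun x _ he => by
      have h3 := hr x
      have he' : d x = 0 := he.symm
      show (0 : ℝ) < p x * d x + r x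
      rw [he', mul_zero]; linarith)
  have h1 := key (show max X 0 ∈ Icc (-(max X 0)) (max X 0) from
    ⟨by linarith [le_max_right X 0], le_rfl⟩)
  linarith

/-- comparison of the constants `λ` of two pairs -/
theorem lam_close (h1 : SPair c1 W1 V1 I1 k1 l1) (h2 : SPair c2 W2 V2 I2 k2 l2) {S : ℝ}
    (hS : ∀ x, |(Ad c1 W1 x - Ad c2 W2 x) * k2 x - (Ad1 c1 V1 x - Ad1 c2 V2 x)| ≤ S) :
    |l1 - l2| ≤ S := by
  obtain ⟨C1, hC1, hk1⟩ := kx_bdd h1
  obtain ⟨C2, hC2, hk2⟩ := kx_bdd h2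
  have hc1 : 0 < 1 - c1 := by linarith [h1.c_lt]
  set X := (C1 + C2 + 1) / (1 - c1) with hX
  have hX0 : 0 ≤ X := by positivity
  have hp : ∀ x, X ≤ x → 0 ≤ k1 x + k2 x + 2 * Ad c1 W1 x := by
    intro x hx
    have h3 := A_ge h1 x
    have h4 : 0 ≤ (1 + c1) / 2 * x := mul_nonneg (by linarith [h1.c_pos]) (hX0.trans hx)
    linarith [h1.k_pos x, h2.k_pos x]
  have hp' : ∀ x, x ≤ -X → k1 x + k2 x + 2 * Ad c1 W1 x ≤ 0 := by
    intro x hx
    have h3 := A_le h1 (x := x) (by linarith)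
    have h4 : (1 - c1) * x ≤ -(C1 + C2 + 1) := by
      have := mul_le_mul_of_nonneg_left hx hc1.le
      have e : (1 - c1) * -X = -(C1 + C2 + 1) := by rw [hX]; field_simp
      linarith
    linarith [(hk1 x).1, (hk2 x).1]
  have hb : ∀ x, |k1 x - k2 x| ≤ C1 + C2 := by
    intro x
    rw [abs_le]
    constructor <;> linarith [(hk1 x).1, (hk2 x).1, h1.k_pos x, h2.k_pos x]
  rw [abs_le]
  constructor
  · by_contra hcon
    push Not at hcon
    refine no_cross (d := fun x => k2 x - k1 x) (p := fun x => k1 x + k2 x + 2 * Ad c1 W1 x)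
      (r := fun x => -2 * ((Ad c1 W1 x - Ad c2 W2 x) * k2 x - (Ad1 c1 V1 x - Ad1 c2 V2 x))
        + 2 * (l2 - l1)) (C := C1 + C2) (X := X) (ρ := 2 * (l2 - l1 - S)) (by linarith)
      (fun x => ?_) (fun x => ?_) (fun x => by rw [abs_sub_comm]; exact hb x) hp hp'
    · refine ((h2.dk x).sub (h1.dk x)).congr_deriv ?_
      ring
    · have := (abs_le.1 (hS x)).2
      show 2 * (l2 - l1 - S) ≤ _
      linarith
  · by_contra hcon
    push Not at hcon
    refine no_cross (d := fun x => k1 x - k2 x) (p := fun x => k1 x + k2 x + 2 * Ad c1 W1 x)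
      (r := fun x => 2 * ((Ad c1 W1 x - Ad c2 W2 x) * k2 x - (Ad1 c1 V1 x - Ad1 c2 V2 x))
        + 2 * (l1 - l2)) (C := C1 + C2) (X := X) (ρ := 2 * (l1 - l2 - S)) (by linarith)
      (fun x => ?_) (fun x => ?_) hb hp hp'
    · refine ((h1.dk x).sub (h2.dk x)).congr_deriv ?_
      ring
    · have := (abs_le.1 (hS x)).1
      show 2 * (l1 - l2 - S) ≤ _
      linarith

end Two

end Crest.Agent.R146.CPair_43
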