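import Crest.Agent.R146.CavInc_769

/-!
Row 146, S0206, node CAV (helper769), part 2: the Prop `S6U_988.CAV` from
(5b) = Gaussian cavity for one row under an arbitrary law, and
(T) = transfer of the pair form through a bounded tilt.
-/

set_option autoImplicit false

namespace Crest.Agent.R146.CavAsm_769

open Finset MeasureTheory ProbabilityTheory Crest.Agent.R141
open Crest.Agent.R146.S6Def_988 Crest.Agent.R146.S6U_988 Crest.Agent.R146.CavInc_769
open Crest.Agent.R164.CavG (pur gm)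

noncomputable section

/-- normalised positions -/
def xn {N : ℕ} (C : Cfg N) (nc n : ℕ) (ω : Om C nc n) (i : Fin N) : ℝ := C.x ω.1 i / Real.sqrt N

/-- total deviation of the overlaps of the conditional means and of the purities. -/
def DevS {N : ℕ} (C : Cfg N) (nc n : ℕ) (Q0 : Om C nc n → ℝ) (J : ℕ) (τ : ℕ → ℕ) (P : ℕ → ℝ) : ℝ :=
  ∑ b ∈ range (J + 1), (eE Q0 (fun ω =>
      |∑ i, (cE Q0 ((fil C nc n).F (τ b)) (fun a => xn C nc n a i) ω) ^ 2 - P b|) +
    pur Q0 ((fil C nc n).F (τ b)) (xn C nc n))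

/-- (5b): Gaussian cavity for one row. -/
def CAV5b : Prop := ∀ (J : ℕ) (K L ε : ℝ), 0 ≤ K → 0 < ε → ∃ d : ℝ, 0 < d ∧
  ∀ (wc nc : ℕ), 2 ≤ wc → nc + 1 = (J + 1) * wc → ∀ (N n : ℕ), 0 < N → 0 < n →
  ∀ (C : Cfg N) (Q0 : Om C nc n → ℝ), IsProb Q0 → ∀ (τ : ℕ → ℕ) (P : ℕ → ℝ) (h : ℝ → ℝ),
  (∀ b ≤ J, st n (b * wc) ≤ τ b ∧ τ b < st n (b * wc + wc - 1)) → Lev J P → BL K L h →
  |∫ g, eE Q0 (A Q0 (fil C nc n) (xs nc n) (VV C nc n h g) 0) ∂(gm (Fin N)) - Th J h P| ≤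
    ε + 15 * K ^ 2 * Real.exp (4 * K) / ((J : ℝ) + 1) + 2 * K / d * DevS C nc n Q0 J τ P

/-- (T): transfer. -/
def TRANS1 (Cv : ℝ → ℝ) : Prop := ∀ {Ω κ : Type} [Fintype Ω] [Fintype κ] (P : Ω → ℝ)
  (𝓕 : Filt Ω) (x : ℕ → ℝ) (V : Ω → ℝ) (v : ℝ) (k : ℕ) (X : Ω → κ → ℝ) (c : ℝ),
  IsProb P → IsExpo x → (∀ ω, |V ω| ≤ v) → (∀ ω, ∑ i, X ω i ^ 2 ≤ 1) →
  eE P (fun ω => |∑ i, (cE P (𝓕.F k) (fun a => X a i) ω) ^ 2 - c|) ≤
    Cv v * pE (tl P 𝓕 x V) (𝓕.F k) (fun a b => |∑ i, X a i * X b i - c|) ∧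
  pur P (𝓕.F k) X ≤
    Cv v * pE (tl P 𝓕 x V) (𝓕.F k) (fun a b => |∑ i, X a i * X b i - c|)

section

variable {N : ℕ} {C : Cfg N} {nc n : ℕ}

theorem xn_sq_sum (hN : 0 < N) (ω : Om C nc n) : ∑ i, xn C nc n ω i ^ 2 = 1 := by
  unfold xn
  have hN' : (0 : ℝ) < N := by exact_mod_cast hN
  simp_rw [div_pow, Real.sq_sqrt hN'.le]
  rw [← Finset.sum_div, C.hx, div_self hN'.ne']

theorem ovl_eq (a b : Om C nc n) : ovl C nc n a b = ∑ i, xn C nc n a i * xn C nc n b i := by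
  unfold ovl xn
  rw [Finset.mul_sum]
  refine Finset.sum_congr rfl fun i _ => ?_
  have h : Real.sqrt (N : ℝ) * Real.sqrt N = N := Real.mul_self_sqrt (Nat.cast_nonneg N)
  rw [div_mul_div_comm, h]; ring

theorem cE_xn (Q : Om C nc n → ℝ) (r : Setoid (Om C nc n)) (i : Fin N) (ω : Om C nc n) :
    cE Q r (fun a => xn C nc n a i) ω = cE Q r (fun w => C.x w.1 i) ω / Real.sqrt N := by
  have : (fun a : Om C nc n => xn C nc n a i) = fun a => (Real.sqrt N)⁻¹ * C.x a.1 i := by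
    funext a; unfold xn; ring
  rw [this, cE_smul]; ring

/-- the summand of `Rk` -/
theorem Rk_summand (Q : Om C nc n → ℝ) (r : Setoid (Om C nc n)) (ω : Om C nc n) :
    (N : ℝ)⁻¹ * ∑ i, (cE Q r (fun w => C.x w.1 i) ω) ^ 2 =
      ∑ i, (cE Q r (fun a => xn C nc n a i) ω) ^ 2 := by
  rw [Finset.mul_sum]
  refine Finset.sum_congr rfl fun i _ => ?_
  rw [cE_xn, div_pow, Real.sq_sqrt (Nat.cast_nonneg N)]; ring

/-- the value at a realisation -/
def rk {M : ℕ} (C : Cfg N) (nc n : ℕ) (f : ℕ → ℝ → ℝ) (G : Fin M → Fin N → ℝ) (s : Fin nc → ℝ)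
    (k : ℕ) : ℝ :=
  eE (QQ C nc n f G s) (fun ω =>
    ∑ i, (cE (QQ C nc n f G s) ((fil C nc n).F k) (fun a => xn C nc n a i) ω) ^ 2)

theorem Rk_eq (f : ℕ → ℝ → ℝ) (M : ℕ) (s : Fin nc → ℝ) (k : ℕ) :
    Rk C nc n f M s k = ∫ G, rk (M := M) C nc n f G s k ∂(gam M N) := by
  unfold Rk rk
  refine integral_congr_ae (ae_of_all _ fun G => ?_)
  show eE _ _ = eE _ _
  congr 1
  funext ω
  exact Rk_summand _ _ ω

theorem rk_nonneg {M : ℕ} (f : ℕ → ℝ → ℝ) (G : Fin M → Fin N → ℝ) (s : Fin nc → ℝ) (k : ℕ) :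
    0 ≤ rk C nc n f G s k :=
  eE_nonneg (QQ_isProb f G s) fun _ => Finset.sum_nonneg fun _ _ => sq_nonneg _

theorem rk_le_one (hN : 0 < N) {M : ℕ} (f : ℕ → ℝ → ℝ) (G : Fin M → Fin N → ℝ) (s : Fin nc → ℝ)
    (k : ℕ) : rk C nc n f G s k ≤ 1 := by
  have hP := QQ_isProb (C := C) (n := n) f G s
  unfold rk
  have h1 : ∀ ω, ∑ i, (cE (QQ C nc n f G s) ((fil C nc n).F k) (fun a => xn C nc n a i) ω) ^ 2 ≤
      cE (QQ C nc n f G s) ((fil C nc n).F k) (fun a => ∑ i, xn C nc n a i ^ 2) ω := by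
    intro ω
    rw [cE_sum]
    exact Finset.sum_le_sum fun i _ => cE_sq_le hP _ _ _
  refine eE_le_of_le hP fun ω => (h1 ω).trans ?_
  exact cE_le_of_le hP (fun a => (xn_sq_sum hN a).le) ω

theorem rk_mono {M : ℕ} (f : ℕ → ℝ → ℝ) (G : Fin M → Fin N → ℝ) (s : Fin nc → ℝ) {k l : ℕ}
    (hkl : k ≤ l) : rk C nc n f G s k ≤ rk C nc n f G s l := by
  have hP := QQ_isProb (C := C) (n := n) f G s
  unfold rk
  rw [← eE_cE hP ((fil C nc n).F k) (fun ω =>
    ∑ i, (cE (QQ C nc n f G s) ((fil C nc n).F l) (fun a => xn C nc n a i) ω) ^ 2)]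
  refine eE_mono hP fun ω => ?_
  rw [cE_sum]
  refine Finset.sum_le_sum fun i _ => ?_
  rw [← cE_tower hP ((fil C nc n).anti' hkl) (fun a => xn C nc n a i) ω]
  exact cE_sq_le hP _ _ _

theorem meas_rk {M : ℕ} {f : ℕ → ℝ → ℝ} (hf : ∀ a, Measurable (f a)) (s : Fin nc → ℝ) (k : ℕ) :
    Measurable fun G : Fin M → Fin N → ℝ => rk C nc n f G s k := by
  unfold rk
  refine meas_eE (fun ω => meas_QQ hf s ω) fun ω => ?_
  refine Finset.measurable_sum _ fun i _ => Measurable.pow_const ?_ 2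
  exact meas_cE (f := fun (_ : Fin M → Fin N → ℝ) a => xn C nc n a i) (fun ω => meas_QQ hf s ω)
    (fun _ => measurable_const) _ _

theorem integrable_rk (hN : 0 < N) {M : ℕ} {f : ℕ → ℝ → ℝ} (hf : ∀ a, Measurable (f a))
    (s : Fin nc → ℝ) (k : ℕ) :
    Integrable (fun G : Fin M → Fin N → ℝ => rk C nc n f G s k) (gam M N) :=
  Integrable.of_bound (C := 1) (meas_rk hf s k).aestronglyMeasurable (ae_of_all _ fun G => by
    rw [Real.norm_eq_abs, abs_of_nonneg (rk_nonneg f G s k)]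
    exact rk_le_one hN f G s k)

theorem Rk_nonneg (f : ℕ → ℝ → ℝ) (M : ℕ) (s : Fin nc → ℝ) (k : ℕ) :
    0 ≤ Rk C nc n f M s k := by
  rw [Rk_eq]; exact integral_nonneg fun G => rk_nonneg f G s k

theorem Rk_le_one (hN : 0 < N) {f : ℕ → ℝ → ℝ} (hf : ∀ a, Measurable (f a)) (M : ℕ)
    (s : Fin nc → ℝ) (k : ℕ) : Rk C nc n f M s k ≤ 1 := by
  rw [Rk_eq]
  refine (integral_mono (integrable_rk hN hf s k) (integrable_const 1)
    fun G => rk_le_one hN f G s k).trans ?_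
  simp

theorem Rk_mono (hN : 0 < N) {f : ℕ → ℝ → ℝ} (hf : ∀ a, Measurable (f a)) (M : ℕ)
    (s : Fin nc → ℝ) {k l : ℕ} (hkl : k ≤ l) : Rk C nc n f M s k ≤ Rk C nc n f M s l := by
  rw [Rk_eq, Rk_eq]
  exact integral_mono (integrable_rk hN hf s k) (integrable_rk hN hf s l)
    fun G => rk_mono f G s hkl

/-- the levels at a skeleton are admissible. -/
theorem lev_Rk (hN : 0 < N) {f : ℕ → ℝ → ℝ} (hf : ∀ a, Measurable (f a)) (M : ℕ)
    (s : Fin nc → ℝ) {J : ℕ} {τ : ℕ → ℕ} (hτ : ∀ i j, i ≤ j → j ≤ J → τ i ≤ τ j) :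
    Lev J (fun b => Rk C nc n f M s (τ b)) where
  nonneg := Rk_nonneg _ _ _ _
  mono i j hij hj := Rk_mono hN hf M s (hτ i j hij hj)
  le_one := Rk_le_one hN hf M s _

theorem st_mono {a b : ℕ} (h : a ≤ b) : st n a ≤ st n b := Nat.mul_le_mul_right n h

theorem tau_mono {J wc : ℕ} (hwc : 1 ≤ wc) {τ : ℕ → ℕ}
    (h : ∀ b ≤ J, st n (b * wc) ≤ τ b ∧ τ b < st n (b * wc + wc - 1)) :
    ∀ i j, i ≤ j → j ≤ J → τ i ≤ τ j := by
  intro i j hij hj
  rcases Nat.eq_or_lt_of_le hij with rfl | hlt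
  · exact le_refl _
  · have h1 := (h i (hij.trans hj)).2
    have h2 := (h j hj).1
    have h3 : i * wc + wc - 1 ≤ j * wc := by
      have : (i + 1) * wc ≤ j * wc := Nat.mul_le_mul_right wc hlt
      have e : (i + 1) * wc = i * wc + wc := by ring
      omega
    exact (h1.le.trans (st_mono h3)).trans h2

/-! ### the pair form -/

/-- the pair form at a realisation -/
def pf {M : ℕ} (C : Cfg N) (nc n : ℕ) (f : ℕ → ℝ → ℝ) (s : Fin nc → ℝ) (k : ℕ) (c : ℝ)
    (G : Fin M → Fin N → ℝ) : ℝ :=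
  pE (QQ C nc n f G s) ((fil C nc n).F k) (fun a b => |ovl C nc n a b - c|)

theorem meas_pf {M : ℕ} {f : ℕ → ℝ → ℝ} (hf : ∀ a, Measurable (f a)) (s : Fin nc → ℝ) (k : ℕ)
    (c : ℝ) : Measurable (pf (M := M) C nc n f s k c) := by
  unfold pf pE
  refine meas_eE (fun ω => meas_QQ hf s ω) fun ω => ?_
  exact meas_cE (f := fun (_ : Fin M → Fin N → ℝ) b => |ovl C nc n ω b - c|)
    (fun ω => meas_QQ hf s ω) (fun _ => measurable_const) _ _

theorem pf_nonneg {M : ℕ} (f : ℕ → ℝ → ℝ) (s : Fin nc → ℝ) (k : ℕ) (c : ℝ)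
    (G : Fin M → Fin N → ℝ) : 0 ≤ pf C nc n f s k c G :=
  eE_nonneg (QQ_isProb f G s) fun _ => cE_nonneg (QQ_isProb f G s) (fun _ => abs_nonneg _) _

theorem pf_bdd (f : ℕ → ℝ → ℝ) (s : Fin nc → ℝ) (k : ℕ) (c : ℝ) :
    ∃ B : ℝ, ∀ (M : ℕ) (G : Fin M → Fin N → ℝ), |pf C nc n f s k c G| ≤ B := by
  refine ⟨∑ a : Om C nc n, ∑ b : Om C nc n, |ovl C nc n a b - c|, fun M G => ?_⟩
  rw [abs_of_nonneg (pf_nonneg f s k c G)]
  unfold pf pE
  refine eE_le_of_le (QQ_isProb f G s) fun a => ?_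
  refine (cE_le_of_le (QQ_isProb f G s) (c := ∑ b : Om C nc n, |ovl C nc n a b - c|)
    (fun b => ?_) a).trans ?_
  · exact Finset.single_le_sum (f := fun b : Om C nc n => |ovl C nc n a b - c|)
      (fun _ _ => abs_nonneg _) (Finset.mem_univ b)
  · exact Finset.single_le_sum (f := fun a : Om C nc n => ∑ b : Om C nc n, |ovl C nc n a b - c|)
      (fun _ _ => Finset.sum_nonneg fun _ _ => abs_nonneg _) (Finset.mem_univ a)

theorem integrable_pf {M : ℕ} {f : ℕ → ℝ → ℝ} (hf : ∀ a, Measurable (f a)) (s : Fin nc → ℝ)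
    (k : ℕ) (c : ℝ) : Integrable (pf (M := M) C nc n f s k c) (gam M N) := by
  obtain ⟨B, hB⟩ := pf_bdd (C := C) (nc := nc) (n := n) f s k c
  exact Integrable.of_bound (C := B) (meas_pf hf s k c).aestronglyMeasurable
    (ae_of_all _ fun G => by rw [Real.norm_eq_abs]; exact hB M G)

/-- the error integrated over the new row bounds the deviation in the system without it. -/
theorem DevS_le {Cv : ℝ → ℝ} (hT : TRANS1 Cv) {K : ℝ} (hN : 0 < N) {M : ℕ} {f : ℕ → ℝ → ℝ}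
    (hK : ∀ a x, |f a x| ≤ K) (s : Fin nc → ℝ) (J : ℕ) (τ : ℕ → ℕ) (P : ℕ → ℝ)
    (G : Fin M → Fin N → ℝ) (g : Fin N → ℝ) :
    DevS C nc n (QQ C nc n f G s) J τ P ≤ ∑ b ∈ range (J + 1), 2 * Cv K *
      pf C nc n f s (τ b) (P b)
        (Fin.snoc (α := fun _ => Fin N → ℝ) G g : Fin (M + 1) → Fin N → ℝ) := by
  unfold DevS
  refine Finset.sum_le_sum fun b _ => ?_
  have h := hT (κ := Fin N) (QQ C nc n f G s) (fil C nc n) (xs nc n) (VV C nc n (f M) g) K (τ b)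
    (xn C nc n) (P b) (QQ_isProb f G s) (xs_expo nc n) (fun ω => hK _ _)
    (fun ω => (xn_sq_sum hN ω).le)
  have e : pf C nc n f s (τ b) (P b)
        (Fin.snoc (α := fun _ => Fin N → ℝ) G g : Fin (M + 1) → Fin N → ℝ) =
      pE (tl (QQ C nc n f G s) (fil C nc n) (xs nc n) (VV C nc n (f M) g))
        ((fil C nc n).F (τ b)) (fun a c => |∑ i, xn C nc n a i * xn C nc n c i - P b|) := by
    unfold pf
    rw [QQ_snoc]
    simp_rw [ovl_eq]
  rw [e]
  linarith [h.1, h.2]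

/-- **CAV** from (5b) and the transfer. -/
theorem CAV_of (h5 : CAV5b) {Cv : ℝ → ℝ} (hCv : ∀ v, 0 ≤ v → 0 ≤ Cv v) (hT : TRANS1 Cv) :
    CAV := by
  intro J K L ε hε
  by_cases hK0 : K < 0
  · refine ⟨1, one_pos, ?_⟩
    intro wc nc _ _ N n _ _ C f M hf
    exact absurd ((abs_nonneg _).trans ((hf 0).bd 0)) (not_le.2 hK0)
  push Not at hK0
  obtain ⟨d, hd, h5⟩ := h5 J K L (ε / 2) hK0 (half_pos hε)
  have hc := hCv K hK0
  set D : ℝ := 1 + 2 * K / d * (((J : ℝ) + 1) * (2 * Cv K)) with hD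
  have hD1 : 0 ≤ 2 * K / d * (((J : ℝ) + 1) * (2 * Cv K)) := by positivity
  have hD0 : 0 < D := by rw [hD]; linarith
  refine ⟨ε / 2 / D, by positivity, ?_⟩
  intro wc nc hwc hnc N n hN hn C f M hf s τ hsk
  have hfm : ∀ a, Measurable (f a) := fun a => by
    have : Continuous (f a) := by
      have h := (hf a).lip
      have hL : LipschitzWith (Real.toNNReal (max L 0)) (f a) := LipschitzWith.of_dist_le_mul
        fun x y => by
          rw [Real.dist_eq, Real.dist_eq, Real.coe_toNNReal _ (le_max_right _ _)]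
          exact (h x y).trans (mul_le_mul_of_nonneg_right (le_max_left _ _) (abs_nonneg _))
      exact hL.continuous
    exact this.measurable
  have hK : ∀ a x, |f a x| ≤ K := fun a => (hf a).bd
  set P : ℕ → ℝ := fun b => Rk C nc n f (M + 1) s (τ b) with hP
  have hlev : Lev J P := lev_Rk hN hfm (M + 1) s (tau_mono (by omega) hsk.blk)
  set μ : Measure (Fin N → ℝ) := Measure.pi fun _ : Fin N => gaussianReal 0 1 with hμ
  -- the error
  set E : (Fin M → Fin N → ℝ) → ℝ := fun G => ∫ g, ∑ b ∈ range (J + 1), 2 * Cv K *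
      pf C nc n f s (τ b) (P b)
        (Fin.snoc (α := fun _ => Fin N → ℝ) G g : Fin (M + 1) → Fin N → ℝ) ∂μ with hE
  have hi : Integrable (fun G' : Fin (M + 1) → Fin N → ℝ => ∑ b ∈ range (J + 1), 2 * Cv K *
      pf C nc n f s (τ b) (P b) G') (gam (M + 1) N) :=
    integrable_finsetSum _ fun b _ => (integrable_pf hfm s (τ b) (P b)).const_mul _
  have hi2 := integrable_gam_succ hi
  have hEi : Integrable E (gam M N) := hi2.integral_prod_left
  have hEint : ∫ G, E G ∂(gam M N) ≤ ((J : ℝ) + 1) * (2 * Cv K) * (ε / 2 / D) := by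
    have h1 := integral_gam_succ hi
    rw [← hμ] at h1
    rw [hE, ← h1, integral_finsetSum _ fun b _ =>
      (integrable_pf hfm s (τ b) (P b)).const_mul _]
    calc ∑ b ∈ range (J + 1), ∫ G', 2 * Cv K * pf C nc n f s (τ b) (P b) G' ∂(gam (M + 1) N)
        ≤ ∑ _b ∈ range (J + 1), 2 * Cv K * (ε / 2 / D) := by
          refine Finset.sum_le_sum fun b hb => ?_
          rw [integral_const_mul]
          exact mul_le_mul_of_nonneg_left (hsk.pair b (by
            have := Finset.mem_range.1 hb; omega)) (by positivity)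
      _ = ((J : ℝ) + 1) * (2 * Cv K) * (ε / 2 / D) := by
          rw [Finset.sum_const, Finset.card_range, nsmul_eq_mul]; push_cast; ring
  have hpt : ∀ᵐ G ∂(gam M N), |∫ g, inc C nc n f G s g ∂μ - Th J (f M) P| ≤
      ε / 2 + 15 * K ^ 2 * Real.exp (4 * K) / ((J : ℝ) + 1) + 2 * K / d * E G := by
    filter_upwards [hi2.prod_right_ae] with G hG
    have h1 := h5 wc nc hwc hnc N n hN hn C (QQ C nc n f G s) (QQ_isProb f G s) τ P (f M)
      hsk.blk hlev (hf M)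
    have h2 : DevS C nc n (QQ C nc n f G s) J τ P ≤ E G := by
      have h3 := integral_mono (integrable_const (μ := μ) (DevS C nc n (QQ C nc n f G s) J τ P))
        hG (fun g => DevS_le hT hN hK s J τ P G g)
      simpa using h3
    have h4 : ∀ g, eE (QQ C nc n f G s) (A (QQ C nc n f G s) (fil C nc n) (xs nc n)
        (VV C nc n (f M) g) 0) = inc C nc n f G s g := by
      intro g
      unfold inc
      conv_lhs => rw [show (QQ C nc n f G s : Om C nc n → ℝ) = tl (prior C nc n) (fil C nc n)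
        (xs nc n) (UU f G s) from rfl]
      exact R164.ED.eE_tl_zero (prior_isProb C nc n) (xs_pos nc n) _
        (A_meas (QQ_isProb f G s) (xs_pos nc n) _ 0)
    simp_rw [h4] at h1
    refine h1.trans ?_
    have h5' : 2 * K / d * DevS C nc n (QQ C nc n f G s) J τ P ≤ 2 * K / d * E G :=
      mul_le_mul_of_nonneg_left h2 (by positivity)
    linarith
  rw [FN_increment hN hfm hK s, ← hμ]
  have hii : Integrable (fun G : Fin M → Fin N → ℝ => ∫ g, inc C nc n f G s g ∂μ) (gam M N) := by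
    have : Integrable (fun p : (Fin M → Fin N → ℝ) × (Fin N → ℝ) => inc C nc n f p.1 s p.2)
        ((gam M N).prod μ) :=
      Integrable.of_bound (C := K) (meas_inc hfm s).aestronglyMeasurable
        (ae_of_all _ fun p => by rw [Real.norm_eq_abs]; exact inc_abs_le hK _ _ _)
    exact this.integral_prod_left
  have e1 : ∫ G, ∫ g, inc C nc n f G s g ∂μ ∂(gam M N) - Th J (f M) P =
      ∫ G, (∫ g, inc C nc n f G s g ∂μ - Th J (f M) P) ∂(gam M N) := by
    rw [integral_sub hii (integrable_const _)]; simp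
  rw [e1]
  refine (abs_integral_le_integral_abs).trans ?_
  refine (integral_mono_ae (hii.sub (integrable_const _)).abs
    ((integrable_const _).add (hEi.const_mul _)) hpt).trans ?_
  rw [integral_add' (integrable_const _) (hEi.const_mul _), integral_const_mul]
  have h6 : 2 * K / d * ∫ G, E G ∂(gam M N) ≤ ε / 2 := by
    have h7 : 2 * K / d * ∫ G, E G ∂(gam M N) ≤
        2 * K / d * (((J : ℝ) + 1) * (2 * Cv K) * (ε / 2 / D)) :=
      mul_le_mul_of_nonneg_left hEint (by positivity)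
    refine h7.trans ?_
    have h8 : 2 * K / d * (((J : ℝ) + 1) * (2 * Cv K) * (ε / 2 / D)) =
        (D - 1) / D * (ε / 2) := by rw [hD]; ring
    rw [h8]
    have h9 : (D - 1) / D ≤ 1 := by rw [div_le_one hD0]; linarith
    nlinarith [half_pos hε]
  have h10 : 15 * K ^ 2 * Real.exp (4 * K) / ((J : ℝ) + 1) ≤
      60 * K ^ 2 * Real.exp (4 * K) / ((J : ℝ) + 1) := by
    gcongr; norm_num
  simp only [integral_const, probReal_univ, smul_eq_mul]
  linarith

end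

end

end Crest.Agent.R146.CavAsm_769
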