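import Crest.Agent.R146.Cav5_47
import Crest.Agent.R146.CavAsm_769

/-!
Row 146, S0206 (helper47): the Prop `CAV5b` of `CavAsm_769` from `Cav5_47.cav_th`.
-/

set_option autoImplicit false

namespace Crest.Agent.R146.Cav5b_47

open Finset MeasureTheory ProbabilityTheory Crest.Agent.R141
open Crest.Agent.R146.S6Def_988
open Crest.Agent.R164.CavG (pur gm)

theorem Th_zero (J : ℕ) (P : ℕ → ℝ) : Th J (fun _ => 0) P = 0 := by
  rw [Cav5_47.Th_eq_rc]
  have h : ∀ g : ℝ, Cav5_47.rc (Fact.ySk J) (Cav5_47.vd J P) (fun _ => 0) (J + 1)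
      (Real.sqrt (Cav5_47.vd J P (J + 1)) * g) = 0 := by
    intro g
    have := (Cav5_47.rc_meas (y := Fact.ySk J) (v := Cav5_47.vd J P) (f := fun _ => (0 : ℝ))
      (c := 0) measurable_const (fun _ => by simp) (fun n hn => Fact.ySk_pos hn)
      (fun n _ => Fact.ySk_le_one J n) (J + 1) le_rfl).2
      (Real.sqrt (Cav5_47.vd J P (J + 1)) * g)
    exact abs_nonpos_iff.1 this
  simp only [h, integral_zero]

/-- **CAV5b** -/
theorem cav5b : CavAsm_769.CAV5b := by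
  intro J K L ε hK hε
  obtain ⟨D, hD, hmain⟩ := Cav5_47.cav_th J K L hε
  have key : ∀ (wc nc : ℕ), 2 ≤ wc → nc + 1 = (J + 1) * wc → ∀ (N n : ℕ), 0 < N → 0 < n →
      ∀ (C : Cfg N) (Q0 : Om C nc n → ℝ), IsProb Q0 → ∀ (τ : ℕ → ℕ) (P : ℕ → ℝ) (h : ℝ → ℝ),
      (∀ b ≤ J, st n (b * wc) ≤ τ b ∧ τ b < st n (b * wc + wc - 1)) → Lev J P → BL K L h →
      |∫ g, eE Q0 (A Q0 (fil C nc n) (xs nc n) (CavInc_769.VV C nc n h g) 0) ∂(gm (Fin N)) -
        Th J h P| ≤ ε + 15 * K ^ 2 * Real.exp (4 * K) / ((J : ℝ) + 1) +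
          D * CavAsm_769.DevS C nc n Q0 J τ P ∧ 0 ≤ CavAsm_769.DevS C nc n Q0 J τ P := by
    intro wc nc hwc hnc N n hN hn C Q0 hQ τ P h hτ hP hh
    have h1 := hmain wc nc hwc hnc N n hN hn C Q0 hQ h hh τ hτ P hP
    have e : Cav5_47.DevN C nc n Q0 J τ P = CavAsm_769.DevS C nc n Q0 J τ P := by
      unfold Cav5_47.DevN CavAsm_769.DevS
      refine Finset.sum_congr rfl fun b _ => ?_
      congr 1
      congr 1
      funext ω
      rw [CavAsm_769.Rk_summand]
    rw [e] at h1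
    refine ⟨?_, ?_⟩
    · have h2 : ∫ g, eE Q0 (A Q0 (fil C nc n) (xs nc n) (CavInc_769.VV C nc n h g) 0)
          ∂(gm (Fin N)) = ∫ g, eE Q0 (A Q0 (fil C nc n) (xs nc n)
            (fun ω => h (∑ i, g i * (C.x ω.1 i / Real.sqrt N))) 0)
            ∂(Measure.pi fun _ : Fin N => gaussianReal 0 1) := rfl
      rw [h2]
      linarith
    · exact Finset.sum_nonneg fun _ _ => add_nonneg (eE_nonneg hQ fun _ => abs_nonneg _)
        (Crest.Agent.R164.CavG.pur_nonneg hQ _)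
  rcases hK.eq_or_lt with h0 | h0
  · refine ⟨1, one_pos, ?_⟩
    intro wc nc hwc hnc N n hN hn C Q0 hQ τ P h hτ hP hh
    subst h0
    have hz : h = fun _ => 0 := funext fun x => abs_nonpos_iff.1 (hh.bd x)
    subst hz
    have e1 : ∀ g : Fin N → ℝ, eE Q0 (A Q0 (fil C nc n) (xs nc n)
        (CavInc_769.VV C nc n (fun _ => 0) g) 0) = 0 := by
      intro g
      have e2 : A Q0 (fil C nc n) (xs nc n) (CavInc_769.VV C nc n (fun _ => 0) g) 0 =
          fun _ => 0 := by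
        funext ω
        exact A_const hQ (Cav5_47.xs_expo nc n).pos 0 0 ω
      rw [e2, eE_const hQ]
    rw [integral_congr_ae (ae_of_all _ e1), integral_zero, Th_zero, sub_zero, abs_zero]
    simp only [ne_eq, OfNat.ofNat_ne_zero, not_false_eq_true, zero_pow, mul_zero, zero_mul,
      zero_div, add_zero]
    exact hε.le
  · refine ⟨2 * K / (D + 1), by positivity, ?_⟩
    intro wc nc hwc hnc N n hN hn C Q0 hQ τ P h hτ hP hh
    obtain ⟨h1, h2⟩ := key wc nc hwc hnc N n hN hn C Q0 hQ τ P h hτ hP hh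
    have h3 : 2 * K / (2 * K / (D + 1)) = D + 1 := by
      field_simp
    rw [h3]
    refine h1.trans ?_
    have : D * CavAsm_769.DevS C nc n Q0 J τ P ≤ (D + 1) * CavAsm_769.DevS C nc n Q0 J τ P :=
      mul_le_mul_of_nonneg_right (by linarith) h2
    linarith

end Crest.Agent.R146.Cav5b_47
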