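import Crest.Agent.R146.S6U_988
import Crest.Agent.R164.CavG9

/-!
Row 146, S0206, node CAV (helper769), part 1: measurability of the hierarchical functionals in a
parameter, the decomposition of the law of the rows, and the exact increment formula
`N (FN (M+1) - FN M) = ∫ G, ∫ g, E A₀^{QQ_M}[f_M (g·x/√N)]`.
-/

set_option autoImplicit false

namespace Crest.Agent.R146.CavInc_769

open Finset MeasureTheory ProbabilityTheory Crest.Agent.R141
open Crest.Agent.R146.S6Def_988 Crest.Agent.R146.S6U_988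

noncomputable section

section param

variable {X Ω : Type*} [MeasurableSpace X] [Fintype Ω]

theorem meas_cE {P f : X → Ω → ℝ} (hP : ∀ ω, Measurable fun t => P t ω)
    (hf : ∀ ω, Measurable fun t => f t ω) (r : Setoid Ω) (ω : Ω) :
    Measurable fun t => cE (P t) r (f t) ω := by
  classical
  unfold cE
  refine Measurable.div ?_ ?_
  · exact Finset.measurable_sum _ fun i _ => (hP i).mul (hf i)
  · exact Finset.measurable_sum _ fun i _ => hP i

theorem meas_eE {P f : X → Ω → ℝ} (hP : ∀ ω, Measurable fun t => P t ω)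
    (hf : ∀ ω, Measurable fun t => f t ω) : Measurable fun t => eE (P t) (f t) := by
  unfold eE
  exact Finset.measurable_sum _ fun i _ => (hP i).mul (hf i)

theorem meas_pm {P f : X → Ω → ℝ} (hP : ∀ ω, Measurable fun t => P t ω)
    (hf : ∀ ω, Measurable fun t => f t ω) (r : Setoid Ω) (x : ℝ) (ω : Ω) :
    Measurable fun t => pm (P t) r x (f t) ω := by
  unfold pm
  exact ((meas_cE (f := fun t a => Real.exp (x * f t a)) hP
    (fun a => ((hf a).const_mul x).exp) r ω).log).const_mul _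

variable {𝓕 : Filt Ω} {x : ℕ → ℝ}

theorem meas_A {P U : X → Ω → ℝ} (hp : ∀ t, IsProb (P t)) (hx : ∀ k, 0 < x k)
    (hP : ∀ ω, Measurable fun t => P t ω) (hU : ∀ ω, Measurable fun t => U t ω) (k : ℕ) :
    ∀ ω, Measurable fun t => A (P t) 𝓕 x (U t) k ω := by
  refine back_induction 𝓕 (Q := fun k => ∀ ω, Measurable fun t => A (P t) 𝓕 x (U t) k ω) ?_ ?_ k
  · intro k hk ω
    have : (fun t => A (P t) 𝓕 x (U t) k ω) = fun t => U t ω := by
      funext t; rw [A_of_ge _ hk]
    rw [this]; exact hU ω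
  · intro k ih ω
    have : (fun t => A (P t) 𝓕 x (U t) k ω) =
        fun t => pm (P t) (𝓕.F k) (x (k + 1)) (A (P t) 𝓕 x (U t) (k + 1)) ω := by
      funext t; rw [A_step (hp t) hx]
    rw [this]
    exact meas_pm hP ih _ _ _

theorem meas_tl {P U : X → Ω → ℝ} (hp : ∀ t, IsProb (P t)) (hx : ∀ k, 0 < x k)
    (hP : ∀ ω, Measurable fun t => P t ω) (hU : ∀ ω, Measurable fun t => U t ω) (ω : Ω) :
    Measurable fun t => tl (P t) 𝓕 x (U t) ω := by
  unfold tl S
  refine (hP ω).mul (Measurable.exp ?_)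
  refine Finset.measurable_sum _ fun l _ => ?_
  exact (((meas_A (𝓕 := 𝓕) hp hx hP hU (l + 1) ω).sub
    (meas_A (𝓕 := 𝓕) hp hx hP hU l ω))).const_mul _

end param

section sys

variable {N : ℕ} (C : Cfg N) (nc n : ℕ)

theorem xs_pos (k : ℕ) : 0 < xs nc n k := by
  unfold xs
  exact lt_min one_pos (by positivity)

theorem xs_expo : IsExpo (xs nc n) where
  pos := xs_pos nc n
  mono := by
    intro a b h
    unfold xs
    refine min_le_min_left _ ?_
    have h1 : (a - 1) / n ≤ (b - 1) / n := Nat.div_le_div_right (by omega)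
    have h2 : (((a - 1) / n + 1 : ℕ) : ℝ) ≤ (((b - 1) / n + 1 : ℕ) : ℝ) := by
      exact_mod_cast Nat.succ_le_succ h1
    gcongr
  le_one k := min_le_left _ _

theorem prior_isProb : IsProb (prior C nc n) where
  pos ω := by
    unfold prior
    exact mul_pos (C.hq.pos _) (inv_pos.2 (by exact_mod_cast Fintype.card_pos))
  sum := by
    unfold prior
    rw [Fintype.sum_prod_type]
    have : (Fintype.card (Coins nc n N) : ℝ) ≠ 0 := by exact_mod_cast Fintype.card_ne_zero
    simp only [Finset.sum_const, Finset.card_univ, nsmul_eq_mul]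
    simp_rw [show ∀ y : C.Y, (Fintype.card (Coins nc n N) : ℝ) *
      (C.q y * (Fintype.card (Coins nc n N) : ℝ)⁻¹) = C.q y from fun y => by field_simp]
    exact C.hq.sum

theorem fil_zero : (fil C nc n).F 0 = ⊤ := by
  ext a b
  constructor
  · intro _; trivial
  · intro _
    show frel C nc n 0 a b
    refine ⟨fun g t h => absurd h (Nat.not_lt_zero _), fun h => ?_⟩
    unfold Lv at h
    omega

variable {C nc n}

theorem QQ_isProb {M : ℕ} (f : ℕ → ℝ → ℝ) (G : Fin M → Fin N → ℝ) (s : Fin nc → ℝ) :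
    IsProb (QQ C nc n f G s) :=
  tl_isProb (prior_isProb C nc n) (xs_pos nc n) _

/-- the log-weight of one new row with row function `h`. -/
def VV (C : Cfg N) (nc n : ℕ) (h : ℝ → ℝ) (g : Fin N → ℝ) (ω : Om C nc n) : ℝ :=
  h (∑ i, g i * (C.x ω.1 i / Real.sqrt N))

theorem rowE_snoc {M : ℕ} (f : ℕ → ℝ → ℝ) (G : Fin M → Fin N → ℝ) (g x : Fin N → ℝ) :
    rowE f (Fin.snoc (α := fun _ => Fin N → ℝ) G g : Fin (M + 1) → Fin N → ℝ) x =
      rowE f G x + f M (∑ i, g i * (x i / Real.sqrt N)) := by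
  unfold rowE
  rw [Fin.sum_univ_castSucc]
  simp

theorem UU_snoc {M : ℕ} (f : ℕ → ℝ → ℝ) (G : Fin M → Fin N → ℝ) (g : Fin N → ℝ)
    (s : Fin nc → ℝ) :
    UU (C := C) (n := n) f (Fin.snoc (α := fun _ => Fin N → ℝ) G g : Fin (M + 1) → Fin N → ℝ) s =
      fun ω => UU f G s ω + VV C nc n (f M) g ω := by
  funext ω
  unfold UU VV
  rw [rowE_snoc]; ring

theorem Phi_snoc {M : ℕ} (f : ℕ → ℝ → ℝ) (G : Fin M → Fin N → ℝ) (g : Fin N → ℝ)
    (s : Fin nc → ℝ) :
    Phi C nc n f (Fin.snoc (α := fun _ => Fin N → ℝ) G g : Fin (M + 1) → Fin N → ℝ) s =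
      Phi C nc n f G s + eE (prior C nc n)
        (A (QQ C nc n f G s) (fil C nc n) (xs nc n) (VV C nc n (f M) g) 0) := by
  unfold Phi
  rw [UU_snoc, ← eE_add]
  congr 1
  funext ω
  rw [A_cocycle (prior_isProb C nc n) (xs_pos nc n)]
  rfl

theorem QQ_snoc {M : ℕ} (f : ℕ → ℝ → ℝ) (G : Fin M → Fin N → ℝ) (g : Fin N → ℝ)
    (s : Fin nc → ℝ) :
    QQ C nc n f (Fin.snoc (α := fun _ => Fin N → ℝ) G g : Fin (M + 1) → Fin N → ℝ) s =
      tl (QQ C nc n f G s) (fil C nc n) (xs nc n) (VV C nc n (f M) g) := by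
  unfold QQ
  rw [UU_snoc, tl_add (prior_isProb C nc n) (xs_pos nc n)]

/-! ### law of the rows -/

theorem map_snoc (M N : ℕ) :
    MeasurePreserving (fun p : (Fin N → ℝ) × (Fin M → Fin N → ℝ) =>
      (Fin.snoc (α := fun _ => Fin N → ℝ) p.2 p.1 : Fin (M + 1) → Fin N → ℝ))
      ((Measure.pi fun _ : Fin N => gaussianReal 0 1).prod (gam M N)) (gam (M + 1) N) := by
  have h := measurePreserving_piFinSuccAbove
    (fun _ : Fin (M + 1) => (Measure.pi fun _ : Fin N => gaussianReal 0 1)) (Fin.last M)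
  have h2 := h.symm
  have e : (fun p : (Fin N → ℝ) × (Fin M → Fin N → ℝ) =>
      (Fin.snoc (α := fun _ => Fin N → ℝ) p.2 p.1 : Fin (M + 1) → Fin N → ℝ)) =
      (MeasurableEquiv.piFinSuccAbove (fun _ : Fin (M + 1) => Fin N → ℝ) (Fin.last M)).symm := by
    funext p
    exact (Fin.insertNth_last' (β := Fin N → ℝ) p.1 p.2).symm
  rw [e]
  exact h2

instance gam_prob (M N : ℕ) : IsProbabilityMeasure (gam M N) := by
  unfold gam; infer_instance

/-- Fubini for the last row. -/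
theorem integral_gam_succ {M N : ℕ} {F : (Fin (M + 1) → Fin N → ℝ) → ℝ}
    (hF : Integrable F (gam (M + 1) N)) :
    ∫ G', F G' ∂(gam (M + 1) N) =
      ∫ G, ∫ g, F (Fin.snoc (α := fun _ => Fin N → ℝ) G g)
        ∂(Measure.pi fun _ : Fin N => gaussianReal 0 1) ∂(gam M N) := by
  have hmp := map_snoc M N
  rw [← hmp.map_eq, integral_map hmp.measurable.aemeasurable
    (by rw [hmp.map_eq]; exact hF.aestronglyMeasurable)]
  have hi : Integrable (fun p : (Fin N → ℝ) × (Fin M → Fin N → ℝ) =>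
      F (Fin.snoc (α := fun _ => Fin N → ℝ) p.2 p.1))
      ((Measure.pi fun _ : Fin N => gaussianReal 0 1).prod (gam M N)) :=
    hmp.integrable_comp_of_integrable hF
  rw [integral_prod_symm _ hi]

theorem integrable_gam_succ {M N : ℕ} {F : (Fin (M + 1) → Fin N → ℝ) → ℝ}
    (hF : Integrable F (gam (M + 1) N)) :
    Integrable (fun p : (Fin M → Fin N → ℝ) × (Fin N → ℝ) =>
      F (Fin.snoc (α := fun _ => Fin N → ℝ) p.1 p.2))
      ((gam M N).prod (Measure.pi fun _ : Fin N => gaussianReal 0 1)) := by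
  have hmp := map_snoc M N
  exact (hmp.integrable_comp_of_integrable hF).swap

/-! ### measurability and bounds -/

theorem meas_rowE {M : ℕ} {f : ℕ → ℝ → ℝ} (hf : ∀ a, Measurable (f a)) (x : Fin N → ℝ) :
    Measurable fun G : Fin M → Fin N → ℝ => rowE f G x := by
  unfold rowE
  refine Finset.measurable_sum _ fun a _ => (hf a).comp ?_
  refine Finset.measurable_sum _ fun i _ => ?_
  exact ((measurable_pi_apply i).comp (measurable_pi_apply a)).mul_const _

theorem meas_UU {M : ℕ} {f : ℕ → ℝ → ℝ} (hf : ∀ a, Measurable (f a)) (s : Fin nc → ℝ)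
    (ω : Om C nc n) : Measurable fun G : Fin M → Fin N → ℝ => UU f G s ω := by
  unfold UU
  exact (meas_rowE hf _).add_const _

theorem meas_QQ {M : ℕ} {f : ℕ → ℝ → ℝ} (hf : ∀ a, Measurable (f a)) (s : Fin nc → ℝ)
    (ω : Om C nc n) : Measurable fun G : Fin M → Fin N → ℝ => QQ C nc n f G s ω := by
  unfold QQ
  exact meas_tl (fun _ => prior_isProb C nc n) (xs_pos nc n) (fun _ => measurable_const)
    (fun ω => meas_UU hf s ω) ω

theorem meas_Phi {M : ℕ} {f : ℕ → ℝ → ℝ} (hf : ∀ a, Measurable (f a)) (s : Fin nc → ℝ) :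
    Measurable fun G : Fin M → Fin N → ℝ => Phi C nc n f G s := by
  unfold Phi
  exact meas_eE (fun _ => measurable_const) (meas_A (fun _ => prior_isProb C nc n) (xs_pos nc n)
    (fun _ => measurable_const) (fun ω => meas_UU hf s ω) 0)

theorem rowE_abs_le {M : ℕ} {f : ℕ → ℝ → ℝ} {K : ℝ} (hK : ∀ a x, |f a x| ≤ K)
    (G : Fin M → Fin N → ℝ) (x : Fin N → ℝ) : |rowE f G x| ≤ M * K := by
  unfold rowE
  refine (Finset.abs_sum_le_sum_abs _ _).trans ?_
  calc ∑ a : Fin M, |f a (∑ i, G a i * (x i / Real.sqrt N))| ≤ ∑ _a : Fin M, K :=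
        Finset.sum_le_sum fun a _ => hK _ _
    _ = M * K := by simp

theorem Phi_abs_le {M : ℕ} {f : ℕ → ℝ → ℝ} {K : ℝ} (hK : ∀ a x, |f a x| ≤ K)
    (s : Fin nc → ℝ) : ∃ B : ℝ, ∀ G : Fin M → Fin N → ℝ, |Phi C nc n f G s| ≤ B := by
  obtain ⟨D, hD⟩ : ∃ D : ℝ, ∀ ω : Om C nc n, |fieldE s ω| ≤ D := by
    refine ⟨∑ ω : Om C nc n, |fieldE s ω|, fun ω => ?_⟩
    exact Finset.single_le_sum (f := fun ω : Om C nc n => |fieldE s ω|)
      (fun _ _ => abs_nonneg _) (Finset.mem_univ ω)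
  refine ⟨M * K + D, fun G => ?_⟩
  unfold Phi
  refine (eE_abs_le (prior_isProb C nc n) _).trans
    (eE_le_of_le (prior_isProb C nc n) fun ω => ?_)
  refine A_abs_le (prior_isProb C nc n) (xs_pos nc n) (fun ω => ?_) 0 ω
  unfold UU
  exact (abs_add_le _ _).trans (add_le_add (rowE_abs_le hK _ _) (hD ω))

theorem integrable_Phi {M : ℕ} {f : ℕ → ℝ → ℝ} {K : ℝ} (hf : ∀ a, Measurable (f a))
    (hK : ∀ a x, |f a x| ≤ K) (s : Fin nc → ℝ) :
    Integrable (fun G : Fin M → Fin N → ℝ => Phi C nc n f G s) (gam M N) := by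
  obtain ⟨B, hB⟩ := Phi_abs_le (C := C) (nc := nc) (n := n) (M := M) hK s
  exact Integrable.of_bound (C := B) (meas_Phi hf s).aestronglyMeasurable
    (ae_of_all _ fun G => by rw [Real.norm_eq_abs]; exact hB G)

/-- the increment of the free energy in a new row, at a given realisation. -/
def inc (C : Cfg N) (nc n : ℕ) {M : ℕ} (f : ℕ → ℝ → ℝ) (G : Fin M → Fin N → ℝ)
    (s : Fin nc → ℝ) (g : Fin N → ℝ) : ℝ :=
  eE (prior C nc n) (A (QQ C nc n f G s) (fil C nc n) (xs nc n) (VV C nc n (f M) g) 0)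

theorem meas_VV {h : ℝ → ℝ} (hh : Measurable h) (ω : Om C nc n) :
    Measurable fun g : Fin N → ℝ => VV C nc n h g ω := by
  unfold VV
  refine hh.comp (Finset.measurable_sum _ fun i _ => ?_)
  exact (measurable_pi_apply i).mul_const _

theorem inc_abs_le {M : ℕ} {f : ℕ → ℝ → ℝ} {K : ℝ} (hK : ∀ a x, |f a x| ≤ K)
    (G : Fin M → Fin N → ℝ) (s : Fin nc → ℝ) (g : Fin N → ℝ) : |inc C nc n f G s g| ≤ K := by
  unfold inc
  refine (eE_abs_le (prior_isProb C nc n) _).trans
    (eE_le_of_le (prior_isProb C nc n) fun ω => ?_)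
  exact A_abs_le (QQ_isProb f G s) (xs_pos nc n) (fun ω => hK _ _) 0 ω

theorem meas_inc {M : ℕ} {f : ℕ → ℝ → ℝ} (hf : ∀ a, Measurable (f a)) (s : Fin nc → ℝ) :
    Measurable fun p : (Fin M → Fin N → ℝ) × (Fin N → ℝ) => inc C nc n f p.1 s p.2 := by
  unfold inc
  refine meas_eE (fun _ => measurable_const) ?_
  exact meas_A (P := fun p : (Fin M → Fin N → ℝ) × (Fin N → ℝ) => QQ C nc n f p.1 s)
    (U := fun p => VV C nc n (f M) p.2) (fun p => QQ_isProb f p.1 s) (xs_pos nc n)
    (fun ω => (meas_QQ hf s ω).comp measurable_fst)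
    (fun ω => (meas_VV (hf M) ω).comp measurable_snd) 0

/-- **(5d)** the exact increment formula. -/
theorem FN_increment {M : ℕ} (hN : 0 < N) {f : ℕ → ℝ → ℝ} {K : ℝ} (hf : ∀ a, Measurable (f a))
    (hK : ∀ a x, |f a x| ≤ K) (s : Fin nc → ℝ) :
    (N : ℝ) * (FN C nc n f (M + 1) s - FN C nc n f M s) =
      ∫ G, ∫ g, inc C nc n f G s g ∂(Measure.pi fun _ : Fin N => gaussianReal 0 1)
        ∂(gam M N) := by
  have hN' : (N : ℝ) ≠ 0 := by positivity
  have h1 := integral_gam_succ (integrable_Phi (C := C) (n := n) (M := M + 1) hf hK s)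
  have h2 : ∫ G, ∫ g, Phi C nc n f (Fin.snoc (α := fun _ => Fin N → ℝ) G g :
      Fin (M + 1) → Fin N → ℝ) s ∂(Measure.pi fun _ : Fin N => gaussianReal 0 1) ∂(gam M N) =
      ∫ G, Phi C nc n (M := M) f G s ∂(gam M N) +
      ∫ G, ∫ g, inc C nc n f G s g ∂(Measure.pi fun _ : Fin N => gaussianReal 0 1)
        ∂(gam M N) := by
    have hi : Integrable (fun p : (Fin M → Fin N → ℝ) × (Fin N → ℝ) => inc C nc n f p.1 s p.2)
        ((gam M N).prod (Measure.pi fun _ : Fin N => gaussianReal 0 1)) :=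
      Integrable.of_bound (C := K) (meas_inc hf s).aestronglyMeasurable
        (ae_of_all _ fun p => by rw [Real.norm_eq_abs]; exact inc_abs_le hK _ _ _)
    rw [← integral_add (integrable_Phi hf hK s) hi.integral_prod_left]
    refine integral_congr_ae (ae_of_all _ fun G => ?_)
    have hg : Integrable (fun g => inc C nc n f G s g)
        (Measure.pi fun _ : Fin N => gaussianReal 0 1) :=
      Integrable.of_bound (C := K)
        ((meas_inc hf s).comp (measurable_const.prodMk measurable_id)).aestronglyMeasurable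
        (ae_of_all _ fun p => by rw [Real.norm_eq_abs]; exact inc_abs_le hK _ _ _)
    show ∫ g, Phi C nc n f (Fin.snoc (α := fun _ => Fin N → ℝ) G g :
      Fin (M + 1) → Fin N → ℝ) s ∂(Measure.pi fun _ : Fin N => gaussianReal 0 1) =
      Phi C nc n f G s + ∫ g, inc C nc n f G s g
        ∂(Measure.pi fun _ : Fin N => gaussianReal 0 1)
    have e : ∀ g, Phi C nc n f (Fin.snoc (α := fun _ => Fin N → ℝ) G g :
      Fin (M + 1) → Fin N → ℝ) s = Phi C nc n f G s + inc C nc n f G s g :=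
      fun g => Phi_snoc f G g s
    simp_rw [e]
    rw [integral_add (integrable_const _) hg]
    simp
  unfold FN
  rw [h1, h2]
  field_simp
  ring

end sys

end

end Crest.Agent.R146.CavInc_769
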