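import Crest.Agent.R146.Cav5_47
import Crest.Agent.R146.S6Trans_944

/-!
Row 146, S0206 (helper47): the Gaussian cavity limit for an ARBITRARY bounded vector `W` (used for
the new coordinate, (L3) of post 326).

* `LevT J C T`  : ideal overlaps `0 ≤ T_0 ≤ ... ≤ T_J ≤ T_{J+1} ≤ C`;
* `ThT J h T`   : nested Gaussian recursion with the exponent `j/(J+1)` on `(T_{j-1}, T_j)`,
                  `0` on `(0, T_0)`, `1` on `(T_J, T_{J+1})`;
* `DevW`        : deviation of the leaf norm and of the pair overlaps at the skeleton steps;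
* `cav_W`       : the limit theorem (any finite filtered space, several rows);
* `cav_W_sys`   : the instance for the filtration of `S6Def_988` (any law).
-/

set_option autoImplicit false

namespace Crest.Agent.R146.CavW_47

open Finset MeasureTheory ProbabilityTheory Crest.Agent.R141 Crest.Agent.R141.Fact
open Crest.Agent.R164.CavG
open Crest.Agent.R146.S6Def_988 hiding zf
open Crest.Agent.R164.ED (aE)
open Crest.ProbabilityR.InvariantGlass (gaussOp)
open Crest.Agent.R146.Cav5_47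
open Crest.Agent.R146.S6U_988 (pE)
open Crest.Agent.R146.S6Trans_944 (ov msq)

noncomputable section

/-- ideal overlaps -/
structure LevT (J : ℕ) (C : ℝ) (T : ℕ → ℝ) : Prop where
  nonneg : 0 ≤ T 0
  mono : ∀ i j, i ≤ j → j ≤ J + 1 → T i ≤ T j
  le : T (J + 1) ≤ C

theorem LevT.nonneg' {J : ℕ} {C : ℝ} {T : ℕ → ℝ} (h : LevT J C T) {j : ℕ} (hj : j ≤ J + 1) :
    0 ≤ T j := h.nonneg.trans (h.mono 0 j (Nat.zero_le _) hj)

/-- variances by depth -/
def vT (J : ℕ) (T : ℕ → ℝ) (n : ℕ) : ℝ :=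
  if n ≤ J then T (J + 1 - n) - T (J + 1 - (n + 1)) else T (J + 1 - n)

/-- nested Gaussian recursion with levels `T`. -/
def ThT (J : ℕ) (h : ℝ → ℝ) (T : ℕ → ℝ) : ℝ :=
  ∫ g, rc (ySk J) (vT J T) h (J + 1) (Real.sqrt (vT J T (J + 1)) * g) ∂(gaussianReal 0 1)

/-- the case of the S6 system: norm one at the leaf. -/
theorem ThT_eq_Th (J : ℕ) (h : ℝ → ℝ) (P : ℕ → ℝ) :
    ThT J h (fun j => if j ≤ J then P j else 1) = Th J h P := by
  have e : vT J (fun j => if j ≤ J then P j else 1) = vd J P := by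
    have hq : ∀ n, (if J + 1 - n ≤ J then P (J + 1 - n) else 1) = Qd J P n := by
      intro n
      unfold Qd
      by_cases h0 : n = 0
      · subst h0
        rw [if_neg (by omega), if_pos rfl]
      · rw [if_pos (by omega), if_neg h0]
    funext n
    unfold vT vd
    beta_reduce
    rw [hq n, hq (n + 1)]
  unfold ThT
  rw [e, Th_eq_rc]

/-- deviation in pair form -/
def DevW {Ω κ : Type} [Fintype Ω] [Fintype κ] (P : Ω → ℝ) (𝓕 : Filt Ω) (J : ℕ) (t : ℕ → ℕ)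
    (W : Ω → κ → ℝ) (T : ℕ → ℝ) : ℝ :=
  eE P (fun ω => |∑ i, W ω i ^ 2 - T (J + 1)|) +
    ∑ b ∈ range (J + 1), pE P (𝓕.F (t b)) (fun a c => |∑ i, W a i * W c i - T b|)

theorem DevW_nonneg {Ω κ : Type} [Fintype Ω] [Fintype κ] {P : Ω → ℝ} (hP : IsProb P)
    (𝓕 : Filt Ω) (J : ℕ) (t : ℕ → ℕ) (W : Ω → κ → ℝ) (T : ℕ → ℝ) : 0 ≤ DevW P 𝓕 J t W T :=
  add_nonneg (eE_nonneg hP fun _ => abs_nonneg _)
    (Finset.sum_nonneg fun _ _ => S6Trans_944.pE_nonneg hP fun _ _ => abs_nonneg _)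

theorem Dev_le_DevW {Ω κ β : Type} [Fintype Ω] [Fintype κ] [Fintype β] [DecidableEq β]
    {P : Ω → ℝ} (hP : IsProb P) (𝓕 : Filt Ω) (J : ℕ) (t : ℕ → ℕ) (W : Ω → κ → ℝ) {C : ℝ}
    (hW : ∀ ω, ∑ i, W ω i ^ 2 ≤ C) (T : ℕ → ℝ) :
    Dev P (fun n => 𝓕.F (t (J - n))) J (Prod.fst : β × κ → β) (fun ω p => W ω p.2)
      (fun n _ => T (J + 1 - n)) ≤ ((Fintype.card β : ℝ) + (Fintype.card β : ℝ) ^ 2 * (16 * C)) *
        DevW P 𝓕 J t W T := by
  have hC : 0 ≤ C := by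
    obtain ⟨ω⟩ := nonempty_of_isProb hP
    exact (Finset.sum_nonneg fun _ _ => sq_nonneg _).trans (hW ω)
  set X : ℝ := eE P (fun ω => |∑ i, W ω i ^ 2 - T (J + 1)|) with hX
  set Y : ℝ := ∑ b ∈ range (J + 1), pE P (𝓕.F (t b)) (fun a c => |∑ i, W a i * W c i - T b|)
    with hY
  have hX0 : 0 ≤ X := eE_nonneg hP fun _ => abs_nonneg _
  have hY0 : 0 ≤ Y := Finset.sum_nonneg fun _ _ => S6Trans_944.pE_nonneg hP fun _ _ => abs_nonneg _
  unfold Dev
  simp only [XX_prod, ip_prod, pur_prod, Finset.sum_const, Finset.card_univ, nsmul_eq_mul]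
  have e1 : ∑ n ∈ range (J + 2), (Fintype.card β : ℝ) * eE P (fun ω =>
      |∑ i, XX P (fun n => 𝓕.F (t (J - n))) W n ω i ^ 2 - T (J + 1 - n)|) ≤
      (Fintype.card β : ℝ) * (X + Y) := by
    rw [Finset.sum_range_succ', ← Finset.mul_sum]
    have h0 : eE P (fun ω => |∑ i, XX P (fun n => 𝓕.F (t (J - n))) W 0 ω i ^ 2 -
        T (J + 1 - 0)|) = X := rfl
    rw [h0, ← mul_add, add_comm]
    refine mul_le_mul_of_nonneg_left (add_le_add_right ?_ _) (Nat.cast_nonneg _)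
    rw [hY, ← Finset.sum_range_reflect]
    refine Finset.sum_le_sum fun n hn => ?_
    rw [Finset.mem_range] at hn
    have e2 : J + 1 - 1 - n = J - n := by omega
    have e3 : J + 1 - (J - n + 1) = n := by omega
    rw [e2, e3]
    show eE P (fun ω => |∑ i, cE P (𝓕.F (t (J - (J - n)))) (fun a => W a i) ω ^ 2 - T n|) ≤ _
    rw [show J - (J - n) = n by omega]
    exact S6Trans_944.msq_sub_le hP W (T n)
  have e4 : ∑ n ∈ range (J + 1), (Fintype.card β : ℝ) ^ 2 * pur P (𝓕.F (t (J - n))) W ≤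
      (Fintype.card β : ℝ) ^ 2 * (16 * C * Y) := by
    rw [← Finset.mul_sum]
    refine mul_le_mul_of_nonneg_left ?_ (by positivity)
    rw [hY, Finset.mul_sum, ← Finset.sum_range_reflect]
    refine Finset.sum_le_sum fun n hn => ?_
    rw [Finset.mem_range] at hn
    rw [show J + 1 - 1 - n = J - n by omega, show J - (J - n) = n by omega]
    exact S6Trans_944.pur_le hP hW (T n)
  have e5 : DevW P 𝓕 J t W T = X + Y := rfl
  rw [e5]
  have h3 : (0 : ℝ) ≤ Fintype.card β := Nat.cast_nonneg _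
  have h4 : (0 : ℝ) ≤ (Fintype.card β : ℝ) ^ 2 * (16 * C) := by positivity
  nlinarith [mul_nonneg h4 hX0]

/-- continuity from the Lipschitz property on boxes. -/
theorem meas_of_box {h : ℝ → ℝ} {LR : ℝ → ℝ} (hLR : ∀ R, 0 ≤ R → 0 ≤ LR R)
    (hlip : ∀ R, 0 ≤ R → ∀ a b, |a| ≤ R → |b| ≤ R → |h a - h b| ≤ LR R * |a - b|) :
    Measurable h := by
  have hcont : Continuous h := by
    rw [continuous_iff_continuousAt]
    intro a
    rw [Metric.continuousAt_iff]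
    intro e he
    have hR : 0 ≤ |a| + 1 := by positivity
    have hL0 := hLR (|a| + 1) hR
    refine ⟨min 1 (e / (LR (|a| + 1) + 1)), by positivity, fun {u} hu => ?_⟩
    rw [Real.dist_eq] at hu ⊢
    have hu1 : |u - a| < 1 := lt_of_lt_of_le hu (min_le_left _ _)
    have hu2 : |u - a| < e / (LR (|a| + 1) + 1) := lt_of_lt_of_le hu (min_le_right _ _)
    have hu3 : |u| ≤ |a| + 1 := by
      have := abs_sub_abs_le_abs_sub u a
      linarith
    refine (hlip (|a| + 1) hR u a hu3 (by linarith)).trans_lt ?_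
    rw [lt_div_iff₀ (by linarith)] at hu2
    have := abs_nonneg (u - a)
    nlinarith
  exact hcont.measurable

/-- **Cavity limit for an arbitrary bounded vector**, finitely many rows. -/
theorem cav_W (β : Type) [Fintype β] [DecidableEq β] (J : ℕ) {C c : ℝ} (hC0 : 0 ≤ C) (hc0 : 0 ≤ c)
    (LR : ℝ → ℝ) (hLR : ∀ R, 0 ≤ R → 0 ≤ LR R) {ε : ℝ} (hε : 0 < ε) :
    ∃ D : ℝ, 0 ≤ D ∧ ∀ {Ω κ : Type} [Fintype Ω] [Fintype κ] (P : Ω → ℝ) (𝓕 : Filt Ω) (xe : ℕ → ℝ)
      (t : ℕ → ℕ) (δx : ℝ) (W : Ω → κ → ℝ) (T : ℕ → ℝ) (h : β → ℝ → ℝ),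
      IsProb P → 𝓕.F 0 = ⊤ → Levels xe J t 𝓕.L δx → (∀ ω, ∑ i, W ω i ^ 2 ≤ C) → LevT J C T →
      (∀ k a, |h k a| ≤ c) →
      (∀ k R, 0 ≤ R → ∀ a b, |a| ≤ R → |b| ≤ R → |h k a - h k b| ≤ LR R * |a - b|) →
      |∫ ζ, aE P 𝓕 xe (fun ω => ∑ k, h k (∑ i, W ω i * ζ (k, i))) ∂(gm (β × κ)) -
        ∑ k, ThT J (h k) T| ≤
        ε + D * DevW P 𝓕 J t W T +
          15 * (Fintype.card β * c) ^ 2 * Real.exp (4 * (Fintype.card β * c)) * δx := by
  set b : ℝ := (Fintype.card β : ℝ) with hb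
  have hb0 : 0 ≤ b := Nat.cast_nonneg _
  obtain ⟨d, hd, hmain⟩ := cavity_limit β J (b * c) (b * C) 0 (b * C) LR (by positivity)
    (by positivity) le_rfl (by positivity) hε
  refine ⟨2 * (b * c) / d * (b + b ^ 2 * (16 * C)), by positivity, ?_⟩
  intro Ω κ _ _ P 𝓕 xe t δx W T h hP h0 hlev hW hT hc hlip
  set w : (Unit ⊕ β → ℝ) → ℝ := fun z => ∑ k, h k (z (Sum.inr k)) with hw
  have hm : ∀ k, Measurable (h k) := fun k => meas_of_box hLR (hlip k)
  have hwl : LocLip LR w := by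
    refine ⟨hLR, fun R hR z z' hz hz' => ?_⟩
    rw [hw]
    simp only
    rw [← Finset.sum_sub_distrib]
    refine (Finset.abs_sum_le_sum_abs _ _).trans ?_
    rw [Fintype.sum_sum_type, mul_add, Finset.mul_sum, Finset.mul_sum]
    have h1 : 0 ≤ ∑ i : Unit, LR R * |z (Sum.inl i) - z' (Sum.inl i)| :=
      Finset.sum_nonneg fun _ _ => mul_nonneg (hLR R hR) (abs_nonneg _)
    have h2 : ∑ k, |h k (z (Sum.inr k)) - h k (z' (Sum.inr k))| ≤
        ∑ k, LR R * |z (Sum.inr k) - z' (Sum.inr k)| :=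
      Finset.sum_le_sum fun k _ => hlip k R hR _ _ (hz _) (hz' _)
    linarith
  have hwc : ∀ z, |w z| ≤ b * c := by
    intro z
    refine (Finset.abs_sum_le_sum_abs _ _).trans ?_
    refine (Finset.sum_le_sum fun k _ => hc k _).trans (le_of_eq ?_)
    simp [hb]
  have key := hmain (Ω := Ω) (Λ := Unit) (κ := β × κ) P oneU 𝓕 filU (filP 𝓕) xe t δx Prod.fst
    (fun ω p => W ω p.2) (fun n _ => T (J + 1 - n)) (fun _ => 0) (fun _ => 0) w hP isProb_oneU
    (fun l => rfl) (filP_zero h0) hlev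
    (fun ω => by
      rw [Fintype.sum_prod_type]
      simp only [Finset.sum_const, Finset.card_univ, nsmul_eq_mul]
      exact mul_le_mul_of_nonneg_left (hW ω) hb0)
    (fun n k hn => hT.nonneg' (by omega)) (fun n k hn => hT.mono _ _ (by omega) (by omega))
    (by
      simp only [Nat.sub_zero, Finset.sum_const, Finset.card_univ, nsmul_eq_mul]
      exact mul_le_mul_of_nonneg_left hT.le hb0)
    (fun _ _ => le_rfl) (fun _ _ => by positivity) (clt_zero _ J hd.le)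
    (by rw [eE_oneU]; simp) hwl hwc
  -- identification of the nested functional
  have hg : gval J (ySk J) (vC J (fun n _ => T (J + 1 - n)) (fun _ => 0)) w =
      ∑ k, ThT J (h k) T := by
    set F : Unit ⊕ β → ℝ → ℝ := Sum.elim (fun _ _ => 0) h with hF
    have ew : w = fun z => ∑ k, F k (z k) := by
      funext z
      rw [Fintype.sum_sum_type]
      simp [hF, hw]
    have hFm : ∀ k, Measurable (F k) := by
      rintro (k | k)
      · exact measurable_const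
      · exact hm k
    have hFc : ∀ k a, |F k a| ≤ (Sum.elim (fun _ => 0) (fun _ => c) : Unit ⊕ β → ℝ) k := by
      rintro (k | k) a
      · simp [hF]
      · exact hc k a
    rw [ew, gval_sum (fun n hn => ySk_pos hn) (fun n _ => ySk_le_one J n) F hFm hFc,
      Fintype.sum_sum_type]
    have hz : ∀ g : ℝ, rc (ySk J) (fun n => vC J (fun n (_ : β) => T (J + 1 - n)) (fun _ => 0) n
        (Sum.inl ())) (F (Sum.inl ())) (J + 1)
        (Real.sqrt (vC J (fun n (_ : β) => T (J + 1 - n)) (fun _ => 0) (J + 1) (Sum.inl ())) *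
          g) = 0 := by
      intro g
      have := (rc_meas (y := ySk J) (v := fun n => vC J (fun n (_ : β) => T (J + 1 - n))
        (fun _ => 0) n (Sum.inl ())) (hFm (Sum.inl ())) (hFc (Sum.inl ()))
        (fun n hn => ySk_pos hn) (fun n _ => ySk_le_one J n) (J + 1) le_rfl).2
        (Real.sqrt (vC J (fun n (_ : β) => T (J + 1 - n)) (fun _ => 0) (J + 1) (Sum.inl ())) * g)
      exact abs_nonpos_iff.1 this
    have hz2 : (∑ a₁ : Unit, ∫ g, rc (ySk J) (fun n => vC J (fun n (_ : β) => T (J + 1 - n))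
      (fun _ => 0) n (Sum.inl a₁)) (F (Sum.inl a₁)) (J + 1)
      (Real.sqrt (vC J (fun n (_ : β) => T (J + 1 - n)) (fun _ => 0) (J + 1) (Sum.inl a₁)) * g)
      ∂(gaussianReal 0 1)) = 0 := by
      refine Finset.sum_eq_zero fun u _ => ?_
      simp only [hz, integral_zero]
    rw [hz2, zero_add]
    rfl
  have ea : ∀ ζ : β × κ → ℝ, aE (pP P oneU) (filP 𝓕) xe (fun q => w (cmb 0
      (Crest.Agent.R164.CavG.zf Prod.fst (fun p : β × κ => W q.1 p.2) ζ))) =
      aE P 𝓕 xe (fun ω => ∑ k, h k (∑ i, W ω i * ζ (k, i))) := by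
    intro ζ
    rw [← aE_filP hP 𝓕 hlev.expo.pos]
    congr 1
    funext q
    rw [hw]
    simp only [cmb, Sum.elim_inr, zf_prod]
  simp_rw [ea] at key
  rw [hg] at key
  refine key.trans ?_
  have hD := Dev_le_DevW (β := β) hP 𝓕 J t W hW T
  have h5 : 0 ≤ 2 * (b * c) / d := by positivity
  have h6 := mul_le_mul_of_nonneg_left hD h5
  have h7 : 2 * (b * c) / d * ((b + b ^ 2 * (16 * C)) * DevW P 𝓕 J t W T) =
      2 * (b * c) / d * (b + b ^ 2 * (16 * C)) * DevW P 𝓕 J t W T := by ring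
  linarith

/-- one row, any finite filtered space. -/
theorem cav_W_one (J : ℕ) {C c : ℝ} (hC0 : 0 ≤ C) (hc0 : 0 ≤ c)
    (LR : ℝ → ℝ) (hLR : ∀ R, 0 ≤ R → 0 ≤ LR R) {ε : ℝ} (hε : 0 < ε) :
    ∃ D : ℝ, 0 ≤ D ∧ ∀ {Ω κ : Type} [Fintype Ω] [Fintype κ] (P : Ω → ℝ) (𝓕 : Filt Ω) (xe : ℕ → ℝ)
      (t : ℕ → ℕ) (δx : ℝ) (W : Ω → κ → ℝ) (T : ℕ → ℝ) (h : ℝ → ℝ),
      IsProb P → 𝓕.F 0 = ⊤ → Levels xe J t 𝓕.L δx → (∀ ω, ∑ i, W ω i ^ 2 ≤ C) → LevT J C T →
      (∀ a, |h a| ≤ c) →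
      (∀ R, 0 ≤ R → ∀ a b, |a| ≤ R → |b| ≤ R → |h a - h b| ≤ LR R * |a - b|) →
      |∫ g, eE P (A P 𝓕 xe (fun ω => h (∑ i, W ω i * g i)) 0) ∂(gm κ) - ThT J h T| ≤
        ε + D * DevW P 𝓕 J t W T + 15 * c ^ 2 * Real.exp (4 * c) * δx := by
  obtain ⟨D, hD, hmain⟩ := cav_W Unit J hC0 hc0 LR hLR hε
  refine ⟨D, hD, ?_⟩
  intro Ω κ _ _ P 𝓕 xe t δx W T h hP h0 hlev hW hT hc hlip
  have key := hmain P 𝓕 xe t δx W T (fun _ => h) hP h0 hlev hW hT (fun _ => hc) (fun _ => hlip)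
  simp only [Finset.univ_unique, Finset.sum_singleton, Fintype.card_unit, Nat.cast_one,
    one_mul] at key
  have e : ∫ ζ, aE P 𝓕 xe (fun ω => h (∑ i, W ω i * ζ ((), i))) ∂(gm (Unit × κ)) =
      ∫ g, eE P (A P 𝓕 xe (fun ω => h (∑ i, W ω i * g i)) 0) ∂(gm κ) := by
    have hmp1 := gm_curry Unit κ
    have hmp2 := measurePreserving_funUnique (gm κ) Unit
    rw [← hmp2.integral_comp (MeasurableEquiv.measurableEmbedding _),
      ← hmp1.integral_comp (MeasurableEquiv.measurableEmbedding _)]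
    rfl
  have e2 : (default : Unit) = () := rfl
  rw [e2, e] at key
  exact key

end

end Crest.Agent.R146.CavW_47
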