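import Mathlib
import Crest.Agent.R146.DataP_109
import Crest.Agent.R146.DataM_109

/-!
Numerics certificate of row 146: the closure exponent `ν` of the self-similar tip problem lies in
`(0.2936533, 0.2936535)`, hence `γ = 1 - 2 ν ∈ (0.4126930, 0.4126934)` and
`θ = (4 ν - 1) / (1 - 2 ν) ∈ (0.4231063, 0.4231088)`.
-/

set_option autoImplicit false

namespace Crest.Agent.R146.Cert_109

open Filter Topology Set
open Crest.Agent.R146.Slide_109 Crest.Agent.R146.Prof_109 Crest.Agent.R146.Trans_109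
open Crest.Agent.R146.Encl_109

/-- self-similar profile at exponent `ν` -/
structure Profile (ν : ℝ) (W : ℝ → ℝ) : Prop where
  smooth : ContDiff ℝ 2 W
  ode : ∀ z, deriv (deriv W) z + (z + 2 * ν * (W z - z)) * deriv W z - W z = 0
  left : Tendsto W atBot (𝓝 0)
  right : Tendsto (fun z => W z - z) atTop (𝓝 0)

/-- positive, at most exponentially growing solution of `q'' - (A q)' + lam q = 0` -/
structure Charge (ν lam : ℝ) (W q : ℝ → ℝ) : Prop where
  smooth : ContDiff ℝ 2 q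
  pos : ∀ z, 0 < q z
  ode : ∀ z, deriv (deriv q) z - deriv (fun z => (z + 2 * ν * (W z - z)) * q z) z + lam * q z = 0
  growth : ∃ C c : ℝ, ∀ z, q z ≤ C * Real.exp (c * |z|)

lemma hasDerivAt_of_contDiff2 {f : ℝ → ℝ} (h : ContDiff ℝ 2 f) (z : ℝ) :
    HasDerivAt f (deriv f z) z ∧ HasDerivAt (deriv f) (deriv (deriv f) z) z := by
  constructor
  · exact ((h.differentiable (by norm_num)) z).hasDerivAt
  · have h1 : ContDiff ℝ 1 (deriv f) := by
      have := (contDiff_succ_iff_deriv (n := 1) (f := f)).1 (by norm_num; exact h)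
      exact this.2.2
    exact ((h1.differentiable (by norm_num)) z).hasDerivAt

lemma Profile.toD {ν : ℝ} {W : ℝ → ℝ} (h : Profile ν W) (h0 : 0 < ν) (h1 : ν < 1 / 2) :
    ProfD ν W (deriv W) where
  d0 z := (hasDerivAt_of_contDiff2 h.smooth z).1
  d1 z := by
    have h2 := (hasDerivAt_of_contDiff2 h.smooth z).2
    have h3 := h.ode z
    refine h2.congr_deriv ?_
    unfold A
    linarith
  left := h.left
  right := h.right
  pos := h0
  lt := h1

lemma Charge.toD {ν lam : ℝ} {W q : ℝ → ℝ} (hW : Profile ν W) (h : Charge ν lam W q) :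
    ChargeD ν lam W q (deriv q) where
  pos := h.pos
  d0 z := (hasDerivAt_of_contDiff2 h.smooth z).1
  d1 z := by
    have h2 := (hasDerivAt_of_contDiff2 h.smooth z).2
    have h3 := h.ode z
    have hA : HasDerivAt (fun z => (z + 2 * ν * (W z - z)) * q z)
        (deriv (fun z => (z + 2 * ν * (W z - z)) * q z) z) z := by
      have e1 := (hasDerivAt_of_contDiff2 hW.smooth z).1
      have e2 := (hasDerivAt_of_contDiff2 h.smooth z).1
      have e3 : HasDerivAt (fun z => (z + 2 * ν * (W z - z)) * q z) _ z :=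
        ((hasDerivAt_id z).add ((e1.sub (hasDerivAt_id z)).const_mul (2 * ν))).mul e2
      exact e3.differentiableAt.hasDerivAt
    have h4 := h2.sub hA
    refine h4.congr_deriv ?_
    linarith
  growth := h.growth

/-- **Enclosure.** If the closure `lam = 2 ν` holds at `ν` then `ν` is known to 7 digits. -/
theorem enclosure {ν : ℝ} {W q : ℝ → ℝ} (h0 : 0 < ν) (h1 : ν < 1 / 2) (hW : Profile ν W)
    (hq : Charge ν (2 * ν) W q) : 0.2936533 < ν ∧ ν < 0.2936535 := by
  constructor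
  · by_contra hcon
    push Not at hcon
    obtain ⟨S0, S1, S2, S3, f, f1, f2, D⟩ := DataM_109.data
    exact exclude_below D hcon (hW.toD h0 h1) (hq.toD hW)
  · by_contra hcon
    push Not at hcon
    obtain ⟨U0, U1, U2, U3, f, f1, f2, D⟩ := DataP_109.data
    exact exclude_above D hcon (hW.toD h0 h1) (hq.toD hW)

/-- the exponents `γ` and `θ` -/
theorem exponents {ν : ℝ} (h0 : 0.2936533 < ν) (h1 : ν < 0.2936535) :
    ∃ γ θ : ℝ, γ = 1 - 2 * ν ∧ θ = (4 * ν - 1) / (1 - 2 * ν) ∧ γ = 1 / (2 + θ) ∧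
      0.4126930 < γ ∧ γ < 0.4126934 ∧ 0.4231063 < θ ∧ θ < 0.4231088 ∧
      1 - γ = 2 * ν ∧ 1 + θ = 2 * ν / (1 - 2 * ν) := by
  have hpos : 0 < 1 - 2 * ν := by norm_num at h1 ⊢; linarith
  refine ⟨1 - 2 * ν, (4 * ν - 1) / (1 - 2 * ν), rfl, rfl, ?_, ?_, ?_, ?_, ?_, by ring, ?_⟩
  · have : 2 + (4 * ν - 1) / (1 - 2 * ν) = 1 / (1 - 2 * ν) := by field_simp; ring
    rw [this, one_div_one_div]
  · norm_num at h1 ⊢; linarith
  · norm_num at h0 ⊢; linarith
  · rw [lt_div_iff₀ hpos]; norm_num at h0 ⊢; linarith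
  · rw [div_lt_iff₀ hpos]; norm_num at h1 ⊢; linarith
  · have hne := hpos.ne'
    rw [eq_div_iff hne, add_mul, div_mul_cancel₀ _ hne]; ring

/-- enclosure in terms of the exponents -/
theorem enclosure_exponents {ν : ℝ} {W q : ℝ → ℝ} (h0 : 0 < ν) (h1 : ν < 1 / 2)
    (hW : Profile ν W) (hq : Charge ν (2 * ν) W q) :
    ∃ γ θ : ℝ, γ = 1 - 2 * ν ∧ θ = (4 * ν - 1) / (1 - 2 * ν) ∧ γ = 1 / (2 + θ) ∧
      0.4126930 < γ ∧ γ < 0.4126934 ∧ 0.4231063 < θ ∧ θ < 0.4231088 ∧
      1 - γ = 2 * ν ∧ 1 + θ = 2 * ν / (1 - 2 * ν) :=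
  exponents (enclosure h0 h1 hW hq).1 (enclosure h0 h1 hW hq).2

end Crest.Agent.R146.Cert_109
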