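import Crest.Agent.R146.P5Def_12
import Crest.Agent.R146.Asm0204_734

/-!
Row 146, package P5, PRODUCER SIDE, assembly (helper12): the Props of `P5Def_12` give `P5Out`,
`JamData`, the minimising profiles, and a jamming minimiser with `TipOut`.
-/

set_option autoImplicit false

namespace Crest.Agent.R146.P5Fin_12

open Set Filter Topology MeasureTheory ProbabilityTheory Crest.ProbabilityR.Perceptron
open Crest.Agent.R146.Hilb Crest.Agent.R146.ProfB_540 Crest.Agent.R146.HilbE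
open Crest.Agent.R146.Lev2_576 Crest.Agent.R146.P34_734 Crest.Agent.R146.DualG_256
open Crest.Agent.R146.DualL_256 Crest.Agent.R146.JamIface_776 Crest.Agent.R146.P5A_12
open Crest.Agent.R146.P5Def_12 Crest.Agent.R146.P5Out_576 Crest.Agent.R146.JamAsm_576
open Crest.Agent.R146.Obs918
open scoped RealInnerProductSpace NNReal

noncomputable section

variable (W : BS)

lemma isCone : HilbD.IsCone (KW W) where
  zero := KB_zero W.meas
  add := KB_add W.meas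
  smul := KB_smul W.meas

lemma smul_pos (s : ℝ) (hs : 0 < s) (x : HW W) (hx : x ∈ KW W) : s • x ∈ KW W :=
  KB_smul W.meas s hs.le x hx

lemma mem_K {x : HW W} : x ∈ KW W ↔ 0 ≤ᵐ[W.P] (MW W).J x := by
  show (x : Lp ℝ 2 W.P) ∈ DualV_256.cone W.P ↔ _
  rw [DualV_256.mem_cone]
  rfl

/-- the cone is self dual -/
lemma selfdual {h : HW W} (hh : ∀ y ∈ KW W, 0 ≤ ⟪y, h⟫) : 0 ≤ᵐ[W.P] (MW W).J h := by
  -- the negative part
  have hml : MemLp (fun ω => (1 : ℝ) * max (0 - (h : Lp ℝ 2 W.P) ω) 0) 2 W.P :=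
    (((memLp_const (0 : ℝ)).sub (Lp.memLp (h : Lp ℝ 2 W.P))).pos_part).const_mul 1
  set y0 : Lp ℝ 2 W.P := hml.toLp _ with hy0
  have hyc : (y0 : W.Ω → ℝ) =ᵐ[W.P] fun ω => (1 : ℝ) * max (0 - (h : Lp ℝ 2 W.P) ω) 0 :=
    MemLp.coeFn_toLp _
  have hmem : y0 ∈ HH W.P W.B W.meas := kkt_mem h.2 hyc
  set y : HW W := ⟨y0, hmem⟩ with hy
  have hyK : y ∈ KW W := by
    rw [mem_K]
    filter_upwards [hyc] with ω h1
    show 0 ≤ (y0 : W.Ω → ℝ) ω
    rw [h1, one_mul]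
    exact le_max_right _ _
  have h1 := hh y hyK
  have h2 : ∫ ω, (MW W).J y ω * (MW W).J h ω ∂W.P = ⟪y, h⟫ := (MW W).inner y h
  have h3 : ∫ ω, (MW W).J y ω * (MW W).J h ω ∂W.P = - ∫ ω, (MW W).J y ω ^ 2 ∂W.P := by
    rw [← integral_neg]
    refine integral_congr_ae ?_
    filter_upwards [hyc] with ω h4
    have h5 : (MW W).J y ω = max (-(MW W).J h ω) 0 := by
      show (y0 : W.Ω → ℝ) ω = _
      rw [h4, one_mul, zero_sub]; rfl
    rw [h5]
    rcases le_total ((MW W).J h ω) 0 with h6 | h6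
    · rw [max_eq_left (by linarith)]; ring
    · rw [max_eq_right (by linarith)]; ring
  have h4 : ∫ ω, (MW W).J y ω ^ 2 ∂W.P = 0 := by
    have h5 : 0 ≤ ∫ ω, (MW W).J y ω ^ 2 ∂W.P := integral_nonneg fun ω => sq_nonneg _
    linarith
  have h5 : y = 0 := by
    rw [← norm_eq_zero, ← sq_eq_zero_iff, ← (MW W).norm_sq, h4]
  have h6 : (MW W).J y =ᵐ[W.P] fun _ => 0 := by
    rw [h5]
    exact Lp.coeFn_zero ℝ 2 W.P
  filter_upwards [hyc, h6] with ω h7 h8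
  have h9 : (MW W).J y ω = max (-(MW W).J h ω) 0 := by
    show (y0 : W.Ω → ℝ) ω = _
    rw [h7, one_mul, zero_sub]; rfl
  rw [h8] at h9
  have h10 : -(MW W).J h ω ≤ 0 := by rw [h9]; exact le_max_left _ _
  show 0 ≤ (MW W).J h ω
  linarith

/-- minimisers are complementarity solutions -/
theorem lcp_of_kkt {c : ℝ} {x : HW W} {D : ℝ → ℝ} {e : ℝ} (hD : Adm e D) (hx : x ∈ KW W)
    (h1 : ∀ y ∈ KW W, 0 ≤ ⟪y, HilbD.hvec (RW W) c (xiW W) D x⟫)
    (h2 : ⟪x, HilbD.hvec (RW W) c (xiW W) D x⟫ = 0) (hne : x ≠ 0) :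
    LCP (MW W) (xiW W) c D x := by
  have e1 : HilbD.hvec (RW W) c (xiW W) D x = xiW W + (RW W).Dop D x + c • x := by
    unfold HilbD.hvec; abel
  rw [e1] at h2
  refine ⟨hD.prof.cont, hD.prof.anti, (mem_K W).1 hx, ?_, h2, hne⟩
  have h3 := selfdual W (h := xiW W + (RW W).Dop D x + c • x) (fun y hy => by
    rw [← e1]; exact h1 y hy)
  exact h3

theorem lcp_of_min {α c e : ℝ} (hα : 0 < α) {x : HW W} {D : ℝ → ℝ} (h : IsMinW W α c e x D)
    (hne : x ≠ 0) : LCP (MW W) (xiW W) c D x := by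
  obtain ⟨h1, h2⟩ := h.kkt_x (RW W) hα (isCone W)
  exact lcp_of_kkt W h.adm h.mem h1 h2 hne

/-- a jamming minimiser is a minimiser -/
theorem isMin_of_isJam {αc : ℝ} {x : HW W} {D : ℝ → ℝ}
    (h : IsJam (RW W) (KW W) (xiW W) αc x D) : IsMinW W αc 0 0 x D :=
  ⟨h.xK, h.adm, fun y hy D' hD' => by rw [h.zero]; exact h.min y hy D' hD'⟩

theorem lcp_of_jam {αc : ℝ} (hαc : 0 < αc) {x : HW W} {D : ℝ → ℝ}
    (h : IsJam (RW W) (KW W) (xiW W) αc x D) : LCP (MW W) (xiW W) 0 D x :=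
  lcp_of_min W hαc (isMin_of_isJam W h) h.x0

/-- minimisers have nonzero force above the threshold -/
theorem min_ne_zero {α e : ℝ} (hα : 0 < α) (he : 0 ≤ e) (hn : ¬ JamNN (RW W) (KW W) (xiW W) α)
    {x : HW W} {D : ℝ → ℝ} (h : IsMinW W α 1 e x D) : x ≠ 0 := by
  obtain ⟨y, hy, D', hD', hneg⟩ := exists_neg (RW W) (smul_pos W) hn
  refine ne_zero (RW W) (α := α) (c := 1) (e := e) (ξ := xiW W) h.adm ?_
  rcases he.eq_or_lt with he | he
  · subst he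
    exact (h.le y hy D' hD').trans_lt hneg
  · refine lt_of_le_of_lt ((h.le y hy _ (adm_cap he hD')).trans ?_) hneg
    exact Je_cap_le (RW W) hα.le he 1 (xiW W) y hD'

/-- **Output of package P5** at the literal Brownian space `W`: `P5Out` (576), the minimising
profiles (548's `IsMinP` and the law of the gap), the jamming minimiser and its `TipOut`. -/
structure P5Fin (αc η ν : ℝ) (m : ℝ → ℝ → OverlapProfile) (x : ℝ → ℝ → HW W)
    (D : ℝ → ℝ → ℝ → ℝ) (x0 : ℝ → HW W) (D0 : ℝ → ℝ → ℝ) (xJ : HW W) (DJ : ℝ → ℝ) (s : ℝ → ℝ) :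
    Prop where
  out : P5Out (MW W) (xiW W) αc η x D x0 D0 xJ DJ s
  prof : ∀ α, αc < α → ∀ b (hb : 0 < b), (m α b).entropy ≠ ⊤ ∧
    W.Pv α (fq b (-1)) = α * W.V (fq b (-1)) (m α b) + (m α b).entropy.toReal ∧
    (MW W).J (xiW W + (RW W).Dop (D α b) (x α b)) =ᵐ[W.P]
      fun ω => 1 + (XP W.meas W.br (m α b) hb (-1) : W.Ω → ℝ) ω
  jam : IsJam (RW W) (KW W) (xiW W) αc xJ DJ
  tip : TipOut (RW W) (xiW W) xJ DJ ν

theorem p5fin (hMINB : MINB W) (hMIN0 : MIN0 W) (hELIM : ELIM W) (hFLIM : FLIM W)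
    (hLIPZ : LIPZ W) (hTIP : TIPW W) (hLEVC : LEVC W) (hLEVD : LEVD W) (hLINKM : LINKM W)
    (hLINKZ : LINKZ W) {αc : ℝ} (hαc : 0 < αc) (hZ : ∀ α, 0 < α → α < αc → W.ZeroE α (-1))
    (hNZ : ∀ α, αc < α → ¬ W.ZeroE α (-1)) {η : ℝ} (hη : 0 < η) :
    ∃ (ν : ℝ) (m : ℝ → ℝ → OverlapProfile) (x : ℝ → ℝ → HW W) (D : ℝ → ℝ → ℝ → ℝ)
      (x0 : ℝ → HW W) (D0 : ℝ → ℝ → ℝ) (xJ : HW W) (DJ : ℝ → ℝ) (s : ℝ → ℝ),
      P5Fin W αc η ν m x D x0 D0 xJ DJ s := by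
  have hJc : JamNN (RW W) (KW W) (xiW W) αc := JamNN.of_lt (RW W) hαc fun α h0 h =>
    (zeroH_iff (RW W) (smul_pos W) h0.le).1 ((hLINKZ α h0).1 (hZ α h0 h))
  have hNJ : ∀ α, αc < α → ¬ JamNN (RW W) (KW W) (xiW W) α := fun α h hJ =>
    hNZ α h ((hLINKZ α (hαc.trans h)).2
      ((zeroH_iff (RW W) (smul_pos W) (hαc.trans h).le).2 hJ))
  choose! x D hxD using hMINB
  choose! x0 D0 hx0 using hMIN0
  have h0 : ∀ α, αc < α → IsMinW W α 1 0 (x0 α) (D0 α) := fun α h =>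
    hx0 α (hαc.trans h) (hNJ α h)
  obtain ⟨s, xJ, DJ, hs, hjam, hL, hH⟩ := hFLIM αc hαc hJc hNJ x0 D0 h0
  obtain ⟨ν, hν⟩ := hTIP αc hαc xJ DJ hjam
  have hm : ∀ α b, ∃ m : OverlapProfile, αc < α → ∀ hb : 0 < b, m.entropy ≠ ⊤ ∧
      W.Pv α (fq b (-1)) = α * W.V (fq b (-1)) m + m.entropy.toReal ∧
      (MW W).J (xiW W + (RW W).Dop (D α b) (x α b)) =ᵐ[W.P]
        fun ω => 1 + (XP W.meas W.br m hb (-1) : W.Ω → ℝ) ω := by
    intro α b
    by_cases h : αc < α ∧ 0 < b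
    · obtain ⟨m, hm⟩ := hLINKM α b (hαc.trans h.1) h.2 (x α b) (D α b)
        (hxD α b (hαc.trans h.1) h.2)
      exact ⟨m, fun _ _ => hm⟩
    · exact ⟨AsmP_663.oneProf, fun h1 h2 => absurd ⟨h1, h2⟩ h⟩
  choose m hm using hm
  refine ⟨ν, m, x, D, x0, D0, xJ, DJ, s, ?_, fun α h1 b hb => hm α b h1 hb, hjam, hν⟩
  refine
    { xi := modelB_xi W.meas W.br 1
      η_pos := hη
      temp := fun α h1 _ b hb => ?_
      cap := fun α h1 _ b hb => ?_
      zero := fun α h1 _ => ?_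
      lip := fun α h1 _ => hLIPZ α (hαc.trans h1) _ _ (h0 α h1)
      jam := lcp_of_jam W hαc hjam
      jam_one := hν.D_one
      atomL := hLEVC αc hαc xJ DJ ν hjam hν
      compl := hLEVD αc hαc xJ DJ ν hjam hν
      limE := fun α h1 _ => hELIM α (hαc.trans h1) (hNJ α h1) _ _
        (fun b hb => hxD α b (hαc.trans h1) hb) _ _ (h0 α h1)
      s_pos := fun α h1 _ => hs α h1
      limL := hL
      limH := hH }
  · have hα := hαc.trans h1
    exact lcp_of_min W hα (hxD α b hα hb)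
      (min_ne_zero W hα (by positivity) (hNJ α h1) (hxD α b hα hb))
  · have hA := (hxD α b (hαc.trans h1) hb).adm
    refine ⟨b, fun t ht => ?_⟩
    have h2 := hA.cap t ⟨ht.1, ht.2.le⟩
    have h3 := hA.prof.one
    have h4 : D α b t ≤ b * (1 - t) := by
      rw [one_div, inv_mul_eq_div, div_le_iff₀ hb] at h2
      linarith
    linarith
  · exact lcp_of_min W (hαc.trans h1) (h0 α h1)
      (min_ne_zero W (hαc.trans h1) le_rfl (hNJ α h1) (h0 α h1))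

/-! ### the literal threshold -/

/-- above the threshold of S0205 the ground state energy does not vanish -/
theorem not_zeroE_above (hC : VCONC W) (hZ : VZERO W) (hG : GUB W) (hLB : LINDLB W)
    (hcap : CAP) (hcon : CONCM) (hM : MARKOV) (hK : KERN) (hMix : MIX0) {αc : ℝ} (hαc : 0 < αc)
    (hhigh : ∀ α : ℝ, αc < α → Tendsto (fun N : ℕ => satProb N α) atTop (𝓝 0)) :
    ∀ α, αc < α → ¬ W.ZeroE α (-1) := by
  intro α hα hE
  obtain ⟨α', h1, h2⟩ := exists_between hα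
  have h0 : 0 < α' := hαc.trans h1
  obtain ⟨η, hη, hη1, hEη⟩ := Asm0204_734.margin_gain W hC hZ hG hcap hcon hK h0 h2 hE
  have h3 := Asm0204_734.sat_of_zeroE W hM hLB (ε := 0) h0 le_rfl zero_lt_one hη hη1 hEη
  have e : ∀ N : ℕ, satProb N α' = satProbMix N α' 0 := by
    intro N
    unfold satProb satProbMix patternLaw patternLawMix
    rw [hMix]
  have h4 := hhigh α' h1
  simp only [e] at h4
  exact zero_ne_one (tendsto_nhds_unique h4 h3)

end

end Crest.Agent.R146.P5Fin_12
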