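import Crest.Agent.R146.MinW_952
import Crest.Agent.R146.P5Fin_12

/-!
Package P5 (row 146), node E complete (helper12): `elim : ELIM W`.

`elim_H` (abstract frame): minimisers at `b` (scaled) converge to the zero temperature minimiser:
`x b → x0`, `D b + 1/b → D0` pointwise on `[0,1)`, `Dop (D b) (x b) → Dop D0 x0`.
-/

set_option autoImplicit false

namespace Crest.Agent.R146.ELim_12

open Set Filter Topology
open Crest.Agent.R146.Hilb Crest.Agent.R146.ProfB_540 Crest.Agent.R146.HilbE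
open Crest.Agent.R146.P34_734 Crest.Agent.R146.DualG_256
open Crest.Agent.R146.P5A_12 Crest.Agent.R146.P5Def_12 Crest.Agent.R146.MinC_952
open scoped RealInnerProductSpace

section Abstract

variable {H : Type*} [NormedAddCommGroup H] [InnerProductSpace ℝ H] [CompleteSpace H]

/-- **Node E** -/
theorem elim_H (R : Res H) {α : ℝ} (hα : 0 < α) (ξ : H) {K : Set H} (hK : Convex ℝ K)
    (h0K : (0 : H) ∈ K) {x0 : H} {D0 : ℝ → ℝ} (h0 : IsMinPair R α 1 0 ξ K x0 D0) (hne : x0 ≠ 0)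
    {x : ℝ → H} {D : ℝ → ℝ → ℝ} (hx : ∀ b, 0 < b → IsMinPair R α 1 (1 / b) ξ K (x b) (D b)) :
    Tendsto x atTop (𝓝 x0) ∧
      (∀ t ∈ Ico (0 : ℝ) 1, Tendsto (fun b => D b t + 1 / b) atTop (𝓝 (D0 t))) ∧
      Tendsto (fun b => R.Dop (D b) (x b)) atTop (𝓝 (R.Dop D0 x0)) := by
  have hev : ∀ᶠ b : ℝ in atTop, 1 ≤ b := eventually_ge_atTop 1
  have hinv : Tendsto (fun b : ℝ => 1 / b) atTop (𝓝[>] 0) := by
    simpa using tendsto_inv_atTop_nhdsGT_zero (𝕜 := ℝ)
  have hnear : ∀ b : ℝ, 1 ≤ b → Adm 0 (fun t => D b t + 1 / b) ∧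
      Je R α 1 0 ξ (x b) (fun t => D b t + 1 / b) ≤ Je R α 1 0 ξ x0 D0 + errE α ‖ξ‖ (1 / b) := by
    intro b hb
    have hb0 : 0 < b := by linarith
    have hmin := hx b hb0
    obtain ⟨-, h1, h2⟩ := near_min R hα (e := 1 / b) (by positivity)
      (by rw [div_le_iff₀ hb0]; linarith) h0K ξ (x b) hmin.2.1 hmin.2.2
    exact ⟨h1, h2 x0 h0.1 D0 h0.2.1⟩
  have hadm : ∀ᶠ b : ℝ in atTop, Adm 0 (fun t => D b t + 1 / b) :=
    hev.mono fun b hb => (hnear b hb).1
  have hg : Tendsto (fun b : ℝ => Je R α 1 0 ξ x0 D0 + errE α ‖ξ‖ (1 / b)) atTop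
      (𝓝 (Je R α 1 0 ξ x0 D0)) := by
    have := ((errE_tendsto α ‖ξ‖).comp hinv).const_add (Je R α 1 0 ξ x0 D0)
    simpa using this
  obtain ⟨h1, h2⟩ := tendsto_minPair R hα one_pos le_rfl ξ hK h0 (fun _ => hne)
    (x := x) (D := fun b t => D b t + 1 / b)
    (hev.mono fun b hb => (hx b (by linarith)).1) hadm hg (hev.mono fun b hb => (hnear b hb).2)
  refine ⟨h1, h2, ?_⟩
  have h3 := Dop_tendsto_of R (e := 0) h1 hadm h0.2.1.prof h2
  have h4 : Tendsto (fun b : ℝ => (1 / b) • x b) atTop (𝓝 ((0 : ℝ) • x0)) :=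
    (hinv.mono_right nhdsWithin_le_nhds).smul h1
  rw [zero_smul] at h4
  have h5 := h3.sub h4
  rw [sub_zero] at h5
  refine h5.congr' ?_
  filter_upwards [hev] with b hb
  have hc := (hx b (by linarith)).2.1.prof.cont
  have e1 : R.Dop (fun t => D b t + 1 / b) (x b) =
      R.Dop (D b) (x b) + R.Dop (fun _ => 1 / b) (x b) := by
    rw [R.Dop_add hc continuousOn_const]; rfl
  rw [e1, R.Dop_const]
  simp

end Abstract

/-- **(ELIM)** -/
theorem elim (W : BS) : ELIM W := by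
  intro α hα hn x D hx x0 D0 h0
  have hne : x0 ≠ 0 := P5Fin_12.min_ne_zero W hα le_rfl hn h0
  have h := (elim_H (RW W) hα (xiW W) (MinW_952.convex_KW W) (KB_zero W.meas)
    ((MinW_952.isMinW_iff W).1 h0) hne
    (fun b hb => (MinW_952.isMinW_iff W).1 (hx b hb))).2.2
  exact h.const_add (xiW W)

end Crest.Agent.R146.ELim_12
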