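import Crest.Agent.R146.LevE_4
import Crest.Agent.R146.P5Fin_12

/-!
Row 146 (task 58, helper4): `LEVC`, `LEVD` of `P5Def_12` from the sub-Gaussian bounds (set form) of
helper861.
-/

set_option autoImplicit false

namespace Crest.Agent.R146.LevF_4

open Set Filter Topology MeasureTheory ProbabilityTheory Crest.ProbabilityR.Perceptron
open Crest.Agent.R146.Hilb Crest.Agent.R146.ProfB_540 Crest.Agent.R146.HilbE
open Crest.Agent.R146.Lev2_576 Crest.Agent.R146.P34_734 Crest.Agent.R146.DualG_256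
open Crest.Agent.R146.DualL_256 Crest.Agent.R146.JamIface_776 Crest.Agent.R146.P5A_12
open Crest.Agent.R146.P5Def_12 Crest.Agent.R146.P5Out_576 Crest.Agent.R146.JamAsm_576
open Crest.Agent.R146.SubG_4 Crest.Agent.R146.LevE_4 Crest.Agent.R146.LevK_4
open scoped RealInnerProductSpace NNReal ENNReal

section Gen

variable {H : Type*} [NormedAddCommGroup H] [InnerProductSpace ℝ H] [CompleteSpace H] {R : Res H}
  {Ω : Type*} {mΩ : MeasurableSpace Ω} {P : Measure Ω} {B : ℝ≥0 → Ω → ℝ}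
  {hBm : ∀ t, Measurable (B t)}

/-- set form of the sub-Gaussian bound for the martingale of `z` with clock `V` -/
def EMset (M : Model R P B hBm) (z : H) (V : ℝ → ℝ) : Prop :=
  ∀ s u : ℝ, 0 ≤ s → s ≤ u → u ≤ 1 → SubG P (Fl hBm s)
    (fun ω => M.J (R.P u z) ω - M.J (R.P s z) ω) (V u - V s)

theorem levels_cd' [IsProbabilityMeasure P] {M : Model R P B hBm} {ξ x : H} {D : ℝ → ℝ}
    (hB : IsPreBrownianReal B P) {κ : ℝ}
    (hξ : M.J ξ =ᵐ[P] fun ω => κ + B 1 ω) (L : LCP M ξ 0 D x) (hpos : ∀ t ∈ Ico (0 : ℝ) 1, 0 < D t)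
    (hD1 : 0 ≤ D 1) (hlow : ∀ᶠ t in 𝓝[<] (1 : ℝ), (1 - t) ^ (2 / 5 : ℝ) ≤ D t)
    (hEh : EMset M (ξ + R.Dop D x) (fun t => t))
    (hEl : EMset M x (fun t => - K D t)) :
    (∀ l : ℝ, 0 < l → P {ω | M.J x ω = l} = 0) ∧
      P {ω | M.J (ξ + R.Dop D x) ω = 0 ∧ M.J x ω = 0} = 0 := by
  have hPrf : Prf D := ⟨L.cont, L.anti, hpos, hlow⟩
  have hK1 : K D 1 = 0 := by unfold K; simp
  refine levels_cd hB hξ L hpos hD1 hlow ?_ ?_ ?_
  · intro s hs
    have h1 := hEh s 1 hs.1 hs.2.le le_rfl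
    refine h1.congr ?_
    filter_upwards [M.cond s ⟨hs.1, hs.2.le⟩ (ξ + R.Dop D x)] with ω h2
    rw [R.one, h2]
  · intro s hs
    have h1 := hEl s 1 hs.1 hs.2.le le_rfl
    have e : (fun t => -K D t) 1 - (fun t => -K D t) s = K D s := by
      beta_reduce; rw [hK1]; ring
    rw [e] at h1
    refine h1.congr ?_
    filter_upwards [M.cond s ⟨hs.1, hs.2.le⟩ x] with ω h2
    rw [R.one, h2]
  · intro s t hs hst ht
    have h1 := hEl s t hs hst ht.le
    have e : (fun t => -K D t) t - (fun t => -K D t) s = K D s - K D t := by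
      beta_reduce; ring
    rw [e] at h1
    have h2 : SubG P (Fl hBm s) (M.J (R.inc s t x)) (K D s - K D t) := by
      refine h1.congr ?_
      filter_upwards [M.sub (R.P t x) (R.P s x)] with ω h3
      rw [R.inc_apply, h3]
    have h3 : 0 ≤ K D s - K D t := le_trans
      (mul_nonneg (sub_nonneg.2 hst) (sq_nonneg _)) (hPrf.K_dec hs hst ht)
    have h4 := h2.var_real (M.memLp _).1.aemeasurable h3 (C := Set.univ) MeasurableSet.univ
    rw [setIntegral_univ, probReal_univ, mul_one, M.norm_sq] at h4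
    exact h4

end Gen

/-- what is used of (EM) (helper861) at the literal instance -/
def EMW (W : BS) : Prop := ∀ (x : HW W) (D : ℝ → ℝ), LCP (MW W) (xiW W) 0 D x →
  (∀ t ∈ Ico (0 : ℝ) 1, 0 < D t) → 0 ≤ D 1 →
  EMset (MW W) (xiW W + (RW W).Dop D x) (fun t => t) ∧
  ∀ V : ℝ → ℝ, (∀ s t, 0 ≤ s → s ≤ t → t < 1 → (t - s) * (D s)⁻¹ ^ 2 ≤ V t - V s) →
    ContinuousOn V (Icc 0 1) → EMset (MW W) x V

theorem lev_of_EMW {W : BS} (hE : EMW W) {αc : ℝ} (hαc : 0 < αc) {x : HW W} {D : ℝ → ℝ} {ν : ℝ}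
    (hJ : IsJam (RW W) (KW W) (xiW W) αc x D) (hT : TipOut (RW W) (xiW W) x D ν) :
    (∀ l : ℝ, 0 < l → W.P {ω | (MW W).J x ω = l} = 0) ∧
      W.P {ω | (MW W).J (xiW W + (RW W).Dop D x) ω = 0 ∧ (MW W).J x ω = 0} = 0 := by
  have hprob : IsProbabilityMeasure W.P := inferInstance
  have L := P5Fin_12.lcp_of_jam W hαc hJ
  have hpos := hJ.adm.prof.pos
  have hlow := low_of_log hpos hT.log_D (by have := hT.ν_hi; linarith)
  have hPrf : Prf D := ⟨L.cont, L.anti, hpos, hlow⟩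
  obtain ⟨h1, h2⟩ := hE x D L hpos hJ.adm.prof.one
  have hcont : ContinuousOn (K D) (Icc 0 1) := by
    obtain ⟨M, hM, hi, hb⟩ := hPrf.K_bound
    have h1 : ContinuousOn (fun t => ∫ r in (0 : ℝ)..t, (D r)⁻¹ ^ 2) (Icc 0 1) := by
      have := intervalIntegral.continuousOn_primitive_interval' (a := 0) hi (by simp)
      rwa [uIcc_of_le zero_le_one] at this
    refine (continuousOn_const (c := K D 0)).sub h1 |>.congr fun t ht => ?_
    have := hPrf.K_sub le_rfl ht.1 ht.2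
    change K D t = K D 0 - ∫ r in (0 : ℝ)..t, (D r)⁻¹ ^ 2
    linarith
  exact levels_cd' W.br.toIsPreBrownianReal (modelB_xi W.meas W.br 1) L hpos hJ.adm.prof.one hlow h1
    (h2 (fun t => -K D t) (fun s t hs hst ht => by
      have := hPrf.K_dec hs hst ht
      linarith) hcont.neg)

theorem levc {W : BS} (hE : EMW W) : LEVC W := fun _ hαc _ _ _ hJ hT =>
  (lev_of_EMW hE hαc hJ hT).1

theorem levd {W : BS} (hE : EMW W) : LEVD W := fun _ hαc _ _ _ hJ hT =>
  (lev_of_EMW hE hαc hJ hT).2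

end Crest.Agent.R146.LevF_4
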