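import Crest.Agent.R146.FLim_491
import Crest.Agent.R146.LevF_4

/-!
Row 146, package P5 (helper491): the exponential bounds of node LIP (`EMG`, every damping `c ≥ 0`)
give `EML0` (hence `FLIM`), `LIPZ`, and helper4's `EMW` (hence `LEVC`, `LEVD`).
-/

set_option autoImplicit false

namespace Crest.Agent.R146.LipG_491

open Set Filter Topology MeasureTheory ProbabilityTheory Crest.ProbabilityR.Perceptron
open Crest.Agent.R146.Hilb Crest.Agent.R146.ProfB_540 Crest.Agent.R146.HilbE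
open Crest.Agent.R146.Lev2_576 Crest.Agent.R146.P34_734 Crest.Agent.R146.DualG_256
open Crest.Agent.R146.DualL_256 Crest.Agent.R146.JamIface_776 Crest.Agent.R146.P5A_12
open Crest.Agent.R146.P5Def_12 Crest.Agent.R146.P5Fin_12 Crest.Agent.R146.JamAsm_576
open Crest.Agent.R146.SubG_4 Crest.Agent.R146.LevE_4 Crest.Agent.R146.LevF_4
open Crest.Agent.R146.FLim_491
open scoped RealInnerProductSpace NNReal ENNReal

noncomputable section

/-- the exponential bounds of node LIP, set form, for every damping `c ≥ 0` -/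
def EMG (W : BS) : Prop := ∀ (c : ℝ) (x : HW W) (D : ℝ → ℝ), 0 ≤ c →
  LCP (MW W) (xiW W) c D x → (∀ t ∈ Ico (0 : ℝ) 1, 0 < D t) → 0 ≤ D 1 →
  EMset (MW W) (xiW W + (RW W).Dop D x + c • x) (fun t => t) ∧
  ∀ V : ℝ → ℝ, (∀ s t, 0 ≤ s → s ≤ t → t < 1 → (t - s) * (c + D s)⁻¹ ^ 2 ≤ V t - V s) →
    ContinuousOn V (Icc 0 1) → EMset (MW W) x V

theorem emw (W : BS) (h : EMG W) : EMW W := by
  intro x D L hpos h1
  obtain ⟨h2, h3⟩ := h 0 x D le_rfl L hpos h1
  rw [zero_smul, add_zero] at h2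
  simp only [zero_add] at h3
  exact ⟨h2, h3⟩

/-- second moment from an exponential bound -/
theorem moment2_of_exp {Ω : Type*} [MeasurableSpace Ω] {P : Measure Ω}
    {f : Ω → ℝ} (hf : MemLp f 2 P) {V : ℝ} (hV : 0 < V)
    (h : ∀ θ : ℝ, ∫⁻ ω, ENNReal.ofReal (Real.exp (θ * f ω)) ∂P ≤
      ENNReal.ofReal (Real.exp (θ ^ 2 * V / 2))) :
    ∫ ω, f ω ^ 2 ∂P ≤ 8 * V := by
  set r : ℝ := Real.sqrt V with hr
  have hr0 : 0 < r := Real.sqrt_pos.2 hV
  have hr2 : r ^ 2 = V := Real.sq_sqrt hV.le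
  have hexp : Real.exp (1 / 2) ≤ 2 := by
    have h1 := Real.exp_one_lt_d9
    have h2 : Real.exp (1 / 2) ^ 2 = Real.exp 1 := by
      rw [← Real.exp_nat_mul]; norm_num
    nlinarith [Real.exp_pos (1 / 2 : ℝ)]
  have hb : ∀ θ : ℝ, θ ^ 2 * V = 1 →
      ∫⁻ ω, ENNReal.ofReal (Real.exp (θ * f ω)) ∂P ≤ ENNReal.ofReal 2 := by
    intro θ hθ
    refine (h θ).trans (ENNReal.ofReal_le_ofReal ?_)
    rw [hθ]; exact hexp
  have h1 := hb (1 / r) (by rw [div_pow, one_pow, hr2]; field_simp)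
  have h2 := hb (-(1 / r)) (by rw [neg_sq, div_pow, one_pow, hr2]; field_simp)
  have hpow : ∀ x : ℝ, x ^ 2 ≤ 2 * (Real.exp x + Real.exp (-x)) := by
    intro x
    have h1 : ∀ y : ℝ, 0 ≤ y → y ^ 2 ≤ 2 * Real.exp y := by
      intro y hy
      have h := Real.pow_div_factorial_le_exp y hy 2
      have e : ((Nat.factorial 2 : ℕ) : ℝ) = 2 := by norm_num [Nat.factorial]
      rw [e, div_le_iff₀ (by norm_num)] at h
      linarith
    rcases le_total 0 x with h | h
    · have := h1 x h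
      have h2 := (Real.exp_pos (-x)).le
      linarith
    · have := h1 (-x) (by linarith)
      rw [neg_sq] at this
      have h2 := (Real.exp_pos x).le
      linarith
  have hpt : ∀ ω, f ω ^ 2 ≤ 2 * V *
      (Real.exp (1 / r * f ω) + Real.exp (-(1 / r) * f ω)) := by
    intro ω
    have h3 := hpow (1 / r * f ω)
    have e : (1 / r * f ω) ^ 2 = f ω ^ 2 / V := by
      rw [mul_pow, div_pow, one_pow, hr2]; ring
    rw [e, div_le_iff₀ hV] at h3
    rw [neg_mul]
    linarith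
  have hl : ∫⁻ ω, ENNReal.ofReal (f ω ^ 2) ∂P ≤ ENNReal.ofReal (8 * V) := by
    calc ∫⁻ ω, ENNReal.ofReal (f ω ^ 2) ∂P
        ≤ ∫⁻ ω, ENNReal.ofReal (2 * V) * (ENNReal.ofReal (Real.exp (1 / r * f ω)) +
            ENNReal.ofReal (Real.exp (-(1 / r) * f ω))) ∂P := by
          refine lintegral_mono fun ω => ?_
          rw [← ENNReal.ofReal_add (Real.exp_pos _).le (Real.exp_pos _).le,
            ← ENNReal.ofReal_mul (by positivity)]
          exact ENNReal.ofReal_le_ofReal (hpt ω)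
      _ = ENNReal.ofReal (2 * V) * (∫⁻ ω, ENNReal.ofReal (Real.exp (1 / r * f ω)) ∂P +
            ∫⁻ ω, ENNReal.ofReal (Real.exp (-(1 / r) * f ω)) ∂P) := by
          rw [lintegral_const_mul' _ _ ENNReal.ofReal_ne_top, lintegral_add_left']
          exact (Real.measurable_exp.comp_aemeasurable
            (hf.1.aemeasurable.const_mul _)).ennreal_ofReal
      _ ≤ ENNReal.ofReal (2 * V) * (ENNReal.ofReal 2 + ENNReal.ofReal 2) := by
          gcongr
      _ = ENNReal.ofReal (8 * V) := by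
          rw [← ENNReal.ofReal_add (by norm_num) (by norm_num), ← ENNReal.ofReal_mul (by positivity)]
          congr 1; ring
  have hint : Integrable (fun ω => f ω ^ 2) P := hf.integrable_sq
  rw [← ofReal_integral_eq_lintegral_ofReal hint (Eventually.of_forall fun ω => sq_nonneg _)] at hl
  exact (ENNReal.ofReal_le_ofReal_iff (by positivity)).1 hl

section

variable (W : BS)

/-- the clock of the force at damping `1` -/
def V1 (D : ℝ → ℝ) (t : ℝ) : ℝ := ∫ s in (0 : ℝ)..t, 1 / (1 + D s) ^ 2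

lemma V1_cont {D : ℝ → ℝ} (h : Adm 0 D) : ContinuousOn (fun s => 1 / (1 + D s) ^ 2) (Icc 0 1) := by
  refine continuousOn_const.div ((continuousOn_const.add h.prof.cont).pow 2) fun t ht => ?_
  have := h.prof.nonneg ht
  positivity

lemma V1_int {D : ℝ → ℝ} (h : Adm 0 D) {s t : ℝ} (hs : 0 ≤ s) (hst : s ≤ t) (ht : t ≤ 1) :
    IntervalIntegrable (fun s => 1 / (1 + D s) ^ 2) volume s t :=
  ((V1_cont h).mono (Icc_subset_Icc hs ht)).intervalIntegrable_of_Icc hst

lemma V1_sub {D : ℝ → ℝ} (h : Adm 0 D) {s t : ℝ} (hs : 0 ≤ s) (hst : s ≤ t) (ht : t ≤ 1) :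
    V1 D t - V1 D s = ∫ r in s..t, 1 / (1 + D r) ^ 2 := by
  unfold V1
  rw [intervalIntegral.integral_interval_sub_left (V1_int h le_rfl (hs.trans hst) ht)
    (V1_int h le_rfl hs (hst.trans ht))]

lemma V1_ge {D : ℝ → ℝ} (h : Adm 0 D) {s t : ℝ} (hs : 0 ≤ s) (hst : s ≤ t) (ht : t < 1) :
    (t - s) * (1 + D s)⁻¹ ^ 2 ≤ V1 D t - V1 D s := by
  rw [V1_sub h hs hst ht.le]
  have h1 : ∫ _ in s..t, (1 + D s)⁻¹ ^ 2 ≤ ∫ r in s..t, 1 / (1 + D r) ^ 2 := by
    refine intervalIntegral.integral_mono_on hst intervalIntegrable_const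
      (V1_int h hs hst ht.le) fun r hr => ?_
    have h2 := h.prof.anti ⟨hs, hst.trans ht.le⟩ ⟨hs.trans hr.1, hr.2.trans ht.le⟩ hr.1
    have h3 := h.prof.nonneg (t := r) ⟨hs.trans hr.1, hr.2.trans ht.le⟩
    rw [inv_pow, ← one_div]
    apply one_div_le_one_div_of_le (by positivity)
    nlinarith
  rwa [intervalIntegral.integral_const, smul_eq_mul] at h1

lemma V1_contOn {D : ℝ → ℝ} (h : Adm 0 D) : ContinuousOn (V1 D) (Icc 0 1) := by
  have h1 := intervalIntegral.continuousOn_primitive_interval (μ := volume) (a := 0) (b := 1)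
    (f := fun s => 1 / (1 + D s) ^ 2) (by
      rw [uIcc_of_le zero_le_one]
      exact (V1_cont h).integrableOn_Icc)
  rwa [uIcc_of_le zero_le_one] at h1

lemma V1_sub_le {D : ℝ → ℝ} (h : Adm 0 D) {s t : ℝ} (hs : 0 ≤ s) (hst : s ≤ t) (ht : t ≤ 1) :
    V1 D t - V1 D s ≤ t - s := by
  rw [V1_sub h hs hst ht]
  have h1 : ∫ r in s..t, 1 / (1 + D r) ^ 2 ≤ ∫ _ in s..t, (1 : ℝ) := by
    refine intervalIntegral.integral_mono_on hst (V1_int h hs hst ht) intervalIntegrable_const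
      fun r hr => ?_
    have h3 := h.prof.nonneg (t := r) ⟨hs.trans hr.1, hr.2.trans ht⟩
    rw [div_le_one (by positivity)]
    nlinarith
  rwa [intervalIntegral.integral_const, smul_eq_mul, mul_one] at h1

lemma V1_sub_pos {D : ℝ → ℝ} (h : Adm 0 D) {s t : ℝ} (hs : 0 ≤ s) (hst : s < t) (ht : t ≤ 1) :
    0 < V1 D t - V1 D s := by
  rw [V1_sub h hs hst.le ht]
  refine intervalIntegral.intervalIntegral_pos_of_pos_on (V1_int h hs hst.le ht) (fun r hr => ?_) hst
  have h3 := h.prof.nonneg (t := r) ⟨hs.trans hr.1.le, hr.2.le.trans ht⟩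
  positivity

/-- the force of a minimiser at damping `1` -/
theorem subG_one {W : BS} (h : EMG W) {α : ℝ} (hα : 0 < α) {x : HW W} {D : ℝ → ℝ}
    (hm : IsMinW W α 1 0 x D) (hne : x ≠ 0) {s : ℝ} (hs : 0 ≤ s) (hs1 : s ≤ 1) (θ : ℝ) :
    ∫⁻ ω, ENNReal.ofReal (Real.exp (θ * ((MW W).J x ω - (MW W).J ((RW W).P s x) ω))) ∂W.P ≤
      ENNReal.ofReal (Real.exp (θ ^ 2 * (V1 D 1 - V1 D s) / 2)) := by
  have L := lcp_of_min W hα hm hne
  obtain ⟨-, h2⟩ := h 1 x D zero_le_one L hm.adm.prof.pos hm.adm.prof.one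
  have h3 := h2 (V1 D) (fun s t a b c => V1_ge hm.adm a b c) (V1_contOn hm.adm) s 1 hs hs1 le_rfl θ
    univ MeasurableSet.univ
  rw [Measure.restrict_univ, measure_univ, mul_one, (RW W).one] at h3
  exact h3

theorem eml0 (h : EMG W) : EML0 W := by
  intro α hα x D hm hne θ
  have h1 := subG_one h hα hm hne le_rfl zero_le_one θ
  have e : V1 D 1 - V1 D 0 = ∫ t in (0 : ℝ)..1, 1 / (1 + D t) ^ 2 := by
    unfold V1; simp
  rwa [e] at h1

theorem flim (h : EMG W) : FLIM W := FLim_491.flim W (eml0 W h)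

theorem lipz (h : EMG W) : LIPZ W := by
  intro α hα x D hm
  by_cases hne : x = 0
  · refine ⟨0, fun t _ => ?_⟩
    rw [hne]; simp
  refine ⟨8, fun t ht => ?_⟩
  have h1 := moment2_of_exp (f := fun ω => (MW W).J x ω - (MW W).J ((RW W).P t x) ω)
    (((MW W).memLp x).sub ((MW W).memLp ((RW W).P t x))) (V1_sub_pos hm.adm ht.1 ht.2 le_rfl)
    (fun θ => subG_one h hα hm hne ht.1 ht.2.le θ)
  have h2 : ∫ ω, ((MW W).J x ω - (MW W).J ((RW W).P t x) ω) ^ 2 ∂W.P =
      ‖x - (RW W).P t x‖ ^ 2 := by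
    rw [← (MW W).norm_sq]
    refine integral_congr_ae ?_
    filter_upwards [(MW W).sub x ((RW W).P t x)] with ω h3
    rw [h3]
  rw [h2] at h1
  have h3 := V1_sub_le hm.adm ht.1 ht.2.le le_rfl
  linarith

end

end

end Crest.Agent.R146.LipG_491
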