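import Crest.Agent.R146.LipG_861
import Crest.Agent.R146.LipG_491

/-!
Row 146, package P5 (helper288, glue only): `LipG_491.EMG W` for every `W`, from the theorems
`lcp_gap`, `lcp_force` of helper861; hence `EMW`, `EML0`, `FLIM`, `LEVC`, `LEVD` of helper4/491.
-/

set_option autoImplicit false

namespace Crest.Agent.R146.Emg_288

open Set Filter Topology MeasureTheory ProbabilityTheory Crest.ProbabilityR.Perceptron
open Crest.Agent.R146.P34_734 Crest.Agent.R146.P5Def_12 Crest.Agent.R146.JamAsm_576
open Crest.Agent.R146.DualG_256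
open scoped NNReal

theorem emg (W : BS) : LipG_491.EMG W := by
  intro c x D hc L hpos h1
  have hB := W.br.toIsPreBrownianReal
  have hξ := modelB_xi W.meas W.br 1
  have hprob : IsProbabilityMeasure W.P := inferInstance
  refine ⟨?_, fun V hV hcont => ?_⟩
  · intro s u hs hsu hu μ C hC
    have hu0 := hs.trans hsu
    have h := LipG_861.lcp_gap hB hξ L (by linarith) (s := s.toNNReal) (u := u.toNNReal)
      (Real.toNNReal_le_toNNReal hsu) (Real.toNNReal_le_one.2 hu) (A := C) hC μ
    rw [Real.coe_toNNReal _ hs, Real.coe_toNNReal _ hu0] at h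
    exact h
  · intro s u hs hsu hu μ C hC
    have hu0 := hs.trans hsu
    have h := LipG_861.lcp_force hB hξ L (by linarith) (fun t ht => by
        have := hpos t ht
        linarith) (s := s.toNNReal) (u := u.toNNReal)
      (Real.toNNReal_le_toNNReal hsu) (Real.toNNReal_le_one.2 hu) (V := V) ?_ (A := C) hC μ
    · rw [Real.coe_toNNReal _ hs, Real.coe_toNNReal _ hu0] at h
      exact h
    · intro a b ha hab hb
      rw [Real.coe_toNNReal _ hs] at ha
      rw [Real.coe_toNNReal _ hu0] at hb
      have ha0 : 0 ≤ a := hs.trans ha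
      have hb1 : b ≤ 1 := hb.trans hu
      have key : ∀ t, a ≤ t → t < 1 → (t - a) / (D a + c) ^ 2 ≤ V t - V a := fun t hat ht => by
        have := hV a t ha0 hat ht
        rwa [add_comm c, inv_pow, ← div_eq_mul_inv] at this
      rcases hb1.lt_or_eq with hb1 | hb1
      · exact key b hab hb1
      · subst hb1
        rcases hab.lt_or_eq with hab | hab
        · have hc1 : Tendsto V (𝓝[Ioo a 1] 1) (𝓝 (V 1)) :=
            (hcont 1 ⟨zero_le_one, le_rfl⟩).mono_left
              (nhdsWithin_mono _ fun t ht => ⟨ha0.trans ht.1.le, ht.2.le⟩)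
          have hne : (𝓝[Ioo a 1] (1 : ℝ)).NeBot := by
            rw [nhdsWithin_Ioo_eq_nhdsLT hab]
            infer_instance
          have hc2 : Tendsto (fun t : ℝ => (t - a) / (D a + c) ^ 2) (𝓝[Ioo a 1] 1)
              (𝓝 ((1 - a) / (D a + c) ^ 2)) :=
            ((continuous_id.sub continuous_const).div_const _).continuousAt.continuousWithinAt
          refine le_of_tendsto_of_tendsto hc2 (hc1.sub_const _) ?_
          filter_upwards [self_mem_nhdsWithin] with t ht
          exact key t ht.1.le ht.2
        · subst hab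
          simp

theorem emw (W : BS) : LevF_4.EMW W := LipG_491.emw W (emg W)

theorem eml0 (W : BS) : FLim_491.EML0 W := LipG_491.eml0 W (emg W)

theorem flim (W : BS) : FLIM W := FLim_491.flim W (eml0 W)

theorem levc (W : BS) : LEVC W := LevF_4.levc (emw W)

theorem levd (W : BS) : LEVD W := LevF_4.levd (emw W)

end Crest.Agent.R146.Emg_288
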