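import Mathlib

/-!
Row 146, package P5, node LIP (att 146-861-1), part B1: freezing lemmas for a sub-σ-algebra and an
independent random variable, and their instance on the natural filtration of a (pre-)Brownian
motion.
-/

set_option autoImplicit false

namespace Crest.Agent.R146.LipB_861

open MeasureTheory ProbabilityTheory Filter Set
open scoped NNReal ENNReal

section Freeze

variable {Ω α β : Type*} [MeasurableSpace α] [MeasurableSpace β] {m mΩ : MeasurableSpace Ω}
  {P : Measure Ω} [IsProbabilityMeasure P]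

theorem map_prod_freeze (hm : m ≤ mΩ) {X : Ω → α} (hX : Measurable[m] X) {Y : Ω → β}
    (hY : Measurable Y) (hind : Indep m (MeasurableSpace.comap Y inferInstance) P) :
    P.map (fun ω => (X ω, Y ω)) = (P.map X).prod (P.map Y) := by
  have hXm : Measurable X := hX.mono hm le_rfl
  have h : IndepFun X Y P := by
    rw [IndepFun_iff_Indep]
    exact indep_of_indep_of_le_left hind hX.comap_le
  exact (indepFun_iff_map_prod_eq_prod_map_map hXm.aemeasurable hY.aemeasurable).1 h

/-- freezing, `ℝ≥0∞`-valued form -/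
theorem lintegral_freeze (hm : m ≤ mΩ) {X : Ω → α} (hX : Measurable[m] X) {Y : Ω → β}
    (hY : Measurable Y) (hind : Indep m (MeasurableSpace.comap Y inferInstance) P)
    {Φ : α × β → ℝ≥0∞} (hΦ : Measurable Φ) :
    ∫⁻ ω, Φ (X ω, Y ω) ∂P = ∫⁻ ω, ∫⁻ y, Φ (X ω, y) ∂(P.map Y) ∂P := by
  have hXm : Measurable X := hX.mono hm le_rfl
  calc ∫⁻ ω, Φ (X ω, Y ω) ∂P
      = ∫⁻ z, Φ z ∂(P.map fun ω => (X ω, Y ω)) := (lintegral_map hΦ (hXm.prodMk hY)).symm
    _ = ∫⁻ x, ∫⁻ y, Φ (x, y) ∂(P.map Y) ∂(P.map X) := by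
        rw [map_prod_freeze hm hX hY hind, lintegral_prod _ hΦ.aemeasurable]
    _ = _ := by rw [lintegral_map (Measurable.lintegral_prod_right' hΦ) hXm]

/-- freezing, real form -/
theorem integral_freeze (hm : m ≤ mΩ) {X : Ω → α} (hX : Measurable[m] X) {Y : Ω → β}
    (hY : Measurable Y) (hind : Indep m (MeasurableSpace.comap Y inferInstance) P)
    {f : α × β → ℝ} (hf : Measurable f) (hint : Integrable (fun ω => f (X ω, Y ω)) P) :
    ∫ ω, f (X ω, Y ω) ∂P = ∫ ω, ∫ y, f (X ω, y) ∂(P.map Y) ∂P ∧
      Integrable (fun ω => ∫ y, f (X ω, y) ∂(P.map Y)) P := by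
  have hXm : Measurable X := hX.mono hm le_rfl
  have : IsProbabilityMeasure (P.map Y) := Measure.isProbabilityMeasure_map hY.aemeasurable
  have : IsProbabilityMeasure (P.map X) := Measure.isProbabilityMeasure_map hXm.aemeasurable
  have hmap := map_prod_freeze hm hX hY hind
  have hi : Integrable f ((P.map X).prod (P.map Y)) := by
    rw [← hmap]
    exact (integrable_map_measure hf.aestronglyMeasurable (hXm.prodMk hY).aemeasurable).2 hint
  have hsm : StronglyMeasurable fun x => ∫ y, f (x, y) ∂(P.map Y) :=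
    hf.stronglyMeasurable.integral_prod_right'
  refine ⟨?_, ?_⟩
  · calc ∫ ω, f (X ω, Y ω) ∂P
        = ∫ z, f z ∂(P.map fun ω => (X ω, Y ω)) :=
          (integral_map (hXm.prodMk hY).aemeasurable hf.aestronglyMeasurable).symm
      _ = ∫ x, ∫ y, f (x, y) ∂(P.map Y) ∂(P.map X) := by rw [hmap, integral_prod _ hi]
      _ = _ := integral_map hXm.aemeasurable hsm.aestronglyMeasurable
  · have := hi.integral_prod_left
    exact (integrable_map_measure hsm.aestronglyMeasurable hXm.aemeasurable).1 this

/-- the conditional expectation of a function of a measurable and an independent variable -/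
theorem condExp_freeze (hm : m ≤ mΩ) {X : Ω → α} (hX : Measurable[m] X) {Y : Ω → β}
    (hY : Measurable Y) (hind : Indep m (MeasurableSpace.comap Y inferInstance) P)
    {f : α × β → ℝ} (hf : Measurable f) (hint : Integrable (fun ω => f (X ω, Y ω)) P) :
    P[fun ω => f (X ω, Y ω) | m] =ᵐ[P] fun ω => ∫ y, f (X ω, y) ∂(P.map Y) := by
  have hsm : StronglyMeasurable fun x => ∫ y, f (x, y) ∂(P.map Y) :=
    hf.stronglyMeasurable.integral_prod_right'
  have hI := (integral_freeze hm hX hY hind hf hint).2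
  refine (ae_eq_condExp_of_forall_setIntegral_eq hm hint (fun s _ _ => hI.integrableOn) ?_
    (hsm.comp_measurable hX).aestronglyMeasurable).symm
  intro s hs _
  have hsm' : MeasurableSet s := hm s hs
  have h1 : Measurable[m] fun ω => (s.indicator (fun _ => (1 : ℝ)) ω, X ω) :=
    (measurable_const.indicator hs).prodMk hX
  have h2 : Measurable fun q : (ℝ × α) × β => q.1.1 * f (q.1.2, q.2) := by fun_prop
  have h3 : Integrable (fun ω => s.indicator (fun _ => (1 : ℝ)) ω * f (X ω, Y ω)) P := by
    have : (fun ω => s.indicator (fun _ => (1 : ℝ)) ω * f (X ω, Y ω))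
        = s.indicator (fun ω => f (X ω, Y ω)) := by
      funext ω; by_cases h : ω ∈ s <;> simp [h]
    rw [this]; exact hint.indicator hsm'
  have h4 := (integral_freeze hm h1 hY hind h2 h3).1
  have e1 : ∀ g : Ω → ℝ, ∫ ω, s.indicator (fun _ => (1 : ℝ)) ω * g ω ∂P = ∫ ω in s, g ω ∂P := by
    intro g
    rw [← integral_indicator hsm']
    refine integral_congr_ae (Eventually.of_forall fun ω => ?_)
    by_cases h : ω ∈ s <;> simp [h]
  rw [← e1, ← e1 (fun ω => f (X ω, Y ω))]
  have h5 : ∫ ω, s.indicator (fun _ => (1 : ℝ)) ω * f (X ω, Y ω) ∂P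
      = ∫ ω, ∫ y, s.indicator (fun _ => (1 : ℝ)) ω * f (X ω, y) ∂(P.map Y) ∂P := h4
  rw [h5]
  refine integral_congr_ae (Eventually.of_forall fun ω => ?_)
  simp only [integral_const_mul]

end Freeze

section Brownian

variable {Ω : Type*} {mΩ : MeasurableSpace Ω} {P : Measure Ω} {B : ℝ≥0 → Ω → ℝ}

/-- the natural σ-algebra of a real process, as the pull-back of the restricted path -/
theorem natural_eq_comap (hBm : ∀ t, Measurable (B t)) (s : ℝ≥0) :
    (Filtration.natural (fun t => B t) fun t => (hBm t).stronglyMeasurable) s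
      = MeasurableSpace.comap (fun ω (t : Set.Iic s) => B t ω) inferInstance := by
  change (⨆ j, ⨆ (_ : j ≤ s), MeasurableSpace.comap (B j) inferInstance) = _
  rw [show (inferInstance : MeasurableSpace (Set.Iic s → ℝ)) = MeasurableSpace.pi from rfl,
    MeasurableSpace.pi, MeasurableSpace.comap_iSup]
  refine le_antisymm ?_ ?_
  · refine iSup₂_le fun j hj => ?_
    refine le_trans ?_ (le_iSup _ (⟨j, hj⟩ : Set.Iic s))
    rw [MeasurableSpace.comap_comp]
    exact le_rfl
  · refine iSup_le fun j => ?_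
    rw [MeasurableSpace.comap_comp]
    exact le_iSup₂_of_le j.1 j.2 le_rfl

theorem indep_incr (hB : IsPreBrownianReal B P) (hBm : ∀ t, Measurable (B t)) {s t : ℝ≥0}
    (hst : s ≤ t) :
    Indep ((Filtration.natural (fun t => B t) fun t => (hBm t).stronglyMeasurable) s)
      (MeasurableSpace.comap (fun ω => B t ω - B s ω) inferInstance) P := by
  rw [natural_eq_comap hBm]
  have h := hB.indepFun_shift s
  have h2 : IndepFun (fun ω => B t ω - B s ω) (fun ω (r : Set.Iic s) => B r ω) P := by
    have hφ : Measurable (fun f : ℝ≥0 → ℝ => f (t - s)) := measurable_pi_apply _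
    have h3 := h.comp hφ (measurable_id (α := Set.Iic s → ℝ))
    have e : (fun f : ℝ≥0 → ℝ => f (t - s)) ∘ (fun ω t => B (s + t) ω - B s ω)
        = fun ω => B t ω - B s ω := by
      funext ω
      simp [add_tsub_cancel_of_le hst]
    rw [e] at h3
    exact h3
  exact ((IndepFun_iff_Indep _ _ _).1 h2).symm

theorem map_incr (hB : IsPreBrownianReal B P) {s t : ℝ≥0} (hst : s ≤ t) :
    P.map (fun ω => B t ω - B s ω) = gaussianReal 0 (t - s) := by
  have h := (hB.hasLaw_sub t s).map_eq
  have e : nndist t.1 s.1 = t - s := by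
    ext
    rw [coe_nndist, NNReal.coe_sub hst, Real.dist_eq]
    exact abs_of_nonneg (sub_nonneg.2 (NNReal.coe_le_coe.2 hst))
  rw [e] at h
  exact h

end Brownian

end Crest.Agent.R146.LipB_861
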