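import Crest.Agent.R146.ProfD_540

/-!
# `L²`-Cauchy sequences of profiles, Helly selection (node B of the split 624)
-/

namespace Crest.Agent.R146.ProfE_540

open Set MeasureTheory Filter Topology
open Crest.Agent.R146.ProfA_540 Crest.Agent.R146.ProfB_540 Crest.Agent.R146.ProfC_540
open Crest.Agent.R146.ProfD_540

section dist

variable {D E : ℝ → ℝ}

lemma sq_integrable (h : Prof D) (k : Prof E) :
    IntervalIntegrable (fun t => (D t - E t) ^ 2) volume 0 1 := by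
  refine ContinuousOn.intervalIntegrable ?_
  rw [uIcc_of_le zero_le_one]
  exact (h.cont.sub k.cont).pow 2

/-- `L²` controls the values: `|D s - E s|³ (1 - s) ≤ 16 C ∫ (D - E)²` -/
theorem cube_le (h : Prof D) (k : Prof E) {C : ℝ} (hC : D 0 ≤ C) (kC : E 0 ≤ C) {s : ℝ}
    (hs : s ∈ Ico (0 : ℝ) 1) :
    |D s - E s| ^ 3 * (1 - s) ≤ 16 * C * ∫ t in (0 : ℝ)..1, (D t - E t) ^ 2 := by
  have hCp : 0 < C := h.pos_zero.trans_le hC
  set δ := |D s - E s| with hδ
  have hδ0 : 0 ≤ δ := abs_nonneg _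
  have h1s : 0 < 1 - s := sub_pos.2 hs.2
  have hsI : s ∈ Icc (0 : ℝ) 1 := Ico_subset_Icc_self hs
  have hδC : δ ≤ C := by
    have a1 := h.nonneg hsI
    have a2 := k.nonneg hsI
    have a3 := (h.le_zero hsI).trans hC
    have a4 := (k.le_zero hsI).trans kC
    rw [hδ, abs_le]; constructor <;> linarith
  rcases eq_or_lt_of_le hδ0 with h0 | h0
  · rw [← h0]
    have : 0 ≤ ∫ t in (0 : ℝ)..1, (D t - E t) ^ 2 := integral_nonneg_Ioo fun t _ => sq_nonneg _
    have : 0 ≤ 16 * C * ∫ t in (0 : ℝ)..1, (D t - E t) ^ 2 := by positivity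
    simpa using this
  -- length of the interval
  set η := δ * (1 - s) / (4 * C) with hη
  have hη0 : 0 < η := by positivity
  have hη1 : η ≤ (1 - s) / 4 := by
    rw [hη, div_le_div_iff₀ (by positivity) (by norm_num)]
    nlinarith
  have hkey : ∀ t ∈ Ioo s (s + η), δ / 2 ≤ |D t - E t| := by
    intro t ht
    have ht1 : t < 1 := by linarith [ht.2]
    have b1 := h.sub_le hs.1 ht.1.le ht1
    have b2 := k.sub_le hs.1 ht.1.le ht1
    have b3 := h.sub_nonneg' hs.1 ht.1.le ht1.le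
    have b4 := k.sub_nonneg' hs.1 ht.1.le ht1.le
    have h1t : 0 < 1 - t := by linarith
    have htI : t ∈ Icc (0 : ℝ) 1 := ⟨hs.1.trans ht.1.le, ht1.le⟩
    have c1 : ∀ F : ℝ → ℝ, Prof F → F 0 ≤ C → (t - s) * (F t / (1 - t)) ≤ δ / 2 := by
      intro F hF hFC
      have d1 : F t ≤ C := (hF.le_zero htI).trans hFC
      have d2 : (1 - s) / 2 ≤ 1 - t := by linarith [ht.2]
      have d0 := hF.nonneg htI
      have d3 : F t / (1 - t) ≤ C / ((1 - s) / 2) := by
        gcongr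
      have d4 : 0 ≤ t - s := by linarith [ht.1]
      have d5 : t - s ≤ η := by linarith [ht.2]
      have d6 : 0 ≤ F t / (1 - t) := by positivity
      calc (t - s) * (F t / (1 - t)) ≤ η * (C / ((1 - s) / 2)) :=
            mul_le_mul d5 d3 d6 hη0.le
        _ = δ / 2 := by rw [hη]; field_simp; ring
    have e1 := c1 D h hC
    have e2 := c1 E k kC
    -- |(D s - E s) - (D t - E t)| ≤ δ / 2
    have f1 : |(D s - E s) - (D t - E t)| ≤ δ / 2 := by
      rw [abs_le]; constructor <;> linarith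
    have f2 := abs_sub_abs_le_abs_sub (D s - E s) (D t - E t)
    rw [← hδ] at f2
    linarith
  have hsub : Ioo s (s + η) ⊆ Ioc (0 : ℝ) 1 := fun t ht =>
    ⟨hs.1.trans_lt ht.1, by linarith [ht.2]⟩
  have h1 : ∀ t ∈ Ioo (0 : ℝ) 1,
      (Ioo s (s + η)).indicator (fun _ => (δ / 2) ^ 2) t ≤ (D t - E t) ^ 2 := by
    intro t _
    by_cases ht : t ∈ Ioo s (s + η)
    · rw [indicator_of_mem ht, ← sq_abs (D t - E t)]
      have := hkey t ht
      gcongr
    · rw [indicator_of_notMem ht]; positivity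
  have hint : IntervalIntegrable ((Ioo s (s + η)).indicator (fun _ => (δ / 2) ^ 2)) volume 0 1 := by
    rw [intervalIntegrable_iff']
    exact (integrable_const _).indicator measurableSet_Ioo
  have h2 := integral_mono_Ioo hint (sq_integrable h k) h1
  have h3 : ∫ t in (0 : ℝ)..1, (Ioo s (s + η)).indicator (fun _ => (δ / 2) ^ 2) t
      = η * (δ / 2) ^ 2 := by
    rw [ProfC_540.integral_eq, integral_indicator measurableSet_Ioo,
      Measure.restrict_restrict measurableSet_Ioo, inter_eq_left.2 hsub, setIntegral_const,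
      Measure.real, Real.volume_Ioo, smul_eq_mul, add_sub_cancel_left,
      ENNReal.toReal_ofReal hη0.le]
  rw [h3] at h2
  have h4 : η * (δ / 2) ^ 2 = δ ^ 3 * (1 - s) / (16 * C) := by rw [hη]; field_simp; ring
  rw [h4, div_le_iff₀ (by positivity)] at h2
  linarith

lemma cube_root_bound {a b : ℝ} (hb : 0 < b) (h : a ^ 3 ≤ b ^ 3) : a ≤ b := by
  by_contra hc
  push Not at hc
  have : b ^ 3 < a ^ 3 := by gcongr
  linarith

end dist

/-- an `L²`-Cauchy family of bounded profiles converges locally uniformly on `[0,1)`; the limit is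
a profile as soon as the values at `0` stay away from `0`. -/
theorem tendsto_of_cauchy {Dn : ℕ → ℝ → ℝ} (hn : ∀ n, Prof (Dn n)) {C c : ℝ} (hC : ∀ n, Dn n 0 ≤ C)
    (hc : 0 < c) (hlow : ∀ n, c ≤ Dn n 0)
    (hcau : ∀ ε > 0, ∃ N, ∀ m ≥ N, ∀ n ≥ N, ∫ t in (0 : ℝ)..1, (Dn m t - Dn n t) ^ 2 ≤ ε) :
    ∃ D : ℝ → ℝ, Prof D ∧ (∀ t ∈ Ico (0 : ℝ) 1, Tendsto (fun n => Dn n t) atTop (𝓝 (D t))) ∧
      ∀ T < (1 : ℝ), TendstoUniformlyOn Dn D atTop (Icc 0 T) := by
  have hCp : 0 < C := (hn 0).pos_zero.trans_le (hC 0)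
  -- uniform Cauchy on `[0,T]`
  have hU : ∀ T < (1 : ℝ), ∀ ε > 0, ∃ N, ∀ m ≥ N, ∀ n ≥ N, ∀ s ∈ Icc 0 T,
      |Dn m s - Dn n s| ≤ ε := by
    intro T hT ε hε
    have hT' : 0 < 1 - T := by linarith
    obtain ⟨N, hN⟩ := hcau (ε ^ 3 * (1 - T) / (16 * C)) (by positivity)
    refine ⟨N, fun m hm n hn' s hs => ?_⟩
    have h1 := cube_le (hn m) (hn n) (hC m) (hC n) (s := s) ⟨hs.1, hs.2.trans_lt hT⟩
    have h2 := hN m hm n hn'
    have h3 : |Dn m s - Dn n s| ^ 3 * (1 - T) ≤ ε ^ 3 * (1 - T) := by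
      calc |Dn m s - Dn n s| ^ 3 * (1 - T) ≤ |Dn m s - Dn n s| ^ 3 * (1 - s) := by
            have := hs.2
            gcongr
        _ ≤ 16 * C * ∫ t in (0 : ℝ)..1, (Dn m t - Dn n t) ^ 2 := h1
        _ ≤ 16 * C * (ε ^ 3 * (1 - T) / (16 * C)) := by gcongr
        _ = ε ^ 3 * (1 - T) := by field_simp
    have h4 : |Dn m s - Dn n s| ^ 3 ≤ ε ^ 3 := le_of_mul_le_mul_right h3 hT'
    exact cube_root_bound hε h4
  have hpt : ∀ t ∈ Ico (0 : ℝ) 1, ∃ x, Tendsto (fun n => Dn n t) atTop (𝓝 x) := by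
    intro t ht
    refine cauchySeq_tendsto_of_complete ?_
    rw [Metric.cauchySeq_iff]
    intro ε hε
    obtain ⟨N, hN⟩ := hU t ht.2 (ε / 2) (by positivity)
    refine ⟨N, fun m hm n hn' => ?_⟩
    rw [Real.dist_eq]
    have := hN m hm n hn' t ⟨ht.1, le_rfl⟩
    linarith
  choose! F hF using hpt
  obtain ⟨D, hD, hDF⟩ := prof_of_tendsto (l := atTop) (Eventually.of_forall hn) hc
    (Eventually.of_forall hlow) hF
  have hlim : ∀ t ∈ Ico (0 : ℝ) 1, Tendsto (fun n => Dn n t) atTop (𝓝 (D t)) := fun t ht => by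
    rw [hDF t ht]; exact hF t ht
  refine ⟨D, hD, hlim, fun T hT => ?_⟩
  rw [Metric.tendstoUniformlyOn_iff]
  intro ε hε
  obtain ⟨N, hN⟩ := hU T hT (ε / 2) (by positivity)
  filter_upwards [eventually_ge_atTop N] with n hn' s hs
  have h1 : Tendsto (fun m => |Dn m s - Dn n s|) atTop (𝓝 |D s - Dn n s|) :=
    ((hlim s ⟨hs.1, hs.2.trans_lt hT⟩).sub tendsto_const_nhds).abs
  have h2 : |D s - Dn n s| ≤ ε / 2 := by
    refine le_of_tendsto h1 ?_
    filter_upwards [eventually_ge_atTop N] with m hm using hN m hm n hn' s hs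
  rw [Real.dist_eq]
  linarith

/-- pointwise convergence of profiles on `[0,1)` is locally uniform (any filter) -/
theorem tendstoUniformlyOn_of_tendsto {ι : Type*} {l : Filter ι} {Dn : ι → ℝ → ℝ} {D : ℝ → ℝ}
    (hn : ∀ᶠ i in l, Prof (Dn i)) {C : ℝ} (hC : ∀ᶠ i in l, Dn i 0 ≤ C) (hD : Prof D)
    (hlim : ∀ t ∈ Ico (0 : ℝ) 1, Tendsto (fun i => Dn i t) l (𝓝 (D t))) {T : ℝ} (hT : T < 1) :
    TendstoUniformlyOn Dn D l (Icc 0 T) := by
  rw [Metric.tendstoUniformlyOn_iff]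
  intro ε hε
  rcases lt_or_ge T 0 with hT0 | hT0
  · rw [Icc_eq_empty (not_le.2 hT0)]
    exact Eventually.of_forall fun i s hs => absurd hs (notMem_empty s)
  -- grid
  set B := max C (D 0) + 1 with hB
  have hBp : 0 < B := by
    have := hD.pos_zero
    have := le_max_right C (D 0)
    linarith
  have h1T : 0 < 1 - T := by linarith
  obtain ⟨n, hnn⟩ := exists_nat_gt (4 * B / ((1 - T) * ε))
  have hnp : (0 : ℝ) < n := lt_of_le_of_lt (by positivity) hnn
  have hn0 : n ≠ 0 := by rintro rfl; simp at hnp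
  -- grid points `k T / n`
  have hgrid : ∀ k ∈ Finset.range (n + 1), ∀ᶠ i in l,
      |Dn i (k * (T / n)) - D (k * (T / n))| < ε / 4 := by
    intro k hk
    have hk' : (k : ℝ) ≤ n := by exact_mod_cast Nat.lt_succ_iff.1 (Finset.mem_range.1 hk)
    have hm : (k : ℝ) * (T / n) ∈ Ico (0 : ℝ) 1 := by
      constructor
      · positivity
      · calc (k : ℝ) * (T / n) ≤ n * (T / n) := by gcongr
          _ = T := by field_simp
          _ < 1 := hT
    have := (hlim _ hm)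
    rw [Metric.tendsto_nhds] at this
    filter_upwards [this (ε / 4) (by positivity)] with i hi
    rwa [Real.dist_eq] at hi
  rw [← Filter.eventually_all_finset] at hgrid
  filter_upwards [hgrid, hn, hC] with i hi hni hCi s hs
  -- nearest grid point to the left
  set k := ⌊s * n / T⌋₊ with hk
  rcases eq_or_lt_of_le hT0 with hT00 | hT00
  · have hs0 : s = 0 := le_antisymm (hs.2.trans hT00.symm.le) hs.1
    have h1 := hi 0 (Finset.mem_range.2 (Nat.succ_pos n))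
    simp only [Nat.cast_zero, zero_mul] at h1
    rw [hs0, Real.dist_eq, abs_sub_comm]
    linarith
  have hsn : 0 ≤ s * n / T := by have := hs.1; positivity
  have hk1 : (k : ℝ) ≤ s * n / T := Nat.floor_le hsn
  have hk2 : s * n / T < k + 1 := Nat.lt_floor_add_one _
  have hkn : (k : ℝ) ≤ n := by
    refine hk1.trans ?_
    rw [div_le_iff₀ hT00]
    have := hs.2
    nlinarith
  have hkn' : k ∈ Finset.range (n + 1) :=
    Finset.mem_range.2 (Nat.lt_succ_iff.2 (by exact_mod_cast hkn))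
  set g := (k : ℝ) * (T / n) with hg
  have hgs : g ≤ s := by
    rw [hg, mul_div_assoc', div_le_iff₀ hnp]
    rwa [le_div_iff₀ hT00] at hk1
  have hgs2 : s - g ≤ T / n := by
    rw [div_lt_iff₀ hT00] at hk2
    have e1 : T / n + (k : ℝ) * (T / n) = ((k : ℝ) + 1) * T / n := by ring
    rw [hg, sub_le_iff_le_add, e1, le_div_iff₀ hnp]
    linarith
  have hg0 : 0 ≤ g := by positivity
  have hs1 : s < 1 := hs.2.trans_lt hT
  have hlip : ∀ F : ℝ → ℝ, Prof F → F 0 ≤ B → |F g - F s| ≤ ε / 4 := by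
    intro F hF hFB
    have b1 := hF.sub_le hg0 hgs hs1
    have b2 := hF.sub_nonneg' hg0 hgs hs1.le
    rw [abs_of_nonneg b2]
    have b3 : F s / (1 - s) ≤ B / (1 - T) := by
      have c1 := hF.nonneg (t := s) ⟨hs.1, hs1.le⟩
      have c2 := (hF.le_zero (t := s) ⟨hs.1, hs1.le⟩).trans hFB
      have c3 : 1 - T ≤ 1 - s := by linarith [hs.2]
      gcongr
    have b4 : 0 ≤ F s / (1 - s) := by
      have c1 := hF.nonneg (t := s) ⟨hs.1, hs1.le⟩
      have c2 : 0 < 1 - s := by linarith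
      positivity
    calc F g - F s ≤ (s - g) * (F s / (1 - s)) := b1
      _ ≤ (T / n) * (B / (1 - T)) := mul_le_mul hgs2 b3 b4 (by positivity)
      _ ≤ (1 / n) * (B / (1 - T)) := by gcongr
      _ ≤ ε / 4 := by
        rw [div_lt_iff₀ (by positivity)] at hnn
        rw [one_div_mul_eq_div, div_div, div_le_div_iff₀ (by positivity) (by norm_num)]
        nlinarith
  have h1 := hlip (Dn i) hni (hCi.trans (by linarith [le_max_left C (D 0)]))
  have h2 := hlip D hD (by linarith [le_max_right C (D 0)])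
  have h3 := hi k hkn'
  rw [Real.dist_eq, abs_sub_comm]
  calc |Dn i s - D s| = |(Dn i g - D g) - (Dn i g - Dn i s) + (D g - D s)| := by ring_nf
    _ ≤ |(Dn i g - D g) - (Dn i g - Dn i s)| + |D g - D s| := abs_add_le _ _
    _ ≤ |Dn i g - D g| + |Dn i g - Dn i s| + |D g - D s| := by
        have := abs_sub (Dn i g - D g) (Dn i g - Dn i s)
        linarith
    _ < ε := by linarith

/-- Helly selection for bounded profiles (with values at `0` away from `0`) -/
theorem exists_subseq {Dn : ℕ → ℝ → ℝ} (hn : ∀ n, Prof (Dn n)) {C c : ℝ} (hC : ∀ n, Dn n 0 ≤ C)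
    (hc : 0 < c) (hlow : ∀ n, c ≤ Dn n 0) :
    ∃ (φ : ℕ → ℕ) (D : ℝ → ℝ), StrictMono φ ∧ Prof D ∧
      ∀ t ∈ Ico (0 : ℝ) 1, Tendsto (fun n => Dn (φ n) t) atTop (𝓝 (D t)) := by
  set ρ : ℚ → ℝ := fun r => max 0 (min (r : ℝ) 1) with hρ
  have hρI : ∀ r, ρ r ∈ Icc (0 : ℝ) 1 := fun r =>
    ⟨le_max_left _ _, max_le zero_le_one (min_le_right _ _)⟩
  have hK : IsCompact (Set.pi univ (fun _ : ℚ => Icc (0 : ℝ) C)) :=
    isCompact_univ_pi fun _ => isCompact_Icc
  obtain ⟨x, _, φ, hφ, hx⟩ := hK.tendsto_subseq (x := fun n => fun r : ℚ => Dn n (ρ r))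
    (fun n r _ => ⟨(hn n).nonneg (hρI r), ((hn n).le_zero (hρI r)).trans (hC n)⟩)
  have hx' : ∀ r : ℚ, Tendsto (fun n => Dn (φ n) (ρ r)) atTop (𝓝 (x r)) := fun r =>
    (tendsto_pi_nhds.1 hx) r
  have hCp : 0 < C := (hn 0).pos_zero.trans_le (hC 0)
  have hpt : ∀ t ∈ Ico (0 : ℝ) 1, ∃ y, Tendsto (fun n => Dn (φ n) t) atTop (𝓝 y) := by
    intro t ht
    refine cauchySeq_tendsto_of_complete ?_
    rw [Metric.cauchySeq_iff]
    intro ε hε
    have h1t : 0 < 1 - t := sub_pos.2 ht.2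
    have hδ : 0 < min ((1 - t) / 2) (ε * (1 - t) / (8 * C)) := by positivity
    obtain ⟨r, hr1, hr2⟩ := exists_rat_btwn
      (show t < t + min ((1 - t) / 2) (ε * (1 - t) / (8 * C)) by linarith)
    have hr3 : (r : ℝ) < t + (1 - t) / 2 := hr2.trans_le (by gcongr; exact min_le_left _ _)
    have hr4 : (r : ℝ) < t + ε * (1 - t) / (8 * C) :=
      hr2.trans_le (by gcongr; exact min_le_right _ _)
    have hr5 : (r : ℝ) < 1 := by linarith
    have hρr : ρ r = r := by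
      rw [hρ]
      simp only
      rw [min_eq_left hr5.le, max_eq_right (ht.1.trans hr1.le)]
    have hlip : ∀ n, |Dn n t - Dn n (ρ r)| ≤ ε / 4 := by
      intro n
      rw [hρr]
      have b1 := (hn n).sub_le ht.1 hr1.le hr5
      have b2 := (hn n).sub_nonneg' ht.1 hr1.le hr5.le
      rw [abs_of_nonneg b2]
      have hrI : (r : ℝ) ∈ Icc (0 : ℝ) 1 := ⟨ht.1.trans hr1.le, hr5.le⟩
      have b3 : Dn n r / (1 - r) ≤ C / ((1 - t) / 2) := by
        have c1 := (hn n).nonneg hrI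
        have c2 := ((hn n).le_zero hrI).trans (hC n)
        have c3 : (1 - t) / 2 ≤ 1 - r := by linarith
        gcongr
      have b4 : 0 ≤ Dn n r / (1 - r) := by
        have c1 := (hn n).nonneg hrI
        have c2 : 0 < 1 - (r : ℝ) := by linarith
        positivity
      have b5 : (r : ℝ) - t ≤ ε * (1 - t) / (8 * C) := by linarith
      calc Dn n t - Dn n r ≤ (r - t) * (Dn n r / (1 - r)) := b1
        _ ≤ (ε * (1 - t) / (8 * C)) * (C / ((1 - t) / 2)) :=
            mul_le_mul b5 b3 b4 (by positivity)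
        _ = ε / 4 := by field_simp; ring
    have hcr : CauchySeq (fun n => Dn (φ n) (ρ r)) := (hx' r).cauchySeq
    rw [Metric.cauchySeq_iff] at hcr
    obtain ⟨N, hN⟩ := hcr (ε / 4) (by positivity)
    refine ⟨N, fun m hm n hn' => ?_⟩
    have h1 := hN m hm n hn'
    rw [Real.dist_eq] at h1 ⊢
    have h2 := hlip (φ m)
    have h3 := hlip (φ n)
    rw [abs_le] at h2 h3
    rw [abs_lt] at h1 ⊢
    constructor <;> linarith
  choose! F hF using hpt
  obtain ⟨D, hD, hDF⟩ := prof_of_tendsto (l := atTop) (Dn := fun n => Dn (φ n))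
    (Eventually.of_forall fun n => hn (φ n)) hc (Eventually.of_forall fun n => hlow (φ n)) hF
  exact ⟨φ, D, hφ, hD, fun t ht => by rw [hDF t ht]; exact hF t ht⟩

/-- existence of limits of admissible `L²`-Cauchy sequences with convergent entropy bounds -/
theorem adm_limit {e : ℝ} {Dn : ℕ → ℝ → ℝ} (hn : ∀ n, Adm e (Dn n)) {C : ℝ} (hC : ∀ n, Dn n 0 ≤ C)
    {Kn : ℕ → ℝ} {K : ℝ} (hK : ∀ n, Ent e (Dn n) ≤ Kn n) (hKn : Tendsto Kn atTop (𝓝 K))
    (hcau : ∀ ε > 0, ∃ N, ∀ m ≥ N, ∀ n ≥ N, ∫ t in (0 : ℝ)..1, (Dn m t - Dn n t) ^ 2 ≤ ε) :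
    ∃ D : ℝ → ℝ, Adm e D ∧ Ent e D ≤ K ∧ D 0 ≤ C ∧
      (∀ t ∈ Ico (0 : ℝ) 1, Tendsto (fun n => Dn n t) atTop (𝓝 (D t))) ∧
      ∀ T < (1 : ℝ), TendstoUniformlyOn Dn D atTop (Icc 0 T) := by
  obtain ⟨B, hB⟩ := hKn.bddAbove_range
  have hKB : ∀ n, Ent e (Dn n) ≤ B := fun n => (hK n).trans (hB ⟨n, rfl⟩)
  have h0 := lower_at_zero (hn 0) (hKB 0)
  obtain ⟨D, hD, hlim, hunif⟩ := tendsto_of_cauchy (fun n => (hn n).prof) hC
    (c := 1 / (2 * (e + 2 * B))) (by have := h0.1; positivity)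
    (fun n => (lower_at_zero (hn n) (hKB n)).2) hcau
  obtain ⟨h1, h2⟩ := Ent_lsc hn hD (fun t ht => hlim t (Ioo_sub_Ico ht)) hK hKn
  exact ⟨D, h1, h2, le_of_tendsto' (hlim 0 ⟨le_rfl, zero_lt_one⟩) hC, hlim, hunif⟩

/-- two profiles that agree on `[0,1)` agree on `[0,1]` -/
lemma Prof.eq_of_eqOn {D E : ℝ → ℝ} (h : Prof D) (k : Prof E)
    (heq : ∀ t ∈ Ico (0 : ℝ) 1, D t = E t) : ∀ t ∈ Icc (0 : ℝ) 1, D t = E t := by
  intro t ht
  rcases eq_or_lt_of_le ht.2 with h1 | h1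
  · have hI : (1 : ℝ) ∈ Icc (0 : ℝ) 1 := ⟨zero_le_one, le_rfl⟩
    have hne : (𝓝[Ico (0 : ℝ) 1] (1 : ℝ)).NeBot := by
      rw [← mem_closure_iff_nhdsWithin_neBot, closure_Ico (zero_ne_one)]
      exact hI
    have t1 : Tendsto D (𝓝[Ico (0 : ℝ) 1] 1) (𝓝 (D 1)) :=
      (h.cont 1 hI).mono_left (nhdsWithin_mono _ Ico_subset_Icc_self)
    have t2 : Tendsto E (𝓝[Ico (0 : ℝ) 1] 1) (𝓝 (E 1)) :=
      (k.cont 1 hI).mono_left (nhdsWithin_mono _ Ico_subset_Icc_self)
    rw [h1]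
    refine tendsto_nhds_unique t1 (t2.congr' ?_)
    filter_upwards [self_mem_nhdsWithin] with s hs using (heq s hs).symm
  · exact heq t ⟨ht.1, h1⟩

/-- `∫ (D - E)² = 0` forces equality on `[0,1]` -/
lemma Prof.eq_of_integral_zero {D E : ℝ → ℝ} (h : Prof D) (k : Prof E)
    (h0 : ∫ t in (0 : ℝ)..1, (D t - E t) ^ 2 ≤ 0) : ∀ t ∈ Icc (0 : ℝ) 1, D t = E t := by
  refine Prof.eq_of_eqOn h k fun t ht => ?_
  have h1 := cube_le h k (le_max_left (D 0) (E 0)) (le_max_right (D 0) (E 0)) ht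
  have h2 : 0 < max (D 0) (E 0) := h.pos_zero.trans_le (le_max_left _ _)
  have h3 : |D t - E t| ^ 3 * (1 - t) ≤ 0 := by
    refine h1.trans ?_
    have : 0 ≤ 16 * max (D 0) (E 0) := by positivity
    nlinarith
  have h4 : 0 < 1 - t := sub_pos.2 ht.2
  have h5 : |D t - E t| ^ 3 ≤ 0 := by
    by_contra hc
    push Not at hc
    have := mul_pos hc h4
    linarith
  have h6 : |D t - E t| = 0 := by
    have h7 : 0 ≤ |D t - E t| := abs_nonneg _
    by_contra hc
    have : 0 < |D t - E t| := lt_of_le_of_ne h7 (Ne.symm hc)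
    have : 0 < |D t - E t| ^ 3 := by positivity
    linarith
  have := abs_eq_zero.1 h6
  linarith

end Crest.Agent.R146.ProfE_540
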