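import Crest.Agent.R146.NormF2_491
import Crest.Agent.R146.ProfE_540

/-!
Row 146, package P5, node F (helper491): the reduced norm
`Nf R x = inf_D ½ (Q D x + Ent 0 D)` satisfies `RedNorm` ((C1), (C2) at `e = 0`).
-/

set_option autoImplicit false

namespace Crest.Agent.R146.NormF3_491

open Set Filter Topology MeasureTheory
open scoped RealInnerProductSpace
open Crest.Agent.R146 Crest.Agent.R146.Hilb Crest.Agent.R146.HilbE Crest.Agent.R146.ProfB_540
open Crest.Agent.R146.NormF1_491 Crest.Agent.R146.NormF2_491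

variable {H : Type*} [NormedAddCommGroup H] [InnerProductSpace ℝ H] [CompleteSpace H]

/-- values of admissible profiles -/
def vals (R : Res H) (x : H) : Set ℝ := {r | ∃ D, Adm 0 D ∧ r = val R x D}

/-- the reduced norm -/
noncomputable def Nf (R : Res H) (x : H) : ℝ := sInf (vals R x)

lemma val_nonneg (R : Res H) (x : H) {D : ℝ → ℝ} (hD : Adm 0 D) : 0 ≤ val R x D := by
  unfold val
  have h1 := R.Q_nonneg hD.prof.cont (fun t ht => hD.prof.nonneg ht) x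
  have h2 := ProfC_540.Ent_nonneg hD
  linarith

lemma bdd (R : Res H) (x : H) : BddBelow (vals R x) :=
  ⟨0, by rintro _ ⟨D, hD, rfl⟩; exact val_nonneg R x hD⟩

omit [CompleteSpace H] in
lemma vals_ne (R : Res H) (x : H) : (vals R x).Nonempty :=
  ⟨_, fun _ => 1, (ProfC_540.Adm.const one_pos).1, rfl⟩

lemma Nf_le (R : Res H) (x : H) {D : ℝ → ℝ} (hD : Adm 0 D) : Nf R x ≤ val R x D :=
  csInf_le (bdd R x) ⟨D, hD, rfl⟩

lemma Nf_nonneg (R : Res H) (x : H) : 0 ≤ Nf R x :=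
  le_csInf (vals_ne R x) (by rintro _ ⟨D, hD, rfl⟩; exact val_nonneg R x hD)

lemma exists_lt (R : Res H) (x : H) {δ : ℝ} (hδ : 0 < δ) :
    ∃ D, Adm 0 D ∧ val R x D < Nf R x + δ := by
  obtain ⟨_, ⟨D, hD, rfl⟩, h⟩ := exists_lt_of_csInf_lt (vals_ne R x)
    (show sInf (vals R x) < Nf R x + δ by unfold Nf; linarith)
  exact ⟨D, hD, h⟩

lemma val_const (R : Res H) (x : H) {c : ℝ} (hc : 0 < c) :
    val R x (fun _ => c) = 1 / 2 * (c * ‖x‖ ^ 2 + 1 / c) := by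
  unfold val
  rw [R.Q_const, (ProfC_540.Adm.const hc).2]

lemma Nf_zero (R : Res H) : Nf R (0 : H) = 0 := by
  refine le_antisymm ?_ (Nf_nonneg R 0)
  refine le_of_forall_pos_le_add fun δ hδ => ?_
  have h1 := Nf_le R (0 : H) (ProfC_540.Adm.const (show 0 < 1 / (2 * δ) by positivity)).1
  rw [val_const R 0 (by positivity)] at h1
  have e : 1 / 2 * (1 / (2 * δ) * ‖(0 : H)‖ ^ 2 + 1 / (1 / (2 * δ))) = δ := by
    rw [norm_zero]
    field_simp
    ring
  rw [e] at h1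
  linarith

lemma Nf_le_norm (R : Res H) (x : H) : Nf R x ≤ ‖x‖ := by
  by_cases hx : x = 0
  · subst hx
    rw [Nf_zero, norm_zero]
  · have hn : 0 < ‖x‖ := norm_pos_iff.2 hx
    have h1 := Nf_le R x (ProfC_540.Adm.const (show 0 < 1 / ‖x‖ by positivity)).1
    rw [val_const R x (by positivity)] at h1
    have e : 1 / 2 * (1 / ‖x‖ * ‖x‖ ^ 2 + 1 / (1 / ‖x‖)) = ‖x‖ := by
      field_simp
      ring
    rwa [e] at h1

lemma Nf_smul (R : Res H) {t : ℝ} (ht : 0 ≤ t) (x : H) : Nf R (t • x) = t * Nf R x := by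
  have key : ∀ (s : ℝ), 0 < s → ∀ y : H, Nf R (s • y) ≤ s * Nf R y := by
    intro s hs y
    refine le_of_forall_pos_le_add fun δ hδ => ?_
    obtain ⟨D, hD, h⟩ := exists_lt R y (show 0 < δ / s by positivity)
    have h1 := Nf_le R (s • y) (adm_smul hD (inv_pos.2 hs))
    rw [val_smul R hs y hD] at h1
    have h2 : s * val R y D ≤ s * (Nf R y + δ / s) := mul_le_mul_of_nonneg_left h.le hs.le
    have h3 : s * (Nf R y + δ / s) = s * Nf R y + δ := by field_simp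
    linarith
  rcases ht.eq_or_lt with h0 | h0
  · rw [← h0, zero_smul, Nf_zero, zero_mul]
  · refine le_antisymm (key t h0 x) ?_
    have h1 := key t⁻¹ (inv_pos.2 h0) (t • x)
    rw [smul_smul, inv_mul_cancel₀ h0.ne', one_smul] at h1
    have h2 := mul_le_mul_of_nonneg_left h1 h0.le
    rw [← mul_assoc, mul_inv_cancel₀ h0.ne', one_mul] at h2
    exact h2

lemma val_par (R : Res H) (x y : H) {D E : ℝ → ℝ} (hD : Adm 0 D) (hE : Adm 0 E) :
    Adm 0 (par D E) ∧ val R (x + y) (par D E) ≤ val R x D + val R y E := by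
  have h1 := ProfC_540.Adm.par hD hE
  rw [add_zero] at h1
  refine ⟨h1.1, ?_⟩
  have hcp : ContinuousOn (par D E) (Icc 0 1) := h1.1.prof.cont
  have hc2 : ContinuousOn (fun t => 2 * par D E t) (Icc 0 1) := hcp.const_smul (2 : ℝ)
  have h2 := R.Q_harm_mid (f := fun t => 2 * par D E t) hc2 hD.prof.cont hE.prof.cont
    hD.prof.pos hE.prof.pos (fun t _ => by
      unfold par ProfA_540.psum
      exact le_of_eq (by ring)) x y
  rw [R.Q_smul_vec, R.Q_smul hcp] at h2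
  unfold val
  rw [h1.2]
  linarith

lemma Nf_add (R : Res H) (x y : H) : Nf R (x + y) ≤ Nf R x + Nf R y := by
  refine le_of_forall_pos_le_add fun δ hδ => ?_
  obtain ⟨D, hD, h⟩ := exists_lt R x (show 0 < δ / 2 by positivity)
  obtain ⟨E, hE, k⟩ := exists_lt R y (show 0 < δ / 2 by positivity)
  obtain ⟨h1, h2⟩ := val_par R x y hD hE
  have h3 := Nf_le R (x + y) h1
  linarith

lemma subLin (R : Res H) : SubLin (Nf R) where
  smul := fun t ht x => Nf_smul R ht x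
  add := Nf_add R
  le := Nf_le_norm R

lemma val_ge (R : Res H) (x : H) {D : ℝ → ℝ} (hD : Adm 0 D) : ‖R.P 0 x‖ ≤ val R x D := by
  have h1 := R.Q_ge_norm_P hD.prof.cont hD.prof.anti hD.prof.one (t := 0)
    ⟨le_rfl, zero_le_one⟩ x
  have h2 := ProfD_540.one_le_zero_mul_Ent hD
  have h3 : 0 < D 0 := hD.prof.pos_zero
  have h4 : 1 / D 0 ≤ Ent 0 D := by
    rw [div_le_iff₀ h3]; linarith
  unfold val
  set p := ‖R.P 0 x‖ with hp
  have h5 : 2 * p ≤ D 0 * p ^ 2 + 1 / D 0 := by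
    have e : D 0 * p ^ 2 + 1 / D 0 - 2 * p = (D 0 * p - 1) ^ 2 / D 0 := by
      field_simp
      ring
    have : 0 ≤ (D 0 * p - 1) ^ 2 / D 0 := by positivity
    linarith
  linarith

lemma Nf_ge (R : Res H) (x : H) : ‖R.P 0 x‖ ≤ Nf R x :=
  le_csInf (vals_ne R x) (by rintro _ ⟨D, hD, rfl⟩; exact val_ge R x hD)

/-- strict convexity in the profile -/
lemma val_mean (R : Res H) (x : H) {D E : ℝ → ℝ} (hD : Adm 0 D) (hE : Adm 0 E) {C : ℝ}
    (hC : D 0 ≤ C) (hC' : E 0 ≤ C) :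
    Nf R x + (∫ t in (0 : ℝ)..1, (D t - E t) ^ 2) / (8 * C ^ 3) ≤ (val R x D + val R x E) / 2 := by
  obtain ⟨h1, h2⟩ := ProfC_540.Adm.amean hD hE hC hC'
  have h3 := Nf_le R x h1
  have hq : R.Q (amean D E) x = (R.Q D x + R.Q E x) / 2 := by
    have e1 : amean D E = fun t => (1 / 2 : ℝ) * (D t + E t) := by
      funext t
      unfold amean
      ring
    have e2 := R.Q_smul (g := fun t => D t + E t) (hD.prof.cont.add hE.prof.cont) (1 / 2 : ℝ) x
    rw [e1, e2, R.Q_add hD.prof.cont hE.prof.cont]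
    ring
  unfold val at h3 ⊢
  rw [hq] at h3
  have hCp : 0 < C := hD.prof.pos_zero.trans_le hC
  have e2 : (∫ t in (0 : ℝ)..1, (D t - E t) ^ 2) / (8 * C ^ 3)
      = 1 / 2 * ((∫ t in (0 : ℝ)..1, (D t - E t) ^ 2) / (4 * C ^ 3)) := by
    field_simp
    ring
  rw [e2]
  linarith

/-- a bound for `D 0` from the value, uniform near a non-zero `x`. -/
lemma D0_bound (R : Res H) {x : H} (hx : x ≠ 0) : ∃ r : ℝ, 0 < r ∧ ∃ k : ℝ, 0 < k ∧
    ∀ y : H, ‖y - x‖ ≤ r → ∀ D, Adm 0 D → D 0 ≤ k * val R y D := by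
  have hn : 0 < ‖x‖ := norm_pos_iff.2 hx
  have h1 : ∀ᶠ t in 𝓝[<] (1 : ℝ), ‖x‖ / 2 < ‖R.P t x‖ :=
    (R.left x).norm.eventually (lt_mem_nhds (by linarith))
  have h2 : ∀ᶠ t in 𝓝[<] (1 : ℝ), t ∈ Ico (0 : ℝ) 1 := by
    filter_upwards [Ioo_mem_nhdsLT (show (0 : ℝ) < 1 by norm_num)] with t ht
    exact ⟨ht.1.le, ht.2⟩
  obtain ⟨t, h3, h4⟩ := (h1.and h2).exists
  have h1t : 0 < 1 - t := by linarith [h4.2]
  refine ⟨‖x‖ / 4, by positivity, 2 / ((1 - t) * (‖x‖ / 4) ^ 2), by positivity, ?_⟩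
  intro y hy D hD
  have h5 : ‖x‖ / 4 ≤ ‖R.P t y‖ := by
    have e1 : R.P t x = R.P t y - R.P t (y - x) := by rw [map_sub]; abel
    have e2 : ‖R.P t x‖ ≤ ‖R.P t y‖ + ‖R.P t (y - x)‖ := by
      rw [e1]; exact norm_sub_le _ _
    have e3 := R.norm_P_le h4.2.le (y - x)
    linarith
  have ht1 : t ∈ Icc (0 : ℝ) 1 := ⟨h4.1, h4.2.le⟩
  have h6 := R.Q_ge_norm_P hD.prof.cont hD.prof.anti hD.prof.one ht1 y
  have h7 := hD.prof.lower ht1
  have h8 := ProfC_540.Ent_nonneg hD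
  have h9 : D t * (‖x‖ / 4) ^ 2 ≤ D t * ‖R.P t y‖ ^ 2 := by
    apply mul_le_mul_of_nonneg_left _ (hD.prof.nonneg ht1)
    exact pow_le_pow_left₀ (by positivity) h5 2
  have h10 : D 0 * ((1 - t) * (‖x‖ / 4) ^ 2) ≤ 2 * val R y D := by
    unfold val
    have : (1 - t) * D 0 * (‖x‖ / 4) ^ 2 ≤ D t * (‖x‖ / 4) ^ 2 :=
      mul_le_mul_of_nonneg_right h7 (by positivity)
    nlinarith
  rw [← le_div_iff₀ (by positivity)] at h10
  calc D 0 ≤ 2 * val R y D / ((1 - t) * (‖x‖ / 4) ^ 2) := h10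
    _ = 2 / ((1 - t) * (‖x‖ / 4) ^ 2) * val R y D := by ring

/-- existence of the optimal profile -/
lemma attained (R : Res H) {x : H} (hx : x ≠ 0) : ∃ D, Adm 0 D ∧ val R x D = Nf R x := by
  obtain ⟨r, hr, k, hk, hb⟩ := D0_bound R hx
  have hex : ∀ n : ℕ, ∃ D, Adm 0 D ∧ val R x D < Nf R x + 1 / ((n : ℝ) + 1) := fun n =>
    exists_lt R x (by positivity)
  choose Dn hDn hval using hex
  set C : ℝ := k * (Nf R x + 1) with hC
  have hDC : ∀ n, Dn n 0 ≤ C := by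
    intro n
    have h1 := hb x (by simpa using hr.le) (Dn n) (hDn n)
    have h2 : val R x (Dn n) ≤ Nf R x + 1 := by
      have : 1 / ((n : ℝ) + 1) ≤ 1 := by
        rw [div_le_one (by positivity)]
        have : (0 : ℝ) ≤ n := Nat.cast_nonneg n
        linarith
      linarith [hval n]
    exact h1.trans (mul_le_mul_of_nonneg_left h2 hk.le)
  have hCp : 0 < C := (hDn 0).prof.pos_zero.trans_le (hDC 0)
  have hcau : ∀ ε > 0, ∃ N, ∀ m ≥ N, ∀ n ≥ N,
      ∫ t in (0 : ℝ)..1, (Dn m t - Dn n t) ^ 2 ≤ ε := by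
    intro ε hε
    obtain ⟨N, hN⟩ := exists_nat_one_div_lt (show (0 : ℝ) < ε / (8 * C ^ 3) by positivity)
    refine ⟨N, fun m hm n hn => ?_⟩
    have h1 := val_mean R x (hDn m) (hDn n) (hDC m) (hDC n)
    have h2 := hval m
    have h3 := hval n
    have h4 : 1 / ((m : ℝ) + 1) ≤ 1 / ((N : ℝ) + 1) := by
      apply one_div_le_one_div_of_le (by positivity)
      have : (N : ℝ) ≤ m := by exact_mod_cast hm
      linarith
    have h5 : 1 / ((n : ℝ) + 1) ≤ 1 / ((N : ℝ) + 1) := by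
      apply one_div_le_one_div_of_le (by positivity)
      have : (N : ℝ) ≤ n := by exact_mod_cast hn
      linarith
    have h6 : (∫ t in (0 : ℝ)..1, (Dn m t - Dn n t) ^ 2) / (8 * C ^ 3) ≤ ε / (8 * C ^ 3) := by
      linarith
    exact (div_le_div_iff_of_pos_right (by positivity)).1 h6
  -- the limit: first convergence of the profiles
  have hlow : ∃ c : ℝ, 0 < c ∧ ∀ n, c ≤ Dn n 0 := by
    refine ⟨1 / (2 * (Nf R x + 1)), ?_, fun n => ?_⟩
    · have := Nf_nonneg R x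
      positivity
    · have h1 := ProfD_540.one_le_zero_mul_Ent (hDn n)
      have h2 : Ent 0 (Dn n) ≤ 2 * (Nf R x + 1) := by
        have h3 := hval n
        have h4 := R.Q_nonneg (hDn n).prof.cont (fun t ht => (hDn n).prof.nonneg ht) x
        unfold val at h3
        have : 1 / ((n : ℝ) + 1) ≤ 1 := by
          rw [div_le_one (by positivity)]
          have : (0 : ℝ) ≤ n := Nat.cast_nonneg n
          linarith
        linarith
      have h5 : 0 < Dn n 0 := (hDn n).prof.pos_zero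
      have hNn := Nf_nonneg R x
      rw [div_le_iff₀ (by positivity)]
      nlinarith
  obtain ⟨c, hc, hlow⟩ := hlow
  obtain ⟨D, hDp, hDlim, hDu⟩ := ProfE_540.tendsto_of_cauchy (fun n => (hDn n).prof) hDC hc hlow hcau
  have hQ : Tendsto (fun n => R.Q (Dn n) x) atTop (𝓝 (R.Q D x)) := by
    refine R.Q_tendsto_of (B := C) (Eventually.of_forall fun n => (hDn n).prof.cont) hDp.cont
      (Eventually.of_forall fun n t ht => ((hDn n).prof.abs_le ht).trans (hDC n)) ?_ ?_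
      tendsto_const_nhds
    · intro t ht
      refine (hDp.abs_le ht).trans ?_
      exact le_of_tendsto' (hDlim 0 ⟨le_rfl, zero_lt_one⟩) hDC
    · intro T hT
      exact hDu T hT.2
  have hE : Adm 0 D ∧ Ent 0 D ≤ 2 * Nf R x - R.Q D x := by
    refine ProfD_540.Ent_lsc hDn hDp (fun t ht => hDlim t ⟨ht.1.le, ht.2⟩)
      (Kn := fun n => 2 * (Nf R x + 1 / ((n : ℝ) + 1)) - R.Q (Dn n) x) (fun n => ?_) ?_
    · have := hval n
      unfold val at this
      linarith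
    · have h1 : Tendsto (fun n : ℕ => 2 * (Nf R x + 1 / ((n : ℝ) + 1)) - R.Q (Dn n) x) atTop
          (𝓝 (2 * (Nf R x + 0) - R.Q D x)) :=
        ((tendsto_const_nhds.add tendsto_one_div_add_atTop_nhds_zero_nat).const_mul 2).sub hQ
      rwa [add_zero] at h1
  refine ⟨D, hE.1, le_antisymm ?_ (Nf_le R x hE.1)⟩
  unfold val
  linarith [hE.2]

/-- continuity of the form in the vector, with an explicit bound -/
lemma Q_sub_le (R : Res H) {D : ℝ → ℝ} (hD : Adm 0 D) (x y : H) :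
    |R.Q D x - R.Q D y| ≤ D 0 * (‖x - y‖ * (‖x - y‖ + 2 * ‖y‖)) := by
  have h1 := R.Q_add_vec hD.prof.cont y (x - y)
  have e : y + (x - y) = x := by abel
  rw [e] at h1
  have h2 : |⟪x - y, R.Dop D y⟫| ≤ ‖x - y‖ * (D 0 * ‖y‖) :=
    (abs_real_inner_le_norm _ _).trans (mul_le_mul_of_nonneg_left
      (R.Dop_norm_apply_le hD.prof.cont (fun t ht => hD.prof.abs_le ht) y) (norm_nonneg _))
  have h3 : R.Q D (x - y) ≤ D 0 * ‖x - y‖ ^ 2 :=
    R.Q_le hD.prof.cont (fun t ht => hD.prof.le_zero ht) _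
  have h4 : 0 ≤ R.Q D (x - y) := R.Q_nonneg hD.prof.cont (fun t ht => hD.prof.nonneg ht) _
  rw [h1]
  have h5 : R.Q D y + 2 * ⟪x - y, R.Dop D y⟫ + R.Q D (x - y) - R.Q D y
      = 2 * ⟪x - y, R.Dop D y⟫ + R.Q D (x - y) := by ring
  rw [h5, abs_le]
  have h6 := abs_le.1 h2
  constructor <;> nlinarith [h6.1, h6.2]

/-- **(C1) + (C2) at `e = 0`.** -/
theorem redNorm (R : Res H) : RedNorm R (Nf R) where
  sub := subLin R
  ge := Nf_ge R
  le_val := fun x D hD => Nf_le R x hD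
  attained := fun x hx => attained R hx
  cont := by
    intro l x D x0 D0 hx0 hx hopt hD0 hv0 T hT
    obtain ⟨r, hr, k, hk, hb⟩ := D0_bound R hx0
    have hNx : Tendsto (fun i => Nf R (x i)) l (𝓝 (Nf R x0)) :=
      ((subLin R).continuous.tendsto x0).comp hx
    set C : ℝ := max (k * (Nf R x0 + 1)) (D0 0) with hC
    have hCD0 : D0 0 ≤ C := le_max_right _ _
    have hCp : 0 < C := hD0.prof.pos_zero.trans_le hCD0
    have hevn : ∀ᶠ i in l, ‖x i - x0‖ ≤ r := by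
      have := (tendsto_iff_norm_sub_tendsto_zero.1 hx).eventually (gt_mem_nhds hr)
      exact this.mono fun i hi => hi.le
    have hevN : ∀ᶠ i in l, Nf R (x i) ≤ Nf R x0 + 1 :=
      (hNx.eventually (gt_mem_nhds (show Nf R x0 < Nf R x0 + 1 by linarith))).mono fun i hi => hi.le
    have hDC : ∀ᶠ i in l, D i 0 ≤ C := by
      filter_upwards [hevn, hevN, hopt] with i h1 h2 h3
      have h4 := hb (x i) h1 (D i) h3.1
      rw [h3.2] at h4
      exact (h4.trans (mul_le_mul_of_nonneg_left h2 hk.le)).trans (le_max_left _ _)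
    -- value of `D i` at `x0`
    have herr : Tendsto (fun i => Nf R (x i) - Nf R x0
        + C * (‖x0 - x i‖ * (‖x0 - x i‖ + 2 * ‖x i‖))) l (𝓝 0) := by
      have h1 : Tendsto (fun i => ‖x0 - x i‖) l (𝓝 0) := by
        have := (tendsto_iff_norm_sub_tendsto_zero.1 hx)
        refine this.congr fun i => norm_sub_rev _ _
      have h2 : Tendsto (fun i => Nf R (x i) - Nf R x0
          + C * (‖x0 - x i‖ * (‖x0 - x i‖ + 2 * ‖x i‖))) l
          (𝓝 (Nf R x0 - Nf R x0 + C * (0 * (0 + 2 * ‖x0‖)))) :=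
        (hNx.sub tendsto_const_nhds).add ((h1.mul (h1.add (hx.norm.const_mul 2))).const_mul C)
      simpa using h2
    have hint : ∀ᶠ i in l, ∫ t in (0 : ℝ)..1, (D i t - D0 t) ^ 2 ≤ 4 * C ^ 3 *
        (Nf R (x i) - Nf R x0 + C * (‖x0 - x i‖ * (‖x0 - x i‖ + 2 * ‖x i‖))) := by
      filter_upwards [hDC, hopt] with i h1 h2
      have h3 := val_mean R x0 h2.1 hD0 h1 hCD0
      have h4 : val R x0 (D i) ≤ Nf R (x i) + 1 / 2 * (C * (‖x0 - x i‖ * (‖x0 - x i‖ + 2 * ‖x i‖))) := by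
        have h5 := (abs_le.1 (Q_sub_le R h2.1 x0 (x i))).2
        have h6 := h2.2
        unfold val at h6 ⊢
        have h7 : D i 0 * (‖x0 - x i‖ * (‖x0 - x i‖ + 2 * ‖x i‖)) ≤
            C * (‖x0 - x i‖ * (‖x0 - x i‖ + 2 * ‖x i‖)) :=
          mul_le_mul_of_nonneg_right h1 (by positivity)
        linarith
      rw [hv0] at h3
      have h8 : 0 ≤ C * (‖x0 - x i‖ * (‖x0 - x i‖ + 2 * ‖x i‖)) := by positivity
      have h9 : (∫ t in (0 : ℝ)..1, (D i t - D0 t) ^ 2) / (8 * C ^ 3) ≤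
          1 / 2 * (Nf R (x i) - Nf R x0 + C * (‖x0 - x i‖ * (‖x0 - x i‖ + 2 * ‖x i‖))) := by
        linarith
      rw [div_le_iff₀ (by positivity)] at h9
      linarith
    rw [Metric.tendstoUniformlyOn_iff]
    intro δ hδ
    have h1T : 0 < 1 - T := by linarith [hT.2]
    have h1 := herr.eventually (gt_mem_nhds
      (show (0 : ℝ) < δ ^ 3 * (1 - T) / (64 * C ^ 4) by positivity))
    filter_upwards [hint, h1, hopt, hDC] with i h2 h3 h4 h5 t ht
    have ht1 : t ∈ Ico (0 : ℝ) 1 := ⟨ht.1, lt_of_le_of_lt ht.2 hT.2⟩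
    have h6 := ProfE_540.cube_le h4.1.prof hD0.prof h5 hCD0 ht1
    rw [Real.dist_eq, abs_sub_comm]
    by_contra hcon
    push Not at hcon
    have h7 : δ ^ 3 ≤ |D i t - D0 t| ^ 3 := pow_le_pow_left₀ hδ.le hcon 3
    have h8 : δ ^ 3 * (1 - T) ≤ |D i t - D0 t| ^ 3 * (1 - t) := by
      apply mul_le_mul h7 (by linarith [ht.2]) h1T.le (by positivity)
    have h9 : 16 * C * ∫ t in (0 : ℝ)..1, (D i t - D0 t) ^ 2 < δ ^ 3 * (1 - T) := by
      calc 16 * C * ∫ t in (0 : ℝ)..1, (D i t - D0 t) ^ 2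
          ≤ 16 * C * (4 * C ^ 3 *
        (Nf R (x i) - Nf R x0 + C * (‖x0 - x i‖ * (‖x0 - x i‖ + 2 * ‖x i‖)))) :=
            mul_le_mul_of_nonneg_left h2 (by positivity)
        _ < 16 * C * (4 * C ^ 3 * (δ ^ 3 * (1 - T) / (64 * C ^ 4))) := by
            apply mul_lt_mul_of_pos_left _ (by positivity)
            apply mul_lt_mul_of_pos_left h3 (by positivity)
        _ = δ ^ 3 * (1 - T) := by
            field_simp
            ring
    linarith

/-- **Node F** with the reduced norm discharged. -/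
theorem nodeF' {R : Res H} {K : Set H} (hK : ClCone K)
    {e ξ : H} (heP : ∀ x, |⟪e, x⟫| ≤ ‖R.P 0 x‖) (heK : ∀ x ∈ K, 0 ≤ ⟪e, x⟫)
    {αc η : ℝ} (hαc : 0 < αc) (hη : 0 < η)
    (hcrit : ∀ x ∈ K, ∀ D, Adm 0 D → 0 ≤ Je R αc 0 0 ξ x D)
    {x : ℝ → H} {D : ℝ → ℝ → ℝ}
    (hxK : ∀ α, αc < α → α < αc + η → x α ∈ K)
    (hDA : ∀ α, αc < α → α < αc + η → Adm 0 (D α))
    (hmin : ∀ α, αc < α → α < αc + η →
      ∀ y ∈ K, ∀ D', Adm 0 D' → Je R α 1 0 ξ (x α) (D α) ≤ Je R α 1 0 ξ y D')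
    (hne : ∀ α, αc < α → α < αc + η → x α ≠ 0)
    {C : ℝ} (h3a : ∀ α, αc < α → α < αc + η → ‖x α‖ ≤ C * ⟪e, x α⟫) :
    ∃ (xJ : H) (DJ : ℝ → ℝ), xJ ∈ K ∧ Adm 0 DJ ∧ Je R αc 0 0 ξ xJ DJ = 0 ∧ ⟪e, xJ⟫ = 1 ∧
      (∀ α, αc < α → α < αc + η → 0 < ⟪e, x α⟫) ∧
      Tendsto (fun α => (⟪e, x α⟫)⁻¹ • x α) (𝓝[>] αc) (𝓝 xJ) ∧
      Tendsto x (𝓝[>] αc) (𝓝 0) ∧
      (∀ T ∈ Ico (0 : ℝ) 1,
        TendstoUniformlyOn (fun α t => ⟪e, x α⟫ * D α t) DJ (𝓝[>] αc) (Icc 0 T)) ∧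
      Tendsto (fun α => R.Dop (D α) (x α)) (𝓝[>] αc) (𝓝 (R.Dop DJ xJ)) :=
  nodeF (redNorm R) hK heP heK hαc hη hcrit hxK hDA hmin hne h3a

end Crest.Agent.R146.NormF3_491
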