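import Mathlib

/-!
Row 146, package P5, node F (helper491): glue of statement (3a).

* `inv_sq_integrable` : the variation `D → D + e` gives `∫ 1/D² ≤ c`;
* `k_le_of_moment` : second moment controlled by the mean.
-/

set_option autoImplicit false

namespace Crest.Agent.R146.ThreeA_491

open MeasureTheory Set Filter Topology

/-- Monotone convergence form of the variation `D → D + e`. -/
theorem inv_sq_integrable {ι : Type*} [MeasurableSpace ι] {μ : Measure ι} {D : ι → ℝ}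
    (hD : ∀ᵐ t ∂μ, 0 < D t) (hDm : AEMeasurable D μ)
    (hint : ∀ e : ℝ, 0 < e → Integrable (fun t => 1 / D t - 1 / (D t + e)) μ) {c : ℝ}
    (h : ∀ e : ℝ, 0 < e → ∫ t, (1 / D t - 1 / (D t + e)) ∂μ ≤ c * e) :
    Integrable (fun t => 1 / D t ^ 2) μ ∧ ∫ t, 1 / D t ^ 2 ∂μ ≤ c := by
  -- the approximants
  set f : ℕ → ι → ℝ := fun n t => 1 / (D t * (D t + 1 / ((n : ℝ) + 1))) with hf
  have hpos : ∀ n : ℕ, (0 : ℝ) < 1 / ((n : ℝ) + 1) := fun n => by positivity
  have hfe : ∀ n, ∀ᵐ t ∂μ, f n t = ((n : ℝ) + 1) * (1 / D t - 1 / (D t + 1 / ((n : ℝ) + 1))) := by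
    intro n
    filter_upwards [hD] with t ht
    have h1 : (0 : ℝ) < (n : ℝ) + 1 := by positivity
    have h2 : 0 < D t + 1 / ((n : ℝ) + 1) := add_pos ht (hpos n)
    simp only [hf]
    field_simp
    ring
  have hfi : ∀ n, Integrable (f n) μ := fun n =>
    (((hint _ (hpos n)).const_mul ((n : ℝ) + 1)).congr ((hfe n).mono fun t ht => ht.symm))
  have hfc : ∀ n, ∫ t, f n t ∂μ ≤ c := by
    intro n
    rw [integral_congr_ae (hfe n), integral_const_mul]
    have h1 := h _ (hpos n)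
    have h2 : (0 : ℝ) < (n : ℝ) + 1 := by positivity
    calc ((n : ℝ) + 1) * ∫ t, (1 / D t - 1 / (D t + 1 / ((n : ℝ) + 1))) ∂μ
        ≤ ((n : ℝ) + 1) * (c * (1 / ((n : ℝ) + 1))) := mul_le_mul_of_nonneg_left h1 h2.le
      _ = c := by field_simp
  have hf0 : ∀ n, 0 ≤ᵐ[μ] f n := by
    intro n
    filter_upwards [hD] with t ht
    have h2 : 0 < D t + 1 / ((n : ℝ) + 1) := add_pos ht (hpos n)
    simp only [hf, Pi.zero_apply]
    positivity
  have hmono : ∀ᵐ t ∂μ, Monotone fun n => f n t := by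
    filter_upwards [hD] with t ht
    intro n m hnm
    simp only [hf]
    have h2 : 0 < D t + 1 / ((m : ℝ) + 1) := add_pos ht (hpos m)
    apply one_div_le_one_div_of_le (by positivity)
    apply mul_le_mul_of_nonneg_left _ ht.le
    have : 1 / ((m : ℝ) + 1) ≤ 1 / ((n : ℝ) + 1) := by
      apply one_div_le_one_div_of_le (by positivity)
      have : (n : ℝ) ≤ m := by exact_mod_cast hnm
      linarith
    linarith
  have hlim : ∀ᵐ t ∂μ, Tendsto (fun n => f n t) atTop (𝓝 (1 / D t ^ 2)) := by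
    filter_upwards [hD] with t ht
    simp only [hf]
    have h1 : Tendsto (fun n : ℕ => D t * (D t + 1 / ((n : ℝ) + 1))) atTop
        (𝓝 (D t * (D t + 0))) :=
      (tendsto_const_nhds.add tendsto_one_div_add_atTop_nhds_zero_nat).const_mul _
    have h2 : D t * (D t + 0) = D t ^ 2 := by ring
    rw [h2] at h1
    exact tendsto_const_nhds.div h1 (by positivity)
  have hmeas : AEMeasurable (fun t => 1 / D t ^ 2) μ := (hDm.pow_const 2).const_div 1
  have hl : ∫⁻ t, ENNReal.ofReal (1 / D t ^ 2) ∂μ ≤ ENNReal.ofReal c := by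
    have h1 : Tendsto (fun n => ∫⁻ t, ENNReal.ofReal (f n t) ∂μ) atTop
        (𝓝 (∫⁻ t, ENNReal.ofReal (1 / D t ^ 2) ∂μ)) := by
      apply lintegral_tendsto_of_tendsto_of_monotone
      · exact fun n => (hfi n).aemeasurable.ennreal_ofReal
      · filter_upwards [hmono] with t ht
        exact fun n m hnm => ENNReal.ofReal_le_ofReal (ht hnm)
      · filter_upwards [hlim] with t ht
        exact (ENNReal.continuous_ofReal.tendsto _).comp ht
    refine le_of_tendsto' h1 fun n => ?_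
    rw [← ofReal_integral_eq_lintegral_ofReal (hfi n) (hf0 n)]
    exact ENNReal.ofReal_le_ofReal (hfc n)
  have hnn : 0 ≤ᵐ[μ] fun t => 1 / D t ^ 2 := by
    filter_upwards [hD] with t ht
    simp only [Pi.zero_apply]
    positivity
  have hInt : Integrable (fun t => 1 / D t ^ 2) μ := by
    refine ⟨hmeas.aestronglyMeasurable, ?_⟩
    rw [hasFiniteIntegral_iff_ofReal hnn]
    exact lt_of_le_of_lt hl ENNReal.ofReal_lt_top
  have hc0 : 0 ≤ c := by
    have := hfc 0
    have h2 : 0 ≤ ∫ t, f 0 t ∂μ := integral_nonneg_of_ae (hf0 0)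
    linarith
  refine ⟨hInt, ?_⟩
  rw [← ofReal_integral_eq_lintegral_ofReal hInt hnn] at hl
  exact (ENNReal.ofReal_le_ofReal_iff hc0).1 hl

/-- pointwise truncation inequality -/
lemma sq_le_trunc {x L : ℝ} (hx : 0 ≤ x) (hL : 0 < L) : x ^ 2 ≤ L * x + x ^ 4 / L ^ 2 := by
  rcases le_total x L with h | h
  · have h1 : x ^ 2 ≤ L * x := by nlinarith
    have h2 : 0 ≤ x ^ 4 / L ^ 2 := by positivity
    linarith
  · have h1 : x ^ 2 ≤ x ^ 4 / L ^ 2 := by
      rw [le_div_iff₀ (by positivity)]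
      have : L ^ 2 ≤ x ^ 2 := by nlinarith
      nlinarith [sq_nonneg x]
    have h2 : 0 ≤ L * x := by positivity
    linarith

/-- The explicit constant of (3a). -/
noncomputable def C3a (C1 a : ℝ) : ℝ := (8 * Real.sqrt (C1 + 1) * a + 1 / a + 1) ^ 2

/-- Real-variable part of (3a). -/
lemma k_le_real {m k q C1 a : ℝ} (hC1 : 0 ≤ C1) (ha : 0 < a) (hm : 0 ≤ m) (hmk : m ^ 2 ≤ k)
    (h4 : ∀ L : ℝ, 0 < L → k ≤ L * m + q / L ^ 2)
    (hq : q ≤ 8 * m ^ 4 + 8 * C1 * (a * k) ^ 2) : k ≤ C3a C1 a * m ^ 2 := by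
  rcases (show 0 ≤ k by nlinarith [sq_nonneg m]).eq_or_lt with hk0 | hk0
  · rw [← hk0]
    unfold C3a
    positivity
  set s : ℝ := Real.sqrt (C1 + 1) with hs
  have hs1 : 0 < s := Real.sqrt_pos.2 (by linarith)
  have hs2 : s ^ 2 = C1 + 1 := Real.sq_sqrt (by linarith)
  set r : ℝ := Real.sqrt k with hr
  have hr1 : 0 < r := Real.sqrt_pos.2 hk0
  have hr2 : r ^ 2 = k := Real.sq_sqrt hk0.le
  have hmr : m ≤ r := by
    have : m ^ 2 ≤ r ^ 2 := by rw [hr2]; exact hmk
    exact le_of_sq_le_sq this hr1.le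
  have hL : 0 < 4 * s * a * r := by positivity
  have h1 := h4 _ hL
  have hL2 : (4 * s * a * r) ^ 2 = 16 * (C1 + 1) * a ^ 2 * k := by
    rw [mul_pow, mul_pow, mul_pow, hs2, hr2]; ring
  rw [hL2] at h1
  have h2 : q / (16 * (C1 + 1) * a ^ 2 * k) ≤ m ^ 2 / (2 * (C1 + 1) * a ^ 2) + k / 2 := by
    rw [div_le_iff₀ (by positivity)]
    have e1 : (m ^ 2 / (2 * (C1 + 1) * a ^ 2) + k / 2) * (16 * (C1 + 1) * a ^ 2 * k)
        = 8 * m ^ 2 * k + 8 * (C1 + 1) * a ^ 2 * k ^ 2 := by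
      field_simp
      ring
    rw [e1]
    have e2 : m ^ 4 ≤ m ^ 2 * k := by nlinarith [sq_nonneg m]
    nlinarith [sq_nonneg (a * k)]
  have h3 : k ≤ 8 * s * a * r * m + m ^ 2 / ((C1 + 1) * a ^ 2) := by
    have e3 : m ^ 2 / (2 * (C1 + 1) * a ^ 2) = (1 / 2) * (m ^ 2 / ((C1 + 1) * a ^ 2)) := by
      field_simp
    rw [e3] at h2
    linarith
  have h4' : m ^ 2 / ((C1 + 1) * a ^ 2) ≤ (m / a) * (m / a) := by
    have : (m / a) * (m / a) = m ^ 2 / a ^ 2 := by field_simp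
    rw [this]
    apply div_le_div_of_nonneg_left (by positivity) (by positivity)
    nlinarith [sq_nonneg a, mul_nonneg hC1 (sq_nonneg a)]
  -- divide by r
  have h5 : r ≤ (8 * s * a + 1 / a + 1) * m := by
    by_contra hcon
    push Not at hcon
    have hA : 0 < 8 * s * a := by positivity
    have hm1 : m / a ≤ (1 / a + 1) * m := by
      have : m / a = (1 / a) * m := by ring
      rw [this]
      nlinarith
    have hB : m / a < r := lt_of_le_of_lt (by nlinarith [mul_nonneg hA.le hm]) hcon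
    have hma : 0 ≤ m / a := div_nonneg hm ha.le
    have h6 : (m / a) * (m / a) ≤ r * (m / a) := mul_le_mul_of_nonneg_right hB.le hma
    have h7 : r ^ 2 ≤ 8 * s * a * r * m + r * (m / a) := by rw [hr2]; linarith
    have h8 : r * r ≤ r * (8 * s * a * m + m / a) := by nlinarith
    have h9 : r ≤ 8 * s * a * m + m / a := le_of_mul_le_mul_left h8 hr1
    have h10 : m / a = 1 / a * m := by ring
    nlinarith
  unfold C3a
  rw [← hr2, ← mul_pow]
  exact pow_le_pow_left₀ hr1.le h5 2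

/-- **(3a), probabilistic form**: the second moment is controlled by the mean. -/
theorem k_le_of_moment {Ω : Type*} [MeasurableSpace Ω] {P : Measure Ω} [IsProbabilityMeasure P]
    {lam : Ω → ℝ} (h0 : ∀ᵐ ω ∂P, 0 ≤ lam ω) (hL4 : MemLp lam 4 P) {C1 a I : ℝ} (hC1 : 0 ≤ C1)
    (ha : 0 < a) (hI0 : 0 ≤ I)
    (h4 : ∫ ω, (lam ω - ∫ ω', lam ω' ∂P) ^ 4 ∂P ≤ C1 * I ^ 2)
    (hI : I ≤ a * ∫ ω, lam ω ^ 2 ∂P) :
    ∫ ω, lam ω ^ 2 ∂P ≤ C3a C1 a * (∫ ω, lam ω ∂P) ^ 2 := by
  set m := ∫ ω, lam ω ∂P with hm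
  set k := ∫ ω, lam ω ^ 2 ∂P with hk
  have hL1 : Integrable lam P := (hL4.mono_exponent (by norm_num : (1 : ENNReal) ≤ 4)).integrable le_rfl
  have hL2 : MemLp lam 2 P := hL4.mono_exponent (by norm_num)
  have hi2 : Integrable (fun ω => lam ω ^ 2) P := hL2.integrable_sq
  have hi4 : Integrable (fun ω => lam ω ^ 4) P := by
    have := hL4.integrable_norm_pow (by norm_num : (4 : ℕ) ≠ 0)
    refine this.congr (Eventually.of_forall fun ω => ?_)
    simp only [Real.norm_eq_abs]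
    rw [← abs_pow, abs_of_nonneg (by positivity)]
  have hi4' : Integrable (fun ω => (lam ω - m) ^ 4) P := by
    have h5 : MemLp (fun ω => lam ω - m) 4 P := hL4.sub (memLp_const m)
    have := h5.integrable_norm_pow (by norm_num : (4 : ℕ) ≠ 0)
    refine this.congr (Eventually.of_forall fun ω => ?_)
    simp only [Real.norm_eq_abs]
    rw [← abs_pow, abs_of_nonneg (by positivity)]
  have hm0 : 0 ≤ m := integral_nonneg_of_ae h0
  have hmk : m ^ 2 ≤ k := by
    have h6 : 0 ≤ ∫ ω, (lam ω - m) ^ 2 ∂P := integral_nonneg fun ω => sq_nonneg _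
    have h7 : ∫ ω, (lam ω - m) ^ 2 ∂P = k - m ^ 2 := by
      have e : ∀ ω, (lam ω - m) ^ 2 = lam ω ^ 2 - 2 * m * lam ω + m ^ 2 := fun ω => by ring
      simp only [e]
      have e2 : ∫ ω, (lam ω ^ 2 - 2 * m * lam ω + m ^ 2) ∂P
          = (∫ ω, lam ω ^ 2 ∂P - ∫ ω, 2 * m * lam ω ∂P) + ∫ _ω, m ^ 2 ∂P := by
        rw [← integral_sub hi2 (hL1.const_mul (2 * m))]
        exact integral_add (hi2.sub (hL1.const_mul (2 * m))) (integrable_const _)
      rw [e2, integral_const_mul]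
      simp only [integral_const, probReal_univ, smul_eq_mul, ← hm, ← hk]
      ring
    linarith
  refine k_le_real (q := ∫ ω, lam ω ^ 4 ∂P) hC1 ha hm0 hmk (fun L hL => ?_) ?_
  · have h8 : ∫ ω, lam ω ^ 2 ∂P ≤ ∫ ω, (L * lam ω + lam ω ^ 4 / L ^ 2) ∂P := by
      refine integral_mono_ae hi2 ((hL1.const_mul L).add (hi4.div_const _)) ?_
      filter_upwards [h0] with ω hω
      exact sq_le_trunc hω hL
    rw [integral_add (hL1.const_mul L) (hi4.div_const _), integral_const_mul,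
      integral_div] at h8
    exact h8
  · have h9 : ∫ ω, lam ω ^ 4 ∂P ≤ ∫ ω, (8 * (lam ω - m) ^ 4 + 8 * m ^ 4) ∂P := by
      refine integral_mono hi4 ((hi4'.const_mul 8).add (integrable_const _)) fun ω => ?_
      have : lam ω = (lam ω - m) + m := by ring
      set u := lam ω - m with hu
      show lam ω ^ 4 ≤ 8 * u ^ 4 + 8 * m ^ 4
      rw [this]
      nlinarith [sq_nonneg (u - m), sq_nonneg (u + m), sq_nonneg (u ^ 2 - m ^ 2),
        mul_nonneg (sq_nonneg (u - m)) (sq_nonneg (u - m)), mul_nonneg (sq_nonneg (u-m)) (sq_nonneg u),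
        mul_nonneg (sq_nonneg (u-m)) (sq_nonneg m), mul_nonneg (sq_nonneg (u-m)) (sq_nonneg (u+m))]
    rw [integral_add (hi4'.const_mul 8) (integrable_const _), integral_const_mul] at h9
    simp only [integral_const, probReal_univ, smul_eq_mul, one_mul] at h9
    have h10 : C1 * I ^ 2 ≤ C1 * (a * k) ^ 2 :=
      mul_le_mul_of_nonneg_left (pow_le_pow_left₀ hI0 hI 2) hC1
    linarith

end Crest.Agent.R146.ThreeA_491
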