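import Crest.Agent.R146.P5Fin_12
import Crest.Agent.R146.NormF3_491
import Crest.Agent.R146.ThreeA_491
import Crest.Agent.R146.LipB_861

/-!
Row 146, package P5 (helper491): the Prop `FLIM` of `P5Def_12` (node F) from the exponential bound
`EML0` (node LIP at time `0`), through (3a).
-/

set_option autoImplicit false

namespace Crest.Agent.R146.FLim_491

open Set Filter Topology MeasureTheory ProbabilityTheory Crest.ProbabilityR.Perceptron
open Crest.Agent.R146.Hilb Crest.Agent.R146.ProfB_540 Crest.Agent.R146.HilbE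
open Crest.Agent.R146.Lev2_576 Crest.Agent.R146.P34_734 Crest.Agent.R146.DualG_256
open Crest.Agent.R146.DualL_256 Crest.Agent.R146.JamIface_776 Crest.Agent.R146.P5A_12
open Crest.Agent.R146.P5Def_12 Crest.Agent.R146.P5Fin_12 Crest.Agent.R146.NormF1_491
open Crest.Agent.R146.NormF2_491 Crest.Agent.R146.NormF3_491 Crest.Agent.R146.ThreeA_491
open Crest.Agent.R146.DualV_256
open scoped RealInnerProductSpace NNReal ENNReal

noncomputable section

/-! ### fourth moment from an exponential bound -/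

lemma pow4_le (x : ℝ) : x ^ 4 ≤ 24 * (Real.exp x + Real.exp (-x)) := by
  have h1 : ∀ y : ℝ, 0 ≤ y → y ^ 4 ≤ 24 * Real.exp y := by
    intro y hy
    have h := Real.pow_div_factorial_le_exp y hy 4
    have e : ((Nat.factorial 4 : ℕ) : ℝ) = 24 := by norm_num [Nat.factorial]
    rw [e, div_le_iff₀ (by norm_num)] at h
    linarith
  rcases le_total 0 x with h | h
  · have := h1 x h
    have h2 := (Real.exp_pos (-x)).le
    linarith
  · have := h1 (-x) (by linarith)
    have e : (-x) ^ 4 = x ^ 4 := by ring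
    rw [e] at this
    have h2 := (Real.exp_pos x).le
    linarith

theorem moment4_of_exp {Ω : Type*} [MeasurableSpace Ω] {P : Measure Ω}
    {f : Ω → ℝ} (hf : AEStronglyMeasurable f P) {V : ℝ} (hV : 0 < V)
    (h : ∀ θ : ℝ, ∫⁻ ω, ENNReal.ofReal (Real.exp (θ * f ω)) ∂P ≤
      ENNReal.ofReal (Real.exp (θ ^ 2 * V / 2))) :
    MemLp f 4 P ∧ ∫ ω, f ω ^ 4 ∂P ≤ 96 * V ^ 2 := by
  set r : ℝ := Real.sqrt V with hr
  have hr0 : 0 < r := Real.sqrt_pos.2 hV
  have hr2 : r ^ 2 = V := Real.sq_sqrt hV.le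
  have hr4 : r ^ 4 = V ^ 2 := by rw [← hr2]; ring
  have hexp : Real.exp (1 / 2) ≤ 2 := by
    have h1 := Real.exp_one_lt_d9
    have h2 : Real.exp (1 / 2) ^ 2 = Real.exp 1 := by
      rw [← Real.exp_nat_mul]; norm_num
    nlinarith [Real.exp_pos (1 / 2 : ℝ)]
  have hb : ∀ θ : ℝ, θ ^ 2 * V = 1 →
      ∫⁻ ω, ENNReal.ofReal (Real.exp (θ * f ω)) ∂P ≤ ENNReal.ofReal 2 := by
    intro θ hθ
    refine (h θ).trans (ENNReal.ofReal_le_ofReal ?_)
    rw [hθ]; exact hexp
  have h1 := hb (1 / r) (by rw [div_pow, one_pow, hr2]; field_simp)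
  have h2 := hb (-(1 / r)) (by rw [neg_sq, div_pow, one_pow, hr2]; field_simp)
  have hpt : ∀ ω, f ω ^ 4 ≤ 24 * V ^ 2 *
      (Real.exp (1 / r * f ω) + Real.exp (-(1 / r) * f ω)) := by
    intro ω
    have h3 := pow4_le (1 / r * f ω)
    have e : (1 / r * f ω) ^ 4 = f ω ^ 4 / V ^ 2 := by
      rw [mul_pow, div_pow, one_pow, hr4]; ring
    rw [e, div_le_iff₀ (by positivity)] at h3
    rw [neg_mul]
    linarith
  have hl : ∫⁻ ω, ENNReal.ofReal (f ω ^ 4) ∂P ≤ ENNReal.ofReal (96 * V ^ 2) := by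
    calc ∫⁻ ω, ENNReal.ofReal (f ω ^ 4) ∂P
        ≤ ∫⁻ ω, ENNReal.ofReal (24 * V ^ 2) * (ENNReal.ofReal (Real.exp (1 / r * f ω)) +
            ENNReal.ofReal (Real.exp (-(1 / r) * f ω))) ∂P := by
          refine lintegral_mono fun ω => ?_
          rw [← ENNReal.ofReal_add (Real.exp_pos _).le (Real.exp_pos _).le,
            ← ENNReal.ofReal_mul (by positivity)]
          exact ENNReal.ofReal_le_ofReal (hpt ω)
      _ = ENNReal.ofReal (24 * V ^ 2) * (∫⁻ ω, ENNReal.ofReal (Real.exp (1 / r * f ω)) ∂P +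
            ∫⁻ ω, ENNReal.ofReal (Real.exp (-(1 / r) * f ω)) ∂P) := by
          rw [lintegral_const_mul' _ _ ENNReal.ofReal_ne_top, lintegral_add_left']
          exact (Real.measurable_exp.comp_aemeasurable
            (hf.aemeasurable.const_mul _)).ennreal_ofReal
      _ ≤ ENNReal.ofReal (24 * V ^ 2) * (ENNReal.ofReal 2 + ENNReal.ofReal 2) := by
          gcongr
      _ = ENNReal.ofReal (96 * V ^ 2) := by
          rw [← ENNReal.ofReal_add (by norm_num) (by norm_num), ← ENNReal.ofReal_mul (by positivity)]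
          congr 1; ring
  have hmem : MemLp f 4 P := by
    refine ⟨hf, ?_⟩
    rw [eLpNorm_lt_top_iff_lintegral_rpow_enorm_lt_top (by norm_num) (by norm_num)]
    refine lt_of_le_of_lt (le_of_eq (lintegral_congr fun ω => ?_))
      (lt_of_le_of_lt hl ENNReal.ofReal_lt_top)
    have e4 : (4 : ℝ≥0∞).toReal = ((4 : ℕ) : ℝ) := by norm_num
    rw [e4, ENNReal.rpow_natCast, ← ofReal_norm, ← ENNReal.ofReal_pow (norm_nonneg _),
      Real.norm_eq_abs]
    congr 1
    rw [← abs_pow, abs_of_nonneg (by positivity)]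
  refine ⟨hmem, ?_⟩
  have hint : Integrable (fun ω => f ω ^ 4) P := by
    have := hmem.integrable_norm_pow (by norm_num : (4 : ℕ) ≠ 0)
    refine this.congr (Eventually.of_forall fun ω => ?_)
    simp only [Real.norm_eq_abs]
    rw [← abs_pow, abs_of_nonneg (by positivity)]
  rw [← ofReal_integral_eq_lintegral_ofReal hint (Eventually.of_forall fun ω => by
    show (0 : ℝ) ≤ f ω ^ 4
    positivity)] at hl
  exact (ENNReal.ofReal_le_ofReal_iff (by positivity)).1 hl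

/-! ### the conditional expectation at time `0` is the mean -/

section Zero

variable {Ω : Type*} [mΩ : MeasurableSpace Ω] {P : Measure Ω} [IsProbabilityMeasure P]
  {B : ℝ≥0 → Ω → ℝ} (hBm : ∀ t, Measurable (B t)) (hB : IsBrownianReal B P)

omit [IsProbabilityMeasure P] in
include hB in
theorem zero_one {s : Set Ω} (hs : MeasurableSet[brownianFiltration B hBm 0] s) :
    P s = 0 ∨ P sᶜ = 0 := by
  have e := LipB_861.natural_eq_comap hBm 0
  have hs' : MeasurableSet[MeasurableSpace.comap (fun ω (t : Set.Iic (0 : ℝ≥0)) => B t ω)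
      inferInstance] s := by
    rw [← e]; exact hs
  obtain ⟨S, -, hS⟩ := hs'
  have h0 : ∀ᵐ ω ∂P, B 0 ω = 0 := hB.toIsPreBrownianReal.eval_zero_ae_eq_zero
  have h1 : ∀ᵐ ω ∂P, (ω ∈ s ↔ (fun _ : Set.Iic (0 : ℝ≥0) => (0 : ℝ)) ∈ S) := by
    filter_upwards [h0] with ω h
    rw [← hS, mem_preimage]
    have e2 : (fun t : Set.Iic (0 : ℝ≥0) => B t ω) = fun _ => 0 := by
      funext t
      have : (t : ℝ≥0) = 0 := le_antisymm t.2 zero_le
      rw [this, h]
    rw [e2]
  by_cases hm : (fun _ : Set.Iic (0 : ℝ≥0) => (0 : ℝ)) ∈ S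
  · right
    rw [measure_eq_zero_iff_ae_notMem]
    filter_upwards [h1] with ω h
    rw [notMem_compl_iff]
    exact h.2 hm
  · left
    rw [measure_eq_zero_iff_ae_notMem]
    filter_upwards [h1] with ω h
    exact fun hω => hm (h.1 hω)

include hB in
theorem condExp_zero {f : Ω → ℝ} (hf : Integrable f P) :
    P[f | brownianFiltration B hBm 0] =ᵐ[P] fun _ => ∫ ω, f ω ∂P := by
  refine (ae_eq_condExp_of_forall_setIntegral_eq ((brownianFiltration B hBm).le 0) hf
    (fun s _ _ => (integrable_const _).integrableOn) (fun s hs _ => ?_)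
    aestronglyMeasurable_const).symm
  rcases zero_one hBm hB hs with h | h
  · rw [setIntegral_measure_zero _ h, setIntegral_measure_zero _ h]
  · have e : s =ᵐ[P] univ := by
      rw [ae_eq_univ]; exact h
    rw [setIntegral_congr_set e, setIntegral_congr_set e, setIntegral_univ, setIntegral_univ]
    simp

end Zero

variable (W : BS)

lemma P0_ae (x : HW W) : (MW W).J ((RW W).P 0 x) =ᵐ[W.P] fun _ => ∫ ω, (MW W).J x ω ∂W.P := by
  have h := (MW W).cond 0 ⟨le_rfl, zero_le_one⟩ x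
  have h2 := condExp_zero W.meas W.br (f := (MW W).J x) (JamAsm_576.integ (MW W) x)
  rw [Real.toNNReal_zero] at h
  exact h.trans h2

/-! ### the constant function `1` -/

/-- the constant `1` -/
def eW : HW W := ⟨cst W.P 1, cst_mem 1⟩

lemma eW_coe : (MW W).J (eW W) =ᵐ[W.P] fun _ => 1 := cst_coe (P := W.P) 1

lemma inner_eW (x : HW W) : ⟪eW W, x⟫ = ∫ ω, (MW W).J x ω ∂W.P := by
  rw [← (MW W).inner]
  refine integral_congr_ae ?_
  filter_upwards [eW_coe W] with ω h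
  rw [h, one_mul]

lemma norm_eW : ‖eW W‖ = 1 := by
  have h : ‖eW W‖ ^ 2 = 1 := by
    rw [← (MW W).norm_sq]
    have : ∫ ω, (MW W).J (eW W) ω ^ 2 ∂W.P = ∫ _ω, (1 : ℝ) ∂W.P := by
      refine integral_congr_ae ?_
      filter_upwards [eW_coe W] with ω h
      rw [h, one_pow]
    rw [this]; simp
  have h0 := norm_nonneg (eW W)
  nlinarith

lemma P_eW : (RW W).P 0 (eW W) = eW W := Subtype.ext (cst_fix 0 1)

lemma eW_P (x : HW W) : |⟪eW W, x⟫| ≤ ‖(RW W).P 0 x‖ := by
  have h : ⟪eW W, x⟫ = ⟪eW W, (RW W).P 0 x⟫ := by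
    rw [← (RW W).symm, P_eW]
  rw [h]
  refine (abs_real_inner_le_norm _ _).trans ?_
  rw [norm_eW, one_mul]

lemma eW_nonneg {x : HW W} (hx : x ∈ KW W) : 0 ≤ ⟪eW W, x⟫ := by
  rw [inner_eW]
  exact integral_nonneg_of_ae ((P5Fin_12.mem_K W).1 hx)

lemma clCone : ClCone (KW W) where
  closed := KB_closed W.P W.B W.meas
  zero := KB_zero W.meas
  smul := KB_smul W.meas
  add := KB_add W.meas

/-! ### (3a) -/

/-- node LIP at time `0`, exponential form (helper861) -/
def EML0 (W : BS) : Prop := ∀ α : ℝ, 0 < α → ∀ (x : HW W) (D : ℝ → ℝ), IsMinW W α 1 0 x D →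
  x ≠ 0 → ∀ θ : ℝ,
    ∫⁻ ω, ENNReal.ofReal (Real.exp (θ * ((MW W).J x ω - (MW W).J ((RW W).P 0 x) ω))) ∂W.P ≤
      ENNReal.ofReal (Real.exp (θ ^ 2 * (∫ t in (0 : ℝ)..1, 1 / (1 + D t) ^ 2) / 2))

lemma adm_add_one {D : ℝ → ℝ} (h : Adm 0 D) : Adm 0 (fun t => D t + 1) := by
  have h1 := HilbD.adm_comb h (ProfC_540.Adm.const (c := 1) one_pos).1 (s := 1 / 2)
    (by norm_num) (by norm_num)
  have h2 := adm_smul h1 (c := 2) (by norm_num)
  have e : (fun t => (2 : ℝ) * ((1 - 1 / 2) * D t + 1 / 2 * 1)) = fun t => D t + 1 := by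
    funext t; ring
  rwa [e] at h2

lemma inv_sq_le {α : ℝ} {x : HW W} {D : ℝ → ℝ} (h : IsMinW W α 1 0 x D) :
    IntervalIntegrable (fun t => 1 / D t ^ 2) volume 0 1 ∧
      ∫ t in (0 : ℝ)..1, 1 / D t ^ 2 ≤ α * ‖x‖ ^ 2 := by
  obtain ⟨h1, h2⟩ := h.kkt_D (RW W) (adm_add_one h.adm)
  have e : (fun t => (D t + 1 - D t) / D t ^ 2) = fun t => 1 / D t ^ 2 := by
    funext t; rw [add_sub_cancel_left]
  rw [e] at h1
  rw [e] at h2
  refine ⟨h1, h2.trans (le_of_eq ?_)⟩
  rw [(RW W).Q_add h.adm.prof.cont continuousOn_const, (RW W).Q_const]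
  ring

lemma I_pos {D : ℝ → ℝ} (h : Adm 0 D) :
    0 < ∫ t in (0 : ℝ)..1, 1 / (1 + D t) ^ 2 := by
  have hcont : ContinuousOn (fun t => 1 / (1 + D t) ^ 2) (Icc 0 1) := by
    refine continuousOn_const.div ((continuousOn_const.add h.prof.cont).pow 2) fun t ht => ?_
    have := h.prof.nonneg ht
    positivity
  refine intervalIntegral.intervalIntegral_pos_of_pos_on (hcont.intervalIntegrable_of_Icc zero_le_one)
    (fun t ht => ?_) zero_lt_one
  have := h.prof.nonneg (Ioo_subset_Icc_self ht)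
  positivity

lemma I_le {α : ℝ} {x : HW W} {D : ℝ → ℝ} (h : IsMinW W α 1 0 x D) :
    ∫ t in (0 : ℝ)..1, 1 / (1 + D t) ^ 2 ≤ α * ‖x‖ ^ 2 := by
  obtain ⟨h1, h2⟩ := inv_sq_le W h
  refine le_trans ?_ h2
  have hcont : ContinuousOn (fun t => 1 / (1 + D t) ^ 2) (Icc 0 1) := by
    refine continuousOn_const.div ((continuousOn_const.add h.adm.prof.cont).pow 2) fun t ht => ?_
    have := h.adm.prof.nonneg ht
    positivity
  refine intervalIntegral.integral_mono_on_of_le_Ioo zero_le_one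
    (hcont.intervalIntegrable_of_Icc zero_le_one) h1 fun t ht => ?_
  have h3 := h.adm.prof.pos t ⟨ht.1.le, ht.2⟩
  apply one_div_le_one_div_of_le (by positivity)
  nlinarith

/-- **(3a)** -/
theorem three_a (hE : EML0 W) {α a : ℝ} (hα : 0 < α) (ha : α ≤ a) {x : HW W} {D : ℝ → ℝ}
    (h : IsMinW W α 1 0 x D) (hne : x ≠ 0) : ‖x‖ ≤ Real.sqrt (C3a 96 a) * ⟪eW W, x⟫ := by
  set V : ℝ := ∫ t in (0 : ℝ)..1, 1 / (1 + D t) ^ 2 with hVdef
  have hV : 0 < V := I_pos h.adm
  have hK := (P5Fin_12.mem_K W).1 h.mem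
  have hm : AEStronglyMeasurable (fun ω => (MW W).J x ω - ∫ ω', (MW W).J x ω' ∂W.P) W.P :=
    ((MW W).memLp x).aestronglyMeasurable.sub aestronglyMeasurable_const
  obtain ⟨h4, h5⟩ := moment4_of_exp hm hV (fun θ => by
    refine le_trans (le_of_eq (lintegral_congr_ae ?_)) (hE α hα x D h hne θ)
    filter_upwards [P0_ae W x] with ω h6
    rw [h6])
  set m : ℝ := ∫ ω', (MW W).J x ω' ∂W.P with hmdef
  have h7 : MemLp ((MW W).J x) 4 W.P := by
    have h8 := h4.add (memLp_const m)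
    refine h8.congr_norm ((MW W).memLp x).aestronglyMeasurable (Eventually.of_forall fun ω => ?_)
    simp only [Pi.add_apply, sub_add_cancel]
  have hI : V ≤ a * ∫ ω, (MW W).J x ω ^ 2 ∂W.P := by
    rw [(MW W).norm_sq]
    exact (I_le W h).trans (mul_le_mul_of_nonneg_right ha (sq_nonneg _))
  have h8 := k_le_of_moment hK h7 (C1 := 96) (a := a) (I := V) (by norm_num) (hα.trans_le ha)
    hV.le h5 hI
  rw [(MW W).norm_sq, ← inner_eW] at h8
  have hC : 0 ≤ C3a 96 a := by unfold C3a; positivity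
  have h9 : ‖x‖ ^ 2 ≤ (Real.sqrt (C3a 96 a) * ⟪eW W, x⟫) ^ 2 := by
    rw [mul_pow, Real.sq_sqrt hC]; exact h8
  exact le_of_sq_le_sq h9 (mul_nonneg (Real.sqrt_nonneg _) (eW_nonneg W h.mem))

/-! ### node F -/

theorem flim (hE : EML0 W) : FLIM W := by
  intro αc hαc hJ hNJ x0 D0 h0
  have hne : ∀ α, αc < α → x0 α ≠ 0 := fun α h =>
    P5Fin_12.min_ne_zero W (hαc.trans h) le_rfl (hNJ α h) (h0 α h)
  obtain ⟨xJ, DJ, h1, h2, h3, h4, h5, h6, -, -, h7⟩ := nodeF' (R := RW W) (clCone W) (e := eW W)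
    (ξ := xiW W) (eW_P W) (fun x hx => eW_nonneg W hx) (η := 1) hαc one_pos hJ
    (x := x0) (D := D0) (fun α h _ => (h0 α h).mem) (fun α h _ => (h0 α h).adm)
    (fun α h _ => (h0 α h).le) (fun α h _ => hne α h) (C := Real.sqrt (C3a 96 (αc + 1)))
    (fun α h h' => three_a W hE (hαc.trans h) h'.le (h0 α h) (hne α h))
  have hpos : ∀ α, αc < α → 0 < ⟪eW W, x0 α⟫ := by
    intro α h
    have h8 := three_a W hE (hαc.trans h) le_rfl (h0 α h) (hne α h)
    have h9 : 0 < ‖x0 α‖ := norm_pos_iff.2 (hne α h)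
    by_contra hcon
    have h10 := mul_nonpos_of_nonneg_of_nonpos (Real.sqrt_nonneg (C3a 96 α)) (not_lt.1 hcon)
    linarith
  refine ⟨fun α => (⟪eW W, x0 α⟫)⁻¹, xJ, DJ, fun α h => inv_pos.2 (hpos α h), ?_, h6, ?_⟩
  · refine ⟨h1, ?_, h2, h3, hJ⟩
    rintro rfl
    rw [inner_zero_right] at h4
    exact zero_ne_one h4
  · exact h7.const_add _

end

end Crest.Agent.R146.FLim_491
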