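import Crest.Agent.R146.MinC_952
import Crest.Agent.R146.P5Def_12

/-!
Package P5 (row 146): the nodes `MINB` and `MIN0` of `P5Def_12`, from node C (`MinC_952`).
-/

set_option autoImplicit false

namespace Crest.Agent.R146.MinW_952

open Set
open Crest.Agent.R146.Hilb Crest.Agent.R146.ProfB_540 Crest.Agent.R146.HilbE
open Crest.Agent.R146.P34_734 Crest.Agent.R146.DualG_256
open Crest.Agent.R146.P5A_12 Crest.Agent.R146.P5Def_12 Crest.Agent.R146.MinC_952

lemma convex_KW (W : BS) : Convex ℝ (KW W) := by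
  intro x hx y hy a b ha hb _
  exact KB_add W.meas _ (KB_smul W.meas a ha x hx) _ (KB_smul W.meas b hb y hy)

lemma isMinW_iff (W : BS) {α c e : ℝ} {x : HW W} {D : ℝ → ℝ} :
    IsMinW W α c e x D ↔ IsMinPair (RW W) α c e (xiW W) (KW W) x D :=
  ⟨fun h => ⟨h.mem, h.adm, h.le⟩, fun h => ⟨h.1, h.2.1, h.2.2⟩⟩

theorem minB (W : BS) : MINB W := by
  intro α b hα hb
  obtain ⟨x, D, h⟩ := exists_minPair_pos (RW W) hα (c := 1) one_pos (e := 1 / b) (by positivity)
    (xiW W) (convex_KW W) (KB_closed W.P W.B W.meas) ⟨0, KB_zero W.meas⟩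
  exact ⟨x, D, (isMinW_iff W).2 h⟩

/-- at zero temperature the minimiser exists and is nonzero -/
theorem min0_ne (W : BS) (α : ℝ) (hα : 0 < α) (h : ¬ JamNN (RW W) (KW W) (xiW W) α) :
    ∃ x D, x ≠ 0 ∧ IsMinW W α 1 0 x D := by
  obtain ⟨x, D, hx, h⟩ := exists_minPair_zero (RW W) hα (c := 1) one_pos (xiW W) (convex_KW W)
    (KB_closed W.P W.B W.meas)
    (exists_neg (RW W) (fun s hs x hx => KB_smul W.meas s hs.le x hx) h)
  exact ⟨x, D, hx, (isMinW_iff W).2 h⟩

theorem min0 (W : BS) : MIN0 W := by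
  intro α hα h
  obtain ⟨x, D, -, h⟩ := min0_ne W α hα h
  exact ⟨x, D, h⟩

end Crest.Agent.R146.MinW_952
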