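import Crest.Agent.R146.Asm0204_734
import Crest.Agent.R146.HilbE1_12
import Crest.Agent.R146.ProfC_540

/-!
Row 146, node ZLINK ((6)(b) of helper776's note 1; helper43): from the satisfiability hypotheses of
S0205 to the Hilbert frame of package P5.

* `Link`  : the literal control value of the quadratic potential is the minimum of the Hilbert
            functional (node G, weak and strong duality of `DualL_256`);
* `Dict`  : overlap profiles of finite entropy = admissible profiles with cap `1 - t` (540, B6);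
* `Pv_le`, `exists_lt` : `Pv α (fq b (-1)) = b · inf Je R α 1 (1/b) ξ`;
* `nonneg_of_zeroE`    : zero energy ⟹ `0 ≤ Je R α 1 0 ξ` on `K × Adm 0`;
* `exists_neg_of_not_zeroE` : positive energy ⟹ some value of `Je R α 1 0 ξ` is negative;
* `jam_nonneg`         : zero energy below `αc` ⟹ `0 ≤ Je R αc 0 0 ξ` (jamming functional);
* `zeroE_of_low`, `not_zeroE_of_high` : the two satisfiability hypotheses.
-/

set_option autoImplicit false

open MeasureTheory ProbabilityTheory Filter Set Crest.ProbabilityR.Perceptron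
open scoped Topology ENNReal RealInnerProductSpace

namespace Crest.Agent.R146.ZLink_43

open Crest.Agent.R146.P34_734 Crest.Agent.R146.Asm0204_734 Crest.Agent.R146.Hilb
  Crest.Agent.R146.HilbE Crest.Agent.R146.ProfB_540

section Frame

variable {H : Type*} [NormedAddCommGroup H] [InnerProductSpace ℝ H] [CompleteSpace H]

/-- the literal control value of the quadratic potential (margin `-1`) is the minimum over the cone
`K` of `⟪x, ξ⟫ + ‖x‖²/(2b) + ½ Q(tail m) x` (`ξ = 1 + B_1`). -/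
structure Link (W : BS) (R : Res H) (K : Set H) (ξ : H) : Prop where
  smul : ∀ c : ℝ, 0 < c → ∀ x ∈ K, c • x ∈ K
  low : ∀ b : ℝ, 0 < b → ∀ m : OverlapProfile, ∀ x ∈ K,
    W.V (fq b (-1)) m ≤ ⟪x, ξ⟫ + ‖x‖ ^ 2 / (2 * b) + 1 / 2 * R.Q m.tail x
  att : ∀ b : ℝ, 0 < b → ∀ m : OverlapProfile, ∃ x ∈ K,
    ⟪x, ξ⟫ + ‖x‖ ^ 2 / (2 * b) + 1 / 2 * R.Q m.tail x ≤ W.V (fq b (-1)) m

/-- dictionary between overlap profiles of finite entropy and admissible profiles -/
structure Dict : Prop where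
  adm : ∀ m : OverlapProfile, m.entropy ≠ ⊤ → Adm 1 m.tail
  ent : ∀ m : OverlapProfile, m.entropy ≠ ⊤ → m.entropy.toReal = 1 / 2 * Ent 1 m.tail
  prof : ∀ D : ℝ → ℝ, Adm 1 D → ∃ m : OverlapProfile, m.entropy ≠ ⊤ ∧
    ∀ t ∈ Icc (0 : ℝ) 1, m.tail t = D t

lemma Ent_congr {e : ℝ} {D E : ℝ → ℝ} (h : ∀ t ∈ Icc (0 : ℝ) 1, D t = E t) :
    Ent e D = Ent e E := by
  unfold Ent
  refine ProfC_540.integral_congr_Ioo fun t ht => ?_
  unfold entF
  rw [h t ⟨ht.1.le, ht.2.le⟩]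

variable {W : BS} {R : Res H} {K : Set H} {ξ : H}

/-- upper bound of the variational value by the Hilbert functional -/
theorem Pv_le (hL : Link W R K ξ) (hD : Dict) (hZ : VZERO W) {α b : ℝ} (hα : 0 ≤ α) (hb : 0 < b)
    {x : H} (hx : x ∈ K) {D : ℝ → ℝ} (h : Adm (1 / b) D) :
    W.Pv α (fq b (-1)) ≤ b * Je R α 1 (1 / b) ξ x D := by
  obtain ⟨h1, h2⟩ := ProfC_540.Adm.smul h (c := 1 / b) (by positivity)
  have e1 : 1 / b / (1 / b) = 1 := div_self (by positivity)
  rw [e1] at h1 h2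
  obtain ⟨m, hm, hmt⟩ := hD.prof _ h1
  have h3 : m.entropy.toReal = 1 / 2 * (b * Ent (1 / b) D) := by
    rw [hD.ent m hm, Ent_congr hmt, h2]
    congr 1
    field_simp
  have h4 := hL.low b hb m (b • x) (hL.smul b hb x hx)
  have h5 : R.Q m.tail (b • x) = b * R.Q D x := by
    rw [R.Q_congr hmt, R.Q_smul_vec, R.Q_smul h.prof.cont]
    field_simp
  rw [h5, real_inner_smul_left, norm_smul, Real.norm_eq_abs, abs_of_pos hb] at h4
  refine (csInf_le (bddBelow_vals W hZ hα hb) ⟨m, hm, rfl⟩).trans ?_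
  have h6 := mul_le_mul_of_nonneg_left h4 hα
  rw [h3]
  have h7 : (b * ‖x‖) ^ 2 / (2 * b) = b * (1 / 2 * ‖x‖ ^ 2) := by field_simp
  rw [h7] at h6
  unfold Je
  linarith

/-- every number above the variational value is above a value of the Hilbert functional -/
theorem exists_lt (hL : Link W R K ξ) (hD : Dict) {α b c : ℝ} (hα : 0 ≤ α) (hb : 0 < b)
    (hc : W.Pv α (fq b (-1)) < c) :
    ∃ x ∈ K, ∃ D, Adm (1 / b) D ∧ b * Je R α 1 (1 / b) ξ x D < c := by
  obtain ⟨_, ⟨m, hm, rfl⟩, hv⟩ := exists_lt_of_csInf_lt (vals_nonempty W α _) hc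
  obtain ⟨y, hy, hyle⟩ := hL.att b hb m
  have hA := hD.adm m hm
  obtain ⟨h1, h2⟩ := ProfC_540.Adm.smul hA hb
  refine ⟨(1 / b) • y, hL.smul _ (by positivity) y hy, _, h1, ?_⟩
  have h5 : R.Q (fun t => b * m.tail t) ((1 / b) • y) = 1 / b * R.Q m.tail y := by
    rw [R.Q_smul_vec, R.Q_smul hA.prof.cont]
    field_simp
  refine lt_of_le_of_lt ?_ hv
  unfold Je
  rw [h5, h2, real_inner_smul_left, norm_smul, Real.norm_eq_abs, abs_of_pos (by positivity),
    hD.ent m hm]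
  have h6 := mul_le_mul_of_nonneg_left hyle hα
  refine le_trans (le_of_eq ?_) (add_le_add_left h6 _)
  field_simp

/-- zero energy: the zero temperature functional is nonnegative -/
theorem nonneg_of_zeroE (hL : Link W R K ξ) (hD : Dict) (hZ : VZERO W) {α : ℝ} (hα : 0 ≤ α)
    (hE : W.ZeroE α (-1)) {x : H} (hx : x ∈ K) {D : ℝ → ℝ} (h : Adm 0 D) :
    0 ≤ Je R α 1 0 ξ x D := by
  by_contra hcon
  push Not at hcon
  obtain ⟨b0, hb0, hb⟩ := hE (-Je R α 1 0 ξ x D / 2) (by linarith)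
  have h1 := hb b0 le_rfl
  have hadm := adm_cap (e := 1 / b0) (by positivity) h
  have h2 := Pv_le hL hD hZ hα hb0 hx hadm
  have h3 := Je_cap_le R (e := 1 / b0) hα (by positivity) 1 ξ x h
  have h4 := mul_le_mul_of_nonneg_left h3 hb0.le
  have h5 : 0 < b0 * -Je R α 1 0 ξ x D := mul_pos hb0 (by linarith)
  linarith

/-- positive energy: some value of the zero temperature functional is negative -/
theorem exists_neg_of_not_zeroE (hL : Link W R K ξ) (hD : Dict) {α : ℝ} (hα : 0 < α)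
    (hE : ¬ W.ZeroE α (-1)) : ∃ x ∈ K, ∃ D, Adm 0 D ∧ Je R α 1 0 ξ x D < 0 := by
  unfold BS.ZeroE at hE
  push Not at hE
  obtain ⟨d, hd, hE⟩ := hE
  have h1 := (errE_tendsto α ‖ξ‖).eventually (gt_mem_nhds hd)
  obtain ⟨e0, he0, hlt⟩ := (nhdsGT_basis (0 : ℝ)).eventually_iff.1 h1
  -- choose the inverse temperature
  set e1 : ℝ := min (e0 / 2) 1 with he1
  have he1p : 0 < e1 := by rw [he1]; positivity
  obtain ⟨b, hbb, hlt2⟩ := hE (1 / e1) (by positivity)
  have hbp : 0 < b := lt_of_lt_of_le (by positivity) hbb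
  have he : 1 / b ≤ e1 := by
    rw [div_le_iff₀ hbp]
    rw [div_le_iff₀ he1p] at hbb
    linarith
  have hep : 0 < 1 / b := by positivity
  have he0' : 1 / b < e0 := lt_of_le_of_lt he (lt_of_le_of_lt (min_le_left _ _) (by linarith))
  have hone : 1 / b ≤ 1 := he.trans (min_le_right _ _)
  have herr : errE α ‖ξ‖ (1 / b) < d := hlt ⟨hep, he0'⟩
  obtain ⟨x, hx, D, hD', hJ⟩ := exists_lt hL hD hα.le hbp hlt2
  have hJ' : Je R α 1 (1 / b) ξ x D < -d := by
    by_contra hcon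
    push Not at hcon
    have := mul_le_mul_of_nonneg_left hcon hbp.le
    linarith
  refine ⟨x, hx, _, adm_add hep hD', ?_⟩
  have hn := norm_le_of_min R hα hep ξ x hD' (by linarith)
  have h2 := Je_add_le R (α := α) hep hone 1 ξ x hD'
  have h4 : ‖x‖ ^ 2 ≤ 4 * ‖ξ‖ ^ 2 := by nlinarith [norm_nonneg x, norm_nonneg ξ]
  have h5 : α / 2 * (1 / b) * ‖x‖ ^ 2 ≤ 2 * α * (1 / b) * ‖ξ‖ ^ 2 := by
    have : 0 ≤ α / 2 * (1 / b) := by positivity
    nlinarith [mul_le_mul_of_nonneg_left h4 this]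
  unfold errE at herr
  linarith

/-- scaling of the zero temperature functional -/
theorem Je_scale (α : ℝ) (x : H) {D : ℝ → ℝ} (h : Adm 0 D) {c : ℝ} (hc : 0 < c) :
    Adm 0 (fun t => 1 / c * D t) ∧ Je R α 1 0 ξ (c • x) (fun t => 1 / c * D t) =
      c * Je R α 0 0 ξ x D + α / 2 * c ^ 2 * ‖x‖ ^ 2 := by
  obtain ⟨h1, h2⟩ := ProfC_540.Adm.smul h (c := 1 / c) (by positivity)
  rw [zero_div] at h1 h2
  refine ⟨h1, ?_⟩
  unfold Je
  rw [h2, R.Q_smul_vec, R.Q_smul h.prof.cont, real_inner_smul_left, norm_smul, Real.norm_eq_abs,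
    abs_of_pos hc]
  field_simp
  ring

/-- zero energy: the jamming functional is nonnegative at the same density -/
theorem jam_nonneg_of_zeroE (hL : Link W R K ξ) (hD : Dict) (hZ : VZERO W) {α : ℝ} (hα : 0 ≤ α)
    (hE : W.ZeroE α (-1)) {x : H} (hx : x ∈ K) {D : ℝ → ℝ} (h : Adm 0 D) :
    0 ≤ Je R α 0 0 ξ x D := by
  have key : ∀ c : ℝ, 0 < c → 0 ≤ Je R α 0 0 ξ x D + c * (α / 2 * ‖x‖ ^ 2) := by
    intro c hc
    obtain ⟨h1, h2⟩ := Je_scale (R := R) (ξ := ξ) α x h hc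
    have h3 := nonneg_of_zeroE hL hD hZ hα hE (hL.smul c hc x hx) h1
    rw [h2] at h3
    have h4 : c * Je R α 0 0 ξ x D + α / 2 * c ^ 2 * ‖x‖ ^ 2 =
        c * (Je R α 0 0 ξ x D + c * (α / 2 * ‖x‖ ^ 2)) := by ring
    rw [h4] at h3
    exact nonneg_of_mul_nonneg_right h3 hc
  have hlim : Tendsto (fun c : ℝ => Je R α 0 0 ξ x D + c * (α / 2 * ‖x‖ ^ 2)) (𝓝[>] 0)
      (𝓝 (Je R α 0 0 ξ x D)) := by
    have : Tendsto (fun c : ℝ => Je R α 0 0 ξ x D + c * (α / 2 * ‖x‖ ^ 2)) (𝓝 0)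
        (𝓝 (Je R α 0 0 ξ x D + 0 * (α / 2 * ‖x‖ ^ 2))) :=
      (by fun_prop : Continuous fun c : ℝ => Je R α 0 0 ξ x D + c * (α / 2 * ‖x‖ ^ 2)).tendsto 0
    rw [zero_mul, add_zero] at this
    exact this.mono_left nhdsWithin_le_nhds
  refine ge_of_tendsto hlim ?_
  filter_upwards [self_mem_nhdsWithin] with c hc
  exact key c hc

/-- the jamming functional is nonnegative at the threshold -/
theorem jam_nonneg (hL : Link W R K ξ) (hD : Dict) (hZ : VZERO W) {αc : ℝ} (hαc : 0 < αc)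
    (hE : ∀ α, 0 < α → α < αc → W.ZeroE α (-1)) {x : H} (hx : x ∈ K) {D : ℝ → ℝ} (h : Adm 0 D) :
    0 ≤ Je R αc 0 0 ξ x D := by
  have hlim : Tendsto (fun α : ℝ => Je R α 0 0 ξ x D) (𝓝[<] αc) (𝓝 (Je R αc 0 0 ξ x D)) := by
    have hc : Continuous fun α : ℝ => Je R α 0 0 ξ x D := by unfold Je; fun_prop
    exact (hc.tendsto αc).mono_left nhdsWithin_le_nhds
  refine ge_of_tendsto hlim ?_
  filter_upwards [Ioo_mem_nhdsLT hαc] with α hα
  exact jam_nonneg_of_zeroE hL hD hZ hα.1.le (hE α hα.1 hα.2) hx h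

end Frame

/-! ### The satisfiability hypotheses -/

theorem mixtureLaw_zero : mixtureLaw 0 = gaussianReal 0 1 := by
  unfold mixtureLaw
  rw [sub_zero, add_zero, Real.toNNReal_one, ← add_smul]
  have : (2⁻¹ + 2⁻¹ : NNReal) = 1 := by
    rw [← two_mul]; exact mul_inv_cancel₀ (by norm_num)
  rw [this, one_smul]

theorem satProbMix_zero (N : ℕ) (α : ℝ) : satProbMix N α 0 = satProb N α := by
  unfold satProbMix satProb patternLawMix patternLaw
  rw [mixtureLaw_zero]

/-- satisfiability at one density gives zero energy at this density -/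
theorem zeroE_of_sat (W : BS) (hG : GUB W) (hcap : CAP) (hcon : CONCM) {α : ℝ} (hα : 0 < α)
    (h : Tendsto (fun N : ℕ => satProb N α) atTop (𝓝 1)) : W.ZeroE α (-1) := by
  obtain ⟨C, hC⟩ := Pv_ge_of_sat W hG hcap hcon (k := -1) hα (fun N => {A | IsSat A})
    (fun N A hA => hA) (by
      intro ht
      have e : (fun N : ℕ => patternLawMix N α 0 {A | IsSat A}) = fun N : ℕ => satProb N α := by
        funext N; exact satProbMix_zero N α
      rw [e] at ht
      exact zero_ne_one (tendsto_nhds_unique ht h))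
  exact zeroE_of_bound hC

/-- zero energy below the threshold -/
theorem zeroE_of_low (W : BS) (hG : GUB W) (hcap : CAP) (hcon : CONCM) {αc : ℝ}
    (hlow : ∀ α : ℝ, 0 < α → α < αc → Tendsto (fun N : ℕ => satProb N α) atTop (𝓝 1)) :
    ∀ α : ℝ, 0 < α → α < αc → W.ZeroE α (-1) :=
  fun α h0 h1 => zeroE_of_sat W hG hcap hcon h0 (hlow α h0 h1)

/-- positive energy above the threshold -/
theorem not_zeroE_of_high (W : BS) (hC : VCONC W) (hZ : VZERO W) (hG : GUB W) (hLB : LINDLB W)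
    (hcap : CAP) (hcon : CONCM) (hM : MARKOV) (hK : KERN) {αc : ℝ} (hαc : 0 < αc)
    (hhigh : ∀ α : ℝ, αc < α → Tendsto (fun N : ℕ => satProb N α) atTop (𝓝 0)) :
    ∀ α : ℝ, αc < α → ¬ W.ZeroE α (-1) := by
  intro α hα hE
  set α' : ℝ := (αc + α) / 2 with hα'
  have h0 : 0 < α' := by rw [hα']; linarith
  have h1 : α' < α := by rw [hα']; linarith
  have h2 : αc < α' := by rw [hα']; linarith
  obtain ⟨η, hη0, hη1, hEη⟩ := margin_gain W hC hZ hG hcap hcon hK h0 h1 hE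
  have h3 := sat_of_zeroE W hM hLB h0 le_rfl zero_lt_one hη0 hη1 hEη
  have h4 : Tendsto (fun N : ℕ => satProbMix N α' 0) atTop (𝓝 0) := by
    have e : (fun N : ℕ => satProbMix N α' 0) = fun N : ℕ => satProb N α' := by
      funext N; exact satProbMix_zero N α'
    rw [e]; exact hhigh α' h2
  exact zero_ne_one (tendsto_nhds_unique h4 h3)

end Crest.Agent.R146.ZLink_43
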