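import Crest.Agent.R146.LinkB_356
import Crest.Agent.R146.ZLink_43

/-!
# R146, package P5, LINK (helper356), part C: the instance of `ZLink_43.Link`, conversion of `Dict`.
-/

set_option autoImplicit false

noncomputable section

open MeasureTheory Set Filter Topology ProbabilityTheory
open scoped RealInnerProductSpace NNReal ENNReal

namespace Crest.Agent.R146.LinkC_356

open Crest.ProbabilityR.Perceptron Crest.Agent.R146.Hilb Crest.Agent.R146.ProfB_540
  Crest.Agent.R146.HilbE Crest.Agent.R146.HilbD Crest.Agent.R146.LinkB_356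
  Crest.Agent.R146.P34_734 Crest.Agent.R146.DualG_256

lemma xiW_neg_one (W : BS) : xiW W (-1) = xi W.meas W.br 1 := by
  unfold xiW; rw [neg_neg]

/-- the instance of helper43's interface `Link` -/
theorem link43 (W : BS) : ZLink_43.Link W (RW W) (KW W) (xiW W (-1)) where
  smul := fun c hc x hx => KB_smul W.meas c hc.le x hx
  low := fun b hb m x hx => by
    have h := V_le W m hb (-1) hx
    unfold Fx at h
    have e : ‖x‖ ^ 2 / (2 * b) = 1 / b / 2 * ‖x‖ ^ 2 := by field_simp
    rw [e]; exact h
  att := fun b hb m => by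
    refine ⟨lamW W m hb (-1), lamH_mem W.meas W.br m hb (-1), ?_⟩
    have h := V_eq W m hb (-1)
    unfold Fx at h
    have e : ‖lamW W m hb (-1)‖ ^ 2 / (2 * b) = 1 / b / 2 * ‖lamW W m hb (-1)‖ ^ 2 := by
      field_simp
    rw [e, h]

/-- helper43's dictionary from mine -/
theorem dict43 (hd : LinkB_356.Dict) : ZLink_43.Dict where
  adm := hd.toAdm
  ent := fun m hm => by rw [(hd.ent m (hd.toAdm m hm)).2]; ring
  prof := fun D hD => by
    obtain ⟨m, hm⟩ := hd.ofAdm D hD
    exact ⟨m, (hd.ent m (adm_congr hD fun t ht => (hm t ht).symm).1).1, hm⟩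

end Crest.Agent.R146.LinkC_356
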