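import Crest.Agent.R146.ProfE_540
import Crest.Prelude.Def_SphericalPressure

/-!
# Dictionary profiles `D` <-> monotone densities `m` <-> `OverlapProfile` (node B of the split 624)
-/

namespace Crest.Agent.R146.ProfF_540

open Set MeasureTheory Filter Topology
open Crest.Agent.R146.ProfA_540 Crest.Agent.R146.ProfB_540 Crest.Agent.R146.ProfC_540
open Crest.Agent.R146.ProfD_540 Crest.Agent.R146.ProfE_540
open Crest.ProbabilityR.Perceptron

section toM

variable {D : ℝ → ℝ}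

/-- the density of a profile: minus its right derivative -/
noncomputable def mOf (D : ℝ → ℝ) (t : ℝ) : ℝ := derivWithin (fun s => - D s) (Ioi t) t

lemma Prof.convNeg (h : Prof D) : ConvexOn ℝ (Icc 0 1) (fun s => - D s) := h.conc.neg

lemma mOf_hasDeriv (h : Prof D) {t : ℝ} (ht : t ∈ Ioo (0 : ℝ) 1) :
    HasDerivWithinAt (fun s => - D s) (mOf D t) (Ioi t) t :=
  (Prof.convNeg h).hasDerivWithinAt_rightDeriv_of_mem_interior (by rwa [interior_Icc])

lemma mOf_mono (h : Prof D) : MonotoneOn (mOf D) (Ioo 0 1) := by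
  have := (Prof.convNeg h).monotoneOn_rightDeriv
  rwa [interior_Icc] at this

lemma mOf_nonneg (h : Prof D) {t : ℝ} (ht : t ∈ Ioo (0 : ℝ) 1) : 0 ≤ mOf D t := by
  have h1 := (hasDerivWithinAt_iff_tendsto_slope' self_notMem_Ioi).1 (mOf_hasDeriv h ht)
  refine ge_of_tendsto h1 ?_
  have h2 : ∀ᶠ s in 𝓝[>] t, s ∈ Ioc t 1 := Ioc_mem_nhdsGT ht.2
  filter_upwards [h2] with s hs
  rw [slope_def_field]
  have := h.sub_nonneg' ht.1.le hs.1.le hs.2
  have h3 : 0 < s - t := sub_pos.2 hs.1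
  apply div_nonneg _ h3.le
  linarith

/-- `m t ≤ (D t - D 1) / (1 - t) ≤ D t / (1 - t)` -/
lemma mOf_le (h : Prof D) {t : ℝ} (ht : t ∈ Ioo (0 : ℝ) 1) :
    mOf D t ≤ (D t - D 1) / (1 - t) := by
  have h1 := (Prof.convNeg h).rightDeriv_le_slope_of_mem_interior (x := t) (y := 1)
    (by rwa [interior_Icc]) ⟨zero_le_one, le_rfl⟩ ht.2
  rw [slope_def_field] at h1
  unfold mOf
  refine h1.trans (le_of_eq ?_)
  ring

lemma mOf_le' (h : Prof D) {t : ℝ} (ht : t ∈ Ioo (0 : ℝ) 1) :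
    mOf D t ≤ D t / (1 - t) := by
  refine (mOf_le h ht).trans ?_
  have := h.one
  have h2 : 0 < 1 - t := sub_pos.2 ht.2
  gcongr
  linarith

lemma mOf_integrableOn (h : Prof D) : IntegrableOn (mOf D) (Ioc 0 1) :=
  intervalIntegral.integrableOn_deriv_right_of_nonneg h.cont.neg (fun _ hx => mOf_hasDeriv h hx)
    fun _ hx => mOf_nonneg h hx

lemma mOf_intervalIntegrable (h : Prof D) : IntervalIntegrable (mOf D) volume 0 1 :=
  (intervalIntegrable_iff_integrableOn_Ioc_of_le zero_le_one).2 (mOf_integrableOn h)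

/-- `D t = D 1 + ∫_t^1 m` -/
theorem eq_add_integral (h : Prof D) {t : ℝ} (ht : t ∈ Icc (0 : ℝ) 1) :
    D t = D 1 + ∫ s in t..1, mOf D s := by
  have hsub : Icc t 1 ⊆ Icc 0 1 := Icc_subset_Icc_left ht.1
  have h1 : ∫ s in t..1, mOf D s = - D 1 - (- D t) := by
    refine intervalIntegral.integral_eq_sub_of_hasDeriv_right_of_le (f := fun s => - D s) ht.2
      (h.cont.neg.mono hsub)
      (fun x hx => mOf_hasDeriv h ⟨ht.1.trans_lt hx.1, hx.2⟩) ?_
    refine (mOf_intervalIntegrable h).mono_set ?_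
    rw [uIcc_of_le ht.2, uIcc_of_le zero_le_one]
    exact hsub
  rw [h1]; ring

/-- increments: `D s - D t = ∫_s^t m` -/
theorem sub_eq_integral (h : Prof D) {s t : ℝ} (hs : 0 ≤ s) (hst : s ≤ t) (ht : t ≤ 1) :
    D s - D t = ∫ u in s..t, mOf D u := by
  rw [eq_add_integral h ⟨hs, hst.trans ht⟩, eq_add_integral h ⟨hs.trans hst, ht⟩]
  have i1 : IntervalIntegrable (mOf D) volume s t := (mOf_intervalIntegrable h).mono_set (by
    rw [uIcc_of_le hst, uIcc_of_le zero_le_one]; exact Icc_subset_Icc hs ht)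
  have i2 : IntervalIntegrable (mOf D) volume t 1 := (mOf_intervalIntegrable h).mono_set (by
    rw [uIcc_of_le ht, uIcc_of_le zero_le_one]; exact Icc_subset_Icc_left (hs.trans hst))
  rw [← intervalIntegral.integral_add_adjacent_intervals i1 i2]
  ring

end toM

section fromM

variable {m : ℝ → ℝ} {d : ℝ}

/-- the profile of a density -/
noncomputable def dOf (m : ℝ → ℝ) (d : ℝ) (t : ℝ) : ℝ := d + ∫ s in t..1, m s

lemma dOf_one (m : ℝ → ℝ) (d : ℝ) : dOf m d 1 = d := by simp [dOf]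

/-- a nonnegative density, monotone on `(0,1)`, integrable, gives a profile as soon as it is
positive on `[0,1)` -/
theorem prof_dOf (hm : MonotoneOn m (Ioo 0 1)) (h0 : ∀ t ∈ Ioo (0 : ℝ) 1, 0 ≤ m t)
    (hint : IntervalIntegrable m volume 0 1) (hd : 0 ≤ d)
    (hpos : ∀ t ∈ Ico (0 : ℝ) 1, 0 < dOf m d t) : Prof (dOf m d) := by
  have hI : ∀ {a b : ℝ}, 0 ≤ a → a ≤ b → b ≤ 1 → IntervalIntegrable m volume a b := by
    intro a b ha hab hb
    refine hint.mono_set ?_
    rw [uIcc_of_le hab, uIcc_of_le zero_le_one]; exact Icc_subset_Icc ha hb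
  have hdiff : ∀ {a b : ℝ}, 0 ≤ a → a ≤ b → b ≤ 1 → dOf m d a - dOf m d b = ∫ s in a..b, m s := by
    intro a b ha hab hb
    unfold dOf
    rw [← intervalIntegral.integral_add_adjacent_intervals (hI ha hab hb)
      (hI (ha.trans hab) hb le_rfl)]
    ring
  have hup : ∀ {x y : ℝ}, 0 ≤ x → x < y → y < 1 → ∫ s in x..y, m s ≤ (y - x) * m y := by
    intro x y hx hxy hy
    have h1 : ∫ s in x..y, m s ≤ ∫ _s in x..y, m y := by
      refine intervalIntegral.integral_mono_on_of_le_Ioo hxy.le (hI hx hxy.le hy.le)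
        intervalIntegrable_const fun s hs => ?_
      exact hm ⟨hx.trans_lt hs.1, hs.2.trans hy⟩ ⟨hx.trans_lt hxy, hy⟩ hs.2.le
    simpa using h1
  have hlo : ∀ {x y : ℝ}, 0 < x → x < y → y ≤ 1 → (y - x) * m x ≤ ∫ s in x..y, m s := by
    intro x y hx hxy hy
    have h1 : ∫ _s in x..y, m x ≤ ∫ s in x..y, m s := by
      refine intervalIntegral.integral_mono_on_of_le_Ioo hxy.le intervalIntegrable_const
        (hI hx.le hxy.le hy) fun s hs => ?_
      exact hm ⟨hx, hxy.trans_le hy⟩ ⟨hx.trans hs.1, hs.2.trans_le hy⟩ hs.1.le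
    simpa using h1
  refine ⟨?_, ?_, ?_, hpos, by rw [dOf_one]; exact hd⟩
  · refine concaveOn_of_slope_anti_adjacent (convex_Icc 0 1) ?_
    intro x y z hx hz hxy hyz
    have hy0 : 0 < y := hx.1.trans_lt hxy
    have hy1 : y < 1 := hyz.trans_le hz.2
    have h1 := hup hx.1 hxy hy1
    have h2 := hlo hy0 hyz hz.2
    rw [← hdiff hx.1 hxy.le hy1.le] at h1
    rw [← hdiff hy0.le hyz.le hz.2] at h2
    have e1 : 0 < y - x := sub_pos.2 hxy
    have e2 : 0 < z - y := sub_pos.2 hyz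
    have h3 : (dOf m d z - dOf m d y) / (z - y) ≤ - m y := by
      rw [div_le_iff₀ e2]; linarith
    have h4 : - m y ≤ (dOf m d y - dOf m d x) / (y - x) := by
      rw [le_div_iff₀ e1]; linarith
    exact h3.trans h4
  · intro s hs t ht hst
    have h1 := hdiff hs.1 hst ht.2
    have h2 : 0 ≤ ∫ u in s..t, m u := by
      refine intervalIntegral.integral_nonneg_of_ae_restrict hst ?_
      have : (volume : Measure ℝ).restrict (Icc s t) = volume.restrict (Ioo s t) :=
        (Measure.restrict_congr_set Ioo_ae_eq_Icc).symm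
      rw [this]
      filter_upwards [ae_restrict_mem measurableSet_Ioo] with u hu
      exact h0 u ⟨hs.1.trans_lt hu.1, hu.2.trans_le ht.2⟩
    linarith
  · unfold dOf
    refine continuousOn_const.add ?_
    have := intervalIntegral.continuousOn_primitive_interval_left (a := 0) (b := 1) (f := m)
      (μ := volume) ((intervalIntegrable_iff_integrableOn_Icc_of_le zero_le_one
        (by simp)).1 hint |> fun h => by rwa [uIcc_of_le zero_le_one])
    rwa [uIcc_of_le zero_le_one] at this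

end fromM

section overlap

variable {D : ℝ → ℝ}

lemma tail_eq (m : OverlapProfile) : m.tail = dOf m.toFun 0 := by
  funext t; simp [OverlapProfile.tail, dOf]

lemma ovl_int (m : OverlapProfile) (a b : ℝ) : IntervalIntegrable m.toFun volume a b :=
  m.mono.intervalIntegrable

lemma tail_one (m : OverlapProfile) : m.tail 1 = 0 := by simp [OverlapProfile.tail]

lemma tail_le (m : OverlapProfile) {t : ℝ} (ht : t ∈ Icc (0 : ℝ) 1) : m.tail t ≤ 1 - t := by
  unfold OverlapProfile.tail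
  have h1 : ∫ s in t..1, m.toFun s ≤ ∫ _s in t..1, (1 : ℝ) := by
    refine intervalIntegral.integral_mono_on ht.2 (ovl_int m t 1) intervalIntegrable_const
      fun s hs => m.le_one s ⟨ht.1.trans hs.1, hs.2⟩
  simpa using h1

lemma tail_nonneg (m : OverlapProfile) {t : ℝ} (ht : t ∈ Icc (0 : ℝ) 1) : 0 ≤ m.tail t :=
  intervalIntegral.integral_nonneg ht.2 fun s hs => m.nonneg s ⟨ht.1.trans hs.1, hs.2⟩

theorem prof_tail (m : OverlapProfile) (hpos : ∀ t ∈ Ico (0 : ℝ) 1, 0 < m.tail t) :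
    Prof m.tail := by
  rw [tail_eq] at hpos ⊢
  exact prof_dOf (fun s _ t _ hst => m.mono hst) (fun t ht => m.nonneg t (Ioo_sub_Icc ht))
    (ovl_int m 0 1) le_rfl hpos

lemma ennreal_entF {x t : ℝ} (hx : 0 < x) (ht : t < 1) :
    (ENNReal.ofReal x)⁻¹ - (ENNReal.ofReal (1 - t))⁻¹ = ENNReal.ofReal (1 / x - 1 / (1 - t)) := by
  have h1 : 0 < 1 - t := sub_pos.2 ht
  rw [← ENNReal.ofReal_inv_of_pos hx, ← ENNReal.ofReal_inv_of_pos h1,
    ← ENNReal.ofReal_sub _ (inv_nonneg.2 h1.le), one_div, one_div]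

lemma lintegral_eq_Ioo (m : OverlapProfile) :
    ∫⁻ t in Icc (0 : ℝ) 1, ((ENNReal.ofReal (m.tail t))⁻¹ - (ENNReal.ofReal (1 - t))⁻¹)
      = ∫⁻ t in Ioo (0 : ℝ) 1, ((ENNReal.ofReal (m.tail t))⁻¹ - (ENNReal.ofReal (1 - t))⁻¹) := by
  rw [Measure.restrict_congr_set (Ioo_ae_eq_Icc (a := (0 : ℝ)) (b := 1)).symm]

/-- finite entropy forces a positive tail -/
lemma tail_pos_of_entropy (m : OverlapProfile) (h : m.entropy ≠ ⊤) :
    ∀ t ∈ Ico (0 : ℝ) 1, 0 < m.tail t := by
  intro t0 ht0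
  by_contra hc
  have h0 : m.tail t0 = 0 :=
    le_antisymm (not_lt.1 hc) (tail_nonneg m (Ico_subset_Icc_self ht0))
  apply h
  unfold OverlapProfile.entropy
  have hz : ∀ t ∈ Ioo t0 1, m.tail t = 0 := by
    intro t ht
    have htI : t ∈ Icc (0 : ℝ) 1 := ⟨ht0.1.trans ht.1.le, ht.2.le⟩
    refine le_antisymm ?_ (tail_nonneg m htI)
    rw [← h0]
    unfold OverlapProfile.tail
    rw [← intervalIntegral.integral_add_adjacent_intervals (ovl_int m t0 t) (ovl_int m t 1)]
    have : 0 ≤ ∫ s in t0..t, m.toFun s := intervalIntegral.integral_nonneg ht.1.le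
      fun s hs => m.nonneg s ⟨ht0.1.trans hs.1, hs.2.trans ht.2.le⟩
    linarith
  have hl : ∫⁻ t in Icc (0 : ℝ) 1, ((ENNReal.ofReal (m.tail t))⁻¹ - (ENNReal.ofReal (1 - t))⁻¹)
      = ⊤ := by
    refine top_le_iff.1 ?_
    calc (⊤ : ENNReal) = ∫⁻ _t in Ioo t0 1, ⊤ := by
          rw [setLIntegral_const, Real.volume_Ioo, ENNReal.top_mul]
          simpa using ht0.2
      _ ≤ ∫⁻ t in Ioo t0 1, ((ENNReal.ofReal (m.tail t))⁻¹ - (ENNReal.ofReal (1 - t))⁻¹) := by
          refine setLIntegral_mono' measurableSet_Ioo fun t ht => ?_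
          rw [hz t ht, ENNReal.ofReal_zero, ENNReal.inv_zero]
          have h1 : 0 < 1 - t := sub_pos.2 ht.2
          have : (ENNReal.ofReal (1 - t))⁻¹ ≠ ⊤ := by
            simpa using h1
          rw [ENNReal.top_sub this]
      _ ≤ ∫⁻ t in Icc (0 : ℝ) 1, ((ENNReal.ofReal (m.tail t))⁻¹ - (ENNReal.ofReal (1 - t))⁻¹) := by
          refine lintegral_mono_set ?_
          exact fun t ht => ⟨ht0.1.trans ht.1.le, ht.2.le⟩
  rw [hl]
  exact ENNReal.top_div_of_ne_top ENNReal.ofNat_ne_top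

theorem adm_tail (m : OverlapProfile) (h : m.entropy ≠ ⊤) : Adm 1 m.tail := by
  have hpos := tail_pos_of_entropy m h
  have hP := prof_tail m hpos
  have hcap : ∀ t ∈ Icc (0 : ℝ) 1, 1 * m.tail t ≤ 1 - t := fun t ht => by
    rw [one_mul]; exact tail_le m ht
  refine ⟨hP, hcap, ?_⟩
  rw [intervalIntegrable_iff', ProfC_540.restrict_eq]
  have hnn : 0 ≤ᵐ[volume.restrict (Ioo (0 : ℝ) 1)] entF 1 m.tail := by
    filter_upwards [ae_restrict_mem measurableSet_Ioo] with t ht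
      using entF_nonneg hP hcap (Ioo_sub_Ico ht)
  refine ⟨((continuousOn_entF hP 1).mono Ioo_subset_Ico_self).aestronglyMeasurable
    measurableSet_Ioo, ?_⟩
  rw [hasFiniteIntegral_iff_ofReal hnn]
  have h1 : ∫⁻ t in Ioo (0 : ℝ) 1, ENNReal.ofReal (entF 1 m.tail t)
      = ∫⁻ t in Icc (0 : ℝ) 1, ((ENNReal.ofReal (m.tail t))⁻¹ - (ENNReal.ofReal (1 - t))⁻¹) := by
    rw [lintegral_eq_Ioo]
    refine setLIntegral_congr_fun measurableSet_Ioo fun t ht => ?_
    exact (ennreal_entF (hpos t (Ioo_sub_Ico ht)) ht.2).symm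
  rw [h1]
  have h2 := h
  unfold OverlapProfile.entropy at h2
  refine lt_top_iff_ne_top.2 fun hc => h2 ?_
  rw [hc]
  exact ENNReal.top_div_of_ne_top ENNReal.ofNat_ne_top

/-- the literal entropy is half of `Ent 1` of the tail -/
theorem entropy_eq (m : OverlapProfile) (h : Adm 1 m.tail) :
    m.entropy = ENNReal.ofReal (Ent 1 m.tail / 2) := by
  unfold OverlapProfile.entropy
  have h1 : ∫⁻ t in Icc (0 : ℝ) 1, ((ENNReal.ofReal (m.tail t))⁻¹ - (ENNReal.ofReal (1 - t))⁻¹)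
      = ∫⁻ t in Ioo (0 : ℝ) 1, ENNReal.ofReal (entF 1 m.tail t) := by
    rw [lintegral_eq_Ioo]
    refine setLIntegral_congr_fun measurableSet_Ioo fun t ht => ?_
    exact ennreal_entF (h.prof.pos t (Ioo_sub_Ico ht)) ht.2
  have hnn : 0 ≤ᵐ[volume.restrict (Ioo (0 : ℝ) 1)] entF 1 m.tail := by
    filter_upwards [ae_restrict_mem measurableSet_Ioo] with t ht
      using entF_nonneg h.prof h.cap (Ioo_sub_Ico ht)
  have hi : Integrable (entF 1 m.tail) (volume.restrict (Ioo (0 : ℝ) 1)) := by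
    have := intervalIntegrable_iff'.1 h.int
    rwa [ProfC_540.restrict_eq] at this
  rw [h1, ← ofReal_integral_eq_lintegral_ofReal hi hnn]
  have h2 : ∫ t in Ioo (0 : ℝ) 1, entF 1 m.tail t = Ent 1 m.tail := by
    unfold Ent
    rw [ProfC_540.integral_eq, ProfC_540.restrict_eq]
  rw [h2, ENNReal.ofReal_div_of_pos (by norm_num)]
  simp

theorem entropy_ne_top_iff (m : OverlapProfile) : m.entropy ≠ ⊤ ↔ Adm 1 m.tail :=
  ⟨adm_tail m, fun h => by rw [entropy_eq m h]; exact ENNReal.ofReal_ne_top⟩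

/-- every admissible profile (cap `1 - t`) is the tail of an overlap profile -/
theorem exists_overlapProfile (h : Adm 1 D) :
    ∃ m : OverlapProfile, (∀ t ∈ Icc (0 : ℝ) 1, m.tail t = D t) ∧ Adm 1 m.tail ∧
      Ent 1 m.tail = Ent 1 D ∧ m.entropy = ENNReal.ofReal (Ent 1 D / 2) := by
  classical
  have hD1 : D 1 = 0 := by
    have h1 := h.cap 1 ⟨zero_le_one, le_rfl⟩
    have h2 := h.prof.one
    linarith
  have hm1 : ∀ t ∈ Ioo (0 : ℝ) 1, mOf D t ≤ 1 := by
    intro t ht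
    refine (mOf_le' h.prof ht).trans ?_
    have h2 : 0 < 1 - t := sub_pos.2 ht.2
    rw [div_le_one h2]
    have := h.cap t (Ioo_sub_Icc ht)
    linarith
  set f : ℝ → ℝ := fun t => if t ≤ 0 then 0 else if t < 1 then mOf D t else 1 with hf
  have hf0 : ∀ t, t ≤ 0 → f t = 0 := fun t ht => by simp [hf, ht]
  have hf1 : ∀ t, 1 ≤ t → f t = 1 := fun t ht => by
    simp [hf, not_le.2 (zero_lt_one.trans_le ht), not_lt.2 ht]
  have hfm : ∀ t ∈ Ioo (0 : ℝ) 1, f t = mOf D t := fun t ht => by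
    simp [hf, not_le.2 ht.1, ht.2]
  have hf01 : ∀ t, 0 ≤ f t ∧ f t ≤ 1 := by
    intro t
    rcases le_or_gt t 0 with h0 | h0
    · rw [hf0 t h0]; exact ⟨le_rfl, zero_le_one⟩
    rcases lt_or_ge t 1 with h1 | h1
    · rw [hfm t ⟨h0, h1⟩]; exact ⟨mOf_nonneg h.prof ⟨h0, h1⟩, hm1 t ⟨h0, h1⟩⟩
    · rw [hf1 t h1]; exact ⟨zero_le_one, le_rfl⟩
  have hmono : Monotone f := by
    intro s t hst
    rcases le_or_gt s 0 with h0 | h0
    · rw [hf0 s h0]; exact (hf01 t).1
    rcases lt_or_ge t 1 with h1 | h1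
    · rw [hfm s ⟨h0, hst.trans_lt h1⟩, hfm t ⟨h0.trans_le hst, h1⟩]
      exact mOf_mono h.prof ⟨h0, hst.trans_lt h1⟩ ⟨h0.trans_le hst, h1⟩ hst
    · rw [hf1 t h1]; exact (hf01 s).2
  set m : OverlapProfile := ⟨f, hmono, fun t _ => (hf01 t).1, fun t _ => (hf01 t).2⟩ with hm
  have htail : ∀ t ∈ Icc (0 : ℝ) 1, m.tail t = D t := by
    intro t ht
    rw [eq_add_integral h.prof ht, hD1, zero_add]
    unfold OverlapProfile.tail
    rw [intervalIntegral.integral_of_le ht.2, intervalIntegral.integral_of_le ht.2,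
      Measure.restrict_congr_set (Ioo_ae_eq_Ioc (a := t) (b := (1 : ℝ))).symm]
    refine setIntegral_congr_fun measurableSet_Ioo fun s hs => ?_
    exact hfm s ⟨ht.1.trans_lt hs.1, hs.2⟩
  have hent : ∀ t ∈ Ioo (0 : ℝ) 1, entF 1 m.tail t = entF 1 D t := fun t ht => by
    unfold entF; rw [htail t (Ioo_sub_Icc ht)]
  have hadm : Adm 1 m.tail := by
    refine ⟨prof_tail m fun t ht => ?_, fun t ht => ?_, ?_⟩
    · rw [htail t (Ico_subset_Icc_self ht)]; exact h.prof.pos t ht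
    · rw [one_mul]; exact tail_le m ht
    · rw [intervalIntegrable_congr_Ioo hent]; exact h.int
  have hE : Ent 1 m.tail = Ent 1 D := integral_congr_Ioo hent
  exact ⟨m, htail, hadm, hE, by rw [entropy_eq m hadm, hE]⟩

end overlap

end Crest.Agent.R146.ProfF_540
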