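import Crest.Prelude.Def_SphericalPressure
import Crest.Agent.R146.RepairFin_840

/-!
Row 146, package P3/P4 (S0203, S0204, `eps > 0` half of S0205): DEFINITIONS AND NODES as exact
Props (helper734).  Nothing is proved here.

* `BS`            : a Brownian space; `W.V f m = controlValue`, `W.Pv α f` = real infimum over the
                    profiles of finite entropy of `α V_f(m) + S(m)`;
* `fq b k`        : quadratic penalty potential `-(b/2) (k - x)_+^2` (margin `k`, inverse temp. `b`);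
* `pM N α ε f`    : `∫ spherePressure N α 1 f ∂patternLawMix N α ε` (`ε = 0`: Gaussian patterns);
* `Test ψ`        : smooth, all derivatives bounded.
-/

set_option autoImplicit false

open MeasureTheory ProbabilityTheory Filter Crest.ProbabilityR.Perceptron
open scoped Topology

namespace Crest.Agent.R146.P34_734

noncomputable section

/-! ### Definitions -/

/-- a Brownian space -/
structure BS where
  Ω : Type
  [mΩ : MeasurableSpace Ω]
  P : Measure Ω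
  [pP : IsProbabilityMeasure P]
  B : NNReal → Ω → ℝ
  meas : ∀ t, Measurable (B t)
  br : IsBrownianReal B P

attribute [instance] BS.mΩ BS.pP

/-- the literal control value -/
def BS.V (W : BS) (f : ℝ → ℝ) (m : OverlapProfile) : ℝ := controlValue W.P W.B W.meas f m

/-- the values of the functional at the profiles of finite entropy -/
def BS.vals (W : BS) (α : ℝ) (f : ℝ → ℝ) : Set ℝ :=
  {x | ∃ m : OverlapProfile, m.entropy ≠ ⊤ ∧ x = α * W.V f m + m.entropy.toReal}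

/-- the variational value -/
def BS.Pv (W : BS) (α : ℝ) (f : ℝ → ℝ) : ℝ := sInf (W.vals α f)

/-- quadratic penalty potential, margin `k`, inverse temperature `b` -/
def fq (b k x : ℝ) : ℝ := -(b / 2) * max (k - x) 0 ^ 2

/-- truncation at `-L` -/
def fqL (L b k x : ℝ) : ℝ := max (fq b k x) (-L)

/-- test functions: smooth, all derivatives bounded -/
structure Test (ψ : ℝ → ℝ) : Prop where
  smooth : ∀ n : ℕ, ContDiff ℝ n ψ
  bd : ∀ n : ℕ, ∃ C, ∀ x, |iteratedDeriv n ψ x| ≤ C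

/-- averaged pressure of the mixture (`ε = 0`: Gaussian) -/
def pM (N : ℕ) (α ε : ℝ) (f : ℝ → ℝ) : ℝ :=
  ∫ A, spherePressure N α 1 f A ∂patternLawMix N α ε

/-- zero ground state energy density at margin `k` -/
def BS.ZeroE (W : BS) (α k : ℝ) : Prop :=
  ∀ d : ℝ, 0 < d → ∃ b0 : ℝ, 0 < b0 ∧ ∀ b : ℝ, b0 ≤ b → -(b * d) ≤ W.Pv α (fq b k)

/-! ### Input: S0206, literally -/

/-- S0206 on the Brownian space `W` -/
def S6 (W : BS) : Prop := ∀ (α β : ℝ), 0 < α → 0 < β → ∀ φ : ℝ → ℝ, Continuous φ →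
  (∃ K : ℝ, ∀ x, |φ x| ≤ K) → ∃ p : ℝ,
    ⨅ m : OverlapProfile, variationalFunctional W.P W.B W.meas α β φ m = (p : EReal) ∧
    Tendsto (fun N : ℕ => expectedPressure N α β φ) atTop (𝓝 p) ∧
    ∀ ε : ℝ, 0 < ε → Tendsto (fun N : ℕ => pressureTailProb N α β φ p ε) atTop (𝓝 0)

/-! ### Control values of the unbounded potential -/

/-- (VCONC) the control value is concave in the margin. -/
def VCONC (W : BS) : Prop := ∀ b : ℝ, 0 < b → ∀ m : OverlapProfile,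
  ConcaveOn ℝ Set.univ fun k : ℝ => W.V (fq b k) m

/-- (VMONO) monotonicity used for the truncation. -/
def VMONO (W : BS) : Prop := ∀ b k L : ℝ, 0 < b → ∀ ψ : ℝ → ℝ, Continuous ψ →
  (∃ K, ∀ x, |ψ x| ≤ K) → ∀ m : OverlapProfile,
  W.V (fun x => fq b k x + ψ x) m ≤ W.V (fun x => fqL L b k x + ψ x) m

/-- (VTR) truncation: only controls `≥ -c` matter if `ψ` is `c`-Lipschitz, so the terminal point is
at least `B_1 - c`. -/
def VTR (W : BS) : Prop := ∀ b k L c : ℝ, 0 < b → 0 ≤ L → 0 ≤ c → ∀ ψ : ℝ → ℝ,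
  (∃ K, ∀ x, |ψ x| ≤ K) → (∀ x y, |ψ x - ψ y| ≤ c * |x - y|) → ∀ m : OverlapProfile,
  W.V (fun x => fqL L b k x + ψ x) m ≤ W.V (fun x => fq b k x + ψ x) m +
    ∫ z, (fqL L b k (z - c) - fq b k (z - c)) ∂(gaussianReal 0 1)

/-- (VZERO) the zero control. -/
def VZERO (W : BS) : Prop := ∀ b k : ℝ, 0 < b → ∀ ψ : ℝ → ℝ, Continuous ψ →
  (∃ K, ∀ x, |ψ x| ≤ K) → ∀ m : OverlapProfile,
  ∫ z, (fq b k z + ψ z) ∂(gaussianReal 0 1) ≤ W.V (fun x => fq b k x + ψ x) m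

/-- (VUP) trivial upper bound. -/
def VUP (W : BS) : Prop := ∀ b k K : ℝ, 0 < b → ∀ ψ : ℝ → ℝ, Measurable ψ → (∀ x, |ψ x| ≤ K) →
  ∀ m : OverlapProfile, W.V (fun x => fq b k x + ψ x) m ≤ K

/-- (DTAIL) the truncation error tends to zero. -/
def DTAIL : Prop := ∀ b k c : ℝ, 0 < b →
  Tendsto (fun L : ℝ => ∫ z, (fqL L b k (z - c) - fq b k (z - c)) ∂(gaussianReal 0 1)) atTop (𝓝 0)

/-! ### Pressures -/

/-- (PINT) integrability of the pressure of the unbounded potential. -/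
def PINT : Prop := ∀ (N : ℕ) (α ε b k : ℝ), 0 ≤ α → 0 ≤ ε → ε < 1 → 0 < b → ∀ ψ : ℝ → ℝ,
  Measurable ψ → (∃ K, ∀ x, |ψ x| ≤ K) →
  Integrable (spherePressure N α 1 fun x => fq b k x + ψ x) (patternLawMix N α ε)

/-- (CAP) with probability tending to one (outer measure of the bad set tends to zero), a solution at
margin `k` gives a lower bound for all the pressures. -/
def CAP : Prop := ∀ α ε : ℝ, 0 ≤ α → 0 ≤ ε → ε < 1 → ∃ C : ℝ,
  Tendsto (fun N : ℕ => patternLawMix N α ε {A | ¬ ∀ b k : ℝ, 1 ≤ b → ∀ y : Fin N → ℝ,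
    ∑ i, y i ^ 2 = 1 → (∀ μ, k ≤ ∑ i, A (μ, i) * y i) →
    -(C + 1 / 2 * Real.log b) ≤ spherePressure N α 1 (fq b k) A}) atTop (𝓝 0)

/-- (CONCM) concentration of the pressure of a bounded potential, mixture law. -/
def CONCM : Prop := ∀ α ε : ℝ, 0 ≤ α → ∀ φ : ℝ → ℝ, Measurable φ → (∃ K, ∀ x, |φ x| ≤ K) →
  ∀ t : ℝ, 0 < t → Tendsto (fun N : ℕ => patternLawMix N α ε
    {A | t < |spherePressure N α 1 φ A - pM N α ε φ|}) atTop (𝓝 0)

/-- (MARKOV) small energy from a large pressure. -/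
def MARKOV : Prop := ∀ (N : ℕ) (α ε b η τ : ℝ), 0 < N → 0 ≤ α → 0 ≤ ε → ε < 1 → 0 < b → 0 < τ →
  patternLawMix N α ε {A | ¬ RepairFin_840.NearSat A η τ} ≤
    ENNReal.ofReal (2 * -pM N α ε (fq b (-1 + η)) / (b * τ))

/-- (GUB) Gaussian upper bound with truncation. -/
def GUB (W : BS) : Prop := ∀ α b k : ℝ, 0 < α → 0 < b → ∀ ψ : ℝ → ℝ, Test ψ → ∀ δ : ℝ, 0 < δ →
  ∃ L0 : ℝ, ∀ L, L0 ≤ L → ∀ᶠ N : ℕ in atTop,
    pM N α 0 (fun x => fqL L b k x + ψ x) ≤ W.Pv α (fun x => fq b k x + ψ x) + δ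

/-- (LINDLB) lower bound for every mixture (delocalisation + Lindeberg + truncation). -/
def LINDLB (W : BS) : Prop := ∀ ε : ℝ, 0 ≤ ε → ε < 1 → ∀ α b k : ℝ, 0 < α → 0 < b →
  ∀ ψ : ℝ → ℝ, Test ψ → ∀ δ : ℝ, 0 < δ → ∀ᶠ N : ℕ in atTop,
    W.Pv α (fun x => fq b k x + ψ x) - δ ≤ pM N α ε (fun x => fq b k x + ψ x)

/-- (LOCUB) **upper bound for small `ε`** just above a density up to which the ground state energy
vanishes. -/
def LOCUB (W : BS) : Prop := ∀ αc : ℝ, 0 < αc → (∀ α, 0 < α → α < αc → W.ZeroE α (-1)) →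
  ∃ ε0 : ℝ, 0 < ε0 ∧ ε0 < 1 ∧ ∃ η : ℝ, 0 < η ∧ ∀ ε : ℝ, 0 ≤ ε → ε < ε0 →
    ∀ α : ℝ, αc < α → α < αc + η → ∀ b : ℝ, 0 < b → ∀ ψ : ℝ → ℝ, Test ψ →
    ∃ h0 : ℝ, 0 < h0 ∧ ∀ h : ℝ, |h| ≤ h0 → ∀ δ : ℝ, 0 < δ → ∃ L0 : ℝ, ∀ L, L0 ≤ L →
      ∀ᶠ N : ℕ in atTop, pM N α ε (fun x => fqL L b (-1) x + h * ψ x) ≤
        W.Pv α (fun x => fq b (-1) x + h * ψ x) + δ

/-! ### Threshold -/

/-- (KERN) fewer patterns than coordinates: a kernel vector. -/
def KERN : Prop := ∀ (N : ℕ) (α : ℝ), 0 < N → α < 1 → ∀ A : Patterns N α,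
  ∃ y : Fin N → ℝ, ∑ i, y i ^ 2 = 1 ∧ ∀ μ, ∑ i, A (μ, i) * y i = 0

/-- (BIG) unsatisfiable for large density. -/
def BIG : Prop := ∃ α : ℝ, 0 < α ∧ Tendsto (fun N : ℕ => satProbMix N α 0) atTop (𝓝 0)

/-- (MONOA) satisfiability is monotone in the density. -/
def MONOA : Prop := ∀ (N : ℕ) (α α' ε : ℝ), 0 ≤ α → α ≤ α' → satProbMix N α' ε ≤ satProbMix N α ε

/-- (MIX0) the mixture with `ε = 0` is the Gaussian law. -/
def MIX0 : Prop := mixtureLaw 0 = gaussianReal 0 1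

/-! ### Results -/

/-- (EPS) the pressure of the mixture converges to the Gaussian variational value. -/
def EPS (W : BS) : Prop := ∀ αc : ℝ, 0 < αc →
  (∀ α : ℝ, 0 < α → α < αc → Tendsto (fun N : ℕ => satProb N α) atTop (𝓝 1)) →
  ∃ ε0 : ℝ, 0 < ε0 ∧ ε0 < 1 ∧ ∃ η : ℝ, 0 < η ∧ ∀ ε : ℝ, 0 ≤ ε → ε < ε0 →
    ∀ α : ℝ, αc < α → α < αc + η → ∀ b : ℝ, 0 < b → ∀ ψ : ℝ → ℝ, Test ψ →
    ∃ h0 : ℝ, 0 < h0 ∧ ∀ h : ℝ, |h| ≤ h0 →
      Tendsto (fun N : ℕ => pM N α ε fun x => fq b (-1) x + h * ψ x) atTop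
        (𝓝 (W.Pv α fun x => fq b (-1) x + h * ψ x))

end

end Crest.Agent.R146.P34_734
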