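import Crest.Agent.R146.ZLink_43
import Crest.Agent.R146.DualG2_256
import Crest.Agent.R146.ProfF_540
import Crest.Agent.R146.VTr_468

/-!
Row 146, node ZLINK (helper43), instances of the interfaces of `ZLink_43`:
`dict : Dict` (from `ProfF_540`) and `link : Link W (RB ..) (KB ..) (xi .. 1)` (from `DualG2_256`),
and the unconditional forms of the theorems of `ZLink_43`.
-/

set_option autoImplicit false

open MeasureTheory ProbabilityTheory Filter Set Crest.ProbabilityR.Perceptron
open scoped Topology ENNReal RealInnerProductSpace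

namespace Crest.Agent.R146.ZLink_43

open Crest.Agent.R146.P34_734 Crest.Agent.R146.Asm0204_734 Crest.Agent.R146.Hilb
  Crest.Agent.R146.HilbE Crest.Agent.R146.ProfB_540

/-- the dictionary of profiles -/
theorem dict : Dict where
  adm := fun m h => ProfF_540.adm_tail m h
  ent := fun m h => by
    have hA := ProfF_540.adm_tail m h
    rw [ProfF_540.entropy_eq m hA, ENNReal.toReal_ofReal
      (by have := ProfC_540.Ent_nonneg hA; positivity)]
    ring
  prof := fun D h => by
    obtain ⟨m, h1, h2, h3, h4⟩ := ProfF_540.exists_overlapProfile h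
    exact ⟨m, by rw [h4]; exact ENNReal.ofReal_ne_top, h1⟩

/-- the link between the literal control value and the Hilbert frame -/
theorem link (W : BS) : Link W (DualG_256.RB W.P W.B W.meas) (DualG_256.KB W.P W.B W.meas)
    (DualG_256.xi W.meas W.br 1) where
  smul := fun c hc x hx => DualG_256.KB_smul W.meas c hc.le x hx
  low := fun b hb m x hx => by
    have h := DualG_256.value_le_H W.meas W.br m hb (-1) hx
    rw [neg_neg] at h
    refine le_trans (le_of_eq ?_) (h.trans (le_of_eq ?_))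
    · rfl
    · ring
  att := fun b hb m => by
    have h := DualG_256.value_eq_H W.meas W.br m hb (-1)
    rw [neg_neg] at h
    refine ⟨_, DualG_256.lamH_mem W.meas W.br m hb (-1), le_of_eq ?_⟩
    have h2 : W.V (fq b (-1)) m = controlValue W.P W.B W.meas (DualV_256.fbk b (-1)) m := rfl
    rw [h2, h]
    ring

/-! ### The theorems of `ZLink_43` in the concrete frame -/

/-- the Hilbert functional of a Brownian space (`c = 1`: soft; `c = 0`: jamming) -/
noncomputable def JW (W : BS) (α c e : ℝ) (x : DualG_256.HH W.P W.B W.meas) (D : ℝ → ℝ) : ℝ :=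
  Je (DualG_256.RB W.P W.B W.meas) α c e (DualG_256.xi W.meas W.br 1) x D

variable {W : BS}

theorem Pv_le_JW {α b : ℝ} (hα : 0 ≤ α) (hb : 0 < b) {x : DualG_256.HH W.P W.B W.meas}
    (hx : x ∈ DualG_256.KB W.P W.B W.meas) {D : ℝ → ℝ} (h : Adm (1 / b) D) :
    W.Pv α (fq b (-1)) ≤ b * JW W α 1 (1 / b) x D :=
  Pv_le (link W) dict (VTr_468.vzero W) hα hb hx h

theorem exists_JW_lt {α b c : ℝ} (hα : 0 ≤ α) (hb : 0 < b) (hc : W.Pv α (fq b (-1)) < c) :
    ∃ x ∈ DualG_256.KB W.P W.B W.meas, ∃ D, Adm (1 / b) D ∧ b * JW W α 1 (1 / b) x D < c :=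
  exists_lt (link W) dict hα hb hc

theorem JW_nonneg_of_zeroE {α : ℝ} (hα : 0 ≤ α) (hE : W.ZeroE α (-1))
    {x : DualG_256.HH W.P W.B W.meas} (hx : x ∈ DualG_256.KB W.P W.B W.meas) {D : ℝ → ℝ}
    (h : Adm 0 D) : 0 ≤ JW W α 1 0 x D :=
  nonneg_of_zeroE (link W) dict (VTr_468.vzero W) hα hE hx h

theorem exists_JW_neg {α : ℝ} (hα : 0 < α) (hE : ¬ W.ZeroE α (-1)) :
    ∃ x ∈ DualG_256.KB W.P W.B W.meas, ∃ D, Adm 0 D ∧ JW W α 1 0 x D < 0 :=
  exists_neg_of_not_zeroE (link W) dict hα hE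

theorem JW_jam_nonneg {αc : ℝ} (hαc : 0 < αc) (hE : ∀ α, 0 < α → α < αc → W.ZeroE α (-1))
    {x : DualG_256.HH W.P W.B W.meas} (hx : x ∈ DualG_256.KB W.P W.B W.meas) {D : ℝ → ℝ}
    (h : Adm 0 D) : 0 ≤ JW W αc 0 0 x D :=
  jam_nonneg (link W) dict (VTr_468.vzero W) hαc hE hx h

end Crest.Agent.R146.ZLink_43
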