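import Crest.Agent.R146.P5Def_12
import Crest.Agent.R146.LinkC_356
import Crest.Agent.R146.ZLinkI_43
import Crest.Agent.R146.ProfF_540

/-!
Row 146, package P5 (helper288, glue only): the exact nodes `LINKM` and `LINKZ` of `P5Def_12` from
`LinkB_356` (helper356), `ZLinkI_43` (helper43) and the dictionary `ProfF_540` (helper540).
-/

set_option autoImplicit false

namespace Crest.Agent.R146.P5Lk_288

open Set Filter Topology MeasureTheory ProbabilityTheory Crest.ProbabilityR.Perceptron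
open Crest.Agent.R146.ProfB_540 Crest.Agent.R146.P34_734 Crest.Agent.R146.P5Def_12
open Crest.Agent.R146.P5A_12

theorem dict : LinkB_356.Dict where
  ofAdm _ h := by
    obtain ⟨m, h1, _⟩ := ProfF_540.exists_overlapProfile h
    exact ⟨m, h1⟩
  toAdm m h := (ProfF_540.entropy_ne_top_iff m).1 h
  ent m h := ⟨(ProfF_540.entropy_ne_top_iff m).2 h, by
    rw [ProfF_540.entropy_eq m h, ENNReal.toReal_ofReal]
    have := P5A_12.Ent_nonneg h
    linarith⟩

theorem linkm (W : BS) : LINKM W := by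
  intro α b hα hb x D h
  have hxi := LinkC_356.xiW_neg_one W
  have h' : HilbD.IsMin (LinkB_356.RW W) α 1 (1 / b) (LinkB_356.xiW W (-1)) (LinkB_356.KW W) x D := by
    rw [hxi]
    exact ⟨h.mem, h.adm, h.le⟩
  obtain ⟨-, m, h3, -, h5, -, h7⟩ := LinkB_356.link_scaled W dict hα hb (-1) h'
  refine ⟨m, h3, h5, ?_⟩
  rw [hxi] at h7
  filter_upwards [h7] with ω hω
  rw [show (MW W).J (xiW W + (RW W).Dop D x) ω = _ from hω]
  ring

theorem linkz (W : BS) : LINKZ W := by
  intro α hα
  constructor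
  · intro hE d hd
    obtain ⟨b0, hb0, h⟩ := hE d hd
    refine ⟨b0, hb0, fun b hb x hx D hD => ?_⟩
    have hbp : 0 < b := hb0.trans_le hb
    have h1 := h b hb
    have h2 : W.Pv α (fq b (-1)) ≤ b * ZLink_43.JW W α 1 (1 / b) x D :=
      ZLink_43.Pv_le_JW hα.le hbp hx hD
    have h3 : b * (-d) ≤ b * ZLink_43.JW W α 1 (1 / b) x D := by linarith
    exact le_of_mul_le_mul_left h3 hbp
  · intro hH d hd
    obtain ⟨b0, hb0, h⟩ := hH d hd
    refine ⟨b0, hb0, fun b hb => ?_⟩
    have hbp : 0 < b := hb0.trans_le hb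
    by_contra hc
    obtain ⟨x, hx, D, hD, h1⟩ := ZLink_43.exists_JW_lt hα.le hbp (not_le.1 hc)
    have h2 : -d ≤ ZLink_43.JW W α 1 (1 / b) x D := h b hb x hx D hD
    have h3 := mul_le_mul_of_nonneg_left h2 hbp.le
    linarith

end Crest.Agent.R146.P5Lk_288
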