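import Mathlib
import Crest.Prelude.Def_Perceptron
import Crest.Agent.R146.Obs1_918
import Crest.Agent.R146.Assoc3_323

/-!
# Row 146, package OBS-2 (helper788), part A: the literal Gibbs averages as a probability law

* `QN α β ε N` : the law of (pattern sample, Gibbs configuration), built on `Obs918.joint`;
* `gapMean_eq`, `forceMean_eq` : the literal means are integrals against `QN`;
* joint measurability of all observables; `rowAvg`;
* `second_moment_QN` : uniform bound of the mean square violation under `QN`.
-/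

set_option autoImplicit false

open MeasureTheory ProbabilityTheory Filter Topology
open Crest.ProbabilityR.Perceptron

namespace Crest.Agent.R146.Emp_788

variable {N : ℕ} {α : ℝ}

/-! ## Measures -/

lemma sphereLaw_ne_zero (N : ℕ) [NeZero N] : sphereLaw N ≠ 0 := by
  have h1 : Nontrivial (EuclideanSpace ℝ (Fin N)) := by
    have h0 : 0 < N := Nat.pos_of_ne_zero (NeZero.ne N)
    have : Nonempty (Fin N) := ⟨⟨0, h0⟩⟩
    infer_instance
  exact Measure.toSphere_ne_zero _

instance isFinite_sphereLaw (N : ℕ) : IsFiniteMeasure (sphereLaw N) := by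
  unfold sphereLaw
  infer_instance

lemma isProb_mixtureLaw (ε : ℝ) : IsProbabilityMeasure (mixtureLaw ε) := by
  constructor
  unfold mixtureLaw
  rw [Measure.add_apply, Measure.smul_apply, Measure.smul_apply, measure_univ, measure_univ]
  simp only [ENNReal.smul_def, smul_eq_mul, mul_one]
  rw [← ENNReal.coe_add]
  norm_num

instance isProb_patternLawMix (N : ℕ) (α ε : ℝ) : IsProbabilityMeasure (patternLawMix N α ε) := by
  have := isProb_mixtureLaw ε
  unfold patternLawMix
  infer_instance

/-! ## Measurability -/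

lemma continuous_gap (μ : Fin (numPatterns N α)) :
    Continuous (fun z : Patterns N α × UnitSphere N => gap z.1 z.2 μ) := by
  unfold gap
  refine continuous_const.add (continuous_finsetSum _ fun i _ => ?_)
  refine Continuous.mul ?_ ?_
  · exact (continuous_apply (μ, i)).comp continuous_fst
  · have h1 : Continuous (fun z : Patterns N α × UnitSphere N =>
        ((z.2 : EuclideanSpace ℝ (Fin N)))) := continuous_subtype_val.comp continuous_snd
    exact (EuclideanSpace.proj i).continuous.comp h1

lemma measurable_gap (μ : Fin (numPatterns N α)) :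
    Measurable (fun z : Patterns N α × UnitSphere N => gap z.1 z.2 μ) :=
  (continuous_gap μ).measurable

lemma measurable_energy :
    Measurable (fun z : Patterns N α × UnitSphere N => penaltyEnergy z.1 z.2) := by
  unfold penaltyEnergy
  refine Finset.measurable_sum _ fun μ _ => ?_
  exact measurable_const.mul ((((measurable_gap μ).neg).max measurable_const).pow_const 2)

lemma energy_nonneg (A : Patterns N α) (y : UnitSphere N) : 0 ≤ penaltyEnergy A y := by
  unfold penaltyEnergy
  exact Finset.sum_nonneg fun μ _ => by positivity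

/-- the Boltzmann weight -/
noncomputable def ww (β : ℝ) (A : Patterns N α) (y : UnitSphere N) : ℝ :=
  Real.exp (-β * penaltyEnergy A y)

lemma goodWeight_ww [NeZero N] {β : ℝ} (hβ : 0 ≤ β) :
    Obs918.GoodWeight (sphereLaw N) (ww β : Patterns N α → UnitSphere N → ℝ) where
  meas := by
    have h : Measurable (fun z : Patterns N α × UnitSphere N =>
        Real.exp (-β * penaltyEnergy z.1 z.2)) :=
      Real.measurable_exp.comp (measurable_const.mul measurable_energy)
    exact h
  pos := fun A y => Real.exp_pos _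
  bdd := fun A => ⟨1, fun y => by
    unfold ww
    rw [Real.exp_le_one_iff]
    have := energy_nonneg A y
    nlinarith⟩
  ne := sphereLaw_ne_zero N

/-- the law of (pattern sample, Gibbs configuration) -/
noncomputable def QN (α β ε : ℝ) (N : ℕ) : Measure (Patterns N α × UnitSphere N) :=
  Obs918.joint (patternLawMix N α ε) (sphereLaw N) (ww β)

lemma isProb_QN [NeZero N] {β : ℝ} (hβ : 0 ≤ β) (ε : ℝ) : IsProbabilityMeasure (QN α β ε N) :=
  Obs918.isProbabilityMeasure_joint (goodWeight_ww hβ)

lemma integral_QN [NeZero N] {β : ℝ} (hβ : 0 ≤ β) (ε : ℝ)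
    {O : Patterns N α × UnitSphere N → ℝ} (hO : Measurable O) {K : ℝ} (hK : ∀ p, |O p| ≤ K) :
    ∫ p, O p ∂QN α β ε N =
      ∫ A, gibbsAverage β A (fun y => O (A, y)) ∂patternLawMix N α ε := by
  unfold QN
  rw [Obs918.integral_joint (goodWeight_ww hβ) hO hK]
  rfl

/-! ## Observables -/

/-- the average over the patterns of a function of the gap -/
noncomputable def rowAvg (ψ : ℝ → ℝ) (p : Patterns N α × UnitSphere N) : ℝ :=
  (∑ μ, ψ (gap p.1 p.2 μ)) / numPatterns N α

lemma measurable_rowAvg {ψ : ℝ → ℝ} (hψ : Measurable ψ) :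
    Measurable (rowAvg ψ : Patterns N α × UnitSphere N → ℝ) := by
  unfold rowAvg
  exact (Finset.measurable_sum _ fun μ _ => hψ.comp (measurable_gap μ)).div_const _

lemma abs_rowAvg_le {ψ : ℝ → ℝ} {K : ℝ} (hK0 : 0 ≤ K) (hK : ∀ x, |ψ x| ≤ K)
    (p : Patterns N α × UnitSphere N) : |rowAvg ψ p| ≤ K := by
  unfold rowAvg
  rw [abs_div, Nat.abs_cast]
  refine div_le_of_le_mul₀ (Nat.cast_nonneg _) hK0 ?_
  calc |∑ μ, ψ (gap p.1 p.2 μ)| ≤ ∑ μ, |ψ (gap p.1 p.2 μ)| := Finset.abs_sum_le_sum_abs _ _
    _ ≤ ∑ _μ : Fin (numPatterns N α), K := Finset.sum_le_sum fun μ _ => hK _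
    _ = K * numPatterns N α := by simp [mul_comm]

lemma rowAvg_mono {ψ χ : ℝ → ℝ} (h : ∀ x, ψ x ≤ χ x) (p : Patterns N α × UnitSphere N) :
    rowAvg ψ p ≤ rowAvg χ p := by
  unfold rowAvg
  exact div_le_div_of_nonneg_right (Finset.sum_le_sum fun μ _ => h _) (Nat.cast_nonneg _)

lemma rowAvg_nonneg {ψ : ℝ → ℝ} (h : ∀ x, 0 ≤ ψ x) (p : Patterns N α × UnitSphere N) :
    0 ≤ rowAvg ψ p := by
  unfold rowAvg
  exact div_nonneg (Finset.sum_nonneg fun μ _ => h _) (Nat.cast_nonneg _)

lemma rowAvg_sub (ψ χ : ℝ → ℝ) (p : Patterns N α × UnitSphere N) :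
    rowAvg (fun x => ψ x - χ x) p = rowAvg ψ p - rowAvg χ p := by
  unfold rowAvg
  rw [Finset.sum_sub_distrib, sub_div]

lemma rowAvg_const_mul (c : ℝ) (χ : ℝ → ℝ) (p : Patterns N α × UnitSphere N) :
    rowAvg (fun x => c * χ x) p = c * rowAvg χ p := by
  unfold rowAvg
  rw [← Finset.mul_sum, mul_div_assoc]

/-! ### Gap fraction -/

lemma gapFraction_eq_rowAvg (δ u : ℝ) (p : Patterns N α × UnitSphere N) :
    gapFraction δ u p.1 p.2 = rowAvg (fun x => if δ < x ∧ x ≤ u then (1 : ℝ) else 0) p := by
  unfold gapFraction rowAvg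
  rw [Finset.sum_boole]

lemma measurable_gapFraction (δ u : ℝ) :
    Measurable (fun z : Patterns N α × UnitSphere N => gapFraction δ u z.1 z.2) := by
  simp_rw [gapFraction_eq_rowAvg]
  refine measurable_rowAvg ?_
  refine Measurable.ite ?_ measurable_const measurable_const
  exact (measurableSet_Ioi (a := δ)).inter (measurableSet_Iic (a := u))

lemma abs_gapFraction_le (δ u : ℝ) (p : Patterns N α × UnitSphere N) :
    |gapFraction δ u p.1 p.2| ≤ 1 := by
  rw [gapFraction_eq_rowAvg]
  refine abs_rowAvg_le zero_le_one (fun x => ?_) p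
  split_ifs <;> simp

/-- the literal mean gap fraction is an integral against `QN` -/
theorem gapMean_eq [NeZero N] {β : ℝ} (hβ : 0 ≤ β) (ε δ u : ℝ) :
    gapMean N β α ε δ u = ∫ p, gapFraction δ u p.1 p.2 ∂QN α β ε N := by
  rw [integral_QN hβ ε (measurable_gapFraction δ u) (abs_gapFraction_le δ u)]
  rfl

/-! ### Force fraction -/

/-- negative part of the gap -/
def npart (x : ℝ) : ℝ := max (-x) 0

lemma npart_nonneg (x : ℝ) : 0 ≤ npart x := le_max_right _ _

lemma continuous_npart : Continuous npart := by
  unfold npart; fun_prop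

/-- indicator of `x < a` -/
noncomputable def ilt (a x : ℝ) : ℝ := if x < a then 1 else 0

lemma measurable_ilt (a : ℝ) : Measurable (ilt a) :=
  Measurable.ite (measurableSet_Iio (a := a)) measurable_const measurable_const

lemma ilt_nonneg (a x : ℝ) : 0 ≤ ilt a x := by unfold ilt; split_ifs <;> simp

lemma ilt_le_one (a x : ℝ) : ilt a x ≤ 1 := by unfold ilt; split_ifs <;> simp

lemma ilt_mono {a b : ℝ} (h : a ≤ b) (x : ℝ) : ilt a x ≤ ilt b x := by
  unfold ilt
  split_ifs with h1 h2
  · exact le_rfl
  · exact absurd (h1.trans_le h) h2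
  · exact zero_le_one
  · exact le_rfl

lemma card_violated (A : Patterns N α) (y : UnitSphere N) :
    ((violated A y).card : ℝ) = ∑ μ, ilt 0 (gap A y μ) := by
  unfold violated ilt
  rw [Finset.sum_boole]

lemma sum_violated (A : Patterns N α) (y : UnitSphere N) :
    ∑ μ ∈ violated A y, -gap A y μ = ∑ μ, npart (gap A y μ) := by
  unfold violated
  rw [Finset.sum_filter]
  refine Finset.sum_congr rfl fun μ _ => ?_
  unfold npart
  split_ifs with h
  · rw [max_eq_left]; linarith
  · rw [max_eq_right]; linarith

/-- the mean violation as a ratio of row averages -/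
lemma meanViolation_eq (hM : numPatterns N α ≠ 0) (p : Patterns N α × UnitSphere N) :
    meanViolation p.1 p.2 = rowAvg npart p / rowAvg (ilt 0) p := by
  unfold meanViolation rowAvg
  rw [sum_violated, card_violated]
  have h : (numPatterns N α : ℝ) ≠ 0 := Nat.cast_ne_zero.mpr hM
  rw [div_div_div_cancel_right₀ h]

/-- the force fraction as a function of row averages -/
lemma forceFraction_eq (hM : numPatterns N α ≠ 0) {s : ℝ} (hs : 0 < s)
    (p : Patterns N α × UnitSphere N) :
    forceFraction s p.1 p.2 =
      (rowAvg (ilt 0) p - rowAvg (ilt (-(s * (rowAvg npart p / rowAvg (ilt 0) p)))) p) /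
        rowAvg (ilt 0) p := by
  set m := rowAvg npart p / rowAvg (ilt 0) p with hm
  have h : (numPatterns N α : ℝ) ≠ 0 := Nat.cast_ne_zero.mpr hM
  have hmv : meanViolation p.1 p.2 = m := meanViolation_eq hM p
  by_cases hv : violated p.1 p.2 = ∅
  · have h0 : rowAvg (ilt 0) p = 0 := by
      unfold rowAvg
      rw [← card_violated, hv]
      simp
    rw [h0, div_zero]
    unfold forceFraction
    rw [hv]
    simp
  · -- positive mean violation
    obtain ⟨μ₀, hμ₀⟩ := Finset.nonempty_iff_ne_empty.mpr hv
    have hcard : (0 : ℝ) < (violated p.1 p.2).card := by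
      exact_mod_cast Finset.card_pos.mpr ⟨μ₀, hμ₀⟩
    have hmem : ∀ μ ∈ violated p.1 p.2, 0 < -gap p.1 p.2 μ := by
      intro μ hμ
      have := (Finset.mem_filter.mp hμ).2
      linarith
    have hmpos : 0 < m := by
      rw [← hmv]
      unfold meanViolation
      exact div_pos (Finset.sum_pos hmem ⟨μ₀, hμ₀⟩) hcard
    have hsm : 0 < s * m := mul_pos hs hmpos
    have e1 : ((((violated p.1 p.2).filter
        fun μ => -gap p.1 p.2 μ / meanViolation p.1 p.2 ≤ s).card : ℝ)) =
        ∑ μ, (ilt 0 (gap p.1 p.2 μ) - ilt (-(s * m)) (gap p.1 p.2 μ)) := by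
      rw [hmv]
      unfold violated
      rw [Finset.filter_filter, ← Finset.sum_boole]
      refine Finset.sum_congr rfl fun μ _ => ?_
      have e2 : (-gap p.1 p.2 μ / m ≤ s) ↔ -(s * m) ≤ gap p.1 p.2 μ := by
        rw [div_le_iff₀ hmpos]
        constructor <;> intro h' <;> linarith
      unfold ilt
      by_cases hg : gap p.1 p.2 μ < 0
      · by_cases hg2 : gap p.1 p.2 μ < -(s * m)
        · have : ¬ (-gap p.1 p.2 μ / m ≤ s) := by rw [e2]; linarith
          simp [hg, hg2, this]
        · have : (-gap p.1 p.2 μ / m ≤ s) := by rw [e2]; linarith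
          simp [hg, hg2, this]
      · have hg2 : ¬ (gap p.1 p.2 μ < -(s * m)) := by linarith
        simp [hg, hg2]
    unfold forceFraction
    rw [e1, card_violated]
    unfold rowAvg
    rw [← sub_div, div_div_div_cancel_right₀ h, Finset.sum_sub_distrib]

lemma measurable_meanViolation :
    Measurable (fun z : Patterns N α × UnitSphere N => meanViolation z.1 z.2) := by
  unfold meanViolation
  simp_rw [sum_violated, card_violated]
  refine Measurable.div (Finset.measurable_sum _ fun μ _ => ?_)
    (Finset.measurable_sum _ fun μ _ => ?_)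
  · exact continuous_npart.measurable.comp (measurable_gap μ)
  · exact (measurable_ilt 0).comp (measurable_gap μ)

lemma measurable_forceFraction (s : ℝ) :
    Measurable (fun z : Patterns N α × UnitSphere N => forceFraction s z.1 z.2) := by
  unfold forceFraction
  have e1 : ∀ z : Patterns N α × UnitSphere N, ((((violated z.1 z.2).filter
        fun μ => -gap z.1 z.2 μ / meanViolation z.1 z.2 ≤ s).card : ℝ)) =
        ∑ μ, (if gap z.1 z.2 μ < 0 ∧ -gap z.1 z.2 μ / meanViolation z.1 z.2 ≤ s
          then (1 : ℝ) else 0) := by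
    intro z
    unfold violated
    rw [Finset.filter_filter, ← Finset.sum_boole]
  simp_rw [e1, card_violated]
  refine Measurable.div (Finset.measurable_sum _ fun μ _ => ?_)
    (Finset.measurable_sum _ fun μ _ => (measurable_ilt 0).comp (measurable_gap μ))
  refine Measurable.ite ?_ measurable_const measurable_const
  exact (measurableSet_lt (measurable_gap μ) measurable_const).inter
    (measurableSet_le ((measurable_gap μ).neg.div measurable_meanViolation) measurable_const)

lemma abs_forceFraction_le (s : ℝ) (p : Patterns N α × UnitSphere N) :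
    |forceFraction s p.1 p.2| ≤ 1 := by
  have h0 : 0 ≤ forceFraction s p.1 p.2 := by unfold forceFraction; positivity
  rw [abs_of_nonneg h0]
  unfold forceFraction
  refine div_le_one_of_le₀ ?_ (Nat.cast_nonneg _)
  exact_mod_cast Finset.card_filter_le _ _

/-- the literal mean force fraction is an integral against `QN` -/
theorem forceMean_eq [NeZero N] {β : ℝ} (hβ : 0 ≤ β) (ε s : ℝ) :
    forceMean N β α ε s = ∫ p, forceFraction s p.1 p.2 ∂QN α β ε N := by
  rw [integral_QN hβ ε (measurable_forceFraction s) (abs_forceFraction_le s)]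
  rfl

end Crest.Agent.R146.Emp_788
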