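import Mathlib
import Crest.Agent.R146.EmpA_788

/-!
# Row 146, package OBS-2 (helper788), part B: uniform second moment of the violations

`lintegral_rowAvg_sq_le` : under `QN` the mean over the patterns of the squared violation has
expectation at most `2 e^4`, uniformly in `N`, `β ≥ 0`, `α` and `0 ≤ ε ≤ 1` (association).
-/

set_option autoImplicit false

open MeasureTheory ProbabilityTheory Filter Topology
open Crest.ProbabilityR.Perceptron

namespace Crest.Agent.R146.Emp_788

open Crest.Agent.R146.Assoc_323 (fld wt Zf PL QG qp abs_qp_le monotone_qp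
  lintegral_gav_le lintegral_exp_fld_le sum_crd_sq_le)
open Crest.Agent.R146.PressC_663 (crd measurable_crd)

variable {N : ℕ} {α : ℝ}

lemma gap_eq_fld (A : Patterns N α) (y : UnitSphere N) (μ : Fin (numPatterns N α)) :
    gap A y μ = 1 + fld (crd N) A μ y := rfl

lemma ww_eq_wt (β : ℝ) (A : Patterns N α) (y : UnitSphere N) :
    ww β A y = wt (crd N) (fun _ => qp β (-1)) A y := by
  unfold ww wt penaltyEnergy qp
  congr 1
  rw [Finset.mul_sum]
  refine Finset.sum_congr rfl fun μ _ => ?_
  rw [gap_eq_fld]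
  have : -(1 + fld (crd N) A μ y) = -1 - fld (crd N) A μ y := by ring
  rw [this]
  ring

lemma gibbsAverage_eq_gav (β : ℝ) (A : Patterns N α) (O : UnitSphere N → ℝ) :
    gibbsAverage β A O =
      Assoc_323.gav (sphereLaw N) (crd N) (fun _ => qp β (-1)) A O := by
  unfold gibbsAverage Assoc_323.gav Zf
  have h : ∀ y, Real.exp (-β * penaltyEnergy A y) = wt (crd N) (fun _ => qp β (-1)) A y :=
    fun y => ww_eq_wt β A y
  simp_rw [h]

lemma npart_sq_le (x : ℝ) :
    npart (1 + x) ^ 2 ≤ 1 * (Real.exp (2 * x) + Real.exp (-(2 * x))) := by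
  have h1 : npart (1 + x) ≤ Real.exp (-x) := by
    unfold npart
    refine max_le ?_ (Real.exp_pos _).le
    have := Real.add_one_le_exp (-x)
    linarith
  have h2 : npart (1 + x) ^ 2 ≤ Real.exp (-x) ^ 2 := pow_le_pow_left₀ (npart_nonneg _) h1 2
  have h3 : Real.exp (-x) ^ 2 = Real.exp (-(2 * x)) := by
    rw [← Real.exp_nat_mul]; congr 1; push_cast; ring
  have := Real.exp_pos (2 * x)
  linarith

theorem lintegral_gibbs_sq_le [NeZero N] {β ε : ℝ} (hβ : 0 ≤ β) (h0 : 0 ≤ ε) (h1 : ε ≤ 1)
    (μ : Fin (numPatterns N α)) :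
    ∫⁻ A, ENNReal.ofReal (gibbsAverage β A (fun y => npart (gap A y μ) ^ 2))
      ∂patternLawMix N α ε ≤ ENNReal.ofReal (2 * Real.exp 4) := by
  have hgood := RepairLaw_840.good_mixtureLaw ε h0 h1
  have := isProb_mixtureLaw ε
  have hχ : Antitone (fun x : ℝ => npart (1 + x) ^ 2) := by
    intro x y hxy
    refine pow_le_pow_left₀ (npart_nonneg _) ?_ 2
    unfold npart
    exact max_le_max (by linarith) le_rfl
  have key := lintegral_gav_le (ρ := mixtureLaw ε) (μ := sphereLaw N) (sphereLaw_ne_zero N)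
    (measurable_crd N) (fun u => sum_crd_sq_le u)
    (C := β * (1 + (-1) ^ 2)) (by positivity)
    (ψ := fun _ : Fin (numPatterns N α) => qp β (-1))
    (fun _ => (Assoc_323.continuous_qp β (-1)).measurable)
    (fun _ x => abs_qp_le hβ (-1) x) μ (f := qp β (-1)) (T := 0) (monotone_qp hβ (-1))
    (fun x => by simp) hχ (fun x => sq_nonneg _)
    (c := ENNReal.ofReal (1 * (2 * Real.exp 4)))
    (fun ω => lintegral_exp_fld_le hgood (fun u => sum_crd_sq_le u) μ ω zero_le_one npart_sq_le)
  simp only [mul_zero, Real.exp_zero, ENNReal.ofReal_one, one_mul] at key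
  simp_rw [gibbsAverage_eq_gav, gap_eq_fld]
  exact key

/-- for a fixed sample the gaps are bounded on the sphere -/
lemma exists_bound_gap (A : Patterns N α) (μ : Fin (numPatterns N α)) :
    ∃ C : ℝ, ∀ y : UnitSphere N, |gap A y μ| ≤ C := by
  refine ⟨1 + Real.sqrt (Assoc_323.rsq A μ), fun y => ?_⟩
  rw [gap_eq_fld]
  calc |1 + fld (crd N) A μ y| ≤ |(1 : ℝ)| + |fld (crd N) A μ y| := abs_add_le _ _
    _ ≤ 1 + Real.sqrt (Assoc_323.rsq A μ) := by
        rw [abs_one]
        have := Assoc_323.abs_fld_le (fun u => sum_crd_sq_le (N := N) u) A μ y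
        linarith

theorem lintegral_QN_sq_le [NeZero N] {β ε : ℝ} (hβ : 0 ≤ β) (h0 : 0 ≤ ε) (h1 : ε ≤ 1)
    (μ : Fin (numPatterns N α)) :
    ∫⁻ p, ENNReal.ofReal (npart (gap p.1 p.2 μ) ^ 2) ∂QN α β ε N ≤
      ENNReal.ofReal (2 * Real.exp 4) := by
  have hw : Obs918.GoodWeight (sphereLaw N) (ww β : Patterns N α → UnitSphere N → ℝ) :=
    goodWeight_ww hβ
  have hm : Measurable (fun p : Patterns N α × UnitSphere N =>
      ENNReal.ofReal (npart (gap p.1 p.2 μ) ^ 2)) :=
    ((continuous_npart.measurable.comp (measurable_gap μ)).pow_const 2).ennreal_ofReal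
  unfold QN
  rw [Obs918.lintegral_joint hw hm]
  refine le_trans (le_of_eq ?_) (lintegral_gibbs_sq_le (N := N) (α := α) hβ h0 h1 μ)
  refine lintegral_congr fun A => ?_
  have hi : Integrable (fun y => npart (gap A y μ) ^ 2 * ww β A y) (sphereLaw N) := by
    obtain ⟨C, hC⟩ := exists_bound_gap A μ
    refine hw.int_mul A (K := C ^ 2) ?_ ?_
    · exact ((continuous_npart.measurable.comp (measurable_gap μ)).pow_const 2).comp
        measurable_prodMk_left
    · intro y
      have hC0 : 0 ≤ C := (abs_nonneg _).trans (hC y)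
      rw [abs_of_nonneg (sq_nonneg _)]
      refine pow_le_pow_left₀ (npart_nonneg _) ?_ 2
      unfold npart
      exact max_le ((neg_le_abs _).trans (hC y)) hC0
  have hZ := hw.Z_pos A
  calc ∫⁻ y, ENNReal.ofReal (npart (gap A y μ) ^ 2) *
        ENNReal.ofReal (ww β A y / ∫ y, ww β A y ∂sphereLaw N) ∂sphereLaw N
      = ∫⁻ y, ENNReal.ofReal ((npart (gap A y μ) ^ 2 * ww β A y) /
          ∫ y, ww β A y ∂sphereLaw N) ∂sphereLaw N := by
        refine lintegral_congr fun y => ?_
        rw [← ENNReal.ofReal_mul (sq_nonneg _), mul_div_assoc]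
    _ = ENNReal.ofReal (∫ y, (npart (gap A y μ) ^ 2 * ww β A y) /
          (∫ y, ww β A y ∂sphereLaw N) ∂sphereLaw N) := by
        rw [ofReal_integral_eq_lintegral_ofReal (hi.div_const _)]
        exact Eventually.of_forall fun y =>
          div_nonneg (mul_nonneg (sq_nonneg _) (hw.pos A y).le) hZ.le
    _ = ENNReal.ofReal (gibbsAverage β A (fun y => npart (gap A y μ) ^ 2)) := by
        rw [integral_div]
        rfl

theorem lintegral_rowAvg_sq_le [NeZero N] {β ε : ℝ} (hβ : 0 ≤ β) (h0 : 0 ≤ ε) (h1 : ε ≤ 1) :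
    ∫⁻ p, ENNReal.ofReal (rowAvg (fun x => npart x ^ 2) p) ∂QN α β ε N ≤
      ENNReal.ofReal (2 * Real.exp 4) := by
  by_cases hM : numPatterns N α = 0
  · have : ∀ p : Patterns N α × UnitSphere N, rowAvg (fun x => npart x ^ 2) p = 0 := by
      intro p
      unfold rowAvg
      have h : (numPatterns N α : ℝ) = 0 := by exact_mod_cast hM
      rw [h, div_zero]
    simp_rw [this]
    simp
  · have hM' : (0 : ℝ) < numPatterns N α := by exact_mod_cast Nat.pos_of_ne_zero hM
    have e1 : ∀ p : Patterns N α × UnitSphere N,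
        ENNReal.ofReal (rowAvg (fun x => npart x ^ 2) p) =
          (∑ μ, ENNReal.ofReal (npart (gap p.1 p.2 μ) ^ 2)) *
            (ENNReal.ofReal (numPatterns N α))⁻¹ := by
      intro p
      unfold rowAvg
      rw [ENNReal.ofReal_div_of_pos hM', div_eq_mul_inv,
        ENNReal.ofReal_sum_of_nonneg (fun μ _ => sq_nonneg _)]
    simp_rw [e1]
    rw [lintegral_mul_const'' _ ?_, lintegral_finsetSum _ ?_]
    · have h2 : ∑ μ : Fin (numPatterns N α),
          ∫⁻ p, ENNReal.ofReal (npart (gap p.1 p.2 μ) ^ 2) ∂QN α β ε N ≤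
          ENNReal.ofReal (numPatterns N α) * ENNReal.ofReal (2 * Real.exp 4) := by
        refine (Finset.sum_le_sum fun μ _ => lintegral_QN_sq_le hβ h0 h1 μ).trans ?_
        simp
      calc _ ≤ ENNReal.ofReal (numPatterns N α) * ENNReal.ofReal (2 * Real.exp 4) *
              (ENNReal.ofReal (numPatterns N α))⁻¹ := mul_le_mul_left h2 _
        _ = ENNReal.ofReal (2 * Real.exp 4) := by
            rw [mul_comm (ENNReal.ofReal (numPatterns N α : ℝ)), mul_assoc,
              ENNReal.mul_inv_cancel (ENNReal.ofReal_pos.mpr hM').ne' ENNReal.ofReal_ne_top,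
              mul_one]
    · intro μ _
      exact ((continuous_npart.measurable.comp (measurable_gap μ)).pow_const 2).ennreal_ofReal
    · refine (Finset.measurable_sum _ fun μ _ => ?_).aemeasurable
      exact ((continuous_npart.measurable.comp (measurable_gap μ)).pow_const 2).ennreal_ofReal

/-- truncated second moment -/
theorem integral_rowAvg_min_sq_le [NeZero N] {β ε : ℝ} (hβ : 0 ≤ β) (h0 : 0 ≤ ε) (h1 : ε ≤ 1)
    {K : ℝ} (hK : 0 ≤ K) :
    ∫ p, rowAvg (fun x => min (npart x) K ^ 2) p ∂QN α β ε N ≤ 2 * Real.exp 4 := by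
  have := isProb_QN (N := N) (α := α) hβ ε
  have hn : ∀ p : Patterns N α × UnitSphere N, 0 ≤ rowAvg (fun x => min (npart x) K ^ 2) p :=
    fun p => rowAvg_nonneg (fun x => sq_nonneg _) p
  have hm : Measurable (rowAvg (fun x => min (npart x) K ^ 2) :
      Patterns N α × UnitSphere N → ℝ) :=
    measurable_rowAvg ((continuous_npart.measurable.min measurable_const).pow_const 2)
  rw [integral_eq_lintegral_of_nonneg_ae (Eventually.of_forall hn) hm.aestronglyMeasurable]
  refine ENNReal.toReal_le_of_le_ofReal (by positivity) ?_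
  refine le_trans (lintegral_mono fun p => ENNReal.ofReal_le_ofReal ?_)
    (lintegral_rowAvg_sq_le (N := N) (α := α) hβ h0 h1)
  refine rowAvg_mono (fun x => ?_) p
  exact pow_le_pow_left₀ (le_min (npart_nonneg _) hK) (min_le_left _ _) 2

/-- tail of the mean violation -/
theorem QN_tail_le [NeZero N] {β ε : ℝ} (hβ : 0 ≤ β) (h0 : 0 ≤ ε) (h1 : ε ≤ 1)
    {K η : ℝ} (hK : 0 < K) (hη : 0 < η) :
    QN α β ε N {p | η < rowAvg npart p - rowAvg (fun x => min (npart x) K) p} ≤
      ENNReal.ofReal (2 * Real.exp 4 / (K * η)) := by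
  have hm : Measurable (fun p : Patterns N α × UnitSphere N =>
      ENNReal.ofReal (rowAvg (fun x => npart x ^ 2) p)) :=
    (measurable_rowAvg (continuous_npart.measurable.pow_const 2)).ennreal_ofReal
  have hsub : {p : Patterns N α × UnitSphere N |
      η < rowAvg npart p - rowAvg (fun x => min (npart x) K) p} ⊆
      {p | ENNReal.ofReal (K * η) ≤ ENNReal.ofReal (rowAvg (fun x => npart x ^ 2) p)} := by
    intro p hp
    simp only [Set.mem_ofPred_eq] at hp ⊢
    refine ENNReal.ofReal_le_ofReal ?_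
    rw [← rowAvg_sub] at hp
    have h2 : rowAvg (fun x => K * (npart x - min (npart x) K)) p ≤
        rowAvg (fun x => npart x ^ 2) p := by
      refine rowAvg_mono (fun x => ?_) p
      have hx := npart_nonneg x
      rcases le_total (npart x) K with h | h
      · rw [min_eq_left h]; nlinarith
      · rw [min_eq_right h]; nlinarith
    rw [rowAvg_const_mul] at h2
    nlinarith
  refine (measure_mono hsub).trans ?_
  have hpos : 0 < K * η := mul_pos hK hη
  have h3 := mul_meas_ge_le_lintegral (μ := QN α β ε N) hm (ENNReal.ofReal (K * η))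
  have h4 := h3.trans (lintegral_rowAvg_sq_le (N := N) (α := α) hβ h0 h1)
  rw [ENNReal.ofReal_div_of_pos hpos, ENNReal.le_div_iff_mul_le
    (Or.inl (ENNReal.ofReal_pos.mpr hpos).ne') (Or.inl ENNReal.ofReal_ne_top), mul_comm]
  exact h4

end Crest.Agent.R146.Emp_788
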