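import Mathlib
import Crest.Agent.R146.EmpB_788

/-!
# Row 146, package OBS-2 (helper788), part C: the limit of the mean force fraction

Input `GapLaw α β ε ν`: the empirical law of the gaps converges to `ν` in `QN`-probability
(tested on bounded Lipschitz functions). Output `tendsto_forceMean`.
-/

set_option autoImplicit false

open MeasureTheory ProbabilityTheory Filter Topology
open Crest.ProbabilityR.Perceptron

namespace Crest.Agent.R146.Emp_788

open Crest.Agent.R146.Obs918 (TP)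

/-- The empirical law of the gaps converges to `ν` in probability (disorder and Gibbs). -/
def GapLaw (α β ε : ℝ) (ν : Measure ℝ) : Prop :=
  ∀ ψ : ℝ → ℝ, (∃ K : ℝ, ∀ x, |ψ x| ≤ K) → (∃ L : NNReal, LipschitzWith L ψ) →
    TP (fun n => QN α β ε (n + 1)) (fun _ p => rowAvg ψ p) (∫ x, ψ x ∂ν)

lemma tendsto_numPatterns {α : ℝ} (hα : 0 < α) :
    Tendsto (fun N : ℕ => numPatterns N α) atTop atTop := by
  unfold numPatterns
  refine tendsto_nat_floor_atTop.comp ?_
  exact tendsto_natCast_atTop_atTop.const_mul_atTop hα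

lemma eventually_numPatterns_ne {α : ℝ} (hα : 0 < α) :
    ∀ᶠ n : ℕ in atTop, numPatterns (n + 1) α ≠ 0 := by
  have h := (tendsto_numPatterns hα).comp (tendsto_add_atTop_nat 1)
  filter_upwards [h.eventually_gt_atTop 0] with n hn
  exact hn.ne'

/-! ### truncations of the negative part -/

/-- truncated negative part -/
noncomputable def tpart (K x : ℝ) : ℝ := min (npart x) K

lemma tpart_nonneg {K : ℝ} (hK : 0 ≤ K) (x : ℝ) : 0 ≤ tpart K x := le_min (npart_nonneg _) hK

lemma abs_tpart_le {K : ℝ} (hK : 0 ≤ K) (x : ℝ) : |tpart K x| ≤ K := by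
  rw [abs_of_nonneg (tpart_nonneg hK x)]
  exact min_le_right _ _

lemma lipschitz_npart : LipschitzWith 1 npart := by
  have h1 : LipschitzWith 1 (fun x : ℝ => -x) := LipschitzWith.id.neg
  exact h1.max_const 0

lemma lipschitz_tpart (K : ℝ) : LipschitzWith 1 (tpart K) := by
  unfold tpart
  exact lipschitz_npart.min_const K

lemma lipschitz_tpart_sq {K : ℝ} (hK : 0 ≤ K) :
    LipschitzWith (Real.toNNReal (2 * K)) (fun x => tpart K x ^ 2) := by
  refine LipschitzWith.of_dist_le_mul fun x y => ?_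
  rw [Real.coe_toNNReal _ (by positivity), Real.dist_eq]
  have h1 := (lipschitz_tpart K).dist_le_mul x y
  rw [NNReal.coe_one, one_mul, Real.dist_eq] at h1
  have h2 : tpart K x ^ 2 - tpart K y ^ 2 = (tpart K x + tpart K y) * (tpart K x - tpart K y) := by
    ring
  rw [h2, abs_mul]
  refine mul_le_mul ?_ h1 (abs_nonneg _) (by positivity)
  calc |tpart K x + tpart K y| ≤ |tpart K x| + |tpart K y| := abs_add_le _ _
    _ ≤ K + K := add_le_add (abs_tpart_le hK x) (abs_tpart_le hK y)
    _ = 2 * K := by ring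

section Moments

variable {α β ε : ℝ} {ν : Measure ℝ}

lemma integral_tpart_sq_le (hβ : 0 ≤ β) (h0 : 0 ≤ ε) (h1 : ε ≤ 1)
    (H : GapLaw α β ε ν) {K : ℝ} (hK : 0 ≤ K) :
    ∫ x, tpart K x ^ 2 ∂ν ≤ 2 * Real.exp 4 := by
  have hprob : ∀ n, IsProbabilityMeasure (QN α β ε (n + 1)) := fun n => isProb_QN hβ ε
  have hb : ∀ x, |tpart K x ^ 2| ≤ K ^ 2 := fun x => by
    rw [abs_of_nonneg (sq_nonneg _)]
    exact pow_le_pow_left₀ (tpart_nonneg hK x) (min_le_right _ _) 2
  have hm : Measurable (fun x => tpart K x ^ 2) :=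
    (lipschitz_tpart_sq hK).continuous.measurable
  have hTP := H (fun x => tpart K x ^ 2) ⟨K ^ 2, hb⟩ ⟨_, lipschitz_tpart_sq hK⟩
  have hlim := hTP.integral (Eventually.of_forall fun n => measurable_rowAvg hm) (K := K ^ 2)
    (Eventually.of_forall fun n p => abs_rowAvg_le (sq_nonneg K) hb p)
  refine le_of_tendsto hlim (Eventually.of_forall fun n => ?_)
  exact integral_rowAvg_min_sq_le hβ h0 h1 hK

lemma lintegral_npart_sq_le [IsProbabilityMeasure ν] (hβ : 0 ≤ β) (h0 : 0 ≤ ε) (h1 : ε ≤ 1)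
    (H : GapLaw α β ε ν) :
    ∫⁻ x, ENNReal.ofReal (npart x ^ 2) ∂ν ≤ ENNReal.ofReal (2 * Real.exp 4) := by
  have hmono : ∀ x, Monotone (fun n : ℕ => ENNReal.ofReal (tpart n x ^ 2)) := by
    intro x m n hmn
    refine ENNReal.ofReal_le_ofReal (pow_le_pow_left₀ (tpart_nonneg (Nat.cast_nonneg _) x) ?_ 2)
    exact min_le_min le_rfl (Nat.cast_le.mpr hmn)
  have hm : ∀ n : ℕ, AEMeasurable (fun x => ENNReal.ofReal (tpart n x ^ 2)) ν := fun n =>
    ((lipschitz_tpart_sq (Nat.cast_nonneg n)).continuous.measurable.ennreal_ofReal).aemeasurable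
  have hlim : ∀ x, Tendsto (fun n : ℕ => ENNReal.ofReal (tpart n x ^ 2)) atTop
      (𝓝 (ENNReal.ofReal (npart x ^ 2))) := by
    intro x
    refine tendsto_const_nhds.congr' ?_
    obtain ⟨n0, hn0⟩ := exists_nat_ge (npart x)
    filter_upwards [eventually_ge_atTop n0] with n hn
    have : tpart n x = npart x := min_eq_left (hn0.trans (Nat.cast_le.mpr hn))
    rw [this]
  have h2 := lintegral_tendsto_of_tendsto_of_monotone hm (Eventually.of_forall hmono)
    (Eventually.of_forall hlim)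
  refine le_of_tendsto h2 (Eventually.of_forall fun n => ?_)
  have h3 := integral_tpart_sq_le (K := n) hβ h0 h1 H (Nat.cast_nonneg n)
  have hi : Integrable (fun x => tpart n x ^ 2) ν := by
    refine Integrable.of_bound
      (lipschitz_tpart_sq (Nat.cast_nonneg n)).continuous.aestronglyMeasurable ((n : ℝ) ^ 2)
      (Eventually.of_forall fun x => ?_)
    rw [Real.norm_eq_abs, abs_of_nonneg (sq_nonneg _)]
    exact pow_le_pow_left₀ (tpart_nonneg (Nat.cast_nonneg n) x) (min_le_right _ _) 2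
  rw [← ofReal_integral_eq_lintegral_ofReal hi (Eventually.of_forall fun x => sq_nonneg _)]
  exact ENNReal.ofReal_le_ofReal h3

lemma integrable_npart_sq [IsProbabilityMeasure ν] (hβ : 0 ≤ β) (h0 : 0 ≤ ε) (h1 : ε ≤ 1)
    (H : GapLaw α β ε ν) : Integrable (fun x => npart x ^ 2) ν := by
  refine ⟨(continuous_npart.pow 2).aestronglyMeasurable, ?_⟩
  have h := lintegral_npart_sq_le hβ h0 h1 H
  unfold HasFiniteIntegral
  refine lt_of_le_of_lt (le_of_eq ?_) (h.trans_lt ENNReal.ofReal_lt_top)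
  refine lintegral_congr fun x => ?_
  rw [Real.enorm_eq_ofReal (sq_nonneg _)]

lemma integrable_npart [IsProbabilityMeasure ν] (hβ : 0 ≤ β) (h0 : 0 ≤ ε) (h1 : ε ≤ 1)
    (H : GapLaw α β ε ν) : Integrable npart ν := by
  refine ((integrable_npart_sq hβ h0 h1 H).add (integrable_const (1 : ℝ))).mono'
    continuous_npart.aestronglyMeasurable (Eventually.of_forall fun x => ?_)
  rw [Real.norm_eq_abs, abs_of_nonneg (npart_nonneg x)]
  simp only [Pi.add_apply]
  nlinarith [sq_nonneg (npart x - 1)]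

lemma integral_npart_sub_le [IsProbabilityMeasure ν] (hβ : 0 ≤ β) (h0 : 0 ≤ ε) (h1 : ε ≤ 1)
    (H : GapLaw α β ε ν) {K : ℝ} (hK : 0 < K) :
    ∫ x, npart x ∂ν - ∫ x, tpart K x ∂ν ≤ 2 * Real.exp 4 / K := by
  have hi1 := integrable_npart hβ h0 h1 H
  have hi2 : Integrable (tpart K) ν := Integrable.of_bound
    (lipschitz_tpart K).continuous.aestronglyMeasurable K (Eventually.of_forall fun x => by
      rw [Real.norm_eq_abs]; exact abs_tpart_le hK.le x)
  have hi3 := integrable_npart_sq hβ h0 h1 H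
  rw [← integral_sub hi1 hi2, le_div_iff₀ hK, mul_comm, ← integral_const_mul]
  have h3 : ∫ x, K * (npart x - tpart K x) ∂ν ≤ ∫ x, npart x ^ 2 ∂ν := by
    refine integral_mono ((hi1.sub hi2).const_mul K) hi3 fun x => ?_
    have hx := npart_nonneg x
    simp only
    unfold tpart
    rcases le_total (npart x) K with h | h
    · rw [min_eq_left h]; nlinarith
    · rw [min_eq_right h]; nlinarith
  refine h3.trans ?_
  have h4 := lintegral_npart_sq_le hβ h0 h1 H
  rw [← ofReal_integral_eq_lintegral_ofReal hi3 (Eventually.of_forall fun x => sq_nonneg _)] at h4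
  exact (ENNReal.ofReal_le_ofReal_iff (by positivity)).mp h4

lemma integral_tpart_le [IsProbabilityMeasure ν] (hβ : 0 ≤ β) (h0 : 0 ≤ ε) (h1 : ε ≤ 1)
    (H : GapLaw α β ε ν) {K : ℝ} (hK : 0 < K) :
    ∫ x, tpart K x ∂ν ≤ ∫ x, npart x ∂ν := by
  have hi1 := integrable_npart hβ h0 h1 H
  have hi2 : Integrable (tpart K) ν := Integrable.of_bound
    (lipschitz_tpart K).continuous.aestronglyMeasurable K (Eventually.of_forall fun x => by
      rw [Real.norm_eq_abs]; exact abs_tpart_le hK.le x)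
  exact integral_mono hi2 hi1 fun x => min_le_left _ _

/-- the mean violation per pattern converges -/
theorem TP_npart [IsProbabilityMeasure ν] (hβ : 0 ≤ β) (h0 : 0 ≤ ε) (h1 : ε ≤ 1)
    (H : GapLaw α β ε ν) :
    TP (fun n => QN α β ε (n + 1)) (fun _ p => rowAvg npart p) (∫ x, npart x ∂ν) := by
  intro η hη
  rw [ENNReal.tendsto_nhds_zero]
  intro δ hδ
  set C : ℝ := 2 * Real.exp 4 with hC
  have hCpos : 0 < C := by positivity
  -- choose K
  obtain ⟨δ', hδ'0, hδ'⟩ : ∃ δ' : ℝ, 0 < δ' ∧ ENNReal.ofReal δ' ≤ δ / 2 := by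
    by_cases ht : δ = ⊤
    · exact ⟨1, one_pos, by rw [ht, ENNReal.top_div_of_ne_top (by norm_num)]; exact le_top⟩
    · refine ⟨(δ / 2).toReal, ENNReal.toReal_pos (ENNReal.half_pos hδ.ne').ne' ?_, ?_⟩
      · exact (ENNReal.div_lt_top ht (by norm_num)).ne
      · rw [ENNReal.ofReal_toReal (ENNReal.div_lt_top ht (by norm_num)).ne]
  set K : ℝ := max (3 * C / η) (3 * C / (η * δ')) with hKdef
  have hKpos : 0 < K := lt_max_of_lt_left (by positivity)
  have hK1 : C / K ≤ η / 3 := by
    rw [div_le_iff₀ hKpos]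
    have : 3 * C / η ≤ K := le_max_left _ _
    rw [div_le_iff₀ hη] at this
    linarith
  have hK2 : C / (K * (η / 3)) ≤ δ' := by
    rw [div_le_iff₀ (by positivity)]
    have : 3 * C / (η * δ') ≤ K := le_max_right _ _
    rw [div_le_iff₀ (by positivity)] at this
    linarith
  have hTP := H (tpart K) ⟨K, abs_tpart_le hKpos.le⟩ ⟨1, lipschitz_tpart K⟩ (η / 3) (by positivity)
  rw [ENNReal.tendsto_nhds_zero] at hTP
  filter_upwards [hTP (δ / 2) (ENNReal.half_pos hδ.ne')] with n hn
  have hsub : {p : Patterns (n + 1) α × UnitSphere (n + 1) |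
      η < |rowAvg npart p - ∫ x, npart x ∂ν|} ⊆
      {p | η / 3 < |rowAvg (tpart K) p - ∫ x, tpart K x ∂ν|} ∪
      {p | η / 3 < rowAvg npart p - rowAvg (fun x => min (npart x) K) p} := by
    intro p hp
    by_contra hcon
    simp only [Set.mem_union, Set.mem_ofPred_eq, not_or, not_lt] at hcon hp
    obtain ⟨hc1, hc2⟩ := hcon
    have e1 : rowAvg (fun x => min (npart x) K) p = rowAvg (tpart K) p := rfl
    rw [e1] at hc2
    have hge : rowAvg (tpart K) p ≤ rowAvg npart p := rowAvg_mono (fun x => min_le_left _ _) p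
    have h5 := integral_npart_sub_le hβ h0 h1 H hKpos
    have h6 := integral_tpart_le hβ h0 h1 H hKpos
    have h7 := abs_le.mp hc1
    have : |rowAvg npart p - ∫ x, npart x ∂ν| ≤ η := by
      rw [abs_le]
      constructor <;> linarith [h7.1, h7.2]
    linarith
  calc QN α β ε (n + 1) {p | η < |rowAvg npart p - ∫ x, npart x ∂ν|}
      ≤ _ := measure_mono hsub
    _ ≤ _ := measure_union_le _ _
    _ ≤ δ / 2 + δ / 2 := by
        refine add_le_add hn ?_
        refine (QN_tail_le hβ h0 h1 hKpos (by positivity)).trans ?_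
        refine le_trans (ENNReal.ofReal_le_ofReal hK2) hδ'
    _ = δ := ENNReal.add_halves δ

end Moments

/-! ### ramps and half lines -/

/-- continuous approximation of the indicator of `x < a`: `1` for `x ≤ a`, `0` for `a + η ≤ x` -/
noncomputable def ramp (a η x : ℝ) : ℝ := min 1 (max 0 ((a + η - x) / η))

lemma ramp_nonneg (a η x : ℝ) : 0 ≤ ramp a η x := le_min zero_le_one (le_max_left _ _)

lemma ramp_le_one (a η x : ℝ) : ramp a η x ≤ 1 := min_le_left _ _

lemma abs_ramp_le (a η x : ℝ) : |ramp a η x| ≤ 1 := by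
  rw [abs_of_nonneg (ramp_nonneg a η x)]; exact ramp_le_one a η x

lemma ilt_le_ramp {a η : ℝ} (hη : 0 < η) (x : ℝ) : ilt a x ≤ ramp a η x := by
  unfold ilt
  split_ifs with h
  · unfold ramp
    refine le_min le_rfl (le_max_of_le_right ?_)
    rw [one_le_div hη]
    linarith
  · exact ramp_nonneg _ _ _

lemma ramp_le_ilt {a η : ℝ} (hη : 0 < η) (x : ℝ) : ramp a η x ≤ ilt (a + η) x := by
  unfold ilt
  split_ifs with h
  · exact ramp_le_one _ _ _
  · unfold ramp
    refine min_le_of_right_le (max_le le_rfl ?_)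
    exact div_nonpos_of_nonpos_of_nonneg (by linarith) hη.le

lemma lipschitz_ramp {a η : ℝ} (hη : 0 < η) :
    LipschitzWith (Real.toNNReal (1 / η)) (ramp a η) := by
  unfold ramp
  have h1 : LipschitzWith (Real.toNNReal (1 / η)) (fun x : ℝ => (a + η - x) / η) := by
    refine LipschitzWith.of_dist_le_mul fun x y => ?_
    rw [Real.coe_toNNReal _ (by positivity), Real.dist_eq, Real.dist_eq]
    have : (a + η - x) / η - (a + η - y) / η = (1 / η) * (y - x) := by field_simp; ring
    rw [this, abs_mul, abs_of_pos (by positivity : (0:ℝ) < 1 / η), abs_sub_comm]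
  exact (h1.const_max 0).const_min 1

lemma integral_ilt (ν : Measure ℝ) (a : ℝ) : ∫ x, ilt a x ∂ν = ν.real (Set.Iio a) := by
  have : ∀ x, ilt a x = (Set.Iio a).indicator (fun _ => (1 : ℝ)) x := by
    intro x
    unfold ilt Set.indicator
    simp only [Set.mem_Iio]
  simp_rw [this]
  rw [integral_indicator_const _ measurableSet_Iio]
  simp

lemma integrable_ilt (ν : Measure ℝ) [IsProbabilityMeasure ν] (a : ℝ) : Integrable (ilt a) ν :=
  Integrable.of_bound (measurable_ilt a).aestronglyMeasurable 1 (Eventually.of_forall fun x => by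
    rw [Real.norm_eq_abs, abs_of_nonneg (ilt_nonneg a x)]; exact ilt_le_one a x)

lemma integrable_ramp (ν : Measure ℝ) [IsProbabilityMeasure ν] {a η : ℝ} (hη : 0 < η) :
    Integrable (ramp a η) ν :=
  Integrable.of_bound (lipschitz_ramp hη).continuous.aestronglyMeasurable 1
    (Eventually.of_forall fun x => by rw [Real.norm_eq_abs]; exact abs_ramp_le a η x)

lemma integral_ramp_le (ν : Measure ℝ) [IsProbabilityMeasure ν] {a η : ℝ} (hη : 0 < η) :
    ∫ x, ramp a η x ∂ν ≤ ν.real (Set.Iio (a + η)) := by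
  rw [← integral_ilt]
  exact integral_mono (integrable_ramp ν hη) (integrable_ilt ν _) fun x => ramp_le_ilt hη x

lemma le_integral_ramp (ν : Measure ℝ) [IsProbabilityMeasure ν] {a η : ℝ} (hη : 0 < η) :
    ν.real (Set.Iio a) ≤ ∫ x, ramp a η x ∂ν := by
  rw [← integral_ilt]
  exact integral_mono (integrable_ilt ν _) (integrable_ramp ν hη) fun x => ilt_le_ramp hη x

/-- continuity of the distribution function at a point without atom -/
lemma exists_small_window (ν : Measure ℝ) [IsProbabilityMeasure ν] {c : ℝ} (hc : ν {c} = 0)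
    {δ : ℝ} (hδ : 0 < δ) : ∃ η : ℝ, 0 < η ∧
      ν.real (Set.Iio (c + 2 * η)) ≤ ν.real (Set.Iio c) + δ ∧
      ν.real (Set.Iio c) - δ ≤ ν.real (Set.Iio (c - 2 * η)) := by
  have h := tendsto_measure_Icc_nhdsWithin_right' ν c
  rw [hc] at h
  have h2 : ∀ᶠ t in 𝓝[>] (0:ℝ), ν (Set.Icc (c - t) (c + t)) < ENNReal.ofReal δ :=
    (tendsto_order.mp h).2 _ (ENNReal.ofReal_pos.mpr hδ)
  have h3 : ∀ᶠ t in 𝓝[>] (0:ℝ), 0 < t := self_mem_nhdsWithin
  obtain ⟨t, ht1, ht2⟩ := (h2.and h3).exists
  have ht3 : ν.real (Set.Icc (c - t) (c + t)) ≤ δ := by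
    rw [measureReal_def]
    exact ENNReal.toReal_le_of_le_ofReal hδ.le ht1.le
  refine ⟨t / 2, half_pos ht2, ?_, ?_⟩
  · have e : c + 2 * (t / 2) = c + t := by ring
    rw [e]
    have hs : Set.Iio (c + t) ⊆ Set.Iio c ∪ Set.Icc (c - t) (c + t) := by
      intro x hx
      simp only [Set.mem_Iio, Set.mem_union, Set.mem_Icc] at hx ⊢
      by_cases hxc : x < c
      · exact Or.inl hxc
      · exact Or.inr ⟨by linarith, hx.le⟩
    calc ν.real (Set.Iio (c + t)) ≤ ν.real (Set.Iio c ∪ Set.Icc (c - t) (c + t)) :=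
          measureReal_mono hs
      _ ≤ _ := measureReal_union_le _ _
      _ ≤ _ := by linarith
  · have e : c - 2 * (t / 2) = c - t := by ring
    rw [e]
    have hs : Set.Iio c ⊆ Set.Iio (c - t) ∪ Set.Icc (c - t) (c + t) := by
      intro x hx
      simp only [Set.mem_Iio, Set.mem_union, Set.mem_Icc] at hx ⊢
      by_cases hxc : x < c - t
      · exact Or.inl hxc
      · exact Or.inr ⟨by linarith, by linarith⟩
    have : ν.real (Set.Iio c) ≤ ν.real (Set.Iio (c - t)) + ν.real (Set.Icc (c - t) (c + t)) :=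
      (measureReal_mono hs).trans (measureReal_union_le _ _)
    linarith

section HalfLines

variable {α β ε : ℝ} {ν : Measure ℝ}

/-- fraction of gaps below a random threshold converging to a point without atom -/
theorem TP_ilt [IsProbabilityMeasure ν] (H : GapLaw α β ε ν) {c : ℝ} (hc : ν {c} = 0)
    {T : ∀ n : ℕ, Patterns (n + 1) α × UnitSphere (n + 1) → ℝ}
    (hT : TP (fun n => QN α β ε (n + 1)) T c) :
    TP (fun n => QN α β ε (n + 1)) (fun n p => rowAvg (ilt (T n p)) p) (ν.real (Set.Iio c)) := by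
  refine Obs918.TP.sandwich fun δ hδ => ?_
  obtain ⟨η, hη, hup, hlow⟩ := exists_small_window ν hc hδ
  refine ⟨fun _ p => rowAvg (ramp (c - 2 * η) η) p, fun _ p => rowAvg (ramp (c + η) η) p,
    ∫ x, ramp (c - 2 * η) η x ∂ν, ∫ x, ramp (c + η) η x ∂ν,
    fun n => {p | η < |T n p - c|}, ?_, ?_, hT η hη, ?_, ?_, ?_⟩
  · exact H _ ⟨1, abs_ramp_le _ _⟩ ⟨_, lipschitz_ramp hη⟩
  · exact H _ ⟨1, abs_ramp_le _ _⟩ ⟨_, lipschitz_ramp hη⟩
  · refine Eventually.of_forall fun n p hp => ?_
    simp only [Set.mem_ofPred_eq, not_lt] at hp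
    obtain ⟨h1, h2⟩ := abs_le.mp hp
    constructor
    · refine rowAvg_mono (fun x => ?_) p
      refine (ramp_le_ilt hη x).trans (ilt_mono ?_ x)
      linarith
    · refine rowAvg_mono (fun x => ?_) p
      refine le_trans (ilt_mono ?_ x) (ilt_le_ramp hη x)
      linarith
  · exact hlow.trans (le_integral_ramp ν hη)
  · refine (integral_ramp_le ν hη).trans ?_
    have : c + η + η = c + 2 * η := by ring
    rw [this]
    exact hup

end HalfLines

/-! ### the force fraction -/

/-- mean violation of the law `ν` of the gap -/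
noncomputable def rbar (ν : Measure ℝ) : ℝ := (∫ x, npart x ∂ν) / ν.real (Set.Iio 0)

section Force

variable {α β ε : ℝ} {ν : Measure ℝ}

theorem TP_forceFraction [IsProbabilityMeasure ν] (hα : 0 < α) (hβ : 0 ≤ β) (h0 : 0 ≤ ε)
    (h1 : ε ≤ 1) (H : GapLaw α β ε ν) (hz : ν {0} = 0) (hneg : ν (Set.Iio 0) ≠ 0)
    {s : ℝ} (hs : 0 < s) (hat : ν {-(s * rbar ν)} = 0) :
    TP (fun n => QN α β ε (n + 1)) (fun _ p => forceFraction s p.1 p.2)
      ((ν.real (Set.Iio 0) - ν.real (Set.Iio (-(s * rbar ν)))) / ν.real (Set.Iio 0)) := by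
  have hq : ν.real (Set.Iio 0) ≠ 0 := by
    rw [measureReal_def]
    exact ENNReal.toReal_ne_zero.mpr ⟨hneg, measure_ne_top _ _⟩
  have hV : TP (fun n => QN α β ε (n + 1)) (fun _ p => rowAvg (ilt 0) p)
      (ν.real (Set.Iio 0)) := TP_ilt H hz (Obs918.TP.const _ 0)
  have hS := TP_npart hβ h0 h1 H
  have hm : TP (fun n => QN α β ε (n + 1))
      (fun _ p => rowAvg npart p / rowAvg (ilt 0) p) (rbar ν) := hS.div hV hq
  have hT : TP (fun n => QN α β ε (n + 1))
      (fun _ p => -(s * (rowAvg npart p / rowAvg (ilt 0) p))) (-(s * rbar ν)) :=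
    hm.map (f := fun x => -(s * x)) (by fun_prop)
  have hI := TP_ilt H hat hT
  refine ((hV.sub hI).div hV hq).congr' ?_
  filter_upwards [eventually_numPatterns_ne hα] with n hn p
  exact (forceFraction_eq hn hs p).symm

/-- **The limit of the mean force fraction** at fixed `(α, β)`. -/
theorem tendsto_forceMean [IsProbabilityMeasure ν] (hα : 0 < α) (hβ : 0 ≤ β) (h0 : 0 ≤ ε)
    (h1 : ε ≤ 1) (H : GapLaw α β ε ν) (hz : ν {0} = 0) (hneg : ν (Set.Iio 0) ≠ 0)
    {s : ℝ} (hs : 0 < s) (hat : ν {-(s * rbar ν)} = 0) :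
    Tendsto (fun N : ℕ => forceMean N β α ε s) atTop
      (𝓝 (ν.real (Set.Ico (-(s * rbar ν)) 0) / ν.real (Set.Iio 0))) := by
  have hprob : ∀ n, IsProbabilityMeasure (QN α β ε (n + 1)) := fun n => isProb_QN hβ ε
  have h := (TP_forceFraction hα hβ h0 h1 H hz hneg hs hat).integral
    (Eventually.of_forall fun n => measurable_forceFraction s) (K := 1)
    (Eventually.of_forall fun n p => abs_forceFraction_le s p)
  have hr : 0 ≤ rbar ν := div_nonneg (integral_nonneg fun x => npart_nonneg x) measureReal_nonneg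
  have e1 : ν.real (Set.Iio 0) - ν.real (Set.Iio (-(s * rbar ν))) =
      ν.real (Set.Ico (-(s * rbar ν)) 0) := by
    have hsub : Set.Iio (-(s * rbar ν)) ⊆ Set.Iio 0 := Set.Iio_subset_Iio (by
      have := mul_nonneg hs.le hr; linarith)
    rw [← measureReal_sdiff hsub measurableSet_Iio]
    congr 1
    ext x
    simp only [Set.mem_sdiff, Set.mem_Iio, Set.mem_Ico, not_lt]
    tauto
  rw [← e1]
  rw [← tendsto_add_atTop_iff_nat 1]
  refine h.congr fun n => ?_
  rw [forceMean_eq hβ]

end Force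

end Crest.Agent.R146.Emp_788
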