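import Mathlib
import Crest.Prelude.Def_Perceptron
import Crest.Agent.R146.Obs1_918

/-!
Row 146, package OBS, part 2 (helper918): the literal observables of `Def_Perceptron` and the
joint law, and the limit of `gapMean` at fixed `(α, β, ε)` from the convergence of the mean
empirical law of the gaps.
-/

set_option linter.unusedSectionVars false

namespace Crest.Agent.R146.Obs918

open MeasureTheory Filter Topology
open Crest.ProbabilityR.Perceptron

/-! ### Mixture law and pattern laws are probability laws -/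

instance instProbMixture (ε : ℝ) : IsProbabilityMeasure (mixtureLaw ε) := by
  constructor
  simp only [mixtureLaw, Measure.coe_add, Measure.coe_nnreal_smul_apply, Pi.add_apply,
    measure_univ, mul_one]
  rw [← ENNReal.coe_add, ← ENNReal.coe_one, ENNReal.coe_inj]
  rw [← two_mul]
  exact mul_inv_cancel₀ two_ne_zero

instance instProbPatternLawMix (N : ℕ) (α ε : ℝ) : IsProbabilityMeasure (patternLawMix N α ε) := by
  unfold patternLawMix; infer_instance

instance instProbPatternLaw (N : ℕ) (α : ℝ) : IsProbabilityMeasure (patternLaw N α) := by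
  unfold patternLaw; infer_instance

instance instFiniteSphereLaw (N : ℕ) : IsFiniteMeasure (sphereLaw N) := by
  unfold sphereLaw; infer_instance

lemma sphereLaw_ne_zero {N : ℕ} (hN : 0 < N) : sphereLaw N ≠ 0 := by
  have : Nonempty (Fin N) := ⟨⟨0, hN⟩⟩
  have : Nontrivial (EuclideanSpace ℝ (Fin N)) := by
    refine ⟨⟨0, EuclideanSpace.single ⟨0, hN⟩ 1, ?_⟩⟩
    intro h
    have := congrArg (fun v : EuclideanSpace ℝ (Fin N) => v ⟨0, hN⟩) h
    simp at this
  unfold sphereLaw
  exact Measure.toSphere_ne_zero _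

/-! ### Measurability -/

section Literal

variable {N : ℕ} {α : ℝ}

lemma continuous_gap (μ : Fin (numPatterns N α)) :
    Continuous fun p : Patterns N α × UnitSphere N => gap p.1 p.2 μ := by
  unfold gap
  refine continuous_const.add (continuous_finsetSum _ fun i _ => ?_)
  refine ((continuous_apply (μ, i)).comp continuous_fst).mul ?_
  exact (PiLp.continuous_apply 2 _ i).comp (continuous_subtype_val.comp continuous_snd)

lemma measurable_gap (μ : Fin (numPatterns N α)) :
    Measurable fun p : Patterns N α × UnitSphere N => gap p.1 p.2 μ :=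
  (continuous_gap μ).measurable

lemma continuous_energy :
    Continuous fun p : Patterns N α × UnitSphere N => penaltyEnergy p.1 p.2 := by
  unfold penaltyEnergy
  refine continuous_finsetSum _ fun μ _ => ?_
  exact continuous_const.mul (((continuous_gap μ).neg.max continuous_const).pow 2)

lemma energy_nonneg (A : Patterns N α) (y : UnitSphere N) : 0 ≤ penaltyEnergy A y :=
  Finset.sum_nonneg fun _ _ => by positivity

/-- The Gibbs weight. -/
noncomputable def wG (β : ℝ) (A : Patterns N α) (y : UnitSphere N) : ℝ :=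
  Real.exp (-β * penaltyEnergy A y)

lemma goodWeight (hN : 0 < N) {β : ℝ} (hβ : 0 ≤ β) :
    GoodWeight (sphereLaw N) (wG (N := N) (α := α) β) where
  meas := by
    have : Continuous fun p : Patterns N α × UnitSphere N =>
        Real.exp (-β * penaltyEnergy p.1 p.2) :=
      Real.continuous_exp.comp (continuous_const.mul continuous_energy)
    exact this.measurable
  pos := fun A y => Real.exp_pos _
  bdd := fun A => ⟨1, fun y => by
    unfold wG
    refine Real.exp_le_one_iff.2 ?_
    have := energy_nonneg A y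
    nlinarith⟩
  ne := sphereLaw_ne_zero hN

/-- The joint law of the patterns (any law `κ`) and a Gibbs configuration. -/
noncomputable def QN (β : ℝ) (κ : Measure (Patterns N α)) : Measure (Patterns N α × UnitSphere N) :=
  joint κ (sphereLaw N) (wG β)

lemma isProb_QN (hN : 0 < N) {β : ℝ} (hβ : 0 ≤ β) (κ : Measure (Patterns N α))
    [IsProbabilityMeasure κ] : IsProbabilityMeasure (QN β κ) :=
  isProbabilityMeasure_joint (goodWeight hN hβ)

lemma integral_QN (hN : 0 < N) {β : ℝ} (hβ : 0 ≤ β) (κ : Measure (Patterns N α))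
    [IsProbabilityMeasure κ] {O : Patterns N α × UnitSphere N → ℝ} (hO : Measurable O) {K : ℝ}
    (hK : ∀ p, |O p| ≤ K) :
    ∫ A, gibbsAverage β A (fun y => O (A, y)) ∂κ = ∫ p, O p ∂QN β κ :=
  (integral_joint (goodWeight hN hβ) hO hK).symm

/-- Empirical average of a row observable of the gaps. -/
noncomputable def emp (ψ : ℝ → ℝ) (p : Patterns N α × UnitSphere N) : ℝ :=
  (∑ μ, ψ (gap p.1 p.2 μ)) / numPatterns N α

lemma measurable_emp {ψ : ℝ → ℝ} (hψ : Measurable ψ) :
    Measurable (emp (N := N) (α := α) ψ) :=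
  (Finset.measurable_sum _ fun μ _ => hψ.comp (measurable_gap μ)).div_const _

lemma emp_mono {ψ φ : ℝ → ℝ} (h : ∀ x, ψ x ≤ φ x) (p : Patterns N α × UnitSphere N) :
    emp ψ p ≤ emp φ p :=
  div_le_div_of_nonneg_right (Finset.sum_le_sum fun μ _ => h _) (Nat.cast_nonneg _)

lemma emp_sub (ψ φ : ℝ → ℝ) (p : Patterns N α × UnitSphere N) :
    emp (fun x => ψ x - φ x) p = emp ψ p - emp φ p := by
  unfold emp
  rw [Finset.sum_sub_distrib, sub_div]

lemma emp_abs_le {ψ : ℝ → ℝ} {K : ℝ} (hK : ∀ x, |ψ x| ≤ K) (p : Patterns N α × UnitSphere N) :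
    |emp ψ p| ≤ K := by
  have hK0 : 0 ≤ K := le_trans (abs_nonneg _) (hK 0)
  unfold emp
  rcases Nat.eq_zero_or_pos (numPatterns N α) with h | h
  · have h' : (numPatterns N α : ℝ) = 0 := by exact_mod_cast h
    rw [h', div_zero, abs_zero]; exact hK0
  · rw [abs_div, Nat.abs_cast, div_le_iff₀ (by exact_mod_cast h)]
    calc |∑ μ, ψ (gap p.1 p.2 μ)| ≤ ∑ μ : Fin (numPatterns N α), |ψ (gap p.1 p.2 μ)| :=
          Finset.abs_sum_le_sum_abs _ _
      _ ≤ ∑ _μ : Fin (numPatterns N α), K := Finset.sum_le_sum fun μ _ => hK _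
      _ = K * numPatterns N α := by simp [mul_comm]

lemma card_filter_eq (s : Set ℝ) [DecidablePred (· ∈ s)] (p : Patterns N α × UnitSphere N) :
    (((Finset.univ.filter fun μ => gap p.1 p.2 μ ∈ s).card : ℕ) : ℝ) / numPatterns N α
      = emp (s.indicator fun _ => (1 : ℝ)) p := by
  unfold emp
  congr 1
  rw [Finset.card_filter]
  push_cast
  refine Finset.sum_congr rfl fun μ _ => ?_
  by_cases h : gap p.1 p.2 μ ∈ s
  · simp [h]
  · simp [h]

lemma gapFraction_eq (δ u : ℝ) (A : Patterns N α) (y : UnitSphere N) :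
    gapFraction δ u A y = emp ((Set.Ioc δ u).indicator fun _ => (1 : ℝ)) (A, y) := by
  classical
  rw [← card_filter_eq (Set.Ioc δ u) (A, y)]
  rfl

lemma gapMean_eq (hN : 0 < N) {β : ℝ} (hβ : 0 ≤ β) (ε δ u : ℝ) :
    gapMean N β α ε δ u
      = ∫ p, emp ((Set.Ioc δ u).indicator fun _ => (1 : ℝ)) p ∂QN β (patternLawMix N α ε) := by
  rw [gapMean, ← integral_QN hN hβ _ (measurable_emp (measurable_const.indicator measurableSet_Ioc))
    (K := 1)]
  · refine integral_congr_ae (Eventually.of_forall fun A => ?_)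
    simp only [gibbsAverage, gapFraction_eq]
  · refine fun p => emp_abs_le (fun x => ?_) p
    by_cases h : x ∈ Set.Ioc δ u <;> simp [h]

end Literal

/-! ### Limit of the mean empirical distribution function -/

/-- A ramp: `1` on `(-∞, c]`, `0` on `[c + η, ∞)`. -/
noncomputable def ramp (c η x : ℝ) : ℝ := max 0 (min 1 ((c + η - x) / η))

lemma ramp_nonneg (c η x : ℝ) : 0 ≤ ramp c η x := le_max_left _ _

lemma ramp_le_one (c η x : ℝ) : ramp c η x ≤ 1 := max_le zero_le_one (min_le_left _ _)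

lemma ramp_abs_le (c η x : ℝ) : |ramp c η x| ≤ 1 := by
  rw [abs_of_nonneg (ramp_nonneg _ _ _)]; exact ramp_le_one _ _ _

lemma lipschitz_ramp (c : ℝ) {η : ℝ} (hη : 0 < η) :
    LipschitzWith (Real.toNNReal η⁻¹) (ramp c η) := by
  have h1 : LipschitzWith (Real.toNNReal η⁻¹) fun x : ℝ => (c + η - x) / η := by
    refine LipschitzWith.of_dist_le_mul fun x y => ?_
    rw [Real.dist_eq, Real.dist_eq, Real.coe_toNNReal _ (inv_pos.2 hη).le]
    have : (c + η - x) / η - (c + η - y) / η = η⁻¹ * (y - x) := by field_simp; ring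
    rw [this, abs_mul, abs_of_pos (inv_pos.2 hη), abs_sub_comm]
  exact (h1.const_min 1).const_max 0

lemma indicator_le_ramp (c : ℝ) {η : ℝ} (hη : 0 < η) (x : ℝ) :
    (Set.Iic c).indicator (fun _ => (1 : ℝ)) x ≤ ramp c η x := by
  by_cases h : x ∈ Set.Iic c
  · rw [Set.indicator_of_mem h]
    have hx : x ≤ c := h
    have : 1 ≤ (c + η - x) / η := by rw [le_div_iff₀ hη]; linarith
    unfold ramp
    rw [min_eq_left this]
    exact le_max_right _ _
  · rw [Set.indicator_of_notMem h]; exact ramp_nonneg _ _ _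

lemma ramp_le_indicator (c : ℝ) {η : ℝ} (hη : 0 < η) (x : ℝ) :
    ramp c η x ≤ (Set.Iic (c + η)).indicator (fun _ => (1 : ℝ)) x := by
  by_cases h : x ∈ Set.Iic (c + η)
  · rw [Set.indicator_of_mem h]; exact ramp_le_one _ _ _
  · rw [Set.indicator_of_notMem h]
    have hx : c + η < x := not_le.1 h
    have : (c + η - x) / η ≤ 0 := div_nonpos_of_nonpos_of_nonneg (by linarith) hη.le
    unfold ramp
    rw [max_eq_left]
    exact le_trans (min_le_right _ _) this

lemma cdf_right {ν : Measure ℝ} [IsFiniteMeasure ν] (c : ℝ) {e : ℝ} (he : 0 < e) :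
    ∃ η : ℝ, 0 < η ∧ ν.real (Set.Iic (c + η)) ≤ ν.real (Set.Iic c) + e := by
  have h1 : Tendsto (fun n : ℕ => ν (Set.Iic (c + 1 / ((n : ℝ) + 1)))) atTop
      (𝓝 (ν (⋂ n : ℕ, Set.Iic (c + 1 / ((n : ℝ) + 1))))) := by
    refine tendsto_measure_iInter_atTop (fun n => measurableSet_Iic.nullMeasurableSet) ?_
      ⟨0, measure_ne_top _ _⟩
    intro n m hnm
    refine Set.Iic_subset_Iic.2 ?_
    have : (1 : ℝ) / ((m : ℝ) + 1) ≤ 1 / ((n : ℝ) + 1) := by
      apply one_div_le_one_div_of_le (by positivity)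
      have : (n : ℝ) ≤ m := by exact_mod_cast hnm
      linarith
    linarith
  have h2 : (⋂ n : ℕ, Set.Iic (c + 1 / ((n : ℝ) + 1))) = Set.Iic c := by
    ext x
    simp only [Set.mem_iInter, Set.mem_Iic]
    constructor
    · intro h
      refine le_of_forall_pos_le_add fun e he => ?_
      obtain ⟨n, hn⟩ := exists_nat_one_div_lt he
      exact le_trans (h n) (by linarith)
    · intro h n
      have : (0 : ℝ) < 1 / ((n : ℝ) + 1) := by positivity
      linarith
  rw [h2] at h1
  have h3 : Tendsto (fun n : ℕ => ν.real (Set.Iic (c + 1 / ((n : ℝ) + 1)))) atTop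
      (𝓝 (ν.real (Set.Iic c))) := (ENNReal.tendsto_toReal (measure_ne_top _ _)).comp h1
  obtain ⟨n, hn⟩ := ((tendsto_order.1 h3).2 (ν.real (Set.Iic c) + e) (by linarith)).exists
  exact ⟨1 / ((n : ℝ) + 1), by positivity, hn.le⟩

lemma cdf_left {ν : Measure ℝ} [IsFiniteMeasure ν] (c : ℝ) (hc : ν {c} = 0) {e : ℝ}
    (he : 0 < e) : ∃ η : ℝ, 0 < η ∧ ν.real (Set.Iic c) - e ≤ ν.real (Set.Iic (c - η)) := by
  have h1 : Tendsto (fun n : ℕ => ν (Set.Iic (c - 1 / ((n : ℝ) + 1)))) atTop
      (𝓝 (ν (⋃ n : ℕ, Set.Iic (c - 1 / ((n : ℝ) + 1))))) := by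
    refine tendsto_measure_iUnion_atTop ?_
    intro n m hnm
    refine Set.Iic_subset_Iic.2 ?_
    have : (1 : ℝ) / ((m : ℝ) + 1) ≤ 1 / ((n : ℝ) + 1) := by
      apply one_div_le_one_div_of_le (by positivity)
      have : (n : ℝ) ≤ m := by exact_mod_cast hnm
      linarith
    linarith
  have h2 : (⋃ n : ℕ, Set.Iic (c - 1 / ((n : ℝ) + 1))) = Set.Iio c := by
    ext x
    simp only [Set.mem_iUnion, Set.mem_Iic, Set.mem_Iio]
    constructor
    · rintro ⟨n, hn⟩
      have : (0 : ℝ) < 1 / ((n : ℝ) + 1) := by positivity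
      linarith
    · intro h
      obtain ⟨n, hn⟩ := exists_nat_one_div_lt (sub_pos.2 h)
      exact ⟨n, by linarith⟩
  have h4 : ν (Set.Iio c) = ν (Set.Iic c) := by
    rw [← Set.Iio_union_right, measure_union (by simp) (measurableSet_singleton c), hc, add_zero]
  rw [h2, h4] at h1
  have h3 : Tendsto (fun n : ℕ => ν.real (Set.Iic (c - 1 / ((n : ℝ) + 1)))) atTop
      (𝓝 (ν.real (Set.Iic c))) := (ENNReal.tendsto_toReal (measure_ne_top _ _)).comp h1
  obtain ⟨n, hn⟩ := ((tendsto_order.1 h3).1 (ν.real (Set.Iic c) - e) (by linarith)).exists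
  exact ⟨1 / ((n : ℝ) + 1), by positivity, hn.le⟩

/-- Convergence of the mean empirical law of the gaps, tested on bounded Lipschitz functions. -/
def MeanEmp (α β ε : ℝ) (ν : Measure ℝ) : Prop :=
  ∀ (ψ : ℝ → ℝ) (K : ℝ) (L : NNReal), (∀ x, |ψ x| ≤ K) → LipschitzWith L ψ →
    Tendsto (fun N : ℕ => ∫ A, gibbsAverage β A (fun y => emp (N := N) (α := α) ψ (A, y))
      ∂patternLawMix N α ε) atTop (𝓝 (∫ x, ψ x ∂ν))

section Limit

variable {α β ε : ℝ} {ν : Measure ℝ} [IsProbabilityMeasure ν]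

lemma MeanEmp.ramp (h : MeanEmp α β ε ν) (hβ : 0 ≤ β) (c : ℝ) {η : ℝ} (hη : 0 < η) :
    Tendsto (fun N : ℕ => ∫ p, emp (N := N) (α := α) (ramp c η) p ∂QN β (patternLawMix N α ε))
      atTop (𝓝 (∫ x, Obs918.ramp c η x ∂ν)) := by
  refine (h (Obs918.ramp c η) 1 _ (ramp_abs_le c η) (lipschitz_ramp c hη)).congr' ?_
  filter_upwards [eventually_gt_atTop 0] with N hN
  exact integral_QN hN hβ _ (measurable_emp (lipschitz_ramp c hη).continuous.measurable)
    (emp_abs_le (ramp_abs_le c η))

lemma indic_abs_le (s : Set ℝ) (x : ℝ) : |s.indicator (fun _ => (1 : ℝ)) x| ≤ 1 := by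
  by_cases h : x ∈ s <;> simp [h]

lemma MeanEmp.cdf (h : MeanEmp α β ε ν) (hβ : 0 ≤ β) (c : ℝ) (hc : ν {c} = 0) :
    Tendsto (fun N : ℕ => ∫ p, emp (N := N) (α := α) ((Set.Iic c).indicator fun _ => (1 : ℝ)) p
      ∂QN β (patternLawMix N α ε)) atTop (𝓝 (ν.real (Set.Iic c))) := by
  have hint : ∀ (N : ℕ), 0 < N → ∀ {ψ : ℝ → ℝ}, Measurable ψ → (∀ x, |ψ x| ≤ 1) →
      Integrable (emp (N := N) (α := α) ψ) (QN β (patternLawMix N α ε)) := by
    intro N hN ψ hψ hb
    have := isProb_QN (N := N) (α := α) hN hβ (patternLawMix N α ε)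
    exact Integrable.of_bound (measurable_emp hψ).aestronglyMeasurable 1
      (Eventually.of_forall fun p => emp_abs_le hb p)
  have hmI : ∀ c : ℝ, Measurable ((Set.Iic c).indicator fun _ => (1 : ℝ)) :=
    fun c => measurable_const.indicator measurableSet_Iic
  have hmr : ∀ (c : ℝ) {η : ℝ}, 0 < η → Measurable (Obs918.ramp c η) :=
    fun c η hη => (lipschitz_ramp c hη).continuous.measurable
  have hup : ∀ (c : ℝ) {η : ℝ}, 0 < η → ∫ x, Obs918.ramp c η x ∂ν ≤ ν.real (Set.Iic (c + η)) := by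
    intro c η hη
    rw [← integral_indicator_one measurableSet_Iic]
    refine integral_mono (Integrable.of_bound (hmr c hη).aestronglyMeasurable 1
      (Eventually.of_forall fun x => ramp_abs_le c η x))
      (Integrable.of_bound (hmI (c + η)).aestronglyMeasurable 1
      (Eventually.of_forall fun x => indic_abs_le _ x)) ?_
    exact ramp_le_indicator c hη
  have hlo : ∀ (c : ℝ) {η : ℝ}, 0 < η → ν.real (Set.Iic c) ≤ ∫ x, Obs918.ramp c η x ∂ν := by
    intro c η hη
    rw [← integral_indicator_one measurableSet_Iic]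
    refine integral_mono (Integrable.of_bound (hmI c).aestronglyMeasurable 1
      (Eventually.of_forall fun x => indic_abs_le _ x)) (Integrable.of_bound
      (hmr c hη).aestronglyMeasurable 1 (Eventually.of_forall fun x => ramp_abs_le c η x)) ?_
    exact indicator_le_ramp c hη
  rw [tendsto_order]
  constructor
  · intro a ha
    obtain ⟨η, hη, h1⟩ := cdf_left (ν := ν) c hc (e := (ν.real (Set.Iic c) - a) / 2) (by linarith)
    have h2 := h.ramp hβ (c - η) hη
    have h3 : a < ∫ x, Obs918.ramp (c - η) η x ∂ν := by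
      have := hlo (c - η) hη
      linarith
    filter_upwards [(tendsto_order.1 h2).1 a h3, eventually_gt_atTop 0] with N hN hN0
    refine lt_of_lt_of_le hN (integral_mono (hint N hN0 (hmr _ hη) (ramp_abs_le _ _))
      (hint N hN0 (hmI _) (indic_abs_le _)) fun p => emp_mono (fun x => ?_) p)
    have := ramp_le_indicator (c - η) hη x
    rwa [sub_add_cancel] at this
  · intro a ha
    obtain ⟨η, hη, h1⟩ := cdf_right (ν := ν) c (e := (a - ν.real (Set.Iic c)) / 2) (by linarith)
    have h2 := h.ramp hβ c hη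
    have h3 : ∫ x, Obs918.ramp c η x ∂ν < a := by
      have := hup c hη
      linarith
    filter_upwards [(tendsto_order.1 h2).2 a h3, eventually_gt_atTop 0] with N hN hN0
    exact lt_of_le_of_lt (integral_mono (hint N hN0 (hmI _) (indic_abs_le _))
      (hint N hN0 (hmr _ hη) (ramp_abs_le _ _)) fun p => emp_mono (indicator_le_ramp c hη) p) hN

/-- **(O2)** limit of `gapMean` at fixed `(α, β, ε)`. -/
theorem gapMean_tendsto (h : MeanEmp α β ε ν) (hβ : 0 ≤ β) {δ u : ℝ} (hδu : δ ≤ u)
    (hδ : ν {δ} = 0) (hu : ν {u} = 0) :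
    Tendsto (fun N : ℕ => gapMean N β α ε δ u) atTop (𝓝 (ν.real (Set.Ioc δ u))) := by
  have h1 := (h.cdf hβ u hu).sub (h.cdf hβ δ hδ)
  have h2 : ν.real (Set.Iic u) - ν.real (Set.Iic δ) = ν.real (Set.Ioc δ u) := by
    have h3 : Set.Ioc δ u = Set.Iic u \ Set.Iic δ := by
      ext x; simp [and_comm]
    rw [h3, measureReal_sdiff (Set.Iic_subset_Iic.2 hδu) measurableSet_Iic]
  rw [h2] at h1
  refine h1.congr' ?_
  filter_upwards [eventually_gt_atTop 0] with N hN
  have := isProb_QN (N := N) (α := α) hN hβ (patternLawMix N α ε)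
  have hint : ∀ c : ℝ, Integrable (emp (N := N) (α := α) ((Set.Iic c).indicator fun _ => (1 : ℝ)))
      (QN β (patternLawMix N α ε)) := fun c =>
    Integrable.of_bound (measurable_emp (measurable_const.indicator
      measurableSet_Iic)).aestronglyMeasurable 1
      (Eventually.of_forall fun p => emp_abs_le (indic_abs_le _) p)
  rw [gapMean_eq hN hβ, ← integral_sub (hint u) (hint δ)]
  refine integral_congr_ae (Eventually.of_forall fun p => ?_)
  simp only
  rw [← emp_sub]
  congr 1
  funext x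
  by_cases h3 : x ≤ δ
  · have h4 : x ≤ u := h3.trans hδu
    have h5 : x ∉ Set.Ioc δ u := fun h => absurd h.1 (not_lt.2 h3)
    simp [h3, h4]
  · by_cases h4 : x ≤ u
    · have h5 : x ∈ Set.Ioc δ u := ⟨not_le.1 h3, h4⟩
      simp [h3, h4, h5]
    · have h5 : x ∉ Set.Ioc δ u := fun h => absurd h.2 h4
      simp [h3, h4]

end Limit

end Crest.Agent.R146.Obs918
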