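import Mathlib
import Crest.Agent.R151.V1

/-!
# R146, node OBS (helper548), part A: abstract row systems and the Efron-Stein bound

Rows `A : ι → X` are independent with law `G`; `t : X → Y → ℝ` is the field of a row at a
configuration; `σ` is a probability measure on configurations; `F` is a potential bounded above by
`K` whose second moment `∫ F (t x y)^2 dG(x)` is at most `C`.  The logarithm of the partition
function has `dvar` at most `4 (K^2 + C)` times the number of rows.
-/

set_option autoImplicit false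
set_option linter.unusedSectionVars false

open MeasureTheory ProbabilityTheory
open scoped ENNReal

namespace Crest.Agent.R146.ObsA_548

variable {ι X Y : Type*} [Fintype ι] [DecidableEq ι] [MeasurableSpace X] [MeasurableSpace Y]

/-- the exponent of a sample of rows at a configuration -/
noncomputable def V (F : ℝ → ℝ) (t : X → Y → ℝ) (A : ι → X) (y : Y) : ℝ := ∑ a, F (t (A a) y)

/-- the partition function -/
noncomputable def Z (σ : Measure Y) (F : ℝ → ℝ) (t : X → Y → ℝ) (A : ι → X) : ℝ :=
  ∫ y, Real.exp (V F t A y) ∂σ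

/-- the exponent without the row `i` -/
noncomputable def Vr (F : ℝ → ℝ) (t : X → Y → ℝ) (i : ι) (A : ι → X) (y : Y) : ℝ :=
  ∑ a ∈ Finset.univ.erase i, F (t (A a) y)

noncomputable def Zr (σ : Measure Y) (F : ℝ → ℝ) (t : X → Y → ℝ) (i : ι) (A : ι → X) : ℝ :=
  ∫ y, Real.exp (Vr F t i A y) ∂σ

section basic

variable {F : ℝ → ℝ} {t : X → Y → ℝ} {K C : ℝ}

omit [DecidableEq ι] in
lemma measurable_V (hF : Measurable F) (ht : Measurable (Function.uncurry t)) :
    Measurable (fun p : (ι → X) × Y => V F t p.1 p.2) := by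
  unfold V
  refine Finset.measurable_sum _ fun a _ => ?_
  have h1 : Measurable fun p : (ι → X) × Y => (p.1 a, p.2) :=
    ((measurable_pi_apply a).comp measurable_fst).prodMk measurable_snd
  exact hF.comp (ht.comp h1)

lemma measurable_Vr (hF : Measurable F) (ht : Measurable (Function.uncurry t)) (i : ι) :
    Measurable (fun p : (ι → X) × Y => Vr F t i p.1 p.2) := by
  unfold Vr
  refine Finset.measurable_sum _ fun a _ => ?_
  have h1 : Measurable fun p : (ι → X) × Y => (p.1 a, p.2) :=
    ((measurable_pi_apply a).comp measurable_fst).prodMk measurable_snd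
  exact hF.comp (ht.comp h1)

omit [DecidableEq ι] in
lemma measurable_V_right (hF : Measurable F) (ht : Measurable (Function.uncurry t)) (A : ι → X) :
    Measurable (fun y : Y => V F t A y) :=
  (measurable_V hF ht).comp (measurable_const.prodMk measurable_id)

lemma measurable_Vr_right (hF : Measurable F) (ht : Measurable (Function.uncurry t)) (i : ι)
    (A : ι → X) : Measurable (fun y : Y => Vr F t i A y) :=
  (measurable_Vr hF ht i).comp (measurable_const.prodMk measurable_id)

omit [DecidableEq ι] [MeasurableSpace X] [MeasurableSpace Y] in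
lemma V_le (hK : ∀ x, F x ≤ K) (A : ι → X) (y : Y) : V F t A y ≤ Fintype.card ι * K := by
  unfold V
  calc ∑ a, F (t (A a) y) ≤ ∑ _a : ι, K := Finset.sum_le_sum fun a _ => hK _
    _ = Fintype.card ι * K := by simp

omit [MeasurableSpace X] [MeasurableSpace Y] in
lemma Vr_le (hK0 : 0 ≤ K) (hK : ∀ x, F x ≤ K) (i : ι) (A : ι → X) (y : Y) :
    Vr F t i A y ≤ Fintype.card ι * K := by
  unfold Vr
  calc ∑ a ∈ Finset.univ.erase i, F (t (A a) y) ≤ ∑ _a ∈ Finset.univ.erase i, K :=
        Finset.sum_le_sum fun a _ => hK _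
    _ ≤ ∑ _a : ι, K := Finset.sum_le_sum_of_subset_of_nonneg (Finset.erase_subset _ _)
        fun _ _ _ => hK0
    _ = Fintype.card ι * K := by simp

omit [MeasurableSpace X] [MeasurableSpace Y] in
lemma V_eq (F : ℝ → ℝ) (t : X → Y → ℝ) (i : ι) (A : ι → X) (y : Y) :
    V F t A y = F (t (A i) y) + Vr F t i A y := by
  unfold V Vr
  rw [Finset.add_sum_erase _ (fun a => F (t (A a) y)) (Finset.mem_univ i)]

omit [MeasurableSpace X] [MeasurableSpace Y] in
lemma Vr_update (F : ℝ → ℝ) (t : X → Y → ℝ) (i : ι) (A : ι → X) (x : X) (y : Y) :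
    Vr F t i (Function.update A i x) y = Vr F t i A y := by
  unfold Vr
  refine Finset.sum_congr rfl fun a ha => ?_
  rw [Function.update_of_ne (Finset.ne_of_mem_erase ha)]

omit [MeasurableSpace X] in
lemma Zr_update (σ : Measure Y) (F : ℝ → ℝ) (t : X → Y → ℝ) (i : ι) (A : ι → X) (x : X) :
    Zr σ F t i (Function.update A i x) = Zr σ F t i A := by
  unfold Zr
  simp only [Vr_update]

lemma integrable_exp_of_le {σ : Measure Y} [IsFiniteMeasure σ] {g : Y → ℝ} (hg : Measurable g)
    {c : ℝ} (hc : ∀ y, g y ≤ c) : Integrable (fun y => Real.exp (g y)) σ := by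
  refine Integrable.of_bound (hg.exp.aestronglyMeasurable) (Real.exp c) ?_
  refine Filter.Eventually.of_forall fun y => ?_
  rw [Real.norm_eq_abs, Real.abs_exp]
  exact Real.exp_le_exp.2 (hc y)

lemma integral_exp_pos' {σ : Measure Y} [IsProbabilityMeasure σ] {g : Y → ℝ}
    (hi : Integrable (fun y => Real.exp (g y)) σ) : 0 < ∫ y, Real.exp (g y) ∂σ :=
  integral_exp_pos hi

lemma measurable_Z {σ : Measure Y} [SFinite σ] (hF : Measurable F)
    (ht : Measurable (Function.uncurry t)) :
    Measurable (fun A : ι → X => Z σ F t A) := by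
  have h := (measurable_V (ι := ι) hF ht).exp
  exact (h.stronglyMeasurable.integral_prod_right').measurable

lemma measurable_Zr {σ : Measure Y} [SFinite σ] (hF : Measurable F)
    (ht : Measurable (Function.uncurry t)) (i : ι) :
    Measurable (fun A : ι → X => Zr σ F t i A) := by
  have h := (measurable_Vr (ι := ι) hF ht i).exp
  exact (h.stronglyMeasurable.integral_prod_right').measurable

end basic

/-- the density of the Gibbs measure without the row `i` -/
noncomputable def gr (σ : Measure Y) (F : ℝ → ℝ) (t : X → Y → ℝ) (i : ι) (A : ι → X) (y : Y) : ℝ :=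
  Real.exp (Vr F t i A y) / Zr σ F t i A

section cavity

variable {F : ℝ → ℝ} {t : X → Y → ℝ} {K C : ℝ} {σ : Measure Y} [IsProbabilityMeasure σ]

lemma Zr_pos (hF : Measurable F) (ht : Measurable (Function.uncurry t)) (hK0 : 0 ≤ K)
    (hK : ∀ x, F x ≤ K) (i : ι) (A : ι → X) : 0 < Zr σ F t i A :=
  integral_exp_pos' (integrable_exp_of_le (measurable_Vr_right hF ht i A)
    fun y => Vr_le hK0 hK i A y)

lemma Z_pos (hF : Measurable F) (ht : Measurable (Function.uncurry t))
    (hK : ∀ x, F x ≤ K) (A : ι → X) : 0 < Z σ F t A :=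
  integral_exp_pos' (integrable_exp_of_le (measurable_V_right hF ht A) fun y => V_le hK A y)

lemma gr_nonneg (hF : Measurable F) (ht : Measurable (Function.uncurry t)) (hK0 : 0 ≤ K)
    (hK : ∀ x, F x ≤ K) (i : ι) (A : ι → X) (y : Y) : 0 ≤ gr σ F t i A y :=
  div_nonneg (Real.exp_nonneg _) (Zr_pos hF ht hK0 hK i A).le

lemma measurable_gr (hF : Measurable F) (ht : Measurable (Function.uncurry t)) (i : ι) :
    Measurable (fun p : (ι → X) × Y => gr σ F t i p.1 p.2) :=
  ((measurable_Vr hF ht i).exp).div ((measurable_Zr hF ht i).comp measurable_fst)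

lemma measurable_gr_right (hF : Measurable F) (ht : Measurable (Function.uncurry t)) (i : ι)
    (A : ι → X) : Measurable (fun y => gr σ F t i A y) :=
  (measurable_gr hF ht i).comp (measurable_const.prodMk measurable_id)

lemma gr_le (hF : Measurable F) (ht : Measurable (Function.uncurry t)) (hK0 : 0 ≤ K)
    (hK : ∀ x, F x ≤ K) (i : ι) (A : ι → X) (y : Y) :
    gr σ F t i A y ≤ Real.exp (Fintype.card ι * K) / Zr σ F t i A :=
  div_le_div_of_nonneg_right (Real.exp_le_exp.2 (Vr_le hK0 hK i A y))
    (Zr_pos hF ht hK0 hK i A).le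

lemma integral_gr (hF : Measurable F) (ht : Measurable (Function.uncurry t)) (hK0 : 0 ≤ K)
    (hK : ∀ x, F x ≤ K) (i : ι) (A : ι → X) : ∫ y, gr σ F t i A y ∂σ = 1 := by
  unfold gr
  rw [integral_div]
  exact div_self (Zr_pos hF ht hK0 hK i A).ne'

/-- the Gibbs measure without the row `i` -/
noncomputable def Gr (σ : Measure Y) (F : ℝ → ℝ) (t : X → Y → ℝ) (i : ι) (A : ι → X) : Measure Y :=
  σ.withDensity fun y => ENNReal.ofReal (gr σ F t i A y)

lemma isProb_Gr (hF : Measurable F) (ht : Measurable (Function.uncurry t)) (hK0 : 0 ≤ K)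
    (hK : ∀ x, F x ≤ K) (i : ι) (A : ι → X) : IsProbabilityMeasure (Gr σ F t i A) := by
  refine ⟨?_⟩
  unfold Gr
  rw [withDensity_apply _ MeasurableSet.univ, Measure.restrict_univ,
    ← ofReal_integral_eq_lintegral_ofReal]
  · rw [integral_gr hF ht hK0 hK, ENNReal.ofReal_one]
  · refine Integrable.of_bound (measurable_gr_right hF ht i A).aestronglyMeasurable
      (Real.exp (Fintype.card ι * K) / Zr σ F t i A) (Filter.Eventually.of_forall fun y => ?_)
    rw [Real.norm_eq_abs, abs_of_nonneg (gr_nonneg hF ht hK0 hK i A y)]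
    exact gr_le hF ht hK0 hK i A y
  · exact Filter.Eventually.of_forall fun y => gr_nonneg hF ht hK0 hK i A y

/-- the ratio of the partition functions is a Gibbs mean -/
lemma Z_div_Zr (hF : Measurable F) (ht : Measurable (Function.uncurry t)) (hK0 : 0 ≤ K)
    (hK : ∀ x, F x ≤ K) (i : ι) (A : ι → X) :
    Z σ F t A / Zr σ F t i A = ∫ y, Real.exp (F (t (A i) y)) ∂(Gr σ F t i A) := by
  unfold Gr
  rw [integral_withDensity_eq_integral_toReal_smul]
  · unfold Z
    rw [← integral_div]
    refine integral_congr_ae (Filter.Eventually.of_forall fun y => ?_)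
    simp only [smul_eq_mul]
    rw [ENNReal.toReal_ofReal (gr_nonneg hF ht hK0 hK i A y), V_eq F t i A y, Real.exp_add]
    unfold gr
    ring
  · exact (measurable_gr_right hF ht i A).ennreal_ofReal
  · exact Filter.Eventually.of_forall fun y => ENNReal.ofReal_lt_top

/-- squares of logarithms of exponential means of potentials bounded above -/
lemma sq_log_exp_le {Q : Measure Y} [IsProbabilityMeasure Q] {g : Y → ℝ} (hg : Measurable g)
    (hK0 : 0 ≤ K) (hgK : ∀ y, g y ≤ K) :
    ENNReal.ofReal (Real.log (∫ y, Real.exp (g y) ∂Q) ^ 2) ≤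
      ENNReal.ofReal (K ^ 2) + ∫⁻ y, ENNReal.ofReal (g y ^ 2) ∂Q := by
  have hint := integrable_exp_of_le (σ := Q) hg hgK
  have hpos : 0 < ∫ y, Real.exp (g y) ∂Q := integral_exp_pos' hint
  by_cases htop : ∫⁻ y, ENNReal.ofReal (g y ^ 2) ∂Q = ⊤
  · rw [htop]; simp
  have h2 : Integrable (fun y => g y ^ 2) Q := by
    refine ⟨(hg.pow_const 2).aestronglyMeasurable, ?_⟩
    rw [hasFiniteIntegral_iff_ofReal (Filter.Eventually.of_forall fun y => sq_nonneg _)]
    exact lt_of_le_of_ne le_top htop
  have h1 : Integrable g Q := by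
    have : MemLp g 2 Q := (memLp_two_iff_integrable_sq hg.aestronglyMeasurable).2 h2
    exact this.integrable (by norm_num)
  have hup : Real.log (∫ y, Real.exp (g y) ∂Q) ≤ K := by
    rw [Real.log_le_iff_le_exp hpos]
    calc ∫ y, Real.exp (g y) ∂Q ≤ ∫ _y, Real.exp K ∂Q :=
          integral_mono hint (integrable_const _) fun y => Real.exp_le_exp.2 (hgK y)
      _ = Real.exp K := by simp
  have hlo : ∫ y, g y ∂Q ≤ Real.log (∫ y, Real.exp (g y) ∂Q) := by
    rw [Real.le_log_iff_exp_le hpos]
    exact convexOn_exp.map_integral_le Real.continuous_exp.continuousOn isClosed_univ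
      (Filter.Eventually.of_forall fun _ => Set.mem_univ _) h1 hint
  have hcs : (∫ y, g y ∂Q) ^ 2 ≤ ∫ y, g y ^ 2 ∂Q :=
    (even_two.convexOn_pow (𝕜 := ℝ)).map_integral_le (by fun_prop) isClosed_univ
      (Filter.Eventually.of_forall fun _ => Set.mem_univ _) h1 h2
  have hmain : Real.log (∫ y, Real.exp (g y) ∂Q) ^ 2 ≤ K ^ 2 + ∫ y, g y ^ 2 ∂Q := by
    have hnn : 0 ≤ ∫ y, g y ^ 2 ∂Q := integral_nonneg fun y => sq_nonneg _
    rcases le_total 0 (Real.log (∫ y, Real.exp (g y) ∂Q)) with h0 | h0
    · nlinarith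
    · have : Real.log (∫ y, Real.exp (g y) ∂Q) ^ 2 ≤ (∫ y, g y ∂Q) ^ 2 := by nlinarith
      nlinarith
  rw [← ofReal_integral_eq_lintegral_ofReal h2 (Filter.Eventually.of_forall fun y => sq_nonneg _),
    ← ENNReal.ofReal_add (sq_nonneg _) (integral_nonneg fun y => sq_nonneg _)]
  exact ENNReal.ofReal_le_ofReal hmain

end cavity

section efron

variable {F : ℝ → ℝ} {t : X → Y → ℝ} {K : ℝ} {σ : Measure Y} [IsProbabilityMeasure σ]

/-- resampling one coordinate preserves the product law -/
lemma mp_update (G : Measure X) [IsProbabilityMeasure G] (i : ι) :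
    MeasurePreserving (fun p : (ι → X) × X => Function.update p.1 i p.2)
      ((Measure.pi fun _ : ι => G).prod G) (Measure.pi fun _ : ι => G) := by
  refine ⟨measurable_update', ?_⟩
  refine (Measure.pi_eq fun s hs => ?_).symm
  rw [Measure.map_apply measurable_update' (MeasurableSet.univ_pi hs)]
  have hpre : (fun p : (ι → X) × X => Function.update p.1 i p.2) ⁻¹' (Set.univ.pi s) =
      (Set.univ.pi (Function.update s i Set.univ)) ×ˢ (s i) := by
    ext p
    simp only [Set.mem_preimage, Set.mem_pi, Set.mem_univ, true_implies, Set.mem_prod]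
    constructor
    · intro h
      refine ⟨fun j => ?_, ?_⟩
      · by_cases hj : j = i
        · subst hj; simp
        · have := h j
          rw [Function.update_of_ne hj] at this ⊢
          exact this
      · have := h i
        rwa [Function.update_self] at this
    · rintro ⟨h1, h2⟩ j
      by_cases hj : j = i
      · subst hj; rw [Function.update_self]; exact h2
      · have := h1 j
        rw [Function.update_of_ne hj] at this ⊢
        exact this
  rw [hpre, Measure.prod_prod, Measure.pi_pi]
  rw [← Finset.mul_prod_erase Finset.univ (fun j => G (Function.update s i Set.univ j))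
    (Finset.mem_univ i), ← Finset.mul_prod_erase Finset.univ (fun j => G (s j))
    (Finset.mem_univ i), Function.update_self, measure_univ, one_mul, mul_comm]
  congr 1
  refine Finset.prod_congr rfl fun j hj => ?_
  rw [Function.update_of_ne (Finset.ne_of_mem_erase hj)]

lemma lintegral_update (G : Measure X) [IsProbabilityMeasure G] (i : ι) {g : (ι → X) → ℝ≥0∞}
    (hg : Measurable g) :
    ∫⁻ A, ∫⁻ x, g (Function.update A i x) ∂G ∂(Measure.pi fun _ : ι => G) =
      ∫⁻ A, g A ∂(Measure.pi fun _ : ι => G) := by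
  rw [← (mp_update G i).lintegral_comp hg]
  exact (lintegral_prod (μ := Measure.pi fun _ : ι => G) (ν := G)
    (fun p : (ι → X) × X => g (Function.update p.1 i p.2))
    (hg.comp measurable_update').aemeasurable).symm

/-- the second moment of the change of `log Z` when a row is removed -/
lemma lintegral_row_le (hF : Measurable F) (ht : Measurable (Function.uncurry t)) (hK0 : 0 ≤ K)
    (hK : ∀ x, F x ≤ K) {C : ℝ≥0∞} (G : Measure X) [IsProbabilityMeasure G]
    (hC : ∀ y, ∫⁻ x, ENNReal.ofReal (F (t x y) ^ 2) ∂G ≤ C) (i : ι) :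
    ∫⁻ A, ENNReal.ofReal ((Real.log (Z σ F t A) - Real.log (Zr σ F t i A)) ^ 2)
      ∂(Measure.pi fun _ : ι => G) ≤ ENNReal.ofReal (K ^ 2) + C := by
  have hm : Measurable fun A : ι → X =>
      ENNReal.ofReal ((Real.log (Z σ F t A) - Real.log (Zr σ F t i A)) ^ 2) :=
    (((measurable_Z hF ht).log.sub (measurable_Zr hF ht i).log).pow_const 2).ennreal_ofReal
  rw [← lintegral_update G i hm]
  have hpt : ∀ A : ι → X, ∫⁻ x, ENNReal.ofReal ((Real.log (Z σ F t (Function.update A i x)) -
      Real.log (Zr σ F t i (Function.update A i x))) ^ 2) ∂G ≤ ENNReal.ofReal (K ^ 2) + C := by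
    intro A
    have := isProb_Gr (σ := σ) hF ht hK0 hK i A
    have h1 : ∀ x, ENNReal.ofReal ((Real.log (Z σ F t (Function.update A i x)) -
        Real.log (Zr σ F t i (Function.update A i x))) ^ 2) ≤
        ENNReal.ofReal (K ^ 2) + ∫⁻ y, ENNReal.ofReal (F (t x y) ^ 2) ∂(Gr σ F t i A) := by
      intro x
      rw [← Real.log_div (Z_pos hF ht hK _).ne' (Zr_pos hF ht hK0 hK _ _).ne',
        Z_div_Zr hF ht hK0 hK]
      have hGr : Gr σ F t i (Function.update A i x) = Gr σ F t i A := by
        unfold Gr gr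
        simp only [Vr_update, Zr_update]
      rw [hGr, Function.update_self]
      exact sq_log_exp_le (hF.comp (ht.comp (measurable_const.prodMk measurable_id))) hK0
        fun y => hK _
    calc ∫⁻ x, ENNReal.ofReal ((Real.log (Z σ F t (Function.update A i x)) -
          Real.log (Zr σ F t i (Function.update A i x))) ^ 2) ∂G
        ≤ ∫⁻ x, (ENNReal.ofReal (K ^ 2) +
            ∫⁻ y, ENNReal.ofReal (F (t x y) ^ 2) ∂(Gr σ F t i A)) ∂G := lintegral_mono h1
      _ = ENNReal.ofReal (K ^ 2) +
            ∫⁻ x, ∫⁻ y, ENNReal.ofReal (F (t x y) ^ 2) ∂(Gr σ F t i A) ∂G := by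
          rw [lintegral_add_left measurable_const]; simp
      _ = ENNReal.ofReal (K ^ 2) +
            ∫⁻ y, ∫⁻ x, ENNReal.ofReal (F (t x y) ^ 2) ∂G ∂(Gr σ F t i A) := by
          rw [lintegral_lintegral_swap]
          exact ((hF.comp ht).pow_const 2).ennreal_ofReal.aemeasurable
      _ ≤ ENNReal.ofReal (K ^ 2) + ∫⁻ _y, C ∂(Gr σ F t i A) := by
          gcongr with y
          exact hC y
      _ = ENNReal.ofReal (K ^ 2) + C := by simp
  calc ∫⁻ A, ∫⁻ x, ENNReal.ofReal ((Real.log (Z σ F t (Function.update A i x)) -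
      Real.log (Zr σ F t i (Function.update A i x))) ^ 2) ∂G ∂(Measure.pi fun _ : ι => G)
      ≤ ∫⁻ _A, (ENNReal.ofReal (K ^ 2) + C) ∂(Measure.pi fun _ : ι => G) := lintegral_mono hpt
    _ = ENNReal.ofReal (K ^ 2) + C := by simp

/-- **Efron-Stein for the logarithm of the partition function** -/
theorem dvar_log_Z_le (hF : Measurable F) (ht : Measurable (Function.uncurry t)) (hK0 : 0 ≤ K)
    (hK : ∀ x, F x ≤ K) {C : ℝ≥0∞} (G : Measure X) [IsProbabilityMeasure G]
    (hC : ∀ y, ∫⁻ x, ENNReal.ofReal (F (t x y) ^ 2) ∂G ≤ C) :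
    R151.V.dvar (Measure.pi fun _ : ι => G) (fun A => Real.log (Z σ F t A)) ≤
      Fintype.card ι * (4 * (ENNReal.ofReal (K ^ 2) + C)) := by
  have hm : Measurable fun A : ι → X => Real.log (Z σ F t A) := (measurable_Z hF ht).log
  refine (R151.V.dvar_pi_le G hm).trans ?_
  have hi : ∀ i : ι, R151.V.infl (Measure.pi fun _ : ι => G) G
      (fun A => Real.log (Z σ F t A)) i ≤ 4 * (ENNReal.ofReal (K ^ 2) + C) := by
    intro i
    unfold R151.V.infl
    have hsq : ∀ a b c : ℝ, ENNReal.ofReal ((a - b) ^ 2) ≤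
        2 * ENNReal.ofReal ((a - c) ^ 2) + 2 * ENNReal.ofReal ((b - c) ^ 2) := by
      intro a b c
      have : (2 : ℝ≥0∞) = ENNReal.ofReal 2 := by simp
      rw [this, ← ENNReal.ofReal_mul (by norm_num), ← ENNReal.ofReal_mul (by norm_num),
        ← ENNReal.ofReal_add (by positivity) (by positivity)]
      apply ENNReal.ofReal_le_ofReal
      nlinarith [sq_nonneg ((a - c) + (b - c))]
    have hg : Measurable fun A : ι → X =>
        ENNReal.ofReal ((Real.log (Z σ F t A) - Real.log (Zr σ F t i A)) ^ 2) :=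
      (((measurable_Z hF ht).log.sub (measurable_Zr hF ht i).log).pow_const 2).ennreal_ofReal
    have hrow := lintegral_row_le (σ := σ) hF ht hK0 hK G hC i
    calc ∫⁻ A, ∫⁻ x, ENNReal.ofReal ((Real.log (Z σ F t A) -
          Real.log (Z σ F t (Function.update A i x))) ^ 2) ∂G ∂(Measure.pi fun _ : ι => G)
        ≤ ∫⁻ A, ∫⁻ x, (2 * ENNReal.ofReal ((Real.log (Z σ F t A) -
            Real.log (Zr σ F t i A)) ^ 2) +
            2 * ENNReal.ofReal ((Real.log (Z σ F t (Function.update A i x)) -
            Real.log (Zr σ F t i (Function.update A i x))) ^ 2)) ∂G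
            ∂(Measure.pi fun _ : ι => G) := by
          refine lintegral_mono fun A => lintegral_mono fun x => ?_
          rw [Zr_update]
          exact hsq _ _ _
      _ = 2 * (∫⁻ A, ENNReal.ofReal ((Real.log (Z σ F t A) -
            Real.log (Zr σ F t i A)) ^ 2) ∂(Measure.pi fun _ : ι => G)) +
          2 * ∫⁻ A, ∫⁻ x, ENNReal.ofReal ((Real.log (Z σ F t (Function.update A i x)) -
            Real.log (Zr σ F t i (Function.update A i x))) ^ 2) ∂G
            ∂(Measure.pi fun _ : ι => G) := by
          have h1 : ∀ A : ι → X, ∫⁻ x, (2 * ENNReal.ofReal ((Real.log (Z σ F t A) -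
            Real.log (Zr σ F t i A)) ^ 2) +
            2 * ENNReal.ofReal ((Real.log (Z σ F t (Function.update A i x)) -
            Real.log (Zr σ F t i (Function.update A i x))) ^ 2)) ∂G =
            2 * ENNReal.ofReal ((Real.log (Z σ F t A) - Real.log (Zr σ F t i A)) ^ 2) +
            2 * ∫⁻ x, ENNReal.ofReal ((Real.log (Z σ F t (Function.update A i x)) -
            Real.log (Zr σ F t i (Function.update A i x))) ^ 2) ∂G := by
            intro A
            have hgu : Measurable fun x : X =>
                ENNReal.ofReal ((Real.log (Z σ F t (Function.update A i x)) -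
                Real.log (Zr σ F t i (Function.update A i x))) ^ 2) :=
              hg.comp (measurable_update A (a := i))
            rw [lintegral_add_left measurable_const, lintegral_const_mul 2 hgu]
            simp
          simp only [h1]
          rw [lintegral_add_left (hg.const_mul 2), lintegral_const_mul _ hg,
            lintegral_const_mul]
          exact Measurable.lintegral_prod_right'
            (f := fun z : (ι → X) × X => ENNReal.ofReal ((Real.log (Z σ F t (Function.update z.1 i z.2)) -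
            Real.log (Zr σ F t i (Function.update z.1 i z.2))) ^ 2)) (hg.comp measurable_update')
      _ ≤ 2 * (ENNReal.ofReal (K ^ 2) + C) + 2 * (ENNReal.ofReal (K ^ 2) + C) := by
          rw [lintegral_update G i hg]
          gcongr
      _ = 4 * (ENNReal.ofReal (K ^ 2) + C) := by ring
  calc ∑ i, R151.V.infl (Measure.pi fun _ : ι => G) G (fun A => Real.log (Z σ F t A)) i
      ≤ ∑ _i : ι, 4 * (ENNReal.ofReal (K ^ 2) + C) := Finset.sum_le_sum fun i _ => hi i
    _ = Fintype.card ι * (4 * (ENNReal.ofReal (K ^ 2) + C)) := by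
        simp

end efron

end Crest.Agent.R146.ObsA_548
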