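import Mathlib
import Crest.Agent.R151.V1
import Crest.Agent.R146.Obs1_918

/-!
# R146, node OBS-1 (helper548), part B: from pressures and variance bounds to concentration of
an extensive observable under the joint law of disorder and configuration
-/

set_option autoImplicit false
set_option linter.unusedSectionVars false

open MeasureTheory ProbabilityTheory Filter
open scoped ENNReal Topology

namespace Crest.Agent.R146.ObsB_548

open Crest.Agent.R146.Obs918

section cheb

variable {S : Type*} [MeasurableSpace S] {P : Measure S} [IsProbabilityMeasure P]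

lemma memLp_of_dvar {f : S → ℝ} (hf : Measurable f) (h : R151.V.dvar P f ≠ ⊤) : MemLp f 2 P := by
  unfold R151.V.dvar at h
  have hm : Measurable fun x => ∫⁻ y, ENNReal.ofReal ((f x - f y) ^ 2) ∂P :=
    Measurable.lintegral_prod_right' (f := fun z : S × S => ENNReal.ofReal ((f z.1 - f z.2) ^ 2))
      (R151.V.meas_sq hf measurable_fst measurable_snd)
  have hae := ae_lt_top hm h
  obtain ⟨x, hx⟩ := hae.exists
  have hfm : Measurable fun y => f x - f y := measurable_const.sub hf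
  have h1 : MemLp (fun y => f x - f y) 2 P := by
    rw [memLp_two_iff_integrable_sq hfm.aestronglyMeasurable]
    refine ⟨((measurable_const.sub hf).pow_const 2).aestronglyMeasurable, ?_⟩
    rw [hasFiniteIntegral_iff_ofReal (Eventually.of_forall fun y => sq_nonneg _)]
    exact hx
  have h2 : MemLp (fun y => f x - (f x - f y)) 2 P := (memLp_const (f x)).sub h1
  simpa using h2

lemma cheb_dvar {f : S → ℝ} (hf : Measurable f) {v : ℝ} (hv : 0 ≤ v)
    (h : R151.V.dvar P f ≤ ENNReal.ofReal v) {r : ℝ} (hr : 0 < r) :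
    P {A | r ≤ |f A - ∫ A', f A' ∂P|} ≤ ENNReal.ofReal (v / r ^ 2) := by
  have hL : MemLp f 2 P := memLp_of_dvar hf (ne_top_of_le_ne_top ENNReal.ofReal_ne_top h)
  have h1 := meas_ge_le_variance_div_sq hL hr
  refine h1.trans (ENNReal.ofReal_le_ofReal ?_)
  have h2 := R151.V.dvar_eq hL
  rw [h2] at h
  have h3 : 2 * variance f P ≤ v := by
    rwa [ENNReal.ofReal_le_ofReal_iff hv] at h
  have h4 : 0 ≤ variance f P := variance_nonneg _ _
  apply div_le_div_of_nonneg_right _ (by positivity)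
  linarith

end cheb

section asym

variable {Ω Y : ℕ → Type*} [∀ n, MeasurableSpace (Ω n)] [∀ n, MeasurableSpace (Y n)]
  {μ : ∀ n, Measure (Ω n)} {σ : ∀ n, Measure (Y n)} {w : ∀ n, Ω n → Y n → ℝ}
  {S : ∀ n, Ω n × Y n → ℝ}

/-- the normalised logarithm of the tilted partition function -/
noncomputable def LT {Ω Y : Type*} [MeasurableSpace Ω] [MeasurableSpace Y] (σ : Measure Y)
    (w : Ω → Y → ℝ) (S : Ω × Y → ℝ) (t : ℝ) (ω : Ω) : ℝ :=
  Real.log ((∫ y, Real.exp (t * S (ω, y)) * w ω y ∂σ) / σ.real Set.univ)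

lemma tilt_int {Ω Y : Type*} [MeasurableSpace Ω] [MeasurableSpace Y] {σ : Measure Y}
    [IsFiniteMeasure σ] {w : Ω → Y → ℝ} (hw : GoodWeight σ w) {S : Ω × Y → ℝ}
    (hS : Measurable S) (hSb : ∃ K : ℝ, ∀ p, |S p| ≤ K) (t : ℝ) (ω : Ω) :
    Integrable (fun y => Real.exp (t * S (ω, y)) * w ω y) σ := by
  obtain ⟨K, hK⟩ := hSb
  have hmSy : Measurable fun y => S (ω, y) := hS.comp measurable_prodMk_left
  refine hw.int_mul ω (f := fun y => Real.exp (t * S (ω, y)))
    (Real.measurable_exp.comp (measurable_const.mul hmSy)) (K := Real.exp (|t| * K)) fun y => ?_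
  rw [abs_of_pos (Real.exp_pos _)]
  apply Real.exp_le_exp.2
  calc t * S (ω, y) ≤ |t * S (ω, y)| := le_abs_self _
    _ = |t| * |S (ω, y)| := abs_mul _ _
    _ ≤ |t| * K := mul_le_mul_of_nonneg_left (hK _) (abs_nonneg _)

lemma tilt_pos {Ω Y : Type*} [MeasurableSpace Ω] [MeasurableSpace Y] {σ : Measure Y}
    [IsFiniteMeasure σ] {w : Ω → Y → ℝ} (hw : GoodWeight σ w) {S : Ω × Y → ℝ}
    (hS : Measurable S) (hSb : ∃ K : ℝ, ∀ p, |S p| ≤ K) (t : ℝ) (ω : Ω) :
    0 < ∫ y, Real.exp (t * S (ω, y)) * w ω y ∂σ := by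
  rw [integral_pos_iff_support_of_nonneg
    (fun y => mul_nonneg (Real.exp_pos _).le (hw.pos ω y).le) (tilt_int hw hS hSb t ω)]
  have : Function.support (fun y => Real.exp (t * S (ω, y)) * w ω y) = Set.univ := by
    ext y; simp [(hw.pos ω y).ne', (Real.exp_pos _).ne']
  rw [this]
  exact pos_iff_ne_zero.2 (by simpa [Measure.measure_univ_eq_zero] using hw.ne)

lemma measurable_LT {Ω Y : Type*} [MeasurableSpace Ω] [MeasurableSpace Y] {σ : Measure Y}
    [IsFiniteMeasure σ] {w : Ω → Y → ℝ} (hw : GoodWeight σ w) {S : Ω × Y → ℝ}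
    (hS : Measurable S) (t : ℝ) : Measurable (LT σ w S t) := by
  have hmE : Measurable fun p : Ω × Y => Real.exp (t * S p) * w p.1 p.2 :=
    (Real.measurable_exp.comp (measurable_const.mul hS)).mul hw.meas
  have hmZt : Measurable fun ω => ∫ y, Real.exp (t * S (ω, y)) * w ω y ∂σ :=
    (hmE.stronglyMeasurable.integral_prod_right' (ν := σ)).measurable
  exact Real.measurable_log.comp (hmZt.div_const _)

lemma LT_sub {Ω Y : Type*} [MeasurableSpace Ω] [MeasurableSpace Y] {σ : Measure Y}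
    [IsFiniteMeasure σ] {w : Ω → Y → ℝ} (hw : GoodWeight σ w) {S : Ω × Y → ℝ}
    (hS : Measurable S) (hSb : ∃ K : ℝ, ∀ p, |S p| ≤ K) (t : ℝ) (ω : Ω) :
    Real.log ((∫ y, Real.exp (t * S (ω, y)) * w ω y ∂σ) / ∫ y, w ω y ∂σ) =
      LT σ w S t ω - LT σ w S 0 ω := by
  have h1 := tilt_pos hw hS hSb t ω
  have h2 := hw.Z_pos ω
  have h3 : 0 < σ.real Set.univ := by
    rw [measureReal_def]
    exact ENNReal.toReal_pos (by simpa [Measure.measure_univ_eq_zero] using hw.ne)
      (measure_ne_top _ _)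
  unfold LT
  simp only [zero_mul, Real.exp_zero, one_mul]
  rw [Real.log_div h1.ne' h2.ne', Real.log_div h1.ne' h3.ne', Real.log_div h2.ne' h3.ne']
  ring

/-- **upper tail, one-sided version** -/
theorem upper_tail (hμ : ∀ᶠ n in atTop, IsProbabilityMeasure (μ n))
    (hσ : ∀ n, IsFiniteMeasure (σ n))
    (hw : ∀ᶠ n in atTop, GoodWeight (σ n) (w n)) (hS : ∀ n, Measurable (S n))
    (hSb : ∀ n, ∃ K : ℝ, ∀ p, |S n p| ≤ K) (v : ℝ)
    (hvar : ∀ s : ℝ, ∃ C : ℝ, 0 ≤ C ∧ ∀ᶠ n : ℕ in atTop,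
      R151.V.dvar (μ n) (LT (σ n) (w n) (S n) s) ≤ ENNReal.ofReal (C * n))
    (hder : ∀ η : ℝ, 0 < η → ∃ s : ℝ, 0 < s ∧ ∀ᶠ n : ℕ in atTop,
      (∫ ω, LT (σ n) (w n) (S n) s ω ∂(μ n)) - (∫ ω, LT (σ n) (w n) (S n) 0 ω ∂(μ n))
        ≤ n * (s * (v + η)))
    (η : ℝ) (hη : 0 < η) :
    Tendsto (fun n : ℕ => joint (μ n) (σ n) (w n) {p | n * (v + η) < S n p}) atTop (𝓝 0) := by
  obtain ⟨s, hs, hd⟩ := hder (η / 2) (half_pos hη)
  obtain ⟨C1, hC1, hv1⟩ := hvar s
  obtain ⟨C0, hC0, hv0⟩ := hvar 0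
  have hbound : ∀ᶠ n : ℕ in atTop, joint (μ n) (σ n) (w n) {p | n * (v + η) < S n p} ≤
      ENNReal.ofReal (Real.exp (-(n * (s * η / 4)))) +
      (ENNReal.ofReal ((C1 + C0) / ((s * η / 8) ^ 2 * n))) := by
    filter_upwards [hd, hv1, hv0, hμ, hw, eventually_gt_atTop 0] with
      n hdn h1n h0n hμn hwn hn
    have hnR : (0 : ℝ) < n := by exact_mod_cast hn
    have hSb' : ∀ ω, ∃ K : ℝ, ∀ y, |S n (ω, y)| ≤ K := fun ω => by
      obtain ⟨K, hK⟩ := hSb n
      exact ⟨K, fun y => hK _⟩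
    refine (joint_dev (μ := μ n) (σ := σ n) hwn (hS n) hSb' (n * (v + η)) s
      (s * (n * (v + η)) - n * (s * η / 4)) hs.le).trans ?_
    refine add_le_add (le_of_eq ?_) ?_
    · congr 2
      ring
    set f1 : Ω n → ℝ := LT (σ n) (w n) (S n) s with hf1
    set f0 : Ω n → ℝ := LT (σ n) (w n) (S n) 0 with hf0
    have hf1m : Measurable f1 := measurable_LT hwn (hS n) s
    have hf0m : Measurable f0 := measurable_LT hwn (hS n) 0
    have hr : (0 : ℝ) < n * (s * η / 8) := by positivity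
    have hsub : {ω | s * (n * (v + η)) - n * (s * η / 4) <
        Real.log ((∫ y, Real.exp (s * S n (ω, y)) * w n ω y ∂(σ n)) / ∫ y, w n ω y ∂(σ n))} ⊆
        {A | n * (s * η / 8) ≤ |f1 A - ∫ A', f1 A' ∂(μ n)|} ∪
        {A | n * (s * η / 8) ≤ |f0 A - ∫ A', f0 A' ∂(μ n)|} := by
      intro A hA
      by_contra hcon
      simp only [Set.mem_union, Set.mem_ofPred_eq, not_or, not_le] at hcon
      obtain ⟨ha, hb⟩ := hcon
      have ha' := (abs_lt.1 ha).2
      have hb' := (abs_lt.1 hb).1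
      simp only [Set.mem_ofPred_eq] at hA
      rw [LT_sub hwn (hS n) (hSb n) s A] at hA
      change _ < f1 A - f0 A at hA
      have h3 : (n : ℝ) * (s * (v + η / 2)) = s * (n * (v + η)) - n * (s * η / 2) := by ring
      nlinarith
    calc μ n {ω | s * (n * (v + η)) - n * (s * η / 4) <
        Real.log ((∫ y, Real.exp (s * S n (ω, y)) * w n ω y ∂(σ n)) / ∫ y, w n ω y ∂(σ n))}
        ≤ μ n {A | n * (s * η / 8) ≤ |f1 A - ∫ A', f1 A' ∂(μ n)|} +
          μ n {A | n * (s * η / 8) ≤ |f0 A - ∫ A', f0 A' ∂(μ n)|} :=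
          (measure_mono hsub).trans (measure_union_le _ _)
      _ ≤ ENNReal.ofReal (C1 * n / (n * (s * η / 8)) ^ 2) +
          ENNReal.ofReal (C0 * n / (n * (s * η / 8)) ^ 2) :=
          add_le_add (cheb_dvar hf1m (by positivity) h1n hr)
            (cheb_dvar hf0m (by positivity) h0n hr)
      _ = ENNReal.ofReal ((C1 + C0) / ((s * η / 8) ^ 2 * n)) := by
          rw [← ENNReal.ofReal_add (by positivity) (by positivity)]
          congr 1
          field_simp
  have hlim : Tendsto (fun n : ℕ => ENNReal.ofReal (Real.exp (-(n * (s * η / 4)))) +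
      (ENNReal.ofReal ((C1 + C0) / ((s * η / 8) ^ 2 * n)))) atTop (𝓝 0) := by
    have hn : Tendsto (fun n : ℕ => (n : ℝ)) atTop atTop := tendsto_natCast_atTop_atTop
    have h1 : Tendsto (fun n : ℕ => Real.exp (-(n * (s * η / 4)))) atTop (𝓝 0) := by
      apply Real.tendsto_exp_neg_atTop_nhds_zero.comp
      exact hn.atTop_mul_const (by positivity)
    have h2 : Tendsto (fun n : ℕ => (C1 + C0) / ((s * η / 8) ^ 2 * n)) atTop (𝓝 0) := by
      apply Tendsto.div_atTop tendsto_const_nhds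
      exact hn.const_mul_atTop (by positivity)
    have h3 := (ENNReal.tendsto_ofReal h1).add (ENNReal.tendsto_ofReal h2)
    simpa using h3
  exact tendsto_of_tendsto_of_tendsto_of_le_of_le' tendsto_const_nhds hlim
    (Eventually.of_forall fun _ => zero_le) hbound

lemma LT_neg {Ω Y : Type*} [MeasurableSpace Ω] [MeasurableSpace Y] (σ : Measure Y)
    (w : Ω → Y → ℝ) (S : Ω × Y → ℝ) (t : ℝ) :
    LT σ w (fun p => - S p) t = LT σ w S (-t) := by
  funext ω
  unfold LT
  simp only [mul_neg, neg_mul]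

/-- **Concentration of an extensive observable from the derivative of the limit pressure.** -/
theorem tp_of_pressure (hμ : ∀ᶠ n in atTop, IsProbabilityMeasure (μ n))
    (hσ : ∀ n, IsFiniteMeasure (σ n))
    (hw : ∀ᶠ n in atTop, GoodWeight (σ n) (w n)) (hS : ∀ n, Measurable (S n))
    (hSb : ∀ n, ∃ K : ℝ, ∀ p, |S n p| ≤ K) (v : ℝ)
    (hvar : ∀ s : ℝ, ∃ C : ℝ, 0 ≤ C ∧ ∀ᶠ n : ℕ in atTop,
      R151.V.dvar (μ n) (LT (σ n) (w n) (S n) s) ≤ ENNReal.ofReal (C * n))
    {h0 : ℝ} (hh0 : 0 < h0) {p : ℝ → ℝ} (hp : HasDerivAt p v 0)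
    (hlim : ∀ h : ℝ, |h| < h0 → Tendsto (fun n : ℕ =>
      (∫ ω, LT (σ n) (w n) (S n) h ω ∂(μ n)) / n) atTop (𝓝 (p h))) :
    TP (fun n => joint (μ n) (σ n) (w n)) (fun n q => S n q / n) v := by
  -- one-sided increments
  have key : ∀ η : ℝ, 0 < η → ∃ s : ℝ, 0 < s ∧ s < h0 ∧ p s - p 0 ≤ s * (v + η) ∧
      p (-s) - p 0 ≤ s * (-v + η) := by
    intro η hη
    have h1 := hp.isLittleO.bound hη
    simp only [sub_zero, Real.norm_eq_abs] at h1
    obtain ⟨δ, hδ, h2⟩ := Metric.eventually_nhds_iff.1 h1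
    refine ⟨min (δ / 2) (h0 / 2), by positivity, ?_, ?_, ?_⟩
    · exact lt_of_le_of_lt (min_le_right _ _) (by linarith)
    · set s := min (δ / 2) (h0 / 2) with hsdef
      have hs : 0 < s := by positivity
      have hsδ : s < δ := lt_of_le_of_lt (min_le_left _ _) (by linarith)
      have h3 := h2 (y := s) (by rw [Real.dist_eq, sub_zero, abs_of_pos hs]; exact hsδ)
      have h4 := (abs_le.1 h3).2
      simp only [smul_eq_mul] at h4
      rw [abs_of_pos hs] at h4
      linarith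
    · set s := min (δ / 2) (h0 / 2) with hsdef
      have hs : 0 < s := by positivity
      have hsδ : s < δ := lt_of_le_of_lt (min_le_left _ _) (by linarith)
      have h3 := h2 (y := -s) (by rw [Real.dist_eq, sub_zero, abs_neg, abs_of_pos hs]; exact hsδ)
      have h4 := (abs_le.1 h3).2
      simp only [smul_eq_mul] at h4
      rw [abs_neg, abs_of_pos hs] at h4
      linarith
  have hL0 := hlim 0 (by simpa using hh0)
  have hup : ∀ η : ℝ, 0 < η → Tendsto (fun n : ℕ =>
      joint (μ n) (σ n) (w n) {q | n * (v + η) < S n q}) atTop (𝓝 0) := by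
    refine upper_tail hμ hσ hw hS hSb v hvar ?_
    intro η hη
    obtain ⟨s, hs, hs0, h1, -⟩ := key (η / 2) (half_pos hη)
    refine ⟨s, hs, ?_⟩
    have hLs := hlim s (by rw [abs_of_pos hs]; exact hs0)
    have hd := hLs.sub hL0
    have hlt : p s - p 0 < s * (v + η) := by nlinarith
    filter_upwards [hd.eventually_lt_const hlt, eventually_gt_atTop 0] with n hn hn0
    have hnR : (0 : ℝ) < n := by exact_mod_cast hn0
    rw [← sub_div, div_lt_iff₀ hnR] at hn
    linarith
  have hdn : ∀ η : ℝ, 0 < η → Tendsto (fun n : ℕ =>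
      joint (μ n) (σ n) (w n) {q | n * (-v + η) < -S n q}) atTop (𝓝 0) := by
    have hvar' : ∀ s : ℝ, ∃ C : ℝ, 0 ≤ C ∧ ∀ᶠ n : ℕ in atTop,
        R151.V.dvar (μ n) (LT (σ n) (w n) (fun p => - S n p) s) ≤ ENNReal.ofReal (C * n) := by
      intro s
      obtain ⟨C, hC, h⟩ := hvar (-s)
      refine ⟨C, hC, ?_⟩
      filter_upwards [h] with n hn
      rw [LT_neg]
      exact hn
    refine upper_tail (S := fun n p => - S n p) hμ hσ hw (fun n => (hS n).neg)
      (fun n => ?_) (-v) hvar' ?_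
    · obtain ⟨K, hK⟩ := hSb n
      exact ⟨K, fun p => by rw [abs_neg]; exact hK p⟩
    intro η hη
    obtain ⟨s, hs, hs0, -, h1⟩ := key (η / 2) (half_pos hη)
    refine ⟨s, hs, ?_⟩
    have hLs := hlim (-s) (by rw [abs_neg, abs_of_pos hs]; exact hs0)
    have hd := hLs.sub hL0
    have hlt : p (-s) - p 0 < s * (-v + η) := by nlinarith
    filter_upwards [hd.eventually_lt_const hlt, eventually_gt_atTop 0] with n hn hn0
    have hnR : (0 : ℝ) < n := by exact_mod_cast hn0
    simp only [LT_neg, neg_zero]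
    rw [← sub_div, div_lt_iff₀ hnR] at hn
    linarith
  refine TP.of_subset fun η hη => ⟨fun n => {q | n * (v + η) < S n q} ∪
    {q | n * (-v + η) < -S n q}, tendsto_union (hup η hη) (hdn η hη), ?_⟩
  filter_upwards [eventually_gt_atTop 0] with n hn q hq
  have hnR : (0 : ℝ) < n := by exact_mod_cast hn
  simp only [Set.mem_ofPred_eq] at hq
  rcases lt_abs.1 hq with h | h
  · left
    have h2 : v + η < S n q / n := by linarith
    rw [lt_div_iff₀ hnR] at h2
    show n * (v + η) < S n q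
    linarith
  · right
    have h2 : S n q / n < v - η := by linarith
    rw [div_lt_iff₀ hnR] at h2
    show n * (-v + η) < -S n q
    linarith

end asym

end Crest.Agent.R146.ObsB_548
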