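import Mathlib
import Crest.Prelude.Def_SphericalPressure
import Crest.Agent.R141.UPi
import Crest.Agent.R146.RepairLaw_840
import Crest.Agent.R146.ObsA_548
import Crest.Agent.R146.ObsB_548

/-!
# R146, node OBS-1 (helper548), part C: the literal objects

`tp_row_observable`: if the perturbed pressures converge near `0` and the limit is differentiable
at `0` with derivative `α v`, then `M⁻¹ ∑ ψ(gap)` converges to `v` in probability under the joint
law of the disorder and of the Gibbs configuration.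
-/

set_option autoImplicit false
set_option linter.unusedSectionVars false

open MeasureTheory ProbabilityTheory Filter
open scoped ENNReal NNReal Topology
open Crest.ProbabilityR.Perceptron
open Crest.Agent.R146.Obs918 Crest.Agent.R146.ObsA_548 Crest.Agent.R146.ObsB_548
open Crest.Agent.R146.RepairLaw_840

namespace Crest.Agent.R146.ObsC_548

/-! ### fourth moments of a row field -/

lemma pow_four_le (x : ℝ) : x ^ 4 ≤ 24 * (Real.exp x + Real.exp (-x)) := by
  have h1 : |x| ^ 4 / (Nat.factorial 4 : ℝ) ≤ Real.exp |x| :=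
    Real.pow_div_factorial_le_exp |x| (abs_nonneg x) 4
  have h2 : Real.exp |x| ≤ Real.exp x + Real.exp (-x) := by
    rcases abs_cases x with ⟨h, _⟩ | ⟨h, _⟩
    · rw [h]; linarith [Real.exp_pos (-x)]
    · rw [h]; linarith [Real.exp_pos x]
  have h3 : |x| ^ 4 = x ^ 4 := by
    rw [show (4 : ℕ) = 2 * 2 by norm_num, pow_mul, sq_abs, ← pow_mul]
  rw [h3] at h1
  have h4 : (Nat.factorial 4 : ℝ) = 24 := by norm_num [Nat.factorial]
  rw [h4] at h1
  linarith

lemma lintegral_lin_four {κ : Type*} [Fintype κ] {ν : Measure ℝ} (h : Good ν) (l : κ → ℝ)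
    (hl : ∑ a, l a ^ 2 ≤ 1) :
    ∫⁻ x, ENNReal.ofReal (lin l x ^ 4) ∂(Measure.pi fun _ : κ => ν) ≤
      ENNReal.ofReal (48 * Real.exp 1) := by
  have hp := h.prob
  have hs := subG_lin h l hl
  have hi1 : Integrable (fun x => Real.exp (lin l x)) (Measure.pi fun _ : κ => ν) := by
    simpa using hs.integrable_exp_mul 1
  have hi2 : Integrable (fun x => Real.exp (-lin l x)) (Measure.pi fun _ : κ => ν) := by
    simpa using hs.integrable_exp_mul (-1)
  have hm1 : ∫ x, Real.exp (lin l x) ∂(Measure.pi fun _ : κ => ν) ≤ Real.exp 1 := by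
    have := hs.mgf_le 1
    simpa [mgf] using this
  have hm2 : ∫ x, Real.exp (-lin l x) ∂(Measure.pi fun _ : κ => ν) ≤ Real.exp 1 := by
    have := hs.mgf_le (-1)
    simpa [mgf] using this
  calc ∫⁻ x, ENNReal.ofReal (lin l x ^ 4) ∂(Measure.pi fun _ : κ => ν)
      ≤ ∫⁻ x, ENNReal.ofReal (24 * (Real.exp (lin l x) + Real.exp (-lin l x)))
          ∂(Measure.pi fun _ : κ => ν) :=
        lintegral_mono fun x => ENNReal.ofReal_le_ofReal (pow_four_le _)
    _ = ENNReal.ofReal (∫ x, 24 * (Real.exp (lin l x) + Real.exp (-lin l x))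
          ∂(Measure.pi fun _ : κ => ν)) := by
        have hi3 : Integrable (fun x => 24 * (Real.exp (lin l x) + Real.exp (-lin l x)))
            (Measure.pi fun _ : κ => ν) := (hi1.add hi2).const_mul 24
        rw [ofReal_integral_eq_lintegral_ofReal hi3]
        exact Eventually.of_forall fun x => by positivity
    _ ≤ ENNReal.ofReal (48 * Real.exp 1) := by
        apply ENNReal.ofReal_le_ofReal
        rw [integral_const_mul, integral_add hi1 hi2]
        linarith

/-! ### the potential of a row -/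

/-- the potential of a row as a function of the gap -/
noncomputable def Fp (β s : ℝ) (ψ : ℝ → ℝ) (g : ℝ) : ℝ := -β * (1 / 2 * max (-g) 0 ^ 2) + s * ψ g

lemma measurable_Fp (β s : ℝ) {ψ : ℝ → ℝ} (hψ : Measurable ψ) : Measurable (Fp β s ψ) := by
  unfold Fp
  fun_prop

lemma Fp_le {β : ℝ} (hβ : 0 ≤ β) (s : ℝ) {ψ : ℝ → ℝ} {K : ℝ} (hK : ∀ x, |ψ x| ≤ K) (g : ℝ) :
    Fp β s ψ g ≤ |s| * K := by
  unfold Fp
  have h1 : s * ψ g ≤ |s| * K := by
    calc s * ψ g ≤ |s * ψ g| := le_abs_self _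
      _ = |s| * |ψ g| := abs_mul _ _
      _ ≤ |s| * K := mul_le_mul_of_nonneg_left (hK g) (abs_nonneg _)
  have h2 : 0 ≤ β * (1 / 2 * max (-g) 0 ^ 2) := by positivity
  linarith

lemma Fp_sq_le (β s : ℝ) {ψ : ℝ → ℝ} {K : ℝ} (hK : ∀ x, |ψ x| ≤ K) (X : ℝ) :
    Fp β s ψ (1 + X) ^ 2 ≤ β ^ 2 / 2 * X ^ 4 + 2 * (s ^ 2 * K ^ 2) := by
  unfold Fp
  set m := max (-(1 + X)) 0 with hm
  have h0 : 0 ≤ m := le_max_right _ _
  have h1 : m ≤ |X| := by
    rw [hm]
    apply max_le
    · have := neg_le_abs X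
      linarith
    · exact abs_nonneg X
  have h2 : m ^ 4 ≤ X ^ 4 := by
    have h3 : |X| ^ 4 = X ^ 4 := by
      rw [show (4 : ℕ) = 2 * 2 by norm_num, pow_mul, sq_abs, ← pow_mul]
    rw [← h3]
    exact pow_le_pow_left₀ h0 h1 4
  have h4 : ψ (1 + X) ^ 2 ≤ K ^ 2 := by
    rw [← sq_abs (ψ (1 + X))]
    exact pow_le_pow_left₀ (abs_nonneg _) (hK _) 2
  have h5 : (-β * (1 / 2 * m ^ 2) + s * ψ (1 + X)) ^ 2 ≤
      2 * (β * (1 / 2 * m ^ 2)) ^ 2 + 2 * (s * ψ (1 + X)) ^ 2 := by
    nlinarith [sq_nonneg (β * (1 / 2 * m ^ 2) + s * ψ (1 + X))]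
  have h6 : 2 * (β * (1 / 2 * m ^ 2)) ^ 2 = β ^ 2 / 2 * m ^ 4 := by ring
  have h7 : 2 * (s * ψ (1 + X)) ^ 2 = 2 * (s ^ 2 * ψ (1 + X) ^ 2) := by ring
  rw [h6, h7] at h5
  have h8 : β ^ 2 / 2 * m ^ 4 ≤ β ^ 2 / 2 * X ^ 4 :=
    mul_le_mul_of_nonneg_left h2 (by positivity)
  have h9 : s ^ 2 * ψ (1 + X) ^ 2 ≤ s ^ 2 * K ^ 2 :=
    mul_le_mul_of_nonneg_left h4 (sq_nonneg s)
  linarith

/-! ### the sphere -/

/-- the field of a row at a configuration, as a gap -/
noncomputable def tg (N : ℕ) (x : Fin N → ℝ) (y : UnitSphere N) : ℝ :=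
  1 + ∑ i, x i * (y : EuclideanSpace ℝ (Fin N)) i

lemma measurable_tg (N : ℕ) : Measurable (Function.uncurry (tg N)) := by
  unfold tg Function.uncurry
  refine measurable_const.add (Finset.measurable_sum _ fun i _ => ?_)
  refine Measurable.mul ((measurable_pi_apply i).comp measurable_fst) ?_
  have h1 : Continuous fun y : UnitSphere N => (y : EuclideanSpace ℝ (Fin N)) i := by fun_prop
  exact h1.measurable.comp measurable_snd

lemma tg_eq (N : ℕ) (x : Fin N → ℝ) (y : UnitSphere N) :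
    tg N x y = 1 + lin (fun i => (y : EuclideanSpace ℝ (Fin N)) i) x := by
  unfold tg lin
  congr 1
  exact Finset.sum_congr rfl fun i _ => mul_comm _ _

lemma sum_coord_sq {N : ℕ} (y : UnitSphere N) :
    ∑ i, (y : EuclideanSpace ℝ (Fin N)) i ^ 2 = 1 := by
  have h : ‖(y : EuclideanSpace ℝ (Fin N))‖ = 1 := by simp
  have h2 := EuclideanSpace.norm_sq_eq (y : EuclideanSpace ℝ (Fin N))
  rw [h] at h2
  simp only [Real.norm_eq_abs, sq_abs, one_pow] at h2
  exact h2.symm

lemma finite_sphere (N : ℕ) : IsFiniteMeasure (sphereLaw N) := by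
  unfold sphereLaw; infer_instance

lemma sphere_univ_ne_zero {N : ℕ} (hN : 0 < N) : sphereLaw N Set.univ ≠ 0 := by
  have : Nonempty (Fin N) := ⟨⟨0, hN⟩⟩
  unfold sphereLaw
  rw [Measure.toSphere_apply_univ]
  have h1 : (Module.finrank ℝ (EuclideanSpace ℝ (Fin N)) : ℝ≥0∞) ≠ 0 := by
    simp [hN.ne']
  have h2 : (volume : Measure (EuclideanSpace ℝ (Fin N)))
      (Metric.ball (0 : EuclideanSpace ℝ (Fin N)) 1) ≠ 0 :=
    (Metric.measure_ball_pos _ _ one_pos).ne'
  exact mul_ne_zero h1 h2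

/-- the normalised sphere law -/
noncomputable def us (N : ℕ) : Measure (UnitSphere N) := (sphereLaw N Set.univ)⁻¹ • sphereLaw N

lemma isProb_us {N : ℕ} (hN : 0 < N) : IsProbabilityMeasure (us N) := by
  have := finite_sphere N
  refine ⟨?_⟩
  unfold us
  rw [Measure.smul_apply, smul_eq_mul]
  exact ENNReal.inv_mul_cancel (sphere_univ_ne_zero hN) (measure_ne_top _ _)

lemma integral_us (N : ℕ) (g : UnitSphere N → ℝ) :
    ∫ y, g y ∂(us N) = (∫ y, g y ∂(sphereLaw N)) / (sphereLaw N).real Set.univ := by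
  unfold us
  rw [integral_smul_measure, ENNReal.toReal_inv, smul_eq_mul, measureReal_def]
  field_simp

/-- the second moment of the potential of a row -/
lemma row_second_moment {ν : Measure ℝ} (h : Good ν) (N : ℕ) {β s K : ℝ} {ψ : ℝ → ℝ}
    (hK : ∀ x, |ψ x| ≤ K) (y : UnitSphere N) :
    ∫⁻ x, ENNReal.ofReal (Fp β s ψ (tg N x y) ^ 2) ∂(Measure.pi fun _ : Fin N => ν) ≤
      ENNReal.ofReal (β ^ 2 / 2 * (48 * Real.exp 1) + 2 * (s ^ 2 * K ^ 2)) := by
  have hp := h.prob
  set l : Fin N → ℝ := fun i => (y : EuclideanSpace ℝ (Fin N)) i with hl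
  have h4 := lintegral_lin_four h l (sum_coord_sq y).le
  have hm : Measurable fun x : Fin N → ℝ => ENNReal.ofReal (lin l x ^ 4) :=
    ((measurable_lin l).pow_const 4).ennreal_ofReal
  calc ∫⁻ x, ENNReal.ofReal (Fp β s ψ (tg N x y) ^ 2) ∂(Measure.pi fun _ : Fin N => ν)
      ≤ ∫⁻ x, (ENNReal.ofReal (β ^ 2 / 2) * ENNReal.ofReal (lin l x ^ 4) +
          ENNReal.ofReal (2 * (s ^ 2 * K ^ 2))) ∂(Measure.pi fun _ : Fin N => ν) := by
        refine lintegral_mono fun x => ?_
        rw [tg_eq, ← ENNReal.ofReal_mul (by positivity), ← ENNReal.ofReal_add (by positivity)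
          (by positivity)]
        exact ENNReal.ofReal_le_ofReal (Fp_sq_le β s hK _)
    _ = ENNReal.ofReal (β ^ 2 / 2) * ∫⁻ x, ENNReal.ofReal (lin l x ^ 4)
          ∂(Measure.pi fun _ : Fin N => ν) + ENNReal.ofReal (2 * (s ^ 2 * K ^ 2)) := by
        rw [lintegral_add_right _ measurable_const, lintegral_const_mul _ hm]
        simp
    _ ≤ ENNReal.ofReal (β ^ 2 / 2) * ENNReal.ofReal (48 * Real.exp 1) +
          ENNReal.ofReal (2 * (s ^ 2 * K ^ 2)) := by gcongr
    _ = _ := by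
        rw [← ENNReal.ofReal_mul (by positivity), ← ENNReal.ofReal_add (by positivity)
          (by positivity)]

/-! ### the literal system -/

/-- the Gibbs weight -/
noncomputable def wg (N : ℕ) (α β : ℝ) (A : Patterns N α) (y : UnitSphere N) : ℝ :=
  Real.exp (-β * penaltyEnergy A y)

/-- the row observable -/
noncomputable def So (N : ℕ) (α : ℝ) (ψ : ℝ → ℝ) (q : Patterns N α × UnitSphere N) : ℝ :=
  ∑ μ, ψ (gap q.1 q.2 μ)

lemma gap_eq {N : ℕ} {α : ℝ} (A : Patterns N α) (y : UnitSphere N) (μ : Fin (numPatterns N α)) :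
    gap A y μ = tg N (fun i => A (μ, i)) y := rfl

lemma measurable_gap (N : ℕ) (α : ℝ) (μ : Fin (numPatterns N α)) :
    Measurable fun q : Patterns N α × UnitSphere N => gap q.1 q.2 μ := by
  have h1 : Measurable fun q : Patterns N α × UnitSphere N => (fun i => q.1 (μ, i)) := by
    fun_prop
  exact (measurable_tg N).comp (h1.prodMk measurable_snd)

lemma measurable_So (N : ℕ) (α : ℝ) {ψ : ℝ → ℝ} (hψ : Measurable ψ) : Measurable (So N α ψ) := by
  unfold So
  exact Finset.measurable_sum _ fun μ _ => hψ.comp (measurable_gap N α μ)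

lemma So_bdd (N : ℕ) (α : ℝ) {ψ : ℝ → ℝ} {K : ℝ} (hK : ∀ x, |ψ x| ≤ K)
    (q : Patterns N α × UnitSphere N) : |So N α ψ q| ≤ numPatterns N α * K := by
  unfold So
  calc |∑ μ, ψ (gap q.1 q.2 μ)| ≤ ∑ μ, |ψ (gap q.1 q.2 μ)| := Finset.abs_sum_le_sum_abs _ _
    _ ≤ ∑ _μ : Fin (numPatterns N α), K := Finset.sum_le_sum fun μ _ => hK _
    _ = numPatterns N α * K := by simp

lemma measurable_penalty (N : ℕ) (α : ℝ) :
    Measurable fun q : Patterns N α × UnitSphere N => penaltyEnergy q.1 q.2 := by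
  unfold penaltyEnergy
  refine Finset.measurable_sum _ fun μ _ => ?_
  exact measurable_const.mul (((measurable_gap N α μ).neg.max measurable_const).pow_const 2)

lemma penalty_nonneg {N : ℕ} {α : ℝ} (A : Patterns N α) (y : UnitSphere N) :
    0 ≤ penaltyEnergy A y := by
  unfold penaltyEnergy
  exact Finset.sum_nonneg fun μ _ => by positivity

lemma goodWeight {N : ℕ} (hN : 0 < N) (α : ℝ) {β : ℝ} (hβ : 0 ≤ β) :
    GoodWeight (sphereLaw N) (wg N α β) := by
  refine ⟨?_, fun A y => Real.exp_pos _, fun A => ⟨1, fun y => ?_⟩, fun h => ?_⟩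
  · have : Measurable fun q : Patterns N α × UnitSphere N =>
        Real.exp (-β * penaltyEnergy q.1 q.2) :=
      Real.measurable_exp.comp (measurable_const.mul (measurable_penalty N α))
    exact this
  · unfold wg
    rw [Real.exp_le_one_iff]
    have := penalty_nonneg A y
    nlinarith
  · exact sphere_univ_ne_zero hN (by rw [h]; simp)

/-- the tilted partition function of the literal system is the abstract one -/
lemma tilt_eq (N : ℕ) (α β s : ℝ) (ψ : ℝ → ℝ) (A : Patterns N α) (y : UnitSphere N) :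
    Real.exp (s * So N α ψ (A, y)) * wg N α β A y =
      Real.exp (V (Fp β s ψ) (tg N) (fun μ i => A (μ, i)) y) := by
  unfold wg So V Fp penaltyEnergy
  rw [← Real.exp_add]
  congr 1
  rw [Finset.sum_add_distrib, Finset.mul_sum, Finset.mul_sum]
  simp only [gap_eq]
  ring

lemma LT_eq (N : ℕ) (α β s : ℝ) (ψ : ℝ → ℝ) (A : Patterns N α) :
    LT (sphereLaw N) (wg N α β) (So N α ψ) s A =
      Real.log (Z (us N) (Fp β s ψ) (tg N) (fun μ i => A (μ, i))) := by
  unfold ObsB_548.LT Z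
  rw [integral_us]
  simp only [tilt_eq]

/-- the literal variance bound, for every good entry law -/
theorem dvar_LT_le {ν : Measure ℝ} (h : Good ν) {N : ℕ} (hN : 0 < N) (α : ℝ) {β : ℝ}
    (hβ : 0 ≤ β) (s : ℝ) {ψ : ℝ → ℝ} (hψ : Measurable ψ) {K : ℝ} (hK0 : 0 ≤ K)
    (hK : ∀ x, |ψ x| ≤ K) :
    R151.V.dvar (Measure.pi fun _ : Fin (numPatterns N α) × Fin N => ν)
      (LT (sphereLaw N) (wg N α β) (So N α ψ) s) ≤
      ENNReal.ofReal ((4 * ((|s| * K) ^ 2 + (β ^ 2 / 2 * (48 * Real.exp 1) +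
        2 * (s ^ 2 * K ^ 2)))) * numPatterns N α) := by
  have hp := h.prob
  have := isProb_us hN
  have hFm := measurable_Fp β s hψ
  have h1 := dvar_log_Z_le (ι := Fin (numPatterns N α)) (σ := us N) (K := |s| * K) hFm
    (measurable_tg N) (by positivity) (Fp_le hβ s hK) (Measure.pi fun _ : Fin N => ν)
    (row_second_moment h N hK)
  have hm : Measurable fun A : Fin (numPatterns N α) → Fin N → ℝ =>
      Real.log (Z (us N) (Fp β s ψ) (tg N) A) := (measurable_Z hFm (measurable_tg N)).log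
  have hmp := R141.U.measurePreserving_curry (ι := Fin (numPatterns N α)) (κ := Fin N) ν
  rw [R151.V.dvar_map hmp hm] at h1
  have heq : (fun A : Fin (numPatterns N α) × Fin N → ℝ =>
      Real.log (Z (us N) (Fp β s ψ) (tg N) (MeasurableEquiv.curry _ _ _ A))) =
      LT (sphereLaw N) (wg N α β) (So N α ψ) s := by
    funext A
    rw [LT_eq]
    rfl
  rw [heq] at h1
  refine h1.trans (le_of_eq ?_)
  rw [← ENNReal.ofReal_add (by positivity) (by positivity),
    show (4 : ℝ≥0∞) = ENNReal.ofReal 4 by simp, ← ENNReal.ofReal_mul (by norm_num),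
    Fintype.card_fin, show ((numPatterns N α : ℕ) : ℝ≥0∞) = ENNReal.ofReal (numPatterns N α) by
      rw [ENNReal.ofReal_natCast], ← ENNReal.ofReal_mul (by positivity)]
  congr 1
  ring

/-- the literal perturbed pressure (row observable `ψ`, strength `h`) -/
noncomputable def pertPressure (N : ℕ) (α β : ℝ) (ψ : ℝ → ℝ) (h : ℝ) (A : Patterns N α) : ℝ :=
  Real.log ((∫ y, Real.exp (-β * penaltyEnergy A y + h * ∑ μ, ψ (gap A y μ)) ∂sphereLaw N) /
    (sphereLaw N).real Set.univ) / N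

lemma pertPressure_eq (N : ℕ) (α β : ℝ) (ψ : ℝ → ℝ) (h : ℝ) (A : Patterns N α) :
    pertPressure N α β ψ h A = LT (sphereLaw N) (wg N α β) (So N α ψ) h A / N := by
  unfold pertPressure ObsB_548.LT wg So
  have hfun : (fun y : UnitSphere N => Real.exp (-β * penaltyEnergy A y +
      h * ∑ μ, ψ (gap A y μ))) = fun y : UnitSphere N =>
      Real.exp (h * ∑ μ, ψ (gap A y μ)) * Real.exp (-β * penaltyEnergy A y) := by
    funext y
    rw [Real.exp_add, mul_comm]
  rw [hfun]

/-- the perturbed pressure is a literal `spherePressure` -/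
lemma pertPressure_eq_spherePressure (N : ℕ) (α : ℝ) {β : ℝ} (hβ : β ≠ 0) (ψ : ℝ → ℝ) (h : ℝ)
    (A : Patterns N α) :
    pertPressure N α β ψ h A = spherePressure N α β
      (fun x => -(1 / 2) * max (-(1 + x)) 0 ^ 2 + h / β * ψ (1 + x)) A := by
  unfold pertPressure spherePressure potentialSum penaltyEnergy
  have hfun : (fun y : UnitSphere N => Real.exp (-β * ∑ μ, (1 / 2 : ℝ) * max (-gap A y μ) 0 ^ 2 +
      h * ∑ μ, ψ (gap A y μ))) = fun y : UnitSphere N => Real.exp (β * ∑ a,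
      (-(1 / 2) * max (-(1 + ∑ i, A (a, i) * (y : EuclideanSpace ℝ (Fin N)) i)) 0 ^ 2 +
      h / β * ψ (1 + ∑ i, A (a, i) * (y : EuclideanSpace ℝ (Fin N)) i))) := by
    funext y
    congr 1
    rw [Finset.mul_sum, Finset.mul_sum, Finset.mul_sum, ← Finset.sum_add_distrib]
    refine Finset.sum_congr rfl fun μ _ => ?_
    unfold gap
    field_simp
  rw [hfun]

lemma tendsto_numPatterns_div (α : ℝ) (hα : 0 ≤ α) :
    Tendsto (fun N : ℕ => (numPatterns N α : ℝ) / N) atTop (𝓝 α) := by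
  have h := (tendsto_nat_floor_mul_div_atTop hα).comp
    (tendsto_natCast_atTop_atTop (R := ℝ))
  exact h

lemma tp_seq {Ω : ℕ → Type*} [∀ n, MeasurableSpace (Ω n)] (Q : ∀ n, Measure (Ω n)) {a : ℕ → ℝ}
    {c : ℝ} (ha : Tendsto a atTop (𝓝 c)) : TP Q (fun n _ => a n) c := by
  refine TP.of_subset fun η hη => ⟨fun _ => ∅, by simp, ?_⟩
  filter_upwards [(Metric.tendsto_nhds.1 ha) η hη] with n hn q hq
  rw [Real.dist_eq] at hn
  exact absurd hq (not_lt.2 hn.le)

/-- **OBS-1.** Concentration of a bounded row observable under the joint law of the disorder and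
of the Gibbs configuration, for every good entry law (standard Gaussian, `mixtureLaw ε`). -/
theorem tp_row_observable {ν : Measure ℝ} (hν : Good ν) {α β : ℝ} (hα : 0 < α) (hβ : 0 ≤ β)
    {ψ : ℝ → ℝ} (hψ : Measurable ψ) {K : ℝ} (hK : ∀ x, |ψ x| ≤ K) {h0 : ℝ} (hh0 : 0 < h0)
    {p : ℝ → ℝ} {v : ℝ} (hp : HasDerivAt p (α * v) 0)
    (hlim : ∀ h : ℝ, |h| < h0 → Tendsto (fun N : ℕ => ∫ A, pertPressure N α β ψ h A
      ∂(Measure.pi fun _ : Fin (numPatterns N α) × Fin N => ν)) atTop (𝓝 (p h))) :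
    TP (fun N => joint (Measure.pi fun _ : Fin (numPatterns N α) × Fin N => ν) (sphereLaw N)
      (wg N α β)) (fun N q => (∑ μ, ψ (gap q.1 q.2 μ)) / numPatterns N α) v := by
  have hprob := hν.prob
  have hK0 : 0 ≤ K := (abs_nonneg _).trans (hK 0)
  have h1 := tp_of_pressure
    (μ := fun N => (Measure.pi fun _ : Fin (numPatterns N α) × Fin N => ν : Measure (Patterns N α)))
    (σ := fun N => sphereLaw N) (w := fun N => wg N α β) (S := fun N => So N α ψ)
    (Eventually.of_forall fun N => inferInstance) (fun N => finite_sphere N)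
    (by
      filter_upwards [eventually_gt_atTop 0] with N hN
      exact goodWeight hN α hβ)
    (fun N => measurable_So N α hψ) (fun N => ⟨_, So_bdd N α hK⟩) (α * v)
    (by
      intro s
      set c := 4 * ((|s| * K) ^ 2 + (β ^ 2 / 2 * (48 * Real.exp 1) + 2 * (s ^ 2 * K ^ 2))) with hc
      have hc0 : 0 ≤ c := by positivity
      refine ⟨c * (α + 1), by positivity, ?_⟩
      have h2 := (tendsto_numPatterns_div α hα.le).eventually_lt_const (lt_add_one α)
      filter_upwards [h2, eventually_gt_atTop 0] with N hN2 hN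
      have hNR : (0 : ℝ) < N := by exact_mod_cast hN
      refine (dvar_LT_le hν hN α hβ s hψ hK0 hK).trans (ENNReal.ofReal_le_ofReal ?_)
      rw [div_lt_iff₀ hNR] at hN2
      have h3 := mul_le_mul_of_nonneg_left hN2.le hc0
      calc _ = c * numPatterns N α := by rw [hc]
        _ ≤ c * ((α + 1) * N) := h3
        _ = _ := by ring)
    hh0 hp
    (by
      intro h hh
      refine (hlim h hh).congr fun N => ?_
      simp only [pertPressure_eq]
      rw [integral_div])
  have h2 := TP.div h1 (tp_seq _ (tendsto_numPatterns_div α hα.le)) hα.ne'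
  rw [mul_div_cancel_left₀ _ hα.ne'] at h2
  refine h2.congr' ?_
  filter_upwards [eventually_gt_atTop 0] with N hN q
  have hNR : (0 : ℝ) < N := by exact_mod_cast hN
  unfold So
  rw [div_div_div_cancel_right₀ hNR.ne']

/-- OBS-1 for the mixture laws (`ε = 0` is the Gaussian case). -/
theorem tp_row_observable_mix {ε : ℝ} (hε0 : 0 ≤ ε) (hε1 : ε ≤ 1) {α β : ℝ} (hα : 0 < α)
    (hβ : 0 ≤ β) {ψ : ℝ → ℝ} (hψ : Measurable ψ) {K : ℝ} (hK : ∀ x, |ψ x| ≤ K) {h0 : ℝ}
    (hh0 : 0 < h0) {p : ℝ → ℝ} {v : ℝ} (hp : HasDerivAt p (α * v) 0)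
    (hlim : ∀ h : ℝ, |h| < h0 → Tendsto (fun N : ℕ => ∫ A, pertPressure N α β ψ h A
      ∂(patternLawMix N α ε)) atTop (𝓝 (p h))) :
    TP (fun N => joint (patternLawMix N α ε) (sphereLaw N) (wg N α β))
      (fun N q => (∑ μ, ψ (gap q.1 q.2 μ)) / numPatterns N α) v :=
  tp_row_observable (good_mixtureLaw ε hε0 hε1) hα hβ hψ hK hh0 hp hlim

/-- the mean of a bounded observable under the joint law is the disorder mean of its literal
Gibbs average -/
lemma integral_joint_gibbs {N : ℕ} (hN : 0 < N) (α : ℝ) {β : ℝ} (hβ : 0 ≤ β)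
    (P : Measure (Patterns N α)) [IsProbabilityMeasure P]
    {O : Patterns N α × UnitSphere N → ℝ} (hO : Measurable O) {K : ℝ} (hK : ∀ p, |O p| ≤ K) :
    ∫ p, O p ∂(joint P (sphereLaw N) (wg N α β)) =
      ∫ A, gibbsAverage β A (fun y => O (A, y)) ∂P := by
  have := finite_sphere N
  rw [integral_joint (goodWeight hN α hβ) hO hK]
  rfl

/-- **Convergence in probability of bounded observables gives convergence of the disorder means
of the literal Gibbs averages.** -/
theorem gibbs_tendsto_of_tp {α β : ℝ} (hβ : 0 ≤ β) (P : ∀ N : ℕ, Measure (Patterns N α))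
    (hP : ∀ N, IsProbabilityMeasure (P N)) {O : ∀ N : ℕ, Patterns N α × UnitSphere N → ℝ}
    (hO : ∀ᶠ N in atTop, Measurable (O N)) {K : ℝ} (hK : ∀ᶠ N in atTop, ∀ p, |O N p| ≤ K) {v : ℝ}
    (h : TP (fun N => joint (P N) (sphereLaw N) (wg N α β)) O v) :
    Tendsto (fun N => ∫ A, gibbsAverage β A (fun y => O N (A, y)) ∂(P N)) atTop (𝓝 v) := by
  rw [← tendsto_add_atTop_iff_nat 1]
  have hpr : ∀ n, IsProbabilityMeasure
      (joint (P (n + 1)) (sphereLaw (n + 1)) (wg (n + 1) α β)) := fun n => by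
    have := finite_sphere (n + 1)
    have := hP (n + 1)
    exact isProbabilityMeasure_joint (goodWeight n.succ_pos α hβ)
  have hT : TP (fun n => joint (P (n + 1)) (sphereLaw (n + 1)) (wg (n + 1) α β))
      (fun n => O (n + 1)) v := fun η hη => (h η hη).comp (tendsto_add_atTop_nat 1)
  have h1 := hT.integral ((tendsto_add_atTop_nat 1).eventually hO)
    ((tendsto_add_atTop_nat 1).eventually hK)
  refine h1.congr' ?_
  filter_upwards [(tendsto_add_atTop_nat 1).eventually hO,
    (tendsto_add_atTop_nat 1).eventually hK] with n hOn hKn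
  have := hP (n + 1)
  exact integral_joint_gibbs n.succ_pos α hβ (P (n + 1)) hOn hKn

/-- the literal mean of a bounded row observable converges -/
theorem gibbs_row_observable {ν : Measure ℝ} (hν : Good ν) {α β : ℝ} (hα : 0 < α) (hβ : 0 ≤ β)
    {ψ : ℝ → ℝ} (hψ : Measurable ψ) {K : ℝ} (hK : ∀ x, |ψ x| ≤ K) {h0 : ℝ} (hh0 : 0 < h0)
    {p : ℝ → ℝ} {v : ℝ} (hp : HasDerivAt p (α * v) 0)
    (hlim : ∀ h : ℝ, |h| < h0 → Tendsto (fun N : ℕ => ∫ A, pertPressure N α β ψ h A
      ∂(Measure.pi fun _ : Fin (numPatterns N α) × Fin N => ν)) atTop (𝓝 (p h))) :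
    Tendsto (fun N : ℕ => ∫ A, gibbsAverage β A (fun y => (∑ μ, ψ (gap A y μ)) /
      numPatterns N α) ∂(Measure.pi fun _ : Fin (numPatterns N α) × Fin N => ν :
        Measure (Patterns N α))) atTop (𝓝 v) := by
  have hprob := hν.prob
  have hK0 : 0 ≤ K := (abs_nonneg _).trans (hK 0)
  refine gibbs_tendsto_of_tp (O := fun N q => (∑ μ, ψ (gap q.1 q.2 μ)) / numPatterns N α) hβ
    (fun N => (Measure.pi fun _ : Fin (numPatterns N α) × Fin N => ν : Measure (Patterns N α)))
    (fun N => inferInstance) (Eventually.of_forall fun N => (measurable_So N α hψ).div_const _)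
    (K := K) (Eventually.of_forall fun N q => ?_)
    (tp_row_observable hν hα hβ hψ hK hh0 hp hlim)
  have h1 := So_bdd N α hK q
  unfold So at h1
  rw [abs_div, Nat.abs_cast]
  rcases Nat.eq_zero_or_pos (numPatterns N α) with h0 | h0
  · have h0' : (numPatterns N α : ℝ) = 0 := by exact_mod_cast h0
    rw [h0', div_zero]
    exact hK0
  · have : (0 : ℝ) < numPatterns N α := by exact_mod_cast h0
    rw [div_le_iff₀ this]
    linarith

end Crest.Agent.R146.ObsC_548
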