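import Mathlib
import Crest.Agent.R146.EmpC_788
import Crest.Agent.R146.Obs3_918
import Crest.Agent.R146.ObsC_548

/-!
# Row 146, package OBS (helper788), part D: glue

From the convergence of the perturbed pressures (literal `pertPressure` of `ObsC_548`) and the
differentiability of the limit at `0`, the two inputs `MeanEmp` and `ForceLim` of
`Obs918.S0205_of_inputs`.
-/

set_option autoImplicit false

open MeasureTheory ProbabilityTheory Filter Topology
open Crest.ProbabilityR.Perceptron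

namespace Crest.Agent.R146.Emp_788

open Crest.Agent.R146.Obs918 (TP ForceLim MeanEmp emp joint)
open Crest.Agent.R146.ObsC_548 (pertPressure wg)

variable {α β ε : ℝ} {ν : Measure ℝ}

theorem forceLim_of_gapLaw [IsProbabilityMeasure ν] (hα : 0 < α) (hβ : 0 ≤ β) (h0 : 0 ≤ ε)
    (h1 : ε ≤ 1) (H : GapLaw α β ε ν) : ForceLim α β ε ν := by
  intro s hs hz hneg hat
  have hn : ν (Set.Iio 0) ≠ 0 := by
    intro h
    rw [measureReal_def, h] at hneg
    simp at hneg
  exact tendsto_forceMean hα hβ h0 h1 H hz hn hs hat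

theorem meanEmp_of_gapLaw (hβ : 0 ≤ β) (H : GapLaw α β ε ν) : MeanEmp α β ε ν := by
  intro ψ K L hK hL
  have hprob : ∀ n, IsProbabilityMeasure (QN α β ε (n + 1)) := fun n => isProb_QN hβ ε
  have hm : Measurable ψ := hL.continuous.measurable
  have hK0 : 0 ≤ K := (abs_nonneg _).trans (hK 0)
  have h := (H ψ ⟨K, hK⟩ ⟨L, hL⟩).integral
    (Eventually.of_forall fun n => measurable_rowAvg hm) (K := K)
    (Eventually.of_forall fun n p => abs_rowAvg_le hK0 hK p)
  rw [← tendsto_add_atTop_iff_nat 1]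
  refine h.congr fun n => ?_
  rw [integral_QN hβ ε (measurable_rowAvg hm) (abs_rowAvg_le hK0 hK)]
  rfl

/-- convergence of all perturbed pressures with differentiable limit -/
def PertLim (α β ε : ℝ) (ν : Measure ℝ) : Prop :=
  ∀ (ψ : ℝ → ℝ) (K : ℝ) (L : NNReal), (∀ x, |ψ x| ≤ K) → LipschitzWith L ψ →
    ∃ (h0 : ℝ) (p : ℝ → ℝ), 0 < h0 ∧ HasDerivAt p (α * ∫ x, ψ x ∂ν) 0 ∧
      ∀ h : ℝ, |h| < h0 → Tendsto (fun N : ℕ => ∫ A, pertPressure N α β ψ h A
        ∂(patternLawMix N α ε)) atTop (𝓝 (p h))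

theorem gapLaw_of_pertLim (hα : 0 < α) (hβ : 0 ≤ β) (h0 : 0 ≤ ε) (h1 : ε ≤ 1)
    (H : PertLim α β ε ν) : GapLaw α β ε ν := by
  rintro ψ ⟨K, hK⟩ ⟨L, hL⟩
  obtain ⟨t0, p, ht0, hp, hlim⟩ := H ψ K L hK hL
  have h := ObsC_548.tp_row_observable_mix h0 h1 hα hβ hL.continuous.measurable hK ht0 hp hlim
  intro η hη
  have h2 := (h η hη).comp (tendsto_add_atTop_nat 1)
  exact h2

/-- the two inputs of the assembly of S0205 at fixed `(α, β, ε)` -/
theorem inputs_of_pertLim [IsProbabilityMeasure ν] (hα : 0 < α) (hβ : 0 ≤ β) (h0 : 0 ≤ ε)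
    (h1 : ε ≤ 1) (H : PertLim α β ε ν) : MeanEmp α β ε ν ∧ ForceLim α β ε ν :=
  ⟨meanEmp_of_gapLaw hβ (gapLaw_of_pertLim hα hβ h0 h1 H),
    forceLim_of_gapLaw hα hβ h0 h1 (gapLaw_of_pertLim hα hβ h0 h1 H)⟩

end Crest.Agent.R146.Emp_788
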