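import Mathlib
import Crest.Agent.R146.P34_734
import Crest.Agent.R146.ObsC_548
import Crest.Agent.R146.Obs3_918

/-!
Row 146, node NLEV, part A (helper918): from smooth test functions to bounded continuous ones.

* `Test.*` closure properties of `P34_734.Test`;
* `exists_test_above` : one-sided approximation of a bounded continuous function by a test function
  in `L¹(ν)`;
* `tp_ext` : convergence in probability of the empirical averages of test functions implies the
  same for every bounded continuous function.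
-/

set_option linter.unusedSectionVars false

namespace Crest.Agent.R146.NLev918

open MeasureTheory Filter Topology
open Crest.ProbabilityR.Perceptron
open Crest.Agent.R146.Obs918 (TP joint emp)
open Crest.Agent.R146.P34_734 (Test)

/-! ### Test functions -/

lemma Test.measurable {ψ : ℝ → ℝ} (h : Test ψ) : Measurable ψ :=
  (h.smooth 0).continuous.measurable

lemma Test.continuous {ψ : ℝ → ℝ} (h : Test ψ) : Continuous ψ := (h.smooth 0).continuous

lemma Test.bdd {ψ : ℝ → ℝ} (h : Test ψ) : ∃ K, ∀ x, |ψ x| ≤ K := by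
  simpa using h.bd 0

lemma Test.of_compact {f : ℝ → ℝ} (hf : ∀ n : ℕ, ContDiff ℝ n f) (hc : HasCompactSupport f) :
    Test f where
  smooth := hf
  bd := by
    intro n
    have h1 : Continuous (iteratedFDeriv ℝ n f) := (hf n).continuous_iteratedFDeriv le_rfl
    obtain ⟨C, hC⟩ := h1.bounded_above_of_compact_support (hc.iteratedFDeriv n)
    refine ⟨C, fun x => ?_⟩
    rw [← Real.norm_eq_abs, ← norm_iteratedFDeriv_eq_norm_iteratedDeriv]
    exact hC x

lemma Test.add_const {f : ℝ → ℝ} (hf : Test f) (c : ℝ) : Test fun x => c + f x where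
  smooth := fun n => contDiff_const.add (hf.smooth n)
  bd := by
    intro n
    obtain ⟨C, hC⟩ := hf.bd n
    rcases Nat.eq_zero_or_pos n with rfl | hn
    · refine ⟨|c| + C, fun x => ?_⟩
      have := hC x
      rw [iteratedDeriv_zero] at this ⊢
      exact (abs_add_le _ _).trans (add_le_add le_rfl this)
    · refine ⟨C, fun x => ?_⟩
      have : iteratedDeriv n (fun x => c + f x) x = iteratedDeriv n f x :=
        iteratedDeriv_const_add hn c
      rw [this]
      exact hC x

lemma Test.neg {f : ℝ → ℝ} (hf : Test f) : Test fun x => -f x where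
  smooth := fun n => (hf.smooth n).neg
  bd := by
    intro n
    obtain ⟨C, hC⟩ := hf.bd n
    refine ⟨C, fun x => ?_⟩
    have h1 : iteratedDeriv n (fun x => -f x) x = -iteratedDeriv n f x := by
      have := iteratedDeriv_neg n f x
      exact this
    rw [h1, abs_neg]
    exact hC x

lemma Test.shift {f : ℝ → ℝ} (hf : Test f) (c : ℝ) : Test fun x => f (c + x) where
  smooth := fun n => (hf.smooth n).comp (contDiff_const.add contDiff_id)
  bd := by
    intro n
    obtain ⟨C, hC⟩ := hf.bd n
    refine ⟨C, fun x => ?_⟩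
    have h1 := congrFun (iteratedDeriv_comp_const_add n f c) x
    rw [h1]
    exact hC _

/-! ### Approximation from above -/

lemma exists_radius (ν : Measure ℝ) [IsProbabilityMeasure ν] {e : ℝ} (he : 0 < e) :
    ∃ R : ℝ, 0 < R ∧ ν.real {x : ℝ | R < |x|} ≤ e := by
  have h1 : Tendsto (fun n : ℕ => ν {x : ℝ | (n : ℝ) < |x|}) atTop
      (𝓝 (ν (⋂ n : ℕ, {x : ℝ | (n : ℝ) < |x|}))) := by
    refine tendsto_measure_iInter_atTop (fun n => ?_) ?_ ⟨0, measure_ne_top _ _⟩
    · exact (measurableSet_lt measurable_const measurable_norm).nullMeasurableSet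
    · intro n m hnm x hx
      have h2 : (n : ℝ) ≤ m := by exact_mod_cast hnm
      exact lt_of_le_of_lt h2 hx
  have h2 : (⋂ n : ℕ, {x : ℝ | (n : ℝ) < |x|}) = ∅ := by
    ext x
    simp only [Set.mem_iInter, Set.mem_ofPred_eq, Set.mem_empty_iff_false, iff_false, not_forall,
      not_lt]
    exact exists_nat_ge |x|
  rw [h2, measure_empty] at h1
  have h3 : Tendsto (fun n : ℕ => ν.real {x : ℝ | (n : ℝ) < |x|}) atTop (𝓝 0) := by
    have h4 := (ENNReal.tendsto_toReal ENNReal.zero_ne_top).comp h1
    rw [ENNReal.toReal_zero] at h4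
    exact h4
  obtain ⟨n, hn, hn1⟩ := (((tendsto_order.1 h3).2 e he).and (eventually_gt_atTop 0)).exists
  exact ⟨n, by exact_mod_cast hn1, hn.le⟩

lemma exists_test_above {ψ : ℝ → ℝ} (hψ : Continuous ψ) {K : ℝ} (hK : ∀ x, |ψ x| ≤ K)
    (ν : Measure ℝ) [IsProbabilityMeasure ν] {η : ℝ} (hη : 0 < η) :
    ∃ u : ℝ → ℝ, Test u ∧ (∀ x, ψ x ≤ u x) ∧ ∫ x, u x ∂ν ≤ ∫ x, ψ x ∂ν + η := by
  have hK0 : 0 ≤ K := (abs_nonneg _).trans (hK 0)
  obtain ⟨R, hR, hRν⟩ := exists_radius ν (e := η / (4 * (K + 1))) (by positivity)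
  obtain ⟨g, hg⟩ := exists_polynomial_near_of_continuousOn (-(R + 1)) (R + 1) ψ hψ.continuousOn
    (η / 8) (by positivity)
  let χ : ContDiffBump (0 : ℝ) := ⟨R, R + 1, hR, by linarith⟩
  have hχ0 : ∀ x, 0 ≤ χ x := fun x => χ.nonneg
  have hχ1 : ∀ x, χ x ≤ 1 := fun x => χ.le_one
  have hχin : ∀ x, |x| ≤ R → χ x = 1 := by
    intro x hx
    refine χ.one_of_mem_closedBall ?_
    rw [Metric.mem_closedBall, Real.dist_eq, sub_zero]
    exact hx
  have hχout : ∀ x, R + 1 < |x| → χ x = 0 := by
    intro x hx
    refine χ.zero_of_le_dist ?_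
    rw [Real.dist_eq, sub_zero]
    exact hx.le
  set f : ℝ → ℝ := fun x => (g.eval x - K) * χ x with hf
  have hfc : HasCompactSupport f := χ.hasCompactSupport.mul_left
  have hfs : ∀ n : ℕ, ContDiff ℝ n f := by
    intro n
    refine ContDiff.mul (ContDiff.sub ?_ contDiff_const) χ.contDiff
    have := Polynomial.contDiff_aeval (R := ℝ) (𝕜 := ℝ) g n
    simpa [Polynomial.aeval_def, Polynomial.eval₂_eq_eval_map] using this
  have hT : Test fun x => (K + η / 8) + f x := Test.add_const (Test.of_compact hfs hfc) _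
  refine ⟨_, hT, ?_, ?_⟩
  · intro x
    have hx := abs_le.1 (hK x)
    by_cases h : |x| ≤ R + 1
    · have h1 := hg x (abs_le.1 h)
      have h2 := abs_lt.1 h1
      have h3 : 0 ≤ (1 - χ x) * (K - ψ x) := mul_nonneg (by linarith [hχ1 x]) (by linarith)
      have h4 : -(η / 8) ≤ χ x * (g.eval x - ψ x) := by
        nlinarith [hχ0 x, hχ1 x]
      simp only [hf]
      nlinarith
    · simp only [hf, hχout x (not_le.1 h)]
      linarith
  · have hup : ∀ x, (K + η / 8) + f x ≤ ψ x + (η / 4 + 2 * K *
        ({x : ℝ | R < |x|} : Set ℝ).indicator (fun _ => (1 : ℝ)) x) := by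
      intro x
      have hx := abs_le.1 (hK x)
      by_cases h : |x| ≤ R
      · have h0 : x ∉ {x : ℝ | R < |x|} := not_lt.2 h
        have h1 := hg x (abs_le.1 (h.trans (by linarith)))
        have h2 := abs_lt.1 h1
        rw [Set.indicator_of_notMem h0]
        simp only [hf, hχin x h]
        linarith
      · have h0 : x ∈ {x : ℝ | R < |x|} := not_le.1 h
        rw [Set.indicator_of_mem h0]
        by_cases h' : |x| ≤ R + 1
        · have h1 := hg x (abs_le.1 h')
          have h2 := abs_lt.1 h1
          have h3 : (g.eval x - K) * χ x ≤ η / 8 := by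
            nlinarith [hχ0 x, hχ1 x]
          simp only [hf]
          linarith
        · simp only [hf, hχout x (not_le.1 h')]
          linarith
    have hms : MeasurableSet {x : ℝ | R < |x|} := measurableSet_lt measurable_const measurable_norm
    have hi1 : Integrable (fun x => (K + η / 8) + f x) ν := by
      obtain ⟨C, hC⟩ := Test.bdd hT
      exact Integrable.of_bound (Test.measurable hT).aestronglyMeasurable C
        (Eventually.of_forall fun x => hC x)
    have hi2 : Integrable ψ ν := Integrable.of_bound hψ.measurable.aestronglyMeasurable K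
      (Eventually.of_forall fun x => hK x)
    have hi3 : Integrable (fun x => 2 * K *
        ({x : ℝ | R < |x|} : Set ℝ).indicator (fun _ => (1 : ℝ)) x) ν :=
      ((integrable_const (1 : ℝ)).indicator hms).const_mul _
    calc ∫ x, ((K + η / 8) + f x) ∂ν ≤ ∫ x, (ψ x + (η / 4 + 2 * K *
          ({x : ℝ | R < |x|} : Set ℝ).indicator (fun _ => (1 : ℝ)) x)) ∂ν :=
          integral_mono hi1 (hi2.add ((integrable_const _).add hi3)) hup
      _ = ∫ x, ψ x ∂ν + (η / 4 + 2 * K * ν.real {x : ℝ | R < |x|}) := by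
          have e1 : ∫ x, (ψ x + (η / 4 + 2 * K *
              ({x : ℝ | R < |x|} : Set ℝ).indicator (fun _ => (1 : ℝ)) x)) ∂ν
              = ∫ x, ψ x ∂ν + ∫ x, (η / 4 + 2 * K *
              ({x : ℝ | R < |x|} : Set ℝ).indicator (fun _ => (1 : ℝ)) x) ∂ν :=
            integral_add hi2 ((integrable_const _).add hi3)
          rw [e1, integral_add (integrable_const _) hi3, integral_const, integral_const_mul,
            integral_indicator_const _ hms]
          simp
      _ ≤ ∫ x, ψ x ∂ν + η := by
          have h1 : 2 * K * ν.real {x : ℝ | R < |x|} ≤ 2 * K * (η / (4 * (K + 1))) :=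
            mul_le_mul_of_nonneg_left hRν (by positivity)
          have h2 : 2 * K * (η / (4 * (K + 1))) ≤ η / 2 := by
            rw [mul_div_assoc', div_le_iff₀ (by positivity)]
            nlinarith
          linarith

/-! ### Extension at the level of convergence in probability -/

variable {α : ℝ}

/-- From test functions to bounded continuous functions. -/
theorem tp_ext {Q : ∀ N : ℕ, Measure (Patterns N α × UnitSphere N)} {ν : Measure ℝ}
    [IsProbabilityMeasure ν]
    (h : ∀ ψ : ℝ → ℝ, Test ψ → TP Q (fun N q => emp (N := N) (α := α) ψ q) (∫ x, ψ x ∂ν))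
    {ψ : ℝ → ℝ} (hψ : Continuous ψ) {K : ℝ} (hK : ∀ x, |ψ x| ≤ K) :
    TP Q (fun N q => emp (N := N) (α := α) ψ q) (∫ x, ψ x ∂ν) := by
  refine TP.sandwich fun η hη => ?_
  obtain ⟨u, hu, hu1, hu2⟩ := exists_test_above hψ hK ν hη
  obtain ⟨v, hv, hv1, hv2⟩ := exists_test_above (ψ := fun x => -ψ x) hψ.neg (K := K)
    (fun x => by rw [abs_neg]; exact hK x) ν hη
  refine ⟨fun N q => emp (N := N) (α := α) (fun x => -v x) q,
    fun N q => emp (N := N) (α := α) u q, ∫ x, -v x ∂ν, ∫ x, u x ∂ν, fun _ => ∅,
    h _ (Test.neg hv), h _ hu, by simp, Eventually.of_forall fun N q _ => ⟨?_, ?_⟩, ?_, hu2⟩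
  · exact Obs918.emp_mono (fun x => by linarith [hv1 x]) q
  · exact Obs918.emp_mono hu1 q
  · rw [integral_neg] at hv2 ⊢
    linarith

end Crest.Agent.R146.NLev918
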