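import Mathlib
import Crest.Agent.R146.NLevA_918
import Crest.Agent.R146.EmpD_788

/-!
Row 146, node NLEV, part B (helper918): N-level assembly for the penalty Gibbs measure.

* `PertLimT` : convergence of the perturbed pressures for smooth test functions, with
  differentiable limit;
* `inputs_of_pertLimT` : `PertLimT` implies the two inputs `MeanEmp` and `ForceLim` of
  `Obs918.S0205_of_inputs`;
* `pertPressure_mean` : the averaged perturbed pressure is `P34_734.pM` of a perturbed quadratic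
  potential;
* `pertLimT_of_EPS` : `P34_734.EPS` and the derivative of the variational value give `PertLimT`.
-/

set_option linter.unusedSectionVars false

namespace Crest.Agent.R146.NLev918

open MeasureTheory Filter Topology
open Crest.ProbabilityR.Perceptron
open Crest.Agent.R146.Obs918 (TP joint emp MeanEmp ForceLim)
open Crest.Agent.R146.P34_734
open Crest.Agent.R146.ObsC_548 (pertPressure)
open Crest.Agent.R146.Emp_788 (QN rowAvg GapLaw)

/-! ### From test functions to bounded Lipschitz functions -/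

/-- From test functions to bounded continuous functions, spaces indexed from `1`. -/
theorem tp_ext' {α : ℝ} {Q : ∀ n : ℕ, Measure (Patterns (n + 1) α × UnitSphere (n + 1))}
    {ν : Measure ℝ} [IsProbabilityMeasure ν]
    (h : ∀ ψ : ℝ → ℝ, Test ψ → TP Q (fun _ q => rowAvg ψ q) (∫ x, ψ x ∂ν))
    {ψ : ℝ → ℝ} (hψ : Continuous ψ) {K : ℝ} (hK : ∀ x, |ψ x| ≤ K) :
    TP Q (fun _ q => rowAvg ψ q) (∫ x, ψ x ∂ν) := by
  refine TP.sandwich fun η hη => ?_
  obtain ⟨u, hu, hu1, hu2⟩ := exists_test_above hψ hK ν hη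
  obtain ⟨v, hv, hv1, hv2⟩ := exists_test_above (ψ := fun x => -ψ x) hψ.neg (K := K)
    (fun x => by rw [abs_neg]; exact hK x) ν hη
  refine ⟨fun _ q => rowAvg (fun x => -v x) q,
    fun _ q => rowAvg u q, ∫ x, -v x ∂ν, ∫ x, u x ∂ν, fun _ => ∅,
    h _ (Test.neg hv), h _ hu, by simp, Eventually.of_forall fun n q _ => ⟨?_, ?_⟩, ?_, hu2⟩
  · exact Emp_788.rowAvg_mono (fun x => by linarith [hv1 x]) q
  · exact Emp_788.rowAvg_mono hu1 q
  · rw [integral_neg] at hv2 ⊢
    linarith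

/-- convergence of the perturbed pressures for smooth test functions with differentiable limit -/
def PertLimT (α β ε : ℝ) (ν : Measure ℝ) : Prop :=
  ∀ ψ : ℝ → ℝ, Test ψ →
    ∃ (h0 : ℝ) (p : ℝ → ℝ), 0 < h0 ∧ HasDerivAt p (α * ∫ x, ψ x ∂ν) 0 ∧
      ∀ h : ℝ, |h| < h0 → Tendsto (fun N : ℕ => ∫ A, pertPressure N α β ψ h A
        ∂(patternLawMix N α ε)) atTop (𝓝 (p h))

theorem gapLaw_of_pertLimT {α β ε : ℝ} {ν : Measure ℝ} [IsProbabilityMeasure ν] (hα : 0 < α)
    (hβ : 0 ≤ β) (h0 : 0 ≤ ε) (h1 : ε ≤ 1) (H : PertLimT α β ε ν) : GapLaw α β ε ν := by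
  rintro ψ ⟨K, hK⟩ ⟨L, hL⟩
  refine tp_ext' (fun χ hχ => ?_) hL.continuous hK
  obtain ⟨t0, p, ht0, hp, hlim⟩ := H χ hχ
  obtain ⟨C, hC⟩ := Test.bdd hχ
  have h := ObsC_548.tp_row_observable_mix h0 h1 hα hβ (Test.measurable hχ) hC ht0 hp hlim
  intro η hη
  have h2 := (h η hη).comp (tendsto_add_atTop_nat 1)
  exact h2

/-- The two inputs of the assembly of S0205 at fixed `(α, β, ε)`, from smooth test functions. -/
theorem inputs_of_pertLimT {α β ε : ℝ} {ν : Measure ℝ} [IsProbabilityMeasure ν] (hα : 0 < α)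
    (hβ : 0 ≤ β) (h0 : 0 ≤ ε) (h1 : ε ≤ 1) (H : PertLimT α β ε ν) :
    MeanEmp α β ε ν ∧ ForceLim α β ε ν :=
  ⟨Emp_788.meanEmp_of_gapLaw hβ (gapLaw_of_pertLimT hα hβ h0 h1 H),
    Emp_788.forceLim_of_gapLaw hα hβ h0 h1 (gapLaw_of_pertLimT hα hβ h0 h1 H)⟩

/-! ### The averaged perturbed pressure -/

/-- The perturbed pressure is the pressure of the perturbed quadratic potential at margin `-1`. -/
lemma pertPressure_eq_fq (N : ℕ) (α b : ℝ) (ψ : ℝ → ℝ) (h : ℝ) (A : Patterns N α) :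
    pertPressure N α b ψ h A =
      spherePressure N α 1 (fun x => fq b (-1) x + h * ψ (1 + x)) A := by
  unfold pertPressure spherePressure potentialSum penaltyEnergy fq
  have hfun : (fun y : UnitSphere N => Real.exp (-b * ∑ μ, (1 / 2 : ℝ) * max (-gap A y μ) 0 ^ 2 +
      h * ∑ μ, ψ (gap A y μ))) = fun y : UnitSphere N => Real.exp (1 * ∑ a,
      (-(b / 2) * max (-1 - ∑ i, A (a, i) * (y : EuclideanSpace ℝ (Fin N)) i) 0 ^ 2 +
      h * ψ (1 + ∑ i, A (a, i) * (y : EuclideanSpace ℝ (Fin N)) i))) := by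
    funext y
    congr 1
    rw [one_mul, Finset.mul_sum, Finset.mul_sum, ← Finset.sum_add_distrib]
    refine Finset.sum_congr rfl fun μ _ => ?_
    have e : -gap A y μ = -1 - ∑ i, A (μ, i) * (y : EuclideanSpace ℝ (Fin N)) i := by
      unfold gap
      ring
    rw [e]
    unfold gap
    ring
  rw [hfun]

lemma pertPressure_mean (N : ℕ) (α ε b : ℝ) (ψ : ℝ → ℝ) (h : ℝ) :
    ∫ A, pertPressure N α b ψ h A ∂(patternLawMix N α ε) =
      pM N α ε (fun x => fq b (-1) x + h * ψ (1 + x)) := by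
  unfold pM
  exact integral_congr_ae (Eventually.of_forall fun A => pertPressure_eq_fq N α b ψ h A)

/-- Convergence of the perturbed averaged pressures near `h = 0` for test functions of the field. -/
def EpsAt (W : BS) (α b ε : ℝ) : Prop := ∀ ψ : ℝ → ℝ, Test ψ → ∃ h0 : ℝ, 0 < h0 ∧
  ∀ h : ℝ, |h| ≤ h0 → Tendsto (fun N : ℕ => pM N α ε fun x => fq b (-1) x + h * ψ x) atTop
    (𝓝 (W.Pv α fun x => fq b (-1) x + h * ψ x))

/-- The variational value is differentiable along test functions of the field, with derivative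
`α ∫ ψ dμ`. -/
def DerPv (W : BS) (α b : ℝ) (μ : Measure ℝ) : Prop := ∀ ψ : ℝ → ℝ, Test ψ →
  HasDerivAt (fun h => W.Pv α fun x => fq b (-1) x + h * ψ x) (α * ∫ x, ψ x ∂μ) 0

/-- Assembly at fixed `(α, b, ε)`; `ν` is the law of `1 + X` if `μ` is the law of `X`. -/
theorem pertLimT_of_epsAt {W : BS} {α b ε : ℝ} {μ : Measure ℝ} (hE : EpsAt W α b ε)
    (hD : DerPv W α b μ) : PertLimT α b ε (μ.map fun x => 1 + x) := by
  intro ψ hψ
  have hψ' : Test fun x => ψ (1 + x) := Test.shift hψ 1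
  obtain ⟨h0, hh0, hlim⟩ := hE _ hψ'
  refine ⟨h0, fun h => W.Pv α fun x => fq b (-1) x + h * ψ (1 + x), hh0, ?_, fun h hh => ?_⟩
  · have h1 := hD _ hψ'
    have h2 : ∫ x, ψ x ∂(μ.map fun x => 1 + x) = ∫ x, ψ (1 + x) ∂μ := by
      rw [integral_map (measurable_const_add 1).aemeasurable
        (Test.measurable hψ).aestronglyMeasurable]
    rw [h2]
    exact h1
  · simp only [pertPressure_mean]
    exact hlim h hh.le

/-- The inputs of S0205 at fixed `(α, b, ε)`. -/
theorem inputs_of_epsAt {W : BS} {α b ε : ℝ} (hα : 0 < α) (hb : 0 ≤ b) (h0 : 0 ≤ ε)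
    (h1 : ε ≤ 1) {μ : Measure ℝ} [IsProbabilityMeasure μ] (hE : EpsAt W α b ε)
    (hD : DerPv W α b μ) :
    MeanEmp α b ε (μ.map fun x => 1 + x) ∧ ForceLim α b ε (μ.map fun x => 1 + x) := by
  have := Measure.isProbabilityMeasure_map (μ := μ) (measurable_const_add (1 : ℝ)).aemeasurable
  exact inputs_of_pertLimT hα hb h0 h1 (pertLimT_of_epsAt hE hD)

end Crest.Agent.R146.NLev918
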