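import Mathlib
import Crest.Agent.R146.P34_734
import Crest.Agent.R146.DualL_256
import Crest.Agent.R146.Obs2_918
import Crest.Agent.R146.ObsC_548

/-!
# R146, node OBS-4 (helper548), part 1: the variational value as a function of the strength of a
row observable, and concentration of the row observable from ONE-SIDED bounds on the limit pressure

* `tp_of_key` : as `ObsB_548.tp_of_pressure`, but only upper bounds for the limit near `0`;
* `row_observable_key` : literal row observable;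
* `Pv_pert_le` : `Pv(f + h psi) <= alpha V_f(m) + S(m) + alpha h E psi(X*_m) + error`, all `m`.
-/

set_option autoImplicit false
set_option linter.unusedSectionVars false

open MeasureTheory ProbabilityTheory Filter
open scoped ENNReal NNReal Topology
open Crest.ProbabilityR.Perceptron
open Crest.Agent.R146.Obs918 Crest.Agent.R146.ObsA_548 Crest.Agent.R146.ObsB_548
open Crest.Agent.R146.ObsC_548
open Crest.Agent.R146.RepairLaw_840 Crest.Agent.R146.P34_734

namespace Crest.Agent.R146.ObsD_548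

section asym

variable {Ω Y : ℕ → Type*} [∀ n, MeasurableSpace (Ω n)] [∀ n, MeasurableSpace (Y n)]
  {μ : ∀ n, Measure (Ω n)} {σ : ∀ n, Measure (Y n)} {w : ∀ n, Ω n → Y n → ℝ}
  {S : ∀ n, Ω n × Y n → ℝ}

/-- one-sided version of `tp_of_pressure` -/
theorem tp_of_key (hμ : ∀ᶠ n in atTop, IsProbabilityMeasure (μ n))
    (hσ : ∀ n, IsFiniteMeasure (σ n))
    (hw : ∀ᶠ n in atTop, GoodWeight (σ n) (w n)) (hS : ∀ n, Measurable (S n))
    (hSb : ∀ n, ∃ K : ℝ, ∀ p, |S n p| ≤ K) (v : ℝ)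
    (hvar : ∀ s : ℝ, ∃ C : ℝ, 0 ≤ C ∧ ∀ᶠ n : ℕ in atTop,
      R151.V.dvar (μ n) (LT (σ n) (w n) (S n) s) ≤ ENNReal.ofReal (C * n))
    {h0 : ℝ} (hh0 : 0 < h0) {p : ℝ → ℝ}
    (key : ∀ η : ℝ, 0 < η → ∃ s : ℝ, 0 < s ∧ s < h0 ∧ p s - p 0 ≤ s * (v + η) ∧
      p (-s) - p 0 ≤ s * (-v + η))
    (hlim : ∀ h : ℝ, |h| < h0 → Tendsto (fun n : ℕ =>
      (∫ ω, LT (σ n) (w n) (S n) h ω ∂(μ n)) / n) atTop (𝓝 (p h))) :
    TP (fun n => joint (μ n) (σ n) (w n)) (fun n q => S n q / n) v := by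
  have hL0 := hlim 0 (by simpa using hh0)
  have hup : ∀ η : ℝ, 0 < η → Tendsto (fun n : ℕ =>
      joint (μ n) (σ n) (w n) {q | n * (v + η) < S n q}) atTop (𝓝 0) := by
    refine upper_tail hμ hσ hw hS hSb v hvar ?_
    intro η hη
    obtain ⟨s, hs, hs0, h1, -⟩ := key (η / 2) (half_pos hη)
    refine ⟨s, hs, ?_⟩
    have hLs := hlim s (by rw [abs_of_pos hs]; exact hs0)
    have hd := hLs.sub hL0
    have hlt : p s - p 0 < s * (v + η) := by nlinarith
    filter_upwards [hd.eventually_lt_const hlt, eventually_gt_atTop 0] with n hn hn0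
    have hnR : (0 : ℝ) < n := by exact_mod_cast hn0
    rw [← sub_div, div_lt_iff₀ hnR] at hn
    linarith
  have hdn : ∀ η : ℝ, 0 < η → Tendsto (fun n : ℕ =>
      joint (μ n) (σ n) (w n) {q | n * (-v + η) < -S n q}) atTop (𝓝 0) := by
    have hvar' : ∀ s : ℝ, ∃ C : ℝ, 0 ≤ C ∧ ∀ᶠ n : ℕ in atTop,
        R151.V.dvar (μ n) (LT (σ n) (w n) (fun p => - S n p) s) ≤ ENNReal.ofReal (C * n) := by
      intro s
      obtain ⟨C, hC, h⟩ := hvar (-s)
      refine ⟨C, hC, ?_⟩
      filter_upwards [h] with n hn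
      rw [LT_neg]
      exact hn
    refine upper_tail (S := fun n p => - S n p) hμ hσ hw (fun n => (hS n).neg)
      (fun n => ?_) (-v) hvar' ?_
    · obtain ⟨K, hK⟩ := hSb n
      exact ⟨K, fun p => by rw [abs_neg]; exact hK p⟩
    intro η hη
    obtain ⟨s, hs, hs0, -, h1⟩ := key (η / 2) (half_pos hη)
    refine ⟨s, hs, ?_⟩
    have hLs := hlim (-s) (by rw [abs_neg, abs_of_pos hs]; exact hs0)
    have hd := hLs.sub hL0
    have hlt : p (-s) - p 0 < s * (-v + η) := by nlinarith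
    filter_upwards [hd.eventually_lt_const hlt, eventually_gt_atTop 0] with n hn hn0
    have hnR : (0 : ℝ) < n := by exact_mod_cast hn0
    simp only [LT_neg, neg_zero]
    rw [← sub_div, div_lt_iff₀ hnR] at hn
    linarith
  refine TP.of_subset fun η hη => ⟨fun n => {q | n * (v + η) < S n q} ∪
    {q | n * (-v + η) < -S n q}, tendsto_union (hup η hη) (hdn η hη), ?_⟩
  filter_upwards [eventually_gt_atTop 0] with n hn q hq
  have hnR : (0 : ℝ) < n := by exact_mod_cast hn
  simp only [Set.mem_ofPred_eq] at hq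
  rcases lt_abs.1 hq with h | h
  · left
    have h2 : v + η < S n q / n := by linarith
    rw [lt_div_iff₀ hnR] at h2
    show n * (v + η) < S n q
    linarith
  · right
    have h2 : S n q / n < v - η := by linarith
    rw [div_lt_iff₀ hnR] at h2
    show n * (-v + η) < -S n q
    linarith

end asym

/-- concentration of a bounded row observable from one-sided bounds of the limit pressure -/
theorem row_observable_key {ν : Measure ℝ} (hν : Good ν) {α β : ℝ} (hα : 0 < α) (hβ : 0 ≤ β)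
    {ψ : ℝ → ℝ} (hψ : Measurable ψ) {K : ℝ} (hK : ∀ x, |ψ x| ≤ K) {h0 : ℝ} (hh0 : 0 < h0)
    {p : ℝ → ℝ} {v : ℝ}
    (key : ∀ η : ℝ, 0 < η → ∃ s : ℝ, 0 < s ∧ s < h0 ∧ p s - p 0 ≤ s * (α * v + η) ∧
      p (-s) - p 0 ≤ s * (-(α * v) + η))
    (hlim : ∀ h : ℝ, |h| < h0 → Tendsto (fun N : ℕ => ∫ A, pertPressure N α β ψ h A
      ∂(Measure.pi fun _ : Fin (numPatterns N α) × Fin N => ν)) atTop (𝓝 (p h))) :
    TP (fun N => joint (Measure.pi fun _ : Fin (numPatterns N α) × Fin N => ν) (sphereLaw N)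
      (wg N α β)) (fun N q => (∑ μ, ψ (gap q.1 q.2 μ)) / numPatterns N α) v := by
  have hprob := hν.prob
  have hK0 : 0 ≤ K := (abs_nonneg _).trans (hK 0)
  have h1 := tp_of_key
    (μ := fun N => (Measure.pi fun _ : Fin (numPatterns N α) × Fin N => ν : Measure (Patterns N α)))
    (σ := fun N => sphereLaw N) (w := fun N => wg N α β) (S := fun N => So N α ψ)
    (Eventually.of_forall fun N => inferInstance) (fun N => finite_sphere N)
    (by
      filter_upwards [eventually_gt_atTop 0] with N hN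
      exact goodWeight hN α hβ)
    (fun N => measurable_So N α hψ) (fun N => ⟨_, So_bdd N α hK⟩) (α * v)
    (by
      intro s
      set c := 4 * ((|s| * K) ^ 2 + (β ^ 2 / 2 * (48 * Real.exp 1) + 2 * (s ^ 2 * K ^ 2))) with hc
      have hc0 : 0 ≤ c := by positivity
      refine ⟨c * (α + 1), by positivity, ?_⟩
      have h2 := (tendsto_numPatterns_div α hα.le).eventually_lt_const (lt_add_one α)
      filter_upwards [h2, eventually_gt_atTop 0] with N hN2 hN
      have hNR : (0 : ℝ) < N := by exact_mod_cast hN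
      refine (dvar_LT_le hν hN α hβ s hψ hK0 hK).trans (ENNReal.ofReal_le_ofReal ?_)
      rw [div_lt_iff₀ hNR] at hN2
      have h3 := mul_le_mul_of_nonneg_left hN2.le hc0
      calc _ = c * numPatterns N α := by rw [hc]
        _ ≤ c * ((α + 1) * N) := h3
        _ = _ := by ring)
    hh0 key
    (by
      intro h hh
      refine (hlim h hh).congr fun N => ?_
      simp only [pertPressure_eq]
      rw [integral_div])
  have h2 := TP.div h1 (tp_seq _ (tendsto_numPatterns_div α hα.le)) hα.ne'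
  rw [mul_div_cancel_left₀ _ hα.ne'] at h2
  refine h2.congr' ?_
  filter_upwards [eventually_gt_atTop 0] with N hN q
  have hNR : (0 : ℝ) < N := by exact_mod_cast hN
  unfold So
  rw [div_div_div_cancel_right₀ hNR.ne']

/-- the literal mean of a bounded row observable converges (one-sided hypothesis) -/
theorem gibbs_row_key {ν : Measure ℝ} (hν : Good ν) {α β : ℝ} (hα : 0 < α) (hβ : 0 ≤ β)
    {ψ : ℝ → ℝ} (hψ : Measurable ψ) {K : ℝ} (hK : ∀ x, |ψ x| ≤ K) {h0 : ℝ} (hh0 : 0 < h0)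
    {p : ℝ → ℝ} {v : ℝ}
    (key : ∀ η : ℝ, 0 < η → ∃ s : ℝ, 0 < s ∧ s < h0 ∧ p s - p 0 ≤ s * (α * v + η) ∧
      p (-s) - p 0 ≤ s * (-(α * v) + η))
    (hlim : ∀ h : ℝ, |h| < h0 → Tendsto (fun N : ℕ => ∫ A, pertPressure N α β ψ h A
      ∂(Measure.pi fun _ : Fin (numPatterns N α) × Fin N => ν)) atTop (𝓝 (p h))) :
    Tendsto (fun N : ℕ => ∫ A, gibbsAverage β A (fun y => (∑ μ, ψ (gap A y μ)) /
      numPatterns N α) ∂(Measure.pi fun _ : Fin (numPatterns N α) × Fin N => ν :
        Measure (Patterns N α))) atTop (𝓝 v) := by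
  have hprob := hν.prob
  have hK0 : 0 ≤ K := (abs_nonneg _).trans (hK 0)
  refine gibbs_tendsto_of_tp (O := fun N q => (∑ μ, ψ (gap q.1 q.2 μ)) / numPatterns N α) hβ
    (fun N => (Measure.pi fun _ : Fin (numPatterns N α) × Fin N => ν : Measure (Patterns N α)))
    (fun N => inferInstance) (Eventually.of_forall fun N => (measurable_So N α hψ).div_const _)
    (K := K) (Eventually.of_forall fun N q => emp_abs_le hK q)
    (row_observable_key hν hα hβ hψ hK hh0 key hlim)

/-! ### The variational side -/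

section Pv

open Crest.Agent.R146.DualQ_256 Crest.Agent.R146.DualC1_256 Crest.Agent.R146.DualV_256
  Crest.Agent.R146.DualL_256

variable (W : BS)

/-- lower bound for the control value, uniform in the profile -/
lemma valP_ge {b : ℝ} (hb : 0 < b) (k : ℝ) (m : OverlapProfile) :
    -(b / 2 * ‖ZB W.br - cst W.P k‖ ^ 2) ≤ valP W.meas W.br m hb k := by
  unfold valP
  rw [QQ_def]
  set x := lamP W.meas W.br m hb k
  have h1 := (fam (brownianFiltration W.B W.meas) W.P).bil_self_nonneg (wt_profile m).nonneg x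
  have h2 := abs_real_inner_le_norm (ZB W.br - cst W.P k) x
  have h3 := (abs_le.1 h2).1
  set A := ‖ZB W.br - cst W.P k‖
  set X := ‖x‖
  have h4 : -(b / 2 * A ^ 2) ≤ -(A * X) + 1 / b / 2 * X ^ 2 := by
    have : 0 ≤ (b * A - X) ^ 2 / (2 * b) := by positivity
    have h5 : (b * A - X) ^ 2 / (2 * b) = b / 2 * A ^ 2 - A * X + 1 / b / 2 * X ^ 2 := by
      field_simp
      ring
    linarith
  linarith

lemma abs_mul_int_le {psi : ℝ → ℝ} {C : ℝ} (hC : ∀ x, |psi x| ≤ C) (h : ℝ) (Y : W.Ω → ℝ) :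
    |h * ∫ ω, psi (Y ω) ∂W.P| ≤ |h| * C := by
  rw [abs_mul]
  exact mul_le_mul_of_nonneg_left (abs_integral_psi_le hC _) (abs_nonneg h)

/-- the perturbed values are bounded below -/
lemma bddBelow_vals {α : ℝ} (hα : 0 ≤ α) {b : ℝ} (hb : 0 < b) (k h : ℝ) {psi : ℝ → ℝ}
    (hpsi : Continuous psi) {C : ℝ} (hC : ∀ x, |psi x| ≤ C) :
    BddBelow (W.vals α fun x => fq b k x + h * psi x) := by
  refine ⟨α * (-(b / 2 * ‖ZB W.br - cst W.P k‖ ^ 2) - |h| * C), ?_⟩
  rintro _ ⟨m, -, rfl⟩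
  have h1 := value_pert_ge W.meas W.br m hb k h hpsi hC
  have h2 := valP_ge W hb k m
  have h3 := (abs_le.1 (abs_mul_int_le W hC h (XP W.meas W.br m hb k))).1
  have h4 : (0 : ℝ) ≤ m.entropy.toReal := ENNReal.toReal_nonneg
  have h5 : -(b / 2 * ‖ZB W.br - cst W.P k‖ ^ 2) - |h| * C ≤
      W.V (fun x => fq b k x + h * psi x) m := by
    have : W.V (fun x => fq b k x + h * psi x) m =
      controlValue W.P W.B W.meas (fun x => fbk b k x + h * psi x) m := rfl
    rw [this]
    linarith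
  have h6 := mul_le_mul_of_nonneg_left h5 hα
  linarith

/-- **upper bound for the perturbed variational value by any profile of finite entropy** -/
theorem Pv_pert_le {α : ℝ} (hα : 0 ≤ α) {b : ℝ} (hb : 0 < b) (k h : ℝ) {psi : ℝ → ℝ}
    {l : ℝ} (hl : ∀ x y, |psi x - psi y| ≤ l * |x - y|) {C : ℝ} (hC : ∀ x, |psi x| ≤ C)
    (m : OverlapProfile) (hm : m.entropy ≠ ⊤) :
    W.Pv α (fun x => fq b k x + h * psi x) ≤
      (α * W.V (fq b k) m + m.entropy.toReal) +
        α * (h * (∫ ω, psi (XP W.meas W.br m hb k ω) ∂W.P) +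
        |h| * (l * Real.sqrt (4 * |h| * C))) := by
  have hl0 : 0 ≤ l := by
    have := (abs_nonneg _).trans (hl 1 0)
    simpa using this
  have hcont : Continuous psi := by
    refine LipschitzWith.continuous (K := l.toNNReal) (LipschitzWith.of_dist_le_mul fun x y => ?_)
    rw [Real.dist_eq, Real.dist_eq, Real.coe_toNNReal l hl0]; exact hl x y
  have h1 := value_pert_le_lip W.meas W.br m hb k h hl hC
  have h2 : W.V (fq b k) m = valP W.meas W.br m hb k := value_fbk W.meas W.br m hb k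
  have h3 : W.V (fun x => fq b k x + h * psi x) m =
      controlValue W.P W.B W.meas (fun x => fbk b k x + h * psi x) m := rfl
  have h4 : W.Pv α (fun x => fq b k x + h * psi x) ≤
      α * W.V (fun x => fq b k x + h * psi x) m + m.entropy.toReal :=
    csInf_le (bddBelow_vals W hα hb k h hcont hC) ⟨m, hm, rfl⟩
  refine h4.trans ?_
  rw [h3, h2]
  have h5 := mul_le_mul_of_nonneg_left h1 hα
  linarith

/-- `mu` is a limit law of the optimal terminal points of a minimising sequence of profiles -/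
def NearLaw (α b : ℝ) (hb : 0 < b) (k : ℝ) (mu : Measure ℝ) : Prop :=
  ∃ ms : ℕ → OverlapProfile, (∀ n, (ms n).entropy ≠ ⊤) ∧
    Tendsto (fun n => α * W.V (fq b k) (ms n) + (ms n).entropy.toReal) atTop
      (𝓝 (W.Pv α (fq b k))) ∧
    ∀ (psi : ℝ → ℝ), Continuous psi → (∃ C, ∀ x, |psi x| ≤ C) →
      Tendsto (fun n => ∫ ω, psi (XP W.meas W.br (ms n) hb k ω) ∂W.P) atTop (𝓝 (∫ x, psi x ∂mu))

/-- a minimising profile -/
def IsMinP (α b k : ℝ) (m : OverlapProfile) : Prop :=
  m.entropy ≠ ⊤ ∧ W.Pv α (fq b k) = α * W.V (fq b k) m + m.entropy.toReal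

variable {W}

theorem IsMinP.nearLaw {α b k : ℝ} {m : OverlapProfile} (h : IsMinP W α b k m) (hb : 0 < b) :
    NearLaw W α b hb k (W.P.map (XP W.meas W.br m hb k)) := by
  refine ⟨fun _ => m, fun _ => h.1, ?_, fun psi hpsi hC => ?_⟩
  · rw [h.2]; exact tendsto_const_nhds
  · rw [integral_map (Lp.aestronglyMeasurable _).aemeasurable hpsi.aestronglyMeasurable]
    exact tendsto_const_nhds

variable (W)

/-- **touching**: one-sided expansion of the variational value -/
theorem Pv_le_of_nearLaw {α : ℝ} (hα : 0 ≤ α) {b : ℝ} (hb : 0 < b) (k : ℝ) {mu : Measure ℝ}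
    (hmu : NearLaw W α b hb k mu) (h : ℝ) {psi : ℝ → ℝ}
    {l : ℝ} (hl : ∀ x y, |psi x - psi y| ≤ l * |x - y|) {C : ℝ} (hC : ∀ x, |psi x| ≤ C) :
    W.Pv α (fun x => fq b k x + h * psi x) ≤ W.Pv α (fq b k) +
        α * (h * (∫ x, psi x ∂mu) + |h| * (l * Real.sqrt (4 * |h| * C))) := by
  obtain ⟨ms, h1, h2, h3⟩ := hmu
  have hl0 : 0 ≤ l := by
    have := (abs_nonneg _).trans (hl 1 0)
    simpa using this
  have hcont : Continuous psi := by
    refine LipschitzWith.continuous (K := l.toNNReal) (LipschitzWith.of_dist_le_mul fun x y => ?_)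
    rw [Real.dist_eq, Real.dist_eq, Real.coe_toNNReal l hl0]; exact hl x y
  have h4 := h2.add ((((h3 psi hcont ⟨C, hC⟩).const_mul h).add_const
    (|h| * (l * Real.sqrt (4 * |h| * C)))).const_mul α)
  exact ge_of_tendsto' h4 fun n => Pv_pert_le W hα hb k h hl hC (ms n) (h1 n)

/-- the `key` hypothesis of `row_observable_key` -/
theorem key_of_nearLaw {α : ℝ} (hα : 0 ≤ α) {b : ℝ} (hb : 0 < b) (k : ℝ) {mu : Measure ℝ}
    (hmu : NearLaw W α b hb k mu) {psi : ℝ → ℝ}
    {l : ℝ} (hl : ∀ x y, |psi x - psi y| ≤ l * |x - y|) {C : ℝ} (hC : ∀ x, |psi x| ≤ C)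
    {h0 : ℝ} (hh0 : 0 < h0) (η : ℝ) (hη : 0 < η) :
    ∃ s : ℝ, 0 < s ∧ s < h0 ∧
      W.Pv α (fun x => fq b k x + s * psi x) - W.Pv α (fun x => fq b k x + 0 * psi x) ≤
        s * (α * (∫ x, psi x ∂mu) + η) ∧
      W.Pv α (fun x => fq b k x + -s * psi x) - W.Pv α (fun x => fq b k x + 0 * psi x) ≤
        s * (-(α * (∫ x, psi x ∂mu)) + η) := by
  have hcont : Continuous fun s : ℝ => α * (l * Real.sqrt (4 * s * C)) := by fun_prop
  have h1 : Tendsto (fun s : ℝ => α * (l * Real.sqrt (4 * s * C))) (𝓝 0) (𝓝 0) := by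
    have := hcont.tendsto 0
    simpa using this
  have h2 : ∀ᶠ s : ℝ in 𝓝[>] 0, α * (l * Real.sqrt (4 * s * C)) < η :=
    (h1.eventually_lt_const hη).filter_mono nhdsWithin_le_nhds
  have h3 : ∀ᶠ s : ℝ in 𝓝[>] 0, s < h0 := by
    have : Set.Iio h0 ∈ 𝓝 (0 : ℝ) := Iio_mem_nhds hh0
    exact mem_nhdsWithin_of_mem_nhds this
  obtain ⟨s, ⟨hs2, hs3⟩, hs⟩ := ((h2.and h3).and self_mem_nhdsWithin).exists
  have hs0 : 0 < s := hs
  have h00 : (fun x => fq b k x + 0 * psi x) = fq b k := by funext x; ring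
  refine ⟨s, hs0, hs3, ?_, ?_⟩
  · have h4 := Pv_le_of_nearLaw W hα hb k hmu s hl hC
    rw [abs_of_pos hs0] at h4
    rw [h00]
    have h5 := mul_le_mul_of_nonneg_left hs2.le hs0.le
    nlinarith
  · have h4 := Pv_le_of_nearLaw W hα hb k hmu (-s) hl hC
    rw [abs_neg, abs_of_pos hs0] at h4
    rw [h00]
    have h5 := mul_le_mul_of_nonneg_left hs2.le hs0.le
    nlinarith

end Pv

end Crest.Agent.R146.ObsD_548
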