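import Mathlib
import Crest.Agent.R146.ObsD_548

/-!
# R146, node OBS-4 (helper548), part 2: `MeanEmp` (literal) from `P34_734.EPS` and the optimal
terminal point of a minimising profile
-/

set_option autoImplicit false
set_option linter.unusedSectionVars false

open MeasureTheory ProbabilityTheory Filter
open scoped ENNReal NNReal Topology BoundedContinuousFunction
open Crest.ProbabilityR.Perceptron
open Crest.Agent.R146.Obs918 Crest.Agent.R146.ObsA_548 Crest.Agent.R146.ObsB_548
open Crest.Agent.R146.ObsC_548 Crest.Agent.R146.ObsD_548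
open Crest.Agent.R146.RepairLaw_840 Crest.Agent.R146.P34_734

namespace Crest.Agent.R146.ObsE_548

/-! ### trigonometric test functions -/

lemma iteratedDeriv_trig (t a b : ℝ) (n : ℕ) : ∃ a' b' : ℝ,
    iteratedDeriv n (fun x : ℝ => a * Real.cos (t * (1 + x)) + b * Real.sin (t * (1 + x))) =
      fun x : ℝ => a' * Real.cos (t * (1 + x)) + b' * Real.sin (t * (1 + x)) := by
  induction n with
  | zero => exact ⟨a, b, by simp⟩
  | succ n ih =>
    obtain ⟨a', b', h⟩ := ih
    refine ⟨b' * t, -(a' * t), ?_⟩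
    rw [iteratedDeriv_succ, h]
    funext x
    have h1 : HasDerivAt (fun x : ℝ => t * (1 + x)) t x := by
      simpa using ((hasDerivAt_id x).const_add 1).const_mul t
    have h2 : HasDerivAt (fun x : ℝ => a' * Real.cos (t * (1 + x)) +
        b' * Real.sin (t * (1 + x))) (a' * (-Real.sin (t * (1 + x)) * t) +
        b' * (Real.cos (t * (1 + x)) * t)) x := (h1.cos.const_mul a').add (h1.sin.const_mul b')
    rw [h2.deriv]
    ring

lemma test_trig (t a b : ℝ) :
    Test (fun x : ℝ => a * Real.cos (t * (1 + x)) + b * Real.sin (t * (1 + x))) where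
  smooth := fun n => by fun_prop
  bd := fun n => by
    obtain ⟨a', b', h⟩ := iteratedDeriv_trig t a b n
    refine ⟨|a'| + |b'|, fun x => ?_⟩
    rw [h]
    refine (abs_add_le _ _).trans (add_le_add ?_ ?_)
    · rw [abs_mul]
      exact mul_le_of_le_one_right (abs_nonneg _) (Real.abs_cos_le_one _)
    · rw [abs_mul]
      exact mul_le_of_le_one_right (abs_nonneg _) (Real.abs_sin_le_one _)

lemma test_cos (t : ℝ) : Test (fun x : ℝ => Real.cos (t * (1 + x))) := by
  simpa using test_trig t 1 0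

lemma test_sin (t : ℝ) : Test (fun x : ℝ => Real.sin (t * (1 + x))) := by
  simpa using test_trig t 0 1

/-- the perturbed pressure in the form of `P34_734` -/
lemma pert_eq (N : ℕ) (α b : ℝ) (ψ : ℝ → ℝ) (h : ℝ) (A : Patterns N α) :
    pertPressure N α b ψ h A =
      spherePressure N α 1 (fun x => fq b (-1) x + h * ψ (1 + x)) A := by
  unfold pertPressure spherePressure potentialSum penaltyEnergy fq
  have hfun : (fun y : UnitSphere N => Real.exp (-b * ∑ μ, (1 / 2 : ℝ) * max (-gap A y μ) 0 ^ 2 +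
      h * ∑ μ, ψ (gap A y μ))) = fun y : UnitSphere N => Real.exp (1 * ∑ a,
      (-(b / 2) * max (-1 - ∑ i, A (a, i) * (y : EuclideanSpace ℝ (Fin N)) i) 0 ^ 2 +
      h * ψ (1 + ∑ i, A (a, i) * (y : EuclideanSpace ℝ (Fin N)) i))) := by
    funext y
    congr 1
    rw [Finset.mul_sum, Finset.mul_sum, one_mul, ← Finset.sum_add_distrib]
    refine Finset.sum_congr rfl fun μ _ => ?_
    unfold gap
    have : (-1 - ∑ i, A (μ, i) * (y : EuclideanSpace ℝ (Fin N)) i) =
      -(1 + ∑ i, A (μ, i) * (y : EuclideanSpace ℝ (Fin N)) i) := by ring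
    rw [this]
    ring
  rw [hfun]

/-- convergence of the literal mean of a row observable from `EPS`-type convergence -/
theorem mean_row (W : BS) {ε : ℝ} (hε0 : 0 ≤ ε) (hε1 : ε ≤ 1) {α b : ℝ} (hα : 0 < α) (hb : 0 < b)
    {mu : Measure ℝ} (hmu : NearLaw W α b hb (-1) mu) {ψ : ℝ → ℝ}
    {l : ℝ} (hl : ∀ x y, |ψ x - ψ y| ≤ l * |x - y|) {C : ℝ} (hC : ∀ x, |ψ x| ≤ C)
    {h0 : ℝ} (hh0 : 0 < h0)
    (hlim : ∀ h : ℝ, |h| ≤ h0 → Tendsto (fun N : ℕ => pM N α ε fun x =>
      fq b (-1) x + h * ψ (1 + x)) atTop (𝓝 (W.Pv α fun x => fq b (-1) x + h * ψ (1 + x)))) :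
    Tendsto (fun N : ℕ => ∫ A, gibbsAverage b A (fun y => emp (N := N) (α := α) ψ (A, y))
      ∂patternLawMix N α ε) atTop (𝓝 (∫ x, ψ (1 + x) ∂mu)) := by
  have hl0 : 0 ≤ l := by
    have := (abs_nonneg _).trans (hl 1 0)
    simpa using this
  have hcont : Continuous ψ := by
    refine LipschitzWith.continuous (K := l.toNNReal) (LipschitzWith.of_dist_le_mul fun x y => ?_)
    rw [Real.dist_eq, Real.dist_eq, Real.coe_toNNReal l hl0]; exact hl x y
  have h1 := gibbs_row_key (good_mixtureLaw ε hε0 hε1) hα hb.le hcont.measurable hC hh0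
    (p := fun h => W.Pv α fun x => fq b (-1) x + h * ψ (1 + x)) (v := ∫ x, ψ (1 + x) ∂mu)
    (fun η hη => key_of_nearLaw W hα.le hb (-1) hmu (psi := fun x => ψ (1 + x))
      (fun x y => by simpa using hl (1 + x) (1 + y)) (fun x => hC _) hh0 η hη)
    (fun h hh => by
      refine (hlim h hh.le).congr fun N => ?_
      unfold pM
      exact integral_congr_ae (Eventually.of_forall fun A => (pert_eq N α b ψ h A).symm))
  exact h1

/-! ### the mean empirical law as a probability measure -/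

section Law

variable {N : ℕ} {α β : ℝ}

/-- mean empirical law of the gaps -/
noncomputable def ml (N : ℕ) (α β : ℝ) (κ : Measure (Patterns N α)) : Measure ℝ :=
  (numPatterns N α : ℝ≥0∞)⁻¹ • ∑ μ : Fin (numPatterns N α), (QN β κ).map fun p => gap p.1 p.2 μ

lemma ml_prob (hN : 0 < N) (hM : 0 < numPatterns N α) (hβ : 0 ≤ β) (κ : Measure (Patterns N α))
    [IsProbabilityMeasure κ] : IsProbabilityMeasure (ml N α β κ) := by
  have := isProb_QN (N := N) (α := α) hN hβ κ
  have h1 : ∀ μ : Fin (numPatterns N α),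
      IsProbabilityMeasure ((QN β κ).map fun p => gap p.1 p.2 μ) := fun μ =>
    Measure.isProbabilityMeasure_map (Obs918.measurable_gap μ).aemeasurable
  constructor
  unfold ml
  simp only [Measure.smul_apply, Measure.coe_finsetSum, Finset.sum_apply, measure_univ,
    Finset.sum_const, Finset.card_univ, Fintype.card_fin, nsmul_eq_mul, mul_one, smul_eq_mul]
  exact ENNReal.inv_mul_cancel (by exact_mod_cast hM.ne') (ENNReal.natCast_ne_top _)

lemma integral_ml (hN : 0 < N) (hβ : 0 ≤ β) (κ : Measure (Patterns N α))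
    [IsProbabilityMeasure κ] {ψ : ℝ → ℝ} (hψ : Measurable ψ) {C : ℝ} (hC : ∀ x, |ψ x| ≤ C) :
    ∫ x, ψ x ∂ml N α β κ = ∫ p, emp (N := N) (α := α) ψ p ∂QN β κ := by
  have := isProb_QN (N := N) (α := α) hN hβ κ
  have h1 : ∀ μ : Fin (numPatterns N α),
      IsProbabilityMeasure ((QN β κ).map fun p => gap p.1 p.2 μ) := fun μ =>
    Measure.isProbabilityMeasure_map (Obs918.measurable_gap μ).aemeasurable
  unfold ml
  rw [integral_smul_measure, integral_finsetSum_measure]
  · unfold emp
    simp only [integral_div]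
    rw [integral_finsetSum]
    · rw [ENNReal.toReal_inv, ENNReal.toReal_natCast, smul_eq_mul, inv_mul_eq_div]
      congr 1
      refine Finset.sum_congr rfl fun μ _ => ?_
      rw [integral_map (Obs918.measurable_gap μ).aemeasurable hψ.aestronglyMeasurable]
    · intro μ _
      exact Integrable.of_bound (hψ.comp (Obs918.measurable_gap μ)).aestronglyMeasurable C
        (Eventually.of_forall fun p => hC _)
  · intro μ _
    exact Integrable.of_bound hψ.aestronglyMeasurable C (Eventually.of_forall fun p => hC _)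

end Law

/-- bundling -/
noncomputable def toPM (ρ : Measure ℝ) (h : IsProbabilityMeasure ρ) : ProbabilityMeasure ℝ := ⟨ρ, h⟩

lemma toPM_coe (ρ : Measure ℝ) (h : IsProbabilityMeasure ρ) : (toPM ρ h : Measure ℝ) = ρ := rfl

/-- the mean empirical law as a `ProbabilityMeasure` (Dirac mass for degenerate sizes) -/
noncomputable def mlp (α β ε : ℝ) (hβ : 0 ≤ β) (N : ℕ) : ProbabilityMeasure ℝ :=
  if h : 0 < N ∧ 0 < numPatterns N α then
    toPM (ml N α β (patternLawMix N α ε)) (ml_prob h.1 h.2 hβ _)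
  else toPM (Measure.dirac 0) inferInstance

lemma eventually_pos {α : ℝ} (hα : 0 < α) : ∀ᶠ N : ℕ in atTop, 0 < N ∧ 0 < numPatterns N α := by
  have h := (tendsto_numPatterns_div α hα.le).eventually_const_lt hα
  filter_upwards [h, eventually_gt_atTop 0] with N hN hN0
  refine ⟨hN0, Nat.pos_of_ne_zero fun h0 => ?_⟩
  rw [h0] at hN
  simp at hN

lemma mlp_integral {α β ε : ℝ} (hβ : 0 ≤ β) {N : ℕ} (h : 0 < N ∧ 0 < numPatterns N α) {ψ : ℝ → ℝ}
    (hψ : Measurable ψ) {C : ℝ} (hC : ∀ x, |ψ x| ≤ C) :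
    ∫ x, ψ x ∂(mlp α β ε hβ N : Measure ℝ) =
      ∫ A, gibbsAverage β A (fun y => emp (N := N) (α := α) ψ (A, y)) ∂patternLawMix N α ε := by
  have h1 : (mlp α β ε hβ N : Measure ℝ) = ml N α β (patternLawMix N α ε) := by
    unfold mlp
    rw [dif_pos h, toPM_coe]
  rw [h1, integral_ml h.1 hβ _ hψ hC, integral_QN h.1 hβ _ (measurable_emp hψ) (emp_abs_le hC)]

/-- **Lévy**: convergence of the means of `cos (t gap)` and `sin (t gap)` is `MeanEmp` -/
theorem meanEmp_of_trig {α β ε : ℝ} (hα : 0 < α) (hβ : 0 ≤ β) {ν : Measure ℝ}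
    [IsProbabilityMeasure ν]
    (hc : ∀ t : ℝ, Tendsto (fun N : ℕ => ∫ A, gibbsAverage β A
      (fun y => emp (N := N) (α := α) (fun x => Real.cos (t * x)) (A, y)) ∂patternLawMix N α ε)
      atTop (𝓝 (∫ x, Real.cos (t * x) ∂ν)))
    (hs : ∀ t : ℝ, Tendsto (fun N : ℕ => ∫ A, gibbsAverage β A
      (fun y => emp (N := N) (α := α) (fun x => Real.sin (t * x)) (A, y)) ∂patternLawMix N α ε)
      atTop (𝓝 (∫ x, Real.sin (t * x) ∂ν))) : MeanEmp α β ε ν := by
  have hchar : ∀ (ρ : Measure ℝ) [IsProbabilityMeasure ρ] (t : ℝ), charFun ρ t =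
      ((∫ x, Real.cos (t * x) ∂ρ : ℝ) : ℂ) + ((∫ x, Real.sin (t * x) ∂ρ : ℝ) : ℂ) * Complex.I := by
    intro ρ _ t
    rw [charFun_apply_real]
    have h1 : ∀ x : ℝ, Complex.exp (t * x * Complex.I) =
        ((Real.cos (t * x) : ℝ) : ℂ) + ((Real.sin (t * x) : ℝ) : ℂ) * Complex.I := by
      intro x
      rw [Complex.exp_mul_I]
      push_cast
      rfl
    simp only [h1]
    have hi1 : Integrable (fun x : ℝ => ((Real.cos (t * x) : ℝ) : ℂ)) ρ :=
      Integrable.ofReal (Integrable.of_bound (Real.continuous_cos.comp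
        (continuous_const.mul continuous_id)).aestronglyMeasurable 1
        (Eventually.of_forall fun x => Real.abs_cos_le_one _))
    have hi2 : Integrable (fun x : ℝ => ((Real.sin (t * x) : ℝ) : ℂ)) ρ :=
      Integrable.ofReal (Integrable.of_bound (Real.continuous_sin.comp
        (continuous_const.mul continuous_id)).aestronglyMeasurable 1
        (Eventually.of_forall fun x => Real.abs_sin_le_one _))
    rw [integral_add hi1 (hi2.mul_const _), integral_mul_const]
    rw [integral_complex_ofReal, integral_complex_ofReal]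
  have hT : Tendsto (mlp α β ε hβ) atTop (𝓝 (toPM ν inferInstance)) := by
    rw [ProbabilityMeasure.tendsto_iff_tendsto_charFun]
    intro t
    simp only [hchar, toPM_coe]
    refine Tendsto.add ?_ (Tendsto.mul_const _ ?_)
    · refine (Complex.continuous_ofReal.tendsto _).comp ((hc t).congr' ?_)
      filter_upwards [eventually_pos hα] with N hN
      exact (mlp_integral hβ hN (by fun_prop) (fun x => Real.abs_cos_le_one _)).symm
    · refine (Complex.continuous_ofReal.tendsto _).comp ((hs t).congr' ?_)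
      filter_upwards [eventually_pos hα] with N hN
      exact (mlp_integral hβ hN (by fun_prop) (fun x => Real.abs_sin_le_one _)).symm
  rw [ProbabilityMeasure.tendsto_iff_forall_integral_tendsto] at hT
  intro ψ K L hK hL
  have h1 := hT (BoundedContinuousFunction.ofNormedAddCommGroup ψ hL.continuous K hK)
  refine h1.congr' ?_
  filter_upwards [eventually_pos hα] with N hN
  exact mlp_integral hβ hN hL.continuous.measurable hK

/-- **OBS-4**: input (b) of `S0205_of_inputs` from `EPS`, for every limit law of near-optimal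
terminal points. -/
theorem meanEmp_of_eps {W : BS} (hE : EPS W) {αc : ℝ} (hαc : 0 < αc)
    (hsat : ∀ α : ℝ, 0 < α → α < αc → Tendsto (fun N : ℕ => satProb N α) atTop (𝓝 1)) :
    ∃ ε0 : ℝ, 0 < ε0 ∧ ε0 < 1 ∧ ∃ η : ℝ, 0 < η ∧ ∀ ε : ℝ, 0 ≤ ε → ε < ε0 →
      ∀ α : ℝ, αc < α → α < αc + η → ∀ (b : ℝ) (hb : 0 < b) (mu : Measure ℝ),
        IsProbabilityMeasure mu → NearLaw W α b hb (-1) mu →
          MeanEmp α b ε (mu.map fun x => 1 + x) := by
  obtain ⟨ε0, h1, h2, η, h3, h4⟩ := hE αc hαc hsat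
  refine ⟨ε0, h1, h2, η, h3, fun ε he0 he1 α ha1 ha2 b hb mu hmu hN => ?_⟩
  have hα : 0 < α := hαc.trans ha1
  have hprob : IsProbabilityMeasure (mu.map fun x => 1 + x) :=
    Measure.isProbabilityMeasure_map (by fun_prop)
  refine meanEmp_of_trig hα hb.le (fun t => ?_) (fun t => ?_)
  · obtain ⟨h0, hh0, h5⟩ := h4 ε he0 he1 α ha1 ha2 b hb _ (test_cos t)
    have h6 := mean_row W he0 (he1.le.trans h2.le) hα hb hN (ψ := fun x => Real.cos (t * x))
      (l := |t|) (fun x y => ?_) (C := 1) (fun x => Real.abs_cos_le_one _) hh0 h5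
    · rw [integral_map (by fun_prop) (by fun_prop)]
      exact h6
    · have := Real.abs_cos_sub_cos_le (t * x) (t * y)
      rwa [← mul_sub, abs_mul] at this
  · obtain ⟨h0, hh0, h5⟩ := h4 ε he0 he1 α ha1 ha2 b hb _ (test_sin t)
    have h6 := mean_row W he0 (he1.le.trans h2.le) hα hb hN (ψ := fun x => Real.sin (t * x))
      (l := |t|) (fun x y => ?_) (C := 1) (fun x => Real.abs_sin_le_one _) hh0 h5
    · rw [integral_map (by fun_prop) (by fun_prop)]
      exact h6
    · have := Real.abs_sin_sub_sin_le (t * x) (t * y)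
      rwa [← mul_sub, abs_mul] at this

/-- the same for a minimising profile -/
theorem meanEmp_of_isMinP {W : BS} (hE : EPS W) {αc : ℝ} (hαc : 0 < αc)
    (hsat : ∀ α : ℝ, 0 < α → α < αc → Tendsto (fun N : ℕ => satProb N α) atTop (𝓝 1)) :
    ∃ ε0 : ℝ, 0 < ε0 ∧ ε0 < 1 ∧ ∃ η : ℝ, 0 < η ∧ ∀ ε : ℝ, 0 ≤ ε → ε < ε0 →
      ∀ α : ℝ, αc < α → α < αc + η → ∀ (b : ℝ) (hb : 0 < b) (m : OverlapProfile),
        IsMinP W α b (-1) m →
          MeanEmp α b ε (W.P.map fun ω => 1 + DualL_256.XP W.meas W.br m hb (-1) ω) := by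
  obtain ⟨ε0, h1, h2, η, h3, h4⟩ := meanEmp_of_eps hE hαc hsat
  refine ⟨ε0, h1, h2, η, h3, fun ε he0 he1 α ha1 ha2 b hb m hm => ?_⟩
  have hXm := (Lp.aestronglyMeasurable (DualL_256.XP W.meas W.br m hb (-1))).aemeasurable
  have h5 := h4 ε he0 he1 α ha1 ha2 b hb _ (Measure.isProbabilityMeasure_map hXm)
    (hm.nearLaw hb)
  rwa [AEMeasurable.map_map_of_aemeasurable (by fun_prop) hXm] at h5

end Crest.Agent.R146.ObsE_548
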