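import Mathlib
import Crest.Agent.R146.NLevB_918
import Crest.Agent.R146.ObsE_548

/-!
Row 146, node NLEV, part D (helper918): the two inputs `MeanEmp` and `ForceLim` of
`Obs918.S0205_of_inputs` from `P34_734.EPS` and helper548's `NearLaw` / `IsMinP`.
-/

set_option linter.unusedSectionVars false

namespace Crest.Agent.R146.NLev918

open MeasureTheory Filter Topology
open Crest.ProbabilityR.Perceptron
open Crest.Agent.R146.Obs918 (TP joint emp MeanEmp ForceLim)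
open Crest.Agent.R146.P34_734
open Crest.Agent.R146.ObsC_548 (pertPressure)
open Crest.Agent.R146.ObsD_548 (NearLaw IsMinP)
open Crest.Agent.R146.Emp_788 (QN rowAvg GapLaw)

lemma Test.lip {ψ : ℝ → ℝ} (h : Test ψ) : ∃ l : ℝ, ∀ x y, |ψ x - ψ y| ≤ l * |x - y| := by
  obtain ⟨C, hC⟩ := h.bd 1
  have hd : Differentiable ℝ ψ := (h.smooth 1).differentiable (by norm_num)
  refine ⟨C, fun x y => ?_⟩
  have h1 := Convex.norm_image_sub_le_of_norm_deriv_le (f := ψ) (s := Set.univ) (C := C)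
    (fun z _ => hd z) (fun z _ => by
      have := hC z
      rw [iteratedDeriv_one] at this
      rwa [Real.norm_eq_abs]) convex_univ (Set.mem_univ y) (Set.mem_univ x)
  simpa [Real.norm_eq_abs] using h1

/-- Convergence of the empirical law of the gaps in `QN`-probability, at fixed `(α, b, ε)`. -/
theorem gapLaw_of_nearLaw {W : BS} {α b ε : ℝ} (hα : 0 < α) (hb : 0 < b) (h0 : 0 ≤ ε)
    (h1 : ε ≤ 1) {μ : Measure ℝ} [IsProbabilityMeasure μ] (hE : EpsAt W α b ε)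
    (hμ : NearLaw W α b hb (-1) μ) : GapLaw α b ε (μ.map fun x => 1 + x) := by
  have := Measure.isProbabilityMeasure_map (μ := μ) (measurable_const_add (1 : ℝ)).aemeasurable
  rintro ψ ⟨K, hK⟩ ⟨L, hL⟩
  refine tp_ext' (fun χ hχ => ?_) hL.continuous hK
  have hχ' : Test fun x => χ (1 + x) := Test.shift hχ 1
  obtain ⟨C, hC⟩ := Test.bdd hχ
  obtain ⟨l, hl⟩ := Test.lip hχ'
  obtain ⟨s0, hs0, hlim⟩ := hE _ hχ'
  have h := ObsD_548.row_observable_key (RepairLaw_840.good_mixtureLaw ε h0 h1) hα hb.le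
    (Test.measurable hχ) hC hs0
    (p := fun h => W.Pv α fun x => fq b (-1) x + h * χ (1 + x)) (v := ∫ x, χ (1 + x) ∂μ)
    (fun η hη => ObsD_548.key_of_nearLaw W hα.le hb (-1) hμ hl (fun x => hC _) hs0 η hη)
    (fun h hh => by
      refine (hlim h hh.le).congr fun N => ?_
      rw [← pertPressure_mean]
      rfl)
  have h2 : ∫ x, χ x ∂(μ.map fun x => 1 + x) = ∫ x, χ (1 + x) ∂μ := by
    rw [integral_map (measurable_const_add 1).aemeasurable
      (Test.measurable hχ).aestronglyMeasurable]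
  rw [h2]
  intro η hη
  have h3 := (h η hη).comp (tendsto_add_atTop_nat 1)
  exact h3

/-- The inputs of S0205 at fixed `(α, b, ε)`. -/
theorem inputs_of_nearLaw {W : BS} {α b ε : ℝ} (hα : 0 < α) (hb : 0 < b) (h0 : 0 ≤ ε)
    (h1 : ε ≤ 1) {μ : Measure ℝ} [IsProbabilityMeasure μ] (hE : EpsAt W α b ε)
    (hμ : NearLaw W α b hb (-1) μ) :
    MeanEmp α b ε (μ.map fun x => 1 + x) ∧ ForceLim α b ε (μ.map fun x => 1 + x) := by
  have := Measure.isProbabilityMeasure_map (μ := μ) (measurable_const_add (1 : ℝ)).aemeasurable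
  have H := gapLaw_of_nearLaw hα hb h0 h1 hE hμ
  exact ⟨Emp_788.meanEmp_of_gapLaw hb.le H, Emp_788.forceLim_of_gapLaw hα hb.le h0 h1 H⟩

/-- **NLEV**: both inputs of S0205 from `EPS`, for every limit law of near-optimal terminal
points. -/
theorem inputs_of_eps {W : BS} (hE : EPS W) {αc : ℝ} (hαc : 0 < αc)
    (hsat : ∀ α : ℝ, 0 < α → α < αc → Tendsto (fun N : ℕ => satProb N α) atTop (𝓝 1)) :
    ∃ ε0 : ℝ, 0 < ε0 ∧ ε0 < 1 ∧ ∃ η : ℝ, 0 < η ∧ ∀ ε : ℝ, 0 ≤ ε → ε < ε0 →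
      ∀ α : ℝ, αc < α → α < αc + η → ∀ (b : ℝ) (hb : 0 < b) (μ : Measure ℝ),
        IsProbabilityMeasure μ → NearLaw W α b hb (-1) μ →
          MeanEmp α b ε (μ.map fun x => 1 + x) ∧ ForceLim α b ε (μ.map fun x => 1 + x) := by
  obtain ⟨ε0, h1, h2, η, h3, h4⟩ := hE αc hαc hsat
  refine ⟨ε0, h1, h2, η, h3, fun ε he0 he1 α ha1 ha2 b hb μ hμ hN => ?_⟩
  exact inputs_of_nearLaw (hαc.trans ha1) hb he0 (he1.le.trans h2.le)
    (h4 ε he0 he1 α ha1 ha2 b hb) hN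

/-- **NLEV** for a minimising profile; `X` is any random variable with `X = 1 + X*` a.e. -/
theorem inputs_of_isMinP {W : BS} (hE : EPS W) {αc : ℝ} (hαc : 0 < αc)
    (hsat : ∀ α : ℝ, 0 < α → α < αc → Tendsto (fun N : ℕ => satProb N α) atTop (𝓝 1)) :
    ∃ ε0 : ℝ, 0 < ε0 ∧ ε0 < 1 ∧ ∃ η : ℝ, 0 < η ∧ ∀ ε : ℝ, 0 ≤ ε → ε < ε0 →
      ∀ α : ℝ, αc < α → α < αc + η → ∀ (b : ℝ) (hb : 0 < b) (m : OverlapProfile),
        IsMinP W α b (-1) m → ∀ X : W.Ω → ℝ,
          X =ᵐ[W.P] (fun ω => 1 + DualL_256.XP W.meas W.br m hb (-1) ω) →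
          MeanEmp α b ε (W.P.map X) ∧ ForceLim α b ε (W.P.map X) := by
  obtain ⟨ε0, h1, h2, η, h3, h4⟩ := inputs_of_eps hE hαc hsat
  refine ⟨ε0, h1, h2, η, h3, fun ε he0 he1 α ha1 ha2 b hb m hm X hX => ?_⟩
  have hXm := (Lp.aestronglyMeasurable (DualL_256.XP W.meas W.br m hb (-1))).aemeasurable
  have h5 := h4 ε he0 he1 α ha1 ha2 b hb _ (Measure.isProbabilityMeasure_map hXm)
    (hm.nearLaw hb)
  rw [AEMeasurable.map_map_of_aemeasurable (by fun_prop) hXm] at h5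
  rw [Measure.map_congr hX]
  exact h5

end Crest.Agent.R146.NLev918
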