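import Mathlib
import Crest.Prelude.Def_Perceptron
import Crest.Agent.R146.Obs3_918

/-!
Row 146, package OBS, part 4 (helper918): the literal conclusion of S0205 from
* `JamData` (package P5),
* `MeanEmp`, `ForceLim` for every `ε < ε₀`, `α ∈ (αc, αc + η)`, `β > 0` (tasks OBS-1/2 + LOC),
* the two logarithmic limits (package P5 (7) + TIP) and the numerical window of `ν` (package NUM).
-/

set_option linter.unusedSectionVars false

namespace Crest.Agent.R146.Obs918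

open MeasureTheory Filter Topology
open Crest.ProbabilityR.Perceptron

section Asm

variable {Ω : Type*} [MeasurableSpace Ω] {P : Measure Ω} [IsProbabilityMeasure P] {αc η : ℝ}
  {X : ℝ → ℝ → Ω → ℝ} {X0 : ℝ → Ω → ℝ} {hJ lJ : Ω → ℝ} {c : ℝ → ℝ}

/-- Change of scale inside a logarithmic exponent. -/
lemma log_ratio_scale {f : ℝ → ℝ} {r q κ : ℝ} (hr : 0 < r) (hq : 0 < q)
    (hf : ∀ᶠ s in 𝓝[>] (0:ℝ), 0 < f s)
    (h : Tendsto (fun s => Real.log (f s) / Real.log s) (𝓝[>] 0) (𝓝 κ)) :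
    Tendsto (fun s => Real.log (f (s * r) / q) / Real.log s) (𝓝[>] 0) (𝓝 κ) := by
  have hscale : Tendsto (fun s : ℝ => s * r) (𝓝[>] 0) (𝓝[>] 0) := by
    refine tendsto_nhdsWithin_iff.2 ⟨?_, ?_⟩
    · have : Tendsto (fun s : ℝ => s * r) (𝓝 0) (𝓝 (0 * r)) :=
        (continuous_id.mul continuous_const).tendsto 0
      rw [zero_mul] at this
      exact this.mono_left nhdsWithin_le_nhds
    · filter_upwards [self_mem_nhdsWithin] with s hs
      exact mul_pos hs hr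
  have hlog : Tendsto Real.log (𝓝[>] 0) atBot := Real.tendsto_log_nhdsGT_zero
  have h1 : Tendsto (fun s => Real.log (f (s * r)) / Real.log (s * r)) (𝓝[>] 0) (𝓝 κ) :=
    h.comp hscale
  have hinv : Tendsto (fun s => (Real.log s)⁻¹) (𝓝[>] (0:ℝ)) (𝓝 0) :=
    tendsto_inv_atBot_zero.comp hlog
  have h2 : Tendsto (fun s => 1 + Real.log r * (Real.log s)⁻¹) (𝓝[>] (0:ℝ)) (𝓝 1) := by
    have := (hinv.const_mul (Real.log r)).const_add 1
    simpa using this
  have h3 : Tendsto (fun s => Real.log q * (Real.log s)⁻¹) (𝓝[>] (0:ℝ)) (𝓝 0) := by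
    have := hinv.const_mul (Real.log q)
    simpa using this
  have h4 := (h1.mul h2).sub h3
  rw [mul_one, sub_zero] at h4
  refine h4.congr' ?_
  have hneg : ∀ᶠ s in 𝓝[>] (0:ℝ), Real.log s < 0 := hlog.eventually (eventually_lt_atBot 0)
  have hneg' : ∀ᶠ s in 𝓝[>] (0:ℝ), Real.log (s * r) < 0 := hscale.eventually hneg
  have hf' : ∀ᶠ s in 𝓝[>] (0:ℝ), 0 < f (s * r) := hscale.eventually hf
  filter_upwards [hneg, hneg', hf', self_mem_nhdsWithin] with s h5 h6 h7 h8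
  have h8' : (0:ℝ) < s := h8
  rw [Real.log_div h7.ne' hq.ne']
  have h9 : Real.log (s * r) = Real.log s + Real.log r := Real.log_mul h8'.ne' hr.ne'
  have h10 : 1 + Real.log r * (Real.log s)⁻¹ = Real.log (s * r) / Real.log s := by
    rw [h9, add_div, div_self h5.ne, div_eq_mul_inv]
  rw [h10, div_mul_div_cancel₀ h6.ne, ← div_eq_mul_inv, ← sub_div]

/-- **Assembly of S0205.** -/
theorem S0205_of_inputs (D : JamData P αc η X X0 hJ lJ c) (hLm : Measurable lJ)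
    {ε₀ : ℝ} (hε₀ : 0 < ε₀) (hε₁ : ε₀ < 1)
    (hG : ∀ ε : ℝ, 0 ≤ ε → ε < ε₀ → ∀ α, αc < α → α < αc + η → ∀ β, 0 < β →
      MeanEmp α β ε (P.map (X α β)))
    (hF : ∀ ε : ℝ, 0 ≤ ε → ε < ε₀ → ∀ α, αc < α → α < αc + η → ∀ β, 0 < β →
      ForceLim α β ε (P.map (X α β)))
    {ν : ℝ} (hν1 : 0.2936533 < ν) (hν2 : ν < 0.2936535)
    (hexpG : Tendsto (fun u : ℝ => Real.log (P.real {ω | 0 < hJ ω ∧ hJ ω ≤ u}) / Real.log u)
      (𝓝[>] 0) (𝓝 (2 * ν)))
    (hexpF : Tendsto (fun s : ℝ => Real.log (P.real {ω | 0 < lJ ω ∧ lJ ω ≤ s}) / Real.log s)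
      (𝓝[>] 0) (𝓝 (2 * ν / (1 - 2 * ν)))) :
    ∃ ε₀ : ℝ, 0 < ε₀ ∧ ε₀ < 1 ∧ ∃ G F : ℝ → ℝ,
      (∀ ε : ℝ, 0 ≤ ε → ε < ε₀ →
        (∀ u : ℝ, 0 < u → ∃ g : ℝ → ℝ,
          (∀ δ : ℝ, 0 < δ → δ < u →
            HasOrderedLimit (fun N β α => gapMean N β α ε δ u) αc (g δ)) ∧
          Filter.Tendsto g (nhdsWithin 0 (Set.Ioi 0)) (nhds (G u))) ∧
        (∀ s : ℝ, 0 < s → HasOrderedLimit (fun N β α => forceMean N β α ε s) αc (F s))) ∧
      (∃ P : MeasureTheory.Measure ℝ, MeasureTheory.IsProbabilityMeasure P ∧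
        P (Set.Iic 0) = 0 ∧ ∫ x, x ∂P = 1 ∧
        ∀ s : ℝ, 0 < s → F s = (P (Set.Iic s)).toReal) ∧
      ∃ γ θ : ℝ, γ = 1 / (2 + θ) ∧ 0.4126930 < γ ∧ γ < 0.4126934 ∧
        0.4231063 < θ ∧ θ < 0.4231088 ∧
        Filter.Tendsto (fun u : ℝ => Real.log (G u) / Real.log u)
          (nhdsWithin 0 (Set.Ioi 0)) (nhds (1 - γ)) ∧
        Filter.Tendsto (fun s : ℝ => Real.log (F s) / Real.log s)
          (nhdsWithin 0 (Set.Ioi 0)) (nhds (1 + θ)) := by
  refine ⟨ε₀, hε₀, hε₁, fun u => P.real {ω | 0 < hJ ω ∧ hJ ω ≤ u}, fcdf P lJ, ?_, ?_, ?_⟩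
  · intro ε h0 h1
    refine ⟨fun u hu => ⟨fun δ => P.real {ω | δ < hJ ω ∧ hJ ω ≤ u}, ?_, ?_⟩, ?_⟩
    · intro δ hδ hδu
      exact D.gap_limit (hG ε h0 h1) hδ hδu
    · exact tendsto_Ioc_zero D.intH.1.aemeasurable u
    · intro s hs
      exact D.force_limit (hF ε h0 h1) hs
  · exact lawF hLm D.intL D.L_nonneg D.posL
  · have hγ0 : (0:ℝ) < 1 - 2 * ν := by linarith
    refine ⟨1 - 2 * ν, 1 / (1 - 2 * ν) - 2, ?_, by linarith, by linarith, ?_, ?_, ?_, ?_⟩
    · field_simp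
      ring
    · have : (2.4231063 : ℝ) < 1 / (1 - 2 * ν) := by
        rw [lt_div_iff₀ hγ0]; nlinarith
      linarith
    · have : 1 / (1 - 2 * ν) < (2.4231088 : ℝ) := by
        rw [div_lt_iff₀ hγ0]; nlinarith
      linarith
    · have : 1 - (1 - 2 * ν) = 2 * ν := by ring
      rw [this]; exact hexpG
    · have h1 : 1 + (1 / (1 - 2 * ν) - 2) = 2 * ν / (1 - 2 * ν) := by
        field_simp; ring
      rw [h1]
      -- `P(0 < lJ ≤ s) > 0` for small `s`, otherwise the exponent would be `0`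
      have hpos : ∀ᶠ s in 𝓝[>] (0:ℝ), 0 < P.real {ω | 0 < lJ ω ∧ lJ ω ≤ s} := by
        by_contra hcon
        have hfreq : ∃ᶠ s in 𝓝[>] (0:ℝ), P.real {ω | 0 < lJ ω ∧ lJ ω ≤ s} = 0 := by
          have h2 : ∃ᶠ s in 𝓝[>] (0:ℝ), ¬ 0 < P.real {ω | 0 < lJ ω ∧ lJ ω ≤ s} :=
            not_eventually.1 hcon
          exact h2.mono fun s hs => le_antisymm (not_lt.1 hs) measureReal_nonneg
        have h3 : (0:ℝ) < 2 * ν / (1 - 2 * ν) := div_pos (by linarith) hγ0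
        have h4 := (tendsto_order.1 hexpF).1 0 h3
        obtain ⟨s, hs1, hs2⟩ := (hfreq.and_eventually h4).exists
        rw [hs1, Real.log_zero, zero_div] at hs2
        exact lt_irrefl _ hs2
      have hr : 0 < (∫ ω, lJ ω ∂P) / P.real {ω | 0 < lJ ω} := by
        have := level_pos D.intL D.L_nonneg D.posL one_pos
        rwa [one_mul] at this
      have h5 := log_ratio_scale (f := fun s => P.real {ω | 0 < lJ ω ∧ lJ ω ≤ s}) hr D.posL
        hpos hexpF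
      exact h5

end Asm

/-- From mean absolute deviations to `MeanEmp`. -/
theorem MeanEmp.of_abs {α β ε : ℝ} (hβ : 0 ≤ β) {ν : Measure ℝ}
    (h : ∀ (ψ : ℝ → ℝ) (K : ℝ) (L : NNReal), (∀ x, |ψ x| ≤ K) → LipschitzWith L ψ →
      Tendsto (fun N : ℕ => ∫ A, gibbsAverage β A
        (fun y => |emp (N := N) (α := α) ψ (A, y) - ∫ x, ψ x ∂ν|) ∂patternLawMix N α ε)
        atTop (𝓝 0)) : MeanEmp α β ε ν := by
  intro ψ K L hK hL
  have h1 := h ψ K L hK hL
  rw [tendsto_iff_norm_sub_tendsto_zero]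
  refine squeeze_zero' (Eventually.of_forall fun n => norm_nonneg _) ?_ h1
  filter_upwards [eventually_gt_atTop 0] with N hN
  have hp := isProb_QN (N := N) (α := α) hN hβ (patternLawMix N α ε)
  have hm : Measurable (emp (N := N) (α := α) ψ) := measurable_emp hL.continuous.measurable
  rw [integral_QN hN hβ _ hm (emp_abs_le hK), integral_QN hN hβ (patternLawMix N α ε)
    (O := fun p => |emp (N := N) (α := α) ψ p - ∫ x, ψ x ∂ν|)
    ((hm.sub measurable_const).norm) (K := K + |∫ x, ψ x ∂ν|)]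
  · have hint : Integrable (emp (N := N) (α := α) ψ) (QN β (patternLawMix N α ε)) :=
      Integrable.of_bound hm.aestronglyMeasurable K (Eventually.of_forall fun p => emp_abs_le hK p)
    have h2 : ∫ p, emp (N := N) (α := α) ψ p ∂QN β (patternLawMix N α ε) - ∫ x, ψ x ∂ν
        = ∫ p, (emp (N := N) (α := α) ψ p - ∫ x, ψ x ∂ν) ∂QN β (patternLawMix N α ε) := by
      rw [integral_sub hint (integrable_const _), integral_const]
      simp
    rw [h2]
    exact abs_integral_le_integral_abs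
  · intro p
    rw [abs_abs]
    exact (abs_sub _ _).trans (add_le_add (emp_abs_le hK p) le_rfl)

end Crest.Agent.R146.Obs918
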