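import Crest.Agent.R146.P5Fin_12
import Crest.Agent.R146.NLevD_918
import Crest.Agent.R146.ObsAsm_918

/-!
Row 146: the literal conclusion of S0205 from the frozen nodes (helper12).

`s0205_of W` : the nodes of `P34_734` (S0203/S0204/EPS), the nodes of `P5Def_12` (limit nodes, TIPW)
and `EXPO` (exponents at a jamming minimiser, helper778) ⟹ S0205.
-/

set_option autoImplicit false

namespace Crest.Agent.R146.S0205Asm_12

open Set Filter Topology MeasureTheory ProbabilityTheory Crest.ProbabilityR.Perceptron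
open Crest.Agent.R146.Hilb Crest.Agent.R146.ProfB_540 Crest.Agent.R146.HilbE
open Crest.Agent.R146.Lev2_576 Crest.Agent.R146.P34_734 Crest.Agent.R146.DualG_256
open Crest.Agent.R146.DualL_256 Crest.Agent.R146.JamIface_776 Crest.Agent.R146.P5A_12
open Crest.Agent.R146.P5Def_12 Crest.Agent.R146.P5Out_576 Crest.Agent.R146.JamAsm_576
open Crest.Agent.R146.Obs918 Crest.Agent.R146.P5Fin_12
open scoped RealInnerProductSpace NNReal

noncomputable section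

/-- (EXPO) the exponents of the gap and force laws at a jamming minimiser -/
def EXPO (W : BS) : Prop := ∀ αc : ℝ, 0 < αc → ∀ (x : HW W) (D : ℝ → ℝ) (ν : ℝ),
  IsJam (RW W) (KW W) (xiW W) αc x D → TipOut (RW W) (xiW W) x D ν →
  Tendsto (fun u : ℝ => Real.log (W.P.real {ω | 0 < (MW W).J (xiW W + (RW W).Dop D x) ω ∧
    (MW W).J (xiW W + (RW W).Dop D x) ω ≤ u}) / Real.log u) (𝓝[>] 0) (𝓝 (2 * ν)) ∧
  Tendsto (fun s : ℝ => Real.log (W.P.real {ω | 0 < (MW W).J x ω ∧ (MW W).J x ω ≤ s}) /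
    Real.log s) (𝓝[>] 0) (𝓝 (2 * ν / (1 - 2 * ν)))

/-- the nodes of P5 and PT -/
structure Nodes (W : BS) : Prop where
  minb : MINB W
  min0 : MIN0 W
  elim : ELIM W
  flim : FLIM W
  lipz : LIPZ W
  tipw : TIPW W
  levc : LEVC W
  levd : LEVD W
  linkm : LINKM W
  linkz : LINKZ W
  expo : EXPO W

/-- S0205 from `EPS`, the two threshold facts and the nodes of P5/PT -/
theorem s0205_of_eps {W : BS} (hN : Nodes W) (hE : EPS W) {αc : ℝ} (hαc : 0 < αc)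
    (hlow : ∀ α : ℝ, 0 < α → α < αc → Tendsto (fun N : ℕ => satProb N α) atTop (𝓝 1))
    (hZ : ∀ α, 0 < α → α < αc → W.ZeroE α (-1)) (hNZ : ∀ α, αc < α → ¬ W.ZeroE α (-1)) :
    ∃ ε₀ : ℝ, 0 < ε₀ ∧ ε₀ < 1 ∧ ∃ G F : ℝ → ℝ,
      (∀ ε : ℝ, 0 ≤ ε → ε < ε₀ →
        (∀ u : ℝ, 0 < u → ∃ g : ℝ → ℝ,
          (∀ δ : ℝ, 0 < δ → δ < u →
            HasOrderedLimit (fun N β α => gapMean N β α ε δ u) αc (g δ)) ∧
          Filter.Tendsto g (nhdsWithin 0 (Set.Ioi 0)) (nhds (G u))) ∧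
        (∀ s : ℝ, 0 < s → HasOrderedLimit (fun N β α => forceMean N β α ε s) αc (F s))) ∧
      (∃ P : MeasureTheory.Measure ℝ, MeasureTheory.IsProbabilityMeasure P ∧
        P (Set.Iic 0) = 0 ∧ ∫ x, x ∂P = 1 ∧
        ∀ s : ℝ, 0 < s → F s = (P (Set.Iic s)).toReal) ∧
      ∃ γ θ : ℝ, γ = 1 / (2 + θ) ∧ 0.4126930 < γ ∧ γ < 0.4126934 ∧
        0.4231063 < θ ∧ θ < 0.4231088 ∧
        Filter.Tendsto (fun u : ℝ => Real.log (G u) / Real.log u)
          (nhdsWithin 0 (Set.Ioi 0)) (nhds (1 - γ)) ∧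
        Filter.Tendsto (fun s : ℝ => Real.log (F s) / Real.log s)
          (nhdsWithin 0 (Set.Ioi 0)) (nhds (1 + θ)) := by
  obtain ⟨ε0, he0, he1, η, hη, hin⟩ := NLev918.inputs_of_isMinP hE hαc hlow
  obtain ⟨ν, m, x, D, x0, D0, xJ, DJ, s, F⟩ := p5fin W hN.minb hN.min0 hN.elim hN.flim hN.lipz
    hN.tipw hN.levc hN.levd hN.linkm hN.linkz hαc hZ hNZ hη
  have hJD := F.out.jamData W.br.toIsPreBrownianReal
  have hboth : ∀ ε : ℝ, 0 ≤ ε → ε < ε0 → ∀ α, αc < α → α < αc + η → ∀ β, 0 < β →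
      MeanEmp α β ε (W.P.map ((MW W).J (xiW W + (RW W).Dop (D α β) (x α β)))) ∧
      ForceLim α β ε (W.P.map ((MW W).J (xiW W + (RW W).Dop (D α β) (x α β)))) := by
    intro ε h0 h1 α h2 h3 β hβ
    obtain ⟨g1, g2, g3⟩ := F.prof α h2 β hβ
    exact hin ε h0 h1 α h2 h3 β hβ (m α β) ⟨g1, g2⟩ _ g3
  obtain ⟨e1, e2⟩ := hN.expo αc hαc xJ DJ ν F.jam F.tip
  have hfx := frc_ae (MW W) (x := xJ) F.out.jam.x_nonneg
  have e3 : ∀ u : ℝ, W.P.real {ω | 0 < frc (MW W) xJ ω ∧ frc (MW W) xJ ω ≤ u} =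
      W.P.real {ω | 0 < (MW W).J xJ ω ∧ (MW W).J xJ ω ≤ u} := by
    intro u
    rw [measureReal_def, measureReal_def]
    congr 1
    apply measure_congr
    filter_upwards [hfx] with ω h1
    apply propext
    change (0 < frc (MW W) xJ ω ∧ frc (MW W) xJ ω ≤ u) ↔
      (0 < (MW W).J xJ ω ∧ (MW W).J xJ ω ≤ u)
    rw [h1]
  exact S0205_of_inputs hJD (frc_measurable (MW W) xJ) he0 he1
    (fun ε h0 h1 α h2 h3 β hβ => (hboth ε h0 h1 α h2 h3 β hβ).1)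
    (fun ε h0 h1 α h2 h3 β hβ => (hboth ε h0 h1 α h2 h3 β hβ).2)
    F.tip.ν_lo F.tip.ν_hi e1 (by simp only [e3]; exact e2)

/-- **S0205** from the frozen nodes of P3/P4, P5 and PT -/
theorem s0205_of {W : BS} (hN : Nodes W) (hC : VCONC W) (hZ : VZERO W) (hG : GUB W)
    (hLB : LINDLB W) (hLOC : LOCUB W) (hcap : CAP) (hcon : CONCM) (hM : MARKOV) (hK : KERN)
    (hMix : MIX0) (hInt : PINT) (αc : ℝ) (hαc : 0 < αc)
    (hlow : ∀ α : ℝ, 0 < α → α < αc → Tendsto (fun N : ℕ => satProb N α) atTop (𝓝 1))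
    (hhigh : ∀ α : ℝ, αc < α → Tendsto (fun N : ℕ => satProb N α) atTop (𝓝 0)) :
    ∃ ε₀ : ℝ, 0 < ε₀ ∧ ε₀ < 1 ∧ ∃ G F : ℝ → ℝ,
      (∀ ε : ℝ, 0 ≤ ε → ε < ε₀ →
        (∀ u : ℝ, 0 < u → ∃ g : ℝ → ℝ,
          (∀ δ : ℝ, 0 < δ → δ < u →
            HasOrderedLimit (fun N β α => gapMean N β α ε δ u) αc (g δ)) ∧
          Filter.Tendsto g (nhdsWithin 0 (Set.Ioi 0)) (nhds (G u))) ∧
        (∀ s : ℝ, 0 < s → HasOrderedLimit (fun N β α => forceMean N β α ε s) αc (F s))) ∧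
      (∃ P : MeasureTheory.Measure ℝ, MeasureTheory.IsProbabilityMeasure P ∧
        P (Set.Iic 0) = 0 ∧ ∫ x, x ∂P = 1 ∧
        ∀ s : ℝ, 0 < s → F s = (P (Set.Iic s)).toReal) ∧
      ∃ γ θ : ℝ, γ = 1 / (2 + θ) ∧ 0.4126930 < γ ∧ γ < 0.4126934 ∧
        0.4231063 < θ ∧ θ < 0.4231088 ∧
        Filter.Tendsto (fun u : ℝ => Real.log (G u) / Real.log u)
          (nhdsWithin 0 (Set.Ioi 0)) (nhds (1 - γ)) ∧
        Filter.Tendsto (fun s : ℝ => Real.log (F s) / Real.log s)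
          (nhdsWithin 0 (Set.Ioi 0)) (nhds (1 + θ)) :=
  s0205_of_eps hN (Asm0204_734.eps_of W hG hLB hLOC hcap hcon hMix hInt) hαc hlow
    (Asm0204_734.zeroE_below W hG hcap hcon hMix hlow)
    (not_zeroE_above W hC hZ hG hLB hcap hcon hM hK hMix hαc hhigh)

end

end Crest.Agent.R146.S0205Asm_12
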