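import Crest.Agent.R146.Chk34_288
import Crest.Agent.R146.S0205Asm_12
import Crest.Agent.R146.P5Lk_288
import Crest.Agent.R146.MinW_952
import Crest.Agent.R146.ELim_12
import Crest.Agent.R146.FLim_491
import Crest.Agent.R146.LevF_4
import Crest.Agent.R146.Emg_288

/-!
Row 146 (helper288, PM-B): EDGE CHECK of S0205: the literal statement from the nodes that are still
open: S6 (= S0206), LOCCORE, EML0 + EMW + LIPZ (all three from `LipC_861`), EXPO, TIPW.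
-/

set_option autoImplicit false

namespace Crest.Agent.R146.Chk05_288

open MeasureTheory ProbabilityTheory Filter Crest.ProbabilityR.Perceptron
open Crest.Agent.R146.P34_734 Crest.Agent.R146.P5Def_12 Crest.Agent.R146.S0205Asm_12
open scoped Topology

theorem nodes (W : BS) (hEML0 : FLim_491.EML0 W) (hEMW : LevF_4.EMW W) (hLIPZ : LIPZ W)
    (hTIP : TIPW W) (hEXPO : EXPO W) : Nodes W where
  minb := MinW_952.minB W
  min0 := MinW_952.min0 W
  elim := ELim_12.elim W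
  flim := FLim_491.flim W hEML0
  lipz := hLIPZ
  tipw := hTIP
  levc := LevF_4.levc hEMW
  levd := LevF_4.levd hEMW
  linkm := P5Lk_288.linkm W
  linkz := P5Lk_288.linkz W
  expo := hEXPO

theorem s0205_open (W : BS) (h6 : S6 W) (hCore : LocCore_508.LOCCORE) (hEML0 : FLim_491.EML0 W)
    (hEMW : LevF_4.EMW W) (hLIPZ : LIPZ W) (hTIP : TIPW W) (hEXPO : EXPO W)
    (αc : ℝ) (hαc : 0 < αc)
    (hlow : ∀ α : ℝ, 0 < α → α < αc →
      Filter.Tendsto (fun N : ℕ => satProb N α) Filter.atTop (nhds 1))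
    (hhigh : ∀ α : ℝ, αc < α →
      Filter.Tendsto (fun N : ℕ => satProb N α) Filter.atTop (nhds 0)) :
    ∃ ε₀ : ℝ, 0 < ε₀ ∧ ε₀ < 1 ∧ ∃ G F : ℝ → ℝ,
      (∀ ε : ℝ, 0 ≤ ε → ε < ε₀ →
        (∀ u : ℝ, 0 < u → ∃ g : ℝ → ℝ,
          (∀ δ : ℝ, 0 < δ → δ < u →
            HasOrderedLimit (fun N β α => gapMean N β α ε δ u) αc (g δ)) ∧
          Filter.Tendsto g (nhdsWithin 0 (Set.Ioi 0)) (nhds (G u))) ∧
        (∀ s : ℝ, 0 < s → HasOrderedLimit (fun N β α => forceMean N β α ε s) αc (F s))) ∧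
      (∃ P : MeasureTheory.Measure ℝ, MeasureTheory.IsProbabilityMeasure P ∧
        P (Set.Iic 0) = 0 ∧ ∫ x, x ∂P = 1 ∧
        ∀ s : ℝ, 0 < s → F s = (P (Set.Iic s)).toReal) ∧
      ∃ γ θ : ℝ, γ = 1 / (2 + θ) ∧ 0.4126930 < γ ∧ γ < 0.4126934 ∧
        0.4231063 < θ ∧ θ < 0.4231088 ∧
        Filter.Tendsto (fun u : ℝ => Real.log (G u) / Real.log u)
          (nhdsWithin 0 (Set.Ioi 0)) (nhds (1 - γ)) ∧
        Filter.Tendsto (fun s : ℝ => Real.log (F s) / Real.log s)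
          (nhdsWithin 0 (Set.Ioi 0)) (nhds (1 + θ)) :=
  s0205_of (nodes W hEML0 hEMW hLIPZ hTIP hEXPO) (VCc_468.vconc W) (VTr_468.vzero W)
    (Chk34_288.gub W h6) (Chk34_288.lindlb W h6) (LocUb_393.locub_of hCore W) P34a_323.cap P34a_323.concm P34a_323.markov
    P34Big_840.kern P34Big_840.mix0 P34a_323.pint αc hαc hlow hhigh

/-- the same with node LIP discharged: open are S6, LOCCORE, TIPW, EXPO. -/
theorem s0205_open4 (W : BS) (h6 : S6 W) (hCore : LocCore_508.LOCCORE) (hTIP : TIPW W)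
    (hEXPO : EXPO W) (αc : ℝ) (hαc : 0 < αc)
    (hlow : ∀ α : ℝ, 0 < α → α < αc →
      Filter.Tendsto (fun N : ℕ => satProb N α) Filter.atTop (nhds 1))
    (hhigh : ∀ α : ℝ, αc < α →
      Filter.Tendsto (fun N : ℕ => satProb N α) Filter.atTop (nhds 0)) :
    ∃ ε₀ : ℝ, 0 < ε₀ ∧ ε₀ < 1 ∧ ∃ G F : ℝ → ℝ,
      (∀ ε : ℝ, 0 ≤ ε → ε < ε₀ →
        (∀ u : ℝ, 0 < u → ∃ g : ℝ → ℝ,
          (∀ δ : ℝ, 0 < δ → δ < u →
            HasOrderedLimit (fun N β α => gapMean N β α ε δ u) αc (g δ)) ∧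
          Filter.Tendsto g (nhdsWithin 0 (Set.Ioi 0)) (nhds (G u))) ∧
        (∀ s : ℝ, 0 < s → HasOrderedLimit (fun N β α => forceMean N β α ε s) αc (F s))) ∧
      (∃ P : MeasureTheory.Measure ℝ, MeasureTheory.IsProbabilityMeasure P ∧
        P (Set.Iic 0) = 0 ∧ ∫ x, x ∂P = 1 ∧
        ∀ s : ℝ, 0 < s → F s = (P (Set.Iic s)).toReal) ∧
      ∃ γ θ : ℝ, γ = 1 / (2 + θ) ∧ 0.4126930 < γ ∧ γ < 0.4126934 ∧
        0.4231063 < θ ∧ θ < 0.4231088 ∧
        Filter.Tendsto (fun u : ℝ => Real.log (G u) / Real.log u)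
          (nhdsWithin 0 (Set.Ioi 0)) (nhds (1 - γ)) ∧
        Filter.Tendsto (fun s : ℝ => Real.log (F s) / Real.log s)
          (nhdsWithin 0 (Set.Ioi 0)) (nhds (1 + θ)) :=
  s0205_open W h6 hCore (Emg_288.eml0 W) (Emg_288.emw W) (LipG_861.lipz W) hTIP hEXPO αc hαc
    hlow hhigh

end Crest.Agent.R146.Chk05_288
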