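import Mathlib

/-!
Row 146, node (F): abstract Lindeberg replacement for product measures on a finite index set.
-/

set_option autoImplicit false

open MeasureTheory Set

namespace Crest.Agent.R146L878

section lindeberg

variable {ι : Type*} [Fintype ι] [DecidableEq ι]

/-- resampling coordinate `i` -/
theorem map_update_prod (lam : ι → Measure ℝ) [∀ i, IsProbabilityMeasure (lam i)] (i : ι)
    (μ : Measure ℝ) [IsProbabilityMeasure μ] :
    ((Measure.pi lam).prod μ).map (fun p : (ι → ℝ) × ℝ => Function.update p.1 i p.2)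
      = Measure.pi (Function.update lam i μ) := by
  have : ∀ j, IsProbabilityMeasure (Function.update lam i μ j) := by
    intro j
    by_cases h : j = i
    · subst h; simpa using ‹IsProbabilityMeasure μ›
    · simpa [Function.update_of_ne h] using (inferInstance : IsProbabilityMeasure (lam j))
  symm
  refine Measure.pi_eq fun s hs => ?_
  have hmeas : Measurable (fun p : (ι → ℝ) × ℝ => Function.update p.1 i p.2) := by
    refine measurable_pi_lambda _ fun j => ?_
    by_cases h : j = i
    · subst h; simpa using measurable_snd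
    · simp only [Function.update_of_ne h]
      exact (measurable_pi_apply j).comp measurable_fst
  rw [Measure.map_apply hmeas (MeasurableSet.univ_pi hs)]
  have hpre : (fun p : (ι → ℝ) × ℝ => Function.update p.1 i p.2) ⁻¹' (Set.univ.pi s)
      = (Set.univ.pi (Function.update s i Set.univ)) ×ˢ (s i) := by
    ext p
    simp only [mem_preimage, mem_univ_pi, mem_prod]
    constructor
    · intro h
      refine ⟨fun j => ?_, by simpa using h i⟩
      by_cases hj : j = i
      · subst hj; simp
      · simpa [Function.update_of_ne hj] using h j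
    · rintro ⟨h1, h2⟩ j
      by_cases hj : j = i
      · subst hj; simpa using h2
      · simpa [Function.update_of_ne hj] using h1 j
  rw [hpre, Measure.prod_prod, Measure.pi_pi]
  rw [← Finset.mul_prod_erase Finset.univ _ (Finset.mem_univ i),
    ← Finset.mul_prod_erase Finset.univ (fun j => (Function.update lam i μ j) (s j)) (Finset.mem_univ i)]
  simp only [Function.update_self, measure_univ, one_mul]
  rw [mul_comm]
  congr 1
  refine Finset.prod_congr rfl fun j hj => ?_
  have hne : j ≠ i := Finset.ne_of_mem_erase hj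
  simp [Function.update_of_ne hne]

theorem measurable_updateMap (i : ι) :
    Measurable (fun p : (ι → ℝ) × ℝ => Function.update p.1 i p.2) := by
  refine measurable_pi_lambda _ fun j => ?_
  by_cases h : j = i
  · subst h; simpa using measurable_snd
  · simp only [Function.update_of_ne h]
    exact (measurable_pi_apply j).comp measurable_fst

/-- functions of linear growth are integrable under product laws with first moments -/
theorem integrable_of_growth (lam : ι → Measure ℝ) [∀ i, IsProbabilityMeasure (lam i)]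
    (h1 : ∀ i, Integrable (fun t : ℝ => t) (lam i)) (F : (ι → ℝ) → ℝ) (hF : Measurable F)
    (K : ℝ) (hK : ∀ x, |F x| ≤ K * (1 + ∑ i, |x i|)) : Integrable F (Measure.pi lam) := by
  have hi : ∀ i, Integrable (fun x : ι → ℝ => |x i|) (Measure.pi lam) := by
    intro i
    have := (measurePreserving_eval lam i).integrable_comp_of_integrable (h1 i)
    exact this.abs
  have hs : Integrable (fun x : ι → ℝ => K * (1 + ∑ i, |x i|)) (Measure.pi lam) :=
    ((integrable_const (1:ℝ)).add (integrable_finset_sum _ fun i _ => hi i)).const_mul K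
  exact Integrable.mono' hs hF.aestronglyMeasurable
    (Filter.Eventually.of_forall fun x => by simpa using hK x)

/-- integral form of resampling -/
theorem integral_update (lam : ι → Measure ℝ) [∀ i, IsProbabilityMeasure (lam i)] (i : ι)
    (μ : Measure ℝ) [IsProbabilityMeasure μ] (F : (ι → ℝ) → ℝ) (hF : Measurable F)
    (hI : Integrable F (Measure.pi (Function.update lam i μ))) :
    ∫ x, F x ∂(Measure.pi (Function.update lam i μ))
      = ∫ x, (∫ t, F (Function.update x i t) ∂μ) ∂(Measure.pi lam) ∧
    Integrable (fun x => ∫ t, F (Function.update x i t) ∂μ) (Measure.pi lam) := by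
  have hmeas := measurable_updateMap i
  have hI2 : Integrable (fun p : (ι → ℝ) × ℝ => F (Function.update p.1 i p.2))
      ((Measure.pi lam).prod μ) := by
    rw [← map_update_prod lam i μ] at hI
    exact (integrable_map_measure hF.aestronglyMeasurable hmeas.aemeasurable).1 hI
  refine ⟨?_, hI2.integral_prod_left⟩
  rw [← map_update_prod lam i μ, integral_map hmeas.aemeasurable hF.aestronglyMeasurable]
  rw [integral_prod _ hI2]

/-- one replacement step at a fixed value of the other coordinates -/
theorem step_bound {μ ν : Measure ℝ} [IsProbabilityMeasure μ] [IsProbabilityMeasure ν]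
    (hμ1 : Integrable (fun t : ℝ => t) μ) (hν1 : Integrable (fun t : ℝ => t) ν)
    (hμ2 : Integrable (fun t : ℝ => t ^ 2) μ) (hν2 : Integrable (fun t : ℝ => t ^ 2) ν)
    (hμ3 : Integrable (fun t : ℝ => |t| ^ 3) μ) (hν3 : Integrable (fun t : ℝ => |t| ^ 3) ν)
    (h1 : ∫ t, t ∂μ = ∫ t, t ∂ν) (h2 : ∫ t, t ^ 2 ∂μ = ∫ t, t ^ 2 ∂ν)
    {g : ℝ → ℝ} (hgμ : Integrable g μ) (hgν : Integrable g ν) {L a b c : ℝ}
    (hg : ∀ t, |g t - (c + a * t + b * t ^ 2)| ≤ L * |t| ^ 3) :
    |∫ t, g t ∂μ - ∫ t, g t ∂ν| ≤ L * (∫ t, |t| ^ 3 ∂μ + ∫ t, |t| ^ 3 ∂ν) := by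
  have hp : ∀ (ρ : Measure ℝ) [IsProbabilityMeasure ρ], Integrable (fun t : ℝ => t) ρ →
      Integrable (fun t : ℝ => t ^ 2) ρ →
      Integrable (fun t : ℝ => c + a * t + b * t ^ 2) ρ ∧
      ∫ t, (c + a * t + b * t ^ 2) ∂ρ = c + a * ∫ t, t ∂ρ + b * ∫ t, t ^ 2 ∂ρ := by
    intro ρ _ i1 i2
    have e1 : Integrable (fun t : ℝ => c + a * t) ρ := (integrable_const c).add (i1.const_mul a)
    have e2 : Integrable (fun t : ℝ => b * t ^ 2) ρ := i2.const_mul b
    refine ⟨e1.add e2, ?_⟩
    rw [integral_add e1 e2, integral_add (integrable_const c) (i1.const_mul a),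
      integral_const_mul, integral_const_mul]
    simp
  have key : ∀ (ρ : Measure ℝ) [IsProbabilityMeasure ρ], Integrable (fun t : ℝ => t) ρ →
      Integrable (fun t : ℝ => t ^ 2) ρ → Integrable (fun t : ℝ => |t| ^ 3) ρ → Integrable g ρ →
      |∫ t, g t ∂ρ - (c + a * ∫ t, t ∂ρ + b * ∫ t, t ^ 2 ∂ρ)| ≤ L * ∫ t, |t| ^ 3 ∂ρ := by
    intro ρ _ i1 i2 i3 ig
    obtain ⟨hi, he⟩ := hp ρ i1 i2
    rw [← he, ← integral_sub ig hi, ← integral_const_mul]
    refine (abs_integral_le_integral_abs).trans ?_
    exact integral_mono (ig.sub hi).abs (i3.const_mul L) hg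
  have hA := key μ hμ1 hμ2 hμ3 hgμ
  have hB := key ν hν1 hν2 hν3 hgν
  rw [h1, h2] at hA
  have := abs_sub_le (∫ t, g t ∂μ) (c + a * ∫ t, t ∂ν + b * ∫ t, t ^ 2 ∂ν) (∫ t, g t ∂ν)
  rw [abs_sub_comm (c + a * ∫ t, t ∂ν + b * ∫ t, t ^ 2 ∂ν) (∫ t, g t ∂ν)] at this
  nlinarith [this, hA, hB]

/-- **Lindeberg replacement**: identical coordinate laws `μ`, `ν` with the same mean and second
moment; `F` measurable of linear growth and with coordinatewise cubic Taylor bounds. -/
theorem lindeberg {μ ν : Measure ℝ} [IsProbabilityMeasure μ] [IsProbabilityMeasure ν]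
    (hμ1 : Integrable (fun t : ℝ => t) μ) (hν1 : Integrable (fun t : ℝ => t) ν)
    (hμ2 : Integrable (fun t : ℝ => t ^ 2) μ) (hν2 : Integrable (fun t : ℝ => t ^ 2) ν)
    (hμ3 : Integrable (fun t : ℝ => |t| ^ 3) μ) (hν3 : Integrable (fun t : ℝ => |t| ^ 3) ν)
    (h1 : ∫ t, t ∂μ = ∫ t, t ∂ν) (h2 : ∫ t, t ^ 2 ∂μ = ∫ t, t ^ 2 ∂ν)
    (F : (ι → ℝ) → ℝ) (hF : Measurable F) (K : ℝ) (hK : ∀ x, |F x| ≤ K * (1 + ∑ i, |x i|))
    (L : ι → ℝ)
    (hL : ∀ i x, ∃ a b c : ℝ, ∀ t,
      |F (Function.update x i t) - (c + a * t + b * t ^ 2)| ≤ L i * |t| ^ 3) :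
    |∫ x, F x ∂(Measure.pi fun _ : ι => μ) - ∫ x, F x ∂(Measure.pi fun _ : ι => ν)|
      ≤ (∑ i, L i) * (∫ t, |t| ^ 3 ∂μ + ∫ t, |t| ^ 3 ∂ν) := by
  classical
  set T := ∫ t, |t| ^ 3 ∂μ + ∫ t, |t| ^ 3 ∂ν with hT
  let H : Finset ι → ι → Measure ℝ := fun S i => if i ∈ S then μ else ν
  have hHp : ∀ S i, IsProbabilityMeasure (H S i) := by
    intro S i; simp only [H]; split_ifs <;> infer_instance
  have hHi : ∀ S i, Integrable (fun t : ℝ => t) (H S i) := by
    intro S i; simp only [H]; split_ifs
    · exact hμ1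
    · exact hν1
  have hFi : ∀ S, Integrable F (Measure.pi (H S)) := fun S =>
    integrable_of_growth (H S) (hHi S) F hF K hK
  have main : ∀ S : Finset ι, |∫ x, F x ∂(Measure.pi (H S)) - ∫ x, F x ∂(Measure.pi fun _ : ι => ν)|
      ≤ (∑ i ∈ S, L i) * T := by
    intro S
    induction S using Finset.induction_on with
    | empty =>
      have : H ∅ = fun _ => ν := by funext i; simp [H]
      rw [this]; simp
    | insert i S hi ih =>
      have e1 : H (insert i S) = Function.update (H S) i μ := by
        funext j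
        by_cases hj : j = i
        · subst hj; simp [H]
        · simp [H, hj]
      have e2 : H S = Function.update (H S) i ν := by
        funext j
        by_cases hj : j = i
        · subst hj; simp [H, hi]
        · simp [Function.update_of_ne hj]
      obtain ⟨i1, j1⟩ := integral_update (H S) i μ F hF (by rw [← e1]; exact hFi _)
      obtain ⟨i2, j2⟩ := integral_update (H S) i ν F hF (by rw [← e2]; exact hFi _)
      rw [← e1] at i1
      rw [← e2] at i2
      have hstep : |∫ x, F x ∂(Measure.pi (H (insert i S))) - ∫ x, F x ∂(Measure.pi (H S))|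
          ≤ L i * T := by
        rw [i1, i2, ← integral_sub j1 j2]
        have hb : ∀ x, |∫ t, F (Function.update x i t) ∂μ - ∫ t, F (Function.update x i t) ∂ν|
            ≤ L i * T := by
          intro x
          obtain ⟨a, b, c, habc⟩ := hL i x
          have hmx : Measurable fun t => F (Function.update x i t) :=
            hF.comp (measurable_update x)
          have hg : ∀ (ρ : Measure ℝ) [IsProbabilityMeasure ρ], Integrable (fun t : ℝ => t) ρ →
              Integrable (fun t : ℝ => t ^ 2) ρ → Integrable (fun t : ℝ => |t| ^ 3) ρ →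
              Integrable (fun t => F (Function.update x i t)) ρ := by
            intro ρ _ k1 k2 k3
            have e : (fun t => F (Function.update x i t))
                = fun t => (F (Function.update x i t) - (c + a * t + b * t ^ 2))
                  + (c + a * t + b * t ^ 2) := by funext t; ring
            rw [e]
            refine Integrable.add ?_ (((integrable_const c).add (k1.const_mul a)).add (k2.const_mul b))
            refine Integrable.mono' (k3.const_mul (L i)) ?_
              (Filter.Eventually.of_forall fun t => by simpa using habc t)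
            exact (hmx.sub (((measurable_const).add (measurable_id.const_mul a)).add
              ((measurable_id.pow_const 2).const_mul b))).aestronglyMeasurable
          exact step_bound hμ1 hν1 hμ2 hν2 hμ3 hν3 h1 h2 (hg μ hμ1 hμ2 hμ3) (hg ν hν1 hν2 hν3) habc
        calc _ ≤ ∫ x, |∫ t, F (Function.update x i t) ∂μ - ∫ t, F (Function.update x i t) ∂ν|
              ∂(Measure.pi (H S)) := abs_integral_le_integral_abs
          _ ≤ ∫ _x, L i * T ∂(Measure.pi (H S)) :=
            integral_mono (j1.sub j2).abs (integrable_const _) hb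
          _ = L i * T := by simp
      rw [Finset.sum_insert hi, add_mul]
      exact (abs_sub_le _ _ _).trans (add_le_add hstep ih)
  have hfin := main Finset.univ
  have : H Finset.univ = fun _ => μ := by funext i; simp [H]
  rwa [this] at hfin

end lindeberg

section taylor

/-- elementary Taylor bound, third order -/
theorem taylor3 {g g1 g2 g3 : ℝ → ℝ} {M : ℝ}
    (h1 : ∀ t, HasDerivAt g (g1 t) t) (h2 : ∀ t, HasDerivAt g1 (g2 t) t)
    (h3 : ∀ t, HasDerivAt g2 (g3 t) t) (hM : ∀ t, |g3 t| ≤ M) (t : ℝ) :
    |g t - (g 0 + g1 0 * t + (g2 0 / 2) * t ^ 2)| ≤ M * |t| ^ 3 := by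
  have hM0 : 0 ≤ M := (abs_nonneg _).trans (hM 0)
  -- general step
  have step : ∀ (f f' : ℝ → ℝ) (k : ℕ), f 0 = 0 → (∀ s, HasDerivAt f (f' s) s) →
      (∀ s, |f' s| ≤ M * |s| ^ k) → ∀ s, |f s| ≤ M * |s| ^ (k + 1) := by
    intro f f' k hf0 hf hb s
    have hconv : Convex ℝ (Set.Icc (-|s|) |s|) := convex_Icc _ _
    have hbd : ∀ x ∈ Set.Icc (-|s|) |s|, ‖f' x‖ ≤ M * |s| ^ k := by
      intro x hx
      have hx' : |x| ≤ |s| := abs_le.2 hx
      rw [Real.norm_eq_abs]
      exact (hb x).trans (by gcongr)
    have := hconv.norm_image_sub_le_of_norm_hasDerivWithin_le (f := f) (f' := f')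
      (fun x _ => (hf x).hasDerivWithinAt) hbd (x := 0) (y := s)
      ⟨by simp, by simp⟩ ⟨neg_abs_le s, le_abs_self s⟩
    rw [hf0, sub_zero, sub_zero, Real.norm_eq_abs, Real.norm_eq_abs] at this
    calc |f s| ≤ M * |s| ^ k * |s| := this
      _ = M * |s| ^ (k + 1) := by ring
  have s2 : ∀ s, |g2 s - g2 0| ≤ M * |s| ^ 1 := by
    have := step (fun s => g2 s - g2 0) g3 0 (by simp)
      (fun s => by simpa using (h3 s).sub_const (g2 0)) (fun s => by simpa using hM s)
    simpa using this
  have s1 : ∀ s, |g1 s - g1 0 - g2 0 * s| ≤ M * |s| ^ 2 := by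
    have := step (fun s => g1 s - g1 0 - g2 0 * s) (fun s => g2 s - g2 0) 1 (by simp)
      (fun s => by
        have := ((h2 s).sub_const (g1 0)).sub ((hasDerivAt_id s).const_mul (g2 0))
        refine this.congr_deriv ?_
        simp) s2
    simpa using this
  have s0 := step (fun s => g s - (g 0 + g1 0 * s + (g2 0 / 2) * s ^ 2))
      (fun s => g1 s - g1 0 - g2 0 * s) 2 (by simp)
      (fun s => by
        have e := (h1 s).sub ((((hasDerivAt_id s).const_mul (g1 0)).const_add (g 0)).add
          (((hasDerivAt_id s).pow 2).const_mul (g2 0 / 2)))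
        refine e.congr_deriv ?_
        simp
        ring) s1
  simpa using s0 t

end taylor

end Crest.Agent.R146L878
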