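import Mathlib
import Crest.Agent.R146.Lind1_878

/-!
Row 146, node (F2): third order Taylor bound for `t ↦ log ∫ exp (f (c y + t s y)) w y dρ`.
-/

set_option autoImplicit false

open MeasureTheory Set

namespace Crest.Agent.R146L878

section logint

variable {Y : Type*} [MeasurableSpace Y] (ρ : Measure Y) [IsFiniteMeasure ρ]

/-- a function bounded above with three bounded derivatives -/
structure C3b (f f1 f2 f3 : ℝ → ℝ) (K0 K1 K2 K3 : ℝ) : Prop where
  d1 : ∀ x, HasDerivAt f (f1 x) x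
  d2 : ∀ x, HasDerivAt f1 (f2 x) x
  d3 : ∀ x, HasDerivAt f2 (f3 x) x
  m3 : Measurable f3
  b0 : ∀ x, f x ≤ K0
  b1 : ∀ x, |f1 x| ≤ K1
  b2 : ∀ x, |f2 x| ≤ K2
  b3 : ∀ x, |f3 x| ≤ K3

variable {f f1 f2 f3 : ℝ → ℝ} {K0 K1 K2 K3 : ℝ}

theorem C3b.c0 (h : C3b f f1 f2 f3 K0 K1 K2 K3) : Continuous f :=
  continuous_iff_continuousAt.2 fun x => (h.d1 x).continuousAt

theorem C3b.c1 (h : C3b f f1 f2 f3 K0 K1 K2 K3) : Continuous f1 :=
  continuous_iff_continuousAt.2 fun x => (h.d2 x).continuousAt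

theorem C3b.c2 (h : C3b f f1 f2 f3 K0 K1 K2 K3) : Continuous f2 :=
  continuous_iff_continuousAt.2 fun x => (h.d3 x).continuousAt

/-- differentiation of an integral with a bounded derivative -/
theorem hasDerivAt_int {q q' : ℝ → Y → ℝ} {w : Y → ℝ} (hw : Integrable w ρ) {B B' : ℝ}
    (hq : ∀ t, Measurable (q t)) (hq' : ∀ t, Measurable (q' t))
    (hb : ∀ t y, |q t y| ≤ B) (hb' : ∀ t y, |q' t y| ≤ B')
    (hd : ∀ t y, HasDerivAt (fun t => q t y) (q' t y) t) (t : ℝ) :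
    HasDerivAt (fun t => ∫ y, q t y * w y ∂ρ) (∫ y, q' t y * w y ∂ρ) t := by
  refine (hasDerivAt_integral_of_dominated_loc_of_deriv_le (μ := ρ) (s := Set.univ)
    (F := fun t y => q t y * w y) (F' := fun t y => q' t y * w y)
    (bound := fun y => B' * |w y|) Filter.univ_mem ?_ ?_ ?_ ?_ ?_ ?_).2
  · exact Filter.Eventually.of_forall fun t => (hq t).aestronglyMeasurable.mul hw.1
  · refine Integrable.mono' (hw.abs.const_mul B) ((hq t).aestronglyMeasurable.mul hw.1) ?_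
    exact Filter.Eventually.of_forall fun y => by
      rw [Real.norm_eq_abs, abs_mul]; gcongr; exact hb t y
  · exact (hq' t).aestronglyMeasurable.mul hw.1
  · exact Filter.Eventually.of_forall fun y t _ => by
      rw [Real.norm_eq_abs, abs_mul]; gcongr; exact hb' t y
  · exact hw.abs.const_mul B'
  · exact Filter.Eventually.of_forall fun y t _ => (hd t y).mul_const (w y)

theorem logInt_taylor (h : C3b f f1 f2 f3 K0 K1 K2 K3)
    {c s w : Y → ℝ} (hc : Measurable c) (hs : Measurable s) (hw : Integrable w ρ)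
    (hw0 : ∀ y, 0 ≤ w y) (hwpos : 0 < ∫ y, w y ∂ρ) {δ : ℝ} (hδ : ∀ y, |s y| ≤ δ) :
    ∃ a b c0 : ℝ, ∀ t, |Real.log (∫ y, Real.exp (f (c y + t * s y)) * w y ∂ρ)
      - (c0 + a * t + b * t ^ 2)| ≤ ((K3 + 6 * K1 * K2 + 6 * K1 ^ 3) * δ ^ 3) * |t| ^ 3 := by
  have hK1 : 0 ≤ K1 := (abs_nonneg _).trans (h.b1 0)
  have hK2 : 0 ≤ K2 := (abs_nonneg _).trans (h.b2 0)
  have hK3 : 0 ≤ K3 := (abs_nonneg _).trans (h.b3 0)
  by_cases hne : Nonempty Y
  swap
  · rw [not_nonempty_iff] at hne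
    exfalso
    have : ∫ y, w y ∂ρ = 0 := by
      have : ρ = 0 := Measure.eq_zero_of_isEmpty ρ
      simp [this]
    linarith
  obtain ⟨y0⟩ := hne
  have hδ0 : 0 ≤ δ := (abs_nonneg _).trans (hδ y0)
  -- argument
  set A : ℝ → Y → ℝ := fun t y => c y + t * s y with hA
  have hAm : ∀ t, Measurable (A t) := fun t => hc.add (hs.const_mul t)
  have hAd : ∀ t y, HasDerivAt (fun t => A t y) (s y) t := by
    intro t y
    simpa [hA] using ((hasDerivAt_id t).mul_const (s y)).const_add (c y)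
  have hexp : ∀ t y, Real.exp (f (A t y)) ≤ Real.exp K0 := fun t y =>
    Real.exp_le_exp.2 (h.b0 _)
  -- the integrands
  let q0 : ℝ → Y → ℝ := fun t y => Real.exp (f (A t y))
  let p1 : ℝ → Y → ℝ := fun t y => s y * f1 (A t y)
  let p2 : ℝ → Y → ℝ := fun t y => s y ^ 2 * (f2 (A t y) + f1 (A t y) ^ 2)
  let p3 : ℝ → Y → ℝ := fun t y => s y ^ 3 * (f3 (A t y) + 3 * f1 (A t y) * f2 (A t y) + f1 (A t y) ^ 3)
  have m0 : ∀ t, Measurable (q0 t) := fun t =>
    Real.measurable_exp.comp (h.c0.measurable.comp (hAm t))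
  have m1 : ∀ t, Measurable (p1 t) := fun t => hs.mul (h.c1.measurable.comp (hAm t))
  have m2 : ∀ t, Measurable (p2 t) := fun t =>
    (hs.pow_const 2).mul ((h.c2.measurable.comp (hAm t)).add ((h.c1.measurable.comp (hAm t)).pow_const 2))
  have m3 : ∀ t, Measurable (p3 t) := fun t =>
    (hs.pow_const 3).mul (((h.m3.comp (hAm t)).add
      (((h.c1.measurable.comp (hAm t)).const_mul 3).mul (h.c2.measurable.comp (hAm t)))).add
      ((h.c1.measurable.comp (hAm t)).pow_const 3))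
  have b1 : ∀ t y, |p1 t y| ≤ δ * K1 := by
    intro t y
    simp only [p1, abs_mul]
    exact mul_le_mul (hδ y) (h.b1 _) (abs_nonneg _) hδ0
  have b2 : ∀ t y, |p2 t y| ≤ δ ^ 2 * (K2 + K1 ^ 2) := by
    intro t y
    simp only [p2, abs_mul, abs_pow]
    have e1 : |f2 (A t y) + f1 (A t y) ^ 2| ≤ K2 + K1 ^ 2 := by
      refine (abs_add_le _ _).trans (add_le_add (h.b2 _) ?_)
      rw [abs_pow]; exact pow_le_pow_left₀ (abs_nonneg _) (h.b1 _) 2
    exact mul_le_mul (pow_le_pow_left₀ (abs_nonneg _) (hδ y) 2) e1 (abs_nonneg _) (by positivity)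
  have b3 : ∀ t y, |p3 t y| ≤ δ ^ 3 * (K3 + 3 * K1 * K2 + K1 ^ 3) := by
    intro t y
    simp only [p3, abs_mul, abs_pow]
    have e1 : |f3 (A t y) + 3 * f1 (A t y) * f2 (A t y) + f1 (A t y) ^ 3|
        ≤ K3 + 3 * K1 * K2 + K1 ^ 3 := by
      refine (abs_add_le _ _).trans (add_le_add ((abs_add_le _ _).trans (add_le_add (h.b3 _) ?_)) ?_)
      · rw [abs_mul, abs_mul, abs_of_pos (by norm_num : (0:ℝ) < 3)]
        exact mul_le_mul (mul_le_mul_of_nonneg_left (h.b1 _) (by norm_num)) (h.b2 _)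
          (abs_nonneg _) (by positivity)
      · rw [abs_pow]; exact pow_le_pow_left₀ (abs_nonneg _) (h.b1 _) 3
    exact mul_le_mul (pow_le_pow_left₀ (abs_nonneg _) (hδ y) 3) e1 (abs_nonneg _) (by positivity)
  have q0b : ∀ t y, |q0 t y| ≤ Real.exp K0 := by
    intro t y; simp only [q0]; rw [abs_of_pos (Real.exp_pos _)]; exact hexp t y
  have d0 : ∀ t y, HasDerivAt (fun t => q0 t y) (p1 t y * q0 t y) t := by
    intro t y
    have := (((h.d1 (A t y)).comp t (hAd t y))).exp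
    refine this.congr_deriv ?_
    simp only [p1, q0]; simp only [Function.comp]; ring
  have dd1 : ∀ t y, HasDerivAt (fun t => p1 t y * q0 t y) (p2 t y * q0 t y) t := by
    intro t y
    have e1 : HasDerivAt (fun t => p1 t y) (s y * (f2 (A t y) * s y)) t :=
      ((h.d2 (A t y)).comp t (hAd t y)).const_mul (s y)
    refine (e1.mul (d0 t y)).congr_deriv ?_
    simp only [p1, p2]; ring
  have dd2 : ∀ t y, HasDerivAt (fun t => p2 t y * q0 t y) (p3 t y * q0 t y) t := by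
    intro t y
    have e1 : HasDerivAt (fun t => p2 t y)
        (s y ^ 2 * (f3 (A t y) * s y + 2 * f1 (A t y) * (f2 (A t y) * s y))) t := by
      have a1 := (h.d3 (A t y)).comp t (hAd t y)
      have a2 := ((h.d2 (A t y)).comp t (hAd t y)).pow 2
      refine ((a1.add a2).const_mul (s y ^ 2)).congr_deriv ?_
      simp [Function.comp]
    refine (e1.mul (d0 t y)).congr_deriv ?_
    simp only [p1, p2, p3]; ring
  have bq : ∀ (p : ℝ → Y → ℝ) (C : ℝ), (∀ t y, |p t y| ≤ C) → ∀ t y,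
      |p t y * q0 t y| ≤ C * Real.exp K0 := by
    intro p C hp t y
    rw [abs_mul]
    exact mul_le_mul (hp t y) (q0b t y) (abs_nonneg _) ((abs_nonneg _).trans (hp t y))
  -- the integrals
  let N0 : ℝ → ℝ := fun t => ∫ y, q0 t y * w y ∂ρ
  let N1 : ℝ → ℝ := fun t => ∫ y, (p1 t y * q0 t y) * w y ∂ρ
  let N2 : ℝ → ℝ := fun t => ∫ y, (p2 t y * q0 t y) * w y ∂ρ
  let N3 : ℝ → ℝ := fun t => ∫ y, (p3 t y * q0 t y) * w y ∂ρ
  have D0 : ∀ t, HasDerivAt N0 (N1 t) t :=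
    hasDerivAt_int ρ hw m0 (fun t => (m1 t).mul (m0 t)) q0b (bq p1 _ b1) d0
  have D1 : ∀ t, HasDerivAt N1 (N2 t) t :=
    hasDerivAt_int ρ hw (fun t => (m1 t).mul (m0 t)) (fun t => (m2 t).mul (m0 t))
      (bq p1 _ b1) (bq p2 _ b2) dd1
  have D2 : ∀ t, HasDerivAt N2 (N3 t) t :=
    hasDerivAt_int ρ hw (fun t => (m2 t).mul (m0 t)) (fun t => (m3 t).mul (m0 t))
      (bq p2 _ b2) (bq p3 _ b3) dd2
  have hint : ∀ t, Integrable (fun y => q0 t y * w y) ρ := by
    intro t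
    refine Integrable.mono' (hw.const_mul (Real.exp K0)) ((m0 t).aestronglyMeasurable.mul hw.1) ?_
    exact Filter.Eventually.of_forall fun y => by
      rw [Real.norm_eq_abs, abs_mul, abs_of_nonneg (hw0 y)]
      exact mul_le_mul_of_nonneg_right (q0b t y) (hw0 y)
  have N0pos : ∀ t, 0 < N0 t := by
    intro t
    show 0 < ∫ y, q0 t y * w y ∂ρ
    rw [integral_pos_iff_support_of_nonneg (fun y => mul_nonneg (Real.exp_pos _).le (hw0 y)) (hint t)]
    rw [integral_pos_iff_support_of_nonneg hw0 hw] at hwpos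
    have : Function.support (fun y => q0 t y * w y) = Function.support w := by
      ext y
      simp [q0, Real.exp_ne_zero]
    rwa [this]
  have ratio : ∀ (p : ℝ → Y → ℝ) (C : ℝ), (∀ t, Measurable (p t)) → (∀ t y, |p t y| ≤ C) → ∀ t,
      |(∫ y, (p t y * q0 t y) * w y ∂ρ) / N0 t| ≤ C := by
    intro p C hpm hp t
    rw [abs_div, abs_of_pos (N0pos t), div_le_iff₀ (N0pos t)]
    refine abs_integral_le_integral_abs.trans ?_
    show _ ≤ C * ∫ y, q0 t y * w y ∂ρ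
    rw [← integral_const_mul]
    refine integral_mono_of_nonneg (Filter.Eventually.of_forall fun y => abs_nonneg _)
      ((hint t).const_mul C) (Filter.Eventually.of_forall fun y => ?_)
    simp only
    rw [abs_mul, abs_mul, abs_of_nonneg (hw0 y), abs_of_pos (Real.exp_pos _), mul_assoc]
    exact mul_le_mul_of_nonneg_right (hp t y) (mul_nonneg (Real.exp_pos _).le (hw0 y))
  have r1 := ratio p1 _ m1 b1
  have r2 := ratio p2 _ m2 b2
  have r3 := ratio p3 _ m3 b3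
  have G1 : ∀ t, HasDerivAt (fun t => Real.log (N0 t)) (N1 t / N0 t) t :=
    fun t => (D0 t).log (N0pos t).ne'
  have G2 : ∀ t, HasDerivAt (fun t => N1 t / N0 t) (N2 t / N0 t - (N1 t / N0 t) ^ 2) t := by
    intro t
    refine ((D1 t).div (D0 t) (N0pos t).ne').congr_deriv ?_
    have := (N0pos t).ne'
    field_simp
  have G3 : ∀ t, HasDerivAt (fun t => N2 t / N0 t - (N1 t / N0 t) ^ 2)
      (N3 t / N0 t - 3 * (N1 t / N0 t) * (N2 t / N0 t) + 2 * (N1 t / N0 t) ^ 3) t := by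
    intro t
    have e1 := (D2 t).div (D0 t) (N0pos t).ne'
    have e2 := (G2 t).pow 2
    refine (e1.sub e2).congr_deriv ?_
    have := (N0pos t).ne'
    simp
    field_simp
    ring
  have hM : ∀ t, |N3 t / N0 t - 3 * (N1 t / N0 t) * (N2 t / N0 t) + 2 * (N1 t / N0 t) ^ 3|
      ≤ (K3 + 6 * K1 * K2 + 6 * K1 ^ 3) * δ ^ 3 := by
    intro t
    have a1 : |3 * (N1 t / N0 t) * (N2 t / N0 t)| ≤ 3 * (δ * K1) * (δ ^ 2 * (K2 + K1 ^ 2)) := by
      rw [abs_mul, abs_mul, abs_of_pos (by norm_num : (0:ℝ) < 3)]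
      exact mul_le_mul (mul_le_mul_of_nonneg_left (r1 t) (by norm_num)) (r2 t)
          (abs_nonneg _) (by positivity)
    have a2 : |2 * (N1 t / N0 t) ^ 3| ≤ 2 * (δ * K1) ^ 3 := by
      rw [abs_mul, abs_pow, abs_of_pos (by norm_num : (0:ℝ) < 2)]
      exact mul_le_mul_of_nonneg_left (pow_le_pow_left₀ (abs_nonneg _) (r1 t) 3) (by norm_num)
    calc _ ≤ |N3 t / N0 t - 3 * (N1 t / N0 t) * (N2 t / N0 t)| + |2 * (N1 t / N0 t) ^ 3| := abs_add_le _ _
      _ ≤ (|N3 t / N0 t| + |3 * (N1 t / N0 t) * (N2 t / N0 t)|) + |2 * (N1 t / N0 t) ^ 3| := by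
        gcongr; exact abs_sub _ _
      _ ≤ (δ ^ 3 * (K3 + 3 * K1 * K2 + K1 ^ 3) + 3 * (δ * K1) * (δ ^ 2 * (K2 + K1 ^ 2)))
          + 2 * (δ * K1) ^ 3 := add_le_add (add_le_add (r3 t) a1) a2
      _ = (K3 + 6 * K1 * K2 + 6 * K1 ^ 3) * δ ^ 3 := by ring
  exact ⟨_, _, _, taylor3 G1 G2 G3 hM⟩

end logint

end Crest.Agent.R146L878
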