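import Mathlib
import Crest.Agent.R146.Lind2_878

/-!
Row 146, node (F): Lindeberg comparison of `E log ∫ exp (∑ₐ ψₐ (⟨Aₐ, y⟩)) dρ(y)` for two laws of the
entries of `A` with the same first two moments, row dependent potentials `ψₐ`.
-/

set_option autoImplicit false

open MeasureTheory Set

namespace Crest.Agent.R146L878

variable {Y : Type*} [MeasurableSpace Y] {R C : Type*} [Fintype R] [Fintype C]

/-- the exponent -/
noncomputable def expo (ψ : R → ℝ → ℝ) (v : Y → C → ℝ) (A : R × C → ℝ) (y : Y) : ℝ :=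
  ∑ a, ψ a (∑ i, A (a, i) * v y i)

/-- the log partition function -/
noncomputable def logZ (ρ : Measure Y) (ψ : R → ℝ → ℝ) (v : Y → C → ℝ) (A : R × C → ℝ) : ℝ :=
  Real.log (∫ y, Real.exp (expo ψ v A y) ∂ρ)

theorem measurable_expo {ψ : R → ℝ → ℝ} (hψ : ∀ a, Measurable (ψ a)) {v : Y → C → ℝ}
    (hv : Measurable v) : Measurable (fun p : (R × C → ℝ) × Y => expo ψ v p.1 p.2) := by
  unfold expo
  refine Finset.measurable_sum _ fun a _ => (hψ a).comp (Finset.measurable_sum _ fun i _ => ?_)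
  exact ((measurable_pi_apply (a, i)).comp measurable_fst).mul
    ((measurable_pi_apply i).comp (hv.comp measurable_snd))

theorem measurable_logZ (ρ : Measure Y) [IsFiniteMeasure ρ] {ψ : R → ℝ → ℝ}
    (hψ : ∀ a, Measurable (ψ a)) {v : Y → C → ℝ} (hv : Measurable v) :
    Measurable (logZ ρ ψ v) := by
  unfold logZ
  refine Real.measurable_log.comp ?_
  have h : StronglyMeasurable (Function.uncurry fun (A : R × C → ℝ) (y : Y) =>
      Real.exp (expo ψ v A y)) := (Real.measurable_exp.comp (measurable_expo hψ hv)).stronglyMeasurable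
  exact (h.integral_prod_right (ν := ρ)).measurable

/-- linear growth of `logZ` for Lipschitz potentials -/
theorem logZ_growth (ρ : Measure Y) [IsFiniteMeasure ρ] (hρ : 0 < ρ.real univ) {ψ : R → ℝ → ℝ}
    (hψ : ∀ a, Measurable (ψ a)) {v : Y → C → ℝ} (hv : Measurable v) {K1 δ : ℝ} (hδ : 0 ≤ δ)
    (hK1 : 0 ≤ K1) (hL : ∀ a x x', |ψ a x - ψ a x'| ≤ K1 * |x - x'|)
    (hvδ : ∀ y i, |v y i| ≤ δ) (A : R × C → ℝ) :
    |logZ ρ ψ v A| ≤ (∑ a, |ψ a 0| + |Real.log (ρ.real univ)| + K1 * δ) * (1 + ∑ p, |A p|) := by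
  have hne : ρ ≠ 0 := by
    rintro rfl; simp at hρ
  set B := ∑ a, |ψ a 0| + K1 * δ * ∑ p, |A p| with hB
  have hexp : ∀ y, |expo ψ v A y| ≤ B := by
    intro y
    unfold expo
    refine (Finset.abs_sum_le_sum_abs _ _).trans ?_
    have e : ∀ a, |ψ a (∑ i, A (a, i) * v y i)| ≤ |ψ a 0| + K1 * δ * ∑ i, |A (a, i)| := by
      intro a
      have h1 := hL a (∑ i, A (a, i) * v y i) 0
      have h2 : |∑ i, A (a, i) * v y i| ≤ δ * ∑ i, |A (a, i)| := by
        refine (Finset.abs_sum_le_sum_abs _ _).trans ?_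
        rw [Finset.mul_sum]
        refine Finset.sum_le_sum fun i _ => ?_
        rw [abs_mul, mul_comm]
        exact mul_le_mul_of_nonneg_right (hvδ y i) (abs_nonneg _)
      have h3 : |ψ a (∑ i, A (a, i) * v y i)| ≤ |ψ a 0| + K1 * |∑ i, A (a, i) * v y i| := by
        have := abs_sub_abs_le_abs_sub (ψ a (∑ i, A (a, i) * v y i)) (ψ a 0)
        rw [sub_zero] at h1
        linarith
      have h4 := mul_le_mul_of_nonneg_left h2 hK1
      linarith
    refine (Finset.sum_le_sum fun a _ => e a).trans ?_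
    rw [Finset.sum_add_distrib, ← Finset.mul_sum, hB, Fintype.sum_prod_type]
  have hint : Integrable (fun y => Real.exp (expo ψ v A y)) ρ := by
    refine Integrable.of_bound ?_ (Real.exp B) ?_
    · exact (Real.measurable_exp.comp ((measurable_expo hψ hv).comp
        (measurable_const.prodMk measurable_id))).aestronglyMeasurable
    · exact Filter.Eventually.of_forall fun y => by
        rw [Real.norm_eq_abs, abs_of_pos (Real.exp_pos _)]
        exact Real.exp_le_exp.2 ((le_abs_self _).trans (hexp y))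
  have hup : ∫ y, Real.exp (expo ψ v A y) ∂ρ ≤ Real.exp B * ρ.real univ := by
    calc _ ≤ ∫ _y, Real.exp B ∂ρ := integral_mono hint (integrable_const _) fun y =>
          Real.exp_le_exp.2 ((le_abs_self _).trans (hexp y))
      _ = _ := by simp [mul_comm]
  have hlo : Real.exp (-B) * ρ.real univ ≤ ∫ y, Real.exp (expo ψ v A y) ∂ρ := by
    calc _ = ∫ _y, Real.exp (-B) ∂ρ := by simp [mul_comm]
      _ ≤ _ := integral_mono (integrable_const _) hint fun y =>
          Real.exp_le_exp.2 (abs_le.1 (hexp y)).1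
  have hpos : 0 < ∫ y, Real.exp (expo ψ v A y) ∂ρ :=
    lt_of_lt_of_le (mul_pos (Real.exp_pos _) hρ) hlo
  have l1 : logZ ρ ψ v A ≤ B + Real.log (ρ.real univ) := by
    unfold logZ
    have := Real.log_le_log hpos hup
    rwa [Real.log_mul (Real.exp_pos _).ne' hρ.ne', Real.log_exp] at this
  have l2 : -B + Real.log (ρ.real univ) ≤ logZ ρ ψ v A := by
    unfold logZ
    have := Real.log_le_log (mul_pos (Real.exp_pos _) hρ) hlo
    rwa [Real.log_mul (Real.exp_pos _).ne' hρ.ne', Real.log_exp] at this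
  have l3 : |logZ ρ ψ v A| ≤ B + |Real.log (ρ.real univ)| := by
    rw [abs_le]
    constructor
    · have := neg_abs_le (Real.log (ρ.real univ)); linarith
    · have := le_abs_self (Real.log (ρ.real univ)); linarith
  refine l3.trans ?_
  have hS : 0 ≤ ∑ p, |A p| := Finset.sum_nonneg fun _ _ => abs_nonneg _
  have hP : 0 ≤ ∑ a, |ψ a 0| := Finset.sum_nonneg fun _ _ => abs_nonneg _
  have h0 : 0 ≤ K1 * δ := mul_nonneg hK1 hδ
  have h1 := mul_nonneg hP hS
  have h2 := mul_nonneg (abs_nonneg (Real.log (ρ.real univ))) hS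
  rw [hB]
  nlinarith

theorem C3b.lip {f f1 f2 f3 : ℝ → ℝ} {K0 K1 K2 K3 : ℝ} (h : C3b f f1 f2 f3 K0 K1 K2 K3)
    (x x' : ℝ) : |f x - f x'| ≤ K1 * |x - x'| := by
  have := Convex.norm_image_sub_le_of_norm_hasDerivWithin_le (f := f) (f' := f1) (C := K1)
    (s := Set.univ) (fun x _ => (h.d1 x).hasDerivWithinAt) (fun x _ => by
      rw [Real.norm_eq_abs]; exact h.b1 x) convex_univ (Set.mem_univ x') (Set.mem_univ x)
  simpa [Real.norm_eq_abs] using this

variable [DecidableEq R] [DecidableEq C]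

/-- the one-entry Taylor bound of `logZ` -/
theorem logZ_taylor (ρ : Measure Y) [IsFiniteMeasure ρ] (hρ : 0 < ρ.real univ)
    {ψ ψ1 ψ2 ψ3 : R → ℝ → ℝ} {K0 K1 K2 K3 : ℝ}
    (h : ∀ a, C3b (ψ a) (ψ1 a) (ψ2 a) (ψ3 a) K0 K1 K2 K3)
    {v : Y → C → ℝ} (hv : Measurable v) {δ : ℝ} (hvδ : ∀ y i, |v y i| ≤ δ)
    (p : R × C) (x : R × C → ℝ) :
    ∃ a b c : ℝ, ∀ t, |logZ ρ ψ v (Function.update x p t) - (c + a * t + b * t ^ 2)|
      ≤ ((K3 + 6 * K1 * K2 + 6 * K1 ^ 3) * δ ^ 3) * |t| ^ 3 := by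
  obtain ⟨a, i⟩ := p
  have hψm : ∀ b, Measurable (ψ b) := fun b => (h b).c0.measurable
  set w : Y → ℝ := fun y => Real.exp (∑ b ∈ Finset.univ.erase a, ψ b (∑ j, x (b, j) * v y j)) with hw
  set c : Y → ℝ := fun y => ∑ j ∈ Finset.univ.erase i, x (a, j) * v y j with hc
  have hwm : Measurable w := by
    refine Real.measurable_exp.comp (Finset.measurable_sum _ fun b _ =>
      (hψm b).comp (Finset.measurable_sum _ fun j _ => ?_))
    exact ((measurable_pi_apply j).comp hv).const_mul _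
  have hcm : Measurable c := Finset.measurable_sum _ fun j _ =>
    ((measurable_pi_apply j).comp hv).const_mul _
  have hwi : Integrable w ρ := by
    refine Integrable.of_bound hwm.aestronglyMeasurable
      (Real.exp (∑ b ∈ (Finset.univ.erase a : Finset R), K0)) ?_
    refine Filter.Eventually.of_forall fun y => ?_
    rw [Real.norm_eq_abs, hw]
    simp only
    rw [abs_of_pos (Real.exp_pos _)]
    exact Real.exp_le_exp.2 (Finset.sum_le_sum fun b _ => (h b).b0 _)
  have hwpos : 0 < ∫ y, w y ∂ρ := by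
    rw [integral_pos_iff_support_of_nonneg (fun y => (Real.exp_pos _).le) hwi]
    have : Function.support w = univ := by
      ext y; simp [hw, Real.exp_ne_zero]
    rw [this]
    refine pos_iff_ne_zero.2 fun h0 => ?_
    simp [Measure.real, h0] at hρ
  obtain ⟨a', b', c', H⟩ := logInt_taylor ρ (h a) hcm ((measurable_pi_apply i).comp hv) hwi
    (fun y => (Real.exp_pos _).le) hwpos (δ := δ) (fun y => hvδ y i)
  refine ⟨a', b', c', fun t => ?_⟩
  have key : logZ ρ ψ v (Function.update x (a, i) t)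
      = Real.log (∫ y, Real.exp (ψ a (c y + t * v y i)) * w y ∂ρ) := by
    unfold logZ
    congr 1
    refine integral_congr_ae (Filter.Eventually.of_forall fun y => ?_)
    simp only [hw]
    rw [← Real.exp_add]
    congr 1
    unfold expo
    rw [← Finset.add_sum_erase Finset.univ _ (Finset.mem_univ a)]
    congr 1
    · congr 1
      rw [← Finset.add_sum_erase Finset.univ _ (Finset.mem_univ i), Function.update_self, add_comm, hc]
      congr 1
      refine Finset.sum_congr rfl fun j hj => ?_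
      have : (a, j) ≠ (a, i) := by
        intro h; exact (Finset.ne_of_mem_erase hj) (Prod.mk.inj h).2
      rw [Function.update_of_ne this]
    · refine Finset.sum_congr rfl fun b hb => ?_
      congr 1
      refine Finset.sum_congr rfl fun j _ => ?_
      have : (b, j) ≠ (a, i) := by
        intro h; exact (Finset.ne_of_mem_erase hb) (Prod.mk.inj h).1
      rw [Function.update_of_ne this]
  rw [key]
  exact H t

/-- **Lindeberg for the log partition function** (row dependent `C³` potentials, bounded above,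
with bounded first three derivatives; configuration coordinates bounded by `δ`). -/
theorem lindeberg_logZ (ρ : Measure Y) [IsFiniteMeasure ρ] (hρ : 0 < ρ.real univ)
    {ψ ψ1 ψ2 ψ3 : R → ℝ → ℝ} {K0 K1 K2 K3 : ℝ}
    (h : ∀ a, C3b (ψ a) (ψ1 a) (ψ2 a) (ψ3 a) K0 K1 K2 K3)
    {v : Y → C → ℝ} (hv : Measurable v) {δ : ℝ} (hvδ : ∀ y i, |v y i| ≤ δ)
    {μ ν : Measure ℝ} [IsProbabilityMeasure μ] [IsProbabilityMeasure ν]
    (hμ1 : Integrable (fun t : ℝ => t) μ) (hν1 : Integrable (fun t : ℝ => t) ν)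
    (hμ2 : Integrable (fun t : ℝ => t ^ 2) μ) (hν2 : Integrable (fun t : ℝ => t ^ 2) ν)
    (hμ3 : Integrable (fun t : ℝ => |t| ^ 3) μ) (hν3 : Integrable (fun t : ℝ => |t| ^ 3) ν)
    (h1 : ∫ t, t ∂μ = ∫ t, t ∂ν) (h2 : ∫ t, t ^ 2 ∂μ = ∫ t, t ^ 2 ∂ν) :
    |∫ A, logZ ρ ψ v A ∂(Measure.pi fun _ : R × C => μ)
        - ∫ A, logZ ρ ψ v A ∂(Measure.pi fun _ : R × C => ν)|
      ≤ (Fintype.card R * Fintype.card C) * ((K3 + 6 * K1 * K2 + 6 * K1 ^ 3) * δ ^ 3)
        * (∫ t, |t| ^ 3 ∂μ + ∫ t, |t| ^ 3 ∂ν) := by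
  by_cases hR : Nonempty R
  swap
  · rw [not_nonempty_iff] at hR
    have e : ∀ A : R × C → ℝ, logZ ρ ψ v A = logZ ρ ψ v 0 := by
      intro A; congr 1; funext p; exact (hR.false p.1).elim
    simp only [e]
    simp
  by_cases hC : Nonempty C
  swap
  · rw [not_nonempty_iff] at hC
    have e : ∀ A : R × C → ℝ, logZ ρ ψ v A = logZ ρ ψ v 0 := by
      intro A; congr 1; funext p; exact (hC.false p.2).elim
    simp only [e]
    simp
  obtain ⟨a0⟩ := hR
  obtain ⟨i0⟩ := hC
  have hYne : Nonempty Y := by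
    by_contra hY
    rw [not_nonempty_iff] at hY
    have : ρ = 0 := Measure.eq_zero_of_isEmpty ρ
    simp [this] at hρ
  obtain ⟨y0⟩ := hYne
  have hδ0 : 0 ≤ δ := (abs_nonneg _).trans (hvδ y0 i0)
  have hK1 : 0 ≤ K1 := (abs_nonneg _).trans ((h a0).b1 0)
  have hψm : ∀ b, Measurable (ψ b) := fun b => (h b).c0.measurable
  have := lindeberg hμ1 hν1 hμ2 hν2 hμ3 hν3 h1 h2 (logZ ρ ψ v) (measurable_logZ ρ hψm hv) _
    (logZ_growth ρ hρ hψm hv hδ0 hK1 (fun a => (h a).lip) hvδ)
    (fun _ => (K3 + 6 * K1 * K2 + 6 * K1 ^ 3) * δ ^ 3)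
    (fun p x => logZ_taylor ρ hρ h hv hvδ p x)
  simpa [Finset.sum_const, Finset.card_univ, Fintype.card_prod] using this

end Crest.Agent.R146L878
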