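import Mathlib
import Crest.Prelude.Def_Perceptron
import Crest.Agent.R146.Lind3_878

/-!
Row 146, node (F3): `mixtureLaw ε` has mean `0`, variance `1` and a third absolute moment;
Lindeberg comparison of the mixture and the Gaussian pattern laws.
-/

set_option autoImplicit false

open MeasureTheory Set ProbabilityTheory
open Crest.ProbabilityR.Perceptron

namespace Crest.Agent.R146L878

theorem gauss_int1 (v : NNReal) : Integrable (fun t : ℝ => t) (gaussianReal 0 v) := by
  have := (memLp_id_gaussianReal (μ := 0) (v := v) 1).integrable (by norm_num)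
  exact this

theorem gauss_int2 (v : NNReal) : Integrable (fun t : ℝ => t ^ 2) (gaussianReal 0 v) := by
  have := (memLp_id_gaussianReal (μ := 0) (v := v) 2).integrable_sq
  simpa using this

theorem gauss_int3 (v : NNReal) : Integrable (fun t : ℝ => |t| ^ 3) (gaussianReal 0 v) := by
  have := (memLp_id_gaussianReal (μ := 0) (v := v) 3).integrable_norm_pow (by norm_num)
  simpa [Real.norm_eq_abs] using this

theorem gauss_int4 (v : NNReal) : Integrable (fun t : ℝ => t ^ 4) (gaussianReal 0 v) := by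
  have := (memLp_id_gaussianReal (μ := 0) (v := v) 4).integrable_norm_pow (by norm_num)
  have e : (fun t : ℝ => t ^ 4) = fun t : ℝ => ‖id t‖ ^ (4 : ℕ) := by
    funext t
    simp only [id, Real.norm_eq_abs]
    have : |t| ^ 4 = (|t| ^ 2) ^ 2 := by ring
    rw [this, sq_abs]; ring
  rw [e]
  exact_mod_cast this

theorem gauss_mean (v : NNReal) : ∫ t, t ∂(gaussianReal 0 v) = 0 := integral_id_gaussianReal

theorem gauss_var (v : NNReal) : ∫ t, t ^ 2 ∂(gaussianReal 0 v) = v := by
  have h := variance_fun_id_gaussianReal (μ := 0) (v := v)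
  rw [variance_of_integral_eq_zero (by fun_prop) (gauss_mean v)] at h
  simpa using h

theorem isProb_mixtureLaw (ε : ℝ) : IsProbabilityMeasure (mixtureLaw ε) := by
  constructor
  unfold mixtureLaw
  simp only [Measure.add_apply, Measure.smul_apply, measure_univ]
  have h2 : (2⁻¹ : NNReal) • (1 : ENNReal) = 2⁻¹ := by
    rw [ENNReal.smul_def, smul_eq_mul, mul_one]
    rw [ENNReal.coe_inv (by norm_num)]; norm_num
  rw [h2, ENNReal.inv_two_add_inv_two]

instance (ε : ℝ) : IsProbabilityMeasure (mixtureLaw ε) := isProb_mixtureLaw ε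

theorem mix_integrable {ε : ℝ} {f : ℝ → ℝ} (h : ∀ v, Integrable f (gaussianReal 0 v)) :
    Integrable f (mixtureLaw ε) := by
  unfold mixtureLaw
  refine Integrable.add_measure ?_ ?_
  · exact (h _).smul_measure_nnreal
  · exact (h _).smul_measure_nnreal

theorem mix_integral {ε : ℝ} {f : ℝ → ℝ} (h : ∀ v, Integrable f (gaussianReal 0 v)) :
    ∫ t, f t ∂(mixtureLaw ε) = (∫ t, f t ∂(gaussianReal 0 (Real.toNNReal (1 - ε)))
      + ∫ t, f t ∂(gaussianReal 0 (Real.toNNReal (1 + ε)))) / 2 := by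
  unfold mixtureLaw
  rw [integral_add_measure (h _).smul_measure_nnreal (h _).smul_measure_nnreal,
    integral_smul_nnreal_measure, integral_smul_nnreal_measure]
  simp only [NNReal.smul_def, smul_eq_mul, NNReal.coe_inv, NNReal.coe_ofNat]
  ring

theorem mix_mean (ε : ℝ) : ∫ t, t ∂(mixtureLaw ε) = 0 := by
  rw [mix_integral gauss_int1, gauss_mean, gauss_mean]; norm_num

theorem mix_var {ε : ℝ} (h0 : 0 ≤ ε) (h1 : ε < 1) : ∫ t, t ^ 2 ∂(mixtureLaw ε) = 1 := by
  rw [mix_integral gauss_int2, gauss_var, gauss_var, Real.coe_toNNReal _ (by linarith),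
    Real.coe_toNNReal _ (by linarith)]
  norm_num

/-- the constant of the Lindeberg comparison -/
noncomputable def T3 (ε : ℝ) : ℝ := ∫ t, |t| ^ 3 ∂(mixtureLaw ε) + ∫ t, |t| ^ 3 ∂(gaussianReal 0 1)

theorem T3_nonneg (ε : ℝ) : 0 ≤ T3 ε :=
  add_nonneg (integral_nonneg fun _ => by positivity) (integral_nonneg fun _ => by positivity)

/-- **Lindeberg, mixture versus Gaussian** -/
theorem lindeberg_mix {Y : Type*} [MeasurableSpace Y] {M N : ℕ} {ε : ℝ} (h0 : 0 ≤ ε) (h1 : ε < 1)
    (ρ : Measure Y) [IsFiniteMeasure ρ] (hρ : 0 < ρ.real univ)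
    {ψ ψ1 ψ2 ψ3 : Fin M → ℝ → ℝ} {K0 K1 K2 K3 : ℝ}
    (h : ∀ a, C3b (ψ a) (ψ1 a) (ψ2 a) (ψ3 a) K0 K1 K2 K3)
    {v : Y → Fin N → ℝ} (hv : Measurable v) {δ : ℝ} (hvδ : ∀ y i, |v y i| ≤ δ) :
    |∫ A, logZ ρ ψ v A ∂(Measure.pi fun _ : Fin M × Fin N => mixtureLaw ε)
        - ∫ A, logZ ρ ψ v A ∂(Measure.pi fun _ : Fin M × Fin N => gaussianReal 0 1)|
      ≤ (M * N) * ((K3 + 6 * K1 * K2 + 6 * K1 ^ 3) * δ ^ 3) * T3 ε := by
  have := lindeberg_logZ ρ hρ h hv hvδ (mix_integrable (ε := ε) gauss_int1) (gauss_int1 1)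
    (mix_integrable gauss_int2) (gauss_int2 1) (mix_integrable gauss_int3) (gauss_int3 1)
    (by rw [mix_mean, gauss_mean]) (by rw [mix_var h0 h1, gauss_var]; norm_num)
  simpa [T3] using this

end Crest.Agent.R146L878
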