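import Mathlib
import Crest.Agent.R146.Deloc1_878

/-!
Row 146, node (F4b): sup-norm tail of the uniform law of the sphere:
`σ(∃ i, |y_i| > δ) / σ(S) ≤ C · N / (N^8 δ^16)` with `C = ∫ t^16 dN(0,1)`.
-/

set_option autoImplicit false

open MeasureTheory Set ProbabilityTheory
open Crest.ProbabilityR.Perceptron
open Crest.Agent.R070.RotInv260

namespace Crest.Agent.R146L878

variable {N : ℕ}

/-- sixteenth Gaussian moment -/
noncomputable def C16 : ℝ := ∫ t : ℝ, t ^ 16 ∂(gaussianReal 0 1)

theorem gauss_int_pow (n : ℕ) : Integrable (fun t : ℝ => t ^ n) (gaussianReal 0 1) := by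
  have h : Integrable (fun t : ℝ => ‖id t‖ ^ n) (gaussianReal 0 1) := by
    rcases Nat.eq_zero_or_pos n with h | h
    · subst h; simp
    · have := (memLp_id_gaussianReal (μ := 0) (v := 1) n).integrable_norm_pow (by omega)
      exact this
  refine Integrable.mono' h (by fun_prop) (Filter.Eventually.of_forall fun t => ?_)
  simp [abs_pow]

/-- the row of a one-row array -/
noncomputable def rw1 (A : Unit × Fin N → ℝ) (y : UnitSphere N) : ℝ := ∑ i, A ((), i) * sv y i

theorem rw1_rowMap (T : EN N ≃ₗᵢ[ℝ] EN N) (A : Unit × Fin N → ℝ) (y : UnitSphere N) :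
    rw1 (rowMap T A) (sphMap T y) = rw1 A y := rowMap_inner T A y ()

theorem measurable_rw1 : Measurable (fun p : (Unit × Fin N → ℝ) × UnitSphere N => rw1 p.1 p.2) := by
  unfold rw1
  refine Finset.measurable_sum _ fun i _ => ?_
  exact ((measurable_pi_apply ((), i)).comp measurable_fst).mul
    ((measurable_pi_apply i).comp (measurable_sv.comp measurable_snd))

/-- squared norm of the row -/
noncomputable def nsq (A : Unit × Fin N → ℝ) : ℝ := ∑ i, A ((), i) ^ 2

theorem nsq_nonneg (A : Unit × Fin N → ℝ) : 0 ≤ nsq A := Finset.sum_nonneg fun _ _ => sq_nonneg _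

theorem sum_sv_sq (y : UnitSphere N) : ∑ i, sv y i ^ 2 = 1 := by
  have h := norm_eq_of_mem_sphere y
  have h2 : ‖(y : EN N)‖ ^ 2 = 1 := by rw [h]; norm_num
  rw [EuclideanSpace.norm_sq_eq] at h2
  simpa [sv] using h2

theorem rw1_sq_le (A : Unit × Fin N → ℝ) (y : UnitSphere N) : rw1 A y ^ 2 ≤ nsq A := by
  have := Finset.sum_mul_sq_le_sq_mul_sq Finset.univ (fun i => A ((), i)) (sv y)
  rw [sum_sv_sq, mul_one] at this
  exact this

/-- unit coordinate vector -/
noncomputable def ev (i : Fin N) : UnitSphere N :=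
  ⟨EuclideanSpace.single i 1, by simp⟩

theorem sv_ev (i j : Fin N) : sv (ev i) j = if j = i then 1 else 0 := by
  simp [sv, ev]

theorem rw1_ev (A : Unit × Fin N → ℝ) (i : Fin N) : rw1 A (ev i) = A ((), i) := by
  simp [rw1, sv_ev]

/-- averaging the row over the sphere -/
theorem sphere_avg (A : Unit × Fin N → ℝ) (i : Fin N) :
    ∫ y, rw1 A y ^ 16 ∂(sphereLaw N) = nsq A ^ 8 * ∫ y, sv y i ^ 16 ∂(sphereLaw N) := by
  by_cases h0 : nsq A = 0
  · have : ∀ y, rw1 A y = 0 := by
      intro y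
      have := rw1_sq_le A y
      rw [h0] at this
      exact pow_eq_zero_iff (two_ne_zero) |>.1 (le_antisymm this (sq_nonneg _))
    simp [this, h0]
  · have hpos : 0 < nsq A := lt_of_le_of_ne (nsq_nonneg A) (Ne.symm h0)
    set r := Real.sqrt (nsq A) with hr
    have hr0 : 0 < r := Real.sqrt_pos.2 hpos
    have hr2 : r ^ 2 = nsq A := Real.sq_sqrt hpos.le
    set x : EN N := WithLp.toLp 2 fun j => A ((), j) with hx
    have hxn : ‖x‖ ^ 2 = nsq A := by
      rw [EuclideanSpace.norm_sq_eq]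
      simp [hx, nsq]
    have hxr : ‖x‖ = r := by
      rw [hr, ← hxn, Real.sqrt_sq (norm_nonneg _)]
    let u : UnitSphere N := ⟨r⁻¹ • x, by
      rw [mem_sphere_zero_iff_norm, norm_smul, hxr, Real.norm_eq_abs, abs_of_pos (inv_pos.2 hr0)]
      exact inv_mul_cancel₀ hr0.ne'⟩
    obtain ⟨T, hT⟩ := exists_iso (ev i) u
    have hkey : ∀ y, rw1 A (sphMap T y) = r * sv y i := by
      intro y
      have h1 : rw1 A (sphMap T y) = inner ℝ x (T (y : EN N)) := by
        simp only [PiLp.inner_apply, rw1]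
        refine Finset.sum_congr rfl fun j _ => ?_
        simp [hx, sv, mul_comm]
      have h2 : x = r • (T (EuclideanSpace.single i (1 : ℝ)) : EN N) := by
        have : (T (EuclideanSpace.single i (1 : ℝ)) : EN N) = r⁻¹ • x := by
          have := congrArg Subtype.val hT
          exact this
        rw [this, smul_smul, mul_inv_cancel₀ hr0.ne', one_smul]
      rw [h1, h2, real_inner_smul_left, T.inner_map_map]
      congr 1
      rw [EuclideanSpace.inner_single_left]
      simp [sv]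
    have hi := integral_sphMap (E := EN N) T (fun y => rw1 A y ^ 16)
    have e1 : ∫ y, rw1 A y ^ 16 ∂(sphereLaw N) = ∫ y, (r * sv y i) ^ 16 ∂(sphereLaw N) := by
      simp only [hkey] at hi
      exact hi.symm
    rw [e1]
    have e2 : ∀ y : UnitSphere N, (r * sv y i) ^ 16 = nsq A ^ 8 * sv y i ^ 16 := by
      intro y
      rw [mul_pow, ← hr2]; ring
    simp only [e2]
    exact integral_const_mul _ _

/-- averaging the row over the Gaussian law -/
theorem gauss_avg (y : UnitSphere N) (i : Fin N) :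
    ∫ A, rw1 A y ^ 16 ∂(gaussPi Unit N) = C16 := by
  obtain ⟨T, hT⟩ := exists_iso (ev i) y
  have hm : Measurable fun A : Unit × Fin N → ℝ => rw1 A y ^ 16 := by
    have : Measurable fun A : Unit × Fin N → ℝ => rw1 A y :=
      measurable_rw1.comp (measurable_id.prodMk measurable_const)
    exact this.pow_const 16
  have h1 := integral_rowMap T _ hm
  have h2 : ∀ A : Unit × Fin N → ℝ, rw1 (rowMap T A) y ^ 16 = A ((), i) ^ 16 := by
    intro A
    rw [← hT, rw1_rowMap, rw1_ev]
  simp only [h2] at h1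
  rw [← h1]
  exact integral_comp_eval (μ := fun _ : Unit × Fin N => gaussianReal 0 1) (i := ((), i))
    (f := fun t : ℝ => t ^ 16) (by fun_prop)

theorem nsq_pow_le (A : Unit × Fin N → ℝ) : nsq A ^ 8 ≤ (N : ℝ) ^ 7 * ∑ i, A ((), i) ^ 16 := by
  have := pow_sum_le_card_mul_sum_pow (s := Finset.univ) (f := fun i => A ((), i) ^ 2)
    (fun i _ => sq_nonneg _) 7
  simp only [Finset.card_univ, Fintype.card_fin, ← pow_mul] at this
  exact this

theorem integrable_coord_pow (i : Fin N) (n : ℕ) :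
    Integrable (fun A : Unit × Fin N → ℝ => A ((), i) ^ n) (gaussPi Unit N) :=
  (measurePreserving_eval (fun _ : Unit × Fin N => gaussianReal 0 1) ((), i)).integrable_comp_of_integrable
    (gauss_int_pow n)

theorem measurable_nsq : Measurable (nsq (N := N)) := by
  unfold nsq
  exact Finset.measurable_sum _ fun i _ => (measurable_pi_apply ((), i)).pow_const 2

theorem integrable_nsq8 : Integrable (fun A : Unit × Fin N → ℝ => nsq A ^ 8) (gaussPi Unit N) := by
  refine Integrable.mono' ((integrable_finsetSum Finset.univ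
    fun i _ => integrable_coord_pow (N := N) i 16).const_mul ((N : ℝ) ^ 7))
    (measurable_nsq.pow_const 8).aestronglyMeasurable (Filter.Eventually.of_forall fun A => ?_)
  rw [Real.norm_eq_abs, abs_of_nonneg (pow_nonneg (nsq_nonneg A) 8)]
  exact nsq_pow_le A

theorem integrable_nsq : Integrable (fun A : Unit × Fin N → ℝ => nsq A) (gaussPi Unit N) := by
  unfold nsq
  exact integrable_finsetSum _ fun i _ => integrable_coord_pow i 2

theorem integral_nsq : ∫ A, nsq A ∂(gaussPi Unit N) = N := by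
  unfold nsq
  rw [integral_finsetSum _ fun i _ => integrable_coord_pow i 2]
  have : ∀ i : Fin N, ∫ A : Unit × Fin N → ℝ, A ((), i) ^ 2 ∂(gaussPi Unit N) = 1 := by
    intro i
    have := integral_comp_eval (μ := fun _ : Unit × Fin N => gaussianReal 0 1) (i := ((), i))
      (f := fun t : ℝ => t ^ 2) (by fun_prop)
    rw [gauss_var] at this
    simpa using this
  simp [this]

theorem nsq8_lower : (N : ℝ) ^ 8 ≤ ∫ A, nsq A ^ 8 ∂(gaussPi Unit N) := by
  have h : ∀ A : Unit × Fin N → ℝ, (N : ℝ) ^ 8 + 8 * (N : ℝ) ^ 7 * (nsq A - N) ≤ nsq A ^ 8 := by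
    intro A
    have hx := nsq_nonneg A
    have hN : (0 : ℝ) ≤ (N : ℝ) := Nat.cast_nonneg N
    generalize nsq A = x at *
    generalize (N : ℝ) = n at *
    nlinarith [mul_nonneg (pow_nonneg hx 6) (sq_nonneg (x - n)),
      mul_nonneg (mul_nonneg (pow_nonneg hx 5) hN) (sq_nonneg (x - n)),
      mul_nonneg (mul_nonneg (pow_nonneg hx 4) (pow_nonneg hN 2)) (sq_nonneg (x - n)),
      mul_nonneg (mul_nonneg (pow_nonneg hx 3) (pow_nonneg hN 3)) (sq_nonneg (x - n)),
      mul_nonneg (mul_nonneg (pow_nonneg hx 2) (pow_nonneg hN 4)) (sq_nonneg (x - n)),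
      mul_nonneg (mul_nonneg (pow_nonneg hx 1) (pow_nonneg hN 5)) (sq_nonneg (x - n)),
      mul_nonneg (pow_nonneg hN 6) (sq_nonneg (x - n))]
  have hi1 : Integrable (fun A : Unit × Fin N → ℝ => (N : ℝ) ^ 8 + 8 * (N : ℝ) ^ 7 * (nsq A - N))
      (gaussPi Unit N) := by
    exact (integrable_const _).add ((integrable_nsq.sub (integrable_const _)).const_mul _)
  have h1 := integral_mono hi1 integrable_nsq8 h
  have h2 : ∫ A : Unit × Fin N → ℝ, ((N : ℝ) ^ 8 + 8 * (N : ℝ) ^ 7 * (nsq A - N)) ∂(gaussPi Unit N)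
      = (N : ℝ) ^ 8 := by
    have hs : Integrable (fun A : Unit × Fin N → ℝ => nsq A - (N : ℝ)) (gaussPi Unit N) :=
      integrable_nsq.sub (integrable_const _)
    have e1 := integral_add (μ := gaussPi Unit N)
      (f := fun _ : Unit × Fin N → ℝ => (N : ℝ) ^ 8)
      (g := fun A : Unit × Fin N → ℝ => 8 * (N : ℝ) ^ 7 * (nsq A - N))
      (integrable_const _) (hs.const_mul _)
    have e2 : ∫ A : Unit × Fin N → ℝ, (nsq A - (N : ℝ)) ∂(gaussPi Unit N) = 0 := by
      have := integral_sub (μ := gaussPi Unit N) (f := fun A : Unit × Fin N → ℝ => nsq A)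
        (g := fun _ => (N : ℝ)) integrable_nsq (integrable_const _)
      rw [this, integral_nsq]; simp
    rw [e1, integral_const_mul, e2]
    simp
  rwa [h2] at h1

theorem integrable_rw1 : Integrable (Function.uncurry fun (A : Unit × Fin N → ℝ)
    (y : UnitSphere N) => rw1 A y ^ 16) ((gaussPi Unit N).prod (sphereLaw N)) := by
  have h1 : Integrable (fun p : (Unit × Fin N → ℝ) × UnitSphere N => nsq p.1 ^ 8)
      ((gaussPi Unit N).prod (sphereLaw N)) := by
    have := (integrable_nsq8 (N := N)).comp_fst (sphereLaw N)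
    exact this
  refine Integrable.mono' h1 (measurable_rw1.pow_const 16).aestronglyMeasurable
    (Filter.Eventually.of_forall fun p => ?_)
  simp only [Function.uncurry, Real.norm_eq_abs]
  rw [abs_of_nonneg (by positivity)]
  calc rw1 p.1 p.2 ^ 16 = (rw1 p.1 p.2 ^ 2) ^ 8 := by ring
    _ ≤ nsq p.1 ^ 8 := pow_le_pow_left₀ (sq_nonneg _) (rw1_sq_le _ _) 8

/-- the moment bound -/
theorem moment_bound (i : Fin N) :
    (N : ℝ) ^ 8 * ∫ y, sv y i ^ 16 ∂(sphereLaw N) ≤ C16 * (sphereLaw N).real univ := by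
  have h1 := integral_integral_swap (μ := gaussPi Unit N) (ν := sphereLaw N)
    (f := fun A y => rw1 A y ^ 16) integrable_rw1
  have h2 : ∫ A, ∫ y, rw1 A y ^ 16 ∂(sphereLaw N) ∂(gaussPi Unit N)
      = (∫ A, nsq A ^ 8 ∂(gaussPi Unit N)) * ∫ y, sv y i ^ 16 ∂(sphereLaw N) := by
    simp only [sphere_avg _ i]
    exact integral_mul_const _ _
  have h3 : ∫ y, ∫ A, rw1 A y ^ 16 ∂(gaussPi Unit N) ∂(sphereLaw N)
      = C16 * (sphereLaw N).real univ := by
    simp only [gauss_avg _ i]
    simp [mul_comm]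
  rw [h2, h3] at h1
  rw [← h1]
  exact mul_le_mul_of_nonneg_right nsq8_lower (integral_nonneg fun y => by positivity)

theorem measurableSet_deloc (δ : ℝ) : MeasurableSet {y : UnitSphere N | ∀ i, |sv y i| ≤ δ} := by
  have : {y : UnitSphere N | ∀ i, |sv y i| ≤ δ} = ⋂ i, {y | |sv y i| ≤ δ} := by
    ext y; simp
  rw [this]
  refine MeasurableSet.iInter fun i => ?_
  have : Measurable fun y : UnitSphere N => |sv y i| :=
    ((measurable_pi_apply i).comp measurable_sv).abs
  exact measurableSet_le this measurable_const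

/-- **sup-norm tail** -/
theorem deloc_tail (hN : 0 < N) {δ : ℝ} (hδ : 0 < δ) :
    (sphereLaw N).real {y : UnitSphere N | ∀ i, |sv y i| ≤ δ}ᶜ
      ≤ (N * C16 / ((N : ℝ) ^ 8 * δ ^ 16)) * (sphereLaw N).real univ := by
  have hN' : (0 : ℝ) < N := Nat.cast_pos.2 hN
  have hsub : {y : UnitSphere N | ∀ i, |sv y i| ≤ δ}ᶜ ⊆ ⋃ i, {y | δ ^ 16 ≤ sv y i ^ 16} := by
    intro y hy
    simp only [mem_compl_iff, mem_setOf_eq, not_forall, not_le] at hy
    obtain ⟨i, hi⟩ := hy
    refine mem_iUnion.2 ⟨i, ?_⟩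
    show δ ^ 16 ≤ sv y i ^ 16
    have h1 := pow_le_pow_left₀ hδ.le hi.le 16
    have h2 : |sv y i| ^ 16 = sv y i ^ 16 := by
      rw [show (16 : ℕ) = 2 * 8 by norm_num, pow_mul, sq_abs, ← pow_mul]
    rwa [h2] at h1
  have hone : ∀ i : Fin N, (sphereLaw N).real {y | δ ^ 16 ≤ sv y i ^ 16}
      ≤ (C16 / ((N : ℝ) ^ 8 * δ ^ 16)) * (sphereLaw N).real univ := by
    intro i
    have hsvm : Measurable fun y : UnitSphere N => sv y i :=
      (measurable_pi_apply i).comp measurable_sv
    have hle1 : ∀ y : UnitSphere N, |sv y i| ≤ 1 := by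
      intro y
      have := Finset.single_le_sum (f := fun i => sv y i ^ 2) (fun j _ => sq_nonneg _)
        (Finset.mem_univ i)
      rw [sum_sv_sq] at this
      exact (sq_le_one_iff_abs_le_one _).1 this
    have hint : Integrable (fun y : UnitSphere N => sv y i ^ 16) (sphereLaw N) := by
      refine Integrable.of_bound (hsvm.pow_const 16).aestronglyMeasurable 1
        (Filter.Eventually.of_forall fun y => ?_)
      rw [Real.norm_eq_abs, abs_pow]
      exact pow_le_one₀ (abs_nonneg _) (hle1 y)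
    have hmk := mul_meas_ge_le_integral_of_nonneg (μ := sphereLaw N)
      (f := fun y : UnitSphere N => sv y i ^ 16)
      (Filter.Eventually.of_forall fun y => by positivity) hint (δ ^ 16)
    have hmb := moment_bound i
    have h8 : (0 : ℝ) < (N : ℝ) ^ 8 := by positivity
    have h16 : (0 : ℝ) < δ ^ 16 := by positivity
    rw [div_mul_eq_mul_div, le_div_iff₀ (by positivity)]
    calc (sphereLaw N).real {y | δ ^ 16 ≤ sv y i ^ 16} * ((N : ℝ) ^ 8 * δ ^ 16)
        = (N : ℝ) ^ 8 * (δ ^ 16 * (sphereLaw N).real {y | δ ^ 16 ≤ sv y i ^ 16}) := by ring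
      _ ≤ (N : ℝ) ^ 8 * ∫ y, sv y i ^ 16 ∂(sphereLaw N) :=
        mul_le_mul_of_nonneg_left hmk h8.le
      _ ≤ C16 * (sphereLaw N).real univ := hmb
  calc (sphereLaw N).real {y : UnitSphere N | ∀ i, |sv y i| ≤ δ}ᶜ
      ≤ (sphereLaw N).real (⋃ i, {y : UnitSphere N | δ ^ 16 ≤ sv y i ^ 16}) :=
        measureReal_mono hsub
    _ ≤ ∑ i, (sphereLaw N).real {y : UnitSphere N | δ ^ 16 ≤ sv y i ^ 16} :=
        measureReal_iUnion_fintype_le _
    _ ≤ ∑ _i : Fin N, (C16 / ((N : ℝ) ^ 8 * δ ^ 16)) * (sphereLaw N).real univ :=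
        Finset.sum_le_sum fun i _ => hone i
    _ = (N * C16 / ((N : ℝ) ^ 8 * δ ^ 16)) * (sphereLaw N).real univ := by
        simp only [Finset.sum_const, Finset.card_univ, Fintype.card_fin, nsmul_eq_mul]
        ring

end Crest.Agent.R146L878
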