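import Mathlib
import Crest.Prelude.Def_SphericalPressure
import Crest.Agent.R146.Deloc2_878

/-!
Row 146, node (F5): for bounded `C³` potentials the pressure under the mixture law is asymptotically
at least the Gaussian pressure.
-/

set_option autoImplicit false

open MeasureTheory Set ProbabilityTheory
open Crest.ProbabilityR.Perceptron

namespace Crest.Agent.R146L878

variable {N M : ℕ}

/-- mixture array law -/
noncomputable abbrev mixPi (M N : ℕ) (ε : ℝ) : Measure (Fin M × Fin N → ℝ) :=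
  Measure.pi fun _ : Fin M × Fin N => mixtureLaw ε

/-- delocalised configurations -/
def DD (N : ℕ) (δ : ℝ) : Set (UnitSphere N) := {y | ∀ i, |sv y i| ≤ δ}

theorem measurableSet_DD (δ : ℝ) : MeasurableSet (DD N δ) := measurableSet_deloc δ

section bounds

variable {ψ : Fin M → ℝ → ℝ} {K0 : ℝ}

theorem abs_expo_le (hb : ∀ a x, |ψ a x| ≤ K0) {Y : Type*} (v : Y → Fin N → ℝ)
    (A : Fin M × Fin N → ℝ) (y : Y) : |expo ψ v A y| ≤ M * K0 := by
  unfold expo
  refine (Finset.abs_sum_le_sum_abs _ _).trans ((Finset.sum_le_sum fun a _ => hb a _).trans ?_)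
  simp

theorem logZ_le (hψ : ∀ a, Measurable (ψ a)) (hb : ∀ a x, |ψ a x| ≤ K0)
    {Y : Type*} [MeasurableSpace Y] (ρ : Measure Y) [IsFiniteMeasure ρ] (hρ : 0 < ρ.real univ)
    {v : Y → Fin N → ℝ} (hv : Measurable v) (A : Fin M × Fin N → ℝ) :
    logZ ρ ψ v A ≤ M * K0 + Real.log (ρ.real univ) := by
  have hb' : ∀ a x, ψ a x ≤ K0 := fun a x => (le_abs_self _).trans (hb a x)
  have hpos := int_exp_pos hψ hb' ρ hρ hv A
  have h : ∫ y, Real.exp (expo ψ v A y) ∂ρ ≤ Real.exp (M * K0) * ρ.real univ := by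
    calc _ ≤ ∫ _y, Real.exp (M * K0) ∂ρ :=
          integral_mono (integrable_exp_expo hψ hb' ρ hv A) (integrable_const _) fun y =>
            Real.exp_le_exp.2 ((le_abs_self _).trans (abs_expo_le hb v A y))
      _ = _ := by simp [mul_comm]
  unfold logZ
  have := Real.log_le_log hpos h
  rwa [Real.log_mul (Real.exp_pos _).ne' hρ.ne', Real.log_exp] at this

theorem le_logZ (hψ : ∀ a, Measurable (ψ a)) (hb : ∀ a x, |ψ a x| ≤ K0)
    {Y : Type*} [MeasurableSpace Y] (ρ : Measure Y) [IsFiniteMeasure ρ] (hρ : 0 < ρ.real univ)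
    {v : Y → Fin N → ℝ} (hv : Measurable v) (A : Fin M × Fin N → ℝ) :
    -(M * K0) + Real.log (ρ.real univ) ≤ logZ ρ ψ v A := by
  have hb' : ∀ a x, ψ a x ≤ K0 := fun a x => (le_abs_self _).trans (hb a x)
  have h : Real.exp (-(M * K0)) * ρ.real univ ≤ ∫ y, Real.exp (expo ψ v A y) ∂ρ := by
    calc _ = ∫ _y, Real.exp (-(M * K0)) ∂ρ := by simp [mul_comm]
      _ ≤ _ := integral_mono (integrable_const _) (integrable_exp_expo hψ hb' ρ hv A) fun y =>
            Real.exp_le_exp.2 (abs_le.1 (abs_expo_le hb v A y)).1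
  unfold logZ
  have := Real.log_le_log (mul_pos (Real.exp_pos _) hρ) h
  rwa [Real.log_mul (Real.exp_pos _).ne' hρ.ne', Real.log_exp] at this

theorem integrable_logZ (hψ : ∀ a, Measurable (ψ a)) (hb : ∀ a x, |ψ a x| ≤ K0)
    {Y : Type*} [MeasurableSpace Y] (ρ : Measure Y) [IsFiniteMeasure ρ] (hρ : 0 < ρ.real univ)
    {v : Y → Fin N → ℝ} (hv : Measurable v) (P : Measure (Fin M × Fin N → ℝ)) [IsFiniteMeasure P] :
    Integrable (logZ ρ ψ v) P := by
  refine Integrable.of_bound (measurable_logZ ρ hψ hv).aestronglyMeasurable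
    (M * K0 + |Real.log (ρ.real univ)|) (Filter.Eventually.of_forall fun A => ?_)
  rw [Real.norm_eq_abs, abs_le]
  have h1 := logZ_le hψ hb ρ hρ hv A
  have h2 := le_logZ hψ hb ρ hρ hv A
  have h3 := le_abs_self (Real.log (ρ.real univ))
  have h4 := neg_abs_le (Real.log (ρ.real univ))
  constructor <;> linarith

/-- restricting the reference measure lowers `logZ` -/
theorem logZ_restrict_le (hψ : ∀ a, Measurable (ψ a)) (hb : ∀ a x, |ψ a x| ≤ K0)
    {Y : Type*} [MeasurableSpace Y] (ρ : Measure Y) [IsFiniteMeasure ρ] {D : Set Y}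
    (hρ : 0 < (ρ.restrict D).real univ)
    {v : Y → Fin N → ℝ} (hv : Measurable v) (A : Fin M × Fin N → ℝ) :
    logZ (ρ.restrict D) ψ v A ≤ logZ ρ ψ v A := by
  have hb' : ∀ a x, ψ a x ≤ K0 := fun a x => (le_abs_self _).trans (hb a x)
  unfold logZ
  refine Real.log_le_log (int_exp_pos hψ hb' _ hρ hv A) ?_
  exact setIntegral_le_integral (integrable_exp_expo hψ hb' ρ hv A)
    (Filter.Eventually.of_forall fun y => (Real.exp_pos _).le)

/-- pointwise lower bound of the restricted `logZ` -/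
theorem logZ_restrict_ge [NeZero N] (hψ : ∀ a, Measurable (ψ a)) (hb : ∀ a x, |ψ a x| ≤ K0)
    (hK0 : 0 ≤ K0) {D : Set (UnitSphere N)} (hD : MeasurableSet D)
    (hhalf : (sphereLaw N).real univ / 2 ≤ (sphereLaw N).real D) (A : Fin M × Fin N → ℝ) :
    logZ (sphereLaw N) ψ sv A - Real.log 2
      - 4 * M * K0 * (∫ y in Dᶜ, gd ψ A y ∂(sphereLaw N))
      ≤ logZ ((sphereLaw N).restrict D) ψ sv A := by
  have hb' : ∀ a x, ψ a x ≤ K0 := fun a x => (le_abs_self _).trans (hb a x)
  have hσ : 0 < (sphereLaw N).real univ := sphereLaw_real_pos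
  have hσD : 0 < (sphereLaw N).real D := by linarith [half_pos hσ]
  have hρ : 0 < ((sphereLaw N).restrict D).real univ := by
    rw [measureReal_restrict_apply_univ]; exact hσD
  have hZ : 0 < ZS ψ A := int_exp_pos hψ hb' (sphereLaw N) hσ measurable_sv A
  have hint := integrable_exp_expo hψ hb' (sphereLaw N) measurable_sv A
  set w := ∫ y in Dᶜ, gd ψ A y ∂(sphereLaw N) with hw
  have hw0 : 0 ≤ w := setIntegral_nonneg hD.compl fun y _ => gd_nonneg hψ hb' A y
  have hw1 : w = (∫ y in Dᶜ, Real.exp (expo ψ sv A y) ∂(sphereLaw N)) / ZS ψ A := by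
    rw [hw]; unfold gd; exact integral_div _ _
  have hsplit : (∫ y in D, Real.exp (expo ψ sv A y) ∂(sphereLaw N))
      + ∫ y in Dᶜ, Real.exp (expo ψ sv A y) ∂(sphereLaw N) = ZS ψ A :=
    integral_add_compl hD hint
  by_cases hc : w ≤ 1 / 2
  · have h1 : ZS ψ A / 2 ≤ ∫ y in D, Real.exp (expo ψ sv A y) ∂(sphereLaw N) := by
      have : ∫ y in Dᶜ, Real.exp (expo ψ sv A y) ∂(sphereLaw N) = w * ZS ψ A := by
        rw [hw1, div_mul_cancel₀ _ hZ.ne']
      nlinarith
    have h2 := Real.log_le_log (half_pos hZ) h1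
    rw [Real.log_div hZ.ne' two_ne_zero] at h2
    have h3 : (0 : ℝ) ≤ 4 * M * K0 * w := by positivity
    show Real.log (ZS ψ A) - Real.log 2 - 4 * M * K0 * w ≤ _
    unfold logZ
    linarith
  · push Not at hc
    have h1 := logZ_le hψ hb (sphereLaw N) hσ measurable_sv A
    have h2 := le_logZ hψ hb _ hρ measurable_sv A
    have h3 : Real.log ((sphereLaw N).real univ) - Real.log 2
        ≤ Real.log (((sphereLaw N).restrict D).real univ) := by
      rw [← Real.log_div hσ.ne' two_ne_zero, measureReal_restrict_apply_univ]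
      exact Real.log_le_log (half_pos hσ) hhalf
    have h4 : 2 * (M * K0) ≤ 4 * M * K0 * w := by
      have : (0 : ℝ) ≤ M * K0 := by positivity
      nlinarith
    linarith

end bounds

/-- **the finite-volume comparison** -/
theorem mix_ge_gauss [NeZero N] {ε : ℝ} (h0 : 0 ≤ ε) (h1 : ε < 1)
    {ψ ψ1 ψ2 ψ3 : Fin M → ℝ → ℝ} {K0 K1 K2 K3 : ℝ} (hK0 : 0 ≤ K0)
    (h : ∀ a, C3b (ψ a) (ψ1 a) (ψ2 a) (ψ3 a) K0 K1 K2 K3) (hb : ∀ a x, |ψ a x| ≤ K0)
    {δ : ℝ} (hδ : 0 < δ) (hτ : N * C16 / ((N : ℝ) ^ 8 * δ ^ 16) ≤ 1 / 2) :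
    ∫ A, logZ (sphereLaw N) ψ sv A ∂(gaussPi (Fin M) N) - Real.log 2
        - 4 * M * K0 * (N * C16 / ((N : ℝ) ^ 8 * δ ^ 16))
        - (M * N) * ((K3 + 6 * K1 * K2 + 6 * K1 ^ 3) * δ ^ 3) * T3 ε
      ≤ ∫ A, logZ (sphereLaw N) ψ sv A ∂(mixPi M N ε) := by
  have hN : 0 < N := Nat.pos_of_ne_zero (NeZero.ne N)
  have hψ : ∀ a, Measurable (ψ a) := fun a => (h a).c0.measurable
  have hb' : ∀ a x, ψ a x ≤ K0 := fun a x => (le_abs_self _).trans (hb a x)
  set D := DD N δ with hD
  have hDm : MeasurableSet D := measurableSet_DD δ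
  set τ := N * C16 / ((N : ℝ) ^ 8 * δ ^ 16) with hτd
  have hσ : 0 < (sphereLaw N).real univ := sphereLaw_real_pos
  have htail : (sphereLaw N).real Dᶜ ≤ τ * (sphereLaw N).real univ := deloc_tail hN hδ
  have hhalf : (sphereLaw N).real univ / 2 ≤ (sphereLaw N).real D := by
    have := measureReal_add_measureReal_compl (μ := sphereLaw N) hDm
    nlinarith
  have hσD : 0 < (sphereLaw N).real D := by linarith [half_pos hσ]
  have hρ : 0 < ((sphereLaw N).restrict D).real univ := by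
    rw [measureReal_restrict_apply_univ]; exact hσD
  -- the truncated field
  let v' : UnitSphere N → Fin N → ℝ := D.indicator sv
  have hv' : Measurable v' := measurable_sv.indicator hDm
  have hvδ : ∀ y i, |v' y i| ≤ δ := by
    intro y i
    by_cases hy : y ∈ D
    · simp only [v', indicator_of_mem hy]; exact hy i
    · simp only [v', indicator_of_notMem hy]; simpa using hδ.le
  have hvv : ∀ A : Fin M × Fin N → ℝ,
      logZ ((sphereLaw N).restrict D) ψ v' A = logZ ((sphereLaw N).restrict D) ψ sv A := by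
    intro A
    unfold logZ
    congr 1
    refine setIntegral_congr_fun hDm fun y hy => ?_
    simp only [expo, v', indicator_of_mem hy]
  have hlin := lindeberg_mix (M := M) (N := N) h0 h1 ((sphereLaw N).restrict D) hρ h hv' hvδ
  simp only [hvv] at hlin
  -- mixture side
  have hA : ∫ A, logZ ((sphereLaw N).restrict D) ψ sv A ∂(mixPi M N ε)
      ≤ ∫ A, logZ (sphereLaw N) ψ sv A ∂(mixPi M N ε) :=
    integral_mono (integrable_logZ hψ hb _ hρ measurable_sv _)
      (integrable_logZ hψ hb _ hσ measurable_sv _)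
      fun A => logZ_restrict_le hψ hb (sphereLaw N) hρ measurable_sv A
  -- Gaussian side
  have hwi : Integrable (fun A : Fin M × Fin N → ℝ => ∫ y in Dᶜ, gd ψ A y ∂(sphereLaw N))
      (gaussPi (Fin M) N) := by
    have h2 := (integrable_gd (N := N) hψ hb').restrict (s := univ ×ˢ Dᶜ)
    rw [← Measure.prod_restrict, Measure.restrict_univ] at h2
    exact h2.integral_prod_left
  have hB : ∫ A, logZ (sphereLaw N) ψ sv A ∂(gaussPi (Fin M) N) - Real.log 2 - 4 * M * K0 * τ
      ≤ ∫ A, logZ ((sphereLaw N).restrict D) ψ sv A ∂(gaussPi (Fin M) N) := by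
    have hi0 := integrable_logZ hψ hb (sphereLaw N) hσ measurable_sv (gaussPi (Fin M) N)
    have hi1 : Integrable (fun A : Fin M × Fin N → ℝ => logZ (sphereLaw N) ψ sv A - Real.log 2)
        (gaussPi (Fin M) N) := hi0.sub (integrable_const _)
    have hi2 : Integrable (fun A : Fin M × Fin N → ℝ =>
        4 * M * K0 * (∫ y in Dᶜ, gd ψ A y ∂(sphereLaw N))) (gaussPi (Fin M) N) :=
      hwi.const_mul _
    have hmono := integral_mono (hi1.sub hi2)
      (integrable_logZ hψ hb _ hρ measurable_sv (gaussPi (Fin M) N))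
      (fun A => logZ_restrict_ge hψ hb hK0 hDm hhalf A)
    have e1 := integral_sub hi1 hi2
    have e2 := integral_sub hi0 (integrable_const (μ := gaussPi (Fin M) N) (Real.log 2))
    have e3 : ∫ A : Fin M × Fin N → ℝ, 4 * M * K0 * (∫ y in Dᶜ, gd ψ A y ∂(sphereLaw N))
        ∂(gaussPi (Fin M) N)
        = 4 * M * K0 * ((sphereLaw N).real Dᶜ / (sphereLaw N).real univ) := by
      rw [integral_const_mul, mean_gibbs hψ hb' Dᶜ]
    have e4 : (sphereLaw N).real Dᶜ / (sphereLaw N).real univ ≤ τ := by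
      rw [div_le_iff₀ hσ]; exact htail
    have e5 : (0 : ℝ) ≤ 4 * M * K0 := by positivity
    have e6 := mul_le_mul_of_nonneg_left e4 e5
    have e7 : ∫ _A : Fin M × Fin N → ℝ, Real.log 2 ∂(gaussPi (Fin M) N) = Real.log 2 := by simp
    have e8 : ∫ A : Fin M × Fin N → ℝ, ((fun A => logZ (sphereLaw N) ψ sv A - Real.log 2)
        - fun A => 4 * M * K0 * (∫ y in Dᶜ, gd ψ A y ∂(sphereLaw N))) A ∂(gaussPi (Fin M) N)
        = ∫ A, logZ (sphereLaw N) ψ sv A ∂(gaussPi (Fin M) N) - Real.log 2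
          - 4 * M * K0 * ((sphereLaw N).real Dᶜ / (sphereLaw N).real univ) := by
      refine e1.trans ?_
      rw [e3, e2, e7]
    rw [e8] at hmono
    linarith
  have hC := (abs_le.1 hlin).1
  linarith

end Crest.Agent.R146L878
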