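import Mathlib
import Crest.Prelude.Def_SphericalPressure
import Crest.Agent.R146.Deloc3_878

/-!
Row 146, node (F5), literal form: for every `ε ∈ [0,1)` and every bounded potential `φ` such that
`β φ` has three bounded derivatives, eventually
`expectedPressure N α β φ - η ≤ ∫ spherePressure N α β φ ∂(patternLawMix N α ε)`.
-/

set_option autoImplicit false

open MeasureTheory Set ProbabilityTheory Filter Topology
open Crest.ProbabilityR.Perceptron

namespace Crest.Agent.R146L878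

theorem expo_const {N : ℕ} {α : ℝ} (β : ℝ) (φ : ℝ → ℝ) (g : Patterns N α) (y : UnitSphere N) :
    expo (fun _ : Fin (numPatterns N α) => fun x => β * φ x) sv g y = β * potentialSum φ g y := by
  unfold expo potentialSum sv
  rw [Finset.mul_sum]

theorem spherePressure_eq {N : ℕ} [NeZero N] {α : ℝ} (β : ℝ) {φ : ℝ → ℝ} {K0 : ℝ}
    (hφ : Measurable φ) (hb : ∀ x, |β * φ x| ≤ K0) (g : Patterns N α) :
    spherePressure N α β φ g
      = (logZ (sphereLaw N) (fun _ : Fin (numPatterns N α) => fun x => β * φ x) sv g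
          - Real.log ((sphereLaw N).real univ)) / N := by
  have hσ : 0 < (sphereLaw N).real univ := sphereLaw_real_pos
  have hpos : 0 < ∫ y, Real.exp (expo (fun _ : Fin (numPatterns N α) => fun x => β * φ x) sv g y)
      ∂(sphereLaw N) :=
    int_exp_pos (fun _ => hφ.const_mul β) (fun _ x => (le_abs_self _).trans (hb x)) _ hσ
      measurable_sv g
  unfold spherePressure logZ
  have : ∀ y, Real.exp (β * potentialSum φ g y)
      = Real.exp (expo (fun _ : Fin (numPatterns N α) => fun x => β * φ x) sv g y) := by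
    intro y; rw [expo_const]
  simp only [this]
  rw [Real.log_div hpos.ne' hσ.ne']

/-- error term of the comparison -/
noncomputable def errF (α K0 C T : ℝ) (N : ℕ) : ℝ :=
  (Real.log 2 + 4 * α * K0 * C16) / N + α * C * T * (N : ℝ) ^ (-(1 / 8) : ℝ)

theorem errF_tendsto (α K0 C T : ℝ) : Tendsto (errF α K0 C T) atTop (𝓝 0) := by
  unfold errF
  have h1 : Tendsto (fun N : ℕ => (Real.log 2 + 4 * α * K0 * C16) / (N : ℝ)) atTop (𝓝 0) :=
    tendsto_const_div_atTop_nhds_zero_nat _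
  have h2 : Tendsto (fun N : ℕ => (N : ℝ) ^ (-(1 / 8) : ℝ)) atTop (𝓝 0) :=
    (tendsto_rpow_neg_atTop (by norm_num : (0 : ℝ) < 1 / 8)).comp tendsto_natCast_atTop_atTop
  have h3 := h1.add (h2.const_mul (α * C * T))
  simpa using h3

theorem C16_nonneg : 0 ≤ C16 := integral_nonneg fun t => by positivity

/-- explicit finite volume inequality, literal pressures -/
theorem mixPressure_ge {N : ℕ} (hN : 0 < N) {α β ε : ℝ} (hα : 0 ≤ α) (h0 : 0 ≤ ε) (h1 : ε < 1)
    {φ f1 f2 f3 : ℝ → ℝ} {K0 K1 K2 K3 : ℝ} (hK0 : 0 ≤ K0)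
    (h : C3b (fun x => β * φ x) f1 f2 f3 K0 K1 K2 K3) (hφ : Measurable φ)
    (hb : ∀ x, |β * φ x| ≤ K0) (hτ : C16 / (N : ℝ) ≤ 1 / 2) :
    expectedPressure N α β φ - errF α K0 (K3 + 6 * K1 * K2 + 6 * K1 ^ 3) (T3 ε) N
      ≤ ∫ g, spherePressure N α β φ g ∂(patternLawMix N α ε) := by
  have : NeZero N := ⟨hN.ne'⟩
  have hN' : (0 : ℝ) < N := Nat.cast_pos.2 hN
  set M := numPatterns N α with hM
  have hMle : (M : ℝ) ≤ α * N := by
    rw [hM]; unfold numPatterns
    exact Nat.floor_le (by positivity)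
  set ψ : Fin M → ℝ → ℝ := fun _ x => β * φ x with hψ
  set δ : ℝ := (N : ℝ) ^ (-(3 / 8) : ℝ) with hδd
  have hδ : 0 < δ := Real.rpow_pos_of_pos hN' _
  have hδ16 : δ ^ 16 = ((N : ℝ) ^ 6)⁻¹ := by
    rw [hδd, ← Real.rpow_natCast, ← Real.rpow_mul hN'.le]
    norm_num
  have hδ3 : (N : ℝ) * δ ^ 3 = (N : ℝ) ^ (-(1 / 8) : ℝ) := by
    rw [hδd, ← Real.rpow_natCast, ← Real.rpow_mul hN'.le]
    have : (N : ℝ) = (N : ℝ) ^ (1 : ℝ) := (Real.rpow_one _).symm
    conv_lhs => rw [this]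
    rw [← Real.rpow_mul hN'.le, ← Real.rpow_add hN']
    norm_num
  have hτ2 : N * C16 / ((N : ℝ) ^ 8 * δ ^ 16) = C16 / N := by
    rw [hδ16]
    have : (N : ℝ) ≠ 0 := hN'.ne'
    field_simp
  have hmain := mix_ge_gauss (M := M) (N := N) h0 h1 (ψ := ψ) (ψ1 := fun _ => f1)
    (ψ2 := fun _ => f2) (ψ3 := fun _ => f3) hK0 (fun _ => h) (fun _ => hb) hδ
    (by rw [hτ2]; exact hτ)
  rw [hτ2] at hmain
  have hsp : ∀ g : Patterns N α, spherePressure N α β φ g
      = (logZ (sphereLaw N) ψ sv g - Real.log ((sphereLaw N).real univ)) / N :=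
    fun g => spherePressure_eq β hφ hb g
  have hσ : 0 < (sphereLaw N).real univ := sphereLaw_real_pos
  have hψm : ∀ a, Measurable (ψ a) := fun _ => hφ.const_mul β
  have key : ∀ (P : Measure (Fin M × Fin N → ℝ)) [IsProbabilityMeasure P],
      ∫ g, spherePressure N α β φ g ∂P
        = (∫ g, logZ (sphereLaw N) ψ sv g ∂P - Real.log ((sphereLaw N).real univ)) / N := by
    intro P _
    have e1 : ∫ g, spherePressure N α β φ g ∂P
        = ∫ g, (logZ (sphereLaw N) ψ sv g - Real.log ((sphereLaw N).real univ)) / N ∂P :=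
      integral_congr_ae (Filter.Eventually.of_forall hsp)
    rw [e1, integral_div,
      integral_sub (integrable_logZ hψm (fun _ => hb) _ hσ measurable_sv P) (integrable_const _)]
    simp
  have hE : expectedPressure N α β φ
      = (∫ g, logZ (sphereLaw N) ψ sv g ∂(gaussPi (Fin M) N)
          - Real.log ((sphereLaw N).real univ)) / N := key (gaussPi (Fin M) N)
  have hX : ∫ g, spherePressure N α β φ g ∂(patternLawMix N α ε)
      = (∫ g, logZ (sphereLaw N) ψ sv g ∂(mixPi M N ε)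
          - Real.log ((sphereLaw N).real univ)) / N := key (mixPi M N ε)
  rw [hE, hX]
  set C := K3 + 6 * K1 * K2 + 6 * K1 ^ 3 with hC
  have hC0 : 0 ≤ C := by
    have a1 : 0 ≤ K1 := (abs_nonneg _).trans (h.b1 0)
    have a2 : 0 ≤ K2 := (abs_nonneg _).trans (h.b2 0)
    have a3 : 0 ≤ K3 := (abs_nonneg _).trans (h.b3 0)
    positivity
  have hT := T3_nonneg ε
  have hC16 := C16_nonneg
  have e1 : 4 * (M : ℝ) * K0 * (C16 / N) ≤ 4 * α * K0 * C16 := by
    have : 4 * (M : ℝ) * K0 * (C16 / N) ≤ 4 * (α * N) * K0 * (C16 / N) := by gcongr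
    refine this.trans (le_of_eq ?_)
    field_simp
  have e2 : (M * N : ℝ) * (C * δ ^ 3) * T3 ε ≤ N * (α * C * T3 ε * (N : ℝ) ^ (-(1 / 8) : ℝ)) := by
    rw [← hδ3]
    have : (M * N : ℝ) * (C * δ ^ 3) * T3 ε ≤ (α * N * N : ℝ) * (C * δ ^ 3) * T3 ε := by gcongr
    refine this.trans (le_of_eq ?_)
    ring
  rw [errF, div_add' _ _ _ hN'.ne', ← sub_div, div_le_div_iff_of_pos_right hN']
  linarith

/-- **(F5)** -/
theorem mixPressure_eventually_ge {α β ε : ℝ} (hα : 0 ≤ α) (h0 : 0 ≤ ε) (h1 : ε < 1)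
    {φ f1 f2 f3 : ℝ → ℝ} {K0 K1 K2 K3 : ℝ}
    (h : C3b (fun x => β * φ x) f1 f2 f3 K0 K1 K2 K3) (hφ : Measurable φ)
    (hb : ∀ x, |β * φ x| ≤ K0) {η : ℝ} (hη : 0 < η) :
    ∀ᶠ N : ℕ in atTop, expectedPressure N α β φ - η
      ≤ ∫ g, spherePressure N α β φ g ∂(patternLawMix N α ε) := by
  have hK0 : 0 ≤ K0 := (abs_nonneg _).trans (hb 0)
  have e1 : ∀ᶠ N : ℕ in atTop, errF α K0 (K3 + 6 * K1 * K2 + 6 * K1 ^ 3) (T3 ε) N < η :=
    (errF_tendsto α K0 _ (T3 ε)).eventually (gt_mem_nhds hη)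
  have e2 : ∀ᶠ N : ℕ in atTop, C16 / (N : ℝ) < 1 / 2 :=
    (tendsto_const_div_atTop_nhds_zero_nat C16).eventually (gt_mem_nhds (by norm_num))
  filter_upwards [e1, e2, eventually_gt_atTop 0] with N a1 a2 a3
  have := mixPressure_ge (N := N) a3 hα h0 h1 hK0 h hφ hb a2.le
  linarith

end Crest.Agent.R146L878
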