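import Mathlib
import Crest.Agent.R146.Lind2_878

/-!
Row 146: uniform approximation of bounded Lipschitz functions by `C3b` functions (mollification).
-/

set_option autoImplicit false

open MeasureTheory Set Convolution
open scoped ContDiff

namespace Crest.Agent.R146L878

/-- pointwise bound of a convolution with a bounded function -/
theorem abs_conv_le {h f : ℝ → ℝ} {K : ℝ} (hh : Integrable h) (hK : ∀ x, |f x| ≤ K) (x : ℝ) :
    |(h ⋆[ContinuousLinearMap.lsmul ℝ ℝ, volume] f) x| ≤ K * ∫ t, |h t| := by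
  have hK0 : 0 ≤ K := (abs_nonneg _).trans (hK 0)
  rw [convolution_def, ← integral_const_mul]
  refine abs_integral_le_integral_abs.trans (integral_mono_of_nonneg
    (Filter.Eventually.of_forall fun t => abs_nonneg _) (hh.abs.const_mul K)
    (Filter.Eventually.of_forall fun t => ?_))
  simp only [ContinuousLinearMap.lsmul_apply, smul_eq_mul, abs_mul]
  rw [mul_comm]
  exact mul_le_mul_of_nonneg_right (hK _) (abs_nonneg _)

theorem exists_C3b_approx {f : ℝ → ℝ} {K L : ℝ} (hK : ∀ x, |f x| ≤ K)
    (hL : ∀ x y, |f x - f y| ≤ L * |x - y|) {δ : ℝ} (hδ : 0 < δ) :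
    ∃ (g g1 g2 g3 : ℝ → ℝ) (K1 K2 K3 : ℝ), C3b g g1 g2 g3 K K1 K2 K3 ∧ (∀ x, |g x| ≤ K) ∧
      ∀ x, |f x - g x| ≤ δ := by
  have hK0 : 0 ≤ K := (abs_nonneg _).trans (hK 0)
  have hL0 : 0 ≤ L := by
    have := hL 1 0
    have h2 := (abs_nonneg _).trans this
    simpa using h2
  have hfc : Continuous f := by
    have : LipschitzWith (Real.toNNReal L) f := by
      refine LipschitzWith.of_dist_le_mul fun x y => ?_
      rw [Real.dist_eq, Real.dist_eq, Real.coe_toNNReal L hL0]
      exact hL x y
    exact this.continuous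
  set r : ℝ := δ / (L + 1) with hr
  have hr0 : 0 < r := div_pos hδ (by linarith)
  let φ : ContDiffBump (0 : ℝ) := ⟨r / 2, r, half_pos hr0, half_lt_self hr0⟩
  set b : ℝ → ℝ := φ.normed volume with hb
  have hbC : ContDiff ℝ ∞ b := φ.contDiff_normed
  have hbS : HasCompactSupport b := φ.hasCompactSupport_normed
  have hb1C : ContDiff ℝ ∞ (deriv b) := by
    have := (contDiff_infty_iff_deriv (f := b)).1 hbC
    exact this.2
  have hb2C : ContDiff ℝ ∞ (deriv (deriv b)) := ((contDiff_infty_iff_deriv (f := deriv b)).1 hb1C).2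
  have hb3C : ContDiff ℝ ∞ (deriv (deriv (deriv b))) :=
    ((contDiff_infty_iff_deriv (f := deriv (deriv b))).1 hb2C).2
  have hb1S : HasCompactSupport (deriv b) := hbS.deriv
  have hb2S : HasCompactSupport (deriv (deriv b)) := hb1S.deriv
  have hb3S : HasCompactSupport (deriv (deriv (deriv b))) := hb2S.deriv
  have hfl : LocallyIntegrable f := hfc.locallyIntegrable
  let Lm := ContinuousLinearMap.lsmul ℝ ℝ (E := ℝ)
  have d1 : ∀ x, HasDerivAt (b ⋆[Lm, volume] f) ((deriv b ⋆[Lm, volume] f) x) x := fun x =>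
    hbS.hasDerivAt_convolution_left Lm (hbC.of_le (by exact_mod_cast le_top)) hfl x
  have d2 : ∀ x, HasDerivAt (deriv b ⋆[Lm, volume] f) ((deriv (deriv b) ⋆[Lm, volume] f) x) x :=
    fun x => hb1S.hasDerivAt_convolution_left Lm (hb1C.of_le (by exact_mod_cast le_top)) hfl x
  have d3 : ∀ x, HasDerivAt (deriv (deriv b) ⋆[Lm, volume] f)
      ((deriv (deriv (deriv b)) ⋆[Lm, volume] f) x) x :=
    fun x => hb2S.hasDerivAt_convolution_left Lm (hb2C.of_le (by exact_mod_cast le_top)) hfl x
  have i0 : Integrable b := hbC.continuous.integrable_of_hasCompactSupport hbS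
  have i1 : Integrable (deriv b) := hb1C.continuous.integrable_of_hasCompactSupport hb1S
  have i2 : Integrable (deriv (deriv b)) := hb2C.continuous.integrable_of_hasCompactSupport hb2S
  have i3 : Integrable (deriv (deriv (deriv b))) :=
    hb3C.continuous.integrable_of_hasCompactSupport hb3S
  have hone : ∫ t, |b t| = 1 := by
    have : ∀ t, |b t| = b t := fun t => abs_of_nonneg (φ.nonneg_normed t)
    simp only [this]
    exact φ.integral_normed
  have hb0 : ∀ x, |(b ⋆[Lm, volume] f) x| ≤ K := by
    intro x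
    have := abs_conv_le i0 hK x
    rwa [hone, mul_one] at this
  have m3 : Measurable (deriv (deriv (deriv b)) ⋆[Lm, volume] f) := by
    have : Continuous (deriv (deriv (deriv b)) ⋆[Lm, volume] f) :=
      hb3S.continuous_convolution_left Lm hb3C.continuous hfl
    exact this.measurable
  refine ⟨b ⋆[Lm, volume] f, deriv b ⋆[Lm, volume] f, deriv (deriv b) ⋆[Lm, volume] f,
    deriv (deriv (deriv b)) ⋆[Lm, volume] f, _, _, _,
    ⟨d1, d2, d3, m3, fun x => (le_abs_self _).trans (hb0 x), abs_conv_le i1 hK, abs_conv_le i2 hK,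
      abs_conv_le i3 hK⟩, hb0, fun x => ?_⟩
  have h1 := ContDiffBump.dist_normed_convolution_le (φ := φ) (μ := volume) (g := f) (x₀ := x)
    (ε := δ) hfc.aestronglyMeasurable (fun y hy => by
      rw [Real.dist_eq]
      have hy' : |y - x| < r := by
        rw [Metric.mem_ball, Real.dist_eq] at hy; exact hy
      refine (hL y x).trans ?_
      have : L * |y - x| ≤ L * r := mul_le_mul_of_nonneg_left hy'.le hL0
      refine this.trans ?_
      rw [hr, mul_div_assoc', div_le_iff₀ (by linarith)]
      nlinarith)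
  rw [Real.dist_eq, abs_sub_comm] at h1
  exact h1

end Crest.Agent.R146L878
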