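import Mathlib
import Crest.Agent.R146.Deloc4_878
import Crest.Agent.R146.Mollify_878

/-!
Row 146: stability of the pressure in the potential and (F5) for bounded Lipschitz potentials.
-/

set_option autoImplicit false

open MeasureTheory Set ProbabilityTheory Filter Topology
open Crest.ProbabilityR.Perceptron

namespace Crest.Agent.R146L878

section stab

variable {N M : ℕ}

/-- `logZ` is stable in the sup norm of the potentials -/
theorem logZ_sub_le {Y : Type*} [MeasurableSpace Y] (ρ : Measure Y) [IsFiniteMeasure ρ]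
    (hρ : 0 < ρ.real univ) {ψ χ : Fin M → ℝ → ℝ} {K K' : ℝ}
    (hψ : ∀ a, Measurable (ψ a)) (hχ : ∀ a, Measurable (χ a)) (hψb : ∀ a x, ψ a x ≤ K)
    (hχb : ∀ a x, χ a x ≤ K') {t : ℝ} (ht : ∀ a x, ψ a x - χ a x ≤ t)
    {v : Y → Fin N → ℝ} (hv : Measurable v) (A : Fin M × Fin N → ℝ) :
    logZ ρ ψ v A - logZ ρ χ v A ≤ M * t := by
  have h1 := int_exp_pos hψ hψb ρ hρ hv A
  have h2 := int_exp_pos hχ hχb ρ hρ hv A
  have h3 : ∫ y, Real.exp (expo ψ v A y) ∂ρ ≤ Real.exp (M * t) * ∫ y, Real.exp (expo χ v A y) ∂ρ := by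
    rw [← integral_const_mul]
    refine integral_mono (integrable_exp_expo hψ hψb ρ hv A)
      ((integrable_exp_expo hχ hχb ρ hv A).const_mul _) fun y => ?_
    simp only
    rw [← Real.exp_add]
    refine Real.exp_le_exp.2 ?_
    unfold expo
    have : ∑ a, ψ a (∑ i, A (a, i) * v y i) ≤ ∑ a, (t + χ a (∑ i, A (a, i) * v y i)) :=
      Finset.sum_le_sum fun a _ => by linarith [ht a (∑ i, A (a, i) * v y i)]
    rw [Finset.sum_add_distrib] at this
    simpa using this
  have h4 := Real.log_le_log h1 h3
  rw [Real.log_mul (Real.exp_pos _).ne' h2.ne', Real.log_exp] at h4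
  unfold logZ
  linarith

theorem spherePressure_sub_le {α : ℝ} (hα : 0 ≤ α) (hN : 0 < N) {f g : ℝ → ℝ} {K : ℝ}
    (hf : Measurable f) (hg : Measurable g) (hfb : ∀ x, |f x| ≤ K) (hgb : ∀ x, |g x| ≤ K)
    {t : ℝ} (ht0 : 0 ≤ t) (ht : ∀ x, f x - g x ≤ t) (A : Patterns N α) :
    spherePressure N α 1 f A - spherePressure N α 1 g A ≤ α * t := by
  have : NeZero N := ⟨hN.ne'⟩
  have hN' : (0 : ℝ) < N := Nat.cast_pos.2 hN
  have hM : (numPatterns N α : ℝ) ≤ α * N := Nat.floor_le (by positivity)
  have hfb' : ∀ x, |1 * f x| ≤ K := by simpa using hfb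
  have hgb' : ∀ x, |1 * g x| ≤ K := by simpa using hgb
  rw [spherePressure_eq 1 hf hfb', spherePressure_eq 1 hg hgb', ← sub_div, div_le_iff₀ hN']
  have h := logZ_sub_le (N := N) (M := numPatterns N α) (sphereLaw N) sphereLaw_real_pos
    (ψ := fun _ x => 1 * f x) (χ := fun _ x => 1 * g x) (K := K) (K' := K)
    (fun _ => hf.const_mul 1) (fun _ => hg.const_mul 1)
    (fun _ x => (le_abs_self _).trans (hfb' x)) (fun _ x => (le_abs_self _).trans (hgb' x))
    (t := t) (fun _ x => by simpa using ht x) measurable_sv A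
  have h2 : (numPatterns N α : ℝ) * t ≤ α * N * t := mul_le_mul_of_nonneg_right hM ht0
  linarith

/-- **(F5) for bounded Lipschitz potentials** -/
theorem mixPressure_ge_lip {α ε : ℝ} (hα : 0 ≤ α) (h0 : 0 ≤ ε) (h1 : ε < 1)
    {f : ℝ → ℝ} {K L : ℝ} (hK : ∀ x, |f x| ≤ K) (hL : ∀ x y, |f x - f y| ≤ L * |x - y|)
    {η : ℝ} (hη : 0 < η) :
    ∀ᶠ N : ℕ in atTop, expectedPressure N α 1 f - η
      ≤ ∫ g, spherePressure N α 1 f g ∂(patternLawMix N α ε) := by
  set δ := η / (3 * (α + 1)) with hδd
  have hα1 : 0 < 3 * (α + 1) := by positivity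
  have hδ : 0 < δ := div_pos hη hα1
  obtain ⟨g, g1, g2, g3, K1, K2, K3, hC, hgK, hfg⟩ := exists_C3b_approx hK hL hδ
  have hL0 : 0 ≤ L := by
    have := (abs_nonneg _).trans (hL 1 0)
    simpa using this
  have hfm : Measurable f := by
    have : LipschitzWith (Real.toNNReal L) f := by
      refine LipschitzWith.of_dist_le_mul fun x y => ?_
      rw [Real.dist_eq, Real.dist_eq, Real.coe_toNNReal L hL0]
      exact hL x y
    exact this.continuous.measurable
  have hgm : Measurable g := hC.c0.measurable
  have hC1 : C3b (fun x => 1 * g x) g1 g2 g3 K K1 K2 K3 := by simpa using hC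
  have hev := mixPressure_eventually_ge (α := α) (β := 1) (ε := ε) hα h0 h1 hC1 hgm
    (by simpa using hgK) (η := η / 3) (by positivity)
  have hαδ : α * δ ≤ η / 3 := by
    rw [hδd, mul_div_assoc', div_le_div_iff₀ hα1 (by norm_num)]
    nlinarith
  filter_upwards [hev, eventually_gt_atTop 0] with N hN1 hN
  have : NeZero N := ⟨hN.ne'⟩
  have hσ : 0 < (sphereLaw N).real univ := sphereLaw_real_pos
  have hint : ∀ (F : ℝ → ℝ) (_ : Measurable F) (_ : ∀ x, |F x| ≤ K) (P : Measure (Patterns N α))
      [IsProbabilityMeasure P], Integrable (spherePressure N α 1 F) P := by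
    intro F hF hFK P _
    have e : spherePressure N α 1 F = fun A : Patterns N α =>
        (logZ (sphereLaw N) (fun _ : Fin (numPatterns N α) => fun x => 1 * F x) sv A
          - Real.log ((sphereLaw N).real univ)) / N := by
      funext A; exact spherePressure_eq 1 hF (by simpa using hFK) A
    rw [e]
    exact ((integrable_logZ (fun _ => hF.const_mul 1) (K0 := K) (fun _ x => by simpa using hFK x)
      (sphereLaw N) hσ measurable_sv P).sub (integrable_const _)).div_const _
  have instG : IsProbabilityMeasure (patternLaw N α) := by unfold patternLaw; infer_instance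
  have instM : IsProbabilityMeasure (patternLawMix N α ε) := by
    unfold patternLawMix; infer_instance
  have a1 : expectedPressure N α 1 f ≤ expectedPressure N α 1 g + α * δ := by
    unfold expectedPressure
    have hi := hint f hfm hK (patternLaw N α)
    have hj := hint g hgm hgK (patternLaw N α)
    have : ∫ A, spherePressure N α 1 f A ∂(patternLaw N α)
        ≤ ∫ A, (spherePressure N α 1 g A + α * δ) ∂(patternLaw N α) :=
      integral_mono hi (hj.add (integrable_const _)) fun A => by
        have := spherePressure_sub_le hα hN hfm hgm hK hgK hδ.le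
          (fun x => (le_abs_self _).trans (hfg x)) A
        linarith
    rw [integral_add hj (integrable_const _)] at this
    simpa using this
  have a2 : ∫ A, spherePressure N α 1 g A ∂(patternLawMix N α ε)
      ≤ ∫ A, spherePressure N α 1 f A ∂(patternLawMix N α ε) + α * δ := by
    have hi := hint f hfm hK (patternLawMix N α ε)
    have hj := hint g hgm hgK (patternLawMix N α ε)
    have : ∫ A, spherePressure N α 1 g A ∂(patternLawMix N α ε)
        ≤ ∫ A, (spherePressure N α 1 f A + α * δ) ∂(patternLawMix N α ε) :=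
      integral_mono hj (hi.add (integrable_const _)) fun A => by
        have := spherePressure_sub_le hα hN hgm hfm hgK hK hδ.le
          (fun x => by have := hfg x; rw [abs_sub_comm] at this; exact (le_abs_self _).trans this) A
        linarith
    rw [integral_add hi (integrable_const _)] at this
    simpa using this
  linarith

end stab

end Crest.Agent.R146L878
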