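import Mathlib
import Crest.Agent.R146.LindLB1_878
import Crest.Agent.R146.P34_734
import Crest.Agent.R146.Assoc4_323

/-!
Row 146: node LINDLB of `P34_734`, from `S6`, `VMONO`, `VZERO`.
-/

set_option autoImplicit false

open MeasureTheory Set ProbabilityTheory Filter Topology
open Crest.ProbabilityR.Perceptron

namespace Crest.Agent.R146L878

open Crest.Agent.R146 Crest.Agent.R146.P34_734

theorem fqL_nonpos {L b : ℝ} (hb : 0 < b) (hL : 0 ≤ L) (k x : ℝ) : fqL L b k x ≤ 0 := by
  unfold fqL fq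
  refine max_le ?_ (by linarith)
  have : 0 ≤ b / 2 * max (k - x) 0 ^ 2 := by positivity
  linarith

theorem neg_le_fqL (L b k x : ℝ) : -L ≤ fqL L b k x := le_max_right _ _

/-- the truncated penalty in clipped form -/
theorem fqL_eq {L b : ℝ} (hb : 0 < b) (hL : 0 ≤ L) (k x : ℝ) :
    fqL L b k x = -(b / 2) * min (max (k - x) 0) (Real.sqrt (2 * L / b)) ^ 2 := by
  set R := Real.sqrt (2 * L / b) with hR
  have hR0 : 0 ≤ R := Real.sqrt_nonneg _
  have hR2 : b / 2 * R ^ 2 = L := by
    rw [hR, Real.sq_sqrt (by positivity)]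
    field_simp
  set u := max (k - x) 0 with hu
  have hu0 : 0 ≤ u := le_max_right _ _
  unfold fqL fq
  rw [← hu]
  rcases le_total u R with h | h
  · rw [min_eq_left h, max_eq_left]
    have : b / 2 * u ^ 2 ≤ b / 2 * R ^ 2 := by gcongr
    linarith
  · rw [min_eq_right h, max_eq_right]
    · linarith
    · have : b / 2 * R ^ 2 ≤ b / 2 * u ^ 2 := by gcongr
      linarith

/-- the truncated penalty is Lipschitz -/
theorem fqL_lip {L b : ℝ} (hb : 0 < b) (hL : 0 ≤ L) (k x y : ℝ) :
    |fqL L b k x - fqL L b k y| ≤ (b * Real.sqrt (2 * L / b)) * |x - y| := by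
  set R := Real.sqrt (2 * L / b) with hR
  have hR0 : 0 ≤ R := Real.sqrt_nonneg _
  rw [fqL_eq hb hL, fqL_eq hb hL, ← hR]
  set u := min (max (k - x) 0) R
  set w := min (max (k - y) 0) R
  have hu0 : 0 ≤ u := le_min (le_max_right _ _) hR0
  have hw0 : 0 ≤ w := le_min (le_max_right _ _) hR0
  have huR : u ≤ R := min_le_right _ _
  have hwR : w ≤ R := min_le_right _ _
  have huw : |u - w| ≤ |x - y| := by
    have h1 : |u - w| ≤ |max (k - x) 0 - max (k - y) 0| := by
      have := abs_min_sub_min_le_max (max (k - x) 0) R (max (k - y) 0) R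
      rw [sub_self, abs_zero] at this
      exact this.trans (max_le le_rfl (abs_nonneg _))
    have h2 : |max (k - x) 0 - max (k - y) 0| ≤ |(k - x) - (k - y)| :=
      abs_max_sub_max_le_abs _ _ _
    refine h1.trans (h2.trans ?_)
    rw [show (k - x) - (k - y) = -(x - y) by ring, abs_neg]
  have e : -(b / 2) * u ^ 2 - -(b / 2) * w ^ 2 = (b / 2 * (u + w)) * (w - u) := by ring
  rw [e, abs_mul, abs_of_nonneg (by positivity)]
  have h3 : b / 2 * (u + w) ≤ b * R := by nlinarith
  rw [abs_sub_comm w u]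
  exact mul_le_mul h3 huw (abs_nonneg _) (by positivity)

theorem Test_lip {ψ : ℝ → ℝ} (h : Test ψ) : ∃ C : ℝ, 0 ≤ C ∧ ∀ x y, |ψ x - ψ y| ≤ C * |x - y| := by
  obtain ⟨C, hC⟩ := h.bd 1
  have hd : Differentiable ℝ ψ := (h.smooth 1).differentiable (by norm_num)
  refine ⟨C, (abs_nonneg _).trans (hC 0), fun x y => ?_⟩
  have := Convex.norm_image_sub_le_of_norm_hasDerivWithin_le (f := ψ) (f' := deriv ψ) (C := C)
    (s := Set.univ) (fun x _ => (hd x).hasDerivAt.hasDerivWithinAt) (fun x _ => by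
      have := hC x; rw [iteratedDeriv_one] at this; simpa using this) convex_univ
      (Set.mem_univ y) (Set.mem_univ x)
  simpa [Real.norm_eq_abs] using this

theorem Test_bdd {ψ : ℝ → ℝ} (h : Test ψ) : ∃ C : ℝ, ∀ x, |ψ x| ≤ C := by
  obtain ⟨C, hC⟩ := h.bd 0
  exact ⟨C, fun x => by simpa using hC x⟩

theorem Test_cont {ψ : ℝ → ℝ} (h : Test ψ) : Continuous ψ := (h.smooth 0).continuous

theorem fq_cont (b k : ℝ) : Continuous (fq b k) := by unfold fq; fun_prop

theorem fqL_cont (L b k : ℝ) : Continuous (fqL L b k) := by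
  unfold fqL; exact (fq_cont b k).max continuous_const

/-- the variational value is below the limit of the truncated pressures -/
theorem Pv_le_iInf (W : BS) (hM : VMONO W) (hZ : VZERO W) {α b k L : ℝ} (hα : 0 < α) (hb : 0 < b)
    {ψ : ℝ → ℝ} (hψc : Continuous ψ) (hψb : ∃ K, ∀ x, |ψ x| ≤ K) :
    ((W.Pv α fun x => fq b k x + ψ x : ℝ) : EReal)
      ≤ ⨅ m : OverlapProfile, variationalFunctional W.P W.B W.meas α 1
        (fun x => fqL L b k x + ψ x) m := by
  refine le_iInf fun m => ?_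
  unfold variationalFunctional
  by_cases hm : m.entropy = ⊤
  · rw [hm, EReal.coe_ennreal_top, EReal.coe_add_top]
    exact le_top
  · have e1 : (m.entropy : EReal) = ((m.entropy.toReal : ℝ) : EReal) := by
      rw [EReal.coe_ennreal_toReal hm]
    rw [e1, ← EReal.coe_add, EReal.coe_le_coe_iff]
    have hbdd : BddBelow (W.vals α fun x => fq b k x + ψ x) := by
      refine ⟨α * ∫ z, (fq b k z + ψ z) ∂(gaussianReal 0 1), ?_⟩
      rintro x ⟨m', _, rfl⟩
      have h1 := mul_le_mul_of_nonneg_left (hZ b k hb ψ hψc hψb m') hα.le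
      have h2 : 0 ≤ m'.entropy.toReal := ENNReal.toReal_nonneg
      linarith
    have h3 : W.Pv α (fun x => fq b k x + ψ x)
        ≤ α * W.V (fun x => fq b k x + ψ x) m + m.entropy.toReal :=
      csInf_le hbdd ⟨m, hm, rfl⟩
    have h4 := mul_le_mul_of_nonneg_left (hM b k L hb ψ hψc hψb m) hα.le
    have h5 : controlValue W.P W.B W.meas (fun x => 1 * (fqL L b k x + ψ x)) m
        = W.V (fun x => fqL L b k x + ψ x) m := by
      simp only [one_mul]; rfl
    rw [h5]
    linarith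

theorem pM_eq_eP (N : ℕ) (α ε : ℝ) (f : ℝ → ℝ) :
    pM N α ε f = Assoc_323.eP (mixtureLaw ε) α f N := rfl

/-- **LINDLB** -/
theorem LINDLB_of (W : BS) (h6 : S6 W) (hM : VMONO W) (hZ : VZERO W) : LINDLB W := by
  intro ε hε0 hε1 α b k hα hb ψ hψ δ hδ
  obtain ⟨T, hT⟩ := Test_bdd hψ
  obtain ⟨C, hC0, hC⟩ := Test_lip hψ
  have hψc := Test_cont hψ
  -- choose the truncation level
  obtain ⟨n, hn⟩ := ((Assoc_323.tendsto_cL α hb k T).eventually
    (gt_mem_nhds (show (0 : ℝ) < δ / 3 by positivity))).exists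
  set L : ℝ := (n : ℝ) with hL
  have hL0 : 0 ≤ L := Nat.cast_nonneg n
  set fL : ℝ → ℝ := fun x => fqL L b k x + ψ x with hfL
  have hfLb : ∀ x, |fL x| ≤ L + T := by
    intro x
    refine (abs_add_le _ _).trans (add_le_add ?_ (hT x))
    rw [abs_of_nonpos (fqL_nonpos hb hL0 k x)]
    linarith [neg_le_fqL L b k x]
  have hfLl : ∀ x y, |fL x - fL y| ≤ (b * Real.sqrt (2 * L / b) + C) * |x - y| := by
    intro x y
    have e : fL x - fL y = (fqL L b k x - fqL L b k y) + (ψ x - ψ y) := by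
      simp only [hfL]; ring
    rw [e, add_mul]
    exact (abs_add_le _ _).trans (add_le_add (fqL_lip hb hL0 k x y) (hC x y))
  have hfLc : Continuous fL := (fqL_cont L b k).add hψc
  obtain ⟨p, hp1, hp2, -⟩ := h6 α 1 hα one_pos fL hfLc ⟨_, hfLb⟩
  have hPv : W.Pv α (fun x => fq b k x + ψ x) ≤ p := by
    have := Pv_le_iInf W hM hZ (L := L) hα hb hψc ⟨T, hT⟩ (k := k)
    rw [hp1] at this
    exact EReal.coe_le_coe_iff.1 this
  have e1 : ∀ᶠ N : ℕ in atTop, p - δ / 3 < expectedPressure N α 1 fL :=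
    hp2.eventually (lt_mem_nhds (by linarith))
  have e2 := mixPressure_ge_lip hα.le hε0 hε1 hfLb hfLl (η := δ / 3) (by positivity)
  have hgood : RepairLaw_840.Good (mixtureLaw ε) := RepairLaw_840.good_mixtureLaw ε hε0 hε1.le
  filter_upwards [e1, e2, eventually_gt_atTop 0] with N a1 a2 hN
  have htr := (Assoc_323.eP_trunc hgood (α := α) (b := b) hα.le hb k (θ := ψ) hψc.measurable hT
    (L := L) hL0 hN).2
  have e3 : Assoc_323.eP (mixtureLaw ε) α (fun x => max (Assoc_323.qp b k x) (-L) + ψ x) N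
      = ∫ g, spherePressure N α 1 fL g ∂(patternLawMix N α ε) := rfl
  have e4 : Assoc_323.eP (mixtureLaw ε) α (fun x => Assoc_323.qp b k x + ψ x) N
      = pM N α ε (fun x => fq b k x + ψ x) := rfl
  rw [e3, e4] at htr
  linarith

end Crest.Agent.R146L878
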