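import Crest.Agent.R146.SysA_52

/-!
Row 146, statement S0206 (S6 project): `HCONC` of `S6U_988` (helper52): contact from above in the
strength `s g` ⇒ thermal and disorder concentration of the field observable `Dobs g`.
-/

set_option autoImplicit false

namespace Crest.Agent.R146.HConc_52

open Finset MeasureTheory ProbabilityTheory Crest.Agent.R141
open Crest.Agent.R146.S6Def_988
open Crest.Agent.R164
open Crest.Agent.R146.SysA_52

noncomputable section

variable {N : ℕ} {C : Cfg N} {nc n : ℕ} {M : ℕ} {f : ℕ → ℝ → ℝ} {K : ℝ}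

/-- integral of the free energy -/
def IPhi (C : Cfg N) (nc n : ℕ) (f : ℕ → ℝ → ℝ) (M : ℕ) (s : Fin nc → ℝ) : ℝ :=
  ∫ G, Phi C nc n (M := M) f G s ∂(gam M N)

theorem Phi_zero (G : Fin M → Fin N → ℝ) (s : Fin nc → ℝ) (g : Fin nc) :
    Phi C nc n f G s = ObsConc.gA (prior C nc n) (fil C nc n) (xs nc n) (UU f G s)
      (fun ω => N * Dobs C nc n g ω) 0 := by
  have := Phi_update (C := C) (n := n) (f := f) G s g (s g)
  rwa [Function.update_eq_self, sub_self] at this

theorem Phi_mid (G : Fin M → Fin N → ℝ) (s : Fin nc → ℝ) (g : Fin nc) (t : ℝ) :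
    2 * Phi C nc n f G s ≤ Phi C nc n f G (Function.update s g (s g + t)) +
      Phi C nc n f G (Function.update s g (s g - t)) := by
  rw [Phi_update, Phi_update, Phi_zero G s g]
  have hc := ObsConc.convexOn_gA (𝓕 := fil C nc n) (prior_isProb C nc n) (xs_pos nc n)
    (fil_zero C nc n) (UU f G s) (fun ω => N * Dobs C nc n g ω)
  have h := hc.2 (Set.mem_univ t) (Set.mem_univ (-t)) (by norm_num : (0:ℝ) ≤ 1 / 2)
    (by norm_num : (0:ℝ) ≤ 1 / 2) (by norm_num)
  have e1 : (1 / 2 : ℝ) • t + (1 / 2 : ℝ) • (-t) = 0 := by simp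
  rw [e1, smul_eq_mul, smul_eq_mul] at h
  have e2 : s g + t - s g = t := by ring
  have e3 : s g - t - s g = -t := by ring
  rw [e2, e3]
  linarith

theorem IPhi_mid (hf : ∀ a, Measurable (f a)) (hK : ∀ a x, |f a x| ≤ K) (s : Fin nc → ℝ)
    (g : Fin nc) (t : ℝ) :
    2 * IPhi C nc n f M s ≤ IPhi C nc n f M (Function.update s g (s g + t)) +
      IPhi C nc n f M (Function.update s g (s g - t)) := by
  unfold IPhi
  rw [← integral_const_mul, ← integral_add (integrable_Phi hf hK _) (integrable_Phi hf hK _)]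
  exact integral_mono ((integrable_Phi hf hK _).const_mul _)
    ((integrable_Phi hf hK _).add (integrable_Phi hf hK _)) fun G => Phi_mid G s g t

/-- the averaged concentration estimate with the second difference of the averaged free energy. -/
theorem conc_of_diff (hN : 0 < N) (hf : ∀ a, Measurable (f a)) (hK : ∀ a x, |f a x| ≤ K)
    (s : Fin nc → ℝ) (g : Fin nc) {t : ℝ} (ht : 0 < t) :
    ∃ d : ℝ, t * N * ∫ G, eE (QQ C nc n (M := M) f G s) (fun ω => |Dobs C nc n g ω - d|)
      ∂(gam M N) ≤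
      2 * (IPhi C nc n f M (Function.update s g (s g + t)) +
        IPhi C nc n f M (Function.update s g (s g - t)) - 2 * IPhi C nc n f M s) +
      8 * (2 * K * Real.sqrt (M / 2)) + Real.log 2 * (nc + 1) := by
  set f0 := IPhi C nc n f M s with hf0
  set fp := IPhi C nc n f M (Function.update s g (s g + t)) with hfp
  set fm := IPhi C nc n f M (Function.update s g (s g - t)) with hfm
  have hN' : (0 : ℝ) < N := by exact_mod_cast hN
  set c := (fp - f0) / t with hc
  have htc : t * c = fp - f0 := by rw [hc]; field_simp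
  have hmid : 2 * f0 ≤ fp + fm := IPhi_mid hf hK s g t
  have hpt : ∀ G : Fin M → Fin N → ℝ,
      t * N * eE (QQ C nc n f G s) (fun ω => |Dobs C nc n g ω - c / N|) ≤
        (2 * (fp + fm - 2 * f0) + Real.log 2 * (nc + 1)) +
        (2 * |Phi C nc n f G (Function.update s g (s g + t)) - fp| +
        (2 * |Phi C nc n f G (Function.update s g (s g - t)) - fm| +
        4 * |Phi C nc n f G s - f0|)) := by
    intro G
    have h := ObsConc.obs_pt (𝓕 := fil C nc n) (prior_isProb C nc n) (xs_pos nc n)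
      (fil_zero C nc n) (xm := 1 / ((nc : ℝ) + 1)) (by positivity) (xs_ge nc n) (UU f G s)
      (fun ω => N * Dobs C nc n g ω) ht (f0 := f0) (fp := fp) (fm := fm) (c := c)
      htc.le (by rw [htc]; linarith)
    have e1 : ObsConc.gA (prior C nc n) (fil C nc n) (xs nc n) (UU f G s)
        (fun ω => N * Dobs C nc n g ω) t = Phi C nc n f G (Function.update s g (s g + t)) := by
      rw [Phi_update]; congr 1; ring
    have e2 : ObsConc.gA (prior C nc n) (fil C nc n) (xs nc n) (UU f G s)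
        (fun ω => N * Dobs C nc n g ω) (-t) = Phi C nc n f G (Function.update s g (s g - t)) := by
      rw [Phi_update]; congr 1; ring
    have e3 : eE (prior C nc n) (A (prior C nc n) (fil C nc n) (xs nc n) (UU f G s) 0) =
      Phi C nc n f G s := rfl
    have e4 : eE (tl (prior C nc n) (fil C nc n) (xs nc n) (UU f G s))
        (fun w => |N * Dobs C nc n g w - c|) =
        N * eE (QQ C nc n f G s) (fun ω => |Dobs C nc n g ω - c / N|) := by
      rw [← eE_smul]
      unfold QQ
      congr 1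
      funext ω
      have : (N : ℝ) * Dobs C nc n g ω - c = N * (Dobs C nc n g ω - c / N) := by
        field_simp
      rw [this, abs_mul, abs_of_pos hN']
    rw [e1, e2, e3, e4] at h
    have e5 : Real.log 2 / (1 / ((nc : ℝ) + 1)) = Real.log 2 * (nc + 1) := by
      rw [one_div, div_inv_eq_mul]
    rw [e5] at h
    linarith
  refine ⟨c / N, ?_⟩
  have i0 := (integrable_Phi (C := C) (nc := nc) (n := n) (M := M) hf hK s)
  have ip := (integrable_Phi (C := C) (nc := nc) (n := n) (M := M) hf hK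
    (Function.update s g (s g + t)))
  have im := (integrable_Phi (C := C) (nc := nc) (n := n) (M := M) hf hK
    (Function.update s g (s g - t)))
  have j0 : Integrable (fun G : Fin M → Fin N → ℝ => 4 * |Phi C nc n f G s - f0|) (gam M N) :=
    ((i0.sub (integrable_const f0)).abs).const_mul 4
  have jp : Integrable (fun G : Fin M → Fin N → ℝ =>
      2 * |Phi C nc n f G (Function.update s g (s g + t)) - fp|) (gam M N) :=
    ((ip.sub (integrable_const fp)).abs).const_mul 2
  have jm : Integrable (fun G : Fin M → Fin N → ℝ =>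
      2 * |Phi C nc n f G (Function.update s g (s g - t)) - fm|) (gam M N) :=
    ((im.sub (integrable_const fm)).abs).const_mul 2
  have d0 : ∫ G, |Phi C nc n (M := M) f G s - f0| ∂(gam M N) ≤ 2 * K * Real.sqrt (M / 2) :=
    Phi_dev hf hK s
  have dp : ∫ G, |Phi C nc n (M := M) f G (Function.update s g (s g + t)) - fp| ∂(gam M N) ≤
      2 * K * Real.sqrt (M / 2) := Phi_dev hf hK _
  have dm : ∫ G, |Phi C nc n (M := M) f G (Function.update s g (s g - t)) - fm| ∂(gam M N) ≤
      2 * K * Real.sqrt (M / 2) := Phi_dev hf hK _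
  rw [← integral_const_mul]
  refine (integral_mono ((integrable_eE_QQ hf s _).const_mul _)
    ((integrable_const _).add (jp.add (jm.add j0))) hpt).trans ?_
  rw [integral_add' (integrable_const _) (jp.add (jm.add j0)), integral_add' jp (jm.add j0),
    integral_add' jm j0, integral_const_mul, integral_const_mul, integral_const_mul]
  simp only [integral_const, probReal_univ, one_smul]
  linarith

theorem num1 {N Fp Fm F0 S sg t F' : ℝ} (hN : 0 ≤ N)
    (u1 : Fp ≤ F0 + F' * (sg + t - sg) + (sg + t - sg) ^ 2)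
    (u2 : Fm ≤ F0 + F' * (sg - t - sg) + (sg - t - sg) ^ 2) :
    N * (Fp + 1 / 2 * (S + ((sg + t) ^ 2 - sg ^ 2))) +
      N * (Fm + 1 / 2 * (S + ((sg - t) ^ 2 - sg ^ 2))) - 2 * (N * (F0 + 1 / 2 * S)) ≤
      3 * N * t ^ 2 := by
  have h1 : Fp + Fm - 2 * F0 ≤ 2 * t ^ 2 := by linarith
  have h2 := mul_le_mul_of_nonneg_left h1 hN
  linarith

theorem num2 {N K a b t δ : ℝ} (hN : 0 ≤ N) (hK : 0 ≤ K) (h1 : a ≤ b * Real.sqrt N)
    (h2 : 64 * K * b ≤ Real.sqrt N * (t * δ)) : 8 * (2 * K * a) ≤ N * (t * δ) / 4 := by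
  have h3 : K * a ≤ K * (b * Real.sqrt N) := mul_le_mul_of_nonneg_left h1 hK
  have h4 : 64 * K * b * Real.sqrt N ≤ Real.sqrt N * (t * δ) * Real.sqrt N :=
    mul_le_mul_of_nonneg_right h2 (Real.sqrt_nonneg _)
  have h5 : Real.sqrt N * (t * δ) * Real.sqrt N = N * (t * δ) := by
    calc Real.sqrt N * (t * δ) * Real.sqrt N = (Real.sqrt N * Real.sqrt N) * (t * δ) := by ring
      _ = _ := by rw [Real.mul_self_sqrt hN]
  rw [h5] at h4
  linarith

theorem num3 {N X I a c t δ : ℝ} (hN : 0 ≤ N) (ht : 0 ≤ t) (ht1 : t ≤ δ / 12)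
    (hX : t * N * X ≤ 2 * I + a + c) (hI : I ≤ 3 * N * t ^ 2) (ha : a ≤ N * (t * δ) / 4)
    (hc : 4 * c ≤ N * (t * δ)) : t * N * X ≤ t * N * δ := by
  have h1 : t * t ≤ t * (δ / 12) := mul_le_mul_of_nonneg_left ht1 ht
  have h2 : N * (t * t) ≤ N * (t * (δ / 12)) := mul_le_mul_of_nonneg_left h1 hN
  linarith

theorem hconc : S6U_988.HCONC := by
  intro nc b0 A K αm δ hb0 hbA hδ
  set t : ℝ := min (δ / 12) (min (b0 / 3) 1) with ht
  have ht0 : 0 < t := lt_min (by positivity) (lt_min (by positivity) one_pos)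
  have ht1 : t ≤ δ / 12 := min_le_left _ _
  have ht2 : t ≤ b0 / 3 := (min_le_right _ _).trans (min_le_left _ _)
  have ht3 : t ≤ 1 := (min_le_right _ _).trans (min_le_right _ _)
  set c2 : ℝ := Real.log 2 * (nc + 1) with hc2
  obtain ⟨N1, hN1⟩ := exists_nat_ge ((64 * K * Real.sqrt (αm / 2) / (t * δ)) ^ 2)
  obtain ⟨N2, hN2⟩ := exists_nat_ge (4 * c2 / (t * δ))
  refine ⟨max 1 (max N1 N2), ?_⟩
  intro N hN n hn C f M hM hf hK s hs g F' hF
  have hN0 : 0 < N := lt_of_lt_of_le one_pos ((le_max_left _ _).trans hN)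
  have hN' : (0 : ℝ) < N := by exact_mod_cast hN0
  have hN1' : (N1 : ℝ) ≤ N := by
    exact_mod_cast ((le_max_left _ _).trans (le_max_right _ _)).trans hN
  have hN2' : (N2 : ℝ) ≤ N := by
    exact_mod_cast ((le_max_right _ _).trans (le_max_right _ _)).trans hN
  obtain ⟨d, hd⟩ := conc_of_diff (C := C) (n := n) (M := M) hN0 hf hK s g ht0
  refine ⟨d, ?_⟩
  set X := ∫ G, eE (QQ C nc n (M := M) f G s) (fun ω => |Dobs C nc n g ω - d|) ∂(gam M N) with hX
  -- second difference
  have hs1 := hs g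
  have u1 := hF (s g + t) ⟨by linarith, by linarith⟩
  have u2 := hF (s g - t) ⟨by linarith, by linarith⟩
  have e : ∀ y : ℝ, IPhi C nc n f M (Function.update s g y) =
      N * (FN C nc n f M (Function.update s g y) +
        1 / 2 * (∑ h, s h ^ 2 + (y ^ 2 - s g ^ 2))) := fun y => by
    unfold IPhi
    rw [FN_mul hN0, sum_sq_update]
  have e0 : IPhi C nc n f M s = N * (FN C nc n f M s + 1 / 2 * ∑ h, s h ^ 2) := by
    unfold IPhi
    rw [FN_mul hN0]
  have hdiff : IPhi C nc n f M (Function.update s g (s g + t)) +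
      IPhi C nc n f M (Function.update s g (s g - t)) - 2 * IPhi C nc n f M s ≤ 3 * N * t ^ 2 := by
    rw [e, e, e0]
    exact num1 hN'.le u1 u2
  -- the fluctuation
  have hK0 : 0 ≤ K := (abs_nonneg _).trans (hK 0 0)
  have hsq : Real.sqrt (M / 2) ≤ Real.sqrt (αm / 2) * Real.sqrt N := by
    rw [← Real.sqrt_mul' _ hN'.le]
    refine Real.sqrt_le_sqrt ?_
    linarith
  have htδ : 0 < t * δ := mul_pos ht0 hδ
  have hs2 : 64 * K * Real.sqrt (αm / 2) / (t * δ) ≤ Real.sqrt N :=
    Real.le_sqrt_of_sq_le (hN1.trans hN1')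
  have hs3 : 64 * K * Real.sqrt (αm / 2) ≤ Real.sqrt N * (t * δ) := (div_le_iff₀ htδ).mp hs2
  have hs4 : 4 * c2 ≤ N * (t * δ) := (div_le_iff₀ htδ).mp (hN2.trans hN2')
  exact le_of_mul_le_mul_left (num3 hN'.le ht0.le ht1 hd hdiff (num2 hN'.le hK0 hsq hs3) hs4)
    (mul_pos ht0 hN')

end

end Crest.Agent.R146.HConc_52
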