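import Crest.Agent.R146.S6U_988

/-!
Row 146, S0206: the language of the levels `P` of the step profiles `mP J P` (helper911).

* `tail_mP`      : `(mP J P).tail t = (J+1)⁻¹ ∑_j (1 - max (P j) t)`;
* `tail_mP_lev`  : `(mP J P).tail (P j) = DP J P j`;
* `sum_le_of_tail_le`, `tail_le_of_sum_le` : order of the tails = order of the tail sums;
* `ent` (ENT), `apx` (APX), `approx_above`, `monod` (MONOd from MONO and LIP);
* `entropy_anti`, `entropy_eq_ofReal`, `tail_mono`, `continuous_tail`, `abs_tail_sub_le`.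
-/

set_option autoImplicit false

namespace Crest.Agent.R146.MonB_911

open Finset MeasureTheory Crest.ProbabilityR.Perceptron Crest.Agent.R146.S6Def_988

noncomputable section

/-! ### values of the step profile -/

theorem mP_toFun (J : ℕ) (P : ℕ → ℝ) (t : ℝ) :
    (mP J P).toFun t = ((J : ℝ) + 1)⁻¹ * ∑ j ∈ range (J + 1), if P j ≤ t then (1 : ℝ) else 0 := by
  classical
  have h : (mP J P).toFun t = (((range (J + 1)).filter fun j => P j ≤ t).card : ℝ) / ((J : ℝ) + 1) := by
    unfold mP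
    simp only
  rw [h, div_eq_inv_mul]
  congr 1
  rw [Finset.sum_ite, Finset.sum_const_zero, add_zero, Finset.sum_const, nsmul_eq_mul, mul_one]

theorem intervalIntegrable_mono (m : OverlapProfile) (a b : ℝ) :
    IntervalIntegrable m.toFun volume a b := m.mono.intervalIntegrable

theorem integral_ite_le (c t : ℝ) (hc : c ≤ 1) (ht : t ≤ 1) :
    (∫ s in t..1, if c ≤ s then (1 : ℝ) else 0) = 1 - max c t := by
  have h1 : ∀ a b : ℝ, IntervalIntegrable (fun s => if c ≤ s then (1 : ℝ) else 0) volume a b := by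
    intro a b
    refine Monotone.intervalIntegrable ?_
    intro x y hxy
    dsimp only
    split_ifs with h1 h2
    · exact le_rfl
    · exact absurd (h1.trans hxy) h2
    · norm_num
    · exact le_rfl
  have hm : t ≤ max c t := le_max_right _ _
  have hm1 : max c t ≤ 1 := max_le hc ht
  rw [← intervalIntegral.integral_add_adjacent_intervals (h1 t (max c t)) (h1 (max c t) 1)]
  have e1 : (∫ s in t..max c t, if c ≤ s then (1 : ℝ) else 0) = 0 := by
    rcases le_total c t with h | h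
    · rw [max_eq_right h, intervalIntegral.integral_same]
    · rw [max_eq_left h]
      have : (∫ s in t..c, if c ≤ s then (1 : ℝ) else 0) = ∫ s in t..c, (0 : ℝ) := by
        refine intervalIntegral.integral_congr_ae ?_
        have hne : ∀ᵐ s : ℝ ∂volume, s ≠ c := by
          rw [ae_iff]; simp
        filter_upwards [hne] with s hs hs2
        rw [Set.uIoc_of_le h] at hs2
        rw [if_neg]
        exact not_le.2 (lt_of_le_of_ne hs2.2 hs)
      rw [this]; simp
  have e2 : (∫ s in max c t..1, if c ≤ s then (1 : ℝ) else 0) = 1 - max c t := by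
    have : (∫ s in max c t..1, if c ≤ s then (1 : ℝ) else 0) = ∫ s in max c t..1, (1 : ℝ) := by
      refine intervalIntegral.integral_congr ?_
      intro s hs
      rw [Set.uIcc_of_le hm1] at hs
      dsimp only
      rw [if_pos ((le_max_left c t).trans hs.1)]
    rw [this]; simp
  rw [e1, e2, zero_add]

theorem tail_mP {J : ℕ} {P : ℕ → ℝ} (hP : Lev J P) {t : ℝ} (ht : t ≤ 1) :
    (mP J P).tail t = ((J : ℝ) + 1)⁻¹ * ∑ j ∈ range (J + 1), (1 - max (P j) t) := by
  unfold OverlapProfile.tail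
  simp_rw [mP_toFun]
  rw [intervalIntegral.integral_const_mul, intervalIntegral.integral_finsetSum]
  · congr 1
    refine Finset.sum_congr rfl fun j hj => ?_
    refine integral_ite_le (P j) t ?_ ht
    exact (hP.mono j J (by rw [mem_range] at hj; omega) le_rfl).trans hP.le_one
  · intro j _
    refine Monotone.intervalIntegrable ?_
    intro x y hxy
    dsimp only
    split_ifs with h1 h2
    · exact le_rfl
    · exact absurd (h1.trans hxy) h2
    · norm_num
    · exact le_rfl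

theorem one_sub_max (p t : ℝ) : 1 - max p t = (1 - t) - max (p - t) 0 := by
  rcases le_total p t with h | h
  · rw [max_eq_right h, max_eq_right (by linarith)]; ring
  · rw [max_eq_left h, max_eq_left (by linarith)]; ring

/-- tail through positive parts -/
theorem tail_mP' {J : ℕ} {P : ℕ → ℝ} (hP : Lev J P) {t : ℝ} (ht : t ≤ 1) :
    (mP J P).tail t = (1 - t) - ((J : ℝ) + 1)⁻¹ * ∑ j ∈ range (J + 1), max (P j - t) 0 := by
  rw [tail_mP hP ht]
  simp_rw [one_sub_max]
  rw [Finset.sum_sub_distrib, Finset.sum_const, card_range, nsmul_eq_mul, mul_sub]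
  congr 1
  push_cast
  field_simp

theorem sum_posPart_lev {J : ℕ} {P : ℕ → ℝ} (hP : Lev J P) {k : ℕ} (hk : k ≤ J) :
    ∑ j ∈ range (J + 1), max (P j - P k) 0 = ∑ j ∈ Ico k (J + 1), (P j - P k) := by
  rw [← Finset.sum_range_add_sum_Ico _ (show k ≤ J + 1 by omega)]
  have h1 : ∑ j ∈ range k, max (P j - P k) 0 = 0 := by
    refine Finset.sum_eq_zero fun j hj => ?_
    rw [mem_range] at hj
    exact max_eq_right (by linarith [hP.mono j k hj.le hk])
  rw [h1, zero_add]
  refine Finset.sum_congr rfl fun j hj => ?_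
  rw [mem_Ico] at hj
  exact max_eq_left (by linarith [hP.mono k j hj.1 (by omega)])

/-- order of the tails gives order of the tail sums -/
theorem sum_le_of_tail_le {J : ℕ} {P Q : ℕ → ℝ} (hP : Lev J P) (hQ : Lev J Q) {δ : ℝ}
    (h : ∀ t ∈ Set.Icc (0 : ℝ) 1, (mP J P).tail t ≤ (mP J Q).tail t + δ) {k : ℕ} (hk : k ≤ J) :
    ∑ j ∈ Ico k (J + 1), Q j - δ * (J + 1) ≤ ∑ j ∈ Ico k (J + 1), P j := by
  have hPk0 : 0 ≤ P k := hP.nonneg.trans (hP.mono 0 k (Nat.zero_le _) hk)
  have hPk1 : P k ≤ 1 := (hP.mono k J hk le_rfl).trans hP.le_one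
  have h1 := h (P k) ⟨hPk0, hPk1⟩
  rw [tail_mP' hP hPk1, tail_mP' hQ hPk1, sum_posPart_lev hP hk] at h1
  have hJ : (0 : ℝ) < (J : ℝ) + 1 := by positivity
  have h2 : ((J : ℝ) + 1)⁻¹ * ∑ j ∈ range (J + 1), max (Q j - P k) 0 ≤
      ((J : ℝ) + 1)⁻¹ * ∑ j ∈ Ico k (J + 1), (P j - P k) + δ := by linarith
  have h3 : ∑ j ∈ range (J + 1), max (Q j - P k) 0 ≤
      ∑ j ∈ Ico k (J + 1), (P j - P k) + δ * (J + 1) := by
    have := mul_le_mul_of_nonneg_left h2 hJ.le
    rw [mul_add, ← mul_assoc, ← mul_assoc, mul_inv_cancel₀ hJ.ne', one_mul, one_mul] at this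
    linarith
  have h4 : ∑ j ∈ Ico k (J + 1), (Q j - P k) ≤ ∑ j ∈ range (J + 1), max (Q j - P k) 0 := by
    rw [← Finset.sum_range_add_sum_Ico _ (show k ≤ J + 1 by omega)]
    have h5 : 0 ≤ ∑ j ∈ range k, max (Q j - P k) 0 :=
      Finset.sum_nonneg fun j _ => le_max_right _ _
    have h6 : ∑ j ∈ Ico k (J + 1), (Q j - P k) ≤ ∑ j ∈ Ico k (J + 1), max (Q j - P k) 0 :=
      Finset.sum_le_sum fun j _ => le_max_left _ _
    linarith
  rw [Finset.sum_sub_distrib] at h3 h4
  linarith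

/-- order of the tail sums gives order of the tails -/
theorem tail_le_of_sum_le {J : ℕ} {P Q : ℕ → ℝ} (hP : Lev J P) (hQ : Lev J Q) {δ : ℝ}
    (hδ : 0 ≤ δ)
    (h : ∀ k ≤ J, ∑ j ∈ Ico k (J + 1), Q j - δ * (J + 1) ≤ ∑ j ∈ Ico k (J + 1), P j)
    {t : ℝ} (ht : t ≤ 1) : (mP J P).tail t ≤ (mP J Q).tail t + δ := by
  have hJ : (0 : ℝ) < (J : ℝ) + 1 := by positivity
  rw [tail_mP' hP ht, tail_mP' hQ ht]
  suffices hs : ∑ j ∈ range (J + 1), max (Q j - t) 0 ≤
      ∑ j ∈ range (J + 1), max (P j - t) 0 + δ * (J + 1) by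
    have := mul_le_mul_of_nonneg_left hs (inv_pos.2 hJ).le
    rw [mul_add, mul_comm δ, ← mul_assoc _ _ δ, inv_mul_cancel₀ hJ.ne', one_mul] at this
    linarith
  by_cases hall : ∀ j ≤ J, Q j < t
  · have h0 : ∑ j ∈ range (J + 1), max (Q j - t) 0 = 0 := by
      refine Finset.sum_eq_zero fun j hj => ?_
      rw [mem_range] at hj
      exact max_eq_right (by linarith [hall j (by omega)])
    rw [h0]
    have : 0 ≤ ∑ j ∈ range (J + 1), max (P j - t) 0 :=
      Finset.sum_nonneg fun j _ => le_max_right _ _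
    positivity
  · push Not at hall
    classical
    have hex : ∃ j, j ≤ J ∧ t ≤ Q j := hall
    obtain ⟨hk1, hk2⟩ := Nat.find_spec hex
    set k := Nat.find hex with hkdef
    have hmin : ∀ j < k, Q j < t := by
      intro j hj
      have := Nat.find_min hex hj
      rw [not_and, not_le] at this
      exact this (by omega)
    have e1 : ∑ j ∈ range (J + 1), max (Q j - t) 0 = ∑ j ∈ Ico k (J + 1), (Q j - t) := by
      rw [← Finset.sum_range_add_sum_Ico _ (show k ≤ J + 1 by omega)]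
      have h1 : ∑ j ∈ range k, max (Q j - t) 0 = 0 := by
        refine Finset.sum_eq_zero fun j hj => ?_
        rw [mem_range] at hj
        exact max_eq_right (by linarith [hmin j hj])
      rw [h1, zero_add]
      refine Finset.sum_congr rfl fun j hj => ?_
      rw [mem_Ico] at hj
      exact max_eq_left (by linarith [hQ.mono k j hj.1 (by omega)])
    have e2 : ∑ j ∈ Ico k (J + 1), (P j - t) ≤ ∑ j ∈ range (J + 1), max (P j - t) 0 := by
      rw [← Finset.sum_range_add_sum_Ico _ (show k ≤ J + 1 by omega)]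
      have h5 : 0 ≤ ∑ j ∈ range k, max (P j - t) 0 :=
        Finset.sum_nonneg fun j _ => le_max_right _ _
      have h6 : ∑ j ∈ Ico k (J + 1), (P j - t) ≤ ∑ j ∈ Ico k (J + 1), max (P j - t) 0 :=
        Finset.sum_le_sum fun j _ => le_max_left _ _
      linarith
    have h7 := h k hk1
    rw [Finset.sum_sub_distrib] at e1 e2
    linarith

/-- the tail at the levels is `DP` -/
theorem tail_mP_lev {J : ℕ} {P : ℕ → ℝ} (hP : Lev J P) {j : ℕ} (hj : j ≤ J) :
    (mP J P).tail (P j) = DP J P j := by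
  have hJ : (0 : ℝ) < (J : ℝ) + 1 := by positivity
  have hle : ∀ i ≤ J, P i ≤ 1 := fun i hi => (hP.mono i J hi le_rfl).trans hP.le_one
  induction hd : J - j generalizing j with
  | zero =>
    have : j = J := by omega
    subst this
    rw [tail_mP' hP (hle j le_rfl), sum_posPart_lev hP le_rfl]
    unfold DP
    simp
  | succ d ih =>
    have ih' := ih (j := j + 1) (by omega) (by omega)
    have hD : DP J P j = DP J P (j + 1) + ((j : ℝ) + 1) / ((J : ℝ) + 1) * (P (j + 1) - P j) := by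
      unfold DP
      rw [Finset.sum_eq_sum_Ico_succ_bot (show j + 1 < J + 1 by omega)]
      push_cast
      ring
    rw [hD, ← ih', tail_mP' hP (hle j hj), tail_mP' hP (hle (j + 1) (by omega)),
      sum_posPart_lev hP hj, sum_posPart_lev hP (show j + 1 ≤ J by omega)]
    rw [Finset.sum_eq_sum_Ico_succ_bot (show j < J + 1 by omega), sub_self, zero_add,
      Finset.sum_sub_distrib, Finset.sum_sub_distrib]
    simp only [Finset.sum_const, Nat.card_Ico, nsmul_eq_mul]
    have hc : ((J + 1 - (j + 1) : ℕ) : ℝ) = (J : ℝ) - j := by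
      rw [Nat.cast_sub (by omega)]; push_cast; ring
    rw [hc]
    field_simp
    ring

/-! ### general facts on tails and entropy -/

theorem tail_nonneg (m : OverlapProfile) {t : ℝ} (ht : t ∈ Set.Icc (0 : ℝ) 1) : 0 ≤ m.tail t := by
  unfold OverlapProfile.tail
  refine intervalIntegral.integral_nonneg ht.2 fun s hs => m.nonneg s ⟨ht.1.trans hs.1, hs.2⟩

theorem tail_le_one_sub (m : OverlapProfile) {t : ℝ} (ht : t ∈ Set.Icc (0 : ℝ) 1) :
    m.tail t ≤ 1 - t := by
  unfold OverlapProfile.tail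
  have h : (∫ s in t..1, m.toFun s) ≤ ∫ s in t..1, (1 : ℝ) := by
    refine intervalIntegral.integral_mono_on ht.2 (intervalIntegrable_mono m t 1)
      intervalIntegrable_const fun s hs => m.le_one s ⟨ht.1.trans hs.1, hs.2⟩
  simpa using h

theorem tail_mono {m m' : OverlapProfile} (h : ∀ t ∈ Set.Icc (0 : ℝ) 1, m.toFun t ≤ m'.toFun t)
    {t : ℝ} (ht : t ∈ Set.Icc (0 : ℝ) 1) : m.tail t ≤ m'.tail t := by
  unfold OverlapProfile.tail
  exact intervalIntegral.integral_mono_on ht.2 (intervalIntegrable_mono m t 1)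
    (intervalIntegrable_mono m' t 1) fun s hs => h s ⟨ht.1.trans hs.1, hs.2⟩

theorem continuous_tail (m : OverlapProfile) : Continuous m.tail := by
  have h : m.tail = fun t => -∫ s in (1 : ℝ)..t, m.toFun s := by
    funext t
    unfold OverlapProfile.tail
    exact intervalIntegral.integral_symm _ _
  rw [h]
  exact (intervalIntegral.continuous_primitive (fun a b => intervalIntegrable_mono m a b) 1).neg

theorem abs_tail_sub_le (m m' : OverlapProfile) {t : ℝ} (ht : t ∈ Set.Icc (0 : ℝ) 1) :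
    |m.tail t - m'.tail t| ≤ ∫ s in (0 : ℝ)..1, |m.toFun s - m'.toFun s| := by
  unfold OverlapProfile.tail
  rw [← intervalIntegral.integral_sub (intervalIntegrable_mono m t 1)
    (intervalIntegrable_mono m' t 1)]
  have hI : ∀ a b : ℝ, IntervalIntegrable (fun s => |m.toFun s - m'.toFun s|) volume a b :=
    fun a b => ((intervalIntegrable_mono m a b).sub (intervalIntegrable_mono m' a b)).abs
  calc |∫ s in t..1, (m.toFun s - m'.toFun s)| ≤ ∫ s in t..1, |m.toFun s - m'.toFun s| :=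
        intervalIntegral.abs_integral_le_integral_abs ht.2
    _ ≤ ∫ s in (0 : ℝ)..1, |m.toFun s - m'.toFun s| := by
        rw [← intervalIntegral.integral_add_adjacent_intervals (hI 0 t) (hI t 1)]
        have : 0 ≤ ∫ s in (0 : ℝ)..t, |m.toFun s - m'.toFun s| :=
          intervalIntegral.integral_nonneg ht.1 fun s _ => abs_nonneg _
        linarith

/-- the entropy is antitone in the tail -/
theorem entropy_anti {m m' : OverlapProfile}
    (h : ∀ t ∈ Set.Icc (0 : ℝ) 1, m.tail t ≤ m'.tail t) : m'.entropy ≤ m.entropy := by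
  unfold OverlapProfile.entropy
  refine ENNReal.div_le_div_right ?_ _
  refine setLIntegral_mono' measurableSet_Icc fun t ht => ?_
  refine tsub_le_tsub_right ?_ _
  exact ENNReal.inv_le_inv.2 (ENNReal.ofReal_le_ofReal (h t ht))

/-- the integrand of the entropy -/
theorem entropy_integrand (m : OverlapProfile) {t : ℝ} (ht : t ∈ Set.Ico (0 : ℝ) 1)
    (hD : 0 < m.tail t) :
    (ENNReal.ofReal (m.tail t))⁻¹ - (ENNReal.ofReal (1 - t))⁻¹ =
      ENNReal.ofReal ((m.tail t)⁻¹ - (1 - t)⁻¹) := by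
  have h1 : 0 < 1 - t := by linarith [ht.2]
  rw [← ENNReal.ofReal_inv_of_pos hD, ← ENNReal.ofReal_inv_of_pos h1,
    ENNReal.ofReal_sub _ (inv_nonneg.2 h1.le)]

theorem entropy_integrand_nonneg (m : OverlapProfile) {t : ℝ} (ht : t ∈ Set.Ico (0 : ℝ) 1)
    (hD : 0 < m.tail t) : 0 ≤ (m.tail t)⁻¹ - (1 - t)⁻¹ := by
  have h := tail_le_one_sub m ⟨ht.1, ht.2.le⟩
  have := inv_anti₀ hD h
  linarith

/-- real form of the entropy -/
theorem entropy_eq_ofReal (m : OverlapProfile) (hD : ∀ t ∈ Set.Ico (0 : ℝ) 1, 0 < m.tail t)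
    (hI : IntervalIntegrable (fun t => (m.tail t)⁻¹ - (1 - t)⁻¹) volume 0 1) :
    m.entropy = ENNReal.ofReal (1 / 2 * ∫ t in (0 : ℝ)..1, ((m.tail t)⁻¹ - (1 - t)⁻¹)) := by
  unfold OverlapProfile.entropy
  have e1 : (∫⁻ t in Set.Icc (0 : ℝ) 1,
      ((ENNReal.ofReal (m.tail t))⁻¹ - (ENNReal.ofReal (1 - t))⁻¹)) =
      ∫⁻ t in Set.Ico (0 : ℝ) 1, ENNReal.ofReal ((m.tail t)⁻¹ - (1 - t)⁻¹) := by
    rw [← setLIntegral_congr (Ico_ae_eq_Icc (μ := (volume : Measure ℝ)) (a := 0) (b := 1))]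
    exact setLIntegral_congr_fun measurableSet_Ico fun t ht => entropy_integrand m ht (hD t ht)
  have e2 : (∫ t in (0 : ℝ)..1, ((m.tail t)⁻¹ - (1 - t)⁻¹)) =
      ∫ t in Set.Ico (0 : ℝ) 1, ((m.tail t)⁻¹ - (1 - t)⁻¹) := by
    rw [intervalIntegral.integral_of_le zero_le_one]
    exact setIntegral_congr_set (Ico_ae_eq_Ioc (μ := (volume : Measure ℝ))).symm
  have hI' : IntegrableOn (fun t => (m.tail t)⁻¹ - (1 - t)⁻¹) (Set.Ico (0 : ℝ) 1) volume := by
    have := (intervalIntegrable_iff_integrableOn_Ioc_of_le zero_le_one).1 hI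
    exact (integrableOn_congr_set_ae (Ico_ae_eq_Ioc (μ := (volume : Measure ℝ)))).2 this
  rw [e1, ← ofReal_integral_eq_lintegral_ofReal hI', e2]
  · rw [one_div, mul_comm, ← div_eq_mul_inv, ENNReal.ofReal_div_of_pos two_pos]
    norm_num
  · refine (ae_restrict_iff' measurableSet_Ico).2 (Filter.Eventually.of_forall fun t ht => ?_)
    exact entropy_integrand_nonneg m ht (hD t ht)

/-! ### entropy of a step profile -/

/-- the tail inside a cell -/
theorem tail_mP_cell {J : ℕ} {P : ℕ → ℝ} (hP : Lev J P) {j : ℕ} (hj : j ≤ J) {t : ℝ}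
    (h1 : ∀ i < j, P i ≤ t) (h2 : t ≤ P j) :
    (mP J P).tail t = DP J P j + (j : ℝ) / ((J : ℝ) + 1) * (P j - t) := by
  have hJ : (0 : ℝ) < (J : ℝ) + 1 := by positivity
  have hPj : P j ≤ 1 := (hP.mono j J hj le_rfl).trans hP.le_one
  rw [← tail_mP_lev hP hj, tail_mP' hP (h2.trans hPj), tail_mP' hP hPj, sum_posPart_lev hP hj]
  have e1 : ∑ i ∈ range (J + 1), max (P i - t) 0 = ∑ i ∈ Ico j (J + 1), (P i - t) := by
    rw [← Finset.sum_range_add_sum_Ico _ (show j ≤ J + 1 by omega)]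
    have h3 : ∑ i ∈ range j, max (P i - t) 0 = 0 := by
      refine Finset.sum_eq_zero fun i hi => ?_
      rw [mem_range] at hi
      exact max_eq_right (by linarith [h1 i hi])
    rw [h3, zero_add]
    refine Finset.sum_congr rfl fun i hi => ?_
    rw [mem_Ico] at hi
    exact max_eq_left (by linarith [hP.mono j i hi.1 (by omega)])
  rw [e1, Finset.sum_sub_distrib, Finset.sum_sub_distrib]
  simp only [Finset.sum_const, Nat.card_Ico, nsmul_eq_mul]
  have hc : ((J + 1 - j : ℕ) : ℝ) = (J : ℝ) + 1 - j := by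
    rw [Nat.cast_sub (by omega)]; push_cast; ring
  rw [hc]
  field_simp
  ring

/-- the tail beyond the last level -/
theorem tail_mP_top {J : ℕ} {P : ℕ → ℝ} (hP : Lev J P) {t : ℝ} (h1 : P J ≤ t) (h2 : t ≤ 1) :
    (mP J P).tail t = 1 - t := by
  rw [tail_mP' hP h2]
  have h3 : ∑ i ∈ range (J + 1), max (P i - t) 0 = 0 := by
    refine Finset.sum_eq_zero fun i hi => ?_
    rw [mem_range] at hi
    exact max_eq_right (by linarith [hP.mono i J (by omega) le_rfl])
  rw [h3]; ring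

theorem tail_mP_ge {J : ℕ} {P : ℕ → ℝ} (hP : Lev J P) {t : ℝ} (h2 : t ≤ 1) :
    1 - max (P J) t ≤ (mP J P).tail t := by
  have hJ : (0 : ℝ) < (J : ℝ) + 1 := by positivity
  rw [tail_mP hP h2]
  have h3 : ((J : ℝ) + 1) * (1 - max (P J) t) ≤ ∑ j ∈ range (J + 1), (1 - max (P j) t) := by
    have := Finset.card_nsmul_le_sum (range (J + 1)) (fun j => 1 - max (P j) t) (1 - max (P J) t)
      (fun j hj => by
        rw [mem_range] at hj
        have := max_le_max (hP.mono j J (by omega) le_rfl) (le_refl t)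
        linarith)
    rw [card_range, nsmul_eq_mul] at this
    push_cast at this
    exact this
  calc 1 - max (P J) t = ((J : ℝ) + 1)⁻¹ * (((J : ℝ) + 1) * (1 - max (P J) t)) := by
        rw [← mul_assoc, inv_mul_cancel₀ hJ.ne', one_mul]
    _ ≤ _ := mul_le_mul_of_nonneg_left h3 (inv_pos.2 hJ).le

theorem DP_pos {J : ℕ} {P : ℕ → ℝ} (hP : Lev J P) (h1 : P J < 1) {j : ℕ} (hj : j ≤ J) :
    0 < DP J P j := by
  rw [← tail_mP_lev hP hj]
  have hPj : P j ≤ P J := hP.mono j J hj le_rfl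
  have := tail_mP_ge hP (hPj.trans h1.le)
  rw [max_eq_left hPj] at this
  linarith

theorem integral_inv_lin {a b d x : ℝ} (hab : a ≤ b) (hd : 0 < d) (hx : 0 < x) :
    (∫ t in a..b, (d + x * (b - t))⁻¹) = x⁻¹ * Real.log ((d + x * (b - a)) / d) := by
  have hpos : ∀ t ∈ Set.uIcc a b, 0 < d + x * (b - t) := by
    intro t ht
    rw [Set.uIcc_of_le hab] at ht
    have : 0 ≤ x * (b - t) := mul_nonneg hx.le (by linarith [ht.2])
    linarith
  have hder : ∀ t ∈ Set.uIcc a b,
      HasDerivAt (fun t => -(x⁻¹ * Real.log (d + x * (b - t)))) ((d + x * (b - t))⁻¹) t := by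
    intro t ht
    have h0 := hpos t ht
    have h1 : HasDerivAt (fun t => d + x * (b - t)) (x * (-1)) t :=
      (((hasDerivAt_id t).const_sub b).const_mul x).const_add d
    have h2 := ((h1.log h0.ne').const_mul x⁻¹).neg
    have h3 : (d + x * (b - t))⁻¹ = -(x⁻¹ * (x * (-1) / (d + x * (b - t)))) := by
      have := hx.ne'
      have := h0.ne'
      field_simp
    rw [h3]
    exact h2
  rw [intervalIntegral.integral_eq_sub_of_hasDerivAt hder]
  · have h3 := hpos a Set.left_mem_uIcc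
    rw [Real.log_div h3.ne' hd.ne']
    simp only [sub_self, mul_zero, add_zero]
    ring
  · refine ContinuousOn.intervalIntegrable ?_
    refine ContinuousOn.inv₀ (by fun_prop) fun t ht => (hpos t ht).ne'

/-- the entropy of the step profile is `SP` -/
theorem entropy_mP {J : ℕ} {P : ℕ → ℝ} (hP : Lev J P) (h1 : P J < 1) :
    (mP J P).entropy = ENNReal.ofReal (SP J P) := by
  have hJ : (0 : ℝ) < (J : ℝ) + 1 := by positivity
  have hPJ0 : 0 ≤ P J := hP.nonneg.trans (hP.mono 0 J (Nat.zero_le _) le_rfl)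
  have hDpos : ∀ t ∈ Set.Ico (0 : ℝ) 1, 0 < (mP J P).tail t := by
    intro t ht
    have := tail_mP_ge hP ht.2.le
    have h2 : max (P J) t < 1 := max_lt h1 ht.2
    linarith
  have hcont1 : ContinuousOn (fun t => ((mP J P).tail t)⁻¹) (Set.Icc 0 (P J)) :=
    ContinuousOn.inv₀ (continuous_tail _).continuousOn fun t ht =>
      (hDpos t ⟨ht.1, ht.2.trans_lt h1⟩).ne'
  have hcont2 : ContinuousOn (fun t : ℝ => (1 - t)⁻¹) (Set.Icc 0 (P J)) :=
    ContinuousOn.inv₀ (by fun_prop) fun t ht => by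
      have := ht.2.trans_lt h1
      intro h
      linarith
  have hI1 : ∀ a b, 0 ≤ a → a ≤ b → b ≤ P J →
      IntervalIntegrable (fun t => ((mP J P).tail t)⁻¹) volume a b := by
    intro a b ha hab hb
    refine ContinuousOn.intervalIntegrable (hcont1.mono ?_)
    rw [Set.uIcc_of_le hab]
    exact Set.Icc_subset_Icc ha hb
  have hI2 : IntervalIntegrable (fun t : ℝ => (1 - t)⁻¹) volume 0 (P J) := by
    refine ContinuousOn.intervalIntegrable ?_
    rw [Set.uIcc_of_le hPJ0]
    exact hcont2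
  have hI3 : IntervalIntegrable (fun t => ((mP J P).tail t)⁻¹ - (1 - t)⁻¹) volume 0 (P J) :=
    (hI1 0 (P J) le_rfl hPJ0 le_rfl).sub hI2
  have hz : ∀ t ∈ Set.uIcc (P J) 1, ((mP J P).tail t)⁻¹ - (1 - t)⁻¹ = 0 := by
    intro t ht
    rw [Set.uIcc_of_le h1.le] at ht
    rw [tail_mP_top hP ht.1 ht.2, sub_self]
  have hI4 : IntervalIntegrable (fun t => ((mP J P).tail t)⁻¹ - (1 - t)⁻¹) volume (P J) 1 := by
    have h0 : IntervalIntegrable (fun _ : ℝ => (0 : ℝ)) volume (P J) 1 := intervalIntegrable_const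
    refine h0.congr ?_
    intro t ht
    exact (hz t (Set.uIoc_subset_uIcc ht)).symm
  have hI : IntervalIntegrable (fun t => ((mP J P).tail t)⁻¹ - (1 - t)⁻¹) volume 0 1 :=
    hI3.trans hI4
  rw [entropy_eq_ofReal _ hDpos hI]
  congr 1
  unfold SP
  congr 1
  rw [← intervalIntegral.integral_add_adjacent_intervals hI3 hI4,
    intervalIntegral.integral_congr (g := fun _ => (0 : ℝ)) (a := P J) (b := 1) hz]
  rw [intervalIntegral.integral_zero, add_zero,
    intervalIntegral.integral_sub (hI1 0 (P J) le_rfl hPJ0 le_rfl) hI2]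
  -- the logarithm
  have e2 : (∫ t in (0 : ℝ)..P J, (1 - t)⁻¹) = - Real.log (DP J P J) := by
    have h3 : DP J P J = 1 - P J := by unfold DP; simp
    have h4 : (∫ t in (0 : ℝ)..P J, (1 - t)⁻¹) =
        ∫ t in (0 : ℝ)..P J, ((1 - P J) + 1 * (P J - t))⁻¹ := by
      refine intervalIntegral.integral_congr fun t _ => ?_
      congr 1
      ring
    rw [h4, integral_inv_lin hPJ0 (by linarith) one_pos, h3]
    rw [show 1 - P J + 1 * (P J - 0) = 1 by ring, one_div, Real.log_inv]
    simp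
  -- the first cell
  have hcell0 : (∫ t in (0 : ℝ)..P 0, ((mP J P).tail t)⁻¹) = P 0 / DP J P 0 := by
    have h4 : (∫ t in (0 : ℝ)..P 0, ((mP J P).tail t)⁻¹) =
        ∫ t in (0 : ℝ)..P 0, (DP J P 0)⁻¹ := by
      refine intervalIntegral.integral_congr fun t ht => ?_
      rw [Set.uIcc_of_le hP.nonneg] at ht
      rw [tail_mP_cell hP (Nat.zero_le J) (fun i hi => absurd hi (Nat.not_lt_zero i)) ht.2]
      simp
    rw [h4, intervalIntegral.integral_const, sub_zero, smul_eq_mul, div_eq_mul_inv]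
  -- other cells
  have hcell : ∀ j ∈ Ico 1 (J + 1), (∫ t in P (j - 1)..P j, ((mP J P).tail t)⁻¹) =
      (((J : ℝ) + 1) / j) * Real.log (DP J P (j - 1) / DP J P j) := by
    intro j hj
    rw [mem_Ico] at hj
    have hle : P (j - 1) ≤ P j := hP.mono _ _ (Nat.sub_le _ _) (by omega)
    have hj0 : (0 : ℝ) < j := by exact_mod_cast (show 0 < j by omega)
    have h4 : (∫ t in P (j - 1)..P j, ((mP J P).tail t)⁻¹) =
        ∫ t in P (j - 1)..P j, (DP J P j + (j : ℝ) / ((J : ℝ) + 1) * (P j - t))⁻¹ := by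
      refine intervalIntegral.integral_congr fun t ht => ?_
      rw [Set.uIcc_of_le hle] at ht
      rw [tail_mP_cell hP (by omega : j ≤ J)
        (fun i hi => (hP.mono i (j - 1) (by omega) (by omega)).trans ht.1) ht.2]
    have h5 : DP J P (j - 1) = DP J P j + (j : ℝ) / ((J : ℝ) + 1) * (P j - P (j - 1)) := by
      rw [← tail_mP_lev hP (by omega : j - 1 ≤ J)]
      exact tail_mP_cell hP (by omega : j ≤ J) (fun i hi => hP.mono i (j - 1) (by omega) (by omega))
        hle
    rw [h4, integral_inv_lin hle (DP_pos hP h1 (by omega)) (by positivity), ← h5, inv_div]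
  -- sum of the cells
  have hsum : (∫ t in (0 : ℝ)..P J, ((mP J P).tail t)⁻¹) = P 0 / DP J P 0 +
      ∑ j ∈ Ico 1 (J + 1), (((J : ℝ) + 1) / j) * Real.log (DP J P (j - 1) / DP J P j) := by
    have hi0 := hI1 0 (P 0) le_rfl hP.nonneg (hP.mono 0 J (Nat.zero_le _) le_rfl)
    have hi1 := hI1 (P 0) (P J) hP.nonneg (hP.mono 0 J (Nat.zero_le _) le_rfl) le_rfl
    rw [← intervalIntegral.integral_add_adjacent_intervals hi0 hi1, hcell0]
    congr 1
    rw [← Finset.sum_congr rfl hcell, Finset.sum_Ico_add' (fun j => ∫ t in P (j - 1)..P j,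
      ((mP J P).tail t)⁻¹) 0 J 1 |>.symm]
    simp only [Nat.add_sub_cancel]
    rw [intervalIntegral.sum_integral_adjacent_intervals_Ico (Nat.zero_le J)]
    intro k hk
    exact hI1 _ _ (hP.nonneg.trans (hP.mono 0 k (Nat.zero_le _) hk.2.le))
      (hP.mono k (k + 1) (Nat.le_succ _) hk.2) (hP.mono (k + 1) J hk.2 le_rfl)
  rw [hsum, e2]
  ring

theorem ent : S6U_988.ENT := fun _ _ hP h1 => entropy_mP hP h1

/-! ### approximation from above -/

open scoped Classical in
/-- upper levels of a profile, cut at `c` -/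
def qlev (m : OverlapProfile) (J : ℕ) (c : ℝ) (j : ℕ) : ℝ :=
  sInf ({t | t ∈ Set.Icc (0 : ℝ) c ∧ (j : ℝ) / ((J : ℝ) + 1) < m.toFun t} ∪ {c})

theorem qlev_bdd (m : OverlapProfile) (J : ℕ) {c : ℝ} (hc : 0 ≤ c) (j : ℕ) :
    BddBelow ({t | t ∈ Set.Icc (0 : ℝ) c ∧ (j : ℝ) / ((J : ℝ) + 1) < m.toFun t} ∪ {c}) := by
  refine ⟨0, ?_⟩
  rintro t (ht | ht)
  · exact ht.1.1
  · rw [Set.mem_singleton_iff] at ht; rw [ht]; exact hc

theorem qlev_nonneg (m : OverlapProfile) (J : ℕ) {c : ℝ} (hc : 0 ≤ c) (j : ℕ) :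
    0 ≤ qlev m J c j := by
  unfold qlev
  refine le_csInf ⟨c, Or.inr rfl⟩ ?_
  rintro t (ht | ht)
  · exact ht.1.1
  · rw [Set.mem_singleton_iff] at ht; rw [ht]; exact hc

theorem qlev_le (m : OverlapProfile) (J : ℕ) {c : ℝ} (hc : 0 ≤ c) (j : ℕ) : qlev m J c j ≤ c :=
  csInf_le (qlev_bdd m J hc j) (Or.inr rfl)

theorem qlev_mono (m : OverlapProfile) (J : ℕ) {c : ℝ} (hc : 0 ≤ c) {i j : ℕ} (hij : i ≤ j) :
    qlev m J c i ≤ qlev m J c j := by
  unfold qlev
  refine csInf_le_csInf (qlev_bdd m J hc i) ⟨c, Or.inr rfl⟩ ?_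
  refine Set.union_subset_union_left _ fun t ht => ⟨ht.1, lt_of_le_of_lt ?_ ht.2⟩
  have : (i : ℝ) ≤ j := by exact_mod_cast hij
  exact div_le_div_of_nonneg_right this (by positivity)

theorem lev_qlev (m : OverlapProfile) (J : ℕ) {c : ℝ} (hc : 0 ≤ c) (hc1 : c ≤ 1) :
    Lev J (qlev m J c) :=
  ⟨qlev_nonneg m J hc 0, fun _ _ hij _ => qlev_mono m J hc hij, (qlev_le m J hc J).trans hc1⟩

theorem le_mP_qlev (m : OverlapProfile) (J : ℕ) {c : ℝ} (hc : 0 ≤ c) {t : ℝ}
    (ht : t ∈ Set.Icc (0 : ℝ) 1) : m.toFun t ≤ (mP J (qlev m J c)).toFun t := by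
  have hJ : (0 : ℝ) < (J : ℝ) + 1 := by positivity
  rw [mP_toFun]
  have hm1 := m.le_one t ht
  have key : ((J : ℝ) + 1) * m.toFun t ≤
      ∑ j ∈ range (J + 1), if qlev m J c j ≤ t then (1 : ℝ) else 0 := by
    rcases le_or_gt c t with h | h
    · have : ∑ j ∈ range (J + 1), (if qlev m J c j ≤ t then (1 : ℝ) else 0) = (J : ℝ) + 1 := by
        rw [Finset.sum_congr rfl (g := fun _ => (1 : ℝ))]
        · simp
        · intro j _
          rw [if_pos ((qlev_le m J hc j).trans h)]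
      rw [this]
      nlinarith
    · set n := ⌈((J : ℝ) + 1) * m.toFun t⌉₊ with hn
      have hnJ : n ≤ J + 1 := by
        rw [hn, Nat.ceil_le]
        push_cast
        nlinarith
      have h1 : ∀ j ∈ range n, qlev m J c j ≤ t := by
        intro j hj
        rw [mem_range, hn, Nat.lt_ceil] at hj
        refine csInf_le (qlev_bdd m J hc j) (Or.inl ⟨⟨ht.1, h.le⟩, ?_⟩)
        rw [div_lt_iff₀ hJ]
        linarith
      calc ((J : ℝ) + 1) * m.toFun t ≤ n := Nat.le_ceil _
        _ = ∑ j ∈ range n, (1 : ℝ) := by simp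
        _ = ∑ j ∈ range n, (if qlev m J c j ≤ t then (1 : ℝ) else 0) :=
            Finset.sum_congr rfl fun j hj => by rw [if_pos (h1 j hj)]
        _ ≤ ∑ j ∈ range (J + 1), (if qlev m J c j ≤ t then (1 : ℝ) else 0) := by
            refine Finset.sum_le_sum_of_subset_of_nonneg (Finset.range_mono hnJ) fun j _ _ => ?_
            split_ifs <;> norm_num
  calc m.toFun t = ((J : ℝ) + 1)⁻¹ * (((J : ℝ) + 1) * m.toFun t) := by
        rw [← mul_assoc, inv_mul_cancel₀ hJ.ne', one_mul]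
    _ ≤ _ := mul_le_mul_of_nonneg_left key (inv_pos.2 hJ).le

theorem mP_qlev_le (m : OverlapProfile) (J : ℕ) {c : ℝ} (hc1 : c ≤ 1) {t : ℝ}
    (ht : t ∈ Set.Ico (0 : ℝ) c) (hne : ∀ j ∈ range (J + 1), qlev m J c j ≠ t) :
    (mP J (qlev m J c)).toFun t ≤ m.toFun t + 1 / ((J : ℝ) + 1) := by
  have hJ : (0 : ℝ) < (J : ℝ) + 1 := by positivity
  rw [mP_toFun]
  have hm0 := m.nonneg t ⟨ht.1, ht.2.le.trans hc1⟩
  have key : (∑ j ∈ range (J + 1), if qlev m J c j ≤ t then (1 : ℝ) else 0) ≤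
      ((J : ℝ) + 1) * m.toFun t + 1 := by
    have h1 : ∀ j ∈ range (J + 1), qlev m J c j ≤ t → (j : ℝ) < ((J : ℝ) + 1) * m.toFun t := by
      intro j hj hle
      have hlt : qlev m J c j < t := lt_of_le_of_ne hle (hne j hj)
      obtain ⟨s, hs, hst⟩ := exists_lt_of_csInf_lt ⟨c, Or.inr rfl⟩ hlt
      rcases hs with hs | hs
      · have h2 := hs.2.trans_le (m.mono hst.le)
        rw [div_lt_iff₀ hJ] at h2
        linarith
      · rw [Set.mem_singleton_iff] at hs
        rw [hs] at hst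
        exact absurd hst (not_lt.2 ht.2.le)
    have h3 : (∑ j ∈ range (J + 1), if qlev m J c j ≤ t then (1 : ℝ) else 0) ≤
        ∑ j ∈ range (⌈((J : ℝ) + 1) * m.toFun t⌉₊), (1 : ℝ) := by
      rw [← Finset.sum_filter]
      refine Finset.sum_le_sum_of_subset_of_nonneg ?_ fun j _ _ => zero_le_one
      intro j hj
      rw [mem_filter] at hj
      rw [mem_range, Nat.lt_ceil]
      exact h1 j hj.1 hj.2
    refine h3.trans ?_
    rw [Finset.sum_const, card_range, nsmul_eq_mul, mul_one]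
    exact (Nat.ceil_lt_add_one (by positivity)).le
  calc ((J : ℝ) + 1)⁻¹ * (∑ j ∈ range (J + 1), if qlev m J c j ≤ t then (1 : ℝ) else 0)
      ≤ ((J : ℝ) + 1)⁻¹ * (((J : ℝ) + 1) * m.toFun t + 1) :=
        mul_le_mul_of_nonneg_left key (inv_pos.2 hJ).le
    _ = _ := by field_simp

theorem integral_mP_qlev_le (m : OverlapProfile) (J : ℕ) {c : ℝ} (hc : 0 ≤ c) (hc1 : c ≤ 1) :
    ∫ t in (0 : ℝ)..1, ((mP J (qlev m J c)).toFun t - m.toFun t) ≤
      1 / ((J : ℝ) + 1) + (1 - c) := by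
  have hJ : (0 : ℝ) < (J : ℝ) + 1 := by positivity
  have hI : ∀ a b : ℝ, IntervalIntegrable (fun t => (mP J (qlev m J c)).toFun t - m.toFun t)
      volume a b := fun a b => (intervalIntegrable_mono _ a b).sub (intervalIntegrable_mono m a b)
  rw [← intervalIntegral.integral_add_adjacent_intervals (hI 0 c) (hI c 1)]
  have h1 : ∫ t in (0 : ℝ)..c, ((mP J (qlev m J c)).toFun t - m.toFun t) ≤
      ∫ t in (0 : ℝ)..c, (1 / ((J : ℝ) + 1)) := by
    refine intervalIntegral.integral_mono_ae_restrict hc (hI 0 c) intervalIntegrable_const ?_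
    have hne : ∀ᵐ t : ℝ ∂volume, t ∉ ((range (J + 1)).image (qlev m J c) : Set ℝ) := by
      exact (Finset.countable_toSet _).ae_notMem volume
    have hne2 : ∀ᵐ t : ℝ ∂volume, t ≠ c := by
      rw [ae_iff]; simp
    filter_upwards [ae_restrict_of_ae hne, ae_restrict_of_ae hne2,
      ae_restrict_mem measurableSet_Icc] with t h1 h2 h3
    have h4 := mP_qlev_le m J hc1 (t := t) ⟨h3.1, lt_of_le_of_ne h3.2 h2⟩ (by
      intro j hj he
      refine h1 ?_
      rw [Finset.mem_coe, Finset.mem_image]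
      exact ⟨j, hj, he⟩)
    linarith
  have h2 : ∫ t in c..1, ((mP J (qlev m J c)).toFun t - m.toFun t) ≤ ∫ t in c..1, (1 : ℝ) := by
    refine intervalIntegral.integral_mono_on hc1 (hI c 1) intervalIntegrable_const fun t ht => ?_
    have h3 := (mP J (qlev m J c)).le_one t ⟨hc.trans ht.1, ht.2⟩
    have h4 := m.nonneg t ⟨hc.trans ht.1, ht.2⟩
    linarith
  rw [intervalIntegral.integral_const, smul_eq_mul, sub_zero] at h1
  rw [intervalIntegral.integral_const, smul_eq_mul, mul_one] at h2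
  have h5 : c * (1 / ((J : ℝ) + 1)) ≤ 1 / ((J : ℝ) + 1) := by
    have : 0 < 1 / ((J : ℝ) + 1) := by positivity
    nlinarith
  linarith

/-- every profile is approximated from above by step profiles of high resolution, the last level
below one (no finiteness of the entropy is needed). -/
theorem approx_above (m : OverlapProfile) {ε : ℝ} (hε : 0 < ε) : ∃ J0 : ℕ, ∀ J, J0 ≤ J →
    ∃ P : ℕ → ℝ, Lev J P ∧ P J < 1 ∧ (mP J P).entropy ≤ m.entropy ∧
      (∀ t ∈ Set.Icc (0 : ℝ) 1, m.toFun t ≤ (mP J P).toFun t) ∧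
      ∫ t in (0 : ℝ)..1, ((mP J P).toFun t - m.toFun t) ≤ ε := by
  obtain ⟨J0, hJ0⟩ := exists_nat_gt (2 / ε)
  refine ⟨J0, fun J hJ => ?_⟩
  set c : ℝ := max 0 (1 - ε / 2) with hc
  have hc0 : 0 ≤ c := le_max_left _ _
  have hc1 : c < 1 := max_lt one_pos (by linarith)
  have hle : ∀ t ∈ Set.Icc (0 : ℝ) 1, m.toFun t ≤ (mP J (qlev m J c)).toFun t :=
    fun t ht => le_mP_qlev m J hc0 ht
  refine ⟨qlev m J c, lev_qlev m J hc0 hc1.le, (qlev_le m J hc0 J).trans_lt hc1,
    entropy_anti fun t ht => tail_mono hle ht, hle,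
    (integral_mP_qlev_le m J hc0 hc1.le).trans ?_⟩
  have h1 : 1 / ((J : ℝ) + 1) ≤ ε / 2 := by
    have : 2 / ε < (J : ℝ) + 1 := by
      have : (J0 : ℝ) ≤ J := by exact_mod_cast hJ
      linarith
    rw [div_le_iff₀ (by positivity)]
    rw [div_lt_iff₀ hε] at this
    linarith
  have h2 : 1 - ε / 2 ≤ c := le_max_right _ _
  linarith

theorem apx : S6U_988.APX := by
  intro m _ ε hε
  obtain ⟨J0, h⟩ := approx_above m hε
  refine ⟨J0, fun J hJ => ?_⟩
  obtain ⟨P, h1, h2, h3, h4, h5⟩ := h J hJ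
  exact ⟨P, h1, h2, h3.trans le_self_add, fun t ht => h4 t ⟨ht.1.le, ht.2.le⟩, h5⟩

/-! ### tails up to `δ` -/

/-- raise the top levels by a total amount `δ (J+1)` -/
theorem exists_raise {J : ℕ} {P P' : ℕ → ℝ} (hP : Lev J P) (hP' : Lev J P') {Δ : ℝ} (hΔ : 0 ≤ Δ)
    (h : ∀ k ≤ J, ∑ j ∈ Ico k (J + 1), P' j ≤ ∑ j ∈ Ico k (J + 1), P j + Δ) :
    ∃ R : ℕ → ℝ, Lev J R ∧ (∀ k ≤ J, ∑ j ∈ Ico k (J + 1), P' j ≤ ∑ j ∈ Ico k (J + 1), R j) ∧
      ∑ j ∈ range (J + 1), |P j - R j| ≤ Δ := by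
  have hP1 : ∀ i ≤ J, P i ≤ 1 := fun i hi => (hP.mono i J hi le_rfl).trans hP.le_one
  have hP'1 : ∀ i ≤ J, P' i ≤ 1 := fun i hi => (hP'.mono i J hi le_rfl).trans hP'.le_one
  -- weights
  let w : ℝ → ℕ → ℝ := fun s j => max 0 (min 1 ((j : ℝ) + s - J))
  have hw0 : ∀ s j, 0 ≤ w s j := fun s j => le_max_left _ _
  have hw1 : ∀ s j, w s j ≤ 1 := fun s j => max_le zero_le_one (min_le_left _ _)
  have hwnext : ∀ s j, 0 < w s j → w s (j + 1) = 1 := by
    intro s j hj
    have h1 : 0 < (j : ℝ) + s - J := by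
      by_contra hn
      push Not at hn
      have : w s j = 0 := max_eq_left ((min_le_right _ _).trans hn)
      linarith
    have h2 : (1 : ℝ) ≤ ((j + 1 : ℕ) : ℝ) + s - J := by push_cast; linarith
    show max 0 (min 1 (((j + 1 : ℕ) : ℝ) + s - J)) = 1
    rw [min_eq_left h2, max_eq_right zero_le_one]
  have hwmono : ∀ s i j, i ≤ j → w s i ≤ w s j := by
    intro s i j hij
    have : (i : ℝ) ≤ j := by exact_mod_cast hij
    exact max_le_max le_rfl (min_le_min le_rfl (by linarith))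
  let R : ℝ → ℕ → ℝ := fun s j => P j + w s j * (1 - P j)
  have hRP : ∀ s, ∀ j ≤ J, P j ≤ R s j := fun s j hj => by
    have := mul_nonneg (hw0 s j) (sub_nonneg.2 (hP1 j hj))
    show P j ≤ P j + w s j * (1 - P j)
    linarith
  have hR1 : ∀ s, ∀ j ≤ J, R s j ≤ 1 := fun s j hj => by
    have := mul_le_mul_of_nonneg_right (hw1 s j) (sub_nonneg.2 (hP1 j hj))
    show P j + w s j * (1 - P j) ≤ 1
    linarith
  have hRlev : ∀ s, Lev J (R s) := by
    intro s
    refine ⟨hP.nonneg.trans (hRP s 0 (Nat.zero_le _)), ?_, hR1 s J le_rfl⟩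
    intro i j hij hjJ
    rcases eq_or_lt_of_le hij with h0 | h0
    · rw [h0]
    rcases (hw0 s i).eq_or_lt with h1 | h1
    · have : R s i = P i := by
        show P i + w s i * (1 - P i) = P i
        rw [← h1]; ring
      rw [this]
      exact (hP.mono i j hij hjJ).trans (hRP s j hjJ)
    · have h2 := hwnext s i h1
      have h3 : w s j = 1 := le_antisymm (hw1 s j) (h2 ▸ hwmono s (i + 1) j h0)
      have : R s j = 1 := by
        show P j + w s j * (1 - P j) = 1
        rw [h3]; ring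
      rw [this]
      exact hR1 s i (hij.trans hjJ)
  let T : ℝ → ℝ := fun s => ∑ j ∈ range (J + 1), (R s j - P j)
  have hTcont : Continuous T := by
    refine continuous_finsetSum _ fun j _ => ?_
    show Continuous fun s => P j + max 0 (min 1 ((j : ℝ) + s - J)) * (1 - P j) - P j
    fun_prop
  have hT0 : T 0 = 0 := by
    refine Finset.sum_eq_zero fun j hj => ?_
    rw [mem_range] at hj
    have h1 : (j : ℝ) + 0 - J ≤ 0 := by
      have : (j : ℝ) ≤ J := by exact_mod_cast (by omega : j ≤ J)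
      linarith
    have h2 : w 0 j = 0 := max_eq_left ((min_le_right _ _).trans h1)
    show P j + w 0 j * (1 - P j) - P j = 0
    rw [h2]; ring
  have habs : ∀ s, ∑ j ∈ range (J + 1), |P j - R s j| = T s := by
    intro s
    refine Finset.sum_congr rfl fun j hj => ?_
    rw [mem_range] at hj
    rw [abs_sub_comm, abs_of_nonneg (sub_nonneg.2 (hRP s j (by omega)))]
  rcases le_total (T ((J : ℝ) + 1)) Δ with hbig | hbig
  · -- everything raised to one
    refine ⟨R ((J : ℝ) + 1), hRlev _, ?_, (habs _).le.trans hbig⟩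
    intro k hk
    refine Finset.sum_le_sum fun j hj => ?_
    rw [mem_Ico] at hj
    have h1 : w ((J : ℝ) + 1) j = 1 := by
      have h2 : (1 : ℝ) ≤ (j : ℝ) + ((J : ℝ) + 1) - J := by
        have : (0 : ℝ) ≤ j := Nat.cast_nonneg j
        linarith
      show max 0 (min 1 ((j : ℝ) + ((J : ℝ) + 1) - J)) = 1
      rw [min_eq_left h2, max_eq_right zero_le_one]
    have h3 : R ((J : ℝ) + 1) j = 1 := by
      show P j + w ((J : ℝ) + 1) j * (1 - P j) = 1
      rw [h1]; ring
    rw [h3]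
    exact hP'1 j (by omega)
  · obtain ⟨s, hs, hTs⟩ := intermediate_value_Icc (show (0 : ℝ) ≤ (J : ℝ) + 1 by positivity)
      hTcont.continuousOn (show Δ ∈ Set.Icc (T 0) (T ((J : ℝ) + 1)) from ⟨by rw [hT0]; exact hΔ, hbig⟩)
    refine ⟨R s, hRlev s, ?_, ((habs s).trans hTs).le⟩
    intro k hk
    rcases eq_or_lt_of_le (hw1 s k) with h1 | h1
    · refine Finset.sum_le_sum fun j hj => ?_
      rw [mem_Ico] at hj
      have h2 : w s j = 1 := le_antisymm (hw1 s j) (h1 ▸ hwmono s k j hj.1)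
      have h3 : R s j = 1 := by
        show P j + w s j * (1 - P j) = 1
        rw [h2]; ring
      rw [h3]
      exact hP'1 j (by omega)
    · have h2 : ∀ j < k, R s j - P j = 0 := by
        intro j hj
        have h3 : w s j = 0 := by
          by_contra hne
          have h4 : 0 < w s j := lt_of_le_of_ne (hw0 s j) (Ne.symm hne)
          have h5 := hwnext s j h4
          have h6 := hwmono s (j + 1) k hj
          linarith
        show P j + w s j * (1 - P j) - P j = 0
        rw [h3]; ring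
      have h7 : ∑ j ∈ Ico k (J + 1), (R s j - P j) = Δ := by
        rw [← hTs]
        show _ = ∑ j ∈ range (J + 1), (R s j - P j)
        rw [← Finset.sum_range_add_sum_Ico _ (show k ≤ J + 1 by omega),
          Finset.sum_eq_zero (s := range k) fun j hj => h2 j (mem_range.1 hj), zero_add]
      rw [Finset.sum_sub_distrib] at h7
      linarith [h k hk]

/-- (MONOδ) from (MONO) and (LIP). -/
theorem monod (hM : S6U_988.MONO) (hL : S6U_988.LIP) : S6U_988.MONOd := by
  intro J K L f hf P P' hP hP' δ hδ h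
  have hJ : (0 : ℝ) < (J : ℝ) + 1 := by positivity
  obtain ⟨R, hR, h1, h2⟩ := exists_raise hP hP' (Δ := δ * ((J : ℝ) + 1)) (by positivity) (by
    intro k hk
    have h3 := mul_le_mul_of_nonneg_left (h k hk) hJ.le
    rw [mul_add, ← mul_assoc, ← mul_assoc, mul_one_div_cancel hJ.ne', one_mul, one_mul] at h3
    linarith)
  have h3 := hM J K L f hf R P' hR hP' h1
  have h4 := (abs_le.1 (hL J K L f hf P R hP hR)).2
  have h5 : L ^ 2 / ((J : ℝ) + 1) * ∑ j ∈ range (J + 1), |P j - R j| ≤ L ^ 2 * δ := by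
    calc L ^ 2 / ((J : ℝ) + 1) * ∑ j ∈ range (J + 1), |P j - R j|
        ≤ L ^ 2 / ((J : ℝ) + 1) * (δ * ((J : ℝ) + 1)) :=
          mul_le_mul_of_nonneg_left h2 (by positivity)
      _ = L ^ 2 * δ := by field_simp
  linarith

end

end Crest.Agent.R146.MonB_911
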