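import Crest.Agent.R146.Mon_422
import Crest.Agent.R146.S6U_988

/-!
Row 146: the frozen Props `S6U_988.MONO` and `S6U_988.LIP` (helper422).
-/

set_option autoImplicit false

namespace Crest.Agent.R146.MonF_422

open Crest.Agent.R146.S6Def_988 Crest.Agent.R146.Mon_422

theorem mono : S6U_988.MONO := fun _ _ _ _ hf _ _ hP hP' h => Th_mono hP hP' hf h

theorem lip : S6U_988.LIP := by
  intro J K L f hf P P' hP hP'
  refine (Th_lip hP hP' hf).trans ?_
  refine mul_le_mul_of_nonneg_right ?_ (Finset.sum_nonneg fun _ _ => abs_nonneg _)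
  refine div_le_div_of_nonneg_left (sq_nonneg L) (by positivity) ?_
  have : (0 : ℝ) ≤ J := Nat.cast_nonneg J
  linarith

end Crest.Agent.R146.MonF_422
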