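import Crest.Agent.R146.CavAsm_769
import Crest.Agent.R146.Cav5_47
import Crest.Agent.R146.S6Trans_944

/-!
Row 146, S0206, node CAV (helper769), part 3: the Prop `S6U_988.CAV`, proved
(helper47: Gaussian cavity `Cav5_47.cav_th`; helper944: transfer `S6Trans_944`).
-/

set_option autoImplicit false

namespace Crest.Agent.R146.S6Cavity_769

open Finset MeasureTheory ProbabilityTheory Crest.Agent.R141
open Crest.Agent.R146.S6Def_988 Crest.Agent.R146.S6U_988 Crest.Agent.R146.CavInc_769
open Crest.Agent.R146.CavAsm_769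
open Crest.Agent.R164.CavG (pur gm)

noncomputable section

variable {N : ℕ} {C : Cfg N} {nc n : ℕ}

theorem trans1 : TRANS1 (fun v => 16 * Real.exp (4 * v)) := by
  intro Ω κ _ _ P 𝓕 x V v k X c hP hx hV hX
  have h0 : 0 ≤ pE (tl P 𝓕 x V) (𝓕.F k) (fun a b => |∑ i, X a i * X b i - c|) :=
    S6Trans_944.pE_nonneg (tl_isProb hP hx.pos V) fun _ _ => abs_nonneg _
  have h1 := S6Trans_944.msq_sub_le_tl (𝓕 := 𝓕) hP hx hV X c k
  have h2 := S6Trans_944.pur_le_tl (𝓕 := 𝓕) hP hx hV hX c k
  constructor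
  · refine h1.trans ?_
    have h3 : Real.exp (4 * v) ≤ 16 * Real.exp (4 * v) := by
      have := Real.exp_pos (4 * v); linarith
    exact mul_le_mul_of_nonneg_right h3 h0
  · refine h2.trans (le_of_eq ?_)
    show 16 * 1 * (Real.exp (4 * v) * pE (tl P 𝓕 x V) (𝓕.F k)
      (fun a b => |∑ i, X a i * X b i - c|)) = _
    ring

theorem DevN_eq {N : ℕ} (C : Cfg N) (nc n : ℕ) (Q : Om C nc n → ℝ) (J : ℕ) (τ : ℕ → ℕ)
    (P : ℕ → ℝ) : Cav5_47.DevN C nc n Q J τ P = DevS C nc n Q J τ P := by
  unfold Cav5_47.DevN DevS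
  refine Finset.sum_congr rfl fun b _ => ?_
  simp_rw [Rk_summand]
  rfl

/-- **CAV**: the cavity increment, final form. -/
theorem cav : CAV := by
  set Cv : ℝ → ℝ := fun v => 16 * Real.exp (4 * v) with hCvd
  have hCv : ∀ v, 0 ≤ v → 0 ≤ Cv v := fun v _ => by rw [hCvd]; positivity
  have hT : TRANS1 Cv := trans1
  intro J K L ε hε
  by_cases hK0 : K < 0
  · refine ⟨1, one_pos, ?_⟩
    intro wc nc _ _ N n _ _ C f M hf
    exact absurd ((abs_nonneg _).trans ((hf 0).bd 0)) (not_le.2 hK0)
  push Not at hK0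
  obtain ⟨D0, hD0', h5⟩ := Cav5_47.cav_th J K L (half_pos hε)
  have hc := hCv K hK0
  set D : ℝ := 1 + D0 * (((J : ℝ) + 1) * (2 * Cv K)) with hD
  have hD1 : 0 ≤ D0 * (((J : ℝ) + 1) * (2 * Cv K)) := by positivity
  have hD0 : 0 < D := by rw [hD]; linarith
  refine ⟨ε / 2 / D, by positivity, ?_⟩
  intro wc nc hwc hnc N n hN hn C f M hf s τ hsk
  have hfm : ∀ a, Measurable (f a) := fun a => by
    have : Continuous (f a) := by
      have h := (hf a).lip
      have hL : LipschitzWith (Real.toNNReal (max L 0)) (f a) := LipschitzWith.of_dist_le_mul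
        fun x y => by
          rw [Real.dist_eq, Real.dist_eq, Real.coe_toNNReal _ (le_max_right _ _)]
          exact (h x y).trans (mul_le_mul_of_nonneg_right (le_max_left _ _) (abs_nonneg _))
      exact hL.continuous
    exact this.measurable
  have hK : ∀ a x, |f a x| ≤ K := fun a => (hf a).bd
  set P : ℕ → ℝ := fun b => Rk C nc n f (M + 1) s (τ b) with hP
  have hlev : Lev J P := lev_Rk hN hfm (M + 1) s (tau_mono (by omega) hsk.blk)
  set μ : Measure (Fin N → ℝ) := Measure.pi fun _ : Fin N => gaussianReal 0 1 with hμ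
  -- the error
  set E : (Fin M → Fin N → ℝ) → ℝ := fun G => ∫ g, ∑ b ∈ range (J + 1), 2 * Cv K *
      pf C nc n f s (τ b) (P b)
        (Fin.snoc (α := fun _ => Fin N → ℝ) G g : Fin (M + 1) → Fin N → ℝ) ∂μ with hE
  have hi : Integrable (fun G' : Fin (M + 1) → Fin N → ℝ => ∑ b ∈ range (J + 1), 2 * Cv K *
      pf C nc n f s (τ b) (P b) G') (gam (M + 1) N) :=
    integrable_finsetSum _ fun b _ => (integrable_pf hfm s (τ b) (P b)).const_mul _
  have hi2 := integrable_gam_succ hi
  have hEi : Integrable E (gam M N) := hi2.integral_prod_left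
  have hEint : ∫ G, E G ∂(gam M N) ≤ ((J : ℝ) + 1) * (2 * Cv K) * (ε / 2 / D) := by
    have h1 := integral_gam_succ hi
    rw [← hμ] at h1
    rw [hE, ← h1, integral_finsetSum _ fun b _ =>
      (integrable_pf hfm s (τ b) (P b)).const_mul _]
    calc ∑ b ∈ range (J + 1), ∫ G', 2 * Cv K * pf C nc n f s (τ b) (P b) G' ∂(gam (M + 1) N)
        ≤ ∑ _b ∈ range (J + 1), 2 * Cv K * (ε / 2 / D) := by
          refine Finset.sum_le_sum fun b hb => ?_
          rw [integral_const_mul]
          exact mul_le_mul_of_nonneg_left (hsk.pair b (by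
            have := Finset.mem_range.1 hb; omega)) (by positivity)
      _ = ((J : ℝ) + 1) * (2 * Cv K) * (ε / 2 / D) := by
          rw [Finset.sum_const, Finset.card_range, nsmul_eq_mul]; push_cast; ring
  have hpt : ∀ᵐ G ∂(gam M N), |∫ g, inc C nc n f G s g ∂μ - Th J (f M) P| ≤
      ε / 2 + 15 * K ^ 2 * Real.exp (4 * K) / ((J : ℝ) + 1) + D0 * E G := by
    filter_upwards [hi2.prod_right_ae] with G hG
    have h1 : |∫ g, eE (QQ C nc n f G s) (A (QQ C nc n f G s) (fil C nc n) (xs nc n)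
        (VV C nc n (f M) g) 0) ∂μ - Th J (f M) P| ≤
        ε / 2 + D0 * Cav5_47.DevN C nc n (QQ C nc n f G s) J τ P +
          15 * K ^ 2 * Real.exp (4 * K) / ((J : ℝ) + 1) :=
      h5 wc nc hwc hnc N n hN hn C (QQ C nc n f G s) (QQ_isProb f G s) (f M) (hf M) τ
        hsk.blk P hlev
    rw [DevN_eq] at h1
    have h2 : DevS C nc n (QQ C nc n f G s) J τ P ≤ E G := by
      have h3 := integral_mono (integrable_const (μ := μ) (DevS C nc n (QQ C nc n f G s) J τ P))
        hG (fun g => DevS_le hT hN hK s J τ P G g)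
      simpa using h3
    have h4 : ∀ g, eE (QQ C nc n f G s) (A (QQ C nc n f G s) (fil C nc n) (xs nc n)
        (VV C nc n (f M) g) 0) = inc C nc n f G s g := by
      intro g
      unfold inc
      conv_lhs => rw [show (QQ C nc n f G s : Om C nc n → ℝ) = tl (prior C nc n) (fil C nc n)
        (xs nc n) (UU f G s) from rfl]
      exact R164.ED.eE_tl_zero (prior_isProb C nc n) (xs_pos nc n) _
        (A_meas (QQ_isProb f G s) (xs_pos nc n) _ 0)
    simp_rw [h4] at h1
    refine h1.trans ?_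
    have h5' : D0 * DevS C nc n (QQ C nc n f G s) J τ P ≤ D0 * E G :=
      mul_le_mul_of_nonneg_left h2 (by positivity)
    linarith
  rw [FN_increment hN hfm hK s, ← hμ]
  have hii : Integrable (fun G : Fin M → Fin N → ℝ => ∫ g, inc C nc n f G s g ∂μ) (gam M N) := by
    have : Integrable (fun p : (Fin M → Fin N → ℝ) × (Fin N → ℝ) => inc C nc n f p.1 s p.2)
        ((gam M N).prod μ) :=
      Integrable.of_bound (C := K) (meas_inc hfm s).aestronglyMeasurable
        (ae_of_all _ fun p => by rw [Real.norm_eq_abs]; exact inc_abs_le hK _ _ _)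
    exact this.integral_prod_left
  have e1 : ∫ G, ∫ g, inc C nc n f G s g ∂μ ∂(gam M N) - Th J (f M) P =
      ∫ G, (∫ g, inc C nc n f G s g ∂μ - Th J (f M) P) ∂(gam M N) := by
    rw [integral_sub hii (integrable_const _)]; simp
  rw [e1]
  refine (abs_integral_le_integral_abs).trans ?_
  refine (integral_mono_ae (hii.sub (integrable_const _)).abs
    ((integrable_const _).add (hEi.const_mul _)) hpt).trans ?_
  rw [integral_add' (integrable_const _) (hEi.const_mul _), integral_const_mul]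
  have h6 : D0 * ∫ G, E G ∂(gam M N) ≤ ε / 2 := by
    have h7 : D0 * ∫ G, E G ∂(gam M N) ≤
        D0 * (((J : ℝ) + 1) * (2 * Cv K) * (ε / 2 / D)) :=
      mul_le_mul_of_nonneg_left hEint (by positivity)
    refine h7.trans ?_
    have h8 : D0 * (((J : ℝ) + 1) * (2 * Cv K) * (ε / 2 / D)) =
        (D - 1) / D * (ε / 2) := by rw [hD]; ring
    rw [h8]
    have h9 : (D - 1) / D ≤ 1 := by rw [div_le_one hD0]; linarith
    nlinarith [half_pos hε]
  have h10 : 15 * K ^ 2 * Real.exp (4 * K) / ((J : ℝ) + 1) ≤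
      60 * K ^ 2 * Real.exp (4 * K) / ((J : ℝ) + 1) := by
    gcongr; norm_num
  simp only [integral_const, probReal_univ, smul_eq_mul]
  linarith


end

end Crest.Agent.R146.S6Cavity_769
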