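import Crest.Agent.R146.Noise_143
import Crest.Agent.R146.S6U_988

/-!
Row 146, S0206, node NOISE, part 2: the noise lemma for the system of `S6Def_988`, averaged over the
rows, choice of a good step, and the pair-overlap form used by `S6U_988.STR`.
-/

set_option autoImplicit false

namespace Crest.Agent.R146.Noise2_143

open Finset MeasureTheory ProbabilityTheory
open Crest.Agent.R141 hiding prior sv UU Om fil frel cflip
open Crest.Agent.R164.CavG hiding zf
open Crest.Agent.R146.S6Def_988 Crest.Agent.R146.S6U_988 Crest.Agent.R146.Noise_143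

noncomputable section

variable {N : ℕ} (C : Cfg N) (nc n : ℕ)

/-! ### The prior, the exponents -/

theorem prior_isProb : IsProb (prior C nc n) := by
  constructor
  · intro ω
    unfold prior
    have h1 := C.hq.pos ω.1
    have h2 : 0 < Fintype.card (Coins nc n N) := Fintype.card_pos
    positivity
  · unfold prior
    rw [Fintype.sum_prod_type]
    have h2 : (Fintype.card (Coins nc n N) : ℝ) ≠ 0 := by
      have : 0 < Fintype.card (Coins nc n N) := Fintype.card_pos
      positivity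
    simp only [Finset.sum_const, Finset.card_univ, nsmul_eq_mul]
    rw [← C.hq.sum]
    refine Finset.sum_congr rfl fun y _ => ?_
    field_simp

theorem xs_expo : IsExpo (xs nc n) := by
  refine ⟨fun k => ?_, fun a b hab => ?_, fun k => min_le_left _ _⟩
  · unfold xs
    refine lt_min one_pos ?_
    positivity
  · unfold xs
    refine min_le_min le_rfl ?_
    have h : (a - 1) / n + 1 ≤ (b - 1) / n + 1 :=
      Nat.add_le_add_right (Nat.div_le_div_right (Nat.sub_le_sub_right hab 1)) 1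
    have h' : (((a - 1) / n + 1 : ℕ) : ℝ) ≤ (((b - 1) / n + 1 : ℕ) : ℝ) := by exact_mod_cast h
    exact div_le_div_of_nonneg_right h' (by positivity)

theorem xs_cell (g : Fin nc) {t : ℕ} (ht : t < n) :
    xs nc n ((g : ℕ) * n + t + 1) = ((g : ℝ) + 1) / ((nc : ℝ) + 1) := by
  unfold xs
  have h1 : ((g : ℕ) * n + t + 1 - 1) / n = g := by
    rw [Nat.add_sub_cancel, mul_comm, Nat.mul_add_div (by omega), Nat.div_eq_of_lt ht, add_zero]
  rw [h1]
  push_cast
  refine min_eq_right ?_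
  rw [div_le_one (by positivity)]
  have : ((g : ℕ) : ℝ) ≤ nc := by exact_mod_cast g.2.le
  linarith

theorem fil_L : (fil C nc n).L = nc * n + 1 := rfl

/-! ### The coins -/

/-- flip of one coin -/
def cflip (g : Fin nc) (t : Fin n) (i : Fin N) (c : Coins nc n N) : Coins nc n N :=
  Function.update c g (Function.update (c g) t (Function.update (c g t) i (!(c g t i))))

variable {nc n}

theorem cflip_same (g : Fin nc) (t : Fin n) (i : Fin N) (c : Coins nc n N) :
    cflip nc n g t i c g t i = !(c g t i) := by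
  simp [cflip]

theorem cflip_row (g : Fin nc) (t : Fin n) (i : Fin N) (c : Coins nc n N) (g' : Fin nc)
    (t' : Fin n) (h : (g', t') ≠ (g, t)) : cflip nc n g t i c g' t' = c g' t' := by
  unfold cflip
  by_cases hg : g' = g
  · subst hg
    have ht : t' ≠ t := fun h' => h (by rw [h'])
    rw [Function.update_self, Function.update_of_ne ht]
  · rw [Function.update_of_ne hg]

theorem cflip_coord (g : Fin nc) (t : Fin n) (i : Fin N) (c : Coins nc n N) (j : Fin N)
    (h : j ≠ i) : cflip nc n g t i c g t j = c g t j := by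
  unfold cflip
  rw [Function.update_self, Function.update_self, Function.update_of_ne h]

theorem cflip_invol (g : Fin nc) (t : Fin n) (i : Fin N) (c : Coins nc n N) :
    cflip nc n g t i (cflip nc n g t i c) = c := by
  funext g' t'
  by_cases h : (g', t') = (g, t)
  · obtain ⟨rfl, rfl⟩ := Prod.mk.inj h
    funext j
    by_cases hj : j = i
    · subst hj
      rw [cflip_same, cflip_same, Bool.not_not]
    · rw [cflip_coord _ _ _ _ _ hj, cflip_coord _ _ _ _ _ hj]
  · rw [cflip_row _ _ _ _ _ _ h, cflip_row _ _ _ _ _ _ h]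

/-- coin value -/
def cval (g : Fin nc) (t : Fin n) (i : Fin N) (ω : Om C nc n) : ℝ := if ω.2 g t i = true then 1 else 0

/-- flip on the system -/
def oflip (g : Fin nc) (t : Fin n) (i : Fin N) (ω : Om C nc n) : Om C nc n :=
  (ω.1, cflip nc n g t i ω.2)

theorem coin_inst (g : Fin nc) (t : Fin n) (i : Fin N) :
    Coin (prior C nc n) (fil C nc n) ((g : ℕ) * n + t + 1) (cval C g t i) (oflip C g t i) where
  invol ω := by
    unfold oflip
    rw [cflip_invol]
  P_flip ω := rfl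
  s01 ω := by unfold cval; split_ifs <;> simp
  s_flip ω := by
    unfold cval
    have h1 : (oflip C g t i ω).2 g t i = !(ω.2 g t i) := cflip_same g t i ω.2
    simp only [h1]
    cases h : ω.2 g t i <;> simp
  s_meas := by
    intro ω ω' h
    have h : frel C nc n _ ω ω' := h
    unfold cval
    rw [h.1 g t (by omega)]
  flip_rel l hl a b h := by
    have h : frel C nc n l a b := h
    show frel C nc n l _ _
    refine ⟨fun g' t' hg => ?_, fun hL => h.2 hL⟩
    simp only [oflip]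
    by_cases hgt : (g', t') = (g, t)
    · obtain ⟨rfl, rfl⟩ := Prod.mk.inj hgt
      have hr := h.1 g' t' hg
      funext j
      by_cases hj : j = i
      · subst hj
        rw [cflip_same, cflip_same, hr]
      · rw [cflip_coord _ _ _ _ _ hj, cflip_coord _ _ _ _ _ hj, hr]
    · rw [cflip_row _ _ _ _ _ _ hgt, cflip_row _ _ _ _ _ _ hgt]
      exact h.1 g' t' hg
  rel_flip ω := by
    show frel C nc n _ _ _
    rw [Nat.add_sub_cancel]
    refine ⟨fun g' t' hg => ?_, fun hL => rfl⟩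
    simp only [oflip]
    rw [cflip_row]
    intro h
    obtain ⟨rfl, rfl⟩ := Prod.mk.inj h
    omega

theorem sv_eq (b : Bool) : sv b = 2 * (if b = true then (1 : ℝ) else 0) - 1 := by
  unfold sv
  cases b <;> norm_num

/-- the field after a flip -/
theorem zf_flip (g : Fin nc) (t : Fin n) (i : Fin N) (c : Coins nc n N) (g' : Fin nc) (j : Fin N) :
    zf (cflip nc n g t i c) g' j =
      zf c g' j - (if g' = g ∧ j = i then 2 * (Real.sqrt n)⁻¹ * sv (c g t i) else 0) := by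
  unfold zf
  by_cases h : g' = g ∧ j = i
  · obtain ⟨rfl, rfl⟩ := h
    rw [if_pos ⟨rfl, rfl⟩]
    have h1 : ∑ t', sv (cflip nc n g' t j c g' t' j) = ∑ t', sv (c g' t' j) - 2 * sv (c g' t j) := by
      rw [← Finset.add_sum_erase _ _ (Finset.mem_univ t),
        ← Finset.add_sum_erase _ (fun t' => sv (c g' t' j)) (Finset.mem_univ t), cflip_same]
      have h2 : ∑ t' ∈ univ.erase t, sv (cflip nc n g' t j c g' t' j) =
          ∑ t' ∈ univ.erase t, sv (c g' t' j) := by
        refine Finset.sum_congr rfl fun t' ht' => ?_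
        rw [cflip_row]
        intro h3
        exact Finset.ne_of_mem_erase ht' (Prod.mk.inj h3).2
      rw [h2]
      have h3 : sv (!(c g' t j)) = - sv (c g' t j) := by
        cases c g' t j <;> simp [sv]
      rw [h3]; ring
    rw [h1]; ring
  · rw [if_neg h, sub_zero]
    congr 1
    refine Finset.sum_congr rfl fun t' _ => ?_
    by_cases h2 : (g', t') = (g, t)
    · obtain ⟨rfl, rfl⟩ := Prod.mk.inj h2
      have hj : j ≠ i := fun h3 => h ⟨rfl, h3⟩
      rw [cflip_coord _ _ _ _ _ hj]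
    · rw [cflip_row _ _ _ _ _ _ h2]

theorem UU_flip {M : ℕ} (f : ℕ → ℝ → ℝ) (G : Fin M → Fin N → ℝ) (s : Fin nc → ℝ) (g : Fin nc)
    (t : Fin n) (i : Fin N) (ω : Om C nc n) :
    UU f G s (oflip C g t i ω) =
      UU f G s ω - 2 * ((Real.sqrt n)⁻¹ * s g) * (2 * cval C g t i ω - 1) * C.x ω.1 i := by
  unfold UU
  have h1 : (oflip C g t i ω).1 = ω.1 := rfl
  have h2 : (oflip C g t i ω).2 = cflip nc n g t i ω.2 := rfl
  have h3 : 2 * cval C g t i ω - 1 = sv (ω.2 g t i) := by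
    unfold cval; rw [sv_eq]
  rw [h1, h3]
  have h4 : fieldE s (oflip C g t i ω) = fieldE s ω -
      2 * ((Real.sqrt n)⁻¹ * s g) * sv (ω.2 g t i) * C.x ω.1 i := by
    unfold fieldE
    rw [h1, h2]
    have h5 : ∀ g', s g' * ∑ j, zf (cflip nc n g t i ω.2) g' j * C.x ω.1 j =
        s g' * ∑ j, zf ω.2 g' j * C.x ω.1 j -
          (if g' = g then 2 * ((Real.sqrt n)⁻¹ * s g) * sv (ω.2 g t i) * C.x ω.1 i else 0) := by
      intro g'
      simp_rw [zf_flip, sub_mul, Finset.sum_sub_distrib, mul_sub]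
      congr 1
      by_cases hg : g' = g
      · subst hg
        rw [if_pos rfl]
        have h6 : ∀ j, (if g' = g' ∧ j = i then 2 * (Real.sqrt n)⁻¹ * sv (ω.2 g' t i) else 0) *
            C.x ω.1 j = if j = i then 2 * (Real.sqrt n)⁻¹ * sv (ω.2 g' t i) * C.x ω.1 j else 0 := by
          intro j
          by_cases hj : j = i <;> simp [hj]
        rw [Finset.sum_congr rfl fun j _ => h6 j]
        rw [Finset.sum_ite_eq' univ i]
        simp only [Finset.mem_univ, if_true]
        ring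
      · rw [if_neg hg]
        have h6 : ∀ j, (if g' = g ∧ j = i then 2 * (Real.sqrt n)⁻¹ * sv (ω.2 g t i) else 0) *
            C.x ω.1 j = 0 := by
          intro j
          rw [if_neg (fun h => hg h.1), zero_mul]
        simp_rw [h6, Finset.sum_const_zero, mul_zero]
    simp_rw [h5, Finset.sum_sub_distrib]
    congr 1
    rw [Finset.sum_ite_eq' univ g]
    simp
  rw [h4]; ring

theorem abs_x_le (y : C.Y) (i : Fin N) : |C.x y i| ≤ Real.sqrt N := by
  apply Real.abs_le_sqrt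
  rw [← C.hx y]
  exact Finset.single_le_sum (f := fun i => C.x y i ^ 2) (fun _ _ => sq_nonneg _)
    (Finset.mem_univ i)

/-- the row of coins `(g, t)` satisfies the hypotheses of the noise lemma. -/
theorem row_inst {M : ℕ} (f : ℕ → ℝ → ℝ) (G : Fin M → Fin N → ℝ) (s : Fin nc → ℝ) (g : Fin nc)
    (t : Fin n) (hs : 8 * (|s g| * Real.sqrt N) ≤ Real.sqrt n) :
    Row (prior C nc n) (fil C nc n) (xs nc n) ((g : ℕ) * n + t) (cval C g t) (oflip C g t)
      (UU (C := C) f G s) (fun ω => C.x ω.1) ((Real.sqrt n)⁻¹ * s g) (Real.sqrt N) where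
  hP := prior_isProb C nc n
  hx := xs_expo nc n
  hL := by
    rw [fil_L]
    have h1 : ((g : ℕ) + 1) * n ≤ nc * n := Nat.mul_le_mul_right n g.2
    have h2 := t.2
    have h3 : (g : ℕ) * n + n = ((g : ℕ) + 1) * n := by ring
    omega
  coin i := coin_inst C g t i
  cross i j hij ω := by
    unfold cval
    have h1 : (oflip C g t i ω).2 g t j = ω.2 g t j := cflip_coord g t i ω.2 j (Ne.symm hij)
    simp only [h1]
  inv i ω := rfl
  en i ω := UU_flip C f G s g t i ω
  bd ω i := abs_x_le C ω.1 i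
  small := by
    have hn : 0 < n := Fin.pos t
    have hsn : 0 < Real.sqrt n := Real.sqrt_pos.mpr (by exact_mod_cast hn)
    rw [abs_mul, abs_of_pos (inv_pos.mpr hsn), mul_assoc]
    calc (Real.sqrt n)⁻¹ * (|s g| * Real.sqrt N) ≤ (Real.sqrt n)⁻¹ * (Real.sqrt n / 8) := by
          refine mul_le_mul_of_nonneg_left ?_ (inv_pos.mpr hsn).le
          linarith
      _ = 1 / 8 := by field_simp

/-- the normalised configuration -/
def yv (ω : Om C nc n) (i : Fin N) : ℝ := C.x ω.1 i / Real.sqrt N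

theorem QQ_isProb {M : ℕ} (f : ℕ → ℝ → ℝ) (G : Fin M → Fin N → ℝ) (s : Fin nc → ℝ) :
    IsProb (QQ C nc n f G s) :=
  tl_isProb (prior_isProb C nc n) (xs_expo nc n).pos _

theorem pur_scale {Ω κ : Type*} [Fintype Ω] [Fintype κ] (P : Ω → ℝ) (r : Setoid Ω)
    (x : Ω → κ → ℝ) (c : ℝ) :
    pur P r (fun ω i => c * x ω i) = c ^ 4 * pur P r x := by
  unfold pur
  rw [← eE_smul]
  congr 1
  funext ω
  rw [Finset.mul_sum]
  refine Finset.sum_congr rfl fun i _ => ?_
  rw [Finset.mul_sum]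
  refine Finset.sum_congr rfl fun j _ => ?_
  have h1 : cvr P r (fun ω i => c * x ω i) i j ω = c ^ 2 * cvr P r x i j ω := by
    unfold cvr
    rw [← cE_smul]
    congr 1
    funext a
    unfold dv cEv
    rw [cE_smul, cE_smul]
    ring
  rw [h1]; ring

/-- **(N3)** noise in the cell `g`, pointwise in the rows, unnormalised. -/
theorem noise_sys {M : ℕ} (f : ℕ → ℝ → ℝ) (G : Fin M → Fin N → ℝ) (s : Fin nc → ℝ) (g : Fin nc)
    (hn : 0 < n) (hs : 8 * (|s g| * Real.sqrt N) ≤ Real.sqrt n) :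
    (s g ^ 2 / n) * (((g : ℝ) + 1) / ((nc : ℝ) + 1)) ^ 2 *
      ∑ t ∈ range n, pur (QQ C nc n f G s) ((fil C nc n).F ((g : ℕ) * n + t))
        (fun ω => C.x ω.1) ≤
      N + 4785 * (N : ℝ) ^ 3 * Real.sqrt N ^ 5 * |s g| ^ 3 / Real.sqrt n := by
  have hn0 : (0 : ℝ) < n := by exact_mod_cast hn
  have hsn : 0 < Real.sqrt n := Real.sqrt_pos.mpr hn0
  have hss : Real.sqrt n ^ 2 = n := Real.sq_sqrt hn0.le
  have h := noise_cell (P := prior C nc n) (𝓕 := fil C nc n) (x := xs nc n) (n := n)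
    (m0 := (g : ℕ) * n) (U := UU (C := C) f G s) (v := fun ω => C.x ω.1)
    (δ := (Real.sqrt n)⁻¹ * s g) (K := Real.sqrt N)
    (s := fun t => if h : t < n then cval C g ⟨t, h⟩ else fun _ _ => 0)
    (ι := fun t => if h : t < n then oflip C g ⟨t, h⟩ else fun _ ω => ω)
    (fun t ht => by
      simp only [dif_pos ht]
      exact row_inst C f G s g ⟨t, ht⟩ hs)
    (prior_isProb C nc n) (xs_expo nc n) (Real.sqrt_nonneg _)
    (y := ((g : ℝ) + 1) / ((nc : ℝ) + 1)) (by positivity)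
    (fun t ht => (xs_cell nc n g ht).ge)
  have e1 : ((Real.sqrt n)⁻¹ * s g) ^ 2 = s g ^ 2 / n := by
    rw [mul_pow, inv_pow, hss]; field_simp
  have e2 : eE (tl (prior C nc n) (fil C nc n) (xs nc n) (UU (C := C) f G s))
      (fun ω => ∑ l, C.x ω.1 l ^ 2) = N := by
    have hQ := QQ_isProb C (nc := nc) (n := n) f G s
    have : (fun ω : Om C nc n => ∑ l, C.x ω.1 l ^ 2) = fun _ => (N : ℝ) :=
      funext fun ω => C.hx ω.1
    rw [this]
    exact eE_const hQ _
  have e3 : (n : ℝ) * (4785 * (Fintype.card (Fin N) : ℝ) ^ 3 * Real.sqrt N ^ 5 *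
      |(Real.sqrt n)⁻¹ * s g| ^ 3) =
      4785 * (N : ℝ) ^ 3 * Real.sqrt N ^ 5 * |s g| ^ 3 / Real.sqrt n := by
    rw [Fintype.card_fin, abs_mul, abs_of_pos (inv_pos.mpr hsn), mul_pow]
    have : (n : ℝ) * ((Real.sqrt n)⁻¹ ^ 3) = 1 / Real.sqrt n := by
      rw [← hss]
      have h2 : Real.sqrt (Real.sqrt n ^ 2) = Real.sqrt n := Real.sqrt_sq hsn.le
      rw [h2]
      field_simp
    calc (n : ℝ) * (4785 * (N : ℝ) ^ 3 * Real.sqrt N ^ 5 * ((Real.sqrt n)⁻¹ ^ 3 * |s g| ^ 3)) =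
          4785 * (N : ℝ) ^ 3 * Real.sqrt N ^ 5 * |s g| ^ 3 * (n * ((Real.sqrt n)⁻¹ ^ 3)) := by ring
      _ = _ := by rw [this]; ring
  rw [e1, e2, e3] at h
  exact h

/-! ### Measurability in the rows -/

section meas

variable {Z Ω κ : Type*} [MeasurableSpace Z] [Fintype Ω] [Fintype κ]

theorem meas_cE {P : Z → Ω → ℝ} {f : Z → Ω → ℝ} (hP : ∀ ω, Measurable fun z => P z ω)
    (hf : ∀ ω, Measurable fun z => f z ω) (r : Setoid Ω) (ω : Ω) :
    Measurable fun z => cE (P z) r (f z) ω := by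
  unfold cE
  exact (Finset.measurable_sum _ fun a _ => (hP a).mul (hf a)).div
    (Finset.measurable_sum _ fun a _ => hP a)

theorem meas_eE {P : Z → Ω → ℝ} {f : Z → Ω → ℝ} (hP : ∀ ω, Measurable fun z => P z ω)
    (hf : ∀ ω, Measurable fun z => f z ω) : Measurable fun z => eE (P z) (f z) := by
  unfold eE
  exact Finset.measurable_sum _ fun a _ => (hP a).mul (hf a)

theorem meas_A (P : Ω → ℝ) (𝓕 : Filt Ω) (x : ℕ → ℝ) {U : Z → Ω → ℝ}
    (hU : ∀ ω, Measurable fun z => U z ω) (k : ℕ) :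
    ∀ ω, Measurable fun z => A P 𝓕 x (U z) k ω := by
  have h : ∀ j ω, Measurable fun z => Crest.Agent.R141.Ab P 𝓕 x (U z) j ω := by
    intro j
    induction j with
    | zero => intro ω; exact hU ω
    | succ j ih =>
      intro ω
      unfold Crest.Agent.R141.Ab pm
      refine Measurable.const_mul (Measurable.log ?_) _
      exact meas_cE (P := fun _ => P) (fun _ => measurable_const)
        (fun a => ((ih a).const_mul _).exp) _ ω
  intro ω
  exact h _ ω

theorem meas_tl (P : Ω → ℝ) (𝓕 : Filt Ω) (x : ℕ → ℝ) {U : Z → Ω → ℝ}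
    (hU : ∀ ω, Measurable fun z => U z ω) (ω : Ω) : Measurable fun z => tl P 𝓕 x (U z) ω := by
  unfold tl S
  refine Measurable.const_mul (Measurable.exp ?_) _
  refine Finset.measurable_sum _ fun l _ => ?_
  exact ((meas_A P 𝓕 x hU (l + 1) ω).sub (meas_A P 𝓕 x hU l ω)).const_mul _

theorem meas_pur {P : Z → Ω → ℝ} (hP : ∀ ω, Measurable fun z => P z ω) (r : Setoid Ω)
    (x : Ω → κ → ℝ) : Measurable fun z => pur (P z) r x := by
  unfold pur
  refine meas_eE hP fun ω => ?_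
  refine Finset.measurable_sum _ fun i _ => Finset.measurable_sum _ fun j _ => ?_
  refine Measurable.pow_const ?_ 2
  unfold cvr
  refine meas_cE hP (fun a => ?_) r ω
  unfold dv cEv
  have h : ∀ k, Measurable fun z => cE (P z) r (fun a => x a k) ω := fun k =>
    meas_cE (f := fun _ a => x a k) hP (fun _ => measurable_const) r ω
  exact ((h i).const_sub _).mul ((h j).const_sub _)

theorem pur_le {P : Ω → ℝ} (hP : IsProb P) (r : Setoid Ω) {x : Ω → κ → ℝ} {K : ℝ} (hK : 0 ≤ K)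
    (hx : ∀ ω i, |x ω i| ≤ K) : pur P r x ≤ (Fintype.card κ : ℝ) ^ 2 * (16 * K ^ 4) := by
  unfold pur
  refine eE_le_of_le hP fun ω => ?_
  have h : ∀ i j, cvr P r x i j ω ^ 2 ≤ 16 * K ^ 4 := by
    intro i j
    have h1 : |cvr P r x i j ω| ≤ 4 * K ^ 2 := by
      unfold cvr
      refine abs_cE_le_of_le hP (fun a => ?_) ω
      rw [abs_mul]
      calc |dv P r x ω a i| * |dv P r x ω a j| ≤ (2 * K) * (2 * K) :=
            mul_le_mul (abs_dv_le hP hx ω a i) (abs_dv_le hP hx ω a j) (abs_nonneg _)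
              (by positivity)
        _ = 4 * K ^ 2 := by ring
    have := pow_le_pow_left₀ (abs_nonneg _) h1 2
    rw [sq_abs] at this
    refine this.trans (le_of_eq (by ring))
  refine (Finset.sum_le_sum fun i _ => Finset.sum_le_sum fun j _ => h i j).trans (le_of_eq ?_)
  rw [Finset.sum_const, Finset.sum_const, Finset.card_univ, nsmul_eq_mul, nsmul_eq_mul]
  ring

end meas

theorem meas_UU {M : ℕ} {f : ℕ → ℝ → ℝ} (hf : ∀ a, Measurable (f a)) (s : Fin nc → ℝ)
    (ω : Om C nc n) : Measurable fun G : Fin M → Fin N → ℝ => UU (C := C) f G s ω := by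
  unfold UU rowE
  refine Measurable.add_const ?_ _
  refine Finset.measurable_sum _ fun a _ => (hf _).comp ?_
  exact Finset.measurable_sum _ fun i _ => by fun_prop

theorem meas_QQ {M : ℕ} {f : ℕ → ℝ → ℝ} (hf : ∀ a, Measurable (f a)) (s : Fin nc → ℝ)
    (ω : Om C nc n) : Measurable fun G : Fin M → Fin N → ℝ => QQ C nc n f G s ω :=
  meas_tl _ _ _ (fun ω => meas_UU C hf s ω) ω

instance (M N : ℕ) : IsProbabilityMeasure (gam M N) := by unfold gam; infer_instance

theorem integrable_pur {M : ℕ} {f : ℕ → ℝ → ℝ} (hf : ∀ a, Measurable (f a)) (s : Fin nc → ℝ)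
    (r : Setoid (Om C nc n)) {κ : Type*} [Fintype κ] (x : Om C nc n → κ → ℝ) {K : ℝ}
    (hK : 0 ≤ K) (hx : ∀ ω i, |x ω i| ≤ K) :
    Integrable (fun G : Fin M → Fin N → ℝ => pur (QQ C nc n f G s) r x) (gam M N) := by
  refine Integrable.of_bound (C := (Fintype.card κ : ℝ) ^ 2 * (16 * K ^ 4))
    (meas_pur (fun ω => meas_QQ C hf s ω) r x).aestronglyMeasurable ?_
  refine Filter.Eventually.of_forall fun G => ?_
  have hQ := QQ_isProb C (nc := nc) (n := n) f G s
  rw [Real.norm_eq_abs, abs_of_nonneg (pur_nonneg hQ x)]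
  exact pur_le hQ r hK hx

/-- **(N4)** averaged over the rows, normalised: some step of the cell `g` is good. -/
theorem exists_step {M : ℕ} {f : ℕ → ℝ → ℝ} (hf : ∀ a, Measurable (f a)) (s : Fin nc → ℝ)
    (g : Fin nc) (hN : 0 < N) (hn : 0 < n) (hsg : 0 < s g)
    (hs : 8 * (s g * Real.sqrt N) ≤ Real.sqrt n) :
    ∃ t < n, ∫ G, pur (QQ C nc n (M := M) f G s) ((fil C nc n).F (st n g + t))
        (fun w i => C.x w.1 i / Real.sqrt N) ∂(gam M N) ≤
      (((nc : ℝ) + 1) / (((g : ℝ) + 1) * s g)) ^ 2 *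
        ((N : ℝ)⁻¹ + 4785 * N * Real.sqrt N ^ 5 * s g ^ 3 / Real.sqrt n) := by
  have hn0 : (0 : ℝ) < n := by exact_mod_cast hn
  have hN0 : (0 : ℝ) < N := by exact_mod_cast hN
  have hsN : 0 < Real.sqrt N := Real.sqrt_pos.mpr hN0
  have hsn : 0 < Real.sqrt n := Real.sqrt_pos.mpr hn0
  have hssN : Real.sqrt N ^ 2 = N := Real.sq_sqrt hN0.le
  set B : ℝ := (((nc : ℝ) + 1) / (((g : ℝ) + 1) * s g)) ^ 2 *
        ((N : ℝ)⁻¹ + 4785 * N * Real.sqrt N ^ 5 * s g ^ 3 / Real.sqrt n) with hB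
  set I : ℕ → ℝ := fun t => ∫ G, pur (QQ C nc n (M := M) f G s) ((fil C nc n).F (st n g + t))
        (fun w i => C.x w.1 i / Real.sqrt N) ∂(gam M N) with hI
  have hbd : ∀ (ω : Om C nc n) i, |C.x ω.1 i / Real.sqrt N| ≤ 1 := by
    intro ω i
    rw [abs_div, abs_of_pos hsN, div_le_one hsN]
    exact abs_x_le C ω.1 i
  have hint : ∀ t, Integrable (fun G : Fin M → Fin N → ℝ => pur (QQ C nc n f G s)
      ((fil C nc n).F (st n g + t)) (fun w i => C.x w.1 i / Real.sqrt N)) (gam M N) :=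
    fun t => integrable_pur C hf s _ _ zero_le_one hbd
  -- pointwise bound of the sum
  have hpt : ∀ G : Fin M → Fin N → ℝ, ∑ t ∈ range n, pur (QQ C nc n f G s)
      ((fil C nc n).F (st n g + t)) (fun w i => C.x w.1 i / Real.sqrt N) ≤ n * B := by
    intro G
    have h := noise_sys C f G s g hn (by rwa [abs_of_pos hsg])
    rw [abs_of_pos hsg] at h
    have e1 : ∀ t, pur (QQ C nc n f G s) ((fil C nc n).F (st n g + t))
        (fun w i => C.x w.1 i / Real.sqrt N) = ((N : ℝ)⁻¹) ^ 2 *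
        pur (QQ C nc n f G s) ((fil C nc n).F ((g : ℕ) * n + t)) (fun ω => C.x ω.1) := by
      intro t
      have e2 : (fun (w : Om C nc n) i => C.x w.1 i / Real.sqrt N) =
          fun w i => (Real.sqrt N)⁻¹ * C.x w.1 i := by
        funext w i; rw [div_eq_inv_mul]
      rw [e2, pur_scale]
      congr 1
      have : (Real.sqrt N)⁻¹ ^ 4 = ((Real.sqrt N ^ 2)⁻¹) ^ 2 := by
        rw [← inv_pow]; ring
      rw [this, hssN]
    simp_rw [e1]
    rw [← Finset.mul_sum]
    set Sg := ∑ t ∈ range n, pur (QQ C nc n f G s) ((fil C nc n).F ((g : ℕ) * n + t))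
      (fun ω => C.x ω.1) with hSg
    set R : ℝ := N + 4785 * (N : ℝ) ^ 3 * Real.sqrt N ^ 5 * s g ^ 3 / Real.sqrt n with hR
    have hg1 : (0 : ℝ) < (g : ℝ) + 1 := by positivity
    have hnc1 : (0 : ℝ) < (nc : ℝ) + 1 := by positivity
    have h2 : Sg ≤ n * ((((nc : ℝ) + 1) / (((g : ℝ) + 1) * s g)) ^ 2 * R) := by
      have h3 : Sg = n * ((((nc : ℝ) + 1) / (((g : ℝ) + 1) * s g)) ^ 2 *
          ((s g ^ 2 / n) * (((g : ℝ) + 1) / ((nc : ℝ) + 1)) ^ 2 * Sg)) := by
        field_simp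
      rw [h3]
      refine mul_le_mul_of_nonneg_left (mul_le_mul_of_nonneg_left h (by positivity)) hn0.le
    have h4 : ((N : ℝ)⁻¹) ^ 2 * R =
        (N : ℝ)⁻¹ + 4785 * N * Real.sqrt N ^ 5 * s g ^ 3 / Real.sqrt n := by
      rw [hR]; field_simp
    calc ((N : ℝ)⁻¹) ^ 2 * Sg ≤ ((N : ℝ)⁻¹) ^ 2 *
          (n * ((((nc : ℝ) + 1) / (((g : ℝ) + 1) * s g)) ^ 2 * R)) :=
          mul_le_mul_of_nonneg_left h2 (by positivity)
      _ = n * ((((nc : ℝ) + 1) / (((g : ℝ) + 1) * s g)) ^ 2 * (((N : ℝ)⁻¹) ^ 2 * R)) := by ring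
      _ = n * B := by rw [h4]
  have hsum : ∑ t ∈ range n, I t ≤ n * B := by
    simp only [hI]
    rw [← integral_finsetSum _ fun t _ => hint t]
    have h1 := integral_mono (μ := gam M N) (integrable_finsetSum _ fun t _ => hint t)
      (integrable_const (n * B)) hpt
    rwa [integral_const, probReal_univ, one_smul] at h1
  by_contra hcon
  push Not at hcon
  have h5 : ∑ t ∈ range n, B < ∑ t ∈ range n, I t := by
    refine Finset.sum_lt_sum_of_nonempty ⟨0, Finset.mem_range.mpr hn⟩ fun t ht => ?_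
    exact hcon t (Finset.mem_range.mp ht)
  rw [Finset.sum_const, Finset.card_range, nsmul_eq_mul] at h5
  linarith

/-- **NOISE2** (form of helper649): in every cell there is a step at which the normalised
configuration is `η`-pure, averaged over the rows. -/
theorem noise2 (nc : ℕ) (b0 A η : ℝ) (hb0 : 0 < b0) (hA : b0 < A) (hη : 0 < η) :
    ∃ (N0 : ℕ) (n0 : ℕ → ℕ), ∀ N, N0 ≤ N → ∀ n, n0 N ≤ n → ∀ (C : Cfg N) (f : ℕ → ℝ → ℝ) (M : ℕ),
      (∀ a, Measurable (f a)) → ∀ s : Fin nc → ℝ, (∀ g, b0 ≤ s g ∧ s g ≤ A) → ∀ g : Fin nc,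
      ∃ t < n, ∫ G, pur (QQ C nc n (M := M) f G s) ((fil C nc n).F (st n g + t))
        (fun w i => C.x w.1 i / Real.sqrt N) ∂(gam M N) ≤ η := by
  have hA0 : 0 < A := hb0.trans hA
  set R0 : ℝ := (((nc : ℝ) + 1) / b0) ^ 2 with hR0
  have hR0p : 0 < R0 := by positivity
  refine ⟨⌈2 * R0 / η⌉₊ + 1, fun N => ⌈(2 * R0 * (4785 * N * Real.sqrt N ^ 5 * A ^ 3) / η +
    8 * (A * Real.sqrt N)) ^ 2⌉₊ + 1, ?_⟩
  intro N hN n hn C f M hf s hs g
  have hn : ⌈(2 * R0 * (4785 * N * Real.sqrt N ^ 5 * A ^ 3) / η +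
    8 * (A * Real.sqrt N)) ^ 2⌉₊ + 1 ≤ n := hn
  have hN1 : 0 < N := by omega
  have hn1 : 0 < n := lt_of_lt_of_le (Nat.succ_pos _) hn
  have hN0 : (0 : ℝ) < N := by exact_mod_cast hN1
  have hn0 : (0 : ℝ) < n := by exact_mod_cast hn1
  have hsn : 0 < Real.sqrt n := Real.sqrt_pos.mpr hn0
  set q : ℝ := 2 * R0 * (4785 * N * Real.sqrt N ^ 5 * A ^ 3) / η with hq
  have hq0 : 0 ≤ q := by positivity
  have hr0 : 0 ≤ 8 * (A * Real.sqrt N) := by positivity
  have h1 : q + 8 * (A * Real.sqrt N) ≤ Real.sqrt n := by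
    apply Real.le_sqrt_of_sq_le
    have h2 : ((⌈(q + 8 * (A * Real.sqrt N)) ^ 2⌉₊ + 1 : ℕ) : ℝ) ≤ n := Nat.cast_le.mpr hn
    push_cast at h2
    have h3 := Nat.le_ceil ((q + 8 * (A * Real.sqrt N)) ^ 2)
    linarith
  have h4 : 2 * R0 / η ≤ N := by
    have h2 : ((⌈2 * R0 / η⌉₊ + 1 : ℕ) : ℝ) ≤ N := by exact_mod_cast hN
    push_cast at h2
    have h3 := Nat.le_ceil (2 * R0 / η)
    linarith
  have hsg := hs g
  have hsg0 : 0 < s g := hb0.trans_le hsg.1
  have hsm : 8 * (s g * Real.sqrt N) ≤ Real.sqrt n := by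
    have : s g * Real.sqrt N ≤ A * Real.sqrt N :=
      mul_le_mul_of_nonneg_right hsg.2 (Real.sqrt_nonneg _)
    linarith
  obtain ⟨t, ht, hle⟩ := exists_step C hf s g hN1 hn1 hsg0 hsm
  refine ⟨t, ht, hle.trans ?_⟩
  have h5 : (((nc : ℝ) + 1) / (((g : ℝ) + 1) * s g)) ^ 2 ≤ R0 := by
    rw [hR0]
    refine pow_le_pow_left₀ (by positivity) ?_ 2
    refine div_le_div_of_nonneg_left (by positivity) hb0 ?_
    have : (0 : ℝ) ≤ (g : ℝ) := Nat.cast_nonneg _
    nlinarith [hsg.1]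
  have h6 : (N : ℝ)⁻¹ ≤ η / (2 * R0) := by
    rw [inv_le_comm₀ hN0 (by positivity), inv_div]
    exact h4
  have h7 : 4785 * N * Real.sqrt N ^ 5 * s g ^ 3 / Real.sqrt n ≤ η / (2 * R0) := by
    rw [div_le_div_iff₀ hsn (by positivity)]
    have h8 : 4785 * N * Real.sqrt N ^ 5 * s g ^ 3 ≤ 4785 * N * Real.sqrt N ^ 5 * A ^ 3 := by
      refine mul_le_mul_of_nonneg_left (pow_le_pow_left₀ hsg0.le hsg.2 3) (by positivity)
    have h9 : q ≤ Real.sqrt n := by linarith
    rw [hq, div_le_iff₀ hη] at h9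
    nlinarith
  have h8 : 0 ≤ (N : ℝ)⁻¹ + 4785 * N * Real.sqrt N ^ 5 * s g ^ 3 / Real.sqrt n := by positivity
  calc (((nc : ℝ) + 1) / (((g : ℝ) + 1) * s g)) ^ 2 *
        ((N : ℝ)⁻¹ + 4785 * N * Real.sqrt N ^ 5 * s g ^ 3 / Real.sqrt n) ≤
        R0 * (η / (2 * R0) + η / (2 * R0)) :=
        mul_le_mul h5 (add_le_add h6 h7) h8 hR0p.le
    _ = η := by field_simp; ring

end

end Crest.Agent.R146.Noise2_143
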