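import Crest.Agent.R146.S6U_988
import Crest.Agent.R164.OvConc
import Crest.Agent.R164.GSpin

/-!
Row 146, statement S0206, task S6-OVL (helper382): concentration of the overlap `N⁻¹ |E_k x|²`
inside a cell, from the concentration of the field observables of the two next cells and the
classwise integration by parts (`CIBP`, task S6-CIBP (C)).

Also: measurability and integrability in the rows, `0 ≤ Rk ≤ 1`, monotonicity of `Rk`.
-/

set_option autoImplicit false

namespace Crest.Agent.R146.S6Ovl_382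

open Finset MeasureTheory ProbabilityTheory
open Crest.Agent.R141 hiding prior UU
open Crest.Agent.R146.S6Def_988 Crest.Agent.R146.S6U_988
open Crest.Agent.R164.RotRel (rr rr_nonneg)
open Crest.Agent.R164.OvC (Tg)

noncomputable section

/-! ### Basic facts -/

theorem prior_isProb {N : ℕ} (C : Cfg N) (nc n : ℕ) : IsProb (prior C nc n) where
  pos ω := by
    unfold prior
    have h1 := C.hq.pos ω.1
    have h2 : (0 : ℝ) < (Fintype.card (Coins nc n N) : ℝ) := by
      exact_mod_cast Fintype.card_pos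
    positivity
  sum := by
    unfold prior
    have h2 : (Fintype.card (Coins nc n N) : ℝ) ≠ 0 := by
      exact_mod_cast (Fintype.card_pos (α := Coins nc n N)).ne'
    rw [Fintype.sum_prod_type]
    simp only [Finset.sum_const, Finset.card_univ, nsmul_eq_mul]
    have h3 : ∀ y, (Fintype.card (Coins nc n N) : ℝ) *
        (C.q y * (Fintype.card (Coins nc n N) : ℝ)⁻¹) = C.q y := by
      intro y
      rw [mul_comm (C.q y), ← mul_assoc, mul_inv_cancel₀ h2, one_mul]
    simp only [h3]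
    exact C.hq.sum

theorem xs_pos (nc n k : ℕ) : 0 < xs nc n k := by
  unfold xs
  refine lt_min one_pos ?_
  positivity

theorem QQ_isProb {N : ℕ} (C : Cfg N) (nc n : ℕ) {M : ℕ} (f : ℕ → ℝ → ℝ)
    (G : Fin M → Fin N → ℝ) (s : Fin nc → ℝ) : IsProb (QQ C nc n f G s) :=
  tl_isProb (prior_isProb C nc n) (xs_pos nc n) _

instance gam_prob (M N : ℕ) : IsProbabilityMeasure (gam M N) := by
  unfold gam; infer_instance

theorem measurable_UU {N : ℕ} (C : Cfg N) (nc n : ℕ) {M : ℕ} {f : ℕ → ℝ → ℝ}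
    (hf : ∀ a, Measurable (f a)) (s : Fin nc → ℝ) (ω : Om C nc n) :
    Measurable fun G : Fin M → Fin N → ℝ => UU f G s ω := by
  unfold UU rowE
  refine Measurable.add_const ?_ _
  refine Finset.measurable_sum _ fun a _ => ?_
  refine (hf a).comp (Finset.measurable_sum _ fun i _ => ?_)
  exact ((measurable_pi_apply i).comp (measurable_pi_apply a)).mul_const _

theorem measurable_QQ {N : ℕ} (C : Cfg N) (nc n : ℕ) {M : ℕ} {f : ℕ → ℝ → ℝ}
    (hf : ∀ a, Measurable (f a)) (s : Fin nc → ℝ) (ω : Om C nc n) :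
    Measurable fun G : Fin M → Fin N → ℝ => QQ C nc n f G s ω :=
  Crest.Agent.R164.G.meas_tl (prior_isProb C nc n) (xs_pos nc n)
    (fun ω => measurable_UU C nc n hf s ω) ω

/-- integrability in the rows of the tilted expectation of a bounded observable (which may depend
on the rows). -/
theorem integrable_eE {N : ℕ} (C : Cfg N) (nc n : ℕ) {M : ℕ} {f : ℕ → ℝ → ℝ}
    (hf : ∀ a, Measurable (f a)) (s : Fin nc → ℝ) {h : (Fin M → Fin N → ℝ) → Om C nc n → ℝ}
    (hh : ∀ ω, Measurable fun G => h G ω) {B : ℝ} (hB : ∀ G ω, |h G ω| ≤ B) :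
    Integrable (fun G => eE (QQ C nc n f G s) (h G)) (gam M N) := by
  refine Integrable.of_bound
    (Crest.Agent.R164.G.meas_eE (measurable_QQ C nc n hf s) hh).aestronglyMeasurable B
    (Filter.Eventually.of_forall fun G => ?_)
  rw [Real.norm_eq_abs]
  refine (eE_abs_le (QQ_isProb C nc n f G s) _).trans ?_
  exact eE_le_of_le (QQ_isProb C nc n f G s) (hB G)

/-- the coordinates as functions on the enriched system -/
def XX {N : ℕ} (C : Cfg N) (nc n : ℕ) (i : Fin N) (w : Om C nc n) : ℝ := C.x w.1 i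

section

variable {N : ℕ} (C : Cfg N) (nc n : ℕ) (f : ℕ → ℝ → ℝ) {M : ℕ} (s : Fin nc → ℝ)

/-- the overlap `N⁻¹ |E_k x|²` -/
abbrev ov (G : Fin M → Fin N → ℝ) (k : ℕ) : Om C nc n → ℝ :=
  rr (XX C nc n) (QQ C nc n f G s) (fil C nc n) (univ : Finset (Fin N)) k

theorem ov_eq (G : Fin M → Fin N → ℝ) (k : ℕ) (ω : Om C nc n) :
    ov C nc n f s G k ω = (N : ℝ)⁻¹ *
      ∑ i, (cE (QQ C nc n (M := M) f G s) ((fil C nc n).F k) (fun w => C.x w.1 i) ω) ^ 2 := by
  unfold ov rr XX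
  rw [Finset.card_univ, Fintype.card_fin]

theorem Rk_eq (k : ℕ) : Rk C nc n f M s k =
    ∫ G, eE (QQ C nc n (M := M) f G s) (ov C nc n f s G k) ∂(gam M N) := by
  unfold Rk
  refine integral_congr_ae (Filter.Eventually.of_forall fun G => ?_)
  show eE _ _ = eE _ _
  congr 1
  funext ω
  rw [ov_eq]

theorem ov_nonneg (G : Fin M → Fin N → ℝ) (k : ℕ) (ω : Om C nc n) : 0 ≤ ov C nc n f s G k ω :=
  rr_nonneg (XX C nc n) (Q := QQ C nc n f G s) (𝓕 := fil C nc n) _ _ _

theorem ov_le (hN : 0 < N) (G : Fin M → Fin N → ℝ) (k : ℕ) (ω : Om C nc n) :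
    ov C nc n f s G k ω ≤ 1 := by
  refine Crest.Agent.R164.RotRel.rr_le (XX C nc n) (QQ_isProb C nc n f G s)
    (B := (univ : Finset (Fin N))) (by rw [Finset.card_univ, Fintype.card_fin]; exact hN)
    (fun w => ?_) k ω
  rw [Finset.card_univ, Fintype.card_fin, one_mul]
  unfold XX
  exact (C.hx w.1).le

theorem ov_abs_le (hN : 0 < N) (G : Fin M → Fin N → ℝ) (k : ℕ) (c : ℝ) (ω : Om C nc n) :
    |ov C nc n f s G k ω - c| ≤ 1 + |c| := by
  refine (abs_sub _ _).trans ?_
  rw [abs_of_nonneg (ov_nonneg C nc n f s G k ω)]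
  linarith [ov_le C nc n f s hN G k ω]

variable {f} in
theorem measurable_ov (hf : ∀ a, Measurable (f a)) (k : ℕ) (ω : Om C nc n) :
    Measurable fun G : Fin M → Fin N → ℝ => ov C nc n f s G k ω := by
  unfold ov rr
  refine Measurable.const_mul (Finset.measurable_sum _ fun i _ => ?_) _
  refine Measurable.pow_const ?_ 2
  exact Crest.Agent.R164.G.meas_cE (f := fun _ => XX C nc n i) (measurable_QQ C nc n hf s)
    (fun _ => measurable_const) _ ω

variable {f} in
theorem integrable_ov (hN : 0 < N) (hf : ∀ a, Measurable (f a)) (k : ℕ) :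
    Integrable (fun G : Fin M → Fin N → ℝ => eE (QQ C nc n f G s) (ov C nc n f s G k))
      (gam M N) := by
  refine integrable_eE C nc n hf s (fun ω => measurable_ov C nc n s hf k ω) (B := 1)
    fun G ω => ?_
  rw [abs_of_nonneg (ov_nonneg C nc n f s G k ω)]
  exact ov_le C nc n f s hN G k ω

variable {f} in
theorem integrable_ov_sub (hN : 0 < N) (hf : ∀ a, Measurable (f a)) (k : ℕ) (c : ℝ) :
    Integrable (fun G : Fin M → Fin N → ℝ =>
      eE (QQ C nc n f G s) (fun ω => |ov C nc n f s G k ω - c|)) (gam M N) := by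
  refine integrable_eE C nc n hf s
    (fun ω => ((measurable_ov C nc n s hf k ω).sub_const c).abs) (B := 1 + |c|) fun G ω => ?_
  rw [abs_abs]
  exact ov_abs_le C nc n f s hN G k c ω

variable {f} in
/-- bounded observables not depending on the rows. -/
theorem integrable_obs (hf : ∀ a, Measurable (f a)) (h : Om C nc n → ℝ) :
    Integrable (fun G : Fin M → Fin N → ℝ => eE (QQ C nc n f G s) h) (gam M N) := by
  obtain ⟨B, hB⟩ := (Set.finite_range fun ω => |h ω|).bddAbove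
  exact integrable_eE C nc n hf s (h := fun _ => h) (fun _ => measurable_const) (B := B)
    fun G ω => hB ⟨ω, rfl⟩

theorem Rk_nonneg (k : ℕ) : 0 ≤ Rk C nc n f M s k := by
  rw [Rk_eq]
  exact integral_nonneg fun G => eE_nonneg (QQ_isProb C nc n f G s) (ov_nonneg C nc n f s G k)

variable {f} in
theorem Rk_le_one (hN : 0 < N) (hf : ∀ a, Measurable (f a)) (k : ℕ) : Rk C nc n f M s k ≤ 1 := by
  rw [Rk_eq]
  have h := integral_mono (μ := gam M N) (integrable_ov C nc n s hN hf k)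
    (integrable_const (1 : ℝ)) (fun G => eE_le_of_le (QQ_isProb C nc n f G s)
      (ov_le C nc n f s hN G k))
  simpa using h

variable {f} in
theorem Rk_mono (hN : 0 < N) (hf : ∀ a, Measurable (f a)) {k l : ℕ} (hkl : k ≤ l) :
    Rk C nc n f M s k ≤ Rk C nc n f M s l := by
  rw [Rk_eq, Rk_eq]
  exact integral_mono (integrable_ov C nc n s hN hf k) (integrable_ov C nc n s hN hf l)
    fun G => Crest.Agent.R164.OvC.eE_rr_mono (XX C nc n) (QQ_isProb C nc n f G s) _ hkl

end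

theorem st_mono (n : ℕ) : Monotone (st n) := fun _ _ h => Nat.mul_le_mul_right _ h

/-! ### The classwise integration by parts (task S6-CIBP (C), `f = 1`) -/

/-- classwise integration by parts for one system. -/
def CI {N : ℕ} (C : Cfg N) (nc n : ℕ) (f : ℕ → ℝ → ℝ) (M : ℕ) (s : Fin nc → ℝ) (err : ℝ) : Prop :=
  ∀ (G : Fin M → Fin N → ℝ) (g : Fin nc) (l : ℕ), l ≤ st n g → ∀ w,
    |cE (QQ C nc n f G s) ((fil C nc n).F l) (Dobs C nc n g) w -
      s g * cE (QQ C nc n f G s) ((fil C nc n).F l)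
        (Tg (XX C nc n) (QQ C nc n f G s) (fil C nc n) (univ : Finset (Fin N)) (N : ℝ)
          ((nc : ℝ) + 1)⁻¹ (fun g' => st n (g' + 1)) nc g) w| ≤ err

/-- (C) of task S6-CIBP. -/
def CIBP : Prop := ∀ (nc : ℕ) (A ε : ℝ), 0 < ε → ∃ n0 : ℕ → ℕ, ∀ N, 0 < N → ∀ n, n0 N ≤ n →
  ∀ (C : Cfg N) (f : ℕ → ℝ → ℝ) (M : ℕ) (s : Fin nc → ℝ), (∀ g, 0 ≤ s g ∧ s g ≤ A) →
  CI C nc n f M s ε

/-! ### One cell -/

section cell

variable {N : ℕ} {C : Cfg N} {nc n : ℕ} {f : ℕ → ℝ → ℝ} {M : ℕ} {s : Fin nc → ℝ}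

/-- one system, fixed rows. -/
theorem cell_fixed (hN : 0 < N) {b0 err : ℝ} (hb0 : 0 < b0) (herr : 0 ≤ err)
    (hs : ∀ g, b0 ≤ s g) (hci : CI C nc n f M s err) (G : Fin M → Fin N → ℝ) {g k : ℕ}
    (hg : g + 2 < nc) (hk : k < st n (g + 1)) (dd dd' : ℝ) :
    eE (QQ C nc n f G s) (fun ω => |ov C nc n f s G k ω -
        ((nc : ℝ) + 1) * (dd' / s ⟨g + 2, hg⟩ - dd / s ⟨g + 1, by omega⟩)|) ≤
      ((nc : ℝ) + 1) * ((eE (QQ C nc n f G s)
          (fun ω => |Dobs C nc n ⟨g + 1, by omega⟩ ω - dd|) + err) / b0 +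
        (eE (QQ C nc n f G s) (fun ω => |Dobs C nc n ⟨g + 2, hg⟩ ω - dd'|) + err) / b0) +
      (eE (QQ C nc n f G s) (ov C nc n f s G (st n (g + 2))) -
        eE (QQ C nc n f G s) (ov C nc n f s G k)) := by
  have hQ := QQ_isProb C nc n f G s
  have hNr : (0 : ℝ) < N := by exact_mod_cast hN
  have hcard : ((univ : Finset (Fin N)).card : ℝ) = N := by
    rw [Finset.card_univ, Fintype.card_fin]
  have hcard0 : 0 < (univ : Finset (Fin N)).card := by
    rw [Finset.card_univ, Fintype.card_fin]; exact hN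
  have hw : (0 : ℝ) < ((nc : ℝ) + 1)⁻¹ := by positivity
  set g1 : Fin nc := ⟨g + 1, by omega⟩ with hg1
  set g2 : Fin nc := ⟨g + 2, hg⟩ with hg2
  have hκ : 0 < s g1 := hb0.trans_le (hs g1)
  have hκ' : 0 < s g2 := hb0.trans_le (hs g2)
  have hO2 := Crest.Agent.R164.OvC.O2 (𝓕 := fil C nc n) (XX C nc n) hQ
    (univ : Finset (Fin N)) hcard0 hNr hw (fun g' => st n (g' + 1)) (nc := nc) (g := g + 1) (l := k)
    (fun g' h1 _ => hk.le.trans (st_mono n (by omega))) (by omega)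
    (D := Dobs C nc n g1) (D' := Dobs C nc n g2) hκ hκ' dd dd'
    (fun ω => hci G g1 k hk.le ω)
    (fun ω => hci G g2 k (hk.le.trans (st_mono n (by simp [hg2]))) ω)
  have hfac : (N : ℝ) / (((univ : Finset (Fin N)).card : ℝ) * ((nc : ℝ) + 1)⁻¹) =
      (nc : ℝ) + 1 := by
    rw [hcard]; field_simp
  rw [hfac] at hO2
  have hO3 := Crest.Agent.R164.OvC.O3 (𝓕 := fil C nc n) (XX C nc n) hQ
    (univ : Finset (Fin N)) (l := k) (l' := st n (g + 1 + 1))
    (hk.le.trans (st_mono n (by omega)))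
    (((nc : ℝ) + 1) * (dd' / s g2 - dd / s g1))
  refine hO3.trans ?_
  refine add_le_add (hO2.trans ?_) le_rfl
  refine mul_le_mul_of_nonneg_left ?_ (by positivity)
  have e1 : 0 ≤ eE (QQ C nc n f G s) (fun ω => |Dobs C nc n g1 ω - dd|) :=
    eE_nonneg hQ fun _ => abs_nonneg _
  have e2 : 0 ≤ eE (QQ C nc n f G s) (fun ω => |Dobs C nc n g2 ω - dd'|) :=
    eE_nonneg hQ fun _ => abs_nonneg _
  exact add_le_add (div_le_div_of_nonneg_left (by positivity) hb0 (hs g1))
    (div_le_div_of_nonneg_left (by positivity) hb0 (hs g2))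

/-- from a constant to the mean value. -/
theorem center (hN : 0 < N) (hf : ∀ a, Measurable (f a)) (k : ℕ) (c : ℝ) :
    ∫ G, eE (QQ C nc n (M := M) f G s) (fun ω => |ov C nc n f s G k ω -
        Rk C nc n f M s k|) ∂(gam M N) ≤
      2 * ∫ G, eE (QQ C nc n (M := M) f G s) (fun ω => |ov C nc n f s G k ω - c|) ∂(gam M N) := by
  set Γ := Rk C nc n f M s k with hΓ
  have i1 := integrable_ov (M := M) C nc n s hN hf k
  have i2 := fun c => integrable_ov_sub (M := M) C nc n s hN hf k c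
  have h1 : |Γ - c| ≤
      ∫ G, eE (QQ C nc n (M := M) f G s) (fun ω => |ov C nc n f s G k ω - c|) ∂(gam M N) := by
    have e1 : Γ - c = ∫ G, (eE (QQ C nc n (M := M) f G s) (ov C nc n f s G k) - c) ∂(gam M N) := by
      rw [integral_sub i1 (integrable_const _), hΓ, Rk_eq]
      simp
    rw [e1]
    refine abs_integral_le_integral_abs.trans ?_
    refine integral_mono (i1.sub (integrable_const _)).abs (i2 c) fun G => ?_
    have e2 : eE (QQ C nc n (M := M) f G s) (ov C nc n f s G k) - c =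
        eE (QQ C nc n (M := M) f G s) (fun ω => ov C nc n f s G k ω - c) := by
      rw [eE_sub, eE_const (QQ_isProb C nc n f G s)]
    show |eE (QQ C nc n (M := M) f G s) (ov C nc n f s G k) - c| ≤ _
    rw [e2]
    exact eE_abs_le (QQ_isProb C nc n f G s) _
  have h2 : ∫ G, eE (QQ C nc n (M := M) f G s) (fun ω => |ov C nc n f s G k ω - Γ|) ∂(gam M N) ≤
      ∫ G, (eE (QQ C nc n (M := M) f G s) (fun ω => |ov C nc n f s G k ω - c|) + |Γ - c|)
        ∂(gam M N) := by
    refine integral_mono (i2 Γ) ((i2 c).add (integrable_const _)) fun G => ?_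
    show eE _ _ ≤ eE _ _ + _
    have h3 : eE (QQ C nc n (M := M) f G s) (fun ω => |ov C nc n f s G k ω - Γ|) ≤
        eE (QQ C nc n (M := M) f G s) (fun ω => |ov C nc n f s G k ω - c| + |Γ - c|) := by
      refine eE_mono (QQ_isProb C nc n f G s) fun ω => ?_
      have e : ov C nc n f s G k ω - Γ = (ov C nc n f s G k ω - c) - (Γ - c) := by ring
      rw [e]
      exact abs_sub _ _
    rwa [eE_add, eE_const (QQ_isProb C nc n f G s)] at h3
  rw [integral_add (i2 c) (integrable_const _)] at h2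
  simp only [integral_const, probReal_univ, one_smul] at h2
  linarith

/-- one cell, averaged over the rows, centred. -/
theorem cell_avg (hN : 0 < N) (hf : ∀ a, Measurable (f a)) {b0 err δ : ℝ} (hb0 : 0 < b0)
    (herr : 0 ≤ err) (hs : ∀ g, b0 ≤ s g) (hci : CI C nc n f M s err)
    (hD : ∀ g, Dconc C nc n f M s g δ) {g k : ℕ}
    (hg : g + 2 < nc) (hk : k < st n (g + 1)) :
    ∫ G, eE (QQ C nc n (M := M) f G s) (fun ω => |ov C nc n f s G k ω -
        Rk C nc n f M s k|) ∂(gam M N) ≤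
      4 * ((nc : ℝ) + 1) * (δ + err) / b0 +
        2 * (Rk C nc n f M s (st n (g + 2)) - Rk C nc n f M s k) := by
  set g1 : Fin nc := ⟨g + 1, by omega⟩ with hg1
  set g2 : Fin nc := ⟨g + 2, hg⟩ with hg2
  obtain ⟨dd, hdd⟩ := hD g1
  obtain ⟨dd', hdd'⟩ := hD g2
  set c : ℝ := ((nc : ℝ) + 1) * (dd' / s g2 - dd / s g1) with hc
  refine (center hN hf k c).trans ?_
  have i1 := fun g (d : ℝ) => integrable_obs (M := M) C nc n s hf (fun ω => |Dobs C nc n g ω - d|)
  have i3 : ∀ g (d : ℝ), Integrable (fun G : Fin M → Fin N → ℝ =>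
      (eE (QQ C nc n f G s) (fun ω => |Dobs C nc n g ω - d|) + err) / b0) (gam M N) :=
    fun g d => ((i1 g d).add (integrable_const _)).div_const _
  have i4 := fun k => integrable_ov (M := M) C nc n s hN hf k
  have h1 : ∫ G, eE (QQ C nc n (M := M) f G s) (fun ω => |ov C nc n f s G k ω - c|) ∂(gam M N) ≤
      ∫ G, (((nc : ℝ) + 1) * ((eE (QQ C nc n f G s)
          (fun ω => |Dobs C nc n g1 ω - dd|) + err) / b0 +
        (eE (QQ C nc n f G s) (fun ω => |Dobs C nc n g2 ω - dd'|) + err) / b0) +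
      (eE (QQ C nc n f G s) (ov C nc n f s G (st n (g + 2))) -
        eE (QQ C nc n f G s) (ov C nc n f s G k))) ∂(gam M N) :=
    integral_mono (integrable_ov_sub C nc n s hN hf k c)
      ((((i3 g1 dd).add (i3 g2 dd')).const_mul _).add ((i4 _).sub (i4 k)))
      fun G => cell_fixed hN hb0 herr hs hci G hg hk dd dd'
  have h0 : ∫ G, (((nc : ℝ) + 1) * ((eE (QQ C nc n (M := M) f G s)
          (fun ω => |Dobs C nc n g1 ω - dd|) + err) / b0 +
        (eE (QQ C nc n f G s) (fun ω => |Dobs C nc n g2 ω - dd'|) + err) / b0) +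
      (eE (QQ C nc n f G s) (ov C nc n f s G (st n (g + 2))) -
        eE (QQ C nc n f G s) (ov C nc n f s G k))) ∂(gam M N) =
      ((nc : ℝ) + 1) * ((∫ G, eE (QQ C nc n (M := M) f G s)
      (fun ω => |Dobs C nc n g1 ω - dd|) ∂(gam M N) + err) / b0 +
      (∫ G, eE (QQ C nc n (M := M) f G s)
      (fun ω => |Dobs C nc n g2 ω - dd'|) ∂(gam M N) + err) / b0) +
      (Rk C nc n f M s (st n (g + 2)) - Rk C nc n f M s k) := by
    have a1 := integral_add (((i3 g1 dd).add (i3 g2 dd')).const_mul ((nc : ℝ) + 1))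
      ((i4 (st n (g + 2))).sub (i4 k))
    simp only [Pi.add_apply, Pi.sub_apply] at a1
    rw [a1, integral_const_mul, integral_add (i3 g1 dd) (i3 g2 dd'), integral_sub (i4 _) (i4 k),
      integral_div, integral_div, integral_add (i1 g1 dd) (integrable_const _),
      integral_add (i1 g2 dd') (integrable_const _), ← Rk_eq, ← Rk_eq]
    simp only [integral_const, probReal_univ, one_smul]
  rw [h0] at h1
  have h2 : ((nc : ℝ) + 1) * ((∫ G, eE (QQ C nc n (M := M) f G s)
      (fun ω => |Dobs C nc n g1 ω - dd|) ∂(gam M N) + err) / b0 +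
      (∫ G, eE (QQ C nc n (M := M) f G s)
      (fun ω => |Dobs C nc n g2 ω - dd'|) ∂(gam M N) + err) / b0) ≤
      ((nc : ℝ) + 1) * ((δ + err) / b0 + (δ + err) / b0) := by
    refine mul_le_mul_of_nonneg_left ?_ (by positivity)
    exact add_le_add (div_le_div_of_nonneg_right (by linarith) hb0.le)
      (div_le_div_of_nonneg_right (by linarith) hb0.le)
  have e : 4 * ((nc : ℝ) + 1) * (δ + err) / b0 =
      2 * (((nc : ℝ) + 1) * ((δ + err) / b0 + (δ + err) / b0)) := by ring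
  rw [e]
  linarith

end cell

/-! ### The form used by task S6-STR -/

/-- (OVL2) of helper649. -/
def OVL2 : Prop := ∀ (nc : ℕ) (b0 A K αm ε : ℝ), 0 < b0 → b0 < A → 0 < ε →
  ∃ δ : ℝ, 0 < δ ∧ ∃ (N0 : ℕ) (n0 : ℕ → ℕ), ∀ N, N0 ≤ N → ∀ n, n0 N ≤ n →
  ∀ (C : Cfg N) (f : ℕ → ℝ → ℝ) (M : ℕ), (M : ℝ) ≤ αm * N → (∀ a, Measurable (f a)) →
  (∀ a x, |f a x| ≤ K) → ∀ s : Fin nc → ℝ, (∀ g, b0 ≤ s g ∧ s g ≤ A) →
  (∀ g, Dconc C nc n f M s g δ) → ∀ g k : ℕ, g + 2 < nc → st n g ≤ k → k < st n (g + 1) →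
  ∫ G, eE (QQ C nc n (M := M) f G s) (fun ω => |(N : ℝ)⁻¹ *
    ∑ i, (cE (QQ C nc n (M := M) f G s) ((fil C nc n).F k) (fun w => C.x w.1 i) ω) ^ 2 -
      Rk C nc n f M s k|) ∂(gam M N) ≤
    ε + 2 * (Rk C nc n f M s (st n (g + 2)) - Rk C nc n f M s (st n g))

theorem ovl2_of_cibp (h : CIBP) : OVL2 := by
  intro nc b0 A K αm ε hb0 hA hε
  set δ : ℝ := ε * b0 / (8 * ((nc : ℝ) + 1)) with hδ
  have hδ0 : 0 < δ := by positivity
  obtain ⟨n0, hn0⟩ := h nc A δ hδ0
  refine ⟨δ, hδ0, 1, n0, ?_⟩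
  intro N hN n hn C f M _ hf _ s hs hD g k hg hk1 hk2
  have hN' : 0 < N := hN
  have hci := hn0 N hN' n hn C f M s (fun g => ⟨hb0.le.trans (hs g).1, (hs g).2⟩)
  have h1 := cell_avg hN' hf hb0 hδ0.le (fun g => (hs g).1) hci hD hg hk2
  have h2 : Rk C nc n f M s (st n g) ≤ Rk C nc n f M s k := Rk_mono C nc n s hN' hf hk1
  have e1 : 4 * ((nc : ℝ) + 1) * (δ + δ) / b0 = ε := by
    rw [hδ]; field_simp; ring
  rw [e1] at h1
  simp only [ov_eq] at h1
  linarith

end

end Crest.Agent.R146.S6Ovl_382
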