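import Crest.Agent.R146.OvcB_679
import Crest.Agent.R146.S6Ovl_382

/-!
Row 146 (S0206), node CIBP, parts C and D (helper679):

* `cibp : S6Ovl_382.CIBP`, hence `ovl2 : S6Ovl_382.OVL2`;
* `ibp_thm : S6U_988.IBP`.
-/

set_option autoImplicit false

namespace Crest.Agent.R146.OvcC_679

open Finset MeasureTheory
open Crest.Agent.R141 (IsProb eE cE eE_abs_le eE_const eE_mono)
open Crest.Agent.R146.S6Def_988 Crest.Agent.R146.S6U_988
open Crest.Agent.R146.S6Ovl_382 (CI CIBP OVL2 XX ov)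

noncomputable section

/-- the explicit form of `CI`. -/
theorem ci {N : ℕ} (C : Cfg N) {nc n : ℕ} (hn : 0 < n) (f : ℕ → ℝ → ℝ) (M : ℕ)
    (s : Fin nc → ℝ) {A : ℝ} (hs : ∀ g, |s g| ≤ A)
    (hc : A * Real.sqrt N ≤ Real.sqrt n / 8) :
    CI C nc n f M s (52 * A ^ 2 * (N * Real.sqrt N) / Real.sqrt n) := by
  intro G g l hl w
  have h := OvcB_679.ibp_Dobs_one C nc n f G s hn g
    ((mul_le_mul_of_nonneg_right (hs g) (Real.sqrt_nonneg _)).trans hc) hl w
  refine le_trans (le_of_eq ?_) (h.trans ?_)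
  · rfl
  · have h1 : (s g) ^ 2 ≤ A ^ 2 := by
      rw [← sq_abs]
      exact pow_le_pow_left₀ (abs_nonneg _) (hs g) 2
    gcongr

/-- the choice of `n`. -/
def nn (A ε : ℝ) (N : ℕ) : ℕ :=
  1 + ⌈((8 * A * Real.sqrt N) ^ 2 + (52 * A ^ 2 * (N * Real.sqrt N) / ε) ^ 2)⌉₊

theorem nn_spec {A ε : ℝ} (_ : 0 ≤ A) (hε : 0 < ε) {N n : ℕ} (hn : nn A ε N ≤ n) :
    0 < n ∧ A * Real.sqrt N ≤ Real.sqrt n / 8 ∧
      52 * A ^ 2 * (N * Real.sqrt N) / Real.sqrt n ≤ ε := by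
  have hn0 : 0 < n := by unfold nn at hn; omega
  have h1 : (8 * A * Real.sqrt N) ^ 2 + (52 * A ^ 2 * (N * Real.sqrt N) / ε) ^ 2 ≤ n := by
    have h2 := Nat.le_ceil ((8 * A * Real.sqrt N) ^ 2 + (52 * A ^ 2 * (N * Real.sqrt N) / ε) ^ 2)
    have h3 : (⌈((8 * A * Real.sqrt N) ^ 2 + (52 * A ^ 2 * (N * Real.sqrt N) / ε) ^ 2)⌉₊ : ℝ) ≤
        n := by
      unfold nn at hn
      exact_mod_cast (by omega)
    exact h2.trans h3
  have hn' : (0 : ℝ) < n := by exact_mod_cast hn0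
  have hsn : 0 < Real.sqrt n := Real.sqrt_pos.mpr hn'
  refine ⟨hn0, ?_, ?_⟩
  · have h4 : 8 * A * Real.sqrt N ≤ Real.sqrt n :=
      Real.le_sqrt_of_sq_le (by nlinarith [sq_nonneg (52 * A ^ 2 * (N * Real.sqrt N) / ε)])
    linarith
  · have h5 : 52 * A ^ 2 * (N * Real.sqrt N) / ε ≤ Real.sqrt n :=
      Real.le_sqrt_of_sq_le (by nlinarith [sq_nonneg (8 * A * Real.sqrt N)])
    rw [div_le_iff₀ hε] at h5
    rw [div_le_iff₀ hsn]
    linarith

/-- **(C)** of task S6-CIBP. -/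
theorem cibp : CIBP := by
  intro nc A ε hε
  rcases lt_or_ge A 0 with hA | hA
  · refine ⟨fun _ => 0, fun N hN n hn C f M s hs G g l hl w => ?_⟩
    exact absurd ((hs g).1.trans (hs g).2) (not_le.mpr hA)
  · refine ⟨nn A ε, fun N hN n hn C f M s hs => ?_⟩
    obtain ⟨h1, h2, h3⟩ := nn_spec hA hε hn
    intro G g l hl w
    exact (ci C h1 f M s (fun g => by rw [abs_of_nonneg (hs g).1]; exact (hs g).2) h2 G g l hl
      w).trans h3

/-- **(OVL2)** of task S6-OVL. -/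
theorem ovl2 : OVL2 := S6Ovl_382.ovl2_of_cibp cibp

/-! ### (D): the averaged form -/

theorem sum_Ioc_eq (q : ℕ → ℝ) (g nc : ℕ) :
    ∑ l ∈ Ioc g nc, q l = ∑ g' ∈ Ico g nc, q (g' + 1) := by
  have h : Ioc g nc = (Ico g nc).map (addRightEmbedding 1) := by
    ext j
    simp only [mem_Ioc, mem_map, mem_Ico, addRightEmbedding_apply]
    constructor
    · rintro ⟨h1, h2⟩
      exact ⟨j - 1, by omega, by omega⟩
    · rintro ⟨a, ha, rfl⟩
      omega
  rw [h, Finset.sum_map]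
  rfl

/-- the averaged form, explicit. -/
theorem ibp_avg {N : ℕ} (hN : 0 < N) (C : Cfg N) {nc n : ℕ} {f : ℕ → ℝ → ℝ}
    (hf : ∀ a, Measurable (f a)) {M : ℕ} {s : Fin nc → ℝ} {err : ℝ} (hci : CI C nc n f M s err)
    (g : Fin nc) :
    |∫ G, eE (QQ C nc n (M := M) f G s) (Dobs C nc n g) ∂(gam M N) -
      s g * (1 - tl1 nc (fun l => Rk C nc n f M s (st n l)) g)| ≤ err := by
  -- fixed rows
  have h1 : ∀ G : Fin M → Fin N → ℝ, |eE (QQ C nc n f G s) (Dobs C nc n g) -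
      s g * (1 - ((nc : ℝ) + 1)⁻¹ * ∑ g' ∈ Ico (g : ℕ) nc,
        eE (QQ C nc n f G s) (ov C nc n f s G (st n (g' + 1))))| ≤ err := by
    intro G
    have hQ := S6Ovl_382.QQ_isProb C nc n f G s
    have h := Crest.Agent.R164.OvC.O5 (𝓕 := fil C nc n) (XX C nc n) hQ
      (univ : Finset (Fin N)) (nN := (N : ℝ)) (w0 := ((nc : ℝ) + 1)⁻¹)
      (fun g' => st n (g' + 1)) (nc := nc) (g := g) (l := 0) (D := Dobs C nc n g) (κ := s g)
      (err := err) (fun ω => hci G g 0 (Nat.zero_le _) ω)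
    have hSq : Crest.Agent.R164.OvC.Sq (XX C nc n) (univ : Finset (Fin N)) (N : ℝ) =
        fun _ => 1 := funext fun ω => OvcB_679.Sq_eq_one C nc n hN ω
    rw [hSq, eE_const hQ, Finset.card_univ, Fintype.card_fin,
      div_self (by exact_mod_cast hN.ne')] at h
    simp only [one_mul] at h
    exact h
  -- integrate
  have hi1 := S6Ovl_382.integrable_obs (M := M) C nc n s hf (Dobs C nc n g)
  have hi2 : ∀ k, Integrable (fun G : Fin M → Fin N → ℝ =>
      eE (QQ C nc n f G s) (ov C nc n f s G k)) (gam M N) := fun k =>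
    S6Ovl_382.integrable_ov C nc n s hN hf k
  have hi3 : Integrable (fun G : Fin M → Fin N → ℝ => s g * (1 - ((nc : ℝ) + 1)⁻¹ *
      ∑ g' ∈ Ico (g : ℕ) nc, eE (QQ C nc n f G s) (ov C nc n f s G (st n (g' + 1)))))
      (gam M N) :=
    ((integrable_const _).sub ((integrable_finsetSum _ fun g' _ => hi2 _).const_mul _)).const_mul _
  have h2 : s g * (1 - tl1 nc (fun l => Rk C nc n f M s (st n l)) g) =
      ∫ G : Fin M → Fin N → ℝ, s g * (1 - ((nc : ℝ) + 1)⁻¹ *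
      ∑ g' ∈ Ico (g : ℕ) nc, eE (QQ C nc n f G s) (ov C nc n f s G (st n (g' + 1))))
      ∂(gam M N) := by
    rw [integral_const_mul, integral_sub (integrable_const _)
      ((integrable_finsetSum _ fun g' _ => hi2 _).const_mul _), integral_const_mul,
      integral_finsetSum _ fun g' _ => hi2 _]
    unfold tl1
    rw [sum_Ioc_eq, one_div]
    simp only [S6Ovl_382.Rk_eq]
    simp
  rw [h2, ← integral_sub hi1 hi3]
  have h3 := norm_integral_le_of_norm_le_const (μ := gam M N) (C := err)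
    (f := fun G : Fin M → Fin N → ℝ => eE (QQ C nc n f G s) (Dobs C nc n g) -
      s g * (1 - ((nc : ℝ) + 1)⁻¹ * ∑ g' ∈ Ico (g : ℕ) nc,
        eE (QQ C nc n f G s) (ov C nc n f s G (st n (g' + 1)))))
    (Filter.Eventually.of_forall fun G => by rw [Real.norm_eq_abs]; exact h1 G)
  rw [Real.norm_eq_abs] at h3
  simpa using h3

/-- **(IBP)** of `S6U_988`. -/
theorem ibp_thm : S6U_988.IBP := by
  intro nc A K ε hε
  obtain ⟨n0, h0⟩ := cibp nc A ε hε
  exact ⟨fun N _ => n0 N, fun N hN M n hn C f hf _ s hs g =>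
    ibp_avg hN C hf (h0 N hN n hn C f M s hs) g⟩

end

end Crest.Agent.R146.OvcC_679
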