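import Crest.Agent.R146.S6Str_649
import Crest.Agent.R146.OvcC_679
import Crest.Agent.R146.Noise2_143

/-!
Row 146, statement S0206 (helper649): `S6U_988.STR` without hypotheses.
-/

set_option autoImplicit false

namespace Crest.Agent.R146.S6StrF_649

open Crest.Agent.R146.S6Str_649

theorem ovl2 : OVL2 := OvcC_679.ovl2

theorem noise2 : NOISE2 := by
  intro nc b0 A K η hb0 hA hη
  obtain ⟨N0, n0, h⟩ := Noise2_143.noise2 nc b0 A η hb0 hA hη
  exact ⟨N0, n0, fun N hN n hn C f M hf _ s hs g => h N hN n hn C f M hf s hs g⟩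

/-- (STR) concentrated field observables ⇒ a skeleton. -/
theorem str : Crest.Agent.R146.S6U_988.STR := STR_of ovl2 noise2

end Crest.Agent.R146.S6StrF_649
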