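import Crest.Agent.R146.S6Def_988
import Crest.Agent.R164.CoinIBP

/-!
Row 146 (S0206), node CIBP, part A (helper679): the field coins of the sphere system `S6Def_988`.

* `flp C nc n g t i`, `cval C nc n g t i`: the flip and the value (`0/1`) of the coin `(g, t, i)`;
* `coin`: every coin is a fair coin revealed at step `g * n + t + 1` (`R141.Coin`);
* `coin_tl`: the same for a law tilted by a flip invariant function;
* `UU_flp`, `fieldE_flp`, `zf_flp`, `Dobs_flp`: flip formulas;
* `xs_expo`, `xs_cell`, `xs_last`, `xs_succ_sub`: the exponents;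
* `sum_incr_xs`: `∑_{k ≤ j < L} (x_{j+1} - x_j) a_j = (nc+1)⁻¹ ∑_{g ≤ g' < nc} a_{st (g'+1)}`
  for every step `k` of the cell `g`.
-/

set_option autoImplicit false

namespace Crest.Agent.R146.OvcA_679

open Finset
open Crest.Agent.R141 (IsProb IsExpo Filt eE cE tl A S Coin RMeas)
open Crest.Agent.R146.S6Def_988

noncomputable section

/-! ### signs -/

theorem sv_not (b : Bool) : sv (!b) = -sv b := by
  cases b <;> simp [sv]

theorem abs_sv (b : Bool) : |sv b| = 1 := by
  cases b <;> simp [sv]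

theorem sv_mul_self (b : Bool) : sv b * sv b = 1 := by
  cases b <;> simp [sv]

variable {N : ℕ} (C : Cfg N) (nc n : ℕ)

/-! ### the prior law -/

theorem prior_isProb : IsProb (prior C nc n) where
  pos ω := by
    unfold prior
    exact mul_pos (C.hq.pos _) (inv_pos.mpr (by exact_mod_cast Fintype.card_pos))
  sum := by
    unfold prior
    rw [Fintype.sum_prod_type]
    simp only [Finset.sum_const, Finset.card_univ, nsmul_eq_mul]
    have hc : (Fintype.card (Coins nc n N) : ℝ) ≠ 0 := by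
      exact_mod_cast (Fintype.card_pos (α := Coins nc n N)).ne'
    have : ∀ y, (Fintype.card (Coins nc n N) : ℝ) *
        (C.q y * (Fintype.card (Coins nc n N) : ℝ)⁻¹) = C.q y := by
      intro y
      field_simp
    simp only [this]
    exact C.hq.sum

/-- every coordinate is bounded by `√N`. -/
theorem abs_x_le (y : C.Y) (i : Fin N) : |C.x y i| ≤ Real.sqrt N := by
  refine Real.abs_le_sqrt ?_
  rw [← C.hx y]
  exact Finset.single_le_sum (f := fun i => C.x y i ^ 2) (fun j _ => sq_nonneg _) (mem_univ i)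

/-! ### the coins -/

/-- the coin array with the coin `(g, t, i)` flipped. -/
def cupd {nc n N : ℕ} (c : Coins nc n N) (g : Fin nc) (t : Fin n) (i : Fin N) : Coins nc n N :=
  fun g' t' i' => if g' = g ∧ t' = t ∧ i' = i then !(c g' t' i') else c g' t' i'

/-- the flip of the coin `(g, t, i)`. -/
def flp (g : Fin nc) (t : Fin n) (i : Fin N) (ω : Om C nc n) : Om C nc n :=
  (ω.1, cupd ω.2 g t i)

/-- the value of the coin `(g, t, i)`. -/
def cval (g : Fin nc) (t : Fin n) (i : Fin N) (ω : Om C nc n) : ℝ :=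
  if ω.2 g t i = true then 1 else 0

@[simp] theorem flp_fst (g : Fin nc) (t : Fin n) (i : Fin N) (ω : Om C nc n) :
    (flp C nc n g t i ω).1 = ω.1 := rfl

theorem flp_snd (g : Fin nc) (t : Fin n) (i : Fin N) (ω : Om C nc n) :
    (flp C nc n g t i ω).2 = cupd ω.2 g t i := rfl

theorem cupd_self {nc n N : ℕ} (c : Coins nc n N) (g : Fin nc) (t : Fin n) (i : Fin N) :
    cupd c g t i g t i = !(c g t i) := by
  unfold cupd; simp

theorem cupd_of_ne {nc n N : ℕ} (c : Coins nc n N) (g : Fin nc) (t : Fin n) (i : Fin N)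
    {g' : Fin nc} {t' : Fin n} {i' : Fin N} (h : ¬ (g' = g ∧ t' = t ∧ i' = i)) :
    cupd c g t i g' t' i' = c g' t' i' := by
  unfold cupd; rw [if_neg h]

theorem cupd_cupd {nc n N : ℕ} (c : Coins nc n N) (g : Fin nc) (t : Fin n) (i : Fin N) :
    cupd (cupd c g t i) g t i = c := by
  funext g' t' i'
  by_cases h : g' = g ∧ t' = t ∧ i' = i
  · obtain ⟨rfl, rfl, rfl⟩ := h
    rw [cupd_self, cupd_self, Bool.not_not]
  · rw [cupd_of_ne _ _ _ _ h, cupd_of_ne _ _ _ _ h]

/-- a whole row different from `(g, t)` is not touched. -/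
theorem cupd_row_of_ne {nc n N : ℕ} (c : Coins nc n N) (g : Fin nc) (t : Fin n) (i : Fin N)
    {g' : Fin nc} {t' : Fin n} (h : ¬ (g' = g ∧ t' = t)) : cupd c g t i g' t' = c g' t' := by
  funext i'
  exact cupd_of_ne _ _ _ _ fun h' => h ⟨h'.1, h'.2.1⟩

theorem two_cval (g : Fin nc) (t : Fin n) (i : Fin N) (ω : Om C nc n) :
    2 * cval C nc n g t i ω - 1 = sv (ω.2 g t i) := by
  unfold cval sv
  split_ifs <;> norm_num

theorem cval_flp (g : Fin nc) (t : Fin n) (i : Fin N) (ω : Om C nc n) :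
    cval C nc n g t i (flp C nc n g t i ω) = 1 - cval C nc n g t i ω := by
  unfold cval
  rw [flp_snd, cupd_self]
  cases ω.2 g t i <;> simp

/-- another coin is not touched. -/
theorem cval_flp_of_ne {g g' : Fin nc} {t t' : Fin n} {i i' : Fin N}
    (h : ¬ (g' = g ∧ t' = t ∧ i' = i)) (ω : Om C nc n) :
    cval C nc n g' t' i' (flp C nc n g t i ω) = cval C nc n g' t' i' ω := by
  unfold cval
  rw [flp_snd, cupd_of_ne _ _ _ _ h]

/-- the step at which the row `(g, t)` is revealed -/
def cst (n : ℕ) {nc : ℕ} (g : Fin nc) (t : Fin n) : ℕ := (g : ℕ) * n + t + 1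

theorem cst_le (g : Fin nc) (t : Fin n) : cst n g t ≤ ((g : ℕ) + 1) * n := by
  unfold cst
  have := t.2
  rw [add_mul, one_mul]; omega

theorem lt_cst (g : Fin nc) (t : Fin n) : (g : ℕ) * n < cst n g t := by
  unfold cst; omega

theorem cst_lt_L (g : Fin nc) (t : Fin n) : cst n g t < Lv nc n := by
  have h1 := cst_le nc n g t
  have h2 : ((g : ℕ) + 1) * n ≤ nc * n := Nat.mul_le_mul_right n g.2
  unfold Lv; omega

/-- the row `(g', t')` has the same number as `(g, t)` only if the rows are equal. -/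
theorem row_inj {g g' : Fin nc} {t t' : Fin n} (h : (g : ℕ) * n + t = (g' : ℕ) * n + t') :
    g = g' ∧ t = t' := by
  have ht := t.2
  have ht' := t'.2
  have hn : 0 < n := by omega
  have h1 : (g : ℕ) = g' := by
    have a1 : ((g : ℕ) * n + t) / n = g := by
      rw [mul_comm, Nat.mul_add_div hn, Nat.div_eq_of_lt ht, add_zero]
    have a2 : ((g' : ℕ) * n + t') / n = g' := by
      rw [mul_comm, Nat.mul_add_div hn, Nat.div_eq_of_lt ht', add_zero]
    rw [← a1, ← a2, h]
  have h2 : (t : ℕ) = t' := by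
    rw [h1] at h; omega
  exact ⟨Fin.ext h1, Fin.ext h2⟩

/-- **The coins** of the system. -/
theorem coin (g : Fin nc) (t : Fin n) (i : Fin N) :
    Coin (prior C nc n) (fil C nc n) (cst n g t) (cval C nc n g t i) (flp C nc n g t i) where
  invol ω := by
    refine Prod.ext rfl ?_
    rw [flp_snd, flp_snd, cupd_cupd]
  P_flip ω := rfl
  s01 ω := by
    unfold cval
    split_ifs
    · exact Or.inr rfl
    · exact Or.inl rfl
  s_flip ω := cval_flp C nc n g t i ω
  s_meas := by
    intro ω ω' h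
    have h : frel C nc n (cst n g t) ω ω' := h
    have h1 := h.1 g t (by unfold cst; omega)
    unfold cval
    rw [h1]
  flip_rel := by
    intro l _ a b h
    have h : frel C nc n l a b := h
    refine ⟨fun g' t' hk => ?_, fun hL => h.2 hL⟩
    have h1 := h.1 g' t' hk
    funext i'
    rw [flp_snd, flp_snd]
    unfold cupd
    rw [h1]
  rel_flip := by
    intro ω
    refine ⟨fun g' t' hk => ?_, fun _ => rfl⟩
    rw [flp_snd, cupd_row_of_ne]
    rintro ⟨rfl, rfl⟩
    unfold cst at hk
    omega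

/-- the coins of a law tilted by a flip invariant function. -/
theorem coin_tl (g : Fin nc) (t : Fin n) (i : Fin N) {x : ℕ → ℝ} (hx : ∀ k, 0 < x k)
    {V : Om C nc n → ℝ} (hV : ∀ ω, V (flp C nc n g t i ω) = V ω) :
    Coin (tl (prior C nc n) (fil C nc n) x V) (fil C nc n) (cst n g t) (cval C nc n g t i)
      (flp C nc n g t i) :=
  (coin C nc n g t i).tilt (prior_isProb C nc n) hx hV

/-! ### flip formulas -/

theorem zf_cupd (c : Coins nc n N) (g g' : Fin nc) (t : Fin n) (i i' : Fin N) :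
    zf (cupd c g t i) g' i' = zf c g' i' -
      (if g' = g ∧ i' = i then 2 * (Real.sqrt n)⁻¹ * sv (c g t i) else 0) := by
  unfold zf
  by_cases h : g' = g ∧ i' = i
  · obtain ⟨rfl, rfl⟩ := h
    rw [if_pos ⟨rfl, rfl⟩]
    have h1 : ∑ t', sv (cupd c g' t i' g' t' i') = ∑ t', (sv (c g' t' i') -
        if t' = t then 2 * sv (c g' t i') else 0) := by
      refine Finset.sum_congr rfl fun t' _ => ?_
      by_cases h2 : t' = t
      · subst h2
        rw [if_pos rfl, cupd_self, sv_not]; ring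
      · rw [if_neg h2, sub_zero, cupd_of_ne]
        rintro ⟨_, h3, _⟩
        exact h2 h3
    rw [h1, Finset.sum_sub_distrib, Finset.sum_ite_eq' univ t, if_pos (mem_univ t)]
    ring
  · rw [if_neg h, sub_zero]
    congr 1
    refine Finset.sum_congr rfl fun t' _ => ?_
    rw [cupd_of_ne]
    rintro ⟨h1, _, h3⟩
    exact h ⟨h1, h3⟩

theorem zf_flp (g g' : Fin nc) (t : Fin n) (i i' : Fin N) (ω : Om C nc n) :
    zf (flp C nc n g t i ω).2 g' i' = zf ω.2 g' i' -
      (if g' = g ∧ i' = i then 2 * (Real.sqrt n)⁻¹ * sv (ω.2 g t i) else 0) :=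
  zf_cupd nc n ω.2 g g' t i i'

/-- the field sum of the cell `g'`. -/
theorem fsum_flp (g g' : Fin nc) (t : Fin n) (i : Fin N) (ω : Om C nc n) :
    ∑ i', zf (flp C nc n g t i ω).2 g' i' * C.x ω.1 i' = ∑ i', zf ω.2 g' i' * C.x ω.1 i' -
      (if g' = g then 2 * (Real.sqrt n)⁻¹ * sv (ω.2 g t i) * C.x ω.1 i else 0) := by
  by_cases h : g' = g
  · subst h
    rw [if_pos rfl]
    have h1 : ∀ i', zf (flp C nc n g' t i ω).2 g' i' * C.x ω.1 i' = zf ω.2 g' i' * C.x ω.1 i' -
        (if i' = i then 2 * (Real.sqrt n)⁻¹ * sv (ω.2 g' t i) * C.x ω.1 i else 0) := by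
      intro i'
      rw [zf_flp]
      by_cases h2 : i' = i
      · subst h2
        rw [if_pos ⟨rfl, rfl⟩, if_pos rfl]; ring
      · rw [if_neg fun h3 => h2 h3.2, if_neg h2]; ring
    simp only [h1]
    rw [Finset.sum_sub_distrib, Finset.sum_ite_eq' univ i, if_pos (mem_univ i)]
  · rw [if_neg h, sub_zero]
    refine Finset.sum_congr rfl fun i' _ => ?_
    rw [zf_flp, if_neg fun h3 => h h3.1, sub_zero]

/-- flip formula of the field energy -/
theorem fieldE_flp (s : Fin nc → ℝ) (g : Fin nc) (t : Fin n) (i : Fin N) (ω : Om C nc n) :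
    fieldE s (flp C nc n g t i ω) = fieldE s ω -
      2 * ((Real.sqrt n)⁻¹ * s g) * (2 * cval C nc n g t i ω - 1) * C.x ω.1 i := by
  unfold fieldE
  have h1 : ∀ g', s g' * ∑ i', zf (flp C nc n g t i ω).2 g' i' * C.x (flp C nc n g t i ω).1 i' =
      s g' * ∑ i', zf ω.2 g' i' * C.x ω.1 i' -
      (if g' = g then s g * (2 * (Real.sqrt n)⁻¹ * sv (ω.2 g t i) * C.x ω.1 i) else 0) := by
    intro g'
    rw [flp_fst, fsum_flp]
    by_cases h : g' = g
    · subst h
      rw [if_pos rfl, if_pos rfl]; ring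
    · rw [if_neg h, if_neg h]; ring
  simp only [h1]
  rw [Finset.sum_sub_distrib, Finset.sum_ite_eq' univ g, if_pos (mem_univ g), two_cval]
  ring

/-- flip formula of the total log-weight -/
theorem UU_flp {M : ℕ} (f : ℕ → ℝ → ℝ) (G : Fin M → Fin N → ℝ) (s : Fin nc → ℝ) (g : Fin nc)
    (t : Fin n) (i : Fin N) (ω : Om C nc n) :
    UU f G s (flp C nc n g t i ω) = UU f G s ω -
      2 * ((Real.sqrt n)⁻¹ * s g) * (2 * cval C nc n g t i ω - 1) * C.x ω.1 i := by
  unfold UU
  rw [fieldE_flp, flp_fst]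
  ring

/-- flip formula of the field observable -/
theorem Dobs_flp (g g' : Fin nc) (t : Fin n) (i : Fin N) (ω : Om C nc n) :
    Dobs C nc n g' (flp C nc n g t i ω) = Dobs C nc n g' ω -
      (if g' = g then (N : ℝ)⁻¹ * (2 * (Real.sqrt n)⁻¹ * sv (ω.2 g t i) * C.x ω.1 i) else 0) := by
  unfold Dobs
  rw [flp_fst, fsum_flp]
  by_cases h : g' = g
  · rw [if_pos h, if_pos h]; ring
  · rw [if_neg h, if_neg h]; ring

/-! ### exponents -/

theorem xs_pos (k : ℕ) : 0 < xs nc n k := by
  unfold xs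
  exact lt_min one_pos (by positivity)

theorem xs_mono : Monotone (xs nc n) := by
  intro k l h
  unfold xs
  refine min_le_min_left 1 (div_le_div_of_nonneg_right ?_ (by positivity))
  have h1 : (k - 1) / n + 1 ≤ (l - 1) / n + 1 :=
    Nat.add_le_add_right (Nat.div_le_div_right (by omega)) 1
  exact_mod_cast h1

theorem xs_le_one (k : ℕ) : xs nc n k ≤ 1 := min_le_left _ _

theorem xs_expo : IsExpo (xs nc n) where
  pos := xs_pos nc n
  mono := xs_mono nc n
  le_one := xs_le_one nc n

/-- the exponent on the cell `g` (also for the last step `g = nc`). -/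
theorem xs_cell {g k : ℕ} (hg : g ≤ nc) (h1 : g * n < k) (h2 : k ≤ (g + 1) * n) :
    xs nc n k = ((g : ℝ) + 1) / ((nc : ℝ) + 1) := by
  have hn : 0 < n := by
    rcases Nat.eq_zero_or_pos n with h | h
    · subst h; simp at h1 h2; omega
    · exact h
  have h3 : (k - 1) / n = g := by
    refine Nat.div_eq_of_lt_le ?_ ?_
    · omega
    · have : (g + 1) * n = (g + 1) * n := rfl
      omega
  unfold xs
  rw [h3]
  push_cast
  refine min_eq_right ?_
  rw [div_le_one (by positivity)]
  have : (g : ℝ) ≤ nc := by exact_mod_cast hg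
  linarith

theorem xs_last (hn : 0 < n) {k : ℕ} (hk : Lv nc n ≤ k) : xs nc n k = 1 := by
  unfold xs
  refine min_eq_left ?_
  rw [one_le_div (by positivity)]
  have h1 : nc ≤ (k - 1) / n := by
    rw [Nat.le_div_iff_mul_le hn]
    unfold Lv at hk
    omega
  have h2 : (nc : ℝ) ≤ ((k - 1) / n : ℕ) := by exact_mod_cast h1
  push_cast
  linarith

/-- the increments of the exponents: `(nc+1)⁻¹` at the ends of the cells, `0` elsewhere. -/
theorem xs_succ_sub (hn : 0 < n) {g : ℕ} (hg : g < nc) :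
    xs nc n ((g + 1) * n + 1) - xs nc n ((g + 1) * n) = ((nc : ℝ) + 1)⁻¹ := by
  have e1 : xs nc n ((g + 1) * n) = ((g : ℝ) + 1) / ((nc : ℝ) + 1) :=
    xs_cell nc n hg.le (by rw [add_mul, one_mul]; omega) le_rfl
  have e2 : xs nc n ((g + 1) * n + 1) = (((g + 1 : ℕ) : ℝ) + 1) / ((nc : ℝ) + 1) :=
    xs_cell nc n (g := g + 1) hg (by omega) (by rw [add_mul (g + 1), one_mul]; omega)
  rw [e1, e2, ← sub_div]
  push_cast
  rw [show ((g : ℝ) + 1 + 1 - (g + 1)) = 1 by ring, one_div]

/-- inside a cell the exponent does not move. -/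
theorem xs_succ_eq {g j : ℕ} (hg : g ≤ nc) (h1 : g * n < j) (h2 : j < (g + 1) * n) :
    xs nc n (j + 1) = xs nc n j := by
  rw [xs_cell nc n hg (by omega) h2, xs_cell nc n hg h1 h2.le]

/-- **the weighted increments of the exponents**, from any step `k` of the cell `g`. -/
theorem sum_incr_xs (a : ℕ → ℝ) {g : ℕ} (hg : g < nc) {k : ℕ} (h1 : g * n < k)
    (h2 : k ≤ (g + 1) * n) :
    ∑ j ∈ Ico k (Lv nc n), (xs nc n (j + 1) - xs nc n j) * a j =
      ((nc : ℝ) + 1)⁻¹ * ∑ g' ∈ Ico g nc, a ((g' + 1) * n) := by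
  have hn : 0 < n := by
    rcases Nat.eq_zero_or_pos n with h | h
    · subst h; simp at h1 h2; omega
    · exact h
  have key : ∀ m g : ℕ, g < nc → nc - 1 - g = m → ∀ k, g * n < k → k ≤ (g + 1) * n →
      ∑ j ∈ Ico k (Lv nc n), (xs nc n (j + 1) - xs nc n j) * a j =
      ((nc : ℝ) + 1)⁻¹ * ∑ g' ∈ Ico g nc, a ((g' + 1) * n) := by
    intro m
    induction m with
    | zero =>
      intro g hg hm k h1 h2
      have hg' : g + 1 = nc := by omega
      have h3 : (g + 1) * n + 1 = Lv nc n := by unfold Lv; rw [hg']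
      have h5 : Ico g nc = {g} := by
        ext j; simp only [mem_Ico, mem_singleton]; omega
      rw [← h3, Finset.sum_Ico_succ_top h2, h5, Finset.sum_singleton, xs_succ_sub nc n hn hg,
        Finset.sum_eq_zero, zero_add]
      intro j hj
      rw [mem_Ico] at hj
      rw [xs_succ_eq nc n hg.le (by omega) hj.2, sub_self, zero_mul]
    | succ m ih =>
      intro g hg hm k h1 h2
      have hg1 : g + 1 < nc := by omega
      have hle2 : (g + 1) * n + 1 ≤ Lv nc n := by
        have := Nat.mul_le_mul_right n hg1.le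
        unfold Lv; omega
      rw [← Finset.sum_Ico_consecutive _ (by omega : k ≤ (g + 1) * n + 1) hle2,
        ih (g + 1) hg1 (by omega) ((g + 1) * n + 1) (by omega)
          (by rw [add_mul (g + 1), one_mul]; omega),
        Finset.sum_eq_sum_Ico_succ_bot hg, mul_add, Finset.sum_Ico_succ_top h2,
        xs_succ_sub nc n hn hg, Finset.sum_eq_zero, zero_add]
      intro j hj
      rw [mem_Ico] at hj
      rw [xs_succ_eq nc n hg.le (by omega) hj.2, sub_self, zero_mul]
  exact key _ g hg rfl k h1 h2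

end

end Crest.Agent.R146.OvcA_679
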