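import Mathlib

/-!
Row 146, S0206, task 67 (S6-CONTACT): the abstract DISCRETE CONTACT lemma (helper552).
The number of rows `M` plays the role of time; the strengths `s` range over the box `[b0, A]^nc`;
the penalty `∑ (2 b0 - s_g)_+^2` keeps the maximiser away from the lower faces.
-/

set_option autoImplicit false

namespace Crest.Agent.R146.S6Contact_552

open Finset

variable {nc : ℕ}

/-- the box of strengths -/
def box (nc : ℕ) (b0 A : ℝ) : Set (Fin nc → ℝ) := {s | ∀ g, b0 ≤ s g ∧ s g ≤ A}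

/-- penalty -/
noncomputable def pen (b0 : ℝ) (s : Fin nc → ℝ) : ℝ := ∑ g, (max (2 * b0 - s g) 0) ^ 2

theorem pen_nonneg (b0 : ℝ) (s : Fin nc → ℝ) : 0 ≤ pen b0 s :=
  sum_nonneg fun _ _ => sq_nonneg _

/-- the penalty is small: each term is at most `b0 ^ 2` on the box. -/
theorem pen_le {b0 A : ℝ} (hb : 0 < b0) {s : Fin nc → ℝ} (hs : s ∈ box nc b0 A) :
    pen b0 s ≤ nc * b0 ^ 2 := by
  have h : ∀ g ∈ (univ : Finset (Fin nc)), (max (2 * b0 - s g) 0) ^ 2 ≤ b0 ^ 2 := by
    intro g _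
    have h1 : max (2 * b0 - s g) 0 ≤ b0 := max_le (by linarith [(hs g).1]) hb.le
    exact pow_le_pow_left₀ (le_max_right _ _) h1 2
  calc pen b0 s ≤ ∑ _g : Fin nc, b0 ^ 2 := sum_le_sum h
    _ = nc * b0 ^ 2 := by simp

theorem isCompact_box (b0 A : ℝ) : IsCompact (box nc b0 A) := by
  have h : box nc b0 A = Set.Icc (fun _ => b0) (fun _ => A) := by
    ext s
    simp only [box, Set.mem_ofPred_eq, Set.mem_Icc, Pi.le_def]
    exact ⟨fun h => ⟨fun g => (h g).1, fun g => (h g).2⟩, fun h g => ⟨h.1 g, h.2 g⟩⟩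
  rw [h]
  exact isCompact_Icc

theorem update_mem_box {b0 A : ℝ} {s : Fin nc → ℝ} (hs : s ∈ box nc b0 A) (g : Fin nc) {y : ℝ}
    (hy : y ∈ Set.Icc b0 A) : Function.update s g y ∈ box nc b0 A := by
  intro g'
  by_cases h : g' = g
  · subst h; simpa using hy
  · simpa [Function.update_of_ne h] using hs g'

theorem continuous_pen (b0 : ℝ) : Continuous (pen (nc := nc) b0) := by
  unfold pen
  fun_prop

/-- change of the penalty under a change of one coordinate. -/
theorem pen_update (b0 : ℝ) (s : Fin nc → ℝ) (g : Fin nc) (y : ℝ) :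
    pen b0 (Function.update s g y) - pen b0 s =
      (max (2 * b0 - y) 0) ^ 2 - (max (2 * b0 - s g) 0) ^ 2 := by
  classical
  unfold pen
  rw [← sum_sub_distrib, ← add_sum_erase univ _ (mem_univ g)]
  have h0 : ∑ x ∈ univ.erase g, ((max (2 * b0 - Function.update s g y x) 0) ^ 2 -
      (max (2 * b0 - s x) 0) ^ 2) = 0 := by
    refine sum_eq_zero fun x hx => ?_
    rw [Function.update_of_ne (ne_of_mem_erase hx)]
    ring
  rw [h0]
  simp

/-- `x ↦ (c - x)_+^2` is below its tangent parabola with coefficient one. -/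
theorem sq_max_le (c x y : ℝ) :
    (max (c - y) 0) ^ 2 ≤ (max (c - x) 0) ^ 2 - 2 * (max (c - x) 0) * (y - x) + (y - x) ^ 2 := by
  rcases le_total (c - y) 0 with h1 | h1 <;> rcases le_total (c - x) 0 with h2 | h2
  · rw [max_eq_right h1, max_eq_right h2]; nlinarith [sq_nonneg (y - x)]
  · rw [max_eq_right h1, max_eq_left h2]; nlinarith [sq_nonneg (c - y)]
  · rw [max_eq_left h1, max_eq_right h2]; nlinarith
  · rw [max_eq_left h1, max_eq_left h2]; nlinarith

/-- ... and above its tangent line. -/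
theorem sq_max_ge (c x y : ℝ) :
    (max (c - x) 0) ^ 2 - 2 * (max (c - x) 0) * (y - x) ≤ (max (c - y) 0) ^ 2 := by
  rcases le_total (c - y) 0 with h1 | h1 <;> rcases le_total (c - x) 0 with h2 | h2
  · rw [max_eq_right h1, max_eq_right h2]; nlinarith
  · rw [max_eq_right h1, max_eq_left h2]; nlinarith
  · rw [max_eq_left h1, max_eq_right h2]; nlinarith
  · rw [max_eq_left h1, max_eq_left h2]; nlinarith [sq_nonneg (y - x)]

/-- derivative condition from a one-sided inequality:
if `φ` has derivative `d` at `x` and `φ y ≤ φ x + c (y - x) + (y - x)^2` for `y` in a right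
neighbourhood, then `d ≤ c`. -/
theorem deriv_le_of_right {φ : ℝ → ℝ} {x b d c : ℝ} (hφ : HasDerivAt φ d x) (hb : x < b)
    (h : ∀ y ∈ Set.Ioo x b, φ y ≤ φ x + c * (y - x) + (y - x) ^ 2) : d ≤ c := by
  have h1 := (hasDerivWithinAt_iff_tendsto_slope' (s := Set.Ioi x) (by simp)).mp
    (hφ.hasDerivWithinAt (s := Set.Ioi x))
  have h2 : Filter.Tendsto (fun y => c + (y - x)) (nhdsWithin x (Set.Ioi x)) (nhds c) := by
    have : Filter.Tendsto (fun y => c + (y - x)) (nhds x) (nhds (c + (x - x))) := by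
      exact (continuous_const.add (continuous_id.sub continuous_const)).tendsto x
    rw [sub_self, add_zero] at this
    exact this.mono_left nhdsWithin_le_nhds
  refine le_of_tendsto_of_tendsto h1 h2 ?_
  filter_upwards [Ioo_mem_nhdsGT hb] with y hy
  rw [slope_def_field, div_le_iff₀ (by linarith [hy.1])]
  have := h y hy
  nlinarith

theorem le_deriv_of_left {φ : ℝ → ℝ} {x a d c : ℝ} (hφ : HasDerivAt φ d x) (ha : a < x)
    (h : ∀ y ∈ Set.Ioo a x, φ y ≤ φ x + c * (y - x) + (y - x) ^ 2) : c ≤ d := by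
  have h1 := (hasDerivWithinAt_iff_tendsto_slope' (s := Set.Iio x) (by simp)).mp
    (hφ.hasDerivWithinAt (s := Set.Iio x))
  have h2 : Filter.Tendsto (fun y => c + (y - x)) (nhdsWithin x (Set.Iio x)) (nhds c) := by
    have : Filter.Tendsto (fun y => c + (y - x)) (nhds x) (nhds (c + (x - x))) := by
      exact (continuous_const.add (continuous_id.sub continuous_const)).tendsto x
    rw [sub_self, add_zero] at this
    exact this.mono_left nhdsWithin_le_nhds
  refine le_of_tendsto_of_tendsto h2 h1 ?_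
  filter_upwards [Ioo_mem_nhdsLT ha] with y hy
  rw [slope_def_field, le_div_iff_of_neg (by linarith [hy.2])]
  have := h y hy
  nlinarith

/-- **discrete contact lemma** -/
theorem contact (b0 A : ℝ) (hb : 0 < b0) (Mmax : ℕ)
    (F U : ℕ → (Fin nc → ℝ) → ℝ) (DF DU : ℕ → (Fin nc → ℝ) → Fin nc → ℝ)
    (hFc : ∀ M ≤ Mmax, ContinuousOn (F M) (box nc b0 A))
    (hUc : ∀ M ≤ Mmax, ContinuousOn (U M) (box nc b0 A))
    (hF : ∀ M ≤ Mmax, ∀ s ∈ box nc b0 A, ∀ g,
      HasDerivAt (fun y => F M (Function.update s g y)) (DF M s g) (s g))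
    (hU : ∀ M ≤ Mmax, ∀ s ∈ box nc b0 A, ∀ g, ∀ y ∈ Set.Icc b0 A,
      U M (Function.update s g y) ≤ U M s + DU M s g * (y - s g))
    (hlow : ∀ M ≤ Mmax, ∀ s ∈ box nc b0 A, ∀ g, -(s g) ≤ DF M s g - DU M s g)
    (ε0 η : ℝ) (_hε0 : 0 ≤ ε0) (hη : 0 ≤ η)
    (h0 : ∀ s ∈ box nc b0 A, F 0 s ≤ U 0 s + ε0)
    (hface : ∀ M ≤ Mmax, ∀ s ∈ box nc b0 A, (∃ g, A - 1 ≤ s g) → F M s ≤ U M s + ε0)
    (hstep : ∀ M, M + 1 ≤ Mmax → ∀ s ∈ box nc b0 A, (∀ g, 4 / 3 * b0 ≤ s g ∧ s g ≤ A - 1) →
      (∀ g, DF (M + 1) s g ≤ DU (M + 1) s g) →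
      (∀ g, ∀ y ∈ Set.Icc b0 A, F (M + 1) (Function.update s g y) ≤
        F (M + 1) s + DF (M + 1) s g * (y - s g) + (y - s g) ^ 2) →
      F (M + 1) s - F M s ≤ U (M + 1) s - U M s + η) :
    ∀ M ≤ Mmax, ∀ s ∈ box nc b0 A, F M s ≤ U M s + pen b0 s + ε0 + η * M := by
  intro M
  induction M with
  | zero =>
    intro _ s hs
    have := h0 s hs
    have := pen_nonneg b0 s
    simp only [Nat.cast_zero, mul_zero, add_zero]
    linarith
  | succ M ih =>
    intro hM s1 hs1
    have ih := ih (by omega)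
    -- maximiser of `F - U - pen` at `M + 1`
    have hcont : ContinuousOn (fun s => F (M + 1) s - U (M + 1) s - pen b0 s) (box nc b0 A) :=
      ((hFc _ hM).sub (hUc _ hM)).sub (continuous_pen b0).continuousOn
    obtain ⟨s, hs, hmax⟩ := (isCompact_box b0 A).exists_isMaxOn ⟨s1, hs1⟩ hcont
    have hmax' : ∀ s' ∈ box nc b0 A, F (M + 1) s' - U (M + 1) s' - pen b0 s' ≤
        F (M + 1) s - U (M + 1) s - pen b0 s := fun s' hs' => hmax hs'
    suffices hgoal : F (M + 1) s ≤ U (M + 1) s + pen b0 s + ε0 + η * ((M + 1 : ℕ) : ℝ) by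
      have := hmax' s1 hs1
      linarith
    by_contra hcon
    push Not at hcon
    have hηM : 0 ≤ η * ((M + 1 : ℕ) : ℝ) := mul_nonneg hη (Nat.cast_nonneg _)
    -- not on the upper faces
    have hup : ∀ g, s g < A - 1 := by
      intro g
      by_contra hg
      push Not at hg
      have h1 := hface _ hM s hs ⟨g, hg⟩
      have h2 := pen_nonneg b0 s
      linarith
    -- the basic inequality
    have hbasic : ∀ g, ∀ y ∈ Set.Icc b0 A, F (M + 1) (Function.update s g y) ≤
        F (M + 1) s + (DU (M + 1) s g - 2 * max (2 * b0 - s g) 0) * (y - s g) + (y - s g) ^ 2 := by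
      intro g y hy
      have h1 := hmax' _ (update_mem_box hs g hy)
      have h2 := hU _ hM s hs g y hy
      have h3 := pen_update b0 s g y
      have h4 := sq_max_le (2 * b0) (s g) y
      nlinarith
    -- `DF ≤ DU - 2 (2 b0 - s)_+`
    have hle : ∀ g, DF (M + 1) s g ≤ DU (M + 1) s g - 2 * max (2 * b0 - s g) 0 := by
      intro g
      refine deriv_le_of_right (b := A) (hF _ hM s hs g) (by linarith [hup g]) ?_
      intro y hy
      have h1 := hbasic g y ⟨by linarith [hy.1, (hs g).1], hy.2.le⟩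
      simpa using h1
    have hlow' : ∀ g, 4 / 3 * b0 ≤ s g := by
      intro g
      have h1 := hle g
      have h2 := hlow _ hM s hs g
      have h3 : 2 * b0 - s g ≤ max (2 * b0 - s g) 0 := le_max_left _ _
      linarith
    have hge : ∀ g, DU (M + 1) s g - 2 * max (2 * b0 - s g) 0 ≤ DF (M + 1) s g := by
      intro g
      refine le_deriv_of_left (a := b0) (hF _ hM s hs g) (by linarith [hlow' g]) ?_
      intro y hy
      have h1 := hbasic g y ⟨hy.1.le, by linarith [hy.2, (hs g).2]⟩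
      simpa using h1
    have heq : ∀ g, DF (M + 1) s g = DU (M + 1) s g - 2 * max (2 * b0 - s g) 0 :=
      fun g => le_antisymm (hle g) (hge g)
    have hst := hstep M hM s hs (fun g => ⟨hlow' g, (hup g).le⟩)
      (fun g => by
        have := heq g
        have h3 : 0 ≤ max (2 * b0 - s g) 0 := le_max_right _ _
        linarith)
      (fun g y hy => by
        rw [heq g]
        exact hbasic g y hy)
    have hih := ih s hs
    push_cast at hcon
    linarith

end Crest.Agent.R146.S6Contact_552
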