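import Crest.Agent.R146.S6UBb_167
import Crest.Agent.R146.S6Contact_552

/-!
Row 146, S0206, task 68 (helper167): the assembly of the upper bound (UB) from the nodes
(U0), (U1), (JEN), (DER), (IBP), (HCONC), (STR), (CAV), (MONOd), (PLIM), (DISC) of `S6U_988`.
-/

set_option autoImplicit false

namespace Crest.Agent.R146.S6UB_167

open Finset MeasureTheory ProbabilityTheory Crest.Agent.R141
open Crest.Agent.R146.S6Def_988 Crest.Agent.R146.S6U_988 Crest.Agent.R146.CavInc_769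
open Crest.Agent.R146.S6UBa_167 Crest.Agent.R146.S6UBb_167
open Crest.Agent.R146.S6Contact_552 (box pen pen_le contact)

noncomputable section

theorem near_mono {N : ℕ} {C : Cfg N} {δ δ' : ℝ} (h : Near C δ) (hδ : δ ≤ δ') : Near C δ' :=
  fun F hF => (h F hF).trans hδ

/-- the comparison function -/
def Ucmp (N nc J : ℕ) (P q : ℕ → ℝ) (f : ℕ → ℝ → ℝ) (M : ℕ) (s : Fin nc → ℝ) : ℝ :=
  (N : ℝ)⁻¹ * ∑ a ∈ range M, Th J (f a) P + SP J P - 1 / 2 * ∑ g : Fin nc, s g ^ 2 * tl1 nc q g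

theorem Ucmp_cont (N nc J : ℕ) (P q : ℕ → ℝ) (f : ℕ → ℝ → ℝ) (M : ℕ) :
    Continuous (Ucmp N nc J P q f M) := by
  unfold Ucmp
  fun_prop

theorem Ucmp_update (N nc J : ℕ) (P q : ℕ → ℝ) (hq : ∀ l, 0 ≤ q l) (f : ℕ → ℝ → ℝ) (M : ℕ)
    (s : Fin nc → ℝ) (g : Fin nc) (y : ℝ) :
    Ucmp N nc J P q f M (Function.update s g y) ≤
      Ucmp N nc J P q f M s + -(s g * tl1 nc q g) * (y - s g) := by
  classical
  unfold Ucmp
  have h1 : ∑ x : Fin nc, (Function.update s g y) x ^ 2 * tl1 nc q x -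
      ∑ x : Fin nc, s x ^ 2 * tl1 nc q x = (y ^ 2 - s g ^ 2) * tl1 nc q g := by
    rw [← sum_sub_distrib, ← add_sum_erase univ _ (mem_univ g)]
    have h0 : ∑ x ∈ univ.erase g, ((Function.update s g y) x ^ 2 * tl1 nc q x -
        s x ^ 2 * tl1 nc q x) = 0 := by
      refine sum_eq_zero fun x hx => ?_
      rw [Function.update_of_ne (ne_of_mem_erase hx)]
      ring
    rw [h0]
    simp
    ring
  have h2 := tl1_nonneg hq (nc := nc) (g : ℕ)
  have h3 := mul_nonneg h2 (sq_nonneg (y - s g))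
  nlinarith

theorem low_arith {I sg r t ei u : ℝ} (h1 : -ei ≤ I - sg * (1 - r)) (h4 : ei ≤ sg * u)
    (h7 : 0 ≤ sg * t) (h8 : sg * r ≤ sg * (1 - u)) : -sg ≤ I - sg - -(sg * t) := by
  have h2 : sg * (1 - r) = sg - sg * r := by ring
  have h3 : sg * (1 - u) = sg - sg * u := by ring
  linarith

/-- the faces -/
theorem face_arith {nc : ℕ} {PJ S Kam X T F : ℝ} {s : Fin nc → ℝ} {q : ℕ → ℝ}
    (hX : X = ∑ g : Fin nc, s g ^ 2)
    (hT : -Kam ≤ T) (hqle : ∀ l ≤ nc, q l ≤ PJ) (hPJ : PJ < 1)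
    (hgrow : (2 * Kam + 1 / 2 + |S|) + ((nc : ℝ) + 1) / 2 * Real.log (1 + X) ≤
      (1 - PJ) / (2 * ((nc : ℝ) + 1)) * X)
    (h1 : F ≤ Kam + 1 / 2 -
      1 / 2 * ∑ g : Fin nc, s g ^ 2 * (1 - ((g : ℝ) + 1) / ((nc : ℝ) + 1)) +
      ((nc : ℝ) + 1) / 2 * Real.log (1 + X)) :
    F ≤ T + S - 1 / 2 * ∑ g : Fin nc, s g ^ 2 * tl1 nc q g := by
  have hncp : (0 : ℝ) < (nc : ℝ) + 1 := by positivity
  have h11 : ∑ g : Fin nc, s g ^ 2 * tl1 nc q g ≤
      ∑ g : Fin nc, s g ^ 2 * (1 - ((g : ℝ) + 1) / ((nc : ℝ) + 1)) -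
        (1 - PJ) / ((nc : ℝ) + 1) * X := by
    rw [hX, mul_sum, ← sum_sub_distrib]
    refine sum_le_sum fun g _ => ?_
    have h12 : tl1 nc q g ≤ PJ * (1 - (((g : ℕ) : ℝ) + 1) / ((nc : ℝ) + 1)) :=
      tl1_le hqle g.2.le
    have h13 : 1 / ((nc : ℝ) + 1) ≤ 1 - (((g : ℕ) : ℝ) + 1) / ((nc : ℝ) + 1) := by
      rw [div_le_iff₀ hncp, sub_mul, div_mul_cancel₀ _ hncp.ne']
      have : ((g : ℕ) : ℝ) + 1 ≤ nc := by exact_mod_cast g.2
      linarith
    have h14 : tl1 nc q g ≤ (1 - (((g : ℕ) : ℝ) + 1) / ((nc : ℝ) + 1)) -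
        (1 - PJ) / ((nc : ℝ) + 1) := by
      have h15 : (1 - PJ) / ((nc : ℝ) + 1) = (1 - PJ) * (1 / ((nc : ℝ) + 1)) := by ring
      have h16 : (1 - PJ) * (1 / ((nc : ℝ) + 1)) ≤
          (1 - PJ) * (1 - (((g : ℕ) : ℝ) + 1) / ((nc : ℝ) + 1)) :=
        mul_le_mul_of_nonneg_left h13 (by linarith)
      rw [h15]
      linarith
    have h16 := mul_le_mul_of_nonneg_left h14 (sq_nonneg (s g))
    linarith
  have h17 : (1 - PJ) / (2 * ((nc : ℝ) + 1)) * X = 1 / 2 * ((1 - PJ) / ((nc : ℝ) + 1) * X) := by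
    field_simp
  rw [h17] at hgrow
  have h18 : -|S| ≤ S := neg_abs_le _
  linarith

theorem eta_arith {am K L ε εc ei b0 B Jp x : ℝ} (hε : 0 < ε) (hb0 : 0 < b0) (ham0 : 0 ≤ am)
    (hJp : 0 < Jp) (hB : B = am * (60 * K ^ 2 * Real.exp (4 * K) + 2 * L ^ 2))
    (hBJ : B / Jp ≤ ε / 8) (hεc : εc = ε / (8 * (am + 1))) (hei0 : 0 ≤ ei)
    (hei : ei ≤ b0 * (ε / (8 * ((am + 1) * (L ^ 2 + 1))))) (hx : x ≤ am) :
    x * (60 * K ^ 2 * Real.exp (4 * K) / Jp + εc + L ^ 2 * (2 / Jp + ei / b0)) ≤ 3 * (ε / 8) := by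
  have hεcp : 0 < εc := by rw [hεc]; positivity
  have h2 : x * (60 * K ^ 2 * Real.exp (4 * K) / Jp + εc + L ^ 2 * (2 / Jp + ei / b0)) ≤
      am * (60 * K ^ 2 * Real.exp (4 * K) / Jp + εc + L ^ 2 * (2 / Jp + ei / b0)) :=
    mul_le_mul_of_nonneg_right hx (by positivity)
  have h3 : am * (60 * K ^ 2 * Real.exp (4 * K) / Jp + εc + L ^ 2 * (2 / Jp + ei / b0)) =
      B / Jp + am * εc + am * L ^ 2 * (ei / b0) := by
    rw [hB]; ring
  have h4 : am * εc ≤ ε / 8 := by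
    rw [hεc]
    have : am * (ε / (8 * (am + 1))) = (ε / 8) * (am / (am + 1)) := by field_simp
    rw [this]
    have h5 : am / (am + 1) ≤ 1 := by rw [div_le_one (by linarith)]; linarith
    have h6 : 0 < ε / 8 := by positivity
    nlinarith
  have h5 : am * L ^ 2 * (ei / b0) ≤ ε / 8 := by
    have h6 : ei / b0 ≤ ε / (8 * ((am + 1) * (L ^ 2 + 1))) := by
      rw [div_le_iff₀ hb0, mul_comm]
      exact hei
    have h7 : am * L ^ 2 * (ei / b0) ≤ am * L ^ 2 * (ε / (8 * ((am + 1) * (L ^ 2 + 1)))) :=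
      mul_le_mul_of_nonneg_left h6 (by positivity)
    have h8 : am * L ^ 2 * (ε / (8 * ((am + 1) * (L ^ 2 + 1)))) =
        (ε / 8) * ((am * L ^ 2) / ((am + 1) * (L ^ 2 + 1))) := by field_simp
    have h9 : (am * L ^ 2) / ((am + 1) * (L ^ 2 + 1)) ≤ 1 := by
      rw [div_le_one (by positivity)]
      nlinarith [sq_nonneg L]
    have h10 : 0 < ε / 8 := by positivity
    rw [h8] at h7
    nlinarith
  linarith

set_option maxHeartbeats 1000000 in
/-- **the upper bound from the nodes** -/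
theorem UB_of (hU0 : U0) (hU1 : U1) (hJEN : JEN) (hDER : DER) (hIBP : IBP) (hHC : HCONC)
    (hSTR : STR) (hCAV : CAV) (hMON : MONOd) (hPL : PLIM) (hDISC : DISC) : UB := by
  intro K L αm ε hε
  set am : ℝ := max αm 0 with ham
  have ham0 : 0 ≤ am := le_max_right _ _
  set B : ℝ := am * (60 * K ^ 2 * Real.exp (4 * K) + 2 * L ^ 2) with hB
  have hB0 : 0 ≤ B := by positivity
  refine ⟨⌈8 * B / ε⌉₊, fun J hJ P hP hP1 => ?_⟩
  have hJr : 8 * B / ε ≤ (J : ℝ) + 1 := by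
    have h1 : 8 * B / ε ≤ (⌈8 * B / ε⌉₊ : ℝ) := Nat.le_ceil _
    have h2 : ((⌈8 * B / ε⌉₊ : ℕ) : ℝ) ≤ J := by exact_mod_cast hJ
    linarith
  have hJp : (0 : ℝ) < (J : ℝ) + 1 := by positivity
  have hBJ : B / ((J : ℝ) + 1) ≤ ε / 8 := by
    rw [div_le_iff₀ hJp]
    have := (div_le_iff₀ hε).1 hJr
    linarith
  -- the cavity and the skeleton
  set εc : ℝ := ε / (8 * (am + 1)) with hεc
  have hεcp : 0 < εc := by positivity
  obtain ⟨ε1, hε1, hcav⟩ := hCAV J K L εc hεcp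
  obtain ⟨wc0, hstr⟩ := hSTR J ε1 hε1
  set wc : ℕ := max wc0 2 with hwcd
  have hwc2 : 2 ≤ wc := le_max_right _ _
  have hwc : 0 < wc := by omega
  obtain ⟨nc, hnc⟩ : ∃ nc : ℕ, nc + 1 = (J + 1) * wc := by
    have : 0 < (J + 1) * wc := Nat.mul_pos (by omega) hwc
    exact ⟨(J + 1) * wc - 1, by omega⟩
  have hncp : (0 : ℝ) < (nc : ℝ) + 1 := by positivity
  set q : ℕ → ℝ := ref wc P with hq
  have hqL : Lev nc q := ref_lev hwc hnc hP
  have hqlast : q nc = P J := ref_last hwc hnc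
  have hq1 : q nc < 1 := by rw [hqlast]; exact hP1
  have hSPq : SP nc q = SP J P := SP_ref hwc hnc
  -- replace `q` outside `[0, nc]`: only levels `≤ nc` matter
  have hqle : ∀ l ≤ nc, q l ≤ P J := fun l hl => by
    rw [← hqlast]; exact hqL.mono l nc hl le_rfl
  have hq0 : ∀ l ≤ nc, 0 ≤ q l := fun l hl => hqL.nonneg.trans (hqL.mono 0 l (Nat.zero_le _) hl)
  have htl0 : ∀ g : Fin nc, 0 ≤ tl1 nc q g := by
    intro g
    unfold tl1
    refine mul_nonneg (by positivity) (sum_nonneg fun l hl => ?_)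
    exact hq0 l (mem_Ioc.1 hl).2
  -- lower end of the box
  set b0 : ℝ := min 1 (ε / (16 * ((nc : ℝ) + 1))) with hb0d
  have hb0 : 0 < b0 := lt_min one_pos (by positivity)
  have hb01 : b0 ≤ 1 := min_le_left _ _
  have hb0sq : (nc : ℝ) * b0 ^ 2 ≤ ε / 16 := by
    have h1 : b0 ≤ ε / (16 * ((nc : ℝ) + 1)) := min_le_right _ _
    have h2 : b0 ^ 2 ≤ b0 := by nlinarith
    have h3 : (nc : ℝ) * b0 ^ 2 ≤ ((nc : ℝ) + 1) * (ε / (16 * ((nc : ℝ) + 1))) := by
      have hn0 : (0 : ℝ) ≤ nc := Nat.cast_nonneg _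
      nlinarith [sq_nonneg b0]
    have h4 : ((nc : ℝ) + 1) * (ε / (16 * ((nc : ℝ) + 1))) = ε / 16 := by field_simp
    linarith
  -- upper end of the box
  have hc : 0 < (1 - P J) / (2 * ((nc : ℝ) + 1)) := by
    have : 0 < 1 - P J := by linarith
    positivity
  obtain ⟨X0, hX0, hgrow⟩ := log_growth (2 * (|K| * am) + 1 / 2 + |SP J P|)
    (b := ((nc : ℝ) + 1) / 2) (by positivity) hc
  set A : ℝ := X0 + b0 + 3 with hA
  have hbA : b0 < A := by linarith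
  -- error of the integration by parts
  set ei : ℝ := min (b0 / ((nc : ℝ) + 1)) (b0 * (ε / (8 * ((am + 1) * (L ^ 2 + 1))))) with hei
  have heip : 0 < ei := lt_min (by positivity) (by positivity)
  obtain ⟨n0i, hibp⟩ := hIBP nc A K ei heip
  obtain ⟨δs, hδs, N0s, n0s, hstr'⟩ := hstr wc (le_max_left _ _) nc hnc b0 A K am hb0 hbA
  obtain ⟨N0h, hhc⟩ := hHC nc b0 A K am δs hb0 hbA hδs
  obtain ⟨N0u, hu0⟩ := hU0 nc A (ε / 8) (by positivity)
  refine ⟨max (max 1 N0s) (max N0h N0u), fun N hN M hM f hf => ?_⟩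
  have hN1 : 1 ≤ N := (le_max_left 1 N0s).trans ((le_max_left _ _).trans hN)
  have hNs : N0s ≤ N := (le_max_right 1 N0s).trans ((le_max_left _ _).trans hN)
  have hNh : N0h ≤ N := (le_max_left N0h N0u).trans ((le_max_right _ _).trans hN)
  have hNu : N0u ≤ N := (le_max_right N0h N0u).trans ((le_max_right _ _).trans hN)
  have hNp : 0 < N := hN1
  have hNr : (0 : ℝ) < N := by exact_mod_cast hNp
  have hfm : ∀ a, Measurable (f a) := fun a => S6UBa_167.BL.meas (hf a)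
  have hfK : ∀ a x, |f a x| ≤ K := fun a => (hf a).bd
  have hK0 : 0 ≤ K := (abs_nonneg _).trans (hfK 0 0)
  have hKabs : |K| = K := abs_of_nonneg hK0
  have hMam : (M : ℝ) ≤ am * N := hM.trans (mul_le_mul_of_nonneg_right (le_max_left _ _) hNr.le)
  have hMN : (M : ℝ) / N ≤ am := (div_le_iff₀ hNr).2 hMam
  have hle : ∀ M' ≤ M, (M' : ℝ) ≤ am * N := fun M' h => by
    have : (M' : ℝ) ≤ M := by exact_mod_cast h
    linarith
  -- number of coins
  set n : ℕ := 1 + n0s N + ∑ M' ∈ range (M + 1), n0i N M' with hn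
  have hn0 : 0 < n := by omega
  have hns : n0s N ≤ n := by omega
  have hni : ∀ M' ≤ M, n0i N M' ≤ n := by
    intro M' hM'
    have : n0i N M' ≤ ∑ M' ∈ range (M + 1), n0i N M' :=
      single_le_sum (f := fun M' => n0i N M') (fun _ _ => Nat.zero_le _)
        (mem_range.2 (by omega))
    omega
  obtain ⟨δu, hδu, hu0'⟩ := hu0 N hNu n hn0
  obtain ⟨δp, hδp, hpl⟩ := hPL N K L M (ε / 8) hNp (by positivity)
  obtain ⟨C, hC⟩ := hDISC N hNp (min δu δp) (lt_min hδu hδp)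
  have hCu : Near C δu := near_mono hC (min_le_left _ _)
  have hCp : Near C δp := near_mono hC (min_le_right _ _)
  -- the data of the contact lemma
  set DF : ℕ → (Fin nc → ℝ) → Fin nc → ℝ := fun M' s g =>
    ∫ G, eE (QQ C nc n (M := M') f G s) (Dobs C nc n g) ∂(gam M' N) - s g with hDF
  set DU : ℕ → (Fin nc → ℝ) → Fin nc → ℝ := fun _ s g => -(s g * tl1 nc q g) with hDU
  set η : ℝ := (N : ℝ)⁻¹ * (60 * K ^ 2 * Real.exp (4 * K) / ((J : ℝ) + 1) + εc +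
    L ^ 2 * (2 / ((J : ℝ) + 1) + ei / b0)) with hη
  have hη0 : 0 ≤ η := by positivity
  have hibp' : ∀ M' ≤ M, ∀ s ∈ box nc b0 A, ∀ g : Fin nc,
      |∫ G, eE (QQ C nc n (M := M') f G s) (Dobs C nc n g) ∂(gam M' N) -
        s g * (1 - tl1 nc (fun l => Rk C nc n f M' s (st n l)) g)| ≤ ei := fun M' hM' s hs g =>
    hibp N hNp M' n (hni M' hM') C f hfm hfK s (fun g => ⟨hb0.le.trans (hs g).1, (hs g).2⟩) g
  have hcontact := contact b0 A hb0 M (fun M' s => FN C nc n f M' s)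
    (fun M' s => Ucmp N nc J P q f M' s) DF DU
    (fun M' _ => (hDER nc N n hNp hn0 C K f M' hfm hfK).1.continuousOn)
    (fun M' _ => (Ucmp_cont N nc J P q f M').continuousOn)
    (fun M' _ s _ g => (hDER nc N n hNp hn0 C K f M' hfm hfK).2 s g)
    ?hU ?hlow (ε / 8) η (by positivity) hη0 ?h0 ?hface ?hstep M le_rfl (fun _ => b0)
    (fun _ => ⟨le_rfl, hbA.le⟩)
  case hU =>
    intro M' _ s _ g y _
    -- the values of `q` beyond `nc` are irrelevant
    have h1 := Ucmp_update N nc J P (fun l => max (q l) 0) (fun _ => le_max_right _ _) f M' s g y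
    have h2 : ∀ g : ℕ, tl1 nc (fun l => max (q l) 0) g = tl1 nc q g := by
      intro g
      unfold tl1
      congr 1
      exact sum_congr rfl fun l hl => max_eq_left (hq0 l (mem_Ioc.1 hl).2)
    have h3 : ∀ s', Ucmp N nc J P (fun l => max (q l) 0) f M' s' = Ucmp N nc J P q f M' s' := by
      intro s'
      unfold Ucmp
      simp_rw [h2]
    rw [h3, h3, h2] at h1
    exact h1
  case hlow =>
    intro M' hM' s hs g
    have h1 := (abs_le.1 (hibp' M' hM' s hs g)).1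
    have hsg : b0 ≤ s g := (hs g).1
    have hsg0 : 0 < s g := lt_of_lt_of_le hb0 hsg
    have h2 : tl1 nc (fun l => Rk C nc n f M' s (st n l)) g ≤
        1 * (1 - (((g : ℕ) : ℝ) + 1) / ((nc : ℝ) + 1)) :=
      tl1_le (fun l _ => Rk_le_one hNp hfm _) g.2.le
    have h3 : 1 / ((nc : ℝ) + 1) ≤ (((g : ℕ) : ℝ) + 1) / ((nc : ℝ) + 1) := by
      gcongr
      have : (0 : ℝ) ≤ ((g : ℕ) : ℝ) := Nat.cast_nonneg _
      linarith
    have h4 : ei ≤ s g * (1 / ((nc : ℝ) + 1)) := by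
      have h5 : ei ≤ b0 / ((nc : ℝ) + 1) := min_le_left _ _
      have h6 : b0 / ((nc : ℝ) + 1) ≤ s g * (1 / ((nc : ℝ) + 1)) := by
        rw [mul_one_div]
        gcongr
      linarith
    have h7 : 0 ≤ s g * tl1 nc q g := mul_nonneg hsg0.le (htl0 g)
    have h8 : s g * tl1 nc (fun l => Rk C nc n f M' s (st n l)) g ≤
        s g * (1 - 1 / ((nc : ℝ) + 1)) := by
      refine mul_le_mul_of_nonneg_left ?_ hsg0.le
      linarith
    exact low_arith h1 h4 h7 h8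
  case h0 =>
    intro s hs
    have h1 := hu0' C hCu f s (fun g => ⟨lt_of_lt_of_le hb0 (hs g).1, (hs g).2⟩) q hqL hq1
    rw [hSPq] at h1
    unfold Ucmp
    simp only [range_zero, sum_empty, mul_zero, zero_add]
    exact h1
  case hface =>
    intro M' hM' s hs ⟨g0, hg0⟩
    have h1 := hU1 nc N n hNp hn0 C K f M' hfm hfK s
    set X : ℝ := ∑ g : Fin nc, s g ^ 2 with hX
    have hXge : X0 ≤ X := by
      have h2 : s g0 ^ 2 ≤ X :=
        single_le_sum (f := fun g => s g ^ 2) (fun _ _ => sq_nonneg _) (mem_univ g0)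
      have h3 : X0 + 1 ≤ s g0 := by linarith
      nlinarith
    have h4 := hgrow X hXge
    have h5 : K * M' / N ≤ |K| * am := by
      rw [hKabs, mul_div_assoc]
      refine mul_le_mul_of_nonneg_left ?_ hK0
      exact (div_le_iff₀ hNr).2 (hle M' hM')
    have h6 : -(|K| * am) ≤ (N : ℝ)⁻¹ * ∑ a ∈ range M', Th J (f a) P := by
      have h7 : -(K * M') ≤ ∑ a ∈ range M', Th J (f a) P := by
        have h8 : ∑ _a ∈ range M', (-K) ≤ ∑ a ∈ range M', Th J (f a) P :=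
          sum_le_sum fun a _ => neg_le_of_abs_le (Th_abs_le (hfm a) (hfK a) J P)
        rw [sum_const, card_range, nsmul_eq_mul] at h8
        linarith
      have h9 : (N : ℝ)⁻¹ * (-(K * M')) ≤ (N : ℝ)⁻¹ * ∑ a ∈ range M', Th J (f a) P :=
        mul_le_mul_of_nonneg_left h7 (by positivity)
      have h10 : (N : ℝ)⁻¹ * (-(K * M')) = -(K * M' / N) := by
        rw [div_eq_inv_mul]; ring
      rw [h10] at h9
      linarith
    have h7 : FN C nc n f M' s ≤ |K| * am + 1 / 2 -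
        1 / 2 * ∑ g : Fin nc, s g ^ 2 * (1 - ((g : ℝ) + 1) / ((nc : ℝ) + 1)) +
        ((nc : ℝ) + 1) / 2 * Real.log (1 + X) := by linarith
    have h8 := face_arith (S := SP J P) hX h6 hqle hP1 h4 h7
    have h9 : Ucmp N nc J P q f M' s = (N : ℝ)⁻¹ * ∑ a ∈ range M', Th J (f a) P + SP J P -
        1 / 2 * ∑ g : Fin nc, s g ^ 2 * tl1 nc q g := rfl
    rw [h9]
    linarith
  case hstep =>
    intro M' hM' s hs hs2 hd hpar
    have hcon : ∀ g, Dconc C nc n f (M' + 1) s g δs := fun g =>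
      hhc N hNh n hn0 C f (M' + 1) (hle _ hM') hfm hfK s hs2 g (DF (M' + 1) s g) (hpar g)
    obtain ⟨τ, hτ⟩ := hstr' N hNs n hns C f (M' + 1) (hle _ hM') hfm hfK s hs hcon
    have hc1 := hcav wc nc hwc2 hnc N n hNp hn0 C f M' hf s τ hτ
    set R : ℕ → ℝ := fun k => Rk C nc n f (M' + 1) s k with hR
    have hR0 : ∀ k, 0 ≤ R k := fun k => Rk_nonneg k
    have hR1 : ∀ k, R k ≤ 1 := fun k => Rk_le_one hNp hfm k
    have hRm : ∀ k l, k ≤ l → R k ≤ R l := fun k l h => Rk_mono hNp hfm h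
    have htail : ∀ g : Fin nc, tl1 nc (ref wc P) g ≤
        tl1 nc (fun l => R (st n l)) g + ei / b0 := fun g =>
      tails_contact hb0 (hs g).1 (hibp' (M' + 1) hM' s hs g) (hd g)
    have hskt := skel_tails hwc hnc hP hR0 hR1 hRm hτ.blk (by positivity) htail
    have hlevR : Lev J fun b => R (τ b) := skel_lev hR0 hR1 hRm hτ.blk
    have hmon := hMON J K L (f M') (hf M') (fun b => R (τ b)) P hlevR hP
      (2 / ((J : ℝ) + 1) + ei / b0) (by positivity) hskt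
    have h1 := (abs_le.1 hc1).2
    have h2 : (N : ℝ) * (FN C nc n f (M' + 1) s - FN C nc n f M' s) ≤
        Th J (f M') P + (60 * K ^ 2 * Real.exp (4 * K) / ((J : ℝ) + 1) + εc +
    L ^ 2 * (2 / ((J : ℝ) + 1) + ei / b0)) := by
      have : Th J (f M') (fun b => Rk C nc n f (M' + 1) s (τ b)) = Th J (f M') fun b => R (τ b) := rfl
      linarith
    have h3 := mul_le_mul_of_nonneg_left h2 (inv_pos.2 hNr).le
    rw [← mul_assoc, inv_mul_cancel₀ hNr.ne', one_mul, mul_add] at h3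
    have h4 : Ucmp N nc J P q f (M' + 1) s - Ucmp N nc J P q f M' s =
        (N : ℝ)⁻¹ * Th J (f M') P := by
      unfold Ucmp
      rw [sum_range_succ]
      ring
    rw [h4]
    exact h3
  -- conclusion
  have hpen : pen b0 (fun _ : Fin nc => b0) ≤ nc * b0 ^ 2 :=
    pen_le hb0 (A := A) (fun _ => ⟨le_rfl, hbA.le⟩)
  have hjen := hJEN nc N n hNp hn0 C K f M hfm hfK (fun _ => b0)
  have hpc := (abs_le.1 (hpl f hf C hCp)).2
  have hsum : ∑ _g : Fin nc, b0 ^ 2 = nc * b0 ^ 2 := by simp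
  rw [hsum] at hjen
  have hUle : Ucmp N nc J P q f M (fun _ => b0) ≤
      (N : ℝ)⁻¹ * ∑ a ∈ range M, Th J (f a) P + SP J P := by
    unfold Ucmp
    have : 0 ≤ ∑ g : Fin nc, b0 ^ 2 * tl1 nc q g :=
      sum_nonneg fun g _ => mul_nonneg (sq_nonneg _) (htl0 g)
    linarith
  have hηM : η * M ≤ 3 * (ε / 8) := by
    have h1 : η * M = (M : ℝ) / N * (60 * K ^ 2 * Real.exp (4 * K) / ((J : ℝ) + 1) + εc +
        L ^ 2 * (2 / ((J : ℝ) + 1) + ei / b0)) := by
      rw [hη]; ring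
    rw [h1]
    exact eta_arith hε hb0 ham0 hJp hB hBJ hεc heip.le (min_le_right _ _) hMN
  linarith

end

end Crest.Agent.R146.S6UB_167
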