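import Crest.Agent.R146.Sph1_214

/-!
# Row 146, package SPH (helper214), part 2: the exponential bound on the sphere

`sphere_exp_bound` :
`∫ exp (√N ⟪W, y⟫) dσ ≤ e √(2π) √N exp (3b/2) exp (N (b - 1 - log b)/2 + ‖W‖²/(2b))`.
-/

set_option autoImplicit false

noncomputable section

open MeasureTheory Set Metric
open Crest.ProbabilityR.Perceptron
open scoped ENNReal

namespace Crest.Agent.R146.Sph214

/-- completing the square -/
theorem gauss_shift {N : ℕ} {b : ℝ} (hb : 0 < b) (W : Eu N) :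
    ∫ x : Eu N, Real.exp (inner ℝ W x - b / 2 * ‖x‖ ^ 2) =
      Real.exp (‖W‖ ^ 2 / (2 * b)) * ∫ x : Eu N, Real.exp (-(b / 2) * ‖x‖ ^ 2) := by
  rw [← integral_sub_right_eq_self (fun x : Eu N => Real.exp (-(b / 2) * ‖x‖ ^ 2)) (b⁻¹ • W),
    ← integral_const_mul]
  refine integral_congr_ae (Filter.Eventually.of_forall fun x => ?_)
  simp only
  rw [← Real.exp_add]
  congr 1
  rw [@norm_sub_sq_real, norm_smul, inner_smul_right, Real.norm_eq_abs, abs_of_pos (inv_pos.2 hb),
    real_inner_comm]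
  field_simp
  ring

theorem gauss_integrable {N : ℕ} {b : ℝ} (hb : 0 < b) :
    Integrable (fun x : Eu N => Real.exp (-(b / 2) * ‖x‖ ^ 2)) := by
  have h := GaussianFourier.integrable_cexp_neg_mul_sq_norm_add (V := Eu N)
    (b := ((b / 2 : ℝ) : ℂ)) (by simpa using hb) 0 (0 : Eu N)
  refine (h.re).congr (Filter.Eventually.of_forall fun x => ?_)
  have h2 : Complex.exp (-((b / 2 : ℝ) : ℂ) * (‖x‖ : ℂ) ^ 2 + 0 * ((inner ℝ 0 x : ℝ) : ℂ)) =
      ((Real.exp (-(b / 2) * ‖x‖ ^ 2) : ℝ) : ℂ) := by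
    rw [Complex.ofReal_exp]
    congr 1
    push_cast
    ring
  simp only [h2]
  exact Complex.ofReal_re _

theorem gauss_shift_integrable {N : ℕ} {b : ℝ} (hb : 0 < b) (W : Eu N) :
    Integrable (fun x : Eu N => Real.exp (inner ℝ W x - b / 2 * ‖x‖ ^ 2)) := by
  have h := ((gauss_integrable (N := N) hb).comp_sub_right (b⁻¹ • W)).const_mul
    (Real.exp (‖W‖ ^ 2 / (2 * b)))
  refine h.congr (Filter.Eventually.of_forall fun x => ?_)
  simp only
  rw [← Real.exp_add]
  congr 1
  rw [@norm_sub_sq_real, norm_smul, inner_smul_right, Real.norm_eq_abs, abs_of_pos (inv_pos.2 hb),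
    real_inner_comm]
  field_simp
  ring

/-- Laplace transform of the uniform law as a function of the radius. -/
def lap {N : ℕ} (W : Eu N) (r : ℝ) : ℝ :=
  ∫ y : UnitSphere N, Real.exp (r * inner ℝ W (y : Eu N)) ∂(sig N)

theorem lap_pos {N : ℕ} [NeZero N] (W : Eu N) (r : ℝ) : 0 < lap W r := by
  unfold lap
  exact integral_exp_pos (continuous_integrable_sig (by fun_prop))

theorem polar_gauss {N : ℕ} [NeZero N] {b : ℝ} (hb : 0 < b) (W : Eu N) :
    ∫ x : Eu N, Real.exp (inner ℝ W x - b / 2 * ‖x‖ ^ 2) =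
      (sphereLaw N).real univ *
        ∫ r in Ioi (0 : ℝ), r ^ (N - 1) * Real.exp (-(b / 2) * r ^ 2) * lap W r := by
  have h := R070.Polar664.integral_polar (E := Eu N) volume (gauss_shift_integrable hb W)
  rw [h, ← integral_const_mul]
  refine setIntegral_congr_fun measurableSet_Ioi fun r hr => ?_
  have hr' : (0 : ℝ) < r := hr
  have hdim : Module.finrank ℝ (Eu N) = N := by simp
  have h2 : ∫ w : UnitSphere N, Real.exp (inner ℝ W (r • (w : Eu N)) - b / 2 * ‖r • (w : Eu N)‖ ^ 2)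
      ∂(sphereLaw N) = (sphereLaw N).real univ * (Real.exp (-(b / 2) * r ^ 2) * lap W r) := by
    rw [lap, integral_sig, smul_eq_mul, ← mul_assoc, ← mul_assoc,
      mul_comm ((sphereLaw N).real univ), mul_assoc (Real.exp _),
      mul_inv_cancel₀ (sphereLaw_real_pos N).ne', mul_one, ← integral_const_mul]
    refine integral_congr_ae (Filter.Eventually.of_forall fun w => ?_)
    simp only
    rw [← Real.exp_add, inner_smul_right, norm_smul, Real.norm_eq_abs, abs_of_pos hr',
      norm_eq_of_mem_sphere]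
    congr 1
    ring
  have h3 : ∫ w : UnitSphere N, Real.exp (inner ℝ W (r • (w : Eu N)) - b / 2 * ‖r • (w : Eu N)‖ ^ 2)
      ∂(volume : Measure (Eu N)).toSphere =
      (sphereLaw N).real univ * (Real.exp (-(b / 2) * r ^ 2) * lap W r) := h2
  simp only [smul_eq_mul, hdim]
  rw [h3]
  ring

theorem rad_pointwise {N : ℕ} (hN : 0 < N) {b : ℝ} (hb : 0 < b) {r : ℝ} (hr : 0 ≤ r) :
    r ^ (N - 1) * Real.exp (-(b / 2) * r ^ 2) ≤
      Real.exp (1 - (N : ℝ) / 2) * (Real.sqrt N / Real.sqrt b) ^ (N - 1) *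
        Real.exp (-(b / 2) * (r - Real.sqrt N / Real.sqrt b) ^ 2) := by
  set c : ℝ := Real.sqrt N / Real.sqrt b with hc
  have hN' : (0 : ℝ) < N := by exact_mod_cast hN
  have hcpos : 0 < c := div_pos (Real.sqrt_pos.2 hN') (Real.sqrt_pos.2 hb)
  have hbc : b * c ^ 2 = N := by
    rw [hc, div_pow, Real.sq_sqrt hN'.le, Real.sq_sqrt hb.le]
    field_simp
  set x : ℝ := r / c with hx
  have hx0 : 0 ≤ x := div_nonneg hr hcpos.le
  have hrx : r = c * x := by rw [hx]; field_simp
  have h1 : r ^ (N - 1) ≤ c ^ (N - 1) * Real.exp (((N : ℝ) - 1) * (x - 1)) := by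
    rw [hrx, mul_pow]
    refine mul_le_mul_of_nonneg_left ?_ (pow_nonneg hcpos.le _)
    have h2 : x ≤ Real.exp (x - 1) := by
      have := Real.add_one_le_exp (x - 1)
      linarith
    calc x ^ (N - 1) ≤ (Real.exp (x - 1)) ^ (N - 1) := pow_le_pow_left₀ hx0 h2 _
      _ = Real.exp (((N : ℝ) - 1) * (x - 1)) := by
        rw [← Real.exp_nat_mul]
        congr 2
        rw [Nat.cast_sub hN]
        simp
  calc r ^ (N - 1) * Real.exp (-(b / 2) * r ^ 2)
      ≤ c ^ (N - 1) * Real.exp (((N : ℝ) - 1) * (x - 1)) * Real.exp (-(b / 2) * r ^ 2) :=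
        mul_le_mul_of_nonneg_right h1 (Real.exp_pos _).le
    _ = c ^ (N - 1) * Real.exp (((N : ℝ) - 1) * (x - 1) - (b / 2) * r ^ 2) := by
        rw [mul_assoc, ← Real.exp_add]
        congr 2
        ring
    _ ≤ c ^ (N - 1) * Real.exp (1 - (N : ℝ) / 2 - (b / 2) * (r - c) ^ 2) := by
        refine mul_le_mul_of_nonneg_left (Real.exp_le_exp.2 ?_) (pow_nonneg hcpos.le _)
        have h3 : (b / 2) * r ^ 2 - (b / 2) * (r - c) ^ 2 = N * x - N / 2 := by
          rw [hrx, ← hbc]
          ring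
        nlinarith
    _ = Real.exp (1 - (N : ℝ) / 2) * c ^ (N - 1) * Real.exp (-(b / 2) * (r - c) ^ 2) := by
        rw [show 1 - (N : ℝ) / 2 - (b / 2) * (r - c) ^ 2 =
          (1 - (N : ℝ) / 2) + (-(b / 2) * (r - c) ^ 2) by ring, Real.exp_add]
        ring

theorem rad_integral_le {N : ℕ} (hN : 0 < N) {b : ℝ} (hb : 0 < b) :
    ∫ r in Ioi (0 : ℝ), r ^ (N - 1) * Real.exp (-(b / 2) * r ^ 2) ≤
      Real.exp (1 - (N : ℝ) / 2) * (Real.sqrt N / Real.sqrt b) ^ (N - 1) *
        Real.sqrt (2 * Real.pi / b) := by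
  set c : ℝ := Real.sqrt N / Real.sqrt b with hc
  have hint : Integrable fun r : ℝ => Real.exp (1 - (N : ℝ) / 2) * c ^ (N - 1) *
      Real.exp (-(b / 2) * (r - c) ^ 2) := by
    refine Integrable.const_mul ?_ _
    exact (integrable_exp_neg_mul_sq (half_pos hb)).comp_sub_right c
  have hval : ∫ r : ℝ, Real.exp (-(b / 2) * (r - c) ^ 2) = Real.sqrt (2 * Real.pi / b) := by
    rw [integral_sub_right_eq_self (fun r : ℝ => Real.exp (-(b / 2) * r ^ 2)) c, integral_gaussian]
    congr 1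
    field_simp
  have hc0 : 0 ≤ c := by positivity
  calc ∫ r in Ioi (0 : ℝ), r ^ (N - 1) * Real.exp (-(b / 2) * r ^ 2)
      ≤ ∫ r in Ioi (0 : ℝ), Real.exp (1 - (N : ℝ) / 2) * c ^ (N - 1) *
          Real.exp (-(b / 2) * (r - c) ^ 2) := by
        refine setIntegral_mono_on₀ ?_ hint.integrableOn nullMeasurableSet_Ioi fun r hr => ?_
        · refine Integrable.mono' hint.integrableOn
            (by fun_prop : Measurable _).aestronglyMeasurable ?_
          filter_upwards [ae_restrict_mem measurableSet_Ioi] with r hr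
          have hr' : (0 : ℝ) < r := hr
          rw [Real.norm_eq_abs, abs_of_nonneg (by positivity)]
          exact rad_pointwise hN hb hr'.le
        · exact rad_pointwise hN hb (le_of_lt hr)
    _ ≤ ∫ r : ℝ, Real.exp (1 - (N : ℝ) / 2) * c ^ (N - 1) *
          Real.exp (-(b / 2) * (r - c) ^ 2) :=
        setIntegral_le_integral hint (Filter.Eventually.of_forall fun r => by positivity)
    _ = _ := by rw [integral_const_mul, hval]

/-- polar coordinates for the Gaussian integral, divided by the total mass -/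
theorem rad_lap {N : ℕ} [NeZero N] {b : ℝ} (hb : 0 < b) (W : Eu N) :
    ∫ r in Ioi (0 : ℝ), r ^ (N - 1) * Real.exp (-(b / 2) * r ^ 2) * lap W r =
      Real.exp (‖W‖ ^ 2 / (2 * b)) *
        ∫ r in Ioi (0 : ℝ), r ^ (N - 1) * Real.exp (-(b / 2) * r ^ 2) := by
  have h1 := polar_gauss hb W
  have h2 := polar_gauss hb (0 : Eu N)
  have h3 := gauss_shift hb W
  have h4 := gauss_shift hb (0 : Eu N)
  have hl : ∀ r, lap (0 : Eu N) r = 1 := fun r => by simp [lap]
  simp only [hl, mul_one] at h2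
  rw [h2] at h4
  simp only [norm_zero, ne_eq, OfNat.ofNat_ne_zero, not_false_eq_true, zero_pow, zero_div,
    Real.exp_zero, one_mul] at h4
  rw [h1, ← h4] at h3
  have hS := (sphereLaw_real_pos N).ne'
  have h5 : (sphereLaw N).real univ *
      ∫ r in Ioi (0 : ℝ), r ^ (N - 1) * Real.exp (-(b / 2) * r ^ 2) * lap W r =
      (sphereLaw N).real univ * (Real.exp (‖W‖ ^ 2 / (2 * b)) *
        ∫ r in Ioi (0 : ℝ), r ^ (N - 1) * Real.exp (-(b / 2) * r ^ 2)) := by
    rw [h3]; ring
  exact mul_left_cancel₀ hS h5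

theorem continuous_lap {N : ℕ} (W : Eu N) : Continuous (lap W) := by
  have h : Continuous (Function.uncurry fun (r : ℝ) (y : UnitSphere N) =>
      Real.exp (r * inner ℝ W (y : Eu N))) := by
    refine Real.continuous_exp.comp ?_
    exact continuous_fst.mul (continuous_const.inner (continuous_subtype_val.comp continuous_snd))
  have h2 := continuous_parametric_integral_of_continuous (μ := sig N) h
    (isCompact_univ (X := UnitSphere N))
  have h3 : lap W = fun r : ℝ => ∫ y : UnitSphere N, Real.exp (r * inner ℝ W (y : Eu N)) ∂(sig N) :=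
    rfl
  rw [h3]
  simpa using h2

theorem lap_le {N : ℕ} [NeZero N] (W : Eu N) {r : ℝ} (hr : 0 ≤ r) : lap W r ≤ Real.exp (r * ‖W‖) := by
  unfold lap
  have h : ∫ y : UnitSphere N, Real.exp (r * inner ℝ W (y : Eu N)) ∂(sig N) ≤
      ∫ _y : UnitSphere N, Real.exp (r * ‖W‖) ∂(sig N) := by
    refine integral_mono (continuous_integrable_sig (by fun_prop)) (integrable_const _) fun y => ?_
    refine Real.exp_le_exp.2 (mul_le_mul_of_nonneg_left ?_ hr)
    have := real_inner_le_norm W (y : Eu N)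
    rwa [norm_eq_of_mem_sphere, mul_one] at this
  simpa using h

theorem lap_mono {N : ℕ} (W : Eu N) {r s : ℝ} (hr : 0 ≤ r) (hrs : r ≤ s) : lap W r ≤ lap W s :=
  integral_exp_mono W hr hrs

theorem rad_lap_integrable {N : ℕ} [NeZero N] {b : ℝ} (hb : 0 < b) (W : Eu N) :
    IntegrableOn (fun r : ℝ => r ^ (N - 1) * Real.exp (-(b / 2) * r ^ 2) * lap W r)
      (Ioi (0 : ℝ)) := by
  by_contra hcon
  have h1 := rad_lap hb W
  rw [integral_undef hcon] at h1
  have h2 : 0 < ∫ r in Ioi (0 : ℝ), r ^ (N - 1) * Real.exp (-(b / 2) * r ^ 2) := by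
    have h3 := polar_gauss hb (0 : Eu N)
    have hl : ∀ r, lap (0 : Eu N) r = 1 := fun r => by simp [lap]
    simp only [hl, mul_one] at h3
    have h4 : 0 < ∫ x : Eu N, Real.exp (inner ℝ (0 : Eu N) x - b / 2 * ‖x‖ ^ 2) :=
      integral_exp_pos (gauss_shift_integrable hb 0)
    rw [h3] at h4
    exact (pos_iff_pos_of_mul_pos h4).1 (sphereLaw_real_pos N)
  have h5 := mul_pos (Real.exp_pos (‖W‖ ^ 2 / (2 * b))) h2
  linarith

/-- **The exponential bound on the sphere.** -/
theorem sphere_exp_bound {N : ℕ} [NeZero N] {b : ℝ} (hb : 0 < b) (W : Eu N) :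
    ∫ y : UnitSphere N, Real.exp (Real.sqrt N * inner ℝ W (y : Eu N)) ∂(sig N) ≤
      (Real.exp 1 * Real.sqrt (2 * Real.pi)) * Real.sqrt N * Real.exp (3 * b / 2) *
        Real.exp (N * (b - 1 - Real.log b) / 2 + ‖W‖ ^ 2 / (2 * b)) := by
  have hN : 0 < N := Nat.pos_of_ne_zero (NeZero.ne N)
  have hN' : (0 : ℝ) < N := by exact_mod_cast hN
  have hN1 : (1 : ℝ) ≤ N := by exact_mod_cast hN
  set s : ℝ := Real.sqrt N with hs
  have hs0 : 0 < s := Real.sqrt_pos.2 hN'
  have hss : s ^ 2 = N := Real.sq_sqrt hN'.le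
  set A : ℝ := lap W s with hA
  have hA0 : 0 < A := lap_pos W s
  -- lower bound of the radial integral by the window
  have hwin : A * (s ^ (N - 1) * Real.exp (-(b / 2) * (N + 3)) * s⁻¹) ≤
      ∫ r in Ioi (0 : ℝ), r ^ (N - 1) * Real.exp (-(b / 2) * r ^ 2) * lap W r := by
    have hsub : Icc s (s + s⁻¹) ⊆ Ioi (0 : ℝ) := fun r hr => lt_of_lt_of_le hs0 hr.1
    have hvol : (volume : Measure ℝ).real (Icc s (s + s⁻¹)) = s⁻¹ := by
      rw [Measure.real, Real.volume_Icc, add_sub_cancel_left, ENNReal.toReal_ofReal (by positivity)]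
    calc A * (s ^ (N - 1) * Real.exp (-(b / 2) * (N + 3)) * s⁻¹)
        = ∫ _r in Icc s (s + s⁻¹), A * (s ^ (N - 1) * Real.exp (-(b / 2) * (N + 3))) := by
          rw [setIntegral_const, hvol, smul_eq_mul]
          ring
      _ ≤ ∫ r in Icc s (s + s⁻¹), r ^ (N - 1) * Real.exp (-(b / 2) * r ^ 2) * lap W r := by
          refine setIntegral_mono_on ?_ ((rad_lap_integrable hb W).mono_set hsub)
            measurableSet_Icc fun r hr => ?_
          · exact integrableOn_const (by simp)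
          · have hr0 : 0 < r := lt_of_lt_of_le hs0 hr.1
            have h1 : s ^ (N - 1) ≤ r ^ (N - 1) := pow_le_pow_left₀ hs0.le hr.1 _
            have h2 : Real.exp (-(b / 2) * (N + 3)) ≤ Real.exp (-(b / 2) * r ^ 2) := by
              refine Real.exp_le_exp.2 ?_
              have h3 : r ^ 2 ≤ N + 3 := by
                calc r ^ 2 ≤ (s + s⁻¹) ^ 2 := pow_le_pow_left₀ hr0.le hr.2 2
                  _ = s ^ 2 + 2 + (s⁻¹) ^ 2 := by field_simp; ring
                  _ ≤ N + 3 := by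
                    rw [hss]
                    have : (s⁻¹) ^ 2 ≤ 1 := by
                      rw [inv_pow, hss]
                      exact inv_le_one_of_one_le₀ hN1
                    linarith
              nlinarith
            have h4 : A ≤ lap W r := lap_mono W hs0.le hr.1
            calc A * (s ^ (N - 1) * Real.exp (-(b / 2) * (N + 3)))
                ≤ lap W r * (r ^ (N - 1) * Real.exp (-(b / 2) * r ^ 2)) := by
                  refine mul_le_mul h4 (mul_le_mul h1 h2 (Real.exp_pos _).le (by positivity))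
                    (by positivity) (lap_pos W r).le
              _ = _ := by ring
      _ ≤ _ := by
          refine setIntegral_mono_set (rad_lap_integrable hb W) ?_ hsub.eventuallyLE
          filter_upwards [ae_restrict_mem measurableSet_Ioi] with r hr
          have hr' : (0 : ℝ) < r := hr
          exact mul_nonneg (by positivity) (lap_pos W r).le
  rw [rad_lap hb W] at hwin
  have hJ := rad_integral_le hN hb
  have h6 : A * (s ^ (N - 1) * Real.exp (-(b / 2) * (N + 3)) * s⁻¹) ≤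
      Real.exp (‖W‖ ^ 2 / (2 * b)) * (Real.exp (1 - (N : ℝ) / 2) * (s / Real.sqrt b) ^ (N - 1) *
        Real.sqrt (2 * Real.pi / b)) :=
    hwin.trans (mul_le_mul_of_nonneg_left hJ (Real.exp_pos _).le)
  -- rewrite
  have hsb : 0 < Real.sqrt b := Real.sqrt_pos.2 hb
  have h7 : (s / Real.sqrt b) ^ (N - 1) * Real.sqrt (2 * Real.pi / b) =
      s ^ (N - 1) * (Real.sqrt (2 * Real.pi) * Real.exp (-(N * Real.log b / 2))) := by
    rw [div_pow, Real.sqrt_div (by positivity)]
    have h8 : Real.exp (-(N * Real.log b / 2)) = ((Real.sqrt b) ^ N)⁻¹ := by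
      rw [Real.exp_neg]
      congr 1
      rw [show (N : ℝ) * Real.log b / 2 = N * (Real.log b / 2) by ring, Real.exp_nat_mul,
        ← Real.log_sqrt hb.le, Real.exp_log hsb]
    rw [h8]
    have h9 : (Real.sqrt b) ^ N = (Real.sqrt b) ^ (N - 1) * Real.sqrt b := by
      rw [← pow_succ, Nat.sub_add_cancel hN]
    rw [h9]
    field_simp
  have h10 : A * (Real.exp (-(b / 2) * (N + 3)) * s⁻¹) ≤
      Real.exp (‖W‖ ^ 2 / (2 * b)) * (Real.exp (1 - (N : ℝ) / 2) *
        (Real.sqrt (2 * Real.pi) * Real.exp (-(N * Real.log b / 2)))) := by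
    have hsp : 0 < s ^ (N - 1) := pow_pos hs0 _
    refine le_of_mul_le_mul_left ?_ hsp
    calc s ^ (N - 1) * (A * (Real.exp (-(b / 2) * (N + 3)) * s⁻¹))
        = A * (s ^ (N - 1) * Real.exp (-(b / 2) * (N + 3)) * s⁻¹) := by ring
      _ ≤ _ := h6
      _ = Real.exp (‖W‖ ^ 2 / (2 * b)) * (Real.exp (1 - (N : ℝ) / 2) *
          ((s / Real.sqrt b) ^ (N - 1) * Real.sqrt (2 * Real.pi / b))) := by ring
      _ = _ := by rw [h7]; ring
  have h11 : A ≤ s * Real.exp ((b / 2) * (N + 3)) *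
      (Real.exp (‖W‖ ^ 2 / (2 * b)) * (Real.exp (1 - (N : ℝ) / 2) *
        (Real.sqrt (2 * Real.pi) * Real.exp (-(N * Real.log b / 2))))) := by
    have h12 : A = s * Real.exp ((b / 2) * (N + 3)) *
        (A * (Real.exp (-(b / 2) * (N + 3)) * s⁻¹)) := by
      rw [neg_mul, Real.exp_neg]
      field_simp
    calc A = _ := h12
      _ ≤ _ := mul_le_mul_of_nonneg_left h10 (by positivity)
  refine h11.trans (le_of_eq ?_)
  have h13 : Real.exp 1 * Real.exp (3 * b / 2) *
      Real.exp (N * (b - 1 - Real.log b) / 2 + ‖W‖ ^ 2 / (2 * b)) =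
      Real.exp ((b / 2) * (N + 3)) * (Real.exp (‖W‖ ^ 2 / (2 * b)) *
        (Real.exp (1 - (N : ℝ) / 2) * Real.exp (-(N * Real.log b / 2)))) := by
    simp only [← Real.exp_add]
    congr 1
    ring
  calc s * Real.exp ((b / 2) * (N + 3)) *
      (Real.exp (‖W‖ ^ 2 / (2 * b)) * (Real.exp (1 - (N : ℝ) / 2) *
        (Real.sqrt (2 * Real.pi) * Real.exp (-(N * Real.log b / 2)))))
      = s * Real.sqrt (2 * Real.pi) * (Real.exp ((b / 2) * (N + 3)) *
        (Real.exp (‖W‖ ^ 2 / (2 * b)) *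
        (Real.exp (1 - (N : ℝ) / 2) * Real.exp (-(N * Real.log b / 2))))) := by ring
    _ = _ := by rw [← h13]; ring

end Crest.Agent.R146.Sph214
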