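import Crest.Agent.R146.U0asm_762
import Crest.Agent.R146.S6U1_993
import Crest.Agent.R146.Sph2_214

/-!
Row 146, statement S0206, node (U0): final file (helper762).

* `polar : Polar` from `sphere_exp_bound` (helper214);
* `coin_rec : Rec` from `cells` (helper993);
* `result : S6U_988.U0`.
-/

set_option autoImplicit false

namespace Crest.Agent.R146.U0_762

open Finset MeasureTheory
open Crest.Agent.R141 (IsProb IsExpo Filt eE cE tl A S Coin RMeas pm A_step A_step_lt A_of_ge
  eE_le_of_le cE_pos)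
open Crest.Agent.R146.S6Def_988 Crest.Agent.R146.OvcA_679 Crest.Agent.R146.U0asm_762
open Crest.ProbabilityR.Perceptron

noncomputable section

/-! ### the polar bound -/

theorem polar : Polar := by
  intro B
  refine ⟨Real.exp 1 * Real.sqrt (2 * Real.pi) + 1 + 3 * |B| / 2, fun N hN b hb hbB W => ?_⟩
  have : NeZero N := ⟨hN.ne'⟩
  have hb0 : 0 < b := by linarith
  have h := Sph214.sphere_exp_bound (N := N) hb0 (WithLp.toLp 2 W)
  have e1 : ∀ y : UnitSphere N, Real.sqrt N * inner ℝ (WithLp.toLp 2 W)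
      (y : EuclideanSpace ℝ (Fin N)) =
      ∑ i, W i * (Real.sqrt N * (y : EuclideanSpace ℝ (Fin N)) i) := by
    intro y
    rw [EuclideanSpace.inner_eq_star_dotProduct]
    simp only [dotProduct, Finset.mul_sum]
    apply Finset.sum_congr rfl
    intro i _
    simp
    ring
  have e2 : ‖WithLp.toLp 2 W‖ ^ 2 = ∑ i, W i ^ 2 := by
    rw [EuclideanSpace.norm_sq_eq]
    simp
  simp only [e1, e2] at h
  refine h.trans ?_
  have hN1 : (1 : ℝ) ≤ N := by exact_mod_cast hN
  have hs1 : 1 ≤ Real.sqrt N := by rw [Real.one_le_sqrt]; exact hN1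
  have hs0 : 0 < Real.sqrt N := by linarith
  set c1 : ℝ := Real.exp 1 * Real.sqrt (2 * Real.pi) with hc1
  have hc1p : 0 < c1 := by positivity
  have k1 : c1 ≤ Real.exp c1 := by have := Real.add_one_le_exp c1; linarith
  have k2 : Real.sqrt N ≤ Real.exp (Real.sqrt N) := by
    have := Real.add_one_le_exp (Real.sqrt N); linarith
  have k3 : c1 * Real.sqrt N * Real.exp (3 * b / 2) ≤
      Real.exp (c1 + Real.sqrt N + 3 * b / 2) := by
    rw [Real.exp_add, Real.exp_add]
    apply mul_le_mul_of_nonneg_right _ (Real.exp_pos _).le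
    exact mul_le_mul k1 k2 hs0.le (Real.exp_pos _).le
  calc c1 * Real.sqrt N * Real.exp (3 * b / 2) *
        Real.exp (N * (b - 1 - Real.log b) / 2 + (∑ i, W i ^ 2) / (2 * b))
      ≤ Real.exp (c1 + Real.sqrt N + 3 * b / 2) *
        Real.exp (N * (b - 1 - Real.log b) / 2 + (∑ i, W i ^ 2) / (2 * b)) :=
        mul_le_mul_of_nonneg_right k3 (Real.exp_pos _).le
    _ = Real.exp (c1 + Real.sqrt N + 3 * b / 2 +
        (N * (b - 1 - Real.log b) / 2 + (∑ i, W i ^ 2) / (2 * b))) := by rw [← Real.exp_add]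
    _ ≤ _ := by
        apply Real.exp_le_exp.mpr
        have hB : b ≤ |B| := hbB.trans (le_abs_self B)
        have k4 : c1 ≤ c1 * Real.sqrt N := by nlinarith
        have k5 : 3 * b / 2 ≤ 3 * |B| / 2 * Real.sqrt N := by
          have : 3 * |B| / 2 ≤ 3 * |B| / 2 * Real.sqrt N :=
            le_mul_of_one_le_right (by positivity) hs1
          linarith
        linarith

/-! ### the last step of the hierarchy -/

variable {N : ℕ} (C : Cfg N) (nc n : ℕ)

theorem fil_last (ω ω' : Om C nc n) : (fil C nc n).F (nc * n) ω ω' ↔ ω.2 = ω'.2 := by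
  show frel C nc n (nc * n) ω ω' ↔ _
  constructor
  · intro h
    funext g t
    refine h.1 g t ?_
    have h1 : (g : ℕ) * n + t < ((g : ℕ) + 1) * n := by
      have := t.2
      rw [add_mul, one_mul]; omega
    have h2 : ((g : ℕ) + 1) * n ≤ nc * n := Nat.mul_le_mul_right n g.2
    omega
  · intro h
    refine ⟨fun g t _ => by rw [h], fun hL => ?_⟩
    unfold Lv at hL
    omega

/-- conditional expectation before the last step: average over the configuration. -/
theorem cE_last (F : Om C nc n → ℝ) (ω : Om C nc n) :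
    cE (prior C nc n) ((fil C nc n).F (nc * n)) F ω = ∑ y, C.q y * F (y, ω.2) := by
  classical
  have hK : (0 : ℝ) < (Fintype.card (Coins nc n N) : ℝ)⁻¹ :=
    inv_pos.mpr (by exact_mod_cast Fintype.card_pos)
  have key : ∀ F : Om C nc n → ℝ,
      (∑ ω' ∈ univ.filter (fun ω' => (fil C nc n).F (nc * n) ω ω'), prior C nc n ω' * F ω') =
      (Fintype.card (Coins nc n N) : ℝ)⁻¹ * ∑ y, C.q y * F (y, ω.2) := by
    intro F
    rw [Finset.sum_filter, Fintype.sum_prod_type, Finset.mul_sum]
    refine Finset.sum_congr rfl fun y _ => ?_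
    simp only [fil_last]
    rw [Finset.sum_ite_eq]
    simp only [mem_univ, if_true]
    unfold prior
    ring
  unfold cE
  have h1 := key F
  have h2 := key (fun _ => 1)
  simp only [mul_one, C.hq.sum] at h2
  have e : ∀ (p : DecidablePred fun ω' => (fil C nc n).F (nc * n) ω ω'),
      (@Finset.filter _ (fun ω' => (fil C nc n).F (nc * n) ω ω') p univ) =
      univ.filter (fun ω' => (fil C nc n).F (nc * n) ω ω') := by
    intro p; congr
  rw [e, h1, h2]
  field_simp

/-- the hierarchical free energy before the last step. -/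
theorem A_last (hn : 0 < n) (U : Om C nc n → ℝ) (ω : Om C nc n) :
    A (prior C nc n) (fil C nc n) (xs nc n) U (nc * n) ω =
      Real.log (∑ y, C.q y * Real.exp (U (y, ω.2))) := by
  have hL : (fil C nc n).L = nc * n + 1 := rfl
  rw [A_step_lt U (by rw [hL]; omega), A_of_ge U (by rw [hL]),
    xs_last nc n hn (show Lv nc n ≤ nc * n + 1 by unfold Lv; omega)]
  unfold pm
  rw [cE_last]
  simp

/-- field energy in terms of the total field -/
theorem fieldE_eq (s : Fin nc → ℝ) (ω : Om C nc n) :
    fieldE s ω = ∑ i, (∑ g, s g * zf ω.2 g i) * C.x ω.1 i := by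
  unfold fieldE
  simp only [Finset.mul_sum, Finset.sum_mul]
  rw [Finset.sum_comm]
  exact Finset.sum_congr rfl fun i _ => Finset.sum_congr rfl fun g _ => by ring

theorem abs_zf_le (hn : 0 < n) (c : Coins nc n N) (g : Fin nc) (i : Fin N) :
    |zf c g i| ≤ Real.sqrt n := by
  unfold zf
  have hn' : (0 : ℝ) < n := by exact_mod_cast hn
  rw [abs_mul, abs_of_pos (inv_pos.mpr (Real.sqrt_pos.mpr hn'))]
  have h1 : |∑ t : Fin n, sv (c g t i)| ≤ n := by
    refine (Finset.abs_sum_le_sum_abs _ _).trans ?_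
    simp only [abs_sv]
    simp
  rw [inv_mul_le_iff₀ (Real.sqrt_pos.mpr hn'), Real.mul_self_sqrt hn'.le]
  exact h1

/-! ### the coin recursion -/

theorem coin_rec : Rec := by
  intro nc N n hN hn C f s hs b hb0 hbs c0 hW G
  have hbpos : ∀ g, g ≤ nc → 0 < b g := by
    intro g
    induction g with
    | zero => intro _; exact hb0
    | succ g ih =>
      intro hg
      have h1 := hbs ⟨g, by omega⟩
      have h2 := ih (by omega)
      have h3 : 0 ≤ ((((⟨g, by omega⟩ : Fin nc) : ℕ) : ℝ) + 1) / ((nc : ℝ) + 1) *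
          s ⟨g, by omega⟩ ^ 2 := by positivity
      have h4 : b g = b (g + 1) - ((((⟨g, by omega⟩ : Fin nc) : ℕ) : ℝ) + 1) / ((nc : ℝ) + 1) *
          s ⟨g, by omega⟩ ^ 2 := h1
      linarith
  unfold Phi
  refine eE_le_of_le (prior_isProb C nc n) fun ω => ?_
  have h := S6U1_993.cells C nc n hn s (UU f G s) b (E0 := c0) (fun g hg => hbpos g hg.le) hbs
    ?_ ω
  · refine h.trans (le_of_eq ?_)
    congr 2
    rw [← Fin.sum_univ_eq_sum_range (fun g => ((nc : ℝ) + 1) / ((g : ℝ) + 1) *
      (Real.log (b (g + 1)) - Real.log (b g)))]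
    refine Finset.sum_congr rfl fun g _ => ?_
    rw [Real.log_div (hbpos _ g.2).ne' (hbpos _ g.2.le).ne']
  · intro ω
    rw [A_last C nc n hn]
    have e : ∀ y, UU f G s (y, ω.2) = ∑ i, (∑ g, s g * zf ω.2 g i) * C.x y i := by
      intro y
      unfold UU rowE
      rw [fieldE_eq]
      simp
    simp only [e]
    refine (hW (fun i => ∑ g, s g * zf ω.2 g i) fun i => ?_).trans (le_of_eq ?_)
    · refine (Finset.abs_sum_le_sum_abs _ _).trans ?_
      rw [Finset.mul_sum]
      refine Finset.sum_le_sum fun g _ => ?_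
      rw [abs_mul, abs_of_nonneg (hs g), mul_comm]
      exact mul_le_mul_of_nonneg_right (abs_zf_le nc n hn _ _ _) (hs g)
    · rw [Finset.sum_div]

/-- **(U0)** -/
theorem result : S6U_988.U0 := U0_of polar coin_rec

end

end Crest.Agent.R146.U0_762
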