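import Crest.Agent.R146.Wrap_947
import Crest.Agent.R146.S6Lit_663
import Crest.Agent.R146.Disc_857
import Crest.Agent.R146.PLim_857
import Crest.Agent.R146.MonB_911
import Crest.Agent.R146.MonF_422
import Crest.Agent.R146.U0_762
import Crest.Agent.R146.S6U1_993
import Crest.Agent.R146.DerJen_52
import Crest.Agent.R146.S6Ibp_559
import Crest.Agent.R146.HConc_52
import Crest.Agent.R146.S6StrF_649
import Crest.Agent.R146.S6Cavity_769
import Crest.Agent.R146.S6UB_167
import Crest.Agent.R146.CtlG_130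

/-!
# R146 (helper47): interface check of the S0206 nodes, and S0206 from the open ones
-/

set_option autoImplicit false

open MeasureTheory ProbabilityTheory Filter Topology
open Crest.ProbabilityR.Perceptron
open Crest.Agent.R146.S6Def_988 Crest.Agent.R146.S6U_988

namespace Crest.Agent.R146.ChkS6_47

theorem c_LIT : LIT := S6Lit_663.LIT_holds
theorem c_CONC : CONC := S6Lit_663.CONC_holds
theorem c_CHG : CHG := S6Lit_663.CHG_holds
theorem c_PM : PM := S6Lit_663.PM_holds
theorem c_SMOOTH : SMOOTH := S6Lit_663.SMOOTH_holds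
theorem c_DISC : DISC := Disc857.disc
theorem c_PLIM : PLIM := PLim857.plim
theorem c_ENT : ENT := MonB_911.ent
theorem c_APX : APX := MonB_911.apx
theorem c_MONO : MONO := MonF_422.mono
theorem c_LIP : LIP := MonF_422.lip
theorem c_MONOd : MONOd := MonB_911.monod c_MONO c_LIP
theorem c_U0 : U0 := U0_762.result
theorem c_U1 : U1 := S6U1_993.result
theorem c_JEN : JEN := DerJen_52.jen
theorem c_DER : DER := DerJen_52.der
theorem c_IBP : IBP := S6Ibp_559.ibp_node
theorem c_HCONC : HCONC := HConc_52.hconc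
theorem c_STR : STR := S6StrF_649.str
theorem c_CAV : CAV := S6Cavity_769.cav
theorem c_VID : VID := CtlG_130.vid
theorem c_VL : VL := CtlG_130.vl
theorem c_VC : VC := CtlG_130.vc
theorem c_UB : UB :=
  S6UB_167.UB_of c_U0 c_U1 c_JEN c_DER c_IBP c_HCONC c_STR c_CAV c_MONOd c_PLIM c_DISC

/-- S0206 (literal conclusion) from the nodes that are still open. -/
theorem s0206_open (hLB : LB)
    (Ω : Type) [MeasurableSpace Ω] (P : Measure Ω) [IsProbabilityMeasure P]
    (B : NNReal → Ω → ℝ) (hBm : ∀ t, Measurable (B t)) (hB : IsBrownianReal B P)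
    (α β : ℝ) (hα : 0 < α) (hβ : 0 < β)
    (φ : ℝ → ℝ) (hφc : Continuous φ) (hφb : ∃ K : ℝ, ∀ x, abs (φ x) ≤ K) :
    ∃ p : ℝ,
      ⨅ m : OverlapProfile, variationalFunctional P B hBm α β φ m = (p : EReal) ∧
      Filter.Tendsto (fun N : ℕ => expectedPressure N α β φ) Filter.atTop (nhds p) ∧
      ∀ ε : ℝ, 0 < ε →
        Filter.Tendsto (fun N : ℕ => pressureTailProb N α β φ p ε) Filter.atTop (nhds 0) :=
  Wrap_947.s0206_of c_LIT c_CHG c_SMOOTH c_VID c_VL c_VC c_ENT c_APX c_UB hLB
    Ω P B hBm hB α β hα hβ φ hφc hφb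

#print axioms s0206_open
#print axioms c_UB
#print axioms c_VID
#print axioms c_VL
#print axioms c_VC
#print axioms c_U0
#print axioms c_MONOd
#print axioms c_STR
#print axioms c_CAV
#print axioms c_IBP
#print axioms c_HCONC

end Crest.Agent.R146.ChkS6_47
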