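import Crest.Agent.R146.CtlF_130
import Crest.Agent.R146.S6U_988

/-!
Row 146, S0206 node (V), part G (helper130): the frozen nodes `VL`, `VC`, `VID` of `S6U_988`.
-/

set_option autoImplicit false

namespace Crest.Agent.R146.CtlG_130

open MeasureTheory ProbabilityTheory Filter Topology Set
open Crest.ProbabilityR.InvariantGlass
open Crest.ProbabilityR.Perceptron
open Crest.Agent.R146.CtlA_130 Crest.Agent.R146.CtlB_130 Crest.Agent.R146.CtlC_130
open Crest.Agent.R146.CtlE_130 Crest.Agent.R146.CtlF_130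
open Crest.Agent.R146.S6Def_988 (recV Lev tP mP Th BL)
open Crest.Agent.R146.S6U_988 (VL VC VID)
open scoped NNReal ENNReal

noncomputable section

variable {Ω : Type*} [mΩ : MeasurableSpace Ω]
variable {B : ℝ≥0 → Ω → ℝ} {hBm : ∀ t, Measurable (B t)}
variable {P : Measure Ω} [IsProbabilityMeasure P]

theorem prog_det {g : ℝ≥0 → ℝ} (hg : Measurable g) :
    IsProgressive (brownianFiltration B hBm) (fun r _ => g r) := by
  intro i
  exact (hg.comp measurable_subtype_coe).comp
    (@measurable_fst _ _ _ (brownianFiltration B hBm i))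

theorem value_mono (hBm : ∀ t, Measurable (B t)) {f : ℝ → ℝ} {K : ℝ} (hf : ∀ x, |f x| ≤ K)
    {m m' : OverlapProfile} (h : ∀ t ∈ Icc (0:ℝ) 1, m.toFun t ≤ m'.toFun t) :
    controlValue P B hBm f m ≤ controlValue P B hBm f m' := by
  refine value_le m fun v hv => ?_
  set v' : ℝ≥0 → Ω → ℝ := fun r ω => (m.toFun r / m'.toFun r) * v r ω with hv'
  have hprog : IsProgressive (brownianFiltration B hBm) v' := by
    refine IsProgressive.mul (prog_det ?_) hv.1
    exact (m.mono.measurable.comp measurable_coe_nnreal_real).div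
      (m'.mono.measurable.comp measurable_coe_nnreal_real)
  have hmv : ∀ r ∈ Icc (0:ℝ) 1, ∀ ω, m'.toFun r * v' r.toNNReal ω = m.toFun r * v r.toNNReal ω := by
    intro r hr ω
    rw [hv']
    simp only
    rw [Real.coe_toNNReal r hr.1]
    rcases eq_or_ne (m'.toFun r) 0 with h0 | h0
    · have h1 := h r hr
      have h2 := m.nonneg r hr
      have h3 : m.toFun r = 0 := by linarith
      rw [h0, h3]; ring
    · field_simp
  have hmv2 : ∀ r ∈ Icc (0:ℝ) 1, ∀ ω, m'.toFun r * v' r.toNNReal ω ^ 2 ≤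
      m.toFun r * v r.toNNReal ω ^ 2 := by
    intro r hr ω
    have h1 := h r hr
    have h2 := m.nonneg r hr
    rcases eq_or_ne (m'.toFun r) 0 with h0 | h0
    · have h3 : m.toFun r = 0 := by linarith
      rw [h0, h3]; simp
    · have h4 : 0 < m'.toFun r := lt_of_le_of_ne (h2.trans h1) (Ne.symm h0)
      rw [hv']
      simp only
      rw [Real.coe_toNNReal r hr.1]
      have e : m'.toFun r * (m.toFun r / m'.toFun r * v r.toNNReal ω) ^ 2 =
          (m.toFun r / m'.toFun r) * (m.toFun r * v r.toNNReal ω ^ 2) := by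
        field_simp
      rw [e]
      have h5 : m.toFun r / m'.toFun r ≤ 1 := (div_le_one h4).2 h1
      have h6 : 0 ≤ m.toFun r * v r.toNNReal ω ^ 2 := mul_nonneg h2 (sq_nonneg _)
      nlinarith
  have hcost : controlCost P m' v' ≤ controlCost P m v := by
    unfold controlCost
    refine lintegral_mono fun ω => ?_
    refine setLIntegral_mono' measurableSet_Icc fun r hr => ?_
    exact ENNReal.ofReal_le_ofReal (hmv2 r hr ω)
  have hadm : IsAdmissibleControl P B hBm m' v' := ⟨hprog, hcost.trans_lt hv.2⟩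
  refine le_trans ?_ (le_value m' hf hadm)
  unfold controlPayoff
  have e1 : ∀ ω, ∫ t in (0:ℝ)..1, m'.toFun t * v' t.toNNReal ω =
      ∫ t in (0:ℝ)..1, m.toFun t * v t.toNNReal ω := by
    intro ω
    refine intervalIntegral.integral_congr fun r hr => ?_
    rw [uIcc_of_le zero_le_one] at hr
    exact hmv r hr ω
  simp only [e1]
  have := ENNReal.toReal_mono hv.2.ne hcost
  linarith

theorem value_lip (hBm : ∀ t, Measurable (B t)) {f : ℝ → ℝ} {K L : ℝ} (hL : 0 ≤ L)
    (hf : ∀ x, |f x| ≤ K) (hfL : ∀ x y, |f x - f y| ≤ L * |x - y|)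
    {m m' : OverlapProfile} (h : ∀ t ∈ Icc (0:ℝ) 1, m.toFun t ≤ m'.toFun t) :
    controlValue P B hBm f m' ≤ controlValue P B hBm f m +
      L ^ 2 * ∫ t in (0:ℝ)..1, (m'.toFun t - m.toFun t) := by
  refine value_le m' fun v₀ hv₀ => ?_
  refine (payoff_clip m' hv₀ hL hf hfL).trans ?_
  have hc := clip_ctl (hBm := hBm) hL hv₀.1
  set v := clip L v₀ with hv
  have ha := ctl_adm (P := P) m hc
  have ha' := ctl_adm (P := P) m' hc
  refine le_trans ?_ (add_le_add_left (le_value m hf ha) _)
  rw [payoff_eq m ha, payoff_eq m' ha']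
  have hfc : Continuous f := by
    have : LipschitzWith (Real.toNNReal L) f := by
      refine LipschitzWith.of_dist_le_mul fun x y => ?_
      rw [Real.dist_eq, Real.dist_eq, Real.coe_toNNReal _ hL]
      exact hfL x y
    exact this.continuous
  have hfB : BM f K := ⟨hfc.measurable, hf⟩
  have F1 := adm_facts m ha
  have F2 := adm_facts m' ha'
  have hi1 := bm_int (P := P) hfB (meas_end m hBm ha.1)
  have hi2 := bm_int (P := P) hfB (meas_end m' hBm ha'.1)
  have hmi : ∀ m : OverlapProfile, IntervalIntegrable m.toFun volume 0 1 := fun m =>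
    m.mono.intervalIntegrable
  have key : ∀ ω, f (B 1 ω + ∫ t in (0:ℝ)..1, m'.toFun t * v t.toNNReal ω) ≤
      f (B 1 ω + ∫ t in (0:ℝ)..1, m.toFun t * v t.toNNReal ω) +
      L ^ 2 * ∫ t in (0:ℝ)..1, (m'.toFun t - m.toFun t) := by
    intro ω
    have h1 := hfL (B 1 ω + ∫ t in (0:ℝ)..1, m'.toFun t * v t.toNNReal ω)
      (B 1 ω + ∫ t in (0:ℝ)..1, m.toFun t * v t.toNNReal ω)
    have a1 := hc.intv (prof_of m).meas ((prof_of m).abs le_rfl le_rfl) zero_le_one ω
    have a2 := hc.intv (prof_of m').meas ((prof_of m').abs le_rfl le_rfl) zero_le_one ω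
    rw [add_sub_add_left_eq_sub, ← intervalIntegral.integral_sub a2 a1] at h1
    have h2 : |∫ t in (0:ℝ)..1, (m'.toFun t * v t.toNNReal ω - m.toFun t * v t.toNNReal ω)| ≤
        ∫ t in (0:ℝ)..1, L * (m'.toFun t - m.toFun t) := by
      refine (intervalIntegral.abs_integral_le_integral_abs zero_le_one).trans ?_
      refine intervalIntegral.integral_mono_on zero_le_one (a2.sub a1).abs
        (((hmi m').sub (hmi m)).const_mul L) fun r hr => ?_
      rw [← sub_mul, abs_mul, abs_of_nonneg (sub_nonneg.2 (h r hr)), mul_comm]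
      exact mul_le_mul_of_nonneg_right (hc.bd _ _) (sub_nonneg.2 (h r hr))
    rw [intervalIntegral.integral_const_mul] at h2
    have h3 := le_abs_self (f (B 1 ω + ∫ t in (0:ℝ)..1, m'.toFun t * v t.toNNReal ω) -
      f (B 1 ω + ∫ t in (0:ℝ)..1, m.toFun t * v t.toNNReal ω))
    have h4 := mul_le_mul_of_nonneg_left h2 hL
    have h5 : L * (L * ∫ t in (0:ℝ)..1, (m'.toFun t - m.toFun t)) =
      L ^ 2 * ∫ t in (0:ℝ)..1, (m'.toFun t - m.toFun t) := by ring
    linarith
  have h8 := integral_mono hi2 (hi1.add (integrable_const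
    (L ^ 2 * ∫ t in (0:ℝ)..1, (m'.toFun t - m.toFun t)))) key
  simp only [Pi.add_apply] at h8
  rw [integral_add hi1 (integrable_const _)] at h8
  simp only [integral_const, probReal_univ, one_smul] at h8
  have h9 : ∫ ω, (∫ r in (0:ℝ)..1, m.toFun r * v r.toNNReal ω ^ 2) ∂P ≤
      ∫ ω, (∫ r in (0:ℝ)..1, m'.toFun r * v r.toNNReal ω ^ 2) ∂P := by
    refine integral_mono F1.int F2.int fun ω => ?_
    refine intervalIntegral.integral_mono_on zero_le_one
      (hc.intv2 (prof_of m).meas ((prof_of m).abs le_rfl le_rfl) zero_le_one ω)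
      (hc.intv2 (prof_of m').meas ((prof_of m').abs le_rfl le_rfl) zero_le_one ω) fun r hr => ?_
    exact mul_le_mul_of_nonneg_right (h r hr) (sq_nonneg _)
  linarith

/-- node (VL) -/
theorem vl : VL := by
  intro Ω _ P _ B hBm _ f K L hf m m' h
  have hL : 0 ≤ L := by
    have := hf.lip 0 1
    have h2 : (0:ℝ) ≤ L * |(0:ℝ) - 1| := (abs_nonneg _).trans this
    simpa using h2
  exact ⟨value_mono hBm hf.bd h, value_lip hBm hL hf.bd hf.lip h⟩

/-! ### Change of the function -/

omit [IsProbabilityMeasure P] in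
theorem end_sq (m : OverlapProfile) {v : ℝ≥0 → Ω → ℝ} (hv : IsAdmissibleControl P B hBm m v) :
    ∀ᵐ ω ∂P, (∫ t in (0:ℝ)..1, m.toFun t * v t.toNNReal ω) ^ 2 ≤
      ∫ t in (0:ℝ)..1, m.toFun t * v t.toNNReal ω ^ 2 := by
  have F1 := adm_facts m hv
  filter_upwards [F1.sq, F1.lin] with ω a1 a2
  have b1 : IntervalIntegrable (fun r => m.toFun r * v r.toNNReal ω ^ 2) volume 0 1 := by
    rw [intervalIntegrable_iff_integrableOn_Icc_of_le zero_le_one]; exact a1
  have b2 : IntervalIntegrable (fun r => m.toFun r * v r.toNNReal ω) volume 0 1 := by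
    rw [intervalIntegrable_iff_integrableOn_Icc_of_le zero_le_one]; exact a2
  have b3 : IntervalIntegrable m.toFun volume 0 1 := m.mono.intervalIntegrable
  set c := ∫ t in (0:ℝ)..1, m.toFun t * v t.toNNReal ω with hc
  have h1 : 0 ≤ ∫ t in (0:ℝ)..1, m.toFun t * (v t.toNNReal ω - c) ^ 2 :=
    intervalIntegral.integral_nonneg zero_le_one fun r hr =>
      mul_nonneg (m.nonneg r hr) (sq_nonneg _)
  have e : ∫ t in (0:ℝ)..1, m.toFun t * (v t.toNNReal ω - c) ^ 2 =
      ∫ t in (0:ℝ)..1, (m.toFun t * v t.toNNReal ω ^ 2 - (2 * c) * (m.toFun t * v t.toNNReal ω) +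
        c ^ 2 * m.toFun t) := by
    congr 1; funext r; ring
  rw [e, intervalIntegral.integral_add (b1.sub (b2.const_mul _)) (b3.const_mul _),
    intervalIntegral.integral_sub b1 (b2.const_mul _), intervalIntegral.integral_const_mul,
    intervalIntegral.integral_const_mul, ← hc] at h1
  have h2 : ∫ t in (0:ℝ)..1, m.toFun t ≤ 1 := by
    have := intervalIntegral.integral_mono_on zero_le_one b3
      (intervalIntegrable_const (c := (1:ℝ))) (fun r hr => m.le_one r hr)
    simpa using this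
  nlinarith [sq_nonneg c]

theorem bm_sq (hB : IsBrownianReal B P) : Integrable (fun ω => B 1 ω ^ 2) P ∧
    ∫ ω, B 1 ω ^ 2 ∂P = 1 := by
  have h1 := hB.toIsPreBrownianReal.hasLaw_eval 1
  have hm : AEMeasurable (B 1) P := h1.aemeasurable
  have h2 : MemLp (B 1) 2 P :=
    (hB.toIsPreBrownianReal.isGaussianProcess.hasGaussianLaw_eval 1).memLp_two
  refine ⟨h2.integrable_sq, ?_⟩
  have h3 : Var[B 1; P] = 1 := by
    rw [h1.variance_eq, variance_id_gaussianReal]; simp
  rw [variance_eq_sub h2, hB.toIsPreBrownianReal.integral_eval 1] at h3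
  simpa using h3

theorem value_change (hB : IsBrownianReal B P) (hBm : ∀ t, Measurable (B t)) {K R δ : ℝ}
    (hR : 0 < R) {f f' : ℝ → ℝ} (hfc : Measurable f) (hfc' : Measurable f')
    (hf : ∀ x, |f x| ≤ K) (hf' : ∀ x, |f' x| ≤ K) (hδ : 0 ≤ δ)
    (h : ∀ x, |x| ≤ R → |f x - f' x| ≤ δ) (m : OverlapProfile) :
    controlValue P B hBm f m ≤ controlValue P B hBm f' m +
      (δ + 2 * K / R ^ 2 * (2 + 2 * (4 * K + 2))) := by
  have hK : 0 ≤ K := (abs_nonneg _).trans (hf 0)
  have hfB : BM f K := ⟨hfc, hf⟩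
  have hfB' : BM f' K := ⟨hfc', hf'⟩
  refine le_of_forall_pos_le_add fun η hη => ?_
  set η' := min η 1 with hη'
  have hη0 : 0 < η' := lt_min hη one_pos
  have hη1 : η' ≤ 1 := min_le_right _ _
  obtain ⟨x, ⟨v, hv, rfl⟩, hx⟩ := exists_lt_of_lt_csSup (nonempty (P := P) hBm m f)
    (show controlValue P B hBm f m - η' < controlValue P B hBm f m by linarith)
  -- the value is at least `-K`
  have hlow : -K ≤ controlValue P B hBm f m := by
    have h0 := le_value (P := P) (hBm := hBm) m hf (ctl_adm m (ctl_zero (hBm := hBm) le_rfl))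
    rw [payoff_eq m (ctl_adm m (ctl_zero (hBm := hBm) le_rfl))] at h0
    simp only [mul_zero, intervalIntegral.integral_zero, add_zero, ne_eq, OfNat.ofNat_ne_zero,
      not_false_eq_true, zero_pow, integral_zero, sub_zero] at h0
    have h1 := norm_integral_le_of_norm_le_const (μ := P) (f := fun ω => f (B 1 ω)) (C := K)
      (ae_of_all _ fun ω => hf _)
    rw [Real.norm_eq_abs] at h1
    simp only [probReal_univ, mul_one] at h1
    have := neg_abs_le (∫ ω, f (B 1 ω) ∂P)
    linarith
  rw [payoff_eq m hv] at hx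
  have F1 := adm_facts m hv
  have hXm := meas_end m hBm hv.1
  set X : Ω → ℝ := fun ω => B 1 ω + ∫ t in (0:ℝ)..1, m.toFun t * v t.toNNReal ω with hX
  have hi1 : Integrable (fun ω => f (X ω)) P := bm_int (P := P) hfB hXm
  have hi2 : Integrable (fun ω => f' (X ω)) P := bm_int (P := P) hfB' hXm
  set Q := ∫ ω, (∫ r in (0:ℝ)..1, m.toFun r * v r.toNNReal ω ^ 2) ∂P with hQ
  have hfle : ∫ ω, f (X ω) ∂P ≤ K := by
    have h1 := norm_integral_le_of_norm_le_const (μ := P) (f := fun ω => f (X ω)) (C := K)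
      (ae_of_all _ fun ω => hf _)
    rw [Real.norm_eq_abs] at h1
    simp only [probReal_univ, mul_one] at h1
    have := le_abs_self (∫ ω, f (X ω) ∂P)
    linarith
  have hx' : controlValue P B hBm f m - η' < ∫ ω, f (X ω) ∂P - 1 / 2 * Q := hx
  have hQle : Q ≤ 4 * K + 2 := by linarith
  obtain ⟨hb1, hb2⟩ := bm_sq hB
  have hEX : ∫ ω, X ω ^ 2 ∂P ≤ 2 + 2 * (4 * K + 2) := by
    have h1 : ∫ ω, X ω ^ 2 ∂P ≤ ∫ ω, (2 * B 1 ω ^ 2 +
        2 * ∫ r in (0:ℝ)..1, m.toFun r * v r.toNNReal ω ^ 2) ∂P := by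
      refine integral_mono_of_nonneg (ae_of_all _ fun ω => sq_nonneg _)
        ((hb1.const_mul 2).add (F1.int.const_mul 2)) ?_
      filter_upwards [end_sq m hv] with ω hω
      rw [hX]
      simp only
      nlinarith [sq_nonneg (B 1 ω - ∫ t in (0:ℝ)..1, m.toFun t * v t.toNNReal ω)]
    rw [integral_add (hb1.const_mul 2) (F1.int.const_mul 2), integral_const_mul,
      integral_const_mul, hb2] at h1
    linarith
  have hEXi : Integrable (fun ω => X ω ^ 2) P := by
    refine Integrable.mono' ((hb1.const_mul 2).add (F1.int.const_mul 2))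
      (hXm.pow_const 2).aestronglyMeasurable ?_
    filter_upwards [end_sq m hv] with ω hω
    rw [Real.norm_eq_abs, abs_of_nonneg (sq_nonneg _), hX]
    simp only [Pi.add_apply]
    nlinarith [sq_nonneg (B 1 ω - ∫ t in (0:ℝ)..1, m.toFun t * v t.toNNReal ω)]
  have hpt : ∀ y, f y ≤ f' y + (δ + 2 * K / R ^ 2 * y ^ 2) := by
    intro y
    have hR2 : 0 < R ^ 2 := by positivity
    rcases le_or_gt |y| R with h1 | h1
    · have h2 := (abs_le.1 (h y h1)).2
      have h3 : 0 ≤ 2 * K / R ^ 2 * y ^ 2 := by positivity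
      linarith
    · have h2 := (abs_le.1 (hf y)).2
      have h3 := (abs_le.1 (hf' y)).1
      have h4 : 2 * K ≤ 2 * K / R ^ 2 * y ^ 2 := by
        rw [div_mul_eq_mul_div, le_div_iff₀ hR2]
        refine mul_le_mul_of_nonneg_left ?_ (by positivity)
        rw [← sq_abs y]
        exact pow_le_pow_left₀ hR.le h1.le 2
      linarith
  have hint := integral_mono hi1 (hi2.add ((integrable_const δ).add
    (hEXi.const_mul (2 * K / R ^ 2)))) (fun ω => hpt (X ω))
  have e1 : ∫ ω, (f' (X ω) + (δ + 2 * K / R ^ 2 * X ω ^ 2)) ∂P =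
      ∫ ω, f' (X ω) ∂P + (δ + 2 * K / R ^ 2 * ∫ ω, X ω ^ 2 ∂P) := by
    have h1 := integral_add hi2 ((integrable_const δ).add (hEXi.const_mul (2 * K / R ^ 2)))
    have h2 := integral_add (integrable_const (μ := P) δ) (hEXi.const_mul (2 * K / R ^ 2))
    simp only [Pi.add_apply] at h1
    rw [h1, h2, integral_const_mul]
    simp
  simp only [Pi.add_apply] at hint
  rw [e1] at hint
  have hpay := le_value (P := P) m hf' hv
  rw [payoff_eq m hv] at hpay
  have hpay' : ∫ ω, f' (X ω) ∂P - 1 / 2 * Q ≤ controlValue P B hBm f' m := hpay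
  have h5 : 2 * K / R ^ 2 * ∫ ω, X ω ^ 2 ∂P ≤ 2 * K / R ^ 2 * (2 + 2 * (4 * K + 2)) :=
    mul_le_mul_of_nonneg_left hEX (by positivity)
  have h6 : η' ≤ η := min_le_left _ _
  linarith

/-- node (VC) -/
theorem vc : VC := by
  intro K ε hε
  set A := 2 * |K| * (2 + 2 * (4 * |K| + 2)) with hA
  have hA0 : 0 ≤ A := by positivity
  set R := Real.sqrt (2 * A / ε + 1) with hRdef
  have hR : 0 < R := Real.sqrt_pos.2 (by positivity)
  have hR2 : R ^ 2 = 2 * A / ε + 1 := Real.sq_sqrt (by positivity)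
  refine ⟨R, ε / 2, hR, by linarith, ?_⟩
  intro Ω _ P _ B hBm hB f f' hf hf' hK hK' h m
  have hK0 : 0 ≤ K := (abs_nonneg _).trans (hK 0)
  rw [abs_of_nonneg hK0] at hA
  have hb : 2 * K / R ^ 2 * (2 + 2 * (4 * K + 2)) ≤ ε / 2 := by
    have e : 2 * K / R ^ 2 * (2 + 2 * (4 * K + 2)) = A / R ^ 2 := by rw [hA]; ring
    rw [e, hR2, div_le_iff₀ (by positivity)]
    have : ε / 2 * (2 * A / ε + 1) = A + ε / 2 := by field_simp
    rw [this]; linarith
  have h1 := value_change (P := P) hB hBm hR hf.measurable hf'.measurable hK hK'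
    (by linarith : (0:ℝ) ≤ ε / 2) h m
  have h2 := value_change (P := P) hB hBm hR hf'.measurable hf.measurable hK' hK
    (by linarith : (0:ℝ) ≤ ε / 2) (fun x hx => by rw [abs_sub_comm]; exact h x hx) m
  rw [abs_le]
  constructor <;> linarith

/-! ### Step profiles -/

theorem tP_le {J : ℕ} {Pl : ℕ → ℝ} (h : Lev J Pl) (i : ℕ) (hi : i < J + 2) :
    tP J Pl i ≤ tP J Pl (i + 1) := by
  unfold tP
  rcases Nat.eq_zero_or_pos i with h0 | hpos
  · subst h0
    simp only [if_true, zero_add, one_ne_zero, if_false, Nat.sub_self]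
    split_ifs
    · exact h.nonneg
    · exact zero_le_one
  · by_cases h2 : i + 1 ≤ J + 1
    · rw [if_neg hpos.ne', if_pos (by omega : i ≤ J + 1), if_neg (Nat.succ_ne_zero i), if_pos h2,
        Nat.add_sub_cancel]
      exact h.mono _ _ (by omega) (by omega)
    · have h3 : i - 1 = J := by omega
      rw [if_neg hpos.ne', if_pos (by omega : i ≤ J + 1), if_neg (Nat.succ_ne_zero i), if_neg h2,
        h3]
      exact h.le_one

theorem mP_eq {J : ℕ} {Pl : ℕ → ℝ} (h : Lev J Pl) (i : ℕ) (hi : i < J + 2) (r : ℝ)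
    (hr : r ∈ Ioo (tP J Pl i) (tP J Pl (i + 1))) : (mP J Pl).toFun r = (i : ℝ) / ((J : ℝ) + 1) := by
  classical
  have hset : (Finset.range (J + 1)).filter (fun j => Pl j ≤ r) = Finset.range i := by
    ext j
    rw [Finset.mem_filter, Finset.mem_range, Finset.mem_range]
    constructor
    · rintro ⟨hj, hjr⟩
      by_contra hij
      push Not at hij
      -- `r < tP (i+1) = P i ≤ P j`
      have h1 := hr.2
      unfold tP at h1
      rw [if_neg (by omega), if_pos (by omega), Nat.add_sub_cancel] at h1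
      have h2 := h.mono i j hij (by omega)
      linarith
    · intro hji
      refine ⟨by omega, ?_⟩
      have h1 := hr.1
      unfold tP at h1
      rw [if_neg (by omega), if_pos (by omega)] at h1
      have h2 := h.mono j (i - 1) (by omega) (by omega)
      linarith
  unfold mP
  simp only
  have : ((Finset.range (J + 1)).filter (fun j => Pl j ≤ r)).card = i := by
    rw [hset, Finset.card_range]
  convert congrArg (fun k : ℕ => (k : ℝ) / ((J : ℝ) + 1)) this using 3

theorem cells_mP {J : ℕ} {Pl : ℕ → ℝ} (h : Lev J Pl) :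
    Cells (mP J Pl).toFun (tP J Pl) (fun j => (j : ℝ) / ((J : ℝ) + 1)) (J + 2) where
  prof := prof_of _
  t0 := by unfold tP; simp
  tn := by unfold tP; rw [if_neg (by omega), if_neg (by omega)]
  mono := tP_le h
  a0 i _ := by positivity
  a1 i hi := by
    rw [div_le_one (by positivity)]
    have : (i : ℝ) ≤ ((J + 1 : ℕ) : ℝ) := by exact_mod_cast (by omega : i ≤ J + 1)
    push_cast at this
    exact this
  eq := fun i hi r hr => mP_eq h i hi r hr

theorem val_payoff (hB : IsBrownianReal B P) (m : OverlapProfile) {v : ℝ≥0 → Ω → ℝ}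
    (hv : IsAdmissibleControl P B hBm m v) (f : ℝ → ℝ) :
    val P B m.toFun f 0 (fun _ => 0) v = controlPayoff P B f m v := by
  rw [payoff_eq m hv]
  unfold val
  congr 1
  refine integral_congr_ae ?_
  filter_upwards [hB.toIsPreBrownianReal.eval_zero_ae_eq_zero] with ω hω
  rw [Real.toNNReal_one, Real.toNNReal_zero, hω]
  simp

theorem value_step (hB : IsBrownianReal B P) (hBm : ∀ t, Measurable (B t)) {f f1 f2 : ℝ → ℝ}
    {K L C : ℝ} (hf : Reg f f1 f2 K L C) (hL : 0 < L) {m : OverlapProfile} {t a : ℕ → ℝ} {n : ℕ}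
    (h : Cells m.toFun t a n) (ht0 : t 0 = 0) :
    controlValue P B hBm f m = recV f t a n n 0 := by
  refine le_antisymm (value_le m fun v₀ hv₀ => ?_) ?_
  · refine (payoff_clip m hv₀ hL.le hf.bK hf.lip).trans ?_
    have hc := clip_ctl (hBm := hBm) hL.le hv₀.1
    have h1 := val_le hB h hf hL hc n le_rfl (fun _ => 0) measurable_const
    rw [Nat.sub_self, ht0, val_payoff hB m (ctl_adm m hc)] at h1
    simpa using h1
  · refine le_of_forall_pos_le_add fun ε hε => ?_
    obtain ⟨v, hv, h1⟩ := val_ge hB h hf hL n le_rfl ε hε (fun _ => 0) measurable_const (hBm := hBm)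
    rw [Nat.sub_self, ht0, val_payoff hB m (ctl_adm m hv)] at h1
    have h2 := le_value (P := P) m hf.bK (ctl_adm (P := P) m hv)
    simp only [integral_const, probReal_univ, one_smul] at h1
    linarith

/-- node (VID) -/
theorem vid : VID := by
  intro Ω _ P _ B hBm hB f hf2 hbd J Pl hPl
  obtain ⟨C, hC⟩ := hbd
  have hd1 : Differentiable ℝ f := hf2.differentiable (by norm_num)
  have hf1 : ContDiff ℝ 1 (deriv f) := by
    have h2 : ContDiff ℝ (1 + 1) f := by
      rw [one_add_one_eq_two]; exact hf2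
    exact ((contDiff_succ_iff_deriv (n := 1)).1 h2).2.2
  have hd2 : Differentiable ℝ (deriv f) := hf1.differentiable (by norm_num)
  have hc2 : Continuous (deriv (deriv f)) := hf1.continuous_deriv (by norm_num)
  have hR : Reg f (deriv f) (deriv (deriv f)) C (max C 1) C :=
    ⟨fun y => (hd1 y).hasDerivAt, fun y => (hd2 y).hasDerivAt, hc2, fun y => (hC y).1,
      fun y => (hC y).2.1.trans (le_max_left _ _), fun y => (hC y).2.2⟩
  exact value_step hB hBm hR (lt_of_lt_of_le one_pos (le_max_right _ _)) (cells_mP hPl)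
    (by unfold tP; simp)

end

end Crest.Agent.R146.CtlG_130
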