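import Crest.Agent.R146.LocCore_508
import Mathlib.Analysis.Calculus.BumpFunction.Convolution
import Mathlib.Analysis.Calculus.BumpFunction.FiniteDimension

/-!
Row 146, node (G7)(d) of post 960 (helper508), helper435: the truncated smooth potential.

* `F0 b R` : the `C^1` potential `-(b/2)(-1-x)_+^2` for `x ≥ -1-R`, continued by a slow flattening
  (second difference `≤ 1/4`) to a constant;
* `potential` : its mollification, a `Test` function squeezed between `fqL L b (-1)` (`L` large) and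
  `fqL (b R^2/2) b (-1) + d = d - (b/2) Tcut R ^ 2`, second differences in `[-b, 1/4]`;
* `Test.add`, `Test.const_mul`, `MidLo`/`MidHi` from bounds of the second derivative,
  `potential_add` : the same potential plus a small multiple of a test function.
-/

set_option autoImplicit false

open MeasureTheory ProbabilityTheory Filter Crest.ProbabilityR.Perceptron
open scoped Topology Convolution

namespace Crest.Agent.R146.G7Pot_435

open Crest.Agent.R146.LocRec_508 (MidLo MidHi)
open Crest.Agent.R146.P34_734 (Test pM fq fqL)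
open Crest.Agent.R146.LocCore_508 (Tcut)

noncomputable section

/-! ### Second differences -/

lemma midHi_of_deriv {F f : ℝ → ℝ} {κ : ℝ} (hF : ∀ x, HasDerivAt F (f x) x)
    (hf : ∀ x y, y ≤ x → f x - f y ≤ κ * (x - y)) : MidHi κ F := by
  have main : ∀ y t : ℝ, 0 ≤ t → F (y + t) + F (y - t) ≤ 2 * F y + κ * t ^ 2 := by
    intro y t ht
    set g : ℝ → ℝ := fun s => F (y + s) + F (y - s) - κ * s ^ 2 with hg
    have hd : ∀ s, HasDerivAt g (f (y + s) * 1 + f (y - s) * (-1) - κ * (2 * s)) s := by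
      intro s
      have h1 : HasDerivAt (fun s => F (y + s)) (f (y + s) * 1) s :=
        (hF (y + s)).comp s ((hasDerivAt_id s).const_add y)
      have h2 : HasDerivAt (fun s => F (y - s)) (f (y - s) * (-1)) s :=
        (hF (y - s)).comp s ((hasDerivAt_id s).const_sub y)
      have h3 : HasDerivAt (fun s : ℝ => κ * s ^ 2) (κ * (2 * s)) s := by
        have := (hasDerivAt_pow 2 s).const_mul κ
        simpa using this
      exact (h1.add h2).sub h3
    have hanti : AntitoneOn g (Set.Ici 0) := by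
      apply antitoneOn_of_deriv_nonpos (convex_Ici 0)
      · exact fun s _ => (hd s).continuousAt.continuousWithinAt
      · exact fun s _ => (hd s).differentiableAt.differentiableWithinAt
      · intro s hs
        rw [interior_Ici] at hs
        have hs0 : (0 : ℝ) < s := hs
        rw [(hd s).deriv]
        have := hf (y + s) (y - s) (by linarith)
        nlinarith
    have := hanti (Set.mem_Ici.2 le_rfl) (Set.mem_Ici.2 ht) ht
    simp only [hg, add_zero, sub_zero] at this
    nlinarith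
  intro y t
  rcases le_total 0 t with h | h
  · exact main y t h
  · have := main y (-t) (by linarith)
    have e1 : y + -t = y - t := by ring
    have e2 : y - -t = y + t := by ring
    rw [e1, e2] at this
    nlinarith

lemma midLo_of_deriv {F f : ℝ → ℝ} {κ : ℝ} (hF : ∀ x, HasDerivAt F (f x) x)
    (hf : ∀ x y, y ≤ x → -(κ * (x - y)) ≤ f x - f y) : MidLo κ F := by
  have h := midHi_of_deriv (F := fun x => -F x) (f := fun x => -f x) (κ := κ)
    (fun x => (hF x).neg) (fun x y hxy => by have := hf x y hxy; linarith)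
  intro y t
  have := h y t
  simp only at this
  linarith

lemma MidHi.add' {κ κ' : ℝ} {F G : ℝ → ℝ} (h : MidHi κ F) (h' : MidHi κ' G) :
    MidHi (κ + κ') (fun x => F x + G x) := by
  intro y t
  have := h y t
  have := h' y t
  simp only
  linarith

lemma MidLo.add' {κ κ' : ℝ} {F G : ℝ → ℝ} (h : MidLo κ F) (h' : MidLo κ' G) :
    MidLo (κ + κ') (fun x => F x + G x) := by
  intro y t
  have := h y t
  have := h' y t
  simp only
  linarith

/-! ### The potential -/

/-- slope of the truncated potential -/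
def sl (b R x : ℝ) : ℝ := max 0 (min (b * (-1 - x)) (b * R - (-1 - x - R) / 4))

lemma sl_cont (b R : ℝ) : Continuous (sl b R) := by
  unfold sl
  fun_prop

lemma sl_nonneg (b R x : ℝ) : 0 ≤ sl b R x := le_max_left _ _

lemma sl_le {b R : ℝ} (hb : 0 ≤ b) (hR : 0 ≤ R) (x : ℝ) : sl b R x ≤ b * R := by
  refine max_le (by positivity) ?_
  rcases le_total (-1 - x) R with h | h
  · exact (min_le_left _ _).trans (mul_le_mul_of_nonneg_left h hb)
  · exact (min_le_right _ _).trans (by linarith)

lemma sl_le_t {b : ℝ} (hb : 0 ≤ b) (R : ℝ) {x : ℝ} (hx : x ≤ -1) : sl b R x ≤ b * (-1 - x) :=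
  max_le (mul_nonneg hb (by linarith)) (min_le_left _ _)

lemma sl_eq {b R : ℝ} (hb : 0 ≤ b) {x : ℝ} (hx : x ≤ -1) (hx2 : -1 - R ≤ x) :
    sl b R x = b * (-1 - x) := by
  unfold sl
  have h1 : b * (-1 - x) ≤ b * R - (-1 - x - R) / 4 := by nlinarith
  rw [min_eq_left h1]
  exact max_eq_right (mul_nonneg hb (by linarith))

lemma sl_right {b : ℝ} (hb : 0 ≤ b) (R : ℝ) {x : ℝ} (hx : -1 ≤ x) : sl b R x = 0 := by
  unfold sl
  apply max_eq_left
  exact (min_le_left _ _).trans (mul_nonpos_of_nonneg_of_nonpos hb (by linarith))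

lemma sl_left {b R : ℝ} {x : ℝ} (hx : x ≤ -1 - R - 4 * (b * R)) : sl b R x = 0 := by
  unfold sl
  apply max_eq_left
  exact (min_le_right _ _).trans (by linarith)

lemma sl_up {b : ℝ} (hb : 0 ≤ b) (R : ℝ) (x y : ℝ) (h : y ≤ x) :
    sl b R x - sl b R y ≤ 1 / 4 * (x - y) := by
  unfold sl
  have h1 : b * (-1 - x) ≤ b * (-1 - y) := mul_le_mul_of_nonneg_left (by linarith) hb
  have h2 : min (b * (-1 - x)) (b * R - (-1 - x - R) / 4) ≤
      min (b * (-1 - y)) (b * R - (-1 - y - R) / 4) + 1 / 4 * (x - y) := by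
    rcases le_total (b * (-1 - y)) (b * R - (-1 - y - R) / 4) with h3 | h3
    · rw [min_eq_left h3]
      exact (min_le_left _ _).trans (by linarith)
    · rw [min_eq_right h3]
      exact (min_le_right _ _).trans (by linarith)
  have h4 : max 0 (min (b * (-1 - x)) (b * R - (-1 - x - R) / 4)) ≤
      max 0 (min (b * (-1 - y)) (b * R - (-1 - y - R) / 4)) + 1 / 4 * (x - y) := by
    refine max_le ?_ (h2.trans ?_)
    · have := le_max_left 0 (min (b * (-1 - y)) (b * R - (-1 - y - R) / 4))
      linarith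
    · have := le_max_right 0 (min (b * (-1 - y)) (b * R - (-1 - y - R) / 4))
      linarith
  linarith

lemma sl_lo {b : ℝ} (hb : 0 ≤ b) (R : ℝ) (x y : ℝ) (h : y ≤ x) :
    -(b * (x - y)) ≤ sl b R x - sl b R y := by
  unfold sl
  have hbx : 0 ≤ b * (x - y) := mul_nonneg hb (by linarith)
  have h2 : min (b * (-1 - y)) (b * R - (-1 - y - R) / 4) ≤
      min (b * (-1 - x)) (b * R - (-1 - x - R) / 4) + b * (x - y) := by
    rcases le_total (b * (-1 - x)) (b * R - (-1 - x - R) / 4) with h3 | h3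
    · rw [min_eq_left h3]
      exact (min_le_left _ _).trans (by nlinarith)
    · rw [min_eq_right h3]
      exact (min_le_right _ _).trans (by linarith)
  have h4 : max 0 (min (b * (-1 - y)) (b * R - (-1 - y - R) / 4)) ≤
      max 0 (min (b * (-1 - x)) (b * R - (-1 - x - R) / 4)) + b * (x - y) := by
    refine max_le ?_ (h2.trans ?_)
    · have := le_max_left 0 (min (b * (-1 - x)) (b * R - (-1 - x - R) / 4))
      linarith
    · have := le_max_right 0 (min (b * (-1 - x)) (b * R - (-1 - x - R) / 4))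
      linarith
  linarith

/-- the `C^1` potential -/
def F0 (b R x : ℝ) : ℝ := ∫ y in (-1 : ℝ)..x, sl b R y

lemma F0_deriv (b R x : ℝ) : HasDerivAt (F0 b R) (sl b R x) x :=
  intervalIntegral.integral_hasDerivAt_right ((sl_cont b R).intervalIntegrable _ _)
    ((sl_cont b R).stronglyMeasurableAtFilter _ _) (sl_cont b R).continuousAt

lemma F0_cont (b R : ℝ) : Continuous (F0 b R) :=
  continuous_iff_continuousAt.2 fun x => (F0_deriv b R x).continuousAt

lemma F0_mono (b R : ℝ) : Monotone (F0 b R) := by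
  apply monotone_of_deriv_nonneg (fun x => (F0_deriv b R x).differentiableAt)
  intro x
  rw [(F0_deriv b R x).deriv]
  exact sl_nonneg _ _ _

lemma F0_right {b : ℝ} (hb : 0 ≤ b) (R : ℝ) {x : ℝ} (hx : -1 ≤ x) : F0 b R x = 0 := by
  unfold F0
  rw [intervalIntegral.integral_congr (g := fun _ => (0 : ℝ))]
  · simp
  · intro y hy
    rw [Set.uIcc_of_le hx] at hy
    exact sl_right hb R hy.1

lemma F0_left {b R : ℝ} {x : ℝ} (hx : x ≤ -1 - R - 4 * (b * R)) :
    F0 b R x = F0 b R (-1 - R - 4 * (b * R)) := by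
  have h := intervalIntegral.integral_interval_sub_left
    (f := sl b R) (μ := volume) (a := -1) (b := -1 - R - 4 * (b * R)) (c := x)
    ((sl_cont b R).intervalIntegrable _ _) ((sl_cont b R).intervalIntegrable _ _)
  have h0 : ∫ y in x..(-1 - R - 4 * (b * R)), sl b R y = 0 := by
    rw [intervalIntegral.integral_congr (g := fun _ => (0 : ℝ))]
    · simp
    · intro y hy
      rw [Set.uIcc_of_le hx] at hy
      exact sl_left hy.2
  rw [h0] at h
  unfold F0
  linarith

lemma int_lin (b x : ℝ) : ∫ y in (-1 : ℝ)..x, b * (-1 - y) = -(b / 2) * (-1 - x) ^ 2 := by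
  have hd : ∀ y ∈ Set.uIcc (-1 : ℝ) x,
      HasDerivAt (fun y : ℝ => -(b / 2) * (-1 - y) ^ 2) (b * (-1 - y)) y := by
    intro y _
    have h1 : HasDerivAt (fun y : ℝ => -1 - y) (-1) y := (hasDerivAt_id y).const_sub (-1)
    have h2 := (h1.pow 2).const_mul (-(b / 2))
    refine h2.congr_deriv ?_
    norm_num
    ring
  rw [intervalIntegral.integral_eq_sub_of_hasDerivAt hd
    ((by fun_prop : Continuous fun y : ℝ => b * (-1 - y)).intervalIntegrable _ _)]
  ring

lemma F0_mid {b R : ℝ} (hb : 0 ≤ b) {x : ℝ} (hx : x ≤ -1) (hx2 : -1 - R ≤ x) :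
    F0 b R x = -(b / 2) * (-1 - x) ^ 2 := by
  rw [← int_lin]
  unfold F0
  apply intervalIntegral.integral_congr
  intro y hy
  rw [Set.uIcc_of_ge hx] at hy
  exact sl_eq hb hy.2 (hx2.trans hy.1)

lemma fq_le_F0 {b : ℝ} (hb : 0 ≤ b) (R x : ℝ) : fq b (-1) x ≤ F0 b R x := by
  rcases le_total x (-1) with hx | hx
  · unfold fq
    rw [max_eq_left (by linarith : (0 : ℝ) ≤ -1 - x), ← int_lin]
    unfold F0
    rw [intervalIntegral.integral_symm, intervalIntegral.integral_symm (a := x)]
    apply neg_le_neg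
    apply intervalIntegral.integral_mono_on hx ((sl_cont b R).intervalIntegrable _ _)
      ((by fun_prop : Continuous fun y : ℝ => b * (-1 - y)).intervalIntegrable _ _)
    intro y hy
    exact sl_le_t hb R hy.2
  · rw [F0_right hb R hx]
    unfold fq
    nlinarith [sq_nonneg (max (-1 - x) 0)]

lemma F0_low (b R x : ℝ) : F0 b R (-1 - R - 4 * (b * R)) ≤ F0 b R x := by
  rcases le_total x (-1 - R - 4 * (b * R)) with h | h
  · exact (F0_left h).symm.le
  · exact F0_mono b R h

lemma fqL_le_F0 {b : ℝ} (hb : 0 ≤ b) (R : ℝ) {L : ℝ} (hL : -F0 b R (-1 - R - 4 * (b * R)) ≤ L)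
    (x : ℝ) : fqL L b (-1) x ≤ F0 b R x :=
  max_le (fq_le_F0 hb R x) (le_trans (by linarith) (F0_low b R x))

lemma Tcut_nonneg {R : ℝ} (hR : 0 ≤ R) (x : ℝ) : 0 ≤ Tcut R x :=
  le_min (le_max_right _ _) hR

/-- the potential truncated at `-(b R^2/2)` -/
lemma fqL_eq {b R : ℝ} (hb : 0 ≤ b) (hR : 0 ≤ R) (x : ℝ) :
    fqL (b * R ^ 2 / 2) b (-1) x = -(b / 2) * Tcut R x ^ 2 := by
  unfold fqL fq Tcut
  have h0 : 0 ≤ max (-1 - x) 0 := le_max_right _ _
  rcases le_total (max (-1 - x) 0) R with h | h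
  · rw [min_eq_left h]
    apply max_eq_left
    nlinarith [mul_le_mul h h h0 hR]
  · rw [min_eq_right h, max_eq_right]
    · ring
    · nlinarith [mul_le_mul h h hR h0]

lemma F0_le {b R : ℝ} (hb : 0 ≤ b) (hR : 0 ≤ R) (x : ℝ) :
    F0 b R x ≤ -(b / 2) * Tcut R x ^ 2 := by
  unfold Tcut
  rcases le_total (-1) x with hx | hx
  · rw [F0_right hb R hx, max_eq_right (by linarith : -1 - x ≤ 0), min_eq_left hR]
    simp
  · rw [max_eq_left (by linarith : (0 : ℝ) ≤ -1 - x)]
    rcases le_total (-1 - R) x with hx2 | hx2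
    · rw [F0_mid hb hx hx2, min_eq_left (by linarith)]
    · rw [min_eq_right (by linarith)]
      refine (F0_mono b R hx2).trans ?_
      rw [F0_mid hb (by linarith) le_rfl]
      apply le_of_eq
      ring

lemma F0_lip {b R : ℝ} (hb : 0 ≤ b) (hR : 0 ≤ R) (x y : ℝ) :
    |F0 b R x - F0 b R y| ≤ b * R * |x - y| := by
  have h := Convex.norm_image_sub_le_of_norm_hasDerivWithin_le (f := F0 b R) (f' := sl b R)
    (C := b * R) (s := Set.univ) (x := y) (y := x)
    (fun z _ => (F0_deriv b R z).hasDerivWithinAt)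
    (fun z _ => by rw [Real.norm_eq_abs, abs_of_nonneg (sl_nonneg _ _ _)]; exact sl_le hb hR z)
    convex_univ trivial trivial
  simpa [Real.norm_eq_abs] using h

lemma F0_midHi {b : ℝ} (hb : 0 ≤ b) (R : ℝ) : MidHi (1 / 4) (F0 b R) :=
  midHi_of_deriv (F0_deriv b R) (sl_up hb R)

lemma F0_midLo {b : ℝ} (hb : 0 ≤ b) (R : ℝ) : MidLo b (F0 b R) :=
  midLo_of_deriv (F0_deriv b R) (sl_lo hb R)

/-! ### Mollification -/

/-- the bump function of radius `δ` -/
def bump (δ : ℝ) (hδ : 0 < δ) : ContDiffBump (0 : ℝ) := ⟨δ / 2, δ, by positivity, by linarith⟩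

/-- mollified function -/
def moll (δ : ℝ) (hδ : 0 < δ) (F : ℝ → ℝ) : ℝ → ℝ :=
  (bump δ hδ).normed volume ⋆[ContinuousLinearMap.lsmul ℝ ℝ, volume] F

lemma moll_contDiff {δ : ℝ} (hδ : 0 < δ) {F : ℝ → ℝ} (hF : Continuous F) (n : ℕ) :
    ContDiff ℝ n (moll δ hδ F) := by
  unfold moll
  exact (bump δ hδ).hasCompactSupport_normed.contDiff_convolution_left _
    (bump δ hδ).contDiff_normed (hF.locallyIntegrable)

lemma moll_dist {δ : ℝ} (hδ : 0 < δ) {F : ℝ → ℝ} (hF : Continuous F) {x e : ℝ}
    (h : ∀ y, |y - x| < δ → |F y - F x| ≤ e) : |moll δ hδ F x - F x| ≤ e := by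
  have := (bump δ hδ).dist_normed_convolution_le (μ := volume) (g := F) (x₀ := x) (ε := e)
    hF.aestronglyMeasurable (by
      intro y hy
      rw [Real.dist_eq]
      apply h
      rwa [Metric.mem_ball, Real.dist_eq] at hy)
  rwa [Real.dist_eq] at this

lemma moll_eq {δ : ℝ} (hδ : 0 < δ) {F : ℝ → ℝ} {x : ℝ}
    (h : ∀ y, |y - x| < δ → F y = F x) : moll δ hδ F x = F x := by
  apply (bump δ hδ).normed_convolution_eq_right
  intro y hy
  apply h
  rwa [Metric.mem_ball, Real.dist_eq] at hy

lemma moll_apply {δ : ℝ} (hδ : 0 < δ) (F : ℝ → ℝ) (x : ℝ) :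
    moll δ hδ F x = ∫ t, (bump δ hδ).normed volume t * F (x - t) := rfl

lemma moll_int {δ : ℝ} (hδ : 0 < δ) {F : ℝ → ℝ} (hF : Continuous F) (x : ℝ) :
    Integrable (fun t => (bump δ hδ).normed volume t * F (x - t)) := by
  apply Continuous.integrable_of_hasCompactSupport
  · exact ((bump δ hδ).continuous_normed).mul (hF.comp (by fun_prop))
  · exact (bump δ hδ).hasCompactSupport_normed.mul_right

lemma moll_midHi {δ : ℝ} (hδ : 0 < δ) {F : ℝ → ℝ} (hF : Continuous F) {κ : ℝ} (h : MidHi κ F) :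
    MidHi κ (moll δ hδ F) := by
  intro y t
  rw [moll_apply, moll_apply, moll_apply, ← integral_add (moll_int hδ hF _) (moll_int hδ hF _),
    ← integral_const_mul]
  have e : κ * t ^ 2 = ∫ s, (bump δ hδ).normed volume s * (κ * t ^ 2) := by
    rw [integral_mul_const, (bump δ hδ).integral_normed, one_mul]
  rw [e, ← integral_add ((moll_int hδ hF _).const_mul 2)
    (((bump δ hδ).integrable_normed).mul_const _)]
  apply integral_mono ((moll_int hδ hF _).add (moll_int hδ hF _))
    (((moll_int hδ hF _).const_mul 2).add (((bump δ hδ).integrable_normed).mul_const _))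
  intro s
  simp only [Pi.add_apply]
  have h1 := h (y - s) t
  have h2 : 0 ≤ (bump δ hδ).normed volume s := (bump δ hδ).nonneg_normed s
  have e1 : y + t - s = y - s + t := by ring
  have e2 : y - t - s = y - s - t := by ring
  rw [e1, e2]
  nlinarith [mul_le_mul_of_nonneg_left h1 h2]

lemma moll_midLo {δ : ℝ} (hδ : 0 < δ) {F : ℝ → ℝ} (hF : Continuous F) {κ : ℝ} (h : MidLo κ F) :
    MidLo κ (moll δ hδ F) := by
  have h1 : MidHi κ (fun x => -F x) := fun y t => by have := h y t; simp only; linarith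
  have h2 : MidHi κ (moll δ hδ (fun x => -F x)) := moll_midHi hδ hF.neg h1
  have e : ∀ x, moll δ hδ (fun x => -F x) x = -moll δ hδ F x := by
    intro x
    rw [moll_apply, moll_apply, ← integral_neg]
    congr 1
    ext t
    ring
  intro y t
  have := h2 y t
  rw [e, e, e] at this
  linarith

/-! ### Test functions -/

/-- smooth and constant outside a bounded interval -/
lemma test_of_const {F : ℝ → ℝ} (hF : ∀ n : ℕ, ContDiff ℝ n F) {A B c c' : ℝ}
    (hA : ∀ x, x < A → F x = c) (hB : ∀ x, B < x → F x = c') : Test F where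
  smooth := hF
  bd := by
    intro n
    have hcont : Continuous (iteratedDeriv n F) :=
      (hF n).continuous_iteratedDeriv n le_rfl
    obtain ⟨C, hC⟩ := (isCompact_Icc (a := A - 1) (b := B + 1)).exists_bound_of_continuousOn
      hcont.continuousOn
    have hconst : ∀ (d x : ℝ), |iteratedDeriv n (fun _ : ℝ => d) x| ≤ |d| := by
      intro d x
      rcases n with _ | n
      · simp
      · rw [iteratedDeriv_succ', deriv_const']
        have : iteratedDeriv n (fun _ : ℝ => (0 : ℝ)) x = 0 := by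
          simp
        rw [this]
        simp
    refine ⟨max C (max |c| |c'|), fun x => ?_⟩
    by_cases h1 : x < A
    · have he : F =ᶠ[𝓝 x] fun _ => c := by
        filter_upwards [Iio_mem_nhds h1] with y hy using hA y hy
      rw [he.iteratedDeriv_eq n]
      exact (hconst c x).trans ((le_max_left _ _).trans (le_max_right _ _))
    · by_cases h2 : B < x
      · have he : F =ᶠ[𝓝 x] fun _ => c' := by
          filter_upwards [Ioi_mem_nhds h2] with y hy using hB y hy
        rw [he.iteratedDeriv_eq n]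
        exact (hconst c' x).trans ((le_max_right _ _).trans (le_max_right _ _))
      · refine le_trans ?_ (le_max_left _ _)
        have := hC x ⟨by linarith, by linarith⟩
        rwa [Real.norm_eq_abs] at this

lemma Test.add' {F G : ℝ → ℝ} (hF : Test F) (hG : Test G) : Test fun x => F x + G x where
  smooth n := (hF.smooth n).add (hG.smooth n)
  bd n := by
    obtain ⟨C, hC⟩ := hF.bd n
    obtain ⟨D, hD⟩ := hG.bd n
    refine ⟨C + D, fun x => ?_⟩
    have e : iteratedDeriv n (fun x => F x + G x) x = iteratedDeriv n F x + iteratedDeriv n G x :=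
      iteratedDeriv_fun_add (hF.smooth n).contDiffAt (hG.smooth n).contDiffAt
    rw [e]
    exact (abs_add_le _ _).trans (add_le_add (hC x) (hD x))

lemma Test.const_mul' {F : ℝ → ℝ} (hF : Test F) (c : ℝ) : Test fun x => c * F x where
  smooth n := contDiff_const.mul (hF.smooth n)
  bd n := by
    obtain ⟨C, hC⟩ := hF.bd n
    refine ⟨|c| * C, fun x => ?_⟩
    have e : iteratedDeriv n (fun x => c * F x) x = c * iteratedDeriv n F x :=
      iteratedDeriv_const_mul_field c F
    rw [e, abs_mul]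
    exact mul_le_mul_of_nonneg_left (hC x) (abs_nonneg c)

lemma test_hasDeriv {θ : ℝ → ℝ} (h : Test θ) (x : ℝ) : HasDerivAt θ (iteratedDeriv 1 θ x) x := by
  rw [iteratedDeriv_one]
  exact ((h.smooth 1).differentiable (by norm_num) x).hasDerivAt

lemma test_hasDeriv2 {θ : ℝ → ℝ} (h : Test θ) (x : ℝ) :
    HasDerivAt (iteratedDeriv 1 θ) (iteratedDeriv 2 θ x) x := by
  have h2 : ContDiff ℝ 1 (iteratedDeriv 1 θ) := by
    rw [iteratedDeriv_one]
    exact ((contDiff_succ_iff_deriv (n := 1)).1 (by exact_mod_cast h.smooth 2)).2.2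
  rw [show iteratedDeriv 2 θ = deriv (iteratedDeriv 1 θ) from iteratedDeriv_succ (n := 1)]
  exact (h2.differentiable (by norm_num) x).hasDerivAt

/-- Lipschitz bound from a bound of the first derivative -/
lemma test_lip {θ : ℝ → ℝ} (h : Test θ) {c : ℝ} (hc : ∀ x, |iteratedDeriv 1 θ x| ≤ c) (x y : ℝ) :
    |θ x - θ y| ≤ c * |x - y| := by
  have h := Convex.norm_image_sub_le_of_norm_hasDerivWithin_le (f := θ) (f' := iteratedDeriv 1 θ)
    (C := c) (s := Set.univ) (x := y) (y := x)
    (fun z _ => (test_hasDeriv h z).hasDerivWithinAt)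
    (fun z _ => by rw [Real.norm_eq_abs]; exact hc z)
    convex_univ trivial trivial
  simpa [Real.norm_eq_abs] using h

/-- the first derivative is `T`-Lipschitz -/
lemma test_deriv_lip {θ : ℝ → ℝ} (h : Test θ) {T : ℝ} (hT : ∀ x, |iteratedDeriv 2 θ x| ≤ T)
    (x y : ℝ) : |iteratedDeriv 1 θ x - iteratedDeriv 1 θ y| ≤ T * |x - y| := by
  have h := Convex.norm_image_sub_le_of_norm_hasDerivWithin_le (f := iteratedDeriv 1 θ)
    (f' := iteratedDeriv 2 θ) (C := T) (s := Set.univ) (x := y) (y := x)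
    (fun z _ => (test_hasDeriv2 h z).hasDerivWithinAt)
    (fun z _ => by rw [Real.norm_eq_abs]; exact hT z)
    convex_univ trivial trivial
  simpa [Real.norm_eq_abs] using h

lemma test_midHi {θ : ℝ → ℝ} (h : Test θ) {T : ℝ} (hT : ∀ x, |iteratedDeriv 2 θ x| ≤ T) :
    MidHi T θ := by
  apply midHi_of_deriv (test_hasDeriv h)
  intro x y hxy
  have := test_deriv_lip h hT x y
  rw [abs_of_nonneg (by linarith : (0 : ℝ) ≤ x - y)] at this
  exact (le_abs_self _).trans this

lemma test_midLo {θ : ℝ → ℝ} (h : Test θ) {T : ℝ} (hT : ∀ x, |iteratedDeriv 2 θ x| ≤ T) :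
    MidLo T θ := by
  apply midLo_of_deriv (test_hasDeriv h)
  intro x y hxy
  have := test_deriv_lip h hT x y
  rw [abs_of_nonneg (by linarith : (0 : ℝ) ≤ x - y)] at this
  have := neg_abs_le (iteratedDeriv 1 θ x - iteratedDeriv 1 θ y)
  linarith

lemma midHi_smul {θ : ℝ → ℝ} {T : ℝ} (h1 : MidHi T θ) (h2 : MidLo T θ) (h : ℝ) :
    MidHi (|h| * T) (fun x => h * θ x) := by
  intro y t
  simp only
  have a := h1 y t
  have b := h2 y t
  have hab : |θ (y + t) + θ (y - t) - 2 * θ y| ≤ T * t ^ 2 := abs_le.2 ⟨by linarith, by linarith⟩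
  have hm := mul_le_mul_of_nonneg_left hab (abs_nonneg h)
  rw [← abs_mul] at hm
  have := (le_abs_self _).trans hm
  nlinarith

lemma midLo_smul {θ : ℝ → ℝ} {T : ℝ} (h1 : MidHi T θ) (h2 : MidLo T θ) (h : ℝ) :
    MidLo (|h| * T) (fun x => h * θ x) := by
  intro y t
  simp only
  have a := h1 y t
  have b := h2 y t
  have hab : |θ (y + t) + θ (y - t) - 2 * θ y| ≤ T * t ^ 2 := abs_le.2 ⟨by linarith, by linarith⟩
  have hm := mul_le_mul_of_nonneg_left hab (abs_nonneg h)
  rw [← abs_mul] at hm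
  have := (neg_abs_le _).trans' (neg_le_neg hm)
  nlinarith

/-! ### Main statements -/

/-- **the smooth truncated potential** -/
theorem potential {b R d : ℝ} (hb : 0 < b) (hR : 0 ≤ R) (hd : 0 < d) :
    ∃ F : ℝ → ℝ, ∃ L1 : ℝ, Test F ∧ MidLo b F ∧ MidHi (1 / 4) F ∧
      (∀ L, L1 ≤ L → ∀ x, fqL L b (-1) x ≤ F x) ∧
      (∀ x, F x ≤ fqL (b * R ^ 2 / 2) b (-1) x + d) ∧
      (∀ x, F x ≤ d - b / 2 * Tcut R x ^ 2) := by
  have hb0 := hb.le
  set δ : ℝ := d / (2 * (b * R + 1)) with hδdef
  have hbR : 0 ≤ b * R := mul_nonneg hb0 hR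
  have hδ : 0 < δ := by positivity
  have h2 : 2 * (b * R * δ) ≤ d := by
    have e : δ * (2 * (b * R + 1)) = d := by rw [hδdef]; field_simp
    nlinarith
  have hF0c := F0_cont b R
  have hdist : ∀ x, |moll δ hδ (F0 b R) x - F0 b R x| ≤ b * R * δ := by
    intro x
    apply moll_dist hδ hF0c
    intro y hy
    exact (F0_lip hb0 hR y x).trans (mul_le_mul_of_nonneg_left hy.le hbR)
  have hup : ∀ x, moll δ hδ (F0 b R) x + b * R * δ ≤ d - b / 2 * Tcut R x ^ 2 := by
    intro x
    have h3 := (abs_le.1 (hdist x)).2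
    have h4 := F0_le hb0 hR x
    linarith
  refine ⟨fun x => moll δ hδ (F0 b R) x + b * R * δ, -F0 b R (-1 - R - 4 * (b * R)), ?_, ?_, ?_,
    ?_, ?_, hup⟩
  · apply test_of_const (A := -1 - R - 4 * (b * R) - δ) (B := -1 + δ)
      (c := F0 b R (-1 - R - 4 * (b * R)) + b * R * δ) (c' := 0 + b * R * δ)
    · intro n
      exact (moll_contDiff hδ hF0c n).add contDiff_const
    · intro x hx
      have h3 : F0 b R x = F0 b R (-1 - R - 4 * (b * R)) := F0_left (by linarith)
      rw [moll_eq hδ, h3]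
      intro y hy
      have h4 := (abs_lt.1 hy).2
      rw [h3]
      exact F0_left (by linarith)
    · intro x hx
      have h3 : F0 b R x = 0 := F0_right hb0 R (by linarith)
      rw [moll_eq hδ, h3]
      intro y hy
      have h4 := (abs_lt.1 hy).1
      rw [h3]
      exact F0_right hb0 R (by linarith)
  · have := moll_midLo hδ hF0c (F0_midLo hb0 R)
    intro y t
    have := this y t
    simp only
    linarith
  · have := moll_midHi hδ hF0c (F0_midHi hb0 R)
    intro y t
    have := this y t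
    simp only
    linarith
  · intro L hL x
    have h3 := fqL_le_F0 hb0 R hL x
    have h4 := (abs_le.1 (hdist x)).1
    simp only
    linarith
  · intro x
    rw [fqL_eq hb0 hR]
    have := hup x
    simp only
    linarith

/-- the potential plus a small multiple of a test function -/
theorem potential_add {b R d : ℝ} (hb : 0 < b) (hR : 0 ≤ R) (hd : 0 < d) {θ : ℝ → ℝ} (hθ : Test θ)
    {T : ℝ} (hT0 : ∀ x, |θ x| ≤ T) (hT2 : ∀ x, |iteratedDeriv 2 θ x| ≤ T) :
    ∃ F : ℝ → ℝ, ∃ L1 : ℝ,
      (∀ L, L1 ≤ L → ∀ x, fqL L b (-1) x ≤ F x) ∧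
      (∀ x, F x ≤ fqL (b * R ^ 2 / 2) b (-1) x + d) ∧
      ∀ h : ℝ, |h| * T ≤ 1 / 4 →
        Test (fun x => F x + h * θ x) ∧ MidLo (b + 1 / 4) (fun x => F x + h * θ x) ∧
        MidHi (1 / 2) (fun x => F x + h * θ x) ∧
        (∀ x, F x + h * θ x ≤ d + |h| * T - b / 2 * Tcut R x ^ 2) ∧
        (∀ L, L1 ≤ L → ∀ x, fqL L b (-1) x + h * θ x ≤ F x + h * θ x) := by
  obtain ⟨F, L1, hF, hlo, hhi, h1, h2, h3⟩ := potential hb hR hd
  refine ⟨F, L1, h1, h2, fun h hh => ⟨Test.add' hF (Test.const_mul' hθ h), ?_, ?_, ?_, ?_⟩⟩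
  · have := MidLo.add' hlo (midLo_smul (test_midHi hθ hT2) (test_midLo hθ hT2) h)
    intro y t
    have := this y t
    simp only at this ⊢
    nlinarith [sq_nonneg t]
  · have := MidHi.add' hhi (midHi_smul (test_midHi hθ hT2) (test_midLo hθ hT2) h)
    intro y t
    have := this y t
    simp only at this ⊢
    nlinarith [sq_nonneg t]
  · intro x
    have h4 := h3 x
    have h5 : h * θ x ≤ |h| * T := by
      have := mul_le_mul_of_nonneg_left (hT0 x) (abs_nonneg h)
      rw [← abs_mul] at this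
      exact (le_abs_self _).trans this
    linarith
  · intro L hL x
    have := h1 L hL x
    linarith

end

end Crest.Agent.R146.G7Pot_435
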