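import Crest.Agent.R146.LocCore_508
import Crest.Agent.R146.VTr_468
import Crest.Agent.R146.Asm0204_734

/-!
Row 146, node G7, parts (a), (b) of helper508's note (helper734): the constants of LOCUB.
`G7A W`: for every constant `C` there are `η, s, ε0, R, q` such that the energy bound of the region
`r² ≤ s` is below the variational value minus one, for all `b > 0` at once.
-/

set_option autoImplicit false

open MeasureTheory ProbabilityTheory Filter Crest.ProbabilityR.Perceptron
open scoped Topology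

namespace Crest.Agent.R146.G7a_734

open Crest.Agent.R146.P34_734 Crest.Agent.R146.LocCore_508 Crest.Agent.R146.LocRec_508

noncomputable section

local notation "γ" => gaussianReal 0 1

/-- parts (a), (b) of G7 -/
def G7A (W : BS) : Prop := ∀ αc : ℝ, 0 < αc → (∀ α, 0 < α → α < αc → W.ZeroE α (-1)) →
  ∀ C : ℝ, 0 < C → ∃ η s ε0 R q : ℝ, 0 < η ∧ η ≤ αc ∧ 0 < s ∧ s < 1 ∧ 0 < ε0 ∧ ε0 ≤ 1 / 2 ∧
    2 * αc * ε0 ≤ s ∧ 0 ≤ R ∧ 0 ≤ q ∧ (∀ ε, 0 ≤ ε → ε < ε0 → QLow ε R q) ∧
    ∀ α, αc < α → α < αc + η → ∀ b : ℝ, 0 < b →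
      -(b / 2) * (max (√(α * q) - C * √s) 0) ^ 2 + 1 / 2 * Real.log s ≤
        W.Pv α (fq b (-1)) - 1

/-! ### A smooth truncation of the square -/

/-- tent function -/
def om (T t : ℝ) : ℝ := 2 * max 0 (min t (2 * T - t))

/-- its primitive: `t²` on `[0, T]`, second differences in `[-2, 2]`, constant beyond `2T` -/
def Wt (T t : ℝ) : ℝ := ∫ u in (0 : ℝ)..t, om T u

lemma om_cont (T : ℝ) : Continuous (om T) := by unfold om; fun_prop

lemma om_nonneg (T t : ℝ) : 0 ≤ om T t := by unfold om; positivity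

lemma Wt_deriv (T t : ℝ) : HasDerivAt (Wt T) (om T t) t :=
  intervalIntegral.integral_hasDerivAt_right ((om_cont T).intervalIntegrable _ _)
    ((om_cont T).stronglyMeasurableAtFilter _ _) (om_cont T).continuousAt

lemma Wt_cont (T : ℝ) : Continuous (Wt T) :=
  continuous_iff_continuousAt.2 fun t => (Wt_deriv T t).continuousAt

lemma om_lip (T a b : ℝ) (h : a ≤ b) : |om T b - om T a| ≤ 2 * (b - a) := by
  unfold om
  rw [abs_le]
  constructor <;> rcases max_cases 0 (min a (2 * T - a)) with h1 | h1 <;>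
    rcases max_cases 0 (min b (2 * T - b)) with h2 | h2 <;>
    rcases min_cases a (2 * T - a) with h3 | h3 <;>
    rcases min_cases b (2 * T - b) with h4 | h4 <;> linarith [h1.1, h2.1, h3.1, h4.1, h1.2, h2.2, h3.2, h4.2]

lemma Wt_lo (T : ℝ) : MidLo 2 (Wt T) := by
  have hd : ∀ x, HasDerivAt (fun x => Wt T x + x ^ 2) (om T x + 2 * x) x := fun x => by
    have := (Wt_deriv T x).fun_add (hasDerivAt_pow 2 x)
    simpa using this
  have hc : ConvexOn ℝ Set.univ fun x => Wt T x + x ^ 2 := by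
    refine Monotone.convexOn_univ_of_deriv (fun x => (hd x).differentiableAt) ?_
    intro a b hab
    rw [(hd a).deriv, (hd b).deriv]
    have := (abs_le.1 (om_lip T a b hab)).1
    linarith
  intro y t
  have := hc.2 (Set.mem_univ (y + t)) (Set.mem_univ (y - t)) (show (0 : ℝ) ≤ 1 / 2 by norm_num)
    (show (0 : ℝ) ≤ 1 / 2 by norm_num) (by norm_num)
  simp only [smul_eq_mul] at this
  have e : 1 / 2 * (y + t) + 1 / 2 * (y - t) = y := by ring
  rw [e] at this
  nlinarith

lemma Wt_hi (T : ℝ) : MidHi 2 (Wt T) := by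
  have hd : ∀ x, HasDerivAt (fun x => x ^ 2 - Wt T x) (2 * x - om T x) x := fun x => by
    have := (hasDerivAt_pow 2 x).fun_sub (Wt_deriv T x)
    simpa using this
  have hc : ConvexOn ℝ Set.univ fun x => x ^ 2 - Wt T x := by
    refine Monotone.convexOn_univ_of_deriv (fun x => (hd x).differentiableAt) ?_
    intro a b hab
    rw [(hd a).deriv, (hd b).deriv]
    have := (abs_le.1 (om_lip T a b hab)).2
    linarith
  intro y t
  have := hc.2 (Set.mem_univ (y + t)) (Set.mem_univ (y - t)) (show (0 : ℝ) ≤ 1 / 2 by norm_num)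
    (show (0 : ℝ) ≤ 1 / 2 by norm_num) (by norm_num)
  simp only [smul_eq_mul] at this
  have e : 1 / 2 * (y + t) + 1 / 2 * (y - t) = y := by ring
  rw [e] at this
  nlinarith

lemma Wt_of_nonpos {T t : ℝ} (_hT : 0 ≤ T) (ht : t ≤ 0) : Wt T t = 0 := by
  unfold Wt
  rw [intervalIntegral.integral_symm, neg_eq_zero]
  refine (intervalIntegral.integral_congr (g := fun _ => 0) fun u hu => ?_).trans (by simp)
  rw [Set.uIcc_of_le ht] at hu
  have : om T u = 0 := by
    unfold om
    have h1 : min u (2 * T - u) ≤ 0 := (min_le_left _ _).trans hu.2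
    rw [max_eq_left h1, mul_zero]
  simpa using this

lemma Wt_eq_sq {T t : ℝ} (ht : 0 ≤ t) (htT : t ≤ T) : Wt T t = t ^ 2 := by
  unfold Wt
  have : ∫ u in (0 : ℝ)..t, om T u = ∫ u in (0 : ℝ)..t, 2 * u := by
    refine intervalIntegral.integral_congr fun u hu => ?_
    rw [Set.uIcc_of_le ht] at hu
    have h1 : u ≤ 2 * T - u := by linarith [hu.2]
    simp only [om]
    rw [min_eq_left h1, max_eq_right hu.1]
  rw [this, intervalIntegral.integral_const_mul, integral_id]
  ring

lemma Wt_mono (T : ℝ) : Monotone (Wt T) := by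
  intro a b hab
  have : Wt T b - Wt T a = ∫ u in a..b, om T u :=
    intervalIntegral.integral_interval_sub_left ((om_cont T).intervalIntegrable _ _)
      ((om_cont T).intervalIntegrable _ _)
  have h2 : 0 ≤ ∫ u in a..b, om T u :=
    intervalIntegral.integral_nonneg hab fun u _ => om_nonneg T u
  linarith

lemma Wt_nonneg {T : ℝ} (hT : 0 ≤ T) (t : ℝ) : 0 ≤ Wt T t := by
  rcases le_total t 0 with h | h
  · rw [Wt_of_nonpos hT h]
  · rw [← Wt_of_nonpos hT le_rfl]; exact Wt_mono T h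

lemma Wt_le_sq {T t : ℝ} (hT : 0 ≤ T) : Wt T t ≤ max t 0 ^ 2 := by
  rcases le_total t 0 with h | h
  · rw [Wt_of_nonpos hT h]; positivity
  · rw [max_eq_left h]
    unfold Wt
    have : ∫ u in (0 : ℝ)..t, om T u ≤ ∫ u in (0 : ℝ)..t, 2 * u := by
      refine intervalIntegral.integral_mono_on h ((om_cont T).intervalIntegrable _ _)
        ((by fun_prop : Continuous fun u : ℝ => 2 * u).intervalIntegrable _ _) fun u hu => ?_
      unfold om
      have h1 : max 0 (min u (2 * T - u)) ≤ u := max_le hu.1 (min_le_left _ _)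
      linarith
    refine this.trans (le_of_eq ?_)
    rw [intervalIntegral.integral_const_mul, integral_id]
    ring

lemma Wt_const {T t : ℝ} (_hT : 0 ≤ T) (ht : 2 * T ≤ t) : Wt T t = Wt T (2 * T) := by
  have : Wt T t - Wt T (2 * T) = ∫ u in (2 * T)..t, om T u :=
    intervalIntegral.integral_interval_sub_left ((om_cont T).intervalIntegrable _ _)
      ((om_cont T).intervalIntegrable _ _)
  have h2 : ∫ u in (2 * T)..t, om T u = 0 := by
    refine (intervalIntegral.integral_congr (g := fun _ => 0) fun u hu => ?_).trans (by simp)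
    rw [Set.uIcc_of_le ht] at hu
    have : om T u = 0 := by
      unfold om
      have h1 : min u (2 * T - u) ≤ 0 := (min_le_right _ _).trans (by linarith [hu.1])
      rw [max_eq_left h1, mul_zero]
    simpa using this
  linarith

lemma Wt_le_cut {T t : ℝ} (hT : 0 ≤ T) : Wt T t ≤ (min (max t 0) (2 * T)) ^ 2 := by
  rcases le_total (max t 0) (2 * T) with h | h
  · rw [min_eq_left h]; exact Wt_le_sq hT
  · rw [min_eq_right h]
    rcases le_total t (2 * T) with h2 | h2
    · have : Wt T t ≤ Wt T (2 * T) := Wt_mono T h2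
      refine this.trans ((Wt_le_sq hT).trans (le_of_eq ?_))
      rw [max_eq_left (by linarith)]
    · rw [Wt_const hT h2]
      refine (Wt_le_sq hT).trans (le_of_eq ?_)
      rw [max_eq_left (by linarith)]

lemma Wt_abs {T : ℝ} (hT : 0 ≤ T) (t : ℝ) : |Wt T t| ≤ (2 * T) ^ 2 := by
  rw [abs_of_nonneg (Wt_nonneg hT t)]
  refine (Wt_le_cut hT).trans ?_
  have h1 : min (max t 0) (2 * T) ≤ 2 * T := min_le_right _ _
  have h2 : 0 ≤ min (max t 0) (2 * T) := le_min (le_max_right _ _) (by linarith)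
  exact pow_le_pow_left₀ h2 h1 2

/-- `E (-1 - Z)_+²` -/
def psi2 : ℝ := ∫ z, max (-1 - z) 0 ^ 2 ∂γ

lemma integrable_sq_part : Integrable (fun z : ℝ => max (-1 - z) 0 ^ 2) γ := by
  have h : MemLp (fun z : ℝ => -1 - z) 2 γ := (memLp_const (-1 : ℝ)).sub (memLp_id_gaussianReal 2)
  refine Integrable.mono h.integrable_sq (by fun_prop) (Eventually.of_forall fun z => ?_)
  rw [Real.norm_eq_abs, Real.norm_eq_abs, abs_of_nonneg (sq_nonneg _), abs_of_nonneg (sq_nonneg _)]
  rcases le_total (-1 - z) 0 with h | h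
  · rw [max_eq_right h, zero_pow two_ne_zero]; exact sq_nonneg _
  · rw [max_eq_left h]

lemma psi2_pos : 0 < psi2 := by
  unfold psi2
  rw [integral_pos_iff_support_of_nonneg (fun z => sq_nonneg _) integrable_sq_part]
  have hsub : Set.Iio (-1 : ℝ) ⊆ Function.support fun z : ℝ => max (-1 - z) 0 ^ 2 := by
    intro z hz
    rw [Set.mem_Iio] at hz
    rw [Function.mem_support]
    have : 0 < max (-1 - z) 0 := lt_max_of_lt_left (by linarith)
    exact (pow_pos this 2).ne'
  refine lt_of_lt_of_le (pos_iff_ne_zero.2 fun h0 => ?_) (measure_mono hsub)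
  have hv := gaussianReal_absolutelyContinuous' 0 (one_ne_zero (α := NNReal)) h0
  rw [Real.volume_Iio] at hv
  exact ENNReal.top_ne_zero hv

lemma tendsto_Wt : Tendsto (fun T : ℝ => ∫ z, Wt T (-1 - z) ∂γ) atTop (𝓝 psi2) := by
  unfold psi2
  refine tendsto_integral_filter_of_dominated_convergence (fun z : ℝ => max (-1 - z) 0 ^ 2) ?_ ?_
    integrable_sq_part ?_
  · exact Eventually.of_forall fun T => ((Wt_cont T).comp (by fun_prop)).aestronglyMeasurable
  · filter_upwards [eventually_ge_atTop (0 : ℝ)] with T hT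
    refine Eventually.of_forall fun z => ?_
    rw [Real.norm_eq_abs, abs_of_nonneg (Wt_nonneg hT _)]
    exact Wt_le_sq hT
  · refine Eventually.of_forall fun z => ?_
    refine tendsto_const_nhds.congr' ?_
    filter_upwards [eventually_ge_atTop (0 : ℝ), eventually_ge_atTop (-1 - z)] with T hT hz
    rcases le_total (-1 - z) 0 with h | h
    · rw [Wt_of_nonpos hT h, max_eq_right h]; norm_num
    · rw [Wt_eq_sq h hz, max_eq_left h]

/-- lower bound of the truncated energy of a row -/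
lemma qlow {e : ℝ} (he : 0 < e) : ∃ R : ℝ, 0 ≤ R ∧ ∀ ε : ℝ, 0 ≤ ε → ε ≤ 1 → ε ≤ e / 2 →
    QLow ε R (psi2 - e) := by
  obtain ⟨T, hT0, hT⟩ := ((eventually_ge_atTop (0 : ℝ)).and
    (tendsto_Wt.eventually (lt_mem_nhds (show psi2 - e / 2 < psi2 by linarith)))).exists
  refine ⟨2 * T, by linarith, fun ε h0 h1 h2 κ _ u hu => ?_⟩
  have hBC : BC (fun x => Wt T (-1 - x)) ((2 * T) ^ 2) :=
    ⟨(Wt_cont T).comp (by fun_prop), fun x => Wt_abs hT0 _⟩
  have hhi : MidHi 2 (fun x => Wt T (-1 - x)) := fun y t => by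
    have := Wt_hi T (-1 - y) t
    have e1 : -1 - (y + t) = -1 - y - t := by ring
    have e2 : -1 - (y - t) = -1 - y + t := by ring
    simp only [e1, e2]; linarith
  have hlo : MidLo 2 (fun x => Wt T (-1 - x)) := fun y t => by
    have := Wt_lo T (-1 - y) t
    have e1 : -1 - (y + t) = -1 - y - t := by ring
    have e2 : -1 - (y - t) = -1 - y + t := by ring
    simp only [e1, e2]; linarith
  have hmix := LocMix_508.mix_compare hBC hhi hlo h0 h1 u
  rw [hu, Real.sqrt_one] at hmix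
  simp only [one_mul] at hmix
  have hpr := LindD_846.isProbabilityMeasure_mixtureLaw ε
  have hmono : ∫ x, Wt T (-1 - ∑ i, u i * x i) ∂(Measure.pi fun _ : κ => mixtureLaw ε) ≤
      ∫ x, (Tcut (2 * T) (∑ i, u i * x i)) ^ 2 ∂(Measure.pi fun _ : κ => mixtureLaw ε) := by
    have hm : Continuous fun x : κ → ℝ => ∑ i, u i * x i := by fun_prop
    refine integral_mono ?_ ?_ fun x => ?_
    · refine Integrable.of_bound (C := (2 * T) ^ 2) ?_ (Eventually.of_forall fun x => ?_)
      · exact ((Wt_cont T).comp (by fun_prop)).aestronglyMeasurable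
      · rw [Real.norm_eq_abs]; exact Wt_abs hT0 _
    · refine Integrable.of_bound (C := (2 * T) ^ 2) ?_ (Eventually.of_forall fun x => ?_)
      · have : Continuous fun x : κ → ℝ => Tcut (2 * T) (∑ i, u i * x i) ^ 2 := by
          unfold Tcut; fun_prop
        exact this.aestronglyMeasurable
      · unfold Tcut
        rw [Real.norm_eq_abs, abs_of_nonneg (sq_nonneg _)]
        exact pow_le_pow_left₀ (le_min (le_max_right _ _) (by linarith)) (min_le_right _ _) 2
    · exact Wt_le_cut hT0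
  have := (abs_le.1 hmix).1
  linarith

/-! ### Lower bounds of the variational value -/

lemma integral_fq (b : ℝ) : ∫ z, fq b (-1) z ∂γ = -(b / 2) * psi2 := by
  unfold psi2 fq
  rw [integral_const_mul]

lemma V_ge (W : BS) {b : ℝ} (hb : 0 < b) (m : OverlapProfile) :
    -(b / 2) * psi2 ≤ W.V (fq b (-1)) m := by
  have h := VTr_468.vzero W b (-1) hb (fun _ => 0) continuous_const ⟨0, by simp⟩ m
  simp only [add_zero] at h
  rw [integral_fq] at h
  exact h

lemma Pv_ge_i (W : BS) {α b : ℝ} (hα : 0 ≤ α) (hb : 0 < b) :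
    -(b / 2) * (α * psi2) ≤ W.Pv α (fq b (-1)) := by
  refine le_csInf (Asm0204_734.vals_nonempty W α _) ?_
  rintro x ⟨m, _, rfl⟩
  have h1 := mul_le_mul_of_nonneg_left (V_ge W hb m) hα
  have h2 : 0 ≤ m.entropy.toReal := ENNReal.toReal_nonneg
  nlinarith

lemma Pv_ge_ii (W : BS) {α α' b : ℝ} (hα' : 0 ≤ α') (h : α' ≤ α) (hb : 0 < b) :
    W.Pv α' (fq b (-1)) - (α - α') * (b / 2 * psi2) ≤ W.Pv α (fq b (-1)) := by
  refine le_csInf (Asm0204_734.vals_nonempty W α _) ?_
  rintro x ⟨m, hm, rfl⟩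
  have e1 : W.Pv α' (fq b (-1)) ≤ α' * W.V (fq b (-1)) m + m.entropy.toReal :=
    csInf_le (Asm0204_734.bddBelow_vals W (VTr_468.vzero W) hα' hb) ⟨m, hm, rfl⟩
  have h1 := mul_le_mul_of_nonneg_left (V_ge W hb m) (sub_nonneg.2 h)
  nlinarith

lemma sq_part_ge {x y : ℝ} (hx : 0 ≤ x) (hy : 0 ≤ y) : x ^ 2 - 2 * x * y ≤ (max (x - y) 0) ^ 2 := by
  rcases le_total y x with h | h
  · rw [max_eq_left (by linarith)]; nlinarith
  · rw [max_eq_right (by linarith)]; nlinarith [mul_nonneg hx hy]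

/-- **parts (a), (b) of G7** -/
theorem g7a (W : BS) : G7A W := by
  intro αc hαc hZ C hC
  have hψ := psi2_pos
  -- zero energy at `α' = 15/16 αc`
  set α' : ℝ := 15 / 16 * αc with hα'
  have hα'0 : 0 < α' := by positivity
  obtain ⟨b0, hb0, hE⟩ := hZ α' hα'0 (by rw [hα']; linarith) (αc * psi2 / 16) (by positivity)
  set c0 : ℝ := min (2 / b0) (αc * psi2 / 2) with hc0
  have hc0p : 0 < c0 := by rw [hc0]; positivity
  have hc01 : c0 ≤ 2 / b0 := min_le_left _ _
  have hc02 : c0 ≤ αc * psi2 / 2 := min_le_right _ _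
  -- choice of `s`
  set M : ℝ := 2 * C * √(2 * αc * psi2) with hM
  have hMp : 0 < M := by rw [hM]; positivity
  have hs_tend : Tendsto (fun s : ℝ => M * √s) (𝓝[>] 0) (𝓝 0) := by
    have h1 : Continuous fun s : ℝ => M * √s := by fun_prop
    have h2 := h1.tendsto 0
    simp only [Real.sqrt_zero, mul_zero] at h2
    exact h2.mono_left nhdsWithin_le_nhds
  have hlog := Real.tendsto_log_nhdsGT_zero.eventually (eventually_le_atBot (-4))
  have hev1 : ∀ᶠ s : ℝ in 𝓝[>] 0, 0 < s := eventually_mem_nhdsWithin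
  have hev2 : ∀ᶠ s : ℝ in 𝓝[>] 0, s < 1 :=
    nhdsWithin_le_nhds (Iio_mem_nhds (show (0 : ℝ) < 1 by norm_num))
  obtain ⟨s, hs0, hs1, hs2, hs3⟩ := (hev1.and (hev2.and
      ((hs_tend.eventually (gt_mem_nhds (show (0 : ℝ) < c0 / 2 by positivity))).and hlog))).exists
  -- choice of `q`
  set e : ℝ := min (c0 / (4 * αc)) psi2 with he
  have hep : 0 < e := by rw [he]; positivity
  have he1 : e ≤ c0 / (4 * αc) := min_le_left _ _
  have he2 : e ≤ psi2 := min_le_right _ _
  obtain ⟨R, hR, hQ⟩ := qlow hep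
  set ε0 : ℝ := min (min (e / 2) (1 / 2)) (s / (2 * αc)) with hε0
  have hε0p : 0 < ε0 := by
    have : 0 < s := hs0
    rw [hε0]; positivity
  have hε01 : ε0 ≤ e / 2 := (min_le_left _ _).trans (min_le_left _ _)
  have hε02 : ε0 ≤ 1 / 2 := (min_le_left _ _).trans (min_le_right _ _)
  have hε03 : ε0 ≤ s / (2 * αc) := min_le_right _ _
  refine ⟨αc / 16, s, ε0, R, psi2 - e, by positivity, by linarith, hs0, hs1, hε0p, hε02, ?_, hR,
    by linarith, fun ε h0 h1 => hQ ε h0 (by linarith) (by linarith), ?_⟩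
  · rw [le_div_iff₀ (by positivity)] at hε03
    linarith
  intro α h1 h2 b hb
  have hα0 : 0 < α := hαc.trans h1
  have hα2 : α ≤ 2 * αc := by linarith
  set q : ℝ := psi2 - e with hq
  have hq0 : 0 ≤ q := by rw [hq]; linarith
  have hqψ : q ≤ psi2 := by rw [hq]; linarith
  -- the energy
  set g : ℝ := (max (√(α * q) - C * √s) 0) ^ 2 with hg
  have hg1 : α * psi2 - c0 ≤ g := by
    have h3 := sq_part_ge (Real.sqrt_nonneg (α * q)) (show 0 ≤ C * √s by positivity)
    rw [Real.sq_sqrt (by positivity)] at h3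
    have h4 : √(α * q) ≤ √(2 * αc * psi2) := by
      apply Real.sqrt_le_sqrt
      exact mul_le_mul hα2 hqψ hq0 (by positivity)
    have h5 : 2 * √(α * q) * (C * √s) ≤ M * √s := by
      rw [hM]
      have : 0 ≤ C * √s := by positivity
      nlinarith [mul_le_mul_of_nonneg_right h4 this]
    have h6 : α * psi2 - α * q ≤ c0 / 2 := by
      have e1 : α * psi2 - α * q = α * e := by rw [hq]; ring
      rw [e1]
      have e2 : α * e ≤ 2 * αc * (c0 / (4 * αc)) := mul_le_mul hα2 he1 hep.le (by positivity)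
      have e3 : 2 * αc * (c0 / (4 * αc)) = c0 / 2 := by field_simp; norm_num
      linarith
    have hs2' : M * √s < c0 / 2 := hs2
    linarith
  have hlogs : Real.log s ≤ -4 := hs3
  rcases le_total b b0 with hbb | hbb
  · -- small `b`
    have h3 := Pv_ge_i W (α := α) hα0.le hb
    have h4 : b / 2 * (α * psi2 - g) ≤ 1 := by
      have h5 : b / 2 * (α * psi2 - g) ≤ b / 2 * c0 := by
        refine mul_le_mul_of_nonneg_left ?_ (by positivity)
        linarith
      have h6 : b / 2 * c0 ≤ b0 / 2 * (2 / b0) := mul_le_mul (by linarith) hc01 hc0p.le (by positivity)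
      have h7 : b0 / 2 * (2 / b0) = 1 := by field_simp
      linarith
    nlinarith
  · -- large `b`
    have h3 := Pv_ge_ii W (α := α) (α' := α') hα'0.le (by rw [hα']; linarith) hb
    have h4 := hE b hbb
    have h5 : (α - α') * (b / 2 * psi2) ≤ αc / 8 * (b / 2 * psi2) := by
      refine mul_le_mul_of_nonneg_right ?_ (by positivity)
      rw [hα']; linarith
    have h6 : αc * psi2 / 2 ≤ g := by
      have : αc * psi2 ≤ α * psi2 := mul_le_mul_of_nonneg_right h1.le hψ.le
      linarith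
    have h7 : b / 2 * (αc * psi2 / 2) ≤ b / 2 * g := mul_le_mul_of_nonneg_left h6 (by positivity)
    have h8 : 0 < b * (αc * psi2) := by positivity
    nlinarith

/-- the same in the order of quantifiers fixed by PM-B (post 1015) -/
theorem consts (W : BS) {αc : ℝ} (hαc : 0 < αc) (hZ : ∀ α, 0 < α → α < αc → W.ZeroE α (-1))
    {C : ℝ} (hC : 0 < C) : ∃ ε0 η s R q : ℝ, 0 < ε0 ∧ ε0 ≤ 1 / 2 ∧ 0 < η ∧ η ≤ αc ∧ 0 < s ∧
      s < 1 ∧ 0 ≤ R ∧ 0 ≤ q ∧ 2 * αc * ε0 ≤ s ∧ (∀ ε, 0 ≤ ε → ε < ε0 → QLow ε R q) ∧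
      ∀ α, αc < α → α < αc + η → ∀ b, 0 < b →
        -(b / 2) * (max (√(α * q) - C * √s) 0) ^ 2 + 1 / 2 * Real.log s ≤
          W.Pv α (fq b (-1)) - 1 := by
  obtain ⟨η, s, ε0, R, q, h1, h2, h3, h4, h5, h6, h7, h8, h9, h10, h11⟩ := g7a W αc hαc hZ C hC
  exact ⟨ε0, η, s, R, q, h5, h6, h1, h2, h3, h4, h8, h9, h7, h10, h11⟩

end

end Crest.Agent.R146.G7a_734
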