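import Crest.Agent.R146.G7b_393
import Crest.Agent.R146.G7Pot_435
import Crest.Agent.R146.G7a_734
import Crest.Agent.R146.CtlG_130
import Crest.Agent.R146.ChkS6_47

/-!
Row 146, node G7 (helper393): `LOCCORE → LOCUB W` for every Brownian space `W`.
-/

set_option autoImplicit false

open Crest.Agent.R146.P34_734

namespace Crest.Agent.R146.LocUb_393

open Crest.Agent.R146.LocCore_508 (Tcut LOCCORE)

theorem Tcut_mono {R R' : ℝ} (h : R ≤ R') (hR : 0 ≤ R) (x : ℝ) :
    Tcut R x ^ 2 ≤ Tcut R' x ^ 2 := by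
  unfold Tcut
  have h0 : 0 ≤ min (max (-1 - x) 0) R := le_min (le_max_right _ _) hR
  exact pow_le_pow_left₀ h0 (min_le_min le_rfl h) 2

theorem pot : G7Def_393.POT := by
  intro b R R2 d hb hR hRR hd
  obtain ⟨F, L1, h1, h2, h3, h4, h5, h6⟩ := G7Pot_435.potential hb (hR.trans hRR) hd
  refine ⟨F, h1, h2, h3, fun x => (h6 x).trans ?_, h5, L1, h4⟩
  have := mul_le_mul_of_nonneg_left (Tcut_mono hRR hR x) (by positivity : 0 ≤ b / 2)
  linarith

/-- **G7** -/
theorem locub_of (hCore : LOCCORE) (W : BS) : LOCUB W :=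
  G7b_393.locub_of W hCore (G7a_734.g7a W) pot CtlG_130.vid CtlG_130.vl ChkS6_47.c_APX
    ChkS6_47.c_ENT

end Crest.Agent.R146.LocUb_393
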