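import Crest.Agent.R146.RepairNet_840

/-!
# Row 146: the two explicit points of the phase diagram (helper840)

* `exists_unit_ker` : fewer rows than columns: a unit vector in the kernel;
* `large_density` : for `α ≥ α₁` no unit vector has quadratic energy at most `c N` at margin `-1`, except
  with probability `2 exp (-N)`.
-/

set_option autoImplicit false

open MeasureTheory ProbabilityTheory Set Crest.Agent.R146.RepairLaw_840
  Crest.Agent.R146.RepairNet_840 Crest.ProbabilityR.Perceptron
open scoped ENNReal NNReal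

namespace Crest.Agent.R146.Large_840

/-- fewer rows than columns: a unit vector in the kernel -/
theorem exists_unit_ker {κ J : Type*} [Fintype κ] [Fintype J]
    (hlt : Fintype.card κ < Fintype.card J) (A : κ × J → ℝ) :
    ∃ y : J → ℝ, ∑ i, y i ^ 2 = 1 ∧ ∀ a : κ, ∑ i, A (a, i) * y i = 0 := by
  classical
  set T : (J → ℝ) →ₗ[ℝ] (κ → ℝ) := Matrix.toLin' (Matrix.of fun a i => A (a, i)) with hT
  have hker : T.ker ≠ ⊥ := by
    apply LinearMap.ker_ne_bot_of_finrank_lt
    simpa using hlt
  obtain ⟨x, hx, hx0⟩ := (Submodule.ne_bot_iff _).1 hker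
  have hTx : ∀ a, ∑ i, A (a, i) * x i = 0 := by
    intro a
    have h1 : T x a = 0 := by
      have : T x = 0 := hx
      rw [this]; rfl
    rw [hT, Matrix.toLin'_apply, Matrix.mulVec, dotProduct] at h1
    simpa using h1
  have hpos : 0 < ∑ i, x i ^ 2 := by
    have h0 : 0 ≤ ∑ i, x i ^ 2 := Finset.sum_nonneg fun i _ => sq_nonneg _
    rcases h0.lt_or_eq with h | h
    · exact h
    · exfalso
      apply hx0
      have h2 := (Finset.sum_eq_zero_iff_of_nonneg (fun i _ => sq_nonneg (x i))).1 h.symm
      ext i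
      have := h2 i (Finset.mem_univ i)
      simpa using this
  set s : ℝ := √(∑ i, x i ^ 2) with hs
  have hspos : 0 < s := Real.sqrt_pos.2 hpos
  have hssq : s ^ 2 = ∑ i, x i ^ 2 := Real.sq_sqrt hpos.le
  refine ⟨fun i => s⁻¹ * x i, ?_, fun a => ?_⟩
  · simp_rw [mul_pow]
    rw [← Finset.mul_sum, ← hssq, ← mul_pow, inv_mul_cancel₀ hspos.ne', one_pow]
  · have : ∑ i, A (a, i) * (s⁻¹ * x i) = s⁻¹ * ∑ i, A (a, i) * x i := by
      rw [Finset.mul_sum]
      exact Finset.sum_congr rfl fun i _ => by ring
    rw [this, hTx, mul_zero]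

section rows

variable {κ J : Type*} [Fintype κ] [Fintype J]

/-- The array law is the product over the rows of the row laws. -/
lemma pi_eq_map_rows (ν : Measure ℝ) [SigmaFinite ν] :
    (Measure.pi fun _ : κ × J => ν)
      = (Measure.pi fun _ : κ => Measure.pi fun _ : J => ν).map
          (fun B : κ → J → ℝ => fun q : κ × J => B q.1 q.2) := by
  have hm : Measurable (fun B : κ → J → ℝ => fun q : κ × J => B q.1 q.2) :=
    measurable_pi_lambda _ fun q => (measurable_pi_apply q.2).comp (measurable_pi_apply q.1)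
  refine Measure.pi_eq fun s hs => ?_
  rw [Measure.map_apply hm (MeasurableSet.univ_pi hs)]
  have : (fun B : κ → J → ℝ => fun q : κ × J => B q.1 q.2) ⁻¹' (Set.pi univ s)
      = Set.pi univ fun a : κ => Set.pi univ fun j : J => s (a, j) := by
    ext B
    simp only [Set.mem_preimage, Set.mem_univ_pi]
    exact ⟨fun h a j => h (a, j), fun h q => h q.1 q.2⟩
  rw [this, Measure.pi_pi]
  simp_rw [Measure.pi_pi]
  rw [Fintype.prod_prod_type]

/-- Independence of the rows. -/
theorem lintegral_rows (ν : Measure ℝ) [IsProbabilityMeasure ν] (f : (J → ℝ) → ℝ≥0∞)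
    (hf : Measurable f) :
    ∫⁻ A, ∏ a : κ, f (fun j => A (a, j)) ∂(Measure.pi fun _ : κ × J => ν)
      = (∫⁻ x, f x ∂(Measure.pi fun _ : J => ν)) ^ Fintype.card κ := by
  have hm : Measurable (fun B : κ → J → ℝ => fun q : κ × J => B q.1 q.2) :=
    measurable_pi_lambda _ fun q => (measurable_pi_apply q.2).comp (measurable_pi_apply q.1)
  have hg : Measurable fun A : κ × J → ℝ => ∏ a : κ, f (fun j => A (a, j)) := by
    refine Finset.measurable_prod _ fun a _ => hf.comp ?_
    exact measurable_pi_lambda _ fun j => measurable_pi_apply _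
  rw [pi_eq_map_rows, lintegral_map hg hm]
  have hind : iIndepFun (fun (a : κ) (B : κ → J → ℝ) => f (B a))
      (Measure.pi fun _ : κ => Measure.pi fun _ : J => ν) :=
    iIndepFun_pi fun _ => hf.aemeasurable
  have h := lintegral_prod_eq_prod_lintegral_of_indepFun (Finset.univ : Finset κ) _ hind
    (fun a => hf.comp (measurable_pi_apply a))
  refine h.trans ?_
  rw [← Finset.card_univ, ← Finset.prod_const]
  refine Finset.prod_congr rfl fun a _ => ?_
  exact (measurePreserving_eval (fun _ : κ => Measure.pi fun _ : J => ν) a).lintegral_comp hf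

/-- Chernoff bound for the number of rows with a very negative inner product. -/
theorem measure_few_le {ν : Measure ℝ} [IsProbabilityMeasure ν] (u : J → ℝ) (q t : ℝ) (hq0 : 0 ≤ q)
    (hq : ENNReal.ofReal q ≤ (Measure.pi fun _ : J => ν) {x | lin u x < t}) :
    (Measure.pi fun _ : κ × J => ν) {A |
        ((Finset.univ.filter fun a : κ => lin u (fun j => A (a, j)) < t).card : ℝ)
          ≤ q / 4 * Fintype.card κ}
      ≤ ENNReal.ofReal (Real.exp (-(q / 4 * Fintype.card κ))) := by
  classical
  set P := (Measure.pi fun _ : κ × J => ν) with hP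
  set Q := (Measure.pi fun _ : J => ν) with hQ
  have hSm : MeasurableSet {x : J → ℝ | lin u x < t} :=
    measurableSet_lt (measurable_lin u) measurable_const
  set f : (J → ℝ) → ℝ≥0∞ := fun x => if lin u x < t then ENNReal.ofReal (Real.exp (-1)) else 1
    with hf
  have hfm : Measurable f := Measurable.ite hSm measurable_const measurable_const
  have hrows := lintegral_rows (κ := κ) ν f hfm
  rw [← hP, ← hQ] at hrows
  have he1 : Real.exp (-1) ≤ 1 / 2 := by
    rw [Real.exp_neg]
    have h1 := Real.add_one_le_exp (1 : ℝ)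
    rw [inv_le_comm₀ (Real.exp_pos _) (by norm_num)]
    norm_num at h1 ⊢
    exact h1
  -- one row
  have hone : ∫⁻ x, f x ∂Q ≤ ENNReal.ofReal (Real.exp (-(q / 2))) := by
    set p : ℝ := Q.real {x | lin u x < t} with hp
    have hqp : q ≤ p := by
      rw [hp, measureReal_def]
      exact (ENNReal.ofReal_le_iff_le_toReal (measure_ne_top _ _)).1 hq
    have h1 : ∫⁻ x, f x ∂Q = ENNReal.ofReal (Real.exp (-1)) * Q {x | lin u x < t}
        + Q {x | lin u x < t}ᶜ := by
      rw [← lintegral_add_compl f hSm]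
      congr 1
      · rw [setLIntegral_congr_fun hSm (g := fun _ => ENNReal.ofReal (Real.exp (-1)))]
        · rw [setLIntegral_const]
        · intro x hx
          have : lin u x < t := hx
          simp [hf, this]
      · rw [setLIntegral_congr_fun hSm.compl (g := fun _ => 1)]
        · rw [setLIntegral_const, one_mul]
        · intro x hx
          have : ¬ lin u x < t := hx
          simp [hf, this]
    rw [h1, prob_compl_eq_one_sub hSm]
    have h2 : Q {x | lin u x < t} = ENNReal.ofReal p := by
      rw [hp, ofReal_measureReal]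
    rw [h2, ← ENNReal.ofReal_mul (Real.exp_pos _).le, ← ENNReal.ofReal_one,
      ← ENNReal.ofReal_sub _ (by positivity), ← ENNReal.ofReal_add (by positivity)
        (by have : p ≤ 1 := measureReal_le_one
            linarith)]
    refine ENNReal.ofReal_le_ofReal ?_
    have h3 := Real.add_one_le_exp (-(q / 2))
    have hp0 : 0 ≤ p := measureReal_nonneg
    nlinarith
  have hprod : ∀ A : κ × J → ℝ, ∏ a : κ, f (fun j => A (a, j))
      = ENNReal.ofReal (Real.exp (-((Finset.univ.filter
          fun a : κ => lin u (fun j => A (a, j)) < t).card : ℝ))) := by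
    intro A
    rw [hf]
    simp only
    rw [Finset.prod_ite, Finset.prod_const_one, mul_one, Finset.prod_const,
      ← ENNReal.ofReal_pow (Real.exp_pos _).le, ← Real.exp_nat_mul]
    congr 2
    ring
  simp_rw [hprod] at hrows
  set M : ℝ := (Fintype.card κ : ℝ) with hM
  have hcm : Measurable fun A : κ × J → ℝ =>
      ((Finset.univ.filter fun a : κ => lin u (fun j => A (a, j)) < t).card : ℝ) := by
    have : (fun A : κ × J → ℝ =>
        ((Finset.univ.filter fun a : κ => lin u (fun j => A (a, j)) < t).card : ℝ))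
        = fun A => ∑ a : κ, if lin u (fun j => A (a, j)) < t then (1 : ℝ) else 0 := by
      ext A
      rw [Finset.sum_ite, Finset.sum_const_zero, add_zero, Finset.sum_const, nsmul_eq_mul, mul_one]
    rw [this]
    refine Finset.measurable_sum _ fun a _ => Measurable.ite ?_ measurable_const measurable_const
    exact measurableSet_lt ((measurable_lin u).comp
      (measurable_pi_lambda _ fun j => measurable_pi_apply _)) measurable_const
  calc P {A | ((Finset.univ.filter fun a : κ => lin u (fun j => A (a, j)) < t).card : ℝ)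
          ≤ q / 4 * M}
      ≤ ∫⁻ A, ENNReal.ofReal (Real.exp (q / 4 * M)) * ENNReal.ofReal (Real.exp
          (-((Finset.univ.filter fun a : κ => lin u (fun j => A (a, j)) < t).card : ℝ))) ∂P := by
        rw [← lintegral_indicator_one (measurableSet_le hcm measurable_const)]
        refine lintegral_mono fun A => ?_
        by_cases hA : ((Finset.univ.filter fun a : κ => lin u (fun j => A (a, j)) < t).card : ℝ)
          ≤ q / 4 * M
        · rw [Set.indicator_of_mem (by exact hA)]
          rw [← ENNReal.ofReal_mul (Real.exp_pos _).le, ← Real.exp_add]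
          simp only [Pi.one_apply]
          rw [← ENNReal.ofReal_one]
          refine ENNReal.ofReal_le_ofReal (Real.one_le_exp ?_)
          linarith
        · rw [Set.indicator_of_notMem (by exact hA)]
          exact zero_le
    _ = ENNReal.ofReal (Real.exp (q / 4 * M)) * ∫⁻ A, ENNReal.ofReal (Real.exp
          (-((Finset.univ.filter fun a : κ => lin u (fun j => A (a, j)) < t).card : ℝ))) ∂P :=
        lintegral_const_mul' _ _ ENNReal.ofReal_ne_top
    _ ≤ ENNReal.ofReal (Real.exp (q / 4 * M)) *
          ENNReal.ofReal (Real.exp (-(q / 2))) ^ Fintype.card κ := by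
        rw [hrows]
        gcongr
    _ = ENNReal.ofReal (Real.exp (-(q / 4 * M))) := by
        rw [← ENNReal.ofReal_pow (Real.exp_pos _).le, ← ENNReal.ofReal_mul (Real.exp_pos _).le,
          ← Real.exp_nat_mul, ← Real.exp_add]
        congr 2
        rw [← hM]
        ring

/-- Operator norm of an array with iid entries, explicit constant. -/
theorem opnorm_event {ν : Measure ℝ} (h : Good ν) (α : ℝ) (hα : 0 ≤ α)
    (hcard : (Fintype.card κ : ℝ) ≤ α * Fintype.card J) :
    (Measure.pi fun _ : κ × J => ν) {A | ¬ ∀ l : κ → ℝ,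
          ‖vec A l‖ ≤ 8 * √(α + 1) * √(Fintype.card J) * √(∑ a, l a ^ 2)}
        ≤ ENNReal.ofReal (Real.exp (-(Fintype.card J : ℝ))) := by
  classical
  have hprob := h.prob
  set C : ℝ := 8 * √(α + 1) with hC
  have hCsq : C ^ 2 = 64 * (α + 1) := by
    rw [hC, mul_pow, Real.sq_sqrt (by linarith)]
    norm_num
  set n : ℝ := (Fintype.card J : ℝ) with hn
  have hn0 : 0 ≤ n := by positivity
  set P := (Measure.pi fun _ : κ × J => ν) with hP
  obtain ⟨N0, hN0c, hN01, hN0⟩ := exists_half_net (EuclideanSpace ℝ κ)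
  set bad0 : Set (κ × J → ℝ) := ⋃ c ∈ N0, {A | (C / 2) ^ 2 * n ≤ quad (fun a => c a) A} with hbad0
  have hincl : {A : κ × J → ℝ | ¬ ∀ l : κ → ℝ, ‖vec A l‖ ≤ C * √n * √(∑ a, l a ^ 2)} ⊆ bad0 := by
    intro A hA
    by_contra hA0
    apply hA
    intro l
    have h1 : ∀ c ∈ N0, quad (fun a => c a) A ≤ (C / 2 * √n) ^ 2 := by
      intro c hc
      by_contra hlt
      push Not at hlt
      apply hA0
      refine Set.mem_iUnion₂.2 ⟨c, hc, ?_⟩
      have : (C / 2 * √n) ^ 2 = (C / 2) ^ 2 * n := by rw [mul_pow, Real.sq_sqrt hn0]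
      rw [this] at hlt
      exact hlt.le
    have h2 := norm_vec_le_of_net N0 hN0 A (C / 2 * √n) (by positivity) h1 l
    refine h2.trans (le_of_eq ?_)
    ring
  refine (measure_mono hincl).trans ?_
  calc P bad0 ≤ ∑ c ∈ N0, P {A | (C / 2) ^ 2 * n ≤ quad (fun a => c a) A} :=
        measure_biUnion_finset_le _ _
    _ ≤ ∑ _c ∈ N0, ENNReal.ofReal (√2 ^ Fintype.card J * Real.exp (-((C / 2) ^ 2 * n) / 8)) := by
        refine Finset.sum_le_sum fun c hc => measure_quad_ge h _ ?_ _
        have h1 : ∑ a, c a ^ 2 = ‖c‖ ^ 2 := by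
          rw [EuclideanSpace.norm_sq_eq]
          simp
        rw [h1]
        have := hN01 c hc
        have := norm_nonneg c
        nlinarith
    _ = (N0.card : ℝ≥0∞) *
          ENNReal.ofReal (√2 ^ Fintype.card J * Real.exp (-((C / 2) ^ 2 * n) / 8)) := by
        rw [Finset.sum_const, nsmul_eq_mul]
    _ ≤ ENNReal.ofReal (5 ^ Fintype.card κ) *
          ENNReal.ofReal (√2 ^ Fintype.card J * Real.exp (-((C / 2) ^ 2 * n) / 8)) := by
        gcongr
        rw [← ENNReal.ofReal_natCast]
        refine ENNReal.ofReal_le_ofReal ?_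
        rw [finrank_euclideanSpace] at hN0c
        exact_mod_cast hN0c
    _ = ENNReal.ofReal (5 ^ Fintype.card κ *
          (√2 ^ Fintype.card J * Real.exp (-((C / 2) ^ 2 * n) / 8))) := by
        rw [← ENNReal.ofReal_mul (by positivity)]
    _ ≤ ENNReal.ofReal (Real.exp (-n)) := by
        refine ENNReal.ofReal_le_ofReal ?_
        have h5 : (5 : ℝ) ≤ Real.exp 2 := by
          have h1 := Real.exp_one_gt_d9
          have h2 : Real.exp 2 = Real.exp 1 * Real.exp 1 := by
            rw [← Real.exp_add]; norm_num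
          rw [h2]
          nlinarith
        have h2 : √2 ≤ Real.exp 1 := by
          have h1 := Real.exp_one_gt_d9
          have : √2 ≤ 2 := by
            rw [Real.sqrt_le_left (by norm_num)]; norm_num
          linarith
        calc (5 : ℝ) ^ Fintype.card κ *
              (√2 ^ Fintype.card J * Real.exp (-((C / 2) ^ 2 * n) / 8))
            ≤ Real.exp 2 ^ Fintype.card κ *
              (Real.exp 1 ^ Fintype.card J * Real.exp (-((C / 2) ^ 2 * n) / 8)) := by
              gcongr
          _ = Real.exp (2 * Fintype.card κ + n - (α + 1) * 2 * n) := by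
              rw [← Real.exp_nat_mul, ← Real.exp_nat_mul, ← Real.exp_add, ← Real.exp_add]
              congr 1
              rw [div_pow, hCsq, ← hn]
              ring
          _ ≤ Real.exp (-n) := by
              apply Real.exp_le_exp.2
              nlinarith

/-- the bound of the transpose gives the bound of the array -/
lemma sum_lin_sq_le (A : κ × J → ℝ) (B : ℝ)
    (hA : ∀ l : κ → ℝ, ‖vec A l‖ ≤ B * √(∑ a, l a ^ 2)) (y : J → ℝ) :
    ∑ a, lin y (fun j => A (a, j)) ^ 2 ≤ B ^ 2 * ∑ j, y j ^ 2 := by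
  set l : κ → ℝ := fun a => lin y (fun j => A (a, j)) with hl
  set S : ℝ := ∑ a, l a ^ 2 with hS
  have hS0 : 0 ≤ S := Finset.sum_nonneg fun a _ => sq_nonneg _
  set z : EuclideanSpace ℝ J := WithLp.toLp 2 y with hz
  have h1 : inner ℝ (vec A l) z = S := by
    rw [vec, sum_inner]
    refine Finset.sum_congr rfl fun a _ => ?_
    rw [inner_smul_left, PiLp.inner_apply]
    have : ∑ i, inner ℝ ((row A a) i) (z i) = l a := by
      rw [hl]
      simp only [lin]
      refine Finset.sum_congr rfl fun i _ => ?_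
      simp [row, hz]
    rw [this]
    simp [pow_two]
  have h2 : S ≤ B * √S * ‖z‖ := by
    calc S = inner ℝ (vec A l) z := h1.symm
      _ ≤ ‖vec A l‖ * ‖z‖ := real_inner_le_norm _ _
      _ ≤ B * √S * ‖z‖ := by
        gcongr
        exact hA l
  have hz2 : ‖z‖ ^ 2 = ∑ j, y j ^ 2 := by
    rw [EuclideanSpace.norm_sq_eq]
    simp [hz]
  rw [← hz2]
  rcases hS0.lt_or_eq with hpos | h0
  · have hsp : 0 < √S := Real.sqrt_pos.2 hpos
    have hss : √S * √S = S := Real.mul_self_sqrt hS0
    have h3 : √S ≤ B * ‖z‖ := by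
      have : √S * √S ≤ √S * (B * ‖z‖) := by
        rw [hss]; linarith
      exact le_of_mul_le_mul_left this hsp
    calc S = √S ^ 2 := (Real.sq_sqrt hS0).symm
      _ ≤ (B * ‖z‖) ^ 2 := by gcongr
      _ = B ^ 2 * ‖z‖ ^ 2 := by ring
  · rw [← h0]; positivity

end rows

/-- **Large density, any good law with a uniform lower tail.** -/
theorem large_density_of_tail {ν : Measure ℝ} (h : Good ν) (q : ℝ) (hq : 0 < q)
    (htail : ∀ (N : ℕ) (u : Fin N → ℝ), ∑ i, u i ^ 2 = 1 →
      ENNReal.ofReal q ≤ (Measure.pi fun _ : Fin N => ν) {x | lin u x < -6}) :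
    ∃ α₁ : ℝ, 0 < α₁ ∧ ∃ c : ℝ, 0 < c ∧ ∀ α : ℝ, α₁ ≤ α → ∀ N : ℕ, 0 < N →
      (Measure.pi fun _ : Fin (numPatterns N α) × Fin N => ν) {A : Patterns N α |
        ∃ y : Fin N → ℝ, ∑ i, y i ^ 2 = 1 ∧
          ∑ μ : Fin (numPatterns N α), (max (-(∑ i, A (μ, i) * y i + 1)) 0) ^ 2 ≤ c * N}
        ≤ ENNReal.ofReal (2 * Real.exp (-(N : ℝ))) := by
  classical
  have hprob := h.prob
  -- `q ≤ 1`
  have hq1 : q ≤ 1 := by
    have h1 := htail 1 (fun _ => 1) (by simp)
    have h2 : (Measure.pi fun _ : Fin 1 => ν) {x | lin (fun _ => 1) x < -6} ≤ 1 := prob_le_one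
    have h3 := h1.trans h2
    exact ENNReal.ofReal_le_one.1 h3
  obtain ⟨k, hk⟩ : ∃ k : ℕ, (1 / 2 : ℝ) ^ k < √(q / 1024) :=
    exists_pow_lt_of_lt_one (by positivity) (by norm_num)
  set α₁ : ℝ := 3 + (4 / q) * (2 * k + 1) * 2 with hα₁
  have hα₁3 : 3 ≤ α₁ := by
    have : 0 ≤ (4 / q) * (2 * k + 1) * 2 := by positivity
    linarith
  refine ⟨α₁, by linarith, q / 8, by positivity, ?_⟩
  intro α hα N hN
  have hα0 : 0 ≤ α := by linarith
  set M : ℕ := numPatterns N α with hM
  set n : ℝ := (N : ℝ) with hn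
  have hn1 : 1 ≤ n := by rw [hn]; exact_mod_cast hN
  have hMle : (M : ℝ) ≤ α * n := Nat.floor_le (by positivity)
  have hMge : (α + 1) * n / 2 ≤ M := by
    have h1 : α * n < M + 1 := Nat.lt_floor_add_one _
    nlinarith
  set P := (Measure.pi fun _ : Fin M × Fin N => ν) with hP
  obtain ⟨S, hSc, hS⟩ := exists_net (EuclideanSpace ℝ (Fin N)) k
  set B : ℝ := 8 * √(α + 1) * √n with hB
  set bad0 : Set (Fin M × Fin N → ℝ) := {A | ¬ ∀ l : Fin M → ℝ, ‖vec A l‖ ≤ B * √(∑ a, l a ^ 2)}
    with hbad0
  set bad1 : Set (Fin M × Fin N → ℝ) := ⋃ c ∈ S.filter (fun c => 1 / 2 ≤ ‖c‖),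
    {A | ((Finset.univ.filter fun a : Fin M =>
      lin (fun i => ‖c‖⁻¹ * c i) (fun j => A (a, j)) < -6).card : ℝ) ≤ q / 4 * M} with hbad1
  have hincl : {A : Patterns N α | ∃ y : Fin N → ℝ, ∑ i, y i ^ 2 = 1 ∧
      ∑ μ : Fin M, (max (-(∑ i, A (μ, i) * y i + 1)) 0) ^ 2 ≤ q / 8 * n} ⊆ bad0 ∪ bad1 := by
    rintro A ⟨y, hy, hE⟩
    by_cases hA0 : A ∈ bad0
    · exact Or.inl hA0
    right
    have hop : ∀ l : Fin M → ℝ, ‖vec A l‖ ≤ B * √(∑ a, l a ^ 2) := by
      by_contra hcon
      exact hA0 hcon
    set z : EuclideanSpace ℝ (Fin N) := WithLp.toLp 2 y with hz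
    have hzn : ‖z‖ = 1 := by
      rw [EuclideanSpace.norm_eq]
      simp [hz, hy]
    obtain ⟨c, hc, hzc⟩ := hS z hzn.le
    have hsmall : (1 / 2 : ℝ) ^ k ≤ 1 / 32 := by
      refine hk.le.trans ?_
      rw [Real.sqrt_le_left (by norm_num)]
      linarith
    have hchalf : 1 / 2 ≤ ‖c‖ := by
      have h1 : ‖z‖ ≤ ‖z - c‖ + ‖c‖ := by
        have := norm_add_le (z - c) c
        simpa using this
      linarith
    have hcpos : 0 < ‖c‖ := by linarith
    refine Set.mem_iUnion₂.2 ⟨c, Finset.mem_filter.2 ⟨hc, hchalf⟩, ?_⟩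
    show ((Finset.univ.filter fun a : Fin M =>
      lin (fun i => ‖c‖⁻¹ * c i) (fun j => A (a, j)) < -6).card : ℝ) ≤ q / 4 * M
    -- rows
    set F := Finset.univ.filter fun a : Fin M =>
      lin (fun i => ‖c‖⁻¹ * c i) (fun j => A (a, j)) < -6 with hF
    set F1 := Finset.univ.filter fun a : Fin M => lin y (fun j => A (a, j)) < -2 with hF1
    set F2 := Finset.univ.filter fun a : Fin M =>
      1 < |lin (fun i => y i - c i) (fun j => A (a, j))| with hF2
    have hsub : F ⊆ F1 ∪ F2 := by
      intro a ha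
      have ha' : lin (fun i => ‖c‖⁻¹ * c i) (fun j => A (a, j)) < -6 := (Finset.mem_filter.1 ha).2
      have h1 : lin (fun i => ‖c‖⁻¹ * c i) (fun j => A (a, j))
          = ‖c‖⁻¹ * lin (fun i => c i) (fun j => A (a, j)) := by
        simp only [lin]
        rw [Finset.mul_sum]
        exact Finset.sum_congr rfl fun i _ => by ring
      have h2 : lin (fun i => c i) (fun j => A (a, j)) < -3 := by
        rw [h1] at ha'
        have h3 : lin (fun i => c i) (fun j => A (a, j)) < -6 * ‖c‖ := by
          rw [inv_mul_lt_iff₀ hcpos] at ha'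
          linarith
        linarith
      by_contra hcon
      rw [Finset.mem_union, not_or] at hcon
      have h3 : -2 ≤ lin y (fun j => A (a, j)) := by
        by_contra hlt
        exact hcon.1 (Finset.mem_filter.2 ⟨Finset.mem_univ _, not_le.1 hlt⟩)
      have h4 : |lin (fun i => y i - c i) (fun j => A (a, j))| ≤ 1 := by
        by_contra hlt
        exact hcon.2 (Finset.mem_filter.2 ⟨Finset.mem_univ _, not_le.1 hlt⟩)
      have h5 : lin (fun i => y i - c i) (fun j => A (a, j))
          = lin y (fun j => A (a, j)) - lin (fun i => c i) (fun j => A (a, j)) := by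
        simp only [lin]
        rw [← Finset.sum_sub_distrib]
        exact Finset.sum_congr rfl fun i _ => by ring
      rw [h5] at h4
      have := (abs_le.1 h4).2
      linarith
    have hF1c : (F1.card : ℝ) ≤ q / 8 * n := by
      calc (F1.card : ℝ) = ∑ a ∈ F1, (1 : ℝ) := by simp
        _ ≤ ∑ a ∈ F1, (max (-(∑ i, A (a, i) * y i + 1)) 0) ^ 2 := by
          refine Finset.sum_le_sum fun a ha => ?_
          have ha' : lin y (fun j => A (a, j)) < -2 := (Finset.mem_filter.1 ha).2
          have h1 : lin y (fun j => A (a, j)) = ∑ i, A (a, i) * y i := by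
            simp only [lin]
            exact Finset.sum_congr rfl fun i _ => mul_comm _ _
          rw [h1] at ha'
          have h2 : 1 ≤ max (-(∑ i, A (a, i) * y i + 1)) 0 := by
            refine le_trans ?_ (le_max_left _ _)
            linarith
          nlinarith
        _ ≤ ∑ a, (max (-(∑ i, A (a, i) * y i + 1)) 0) ^ 2 :=
          Finset.sum_le_sum_of_subset_of_nonneg (Finset.subset_univ _) fun a _ _ => sq_nonneg _
        _ ≤ q / 8 * n := hE
    have hF2c : (F2.card : ℝ) ≤ q / 16 * ((α + 1) * n) := by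
      calc (F2.card : ℝ) = ∑ a ∈ F2, (1 : ℝ) := by simp
        _ ≤ ∑ a ∈ F2, lin (fun i => y i - c i) (fun j => A (a, j)) ^ 2 := by
          refine Finset.sum_le_sum fun a ha => ?_
          have ha' : 1 < |lin (fun i => y i - c i) (fun j => A (a, j))| := (Finset.mem_filter.1 ha).2
          rw [← sq_abs]
          nlinarith
        _ ≤ ∑ a, lin (fun i => y i - c i) (fun j => A (a, j)) ^ 2 :=
          Finset.sum_le_sum_of_subset_of_nonneg (Finset.subset_univ _) fun a _ _ => sq_nonneg _
        _ ≤ B ^ 2 * ∑ i, (y i - c i) ^ 2 := sum_lin_sq_le A B hop _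
        _ ≤ B ^ 2 * (q / 1024) := by
          gcongr
          have h1 : ∑ i, (y i - c i) ^ 2 = ‖z - c‖ ^ 2 := by
            rw [EuclideanSpace.norm_sq_eq]
            simp [hz]
          rw [h1]
          have h2 : ‖z - c‖ ≤ √(q / 1024) := hzc.trans hk.le
          calc ‖z - c‖ ^ 2 ≤ √(q / 1024) ^ 2 := by gcongr
            _ = q / 1024 := Real.sq_sqrt (by positivity)
        _ = q / 16 * ((α + 1) * n) := by
          rw [hB, mul_pow, mul_pow, Real.sq_sqrt (by linarith), Real.sq_sqrt (by linarith)]
          ring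
    have hcardF : (F.card : ℝ) ≤ F1.card + F2.card := by
      exact_mod_cast (Finset.card_le_card hsub).trans (Finset.card_union_le _ _)
    nlinarith
  have hP0 : P bad0 ≤ ENNReal.ofReal (Real.exp (-n)) := by
    have h1 := opnorm_event (κ := Fin M) (J := Fin N) h α hα0 (by simpa using hMle)
    simpa [hbad0, hB, hn] using h1
  have hP1 : P bad1 ≤ ENNReal.ofReal (Real.exp (-n)) := by
    calc P bad1 ≤ ∑ c ∈ S.filter (fun c => 1 / 2 ≤ ‖c‖), P {A | ((Finset.univ.filter fun a : Fin M =>
            lin (fun i => ‖c‖⁻¹ * c i) (fun j => A (a, j)) < -6).card : ℝ) ≤ q / 4 * M} :=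
          measure_biUnion_finset_le _ _
      _ ≤ ∑ _c ∈ S.filter (fun c => 1 / 2 ≤ ‖c‖), ENNReal.ofReal (Real.exp (-(q / 4 * M))) := by
          refine Finset.sum_le_sum fun c hc => ?_
          have hc2 : 1 / 2 ≤ ‖c‖ := (Finset.mem_filter.1 hc).2
          have hcpos : 0 < ‖c‖ := by linarith
          have hunit : ∑ i, (‖c‖⁻¹ * c i) ^ 2 = 1 := by
            have h1 : ∑ i, c i ^ 2 = ‖c‖ ^ 2 := by
              rw [EuclideanSpace.norm_sq_eq]
              simp
            simp_rw [mul_pow]
            rw [← Finset.mul_sum, h1, ← mul_pow, inv_mul_cancel₀ hcpos.ne', one_pow]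
          have := measure_few_le (κ := Fin M) (J := Fin N) (ν := ν) (fun i => ‖c‖⁻¹ * c i) q (-6)
            hq.le (htail N _ hunit)
          simpa using this
      _ = ((S.filter (fun c => 1 / 2 ≤ ‖c‖)).card : ℝ≥0∞) *
            ENNReal.ofReal (Real.exp (-(q / 4 * M))) := by
          rw [Finset.sum_const, nsmul_eq_mul]
      _ ≤ ENNReal.ofReal ((5 ^ k) ^ N) * ENNReal.ofReal (Real.exp (-(q / 4 * M))) := by
          gcongr
          rw [← ENNReal.ofReal_natCast]
          refine ENNReal.ofReal_le_ofReal ?_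
          have h1 : (S.filter (fun c => 1 / 2 ≤ ‖c‖)).card ≤ (5 ^ k) ^ N := by
            refine (Finset.card_filter_le _ _).trans ?_
            rw [finrank_euclideanSpace, Fintype.card_fin] at hSc
            exact hSc
          exact_mod_cast h1
      _ = ENNReal.ofReal ((5 ^ k) ^ N * Real.exp (-(q / 4 * M))) := by
          rw [← ENNReal.ofReal_mul (by positivity)]
      _ ≤ ENNReal.ofReal (Real.exp (-n)) := by
          refine ENNReal.ofReal_le_ofReal ?_
          have h5 : (5 : ℝ) ≤ Real.exp 2 := by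
            have h1 := Real.exp_one_gt_d9
            have h2 : Real.exp 2 = Real.exp 1 * Real.exp 1 := by
              rw [← Real.exp_add]; norm_num
            rw [h2]
            nlinarith
          calc ((5 : ℝ) ^ k) ^ N * Real.exp (-(q / 4 * M))
              ≤ (Real.exp 2 ^ k) ^ N * Real.exp (-(q / 4 * M)) := by gcongr
            _ = Real.exp (n * (k * 2) - q / 4 * M) := by
                rw [← Real.exp_nat_mul, ← Real.exp_nat_mul, ← Real.exp_add, ← hn]
                ring_nf
            _ ≤ Real.exp (-n) := by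
                apply Real.exp_le_exp.2
                have h1 : (4 / q) * (2 * k + 1) * n ≤ M := by
                  have h2 : (4 / q) * (2 * k + 1) * 2 ≤ α + 1 := by
                    have : (4 / q) * (2 * k + 1) * 2 = α₁ - 3 := by rw [hα₁]; ring
                    linarith
                  nlinarith
                have h3 : (2 * k + 1) * n ≤ q / 4 * M := by
                  have h4 : q / 4 * ((4 / q) * (2 * k + 1) * n) ≤ q / 4 * M := by gcongr
                  have h5 : q / 4 * ((4 / q) * (2 * k + 1) * n) = (2 * k + 1) * n := by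
                    field_simp
                  linarith
                linarith
  calc P _ ≤ P (bad0 ∪ bad1) := measure_mono hincl
    _ ≤ P bad0 + P bad1 := measure_union_le _ _
    _ ≤ ENNReal.ofReal (Real.exp (-n)) + ENNReal.ofReal (Real.exp (-n)) := add_le_add hP0 hP1
    _ = ENNReal.ofReal (2 * Real.exp (-n)) := by
        rw [← ENNReal.ofReal_add (by positivity) (by positivity)]
        congr 1
        ring

/-- The law of a unit linear combination of iid standard Gaussians. -/
theorem map_lin_gaussian {J : Type*} [Fintype J] (u : J → ℝ) (hu : ∑ i, u i ^ 2 = 1) :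
    (Measure.pi fun _ : J => gaussianReal 0 1).map (lin u) = gaussianReal 0 1 := by
  have hind : iIndepFun (fun (a : J) (x : J → ℝ) => u a * x a)
      (Measure.pi fun _ : J => gaussianReal 0 1) :=
    iIndepFun_pi (X := fun (a : J) (x : ℝ) => u a * x) fun a =>
      (measurable_id.const_mul (u a)).aemeasurable
  have hg : ∀ a, HasGaussianLaw (fun x : J → ℝ => u a * x a)
      (Measure.pi fun _ : J => gaussianReal 0 1) := by
    intro a
    have h1 : HasLaw (fun x : J → ℝ => x a) (gaussianReal 0 1)
        (Measure.pi fun _ : J => gaussianReal 0 1) :=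
      ⟨(measurable_pi_apply a).aemeasurable, (measurePreserving_eval _ a).map_eq⟩
    exact h1.hasGaussianLaw.fun_smul (u a)
  have hsum : HasGaussianLaw (lin u) (Measure.pi fun _ : J => gaussianReal 0 1) :=
    iIndepFun.hasGaussianLaw_fun_sum hg hind
  obtain ⟨i2, m2, -, -⟩ := lin_moments good_gaussian u hu
  have hL2 : MemLp (lin u) 2 (Measure.pi fun _ : J => gaussianReal 0 1) := hsum.memLp_two
  have hmean : ∫ x, lin u x ∂(Measure.pi fun _ : J => gaussianReal 0 1) = 0 := by
    unfold lin
    rw [integral_finsetSum]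
    · refine Finset.sum_eq_zero fun a _ => ?_
      rw [integral_const_mul]
      have h1 : ∫ x : J → ℝ, x a ∂(Measure.pi fun _ : J => gaussianReal 0 1) = 0 := by
        have h2 : ∫ y, y ∂((Measure.pi fun _ : J => gaussianReal 0 1).map (Function.eval a))
            = ∫ x : J → ℝ, x a ∂(Measure.pi fun _ : J => gaussianReal 0 1) :=
          integral_map (measurable_pi_apply a).aemeasurable
            (by exact measurable_id.aestronglyMeasurable)
        rw [← h2, (measurePreserving_eval (fun _ : J => gaussianReal 0 1) a).map_eq]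
        exact good_gaussian.mean
      rw [h1, mul_zero]
    · intro a _
      exact (hg a).integrable
  rw [hsum.map_eq_gaussianReal, hmean, variance_eq_sub hL2, hmean]
  have e : ∫ x, ((lin u) ^ 2) x ∂(Measure.pi fun _ : J => gaussianReal 0 1) = 1 := m2
  rw [e]
  norm_num

/-- uniform lower tail in the Gaussian case -/
theorem gaussian_tail : ∃ q : ℝ, 0 < q ∧ ∀ (N : ℕ) (u : Fin N → ℝ), ∑ i, u i ^ 2 = 1 →
    ENNReal.ofReal q ≤ (Measure.pi fun _ : Fin N => gaussianReal 0 1) {x | lin u x < -6} := by
  have hpos : 0 < gaussianReal 0 1 (Iio (-6 : ℝ)) := by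
    rw [pos_iff_ne_zero]
    intro h0
    have h1 := gaussianReal_absolutelyContinuous' 0 (one_ne_zero : (1 : ℝ≥0) ≠ 0) h0
    simp at h1
  refine ⟨(gaussianReal 0 1).real (Iio (-6 : ℝ)), ?_, fun N u hu => ?_⟩
  · rw [measureReal_def]
    exact ENNReal.toReal_pos hpos.ne' (measure_ne_top _ _)
  · have h1 : (Measure.pi fun _ : Fin N => gaussianReal 0 1).map (lin u) (Iio (-6 : ℝ))
        = (Measure.pi fun _ : Fin N => gaussianReal 0 1) {x | lin u x < -6} := by
      rw [Measure.map_apply (measurable_lin u) measurableSet_Iio]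
      rfl
    rw [ofReal_measureReal, ← h1, map_lin_gaussian u hu]

/-- **Large density, Gaussian patterns.** -/
theorem large_density : ∃ α₁ : ℝ, 0 < α₁ ∧ ∃ c : ℝ, 0 < c ∧ ∀ α : ℝ, α₁ ≤ α → ∀ N : ℕ, 0 < N →
      patternLaw N α {A : Patterns N α |
        ∃ y : Fin N → ℝ, ∑ i, y i ^ 2 = 1 ∧
          ∑ μ : Fin (numPatterns N α), (max (-(∑ i, A (μ, i) * y i + 1)) 0) ^ 2 ≤ c * N}
        ≤ ENNReal.ofReal (2 * Real.exp (-(N : ℝ))) := by
  obtain ⟨q, hq, htail⟩ := gaussian_tail
  exact large_density_of_tail good_gaussian q hq htail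

end Crest.Agent.R146.Large_840
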