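import Crest.Agent.R146.RepairFin_840
import Crest.Agent.R146.Large_840

/-!
# Row 146: the final implications for S0203 and S0204 (helper840)

`LowE A k τ` : some unit vector has energy `∑ ½ (k - X_μ)₊² ≤ τ N`.

Everything is stated against an abstract limiting energy density `e : ℝ → ℝ → ℝ` (density, margin):

* `EnergyLimit e` : `P (LowE A k τ) → 1` for `τ > e α k` and `→ 0` for `τ < e α k`;
* `EnergyConvex e` : `e` is convex in `(α, α k)`;
* `S0203_of` : `EnergyLimit e` and `EnergyConvex e` imply the statement S0203;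
* `S0204_of` : with the two inputs on the mixture, the statement S0204.
-/

set_option autoImplicit false

open MeasureTheory ProbabilityTheory Set Filter Crest.Agent.R146.RepairLaw_840
  Crest.Agent.R146.RepairNet_840 Crest.Agent.R146.RepairFin_840 Crest.Agent.R146.Large_840
  Crest.ProbabilityR.Perceptron
open scoped ENNReal NNReal Topology

namespace Crest.Agent.R146.SatAsm_840

/-- some unit vector has energy at most `τ N` at margin `k` -/
def LowE {N : ℕ} {α : ℝ} (A : Patterns N α) (k τ : ℝ) : Prop :=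
  ∃ y : Fin N → ℝ, ∑ i, y i ^ 2 = 1 ∧
    ∑ μ : Fin (numPatterns N α), (1 / 2 : ℝ) * (max (k - ∑ i, A (μ, i) * y i) 0) ^ 2 ≤ τ * N

lemma LowE.mono {N : ℕ} {α : ℝ} {A : Patterns N α} {k k' τ τ' : ℝ} (h : LowE A k τ)
    (hk : k' ≤ k) (hτ : τ ≤ τ') : LowE A k' τ' := by
  obtain ⟨y, hy, hA⟩ := h
  refine ⟨y, hy, le_trans (Finset.sum_le_sum fun μ _ => ?_) (hA.trans (by gcongr))⟩
  have h1 : max (k' - ∑ i, A (μ, i) * y i) 0 ≤ max (k - ∑ i, A (μ, i) * y i) 0 :=
    max_le_max (by linarith) le_rfl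
  have h0 : 0 ≤ max (k' - ∑ i, A (μ, i) * y i) 0 := le_max_right _ _
  gcongr

lemma LowE.nearSat {N : ℕ} {α : ℝ} {A : Patterns N α} {η τ : ℝ} (h : LowE A (-1 + η) τ) :
    NearSat A η (2 * τ) := by
  obtain ⟨y, hy, hA⟩ := h
  refine ⟨y, hy, ?_⟩
  rw [← Finset.mul_sum] at hA
  have e : ∑ μ : Fin (numPatterns N α), (max (-(∑ i, A (μ, i) * y i + 1 - η)) 0) ^ 2
      = ∑ μ : Fin (numPatterns N α), (max (-1 + η - ∑ i, A (μ, i) * y i) 0) ^ 2 := by
    refine Finset.sum_congr rfl fun μ _ => ?_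
    congr 2
    ring
  rw [e]
  linarith

lemma LowE.of_isSat {N : ℕ} {α : ℝ} {A : Patterns N α} (h : IsSat A) : LowE A (-1) 0 := by
  obtain ⟨y, hy, hA⟩ := h
  refine ⟨y, hy, ?_⟩
  rw [zero_mul]
  refine le_of_eq (Finset.sum_eq_zero fun μ _ => ?_)
  have := hA μ
  rw [max_eq_right (by linarith)]
  norm_num

lemma lowE_zero_of_lt {N : ℕ} {α : ℝ} (hlt : numPatterns N α < N) (A : Patterns N α) :
    LowE A 0 0 := by
  obtain ⟨y, hy, hA⟩ := exists_unit_ker (κ := Fin (numPatterns N α)) (J := Fin N)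
    (by simpa using hlt) A
  refine ⟨y, hy, ?_⟩
  rw [zero_mul]
  refine le_of_eq (Finset.sum_eq_zero fun μ _ => ?_)
  rw [hA μ]
  norm_num

/-! ### monotonicity in the density -/

lemma numPatterns_mono (N : ℕ) {α α' : ℝ} (h : α ≤ α') : numPatterns N α ≤ numPatterns N α' :=
  Nat.floor_le_floor (by gcongr)

/-- restriction of an array to its first rows -/
noncomputable def restr (N : ℕ) {α α' : ℝ} (h : α ≤ α') (A : Patterns N α') : Patterns N α :=
  fun q => A (Fin.castLE (numPatterns_mono N h) q.1, q.2)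

lemma measurable_restr (N : ℕ) {α α' : ℝ} (h : α ≤ α') : Measurable (restr N h) :=
  measurable_pi_lambda _ fun _ => measurable_pi_apply _

lemma map_restr (ν : Measure ℝ) [IsProbabilityMeasure ν] (N : ℕ) {α α' : ℝ} (h : α ≤ α') :
    (Measure.pi fun _ : Fin (numPatterns N α') × Fin N => ν).map (restr N h)
      = Measure.pi fun _ : Fin (numPatterns N α) × Fin N => ν := by
  classical
  symm
  refine Measure.pi_eq fun s hs => ?_
  rw [Measure.map_apply (measurable_restr N h) (MeasurableSet.univ_pi hs)]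
  set c : Fin (numPatterns N α) × Fin N → Fin (numPatterns N α') × Fin N :=
    fun q => (Fin.castLE (numPatterns_mono N h) q.1, q.2) with hc
  have hcinj : Function.Injective c := by
    intro p q hpq
    have h1 : (c p).1 = (c q).1 := by rw [hpq]
    have h2 : (c p).2 = (c q).2 := by rw [hpq]
    exact Prod.ext (Fin.castLE_injective (numPatterns_mono N h) h1) h2
  set t : Fin (numPatterns N α') × Fin N → Set ℝ := fun p =>
    if hp : ∃ q, c q = p then s hp.choose else univ with ht
  have htc : ∀ q, t (c q) = s q := by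
    intro q
    have hex : ∃ q', c q' = c q := ⟨q, rfl⟩
    rw [ht]
    simp only [hex, dif_pos]
    have : hex.choose = q := hcinj hex.choose_spec
    rw [this]
  have htn : ∀ p, (¬ ∃ q, c q = p) → t p = univ := by
    intro p hp
    rw [ht]
    simp only [hp, dif_neg, not_false_iff]
  have hpre : restr N h ⁻¹' (Set.pi univ s) = Set.pi univ t := by
    ext A
    simp only [Set.mem_preimage, Set.mem_univ_pi]
    constructor
    · intro hA p
      by_cases hp : ∃ q, c q = p
      · obtain ⟨q, rfl⟩ := hp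
        rw [htc]
        exact hA q
      · rw [htn p hp]
        exact mem_univ _
    · intro hA q
      have := hA (c q)
      rw [htc] at this
      exact this
  rw [hpre, Measure.pi_pi]
  have h1 : ∏ p, ν (t p) = ∏ p ∈ Finset.univ.image c, ν (t p) := by
    symm
    refine Finset.prod_subset (Finset.subset_univ _) fun p _ hp => ?_
    have : ¬ ∃ q, c q = p := by
      rintro ⟨q, rfl⟩
      exact hp (Finset.mem_image_of_mem _ (Finset.mem_univ _))
    rw [htn p this, measure_univ]
  rw [h1, Finset.prod_image fun _ _ _ _ h => hcinj h]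
  exact Finset.prod_congr rfl fun q _ => by rw [htc]

lemma isSat_restr {N : ℕ} {α α' : ℝ} (h : α ≤ α') {A : Patterns N α'} (hA : IsSat A) :
    IsSat (restr N h A) := by
  obtain ⟨y, hy, hA⟩ := hA
  exact ⟨y, hy, fun μ => hA (Fin.castLE (numPatterns_mono N h) μ)⟩

lemma lowE_restr {N : ℕ} {α α' : ℝ} (h : α ≤ α') {A : Patterns N α'} {k τ : ℝ}
    (hA : LowE A k τ) : LowE (restr N h A) k τ := by
  obtain ⟨y, hy, hA⟩ := hA
  refine ⟨y, hy, le_trans ?_ hA⟩
  have hinj : Function.Injective (Fin.castLE (numPatterns_mono N h)) := Fin.castLE_injective _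
  calc ∑ μ : Fin (numPatterns N α), (1 / 2 : ℝ) * (max (k - ∑ i, restr N h A (μ, i) * y i) 0) ^ 2
      = ∑ μ' ∈ Finset.univ.map ⟨_, hinj⟩,
          (1 / 2 : ℝ) * (max (k - ∑ i, A (μ', i) * y i) 0) ^ 2 := by
        rw [Finset.sum_map]
        rfl
    _ ≤ _ := Finset.sum_le_sum_of_subset_of_nonneg (Finset.subset_univ _) fun _ _ _ => by positivity

/-- The satisfiability probability is nonincreasing in the density. -/
lemma measure_isSat_anti (ν : Measure ℝ) [IsProbabilityMeasure ν] (N : ℕ) {α α' : ℝ}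
    (h : α ≤ α') :
    (Measure.pi fun _ : Fin (numPatterns N α') × Fin N => ν) {A : Patterns N α' | IsSat A}
      ≤ (Measure.pi fun _ : Fin (numPatterns N α) × Fin N => ν) {A : Patterns N α | IsSat A} := by
  rw [← map_restr ν N h]
  refine le_trans (measure_mono ?_) (Measure.le_map_apply (measurable_restr N h).aemeasurable _)
  intro A hA
  exact isSat_restr h hA

/-- The probability of low energy is nonincreasing in the density. -/
lemma measure_lowE_anti (ν : Measure ℝ) [IsProbabilityMeasure ν] (N : ℕ) {α α' : ℝ}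
    (h : α ≤ α') (k τ : ℝ) :
    (Measure.pi fun _ : Fin (numPatterns N α') × Fin N => ν) {A : Patterns N α' | LowE A k τ}
      ≤ (Measure.pi fun _ : Fin (numPatterns N α) × Fin N => ν)
          {A : Patterns N α | LowE A k τ} := by
  rw [← map_restr ν N h]
  refine le_trans (measure_mono ?_) (Measure.le_map_apply (measurable_restr N h).aemeasurable _)
  intro A hA
  exact lowE_restr h hA

instance (N : ℕ) (α : ℝ) : IsProbabilityMeasure (patternLaw N α) := by
  unfold patternLaw; infer_instance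

/-! ### the abstract inputs -/

/-- the law of large numbers for the ground state energy, Gaussian patterns -/
structure EnergyLimit (e : ℝ → ℝ → ℝ) : Prop where
  low : ∀ α k τ : ℝ, 0 < α → e α k < τ →
    Tendsto (fun N : ℕ => patternLaw N α {A | LowE A k τ}) atTop (𝓝 1)
  high : ∀ α k τ : ℝ, 0 < α → τ < e α k →
    Tendsto (fun N : ℕ => patternLaw N α {A | LowE A k τ}) atTop (𝓝 0)

/-- convexity of the limiting energy in `(α, α k)` -/
def EnergyConvex (e : ℝ → ℝ → ℝ) : Prop :=
  ∀ α₁ α₂ k₁ k₂ t : ℝ, 0 < α₁ → 0 < α₂ → 0 < t → t < 1 →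
    e (t * α₁ + (1 - t) * α₂)
        ((t * (α₁ * k₁) + (1 - t) * (α₂ * k₂)) / (t * α₁ + (1 - t) * α₂))
      ≤ t * e α₁ k₁ + (1 - t) * e α₂ k₂

/-- convexity of the limiting energy in `(√α, √α k)` -/
def EnergyConvex' (e : ℝ → ℝ → ℝ) : Prop :=
  ∀ v₁ v₂ k₁ k₂ t : ℝ, 0 < v₁ → 0 < v₂ → 0 < t → t < 1 →
    e ((t * v₁ + (1 - t) * v₂) ^ 2)
        ((t * (v₁ * k₁) + (1 - t) * (v₂ * k₂)) / (t * v₁ + (1 - t) * v₂))
      ≤ t * e (v₁ ^ 2) k₁ + (1 - t) * e (v₂ ^ 2) k₂

/-- what the final argument uses of the convexity: strict improvement of the margin below the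
critical density -/
def MarginGain (e : ℝ → ℝ → ℝ) : Prop :=
  ∀ α α' : ℝ, 0 < α → α < α' → e α' (-1) ≤ 0 → ∃ η : ℝ, 0 < η ∧ η ≤ 1 ∧ e α (-1 + η) ≤ 0

variable {e : ℝ → ℝ → ℝ}

lemma EnergyLimit.nonneg (h : EnergyLimit e) {α : ℝ} (hα : 0 < α) (k : ℝ) : 0 ≤ e α k := by
  by_contra hneg
  push Not at hneg
  have h1 := h.low α k (e α k / 2) hα (by linarith)
  have h2 : (fun N : ℕ => patternLaw N α {A | LowE A k (e α k / 2)}) =ᶠ[atTop] fun _ => 0 := by
    filter_upwards [eventually_gt_atTop 0] with N hN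
    have : {A : Patterns N α | LowE A k (e α k / 2)} = ∅ := by
      ext A
      simp only [Set.mem_ofPred_eq, Set.mem_empty_iff_false, iff_false]
      rintro ⟨y, -, hA⟩
      have h3 : 0 ≤ ∑ μ : Fin (numPatterns N α),
          (1 / 2 : ℝ) * (max (k - ∑ i, A (μ, i) * y i) 0) ^ 2 :=
        Finset.sum_nonneg fun _ _ => by positivity
      have hNpos : (0 : ℝ) < N := by exact_mod_cast hN
      nlinarith
    rw [this, measure_empty]
  have h4 := tendsto_nhds_unique (h1.congr' h2) tendsto_const_nhds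
  exact one_ne_zero h4

lemma EnergyLimit.le_of_prob (h : EnergyLimit e) {α : ℝ} (hα : 0 < α) (k τ : ℝ)
    (h1 : ∀ᶠ N : ℕ in atTop, 1 / 2 ≤ patternLaw N α {A | LowE A k τ}) : e α k ≤ τ := by
  by_contra hlt
  push Not at hlt
  have h2 := h.high α k τ hα hlt
  have h3 : (1 / 2 : ℝ≥0∞) ≤ 0 := ge_of_tendsto h2 h1
  simp at h3

lemma EnergyLimit.mono_margin (h : EnergyLimit e) {α : ℝ} (hα : 0 < α) {k k' : ℝ} (hk : k' ≤ k) :
    e α k' ≤ e α k := by
  refine le_of_forall_pos_le_add fun δ hδ => ?_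
  have h1 := h.low α k (e α k + δ) hα (by linarith)
  refine h.le_of_prob hα k' _ ?_
  have h2 : ∀ᶠ N : ℕ in atTop, (1 / 2 : ℝ≥0∞) < patternLaw N α {A | LowE A k (e α k + δ)} :=
    h1.eventually (lt_mem_nhds (by simp))
  filter_upwards [h2] with N hN
  exact hN.le.trans (measure_mono fun A hA => LowE.mono hA hk le_rfl)

lemma EnergyLimit.mono_density (h : EnergyLimit e) {α α' : ℝ} (hα : 0 < α) (hle : α ≤ α')
    (k : ℝ) : e α k ≤ e α' k := by
  refine le_of_forall_pos_le_add fun δ hδ => ?_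
  have h1 := h.low α' k (e α' k + δ) (by linarith) (by linarith)
  refine h.le_of_prob hα k _ ?_
  have h2 : ∀ᶠ N : ℕ in atTop, (1 / 2 : ℝ≥0∞) < patternLaw N α' {A | LowE A k (e α' k + δ)} :=
    h1.eventually (lt_mem_nhds (by simp))
  filter_upwards [h2] with N hN
  exact hN.le.trans (measure_lowE_anti (gaussianReal 0 1) N hle k _)

/-- zero energy at margin `0` for `α < 1` -/
lemma EnergyLimit.zero_lt_one (h : EnergyLimit e) {α : ℝ} (hα : 0 < α) (h1 : α < 1) :
    e α 0 ≤ 0 := by
  refine h.le_of_prob hα 0 0 ?_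
  filter_upwards [eventually_gt_atTop 0] with N hN
  have hNpos : (0 : ℝ) < N := by exact_mod_cast hN
  have hlt : numPatterns N α < N := by
    have : (numPatterns N α : ℝ) ≤ α * N := Nat.floor_le (by positivity)
    have h2 : α * N < N := by nlinarith
    exact_mod_cast this.trans_lt h2
  have : {A : Patterns N α | LowE A 0 0} = univ := by
    ext A
    simp only [Set.mem_ofPred_eq, Set.mem_univ, iff_true]
    exact lowE_zero_of_lt hlt A
  rw [this, measure_univ]
  simp

/-- positive energy at margin `-1` for large densities -/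
lemma EnergyLimit.pos_large (h : EnergyLimit e) : ∃ α₁ : ℝ, 0 < α₁ ∧ ∀ α, α₁ ≤ α → 0 < e α (-1) := by
  obtain ⟨α₁, hα₁, c, hc, hmain⟩ := large_density
  refine ⟨α₁, hα₁, fun α hα => ?_⟩
  by_contra hle
  push Not at hle
  have h1 := h.low α (-1) (c / 2) (by linarith) (by linarith)
  have h2 : Tendsto (fun N : ℕ => ENNReal.ofReal (2 * Real.exp (-(N : ℝ)))) atTop (𝓝 0) := by
    rw [← ENNReal.ofReal_zero]
    refine ENNReal.tendsto_ofReal ?_
    have h3 : Tendsto (fun N : ℕ => -(N : ℝ)) atTop atBot :=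
      tendsto_neg_atTop_atBot.comp tendsto_natCast_atTop_atTop
    have h4 := (Real.tendsto_exp_atBot.comp h3).const_mul 2
    simpa using h4
  have h5 : Tendsto (fun N : ℕ => patternLaw N α {A | LowE A (-1) (c / 2)}) atTop (𝓝 0) := by
    refine tendsto_of_tendsto_of_tendsto_of_le_of_le' tendsto_const_nhds h2
      (Eventually.of_forall fun _ => zero_le) ?_
    filter_upwards [eventually_gt_atTop 0] with N hN
    refine le_trans (measure_mono ?_) (hmain α hα N hN)
    rintro A ⟨y, hy, hA⟩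
    refine ⟨y, hy, ?_⟩
    rw [← Finset.mul_sum] at hA
    have e1 : ∑ μ : Fin (numPatterns N α), (max (-(∑ i, A (μ, i) * y i + 1)) 0) ^ 2
        = ∑ μ : Fin (numPatterns N α), (max (-1 - ∑ i, A (μ, i) * y i) 0) ^ 2 := by
      refine Finset.sum_congr rfl fun μ _ => ?_
      congr 2
      ring
    rw [e1]
    linarith
  exact one_ne_zero (tendsto_nhds_unique h1 h5)

/-- Margin gain from convexity in `(α, α k)`. -/
lemma marginGain_of_convex (h : EnergyLimit e) (hc : EnergyConvex e) : MarginGain e := by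
  intro α α' hα hlt hα'
  set α'' : ℝ := min (α / 2) (1 / 2) with hα''
  have h0 : 0 < α'' := lt_min (by linarith) (by norm_num)
  have hl1 : α'' < 1 := lt_of_le_of_lt (min_le_right _ _) (by norm_num)
  have hla : α'' < α := lt_of_le_of_lt (min_le_left _ _) (by linarith)
  set t : ℝ := (α - α'') / (α' - α'') with ht
  have hden : 0 < α' - α'' := by linarith
  have ht0 : 0 < t := div_pos (by linarith) hden
  have ht1 : t < 1 := by rw [ht, div_lt_one hden]; linarith
  have hcomb : t * α' + (1 - t) * α'' = α := by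
    have : t * (α' - α'') = α - α'' := by rw [ht]; field_simp
    linarith
  have hconv := hc α' α'' (-1) 0 t (by linarith) h0 ht0 ht1
  rw [hcomb] at hconv
  have hz : e α'' 0 ≤ 0 := h.zero_lt_one h0 hl1
  have hk : (t * (α' * -1) + (1 - t) * (α'' * 0)) / α = -1 + (1 - t) * α'' / α := by
    have : t * (α' * -1) + (1 - t) * (α'' * 0) = -α + (1 - t) * α'' := by linarith
    rw [this, add_div, neg_div, div_self hα.ne']
  rw [hk] at hconv
  refine ⟨min ((1 - t) * α'' / α) 1, lt_min ?_ one_pos, min_le_right _ _, ?_⟩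
  · exact div_pos (mul_pos (by linarith) h0) hα
  · refine le_trans (h.mono_margin hα (k := -1 + (1 - t) * α'' / α) ?_) (hconv.trans ?_)
    · have := min_le_left ((1 - t) * α'' / α) 1
      linarith
    · nlinarith

/-- Margin gain from convexity in `(√α, √α k)`. -/
lemma marginGain_of_convex' (h : EnergyLimit e) (hc : EnergyConvex' e) : MarginGain e := by
  intro α α' hα hlt hα'
  set v : ℝ := √α with hv
  set v' : ℝ := √α' with hv'
  have hvpos : 0 < v := Real.sqrt_pos.2 hα
  have hv'pos : 0 < v' := Real.sqrt_pos.2 (by linarith)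
  have hvsq : v ^ 2 = α := Real.sq_sqrt hα.le
  have hv'sq : v' ^ 2 = α' := Real.sq_sqrt (by linarith)
  have hvv' : v < v' := Real.sqrt_lt_sqrt hα.le hlt
  set w : ℝ := min (v / 2) (1 / 2) with hw
  have h0 : 0 < w := lt_min (by linarith) (by norm_num)
  have hw1 : w < 1 := lt_of_le_of_lt (min_le_right _ _) (by norm_num)
  have hwv : w < v := lt_of_le_of_lt (min_le_left _ _) (by linarith)
  set t : ℝ := (v - w) / (v' - w) with ht
  have hden : 0 < v' - w := by linarith
  have ht0 : 0 < t := div_pos (by linarith) hden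
  have ht1 : t < 1 := by rw [ht, div_lt_one hden]; linarith
  have hcomb : t * v' + (1 - t) * w = v := by
    have : t * (v' - w) = v - w := by rw [ht]; field_simp
    linarith
  have hconv := hc v' w (-1) 0 t hv'pos h0 ht0 ht1
  rw [hcomb, hvsq, hv'sq] at hconv
  have hz : e (w ^ 2) 0 ≤ 0 := h.zero_lt_one (by positivity) (by nlinarith)
  have hk : (t * (v' * -1) + (1 - t) * (w * 0)) / v = -1 + (1 - t) * w / v := by
    have : t * (v' * -1) + (1 - t) * (w * 0) = -v + (1 - t) * w := by linarith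
    rw [this, add_div, neg_div, div_self hvpos.ne']
  rw [hk] at hconv
  refine ⟨min ((1 - t) * w / v) 1, lt_min ?_ one_pos, min_le_right _ _, ?_⟩
  · exact div_pos (mul_pos (by linarith) h0) hvpos
  · refine le_trans (h.mono_margin hα (k := -1 + (1 - t) * w / v) ?_) (hconv.trans ?_)
    · have := min_le_left ((1 - t) * w / v) 1
      linarith
    · nlinarith

/-- the critical density -/
noncomputable def critDens (e : ℝ → ℝ → ℝ) : ℝ := sSup {α : ℝ | 0 < α ∧ e α (-1) ≤ 0}

lemma critDens_facts (h : EnergyLimit e) : 1 ≤ critDens e ∧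
    (∀ α, 0 < α → α < critDens e → ∃ α', α < α' ∧ e α' (-1) ≤ 0) ∧
    (∀ α, critDens e < α → 0 < e α (-1)) := by
  obtain ⟨α₁, hα₁, hlarge⟩ := h.pos_large
  have hbdd : BddAbove {α : ℝ | 0 < α ∧ e α (-1) ≤ 0} := by
    refine ⟨α₁, ?_⟩
    rintro α ⟨-, h2⟩
    by_contra hlt
    push Not at hlt
    exact absurd h2 (not_le.2 (hlarge α hlt.le))
  have hmem : ∀ α : ℝ, 0 < α → α < 1 → α ∈ {α : ℝ | 0 < α ∧ e α (-1) ≤ 0} := by
    intro α h0 h1
    exact ⟨h0, (h.mono_margin h0 (by norm_num : (-1 : ℝ) ≤ 0)).trans (h.zero_lt_one h0 h1)⟩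
  have hone : 1 ≤ critDens e := by
    refine le_of_forall_lt fun x hx => ?_
    rcases le_or_gt x 0 with hx0 | hx0
    · have h1 := le_csSup hbdd (hmem (1 / 2) (by norm_num) (by norm_num))
      have h2 : critDens e = sSup {α : ℝ | 0 < α ∧ e α (-1) ≤ 0} := rfl
      rw [h2]
      linarith
    · have h1 := le_csSup hbdd (hmem ((x + 1) / 2) (by linarith) (by linarith))
      have h2 : critDens e = sSup {α : ℝ | 0 < α ∧ e α (-1) ≤ 0} := rfl
      rw [h2]
      linarith
  refine ⟨hone, fun α hα hlt => ?_, fun α hlt => ?_⟩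
  · obtain ⟨α', ⟨-, h2⟩, hlt'⟩ := exists_lt_of_lt_csSup
      ⟨1 / 2, hmem (1 / 2) (by norm_num) (by norm_num)⟩ hlt
    exact ⟨α', hlt', h2⟩
  · by_contra hle
    push Not at hle
    have := le_csSup hbdd (show α ∈ {α : ℝ | 0 < α ∧ e α (-1) ≤ 0} from ⟨by linarith, hle⟩)
    have h2 : critDens e = sSup {α : ℝ | 0 < α ∧ e α (-1) ≤ 0} := rfl
    rw [← h2] at this
    linarith

/-- Below the critical density: near satisfiability with positive gain of margin implies
satisfiability, for any good law. -/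
lemma tendsto_one_of_lowE {ν : Measure ℝ} (hν : Good ν) {α η : ℝ} (hα : 0 < α) (hη : 0 < η)
    (hη1 : η ≤ 1)
    (hlim : ∀ τ : ℝ, 0 < τ →
      Tendsto (fun N : ℕ => (Measure.pi fun _ : Fin (numPatterns N α) × Fin N => ν)
        {A : Patterns N α | LowE A (-1 + η) τ}) atTop (𝓝 1)) :
    Tendsto (fun N : ℕ => (Measure.pi fun _ : Fin (numPatterns N α) × Fin N => ν)
        {A : Patterns N α | IsSat A}) atTop (𝓝 1) := by
  have := hν.prob
  obtain ⟨τ₀, hτ₀, hmain⟩ := tendsto_one_of_nearSat hν α hα.le η hη hη1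
  refine hmain τ₀ le_rfl ?_
  refine tendsto_of_tendsto_of_tendsto_of_le_of_le (hlim (τ₀ / 2) (by positivity))
    tendsto_const_nhds (fun N => measure_mono fun A hA => ?_) (fun N => prob_le_one)
  have h1 := LowE.nearSat (A := A) hA
  exact h1.mono (by linarith)

/-- **S0203 from the energy limit and the gain of margin.** -/
theorem S0203_of_marginGain (h : EnergyLimit e) (hg : MarginGain e) :
    ∃ αc : ℝ, 0 < αc ∧
      (∀ α : ℝ, 0 < α → α < αc → Tendsto (fun N : ℕ => satProb N α) atTop (𝓝 1)) ∧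
      (∀ α : ℝ, αc < α → Tendsto (fun N : ℕ => satProb N α) atTop (𝓝 0)) := by
  obtain ⟨h1, h2, h3⟩ := critDens_facts h
  refine ⟨critDens e, by linarith, fun α hα hlt => ?_, fun α hlt => ?_⟩
  · obtain ⟨α', hα', he⟩ := h2 α hα hlt
    obtain ⟨η, hη, hη1, heη⟩ := hg α α' hα hα' he
    exact tendsto_one_of_lowE good_gaussian hα hη hη1 fun τ hτ =>
      h.low α (-1 + η) τ hα (by linarith)
  · have hpos := h3 α hlt
    have h4 := h.high α (-1) 0 (by linarith) hpos
    refine tendsto_of_tendsto_of_tendsto_of_le_of_le tendsto_const_nhds h4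
      (fun _ => zero_le) (fun N => measure_mono fun A hA => LowE.of_isSat hA)

/-- **S0203 from the energy limit and convexity in `(α, α k)`.** -/
theorem S0203_of (h : EnergyLimit e) (hc : EnergyConvex e) :
    ∃ αc : ℝ, 0 < αc ∧
      (∀ α : ℝ, 0 < α → α < αc → Tendsto (fun N : ℕ => satProb N α) atTop (𝓝 1)) ∧
      (∀ α : ℝ, αc < α → Tendsto (fun N : ℕ => satProb N α) atTop (𝓝 0)) :=
  S0203_of_marginGain h (marginGain_of_convex h hc)

/-- **S0204**: the two inputs on the mixture are `hlow` (Lindeberg and delocalisation: zero energy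
passes to the mixture) and `hhigh` (just above the critical density). -/
theorem S0204_of (h : EnergyLimit e) (hg : MarginGain e) (ε₀ : ℝ) (hε₀ : 0 < ε₀) (hε₀1 : ε₀ < 1)
    (hlow : ∀ ε α k : ℝ, 0 ≤ ε → ε < ε₀ → 0 < α → e α k ≤ 0 → ∀ τ : ℝ, 0 < τ →
      Tendsto (fun N : ℕ => patternLawMix N α ε {A | LowE A k τ}) atTop (𝓝 1))
    (δ : ℝ) (hδ : 0 < δ)
    (hhigh : ∀ ε α : ℝ, 0 ≤ ε → ε < ε₀ → critDens e < α → α < critDens e + δ →
      Tendsto (fun N : ℕ => satProbMix N α ε) atTop (𝓝 0)) :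
    ∃ αc : ℝ, 0 < αc ∧ ∃ ε₀ : ℝ, 0 < ε₀ ∧ ε₀ < 1 ∧
      ∀ ε : ℝ, 0 ≤ ε → ε < ε₀ → IsSharpThreshold ε αc := by
  obtain ⟨h1, h2, h3⟩ := critDens_facts h
  refine ⟨critDens e, by linarith, ε₀, hε₀, hε₀1, fun ε hε0 hε => ⟨fun α hα hlt => ?_, fun α hlt => ?_⟩⟩
  · obtain ⟨α', hα', he⟩ := h2 α hα hlt
    obtain ⟨η, hη, hη1, heη⟩ := hg α α' hα hα' he
    exact tendsto_one_of_lowE (good_mixtureLaw ε hε0 (by linarith)) hα hη hη1 fun τ hτ =>
      hlow ε α (-1 + η) hε0 hε hα heη τ hτ
  · have hprob := (good_mixtureLaw ε hε0 (by linarith)).prob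
    set α' : ℝ := min α (critDens e + δ / 2) with hα'
    have h4 : critDens e < α' := lt_min hlt (by linarith)
    have h5 : α' < critDens e + δ := lt_of_le_of_lt (min_le_right _ _) (by linarith)
    have h6 := hhigh ε α' hε0 hε h4 h5
    refine tendsto_of_tendsto_of_tendsto_of_le_of_le tendsto_const_nhds h6
      (fun _ => zero_le) (fun N => ?_)
    exact measure_isSat_anti (mixtureLaw ε) N (min_le_left _ _)

end Crest.Agent.R146.SatAsm_840
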