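import Crest.Agent.R146.P34_734
import Crest.Agent.R146.SatAsm_840

/-!
# Row 146: the nodes BIG, KERN, MONOA, MIX0 of `P34_734` (helper840)
-/

set_option autoImplicit false

open MeasureTheory ProbabilityTheory Filter Crest.ProbabilityR.Perceptron
  Crest.Agent.R146.RepairLaw_840 Crest.Agent.R146.Large_840 Crest.Agent.R146.SatAsm_840
open scoped Topology ENNReal

namespace Crest.Agent.R146.P34Big_840

theorem mix0 : P34_734.MIX0 := by
  unfold P34_734.MIX0 mixtureLaw
  rw [sub_zero, add_zero, Real.toNNReal_one, ← add_smul]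
  have : (2⁻¹ + 2⁻¹ : NNReal) = 1 := by
    rw [← two_mul]; exact mul_inv_cancel₀ (by norm_num)
  rw [this, one_smul]

theorem isProbabilityMeasure_mixtureLaw (ε : ℝ) : IsProbabilityMeasure (mixtureLaw ε) := by
  constructor
  rw [mixtureLaw]
  simp only [Measure.coe_add, Pi.add_apply, Measure.coe_nnreal_smul_apply, measure_univ, mul_one]
  have : ((2⁻¹ : NNReal) : ℝ≥0∞) = 2⁻¹ := by
    rw [ENNReal.coe_inv (by norm_num)]; norm_num
  rw [this]
  exact ENNReal.inv_two_add_inv_two

theorem monoa : P34_734.MONOA := by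
  intro N α α' ε _ h
  have := isProbabilityMeasure_mixtureLaw ε
  exact measure_isSat_anti (mixtureLaw ε) N h

theorem kern : P34_734.KERN := by
  intro N α hN hα A
  have hNpos : (0 : ℝ) < N := by exact_mod_cast hN
  have hlt : numPatterns N α < N := by
    rcases le_or_gt 0 α with h0 | h0
    · have h1 : (numPatterns N α : ℝ) ≤ α * N := Nat.floor_le (by positivity)
      have h2 : α * N < N := by nlinarith
      exact_mod_cast h1.trans_lt h2
    · have h1 : numPatterns N α = 0 := Nat.floor_of_nonpos (by nlinarith)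
      rw [h1]; exact hN
  exact exists_unit_ker (κ := Fin (numPatterns N α)) (J := Fin N) (by simpa using hlt) A

/-- Unsatisfiability for large density, every density above some threshold. -/
theorem satProb_tendsto_zero_large : ∃ α₁ : ℝ, 0 < α₁ ∧ ∀ α, α₁ ≤ α →
    Tendsto (fun N : ℕ => satProb N α) atTop (𝓝 0) := by
  obtain ⟨α₁, hα₁, c, hc, hmain⟩ := large_density
  refine ⟨α₁, hα₁, fun α hα => ?_⟩
  have h2 : Tendsto (fun N : ℕ => ENNReal.ofReal (2 * Real.exp (-(N : ℝ)))) atTop (𝓝 0) := by
    rw [← ENNReal.ofReal_zero]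
    refine ENNReal.tendsto_ofReal ?_
    have h3 : Tendsto (fun N : ℕ => -(N : ℝ)) atTop atBot :=
      tendsto_neg_atTop_atBot.comp tendsto_natCast_atTop_atTop
    have h4 := (Real.tendsto_exp_atBot.comp h3).const_mul 2
    simpa using h4
  refine tendsto_of_tendsto_of_tendsto_of_le_of_le' tendsto_const_nhds h2
    (Eventually.of_forall fun _ => zero_le) ?_
  filter_upwards [eventually_gt_atTop 0] with N hN
  refine le_trans (measure_mono ?_) (hmain α hα N hN)
  rintro A ⟨y, hy, hA⟩
  refine ⟨y, hy, ?_⟩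
  have h0 : ∑ μ : Fin (numPatterns N α), (max (-(∑ i, A (μ, i) * y i + 1)) 0) ^ 2 = 0 := by
    refine Finset.sum_eq_zero fun μ _ => ?_
    have := hA μ
    rw [max_eq_right (by linarith)]
    norm_num
  rw [h0]
  positivity

theorem big : P34_734.BIG := by
  obtain ⟨α₁, hα₁, h⟩ := satProb_tendsto_zero_large
  refine ⟨α₁, hα₁, ?_⟩
  have h1 := h α₁ le_rfl
  have h2 : (fun N : ℕ => satProbMix N α₁ 0) = fun N : ℕ => satProb N α₁ := by
    ext N
    unfold satProbMix satProb patternLawMix patternLaw
    rw [show mixtureLaw 0 = gaussianReal 0 1 from mix0]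
  rw [h2]
  exact h1

end Crest.Agent.R146.P34Big_840
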