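import Crest.Agent.R146.P34_734
import Crest.Agent.R146.P34a_323
import Crest.Agent.R146.AsmP_663
import Crest.Agent.R146.P34Big_840
import Crest.Agent.R146.VTr_468

/-!
Row 146: node GUB of `P34_734` (Gaussian upper bound with truncation) from the literal S0206.
-/

set_option autoImplicit false
set_option linter.unusedSectionVars false

namespace Crest.Agent.R146.P34b_323

open MeasureTheory ProbabilityTheory Filter Topology
open Crest.ProbabilityR.Perceptron
open Crest.Agent.R146.Assoc_323
open Crest.Agent.R146.P34_734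
open Crest.Agent.R146.P34a_323

theorem continuous_fqL (L b k : ℝ) : Continuous (fqL L b k) := by
  unfold fqL fq; fun_prop

theorem abs_fqL_le {L b : ℝ} (hL : 0 ≤ L) (hb : 0 ≤ b) (k x : ℝ) : |fqL L b k x| ≤ L := by
  have h1 : fq b k x ≤ 0 := qp_nonpos hb k x
  unfold fqL
  rw [abs_of_nonpos (max_le h1 (by linarith))]
  have := le_max_right (fq b k x) (-L)
  linarith

theorem test_lipschitz {ψ : ℝ → ℝ} (h : Test ψ) :
    ∃ c : ℝ, 0 ≤ c ∧ ∀ x y, |ψ x - ψ y| ≤ c * |x - y| := by
  obtain ⟨C, hC⟩ := h.bd 1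
  have hC0 : 0 ≤ C := (abs_nonneg _).trans (hC 0)
  have hd : Differentiable ℝ ψ := (h.smooth 1).differentiable (by norm_num)
  refine ⟨C, hC0, fun x y => ?_⟩
  have h1 := Convex.norm_image_sub_le_of_norm_deriv_le (f := ψ) (s := Set.univ) (C := C)
    (fun z _ => hd z) (fun z _ => by
      have := hC z
      rw [iteratedDeriv_one] at this
      rwa [Real.norm_eq_abs]) convex_univ (Set.mem_univ y) (Set.mem_univ x)
  simpa [Real.norm_eq_abs] using h1

theorem pM_zero (N : ℕ) (α : ℝ) (f : ℝ → ℝ) : pM N α 0 f = expectedPressure N α 1 f := by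
  unfold pM expectedPressure patternLawMix patternLaw
  rw [P34Big_840.mix0]

/-- **(GUB)** from the literal S0206. -/
theorem gub (W : BS) (hS6 : S6 W) : GUB W := by
  intro α b k hα hb ψ hψ δ hδ
  obtain ⟨c, hc0, hc⟩ := test_lipschitz hψ
  obtain ⟨K, hK⟩ := hψ.bd 0
  have hK' : ∀ x, |ψ x| ≤ K := fun x => by simpa using hK x
  have hψc : Continuous ψ := (hψ.smooth 0).continuous
  have hD := VTr_468.dtail b k c hb
  have hδ' : (0 : ℝ) < δ / (2 * α) := by positivity
  have hev := hD.eventually_le_const hδ'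
  obtain ⟨L1, hL1⟩ := (hev.and (eventually_ge_atTop (0 : ℝ))).exists_forall_of_atTop
  refine ⟨L1, fun L hL => ?_⟩
  obtain ⟨h1, h2⟩ := hL1 L hL
  set d : ℝ := ∫ z, (fqL L b k (z - c) - fq b k (z - c)) ∂(gaussianReal 0 1) with hd
  set φ : ℝ → ℝ := fun x => fqL L b k x + ψ x with hφ
  have hφc : Continuous φ := (continuous_fqL L b k).add hψc
  have hφb : ∃ K', ∀ x, |φ x| ≤ K' := ⟨L + K, fun x =>
    (abs_add_le _ _).trans (add_le_add (abs_fqL_le h2 hb.le k x) (hK' x))⟩
  obtain ⟨p, hp, hlim, -⟩ := hS6 α 1 hα one_pos φ hφc hφb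
  -- the value of every profile
  have hval : ∀ m : OverlapProfile, m.entropy ≠ ⊤ → p ≤ α * W.V φ m + m.entropy.toReal := by
    intro m hm
    have h3 : (p : EReal) ≤ variationalFunctional W.P W.B W.meas α 1 φ m := by
      rw [← hp]; exact iInf_le _ m
    have h4 : variationalFunctional W.P W.B W.meas α 1 φ m =
        ((α * W.V φ m + m.entropy.toReal : ℝ) : EReal) := by
      unfold variationalFunctional BS.V
      have e1 : (fun x => 1 * φ x) = φ := by funext x; ring
      rw [e1]
      have e2 : (m.entropy : EReal) = ((m.entropy.toReal : ℝ) : EReal) := by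
        conv_lhs => rw [← ENNReal.ofReal_toReal hm, EReal.coe_ennreal_ofReal,
          max_eq_left ENNReal.toReal_nonneg]
      rw [e2, EReal.coe_add]
    rw [h4] at h3
    exact EReal.coe_le_coe_iff.1 h3
  have hPv : p ≤ W.Pv α (fun x => fq b k x + ψ x) + α * d := by
    have h5 : p - α * d ≤ W.Pv α (fun x => fq b k x + ψ x) := by
      refine le_csInf ⟨_, AsmP_663.oneProf, by
        rw [AsmP_663.entropy_oneProf]; exact ENNReal.zero_ne_top, rfl⟩ ?_
      rintro x ⟨m, hm, rfl⟩
      have h6 := hval m hm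
      have h7 := VTr_468.vtr W b k L c hb h2 hc0 ψ ⟨K, hK'⟩ hc m
      have h8 := mul_le_mul_of_nonneg_left h7 hα.le
      have e3 : W.V φ m = W.V (fun x => fqL L b k x + ψ x) m := rfl
      rw [e3] at h6
      linarith
    linarith
  have hαd : α * d ≤ δ / 2 := by
    have := mul_le_mul_of_nonneg_left h1 hα.le
    refine this.trans (le_of_eq ?_)
    field_simp
  filter_upwards [hlim.eventually_le_const (show p < p + δ / 2 by linarith)] with N hN
  rw [pM_zero]
  linarith

end Crest.Agent.R146.P34b_323
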