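import Crest.Agent.R146.Asm0204_734
import Crest.Agent.R146.P34Big_840

/-!
Row 146, P5-THR (task 126, helper422): thresholds determine the zero set of the variational problem.
Companion of `Asm0204_734.zeroE_below`.

* `sat_of_zeroE_lt` : `ZeroE α' (-1)` and `0 < α < α'` give satisfiability at density `α`
  for every mixture `0 ≤ ε < 1`;
* `not_zeroE_above` : if `satProb N α → 0` for all `α > αc` then `¬ ZeroE α (-1)` for all `α > αc`;
* `exists_Pv_lt`    : hence there is `d > 0` with `Pv α (fq b (-1)) < -(b d)` for arbitrarily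
  large `b`.
-/

set_option autoImplicit false

open MeasureTheory ProbabilityTheory Filter Crest.ProbabilityR.Perceptron
open scoped Topology ENNReal

namespace Crest.Agent.R146.Thr_422

open Crest.Agent.R146.P34_734 Crest.Agent.R146.Asm0204_734

/-- zero energy at a density gives satisfiability at all smaller densities -/
theorem sat_of_zeroE_lt (W : BS) (hC : VCONC W) (hZ : VZERO W) (hG : GUB W) (hLB : LINDLB W)
    (hcap : CAP) (hcon : CONCM) (hM : MARKOV) (hK : KERN) {α α' ε : ℝ} (hα : 0 < α) (h : α < α')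
    (h0 : 0 ≤ ε) (h1 : ε < 1) (hE : W.ZeroE α' (-1)) :
    Tendsto (fun N : ℕ => satProbMix N α ε) atTop (𝓝 1) := by
  obtain ⟨η, e1, e2, e3⟩ := margin_gain W hC hZ hG hcap hcon hK hα h hE
  exact sat_of_zeroE W hM hLB hα h0 h1 e1 e2 e3

/-- **no zero energy above the threshold**, all nodes as hypotheses -/
theorem not_zeroE_above' (W : BS) (hC : VCONC W) (hZ : VZERO W) (hG : GUB W)
    (hLB : LINDLB W) (hcap : CAP) (hcon : CONCM) (hM : MARKOV) (hK : KERN) (hMix : MIX0)
    {αc : ℝ} (hαc : 0 < αc)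
    (hhigh : ∀ α : ℝ, αc < α → Tendsto (fun N : ℕ => satProb N α) atTop (𝓝 0)) :
    ∀ α : ℝ, αc < α → ¬ W.ZeroE α (-1) := by
  intro α hα hE
  obtain ⟨α', h1, h2⟩ := exists_between hα
  have hs := sat_of_zeroE_lt W hC hZ hG hLB hcap hcon hM hK (hαc.trans h1) h2 le_rfl
    zero_lt_one hE
  have e : (fun N : ℕ => satProb N α') = fun N : ℕ => satProbMix N α' 0 := by
    funext N
    unfold satProb satProbMix patternLaw patternLawMix
    rw [hMix]
  have hh := hhigh α' h1
  rw [e] at hh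
  exact zero_ne_one (tendsto_nhds_unique hh hs)

/-- **no zero energy above the threshold** (`KERN`, `MIX0` are theorems of `P34Big_840`) -/
theorem not_zeroE_above (W : BS) (hC : VCONC W) (hZ : VZERO W) (_hU : VUP W) (hG : GUB W)
    (hLB : LINDLB W) (hcap : CAP) (hcon : CONCM) (hM : MARKOV) {αc : ℝ} (hαc : 0 < αc)
    (hhigh : ∀ α : ℝ, αc < α → Tendsto (fun N : ℕ => satProb N α) atTop (𝓝 0)) :
    ∀ α : ℝ, αc < α → ¬ W.ZeroE α (-1) :=
  not_zeroE_above' W hC hZ hG hLB hcap hcon hM P34Big_840.kern P34Big_840.mix0 hαc hhigh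

/-- quantitative form: a fixed negative energy density for arbitrarily large `b` -/
theorem exists_Pv_lt {W : BS} {α k : ℝ} (hn : ¬ W.ZeroE α k) :
    ∃ d : ℝ, 0 < d ∧ ∀ b0 : ℝ, ∃ b : ℝ, b0 ≤ b ∧ 0 < b ∧ W.Pv α (fq b k) < -(b * d) := by
  unfold BS.ZeroE at hn
  push Not at hn
  obtain ⟨d, hd, H⟩ := hn
  refine ⟨d, hd, fun b0 => ?_⟩
  obtain ⟨b, hb, hlt⟩ := H (max b0 1) (lt_max_of_lt_right zero_lt_one)
  exact ⟨b, (le_max_left _ _).trans hb, zero_lt_one.trans_le ((le_max_right _ _).trans hb), hlt⟩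

/-- both sides of the threshold at once -/
theorem zeroE_iff (W : BS) (hC : VCONC W) (hZ : VZERO W) (hG : GUB W)
    (hLB : LINDLB W) (hcap : CAP) (hcon : CONCM) (hM : MARKOV) {αc : ℝ} (hαc : 0 < αc)
    (hlow : ∀ α : ℝ, 0 < α → α < αc → Tendsto (fun N : ℕ => satProb N α) atTop (𝓝 1))
    (hhigh : ∀ α : ℝ, αc < α → Tendsto (fun N : ℕ => satProb N α) atTop (𝓝 0)) :
    (∀ α : ℝ, 0 < α → α < αc → W.ZeroE α (-1)) ∧ ∀ α : ℝ, αc < α → ¬ W.ZeroE α (-1) :=
  ⟨zeroE_below W hG hcap hcon P34Big_840.mix0 hlow,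
    not_zeroE_above' W hC hZ hG hLB hcap hcon hM P34Big_840.kern P34Big_840.mix0 hαc hhigh⟩

end Crest.Agent.R146.Thr_422
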