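import Crest.Agent.R146.VTr_468

/-!
# R146 (helper468): concavity of the control value

`vconc : VCONC W`: the payoff is jointly concave in the margin and the control.
-/

set_option autoImplicit false
set_option linter.unusedSectionVars false

open MeasureTheory ProbabilityTheory Set Crest.ProbabilityR.Perceptron

namespace Crest.Agent.R146.VCc_468

open Crest.Agent.R146.Mono_930 Crest.Agent.R146.MonoShift_930 Crest.Agent.R146.VTr_468

variable {Ω : Type*} [MeasurableSpace Ω]
variable {B : NNReal → Ω → ℝ} {hB : ∀ t, Measurable (B t)} {P : Measure Ω}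

/-- convex combination of two controls -/
def cc (a b : ℝ) (v w : NNReal → Ω → ℝ) : NNReal → Ω → ℝ := fun t ω => a * v t ω + b * w t ω

lemma path_cc (a b : ℝ) (v w : NNReal → Ω → ℝ) (ω : Ω) (t : ℝ) :
    path (cc a b v w) ω t = a * path v ω t + b * path w ω t := rfl

lemma sq_cc_le {a b : ℝ} (ha : 0 ≤ a) (hb : 0 ≤ b) (hab : a + b = 1) (x y : ℝ) :
    (a * x + b * y) ^ 2 ≤ a * x ^ 2 + b * y ^ 2 := by
  have hb' : b = 1 - a := by linarith
  subst hb'
  nlinarith [mul_nonneg (mul_nonneg ha hb) (sq_nonneg (x - y))]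

lemma cc_adm {m : OverlapProfile} {a b : ℝ} (ha : 0 ≤ a) (hb : 0 ≤ b) (hab : a + b = 1)
    {v w : NNReal → Ω → ℝ} (hv : IsAdmissibleControl P B hB m v)
    (hw : IsAdmissibleControl P B hB m w) : IsAdmissibleControl P B hB m (cc a b v w) := by
  have hp : IsProgressive (brownianFiltration B hB) (cc a b v w) := fun i =>
    ((hv.1 i).const_mul a).add ((hw.1 i).const_mul b)
  refine ⟨hp, ?_⟩
  rw [cost_eq hp]
  have h : ∀ ω, qq m (cc a b v w) ω ≤ ENNReal.ofReal a * qq m v ω + ENNReal.ofReal b * qq m w ω := by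
    intro ω
    unfold qq
    have m1 : Measurable (fun t => ENNReal.ofReal (path v ω t ^ 2)) :=
      ((meas_path _ hv.1 ω).pow_const 2).ennreal_ofReal
    have m2 : Measurable (fun t => ENNReal.ofReal (path w ω t ^ 2)) :=
      ((meas_path _ hw.1 ω).pow_const 2).ennreal_ofReal
    rw [← lintegral_const_mul _ m1, ← lintegral_const_mul _ m2,
      ← lintegral_add_left (m1.const_mul _)]
    refine lintegral_mono fun t => ?_
    rw [path_cc, ← ENNReal.ofReal_mul ha, ← ENNReal.ofReal_mul hb,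
      ← ENNReal.ofReal_add (by positivity) (by positivity)]
    exact ENNReal.ofReal_le_ofReal (sq_cc_le ha hb hab _ _)
  refine (lintegral_mono h).trans_lt ?_
  rw [lintegral_add_left ((meas_qq _ m hv.1).const_mul _), lintegral_const_mul _ (meas_qq _ m hv.1),
    lintegral_const_mul _ (meas_qq _ m hw.1), ← cost_eq hv.1, ← cost_eq hw.1]
  exact ENNReal.add_lt_top.2 ⟨ENNReal.mul_lt_top ENNReal.ofReal_lt_top hv.2,
    ENNReal.mul_lt_top ENNReal.ofReal_lt_top hw.2⟩

lemma dsp_cc {m : OverlapProfile} (a b : ℝ) {v w : NNReal → Ω → ℝ}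
    (hv : IsAdmissibleControl P B hB m v) (hw : IsAdmissibleControl P B hB m w) {ω : Ω}
    (h1 : qq m v ω < ⊤) (h2 : qq m w ω < ⊤) :
    dsp m (cc a b v w) ω = a * dsp m v ω + b * dsp m w ω := by
  unfold dsp
  have p1 := (int_path _ hv.1 h1).const_mul a
  have p2 := (int_path _ hw.1 h2).const_mul b
  rw [← integral_const_mul, ← integral_const_mul, ← integral_add p1 p2]
  rfl

lemma qq_cc {m : OverlapProfile} {a b : ℝ} (ha : 0 ≤ a) (hb : 0 ≤ b) (hab : a + b = 1)
    {v w : NNReal → Ω → ℝ}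
    (hv : IsAdmissibleControl P B hB m v) (hw : IsAdmissibleControl P B hB m w) {ω : Ω}
    (h1 : qq m v ω < ⊤) (h2 : qq m w ω < ⊤) (h3 : qq m (cc a b v w) ω < ⊤) :
    (qq m (cc a b v w) ω).toReal ≤ a * (qq m v ω).toReal + b * (qq m w ω).toReal := by
  have hp : IsProgressive (brownianFiltration B hB) (cc a b v w) :=
    (cc_adm ha hb hab hv hw).1
  rw [qq_toReal _ hv.1, qq_toReal _ hw.1, qq_toReal _ hp]
  have s1 := (int_sq_path _ hv.1 h1).const_mul a
  have s2 := (int_sq_path _ hw.1 h2).const_mul b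
  rw [← integral_const_mul, ← integral_const_mul, ← integral_add s1 s2]
  exact integral_mono (int_sq_path _ hp h3) (s1.add s2) fun t => sq_cc_le ha hb hab _ _

/-- joint concavity of the payoff -/
theorem payoff_cc [IsProbabilityMeasure P] (hB2 : MemLp (B 1) 2 P) {f f1 f2 : ℝ → ℝ} (hf : QG f)
    (hf1 : QG f1) (hf2 : QG f2) {a b : ℝ} (ha : 0 ≤ a) (hb : 0 ≤ b) (hab : a + b = 1)
    (hc : ∀ x y, a * f1 x + b * f2 y ≤ f (a * x + b * y)) {m : OverlapProfile}
    {v w : NNReal → Ω → ℝ} (hv : IsAdmissibleControl P B hB m v)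
    (hw : IsAdmissibleControl P B hB m w) :
    a * controlPayoff P B f1 m v + b * controlPayoff P B f2 m w ≤
      controlPayoff P B f m (cc a b v w) := by
  have hcc := cc_adm ha hb hab hv hw
  rw [payoff_eq, payoff_eq, payoff_eq, cost_toReal hv, cost_toReal hw, cost_toReal hcc]
  have i1 := hf1.integrable (memLp_end hB2 hv)
  have i2 := hf2.integrable (memLp_end hB2 hw)
  have i3 := hf.integrable (memLp_end hB2 hcc)
  have j1 := int_qq hv
  have j2 := int_qq hw
  have j3 := int_qq hcc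
  have key : ∫ ω, ((a * f1 (B 1 ω + dsp m v ω) + b * f2 (B 1 ω + dsp m w ω)) +
      (qq m (cc a b v w) ω).toReal / 2) ∂P ≤
      ∫ ω, (f (B 1 ω + dsp m (cc a b v w) ω) +
        (a * (qq m v ω).toReal + b * (qq m w ω).toReal) / 2) ∂P := by
    refine integral_mono_ae (((i1.const_mul a).add (i2.const_mul b)).add (j3.div_const 2))
      (i3.add (((j1.const_mul a).add (j2.const_mul b)).div_const 2)) ?_
    filter_upwards [adm_ae hv, adm_ae hw, adm_ae hcc] with ω h1 h2 h3
    have e := dsp_cc a b hv hw h1 h2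
    have q := qq_cc ha hb hab hv hw h1 h2 h3
    have c := hc (B 1 ω + dsp m v ω) (B 1 ω + dsp m w ω)
    have e2 : a * (B 1 ω + dsp m v ω) + b * (B 1 ω + dsp m w ω) =
        B 1 ω + dsp m (cc a b v w) ω := by
      rw [e]
      have : B 1 ω = (a + b) * B 1 ω := by rw [hab, one_mul]
      nlinarith
    rw [e2] at c
    linarith
  have t1 : Integrable (fun ω => a * f1 (B 1 ω + dsp m v ω) + b * f2 (B 1 ω + dsp m w ω)) P :=
    (i1.const_mul a).add (i2.const_mul b)
  have t2 : Integrable (fun ω => (a * (qq m v ω).toReal + b * (qq m w ω).toReal) / 2) P :=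
    ((j1.const_mul a).add (j2.const_mul b)).div_const 2
  rw [integral_add t1 (j3.div_const 2), integral_add i3 t2,
    integral_add (i1.const_mul a) (i2.const_mul b), integral_const_mul, integral_const_mul,
    integral_div, integral_div, integral_add (j1.const_mul a) (j2.const_mul b),
    integral_const_mul, integral_const_mul] at key
  linarith

/-- joint concavity of the value -/
theorem controlValue_cc [IsProbabilityMeasure P] (hB2 : MemLp (B 1) 2 P) {f f1 f2 : ℝ → ℝ}
    (hf : QG f) (hf1 : QG f1) (hf2 : QG f2) {a b : ℝ} (ha : 0 ≤ a) (hb : 0 ≤ b) (hab : a + b = 1)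
    (hc : ∀ x y, a * f1 x + b * f2 y ≤ f (a * x + b * y)) {K : ℝ} (hK : ∀ x, f x ≤ K)
    (m : OverlapProfile) :
    a * controlValue P B hB f1 m + b * controlValue P B hB f2 m ≤ controlValue P B hB f m := by
  refine le_of_forall_pos_le_add fun ε hε => ?_
  have h0 := isAdmissible_zero P B hB m
  obtain ⟨x, ⟨v, hv, rfl⟩, hx⟩ := exists_lt_of_lt_csSup
    (s := {x : ℝ | ∃ v : NNReal → Ω → ℝ, IsAdmissibleControl P B hB m v ∧
      x = controlPayoff P B f1 m v}) ⟨_, _, h0, rfl⟩
    (show controlValue P B hB f1 m - ε < sSup _ from sub_lt_self _ hε)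
  obtain ⟨y, ⟨w, hw, rfl⟩, hy⟩ := exists_lt_of_lt_csSup
    (s := {x : ℝ | ∃ v : NNReal → Ω → ℝ, IsAdmissibleControl P B hB m v ∧
      x = controlPayoff P B f2 m v}) ⟨_, _, h0, rfl⟩
    (show controlValue P B hB f2 m - ε < sSup _ from sub_lt_self _ hε)
  have h1 := payoff_cc (hB := hB) hB2 hf hf1 hf2 ha hb hab hc hv hw
  have h2 : controlPayoff P B f m (cc a b v w) ≤ controlValue P B hB f m :=
    le_csSup (bddAbove_payoffs P B hB hK m) ⟨_, cc_adm ha hb hab hv hw, rfl⟩
  have h3 : a * (controlValue P B hB f1 m - ε) ≤ a * controlPayoff P B f1 m v :=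
    mul_le_mul_of_nonneg_left hx.le ha
  have h4 : b * (controlValue P B hB f2 m - ε) ≤ b * controlPayoff P B f2 m w :=
    mul_le_mul_of_nonneg_left hy.le hb
  have h5 : (a + b) * ε = ε := by rw [hab, one_mul]
  nlinarith

open Crest.Agent.R146.P34_734

lemma fq_cc {β : ℝ} (hβ : 0 < β) {a b : ℝ} (ha : 0 ≤ a) (hb : 0 ≤ b) (hab : a + b = 1)
    (k1 k2 x y : ℝ) :
    a * fq β k1 x + b * fq β k2 y ≤ fq β (a * k1 + b * k2) (a * x + b * y) := by
  unfold fq
  have h1 : max (a * k1 + b * k2 - (a * x + b * y)) 0 ≤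
      a * max (k1 - x) 0 + b * max (k2 - y) 0 := by
    refine max_le ?_ (by positivity)
    have e1 := mul_le_mul_of_nonneg_left (le_max_left (k1 - x) 0) ha
    have e2 := mul_le_mul_of_nonneg_left (le_max_left (k2 - y) 0) hb
    nlinarith
  have h0 : 0 ≤ max (a * k1 + b * k2 - (a * x + b * y)) 0 := le_max_right _ _
  have h2 := pow_le_pow_left₀ h0 h1 2
  have h3 := sq_cc_le ha hb hab (max (k1 - x) 0) (max (k2 - y) 0)
  nlinarith

/-- **VCONC** -/
theorem vconc (W : BS) : VCONC W := by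
  intro β hβ m
  refine ⟨convex_univ, ?_⟩
  rintro k1 - k2 - a b ha hb hab
  simp only [smul_eq_mul]
  exact controlValue_cc (memLp_B1 W) (qg_fq hβ) (qg_fq hβ) (qg_fq hβ) ha hb hab
    (fun x y => fq_cc hβ ha hb hab k1 k2 x y) (fun x => fq_nonpos hβ x) m

end Crest.Agent.R146.VCc_468
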