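import Crest.Agent.R146.Asm0204_734
import Crest.Agent.R146.LindLB2_878
import Crest.Agent.R146.VTr_468
import Crest.Agent.R146.VCc_468
import Crest.Agent.R146.P34Big_840
import Crest.Agent.R146.P34b_323
import Crest.Agent.R146.P34a_323
import Crest.Agent.R146.Bsw_649
import Crest.Agent.R146.Thr_422
import Crest.Agent.R146.LocUb_393

/-!
Row 146 (helper288, PM-B): EDGE CHECK of package P3/P4.
S0203, S0204 (literal) and EPS on every Brownian space, from the nodes that are still open: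
S6 (= S0206) and LOCUB (`..._open`), or S6 and LOCCORE (`..._core`).
The statements of this file are used by others and are not changed any more; new names are added.
-/

set_option autoImplicit false

namespace Crest.Agent.R146.Chk34_288

open MeasureTheory ProbabilityTheory Filter Crest.ProbabilityR.Perceptron
open Crest.Agent.R146.P34_734
open scoped Topology

theorem lindlb (W : BS) (h6 : S6 W) : LINDLB W :=
  Crest.Agent.R146L878.LINDLB_of W h6 (VTr_468.vmono W) (VTr_468.vzero W)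

theorem gub (W : BS) (h6 : S6 W) : GUB W := P34b_323.gub W h6

theorem s0204_open (W : BS) (h6 : S6 W) (hLOC : LOCUB W) :
    ∃ αc : ℝ, 0 < αc ∧ ∃ ε₀ : ℝ, 0 < ε₀ ∧ ε₀ < 1 ∧
      ∀ ε : ℝ, 0 ≤ ε → ε < ε₀ → IsSharpThreshold ε αc :=
  Asm0204_734.s0204_of W (VCc_468.vconc W) (VTr_468.vzero W) (VTr_468.vup W) (gub W h6)
    (lindlb W h6) hLOC P34a_323.cap P34a_323.concm P34a_323.markov P34Big_840.kern
    P34Big_840.big P34Big_840.monoa

theorem s0203_open (W : BS) (h6 : S6 W) (hLOC : LOCUB W) :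
    ∃ αc : ℝ, 0 < αc ∧
      (∀ α : ℝ, 0 < α → α < αc →
        Filter.Tendsto (fun N : ℕ => satProb N α) Filter.atTop (nhds 1)) ∧
      (∀ α : ℝ, αc < α →
        Filter.Tendsto (fun N : ℕ => satProb N α) Filter.atTop (nhds 0)) :=
  Asm0204_734.s0203_of P34Big_840.mix0 (s0204_open W h6 hLOC)

theorem eps_open (W : BS) (h6 : S6 W) (hLOC : LOCUB W) : EPS W :=
  Asm0204_734.eps_of W (gub W h6) (lindlb W h6) hLOC P34a_323.cap P34a_323.concm
    P34Big_840.mix0 P34a_323.pint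

/-- thresholds determine the zero set. -/
theorem zeroE_open (W : BS) (h6 : S6 W) {αc : ℝ} (hαc : 0 < αc)
    (hlow : ∀ α : ℝ, 0 < α → α < αc → Tendsto (fun N : ℕ => satProb N α) atTop (𝓝 1))
    (hhigh : ∀ α : ℝ, αc < α → Tendsto (fun N : ℕ => satProb N α) atTop (𝓝 0)) :
    (∀ α : ℝ, 0 < α → α < αc → W.ZeroE α (-1)) ∧ ∀ α : ℝ, αc < α → ¬ W.ZeroE α (-1) :=
  Thr_422.zeroE_iff W (VCc_468.vconc W) (VTr_468.vzero W) (gub W h6) (lindlb W h6) P34a_323.cap
    P34a_323.concm P34a_323.markov hαc hlow hhigh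

/-! ### the same from LOCCORE -/

theorem s0204_core (W : BS) (h6 : S6 W) (hCore : LocCore_508.LOCCORE) :
    ∃ αc : ℝ, 0 < αc ∧ ∃ ε₀ : ℝ, 0 < ε₀ ∧ ε₀ < 1 ∧
      ∀ ε : ℝ, 0 ≤ ε → ε < ε₀ → IsSharpThreshold ε αc :=
  s0204_open W h6 (LocUb_393.locub_of hCore W)

theorem s0203_core (W : BS) (h6 : S6 W) (hCore : LocCore_508.LOCCORE) :
    ∃ αc : ℝ, 0 < αc ∧
      (∀ α : ℝ, 0 < α → α < αc →
        Filter.Tendsto (fun N : ℕ => satProb N α) Filter.atTop (nhds 1)) ∧
      (∀ α : ℝ, αc < α →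
        Filter.Tendsto (fun N : ℕ => satProb N α) Filter.atTop (nhds 0)) :=
  s0203_open W h6 (LocUb_393.locub_of hCore W)

theorem eps_core (W : BS) (h6 : S6 W) (hCore : LocCore_508.LOCCORE) : EPS W :=
  eps_open W h6 (LocUb_393.locub_of hCore W)

end Crest.Agent.R146.Chk34_288
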