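import Crest.Agent.R146.S6UB_167
import Crest.Agent.R146.U0_762
import Crest.Agent.R146.S6U1_993
import Crest.Agent.R146.DerJen_52
import Crest.Agent.R146.S6Ibp_559
import Crest.Agent.R146.HConc_52
import Crest.Agent.R146.S6StrF_649
import Crest.Agent.R146.S6Cavity_769
import Crest.Agent.R146.MonB_911
import Crest.Agent.R146.MonF_422
import Crest.Agent.R146.PLim_857
import Crest.Agent.R146.Disc_857

/-!
Row 146, S0206 (helper167): the upper bound (UB) of `S6U_988`, unconditional.
-/

set_option autoImplicit false

namespace Crest.Agent.R146.S6UBF_167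

/-- **(UB)** the upper bound, arbitrary row functions. -/
theorem ub : Crest.Agent.R146.S6U_988.UB :=
  S6UB_167.UB_of U0_762.result S6U1_993.result DerJen_52.jen DerJen_52.der S6Ibp_559.ibp_node
    HConc_52.hconc S6StrF_649.str S6Cavity_769.cav (MonB_911.monod MonF_422.mono MonF_422.lip)
    PLim857.plim Disc857.disc

end Crest.Agent.R146.S6UBF_167
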