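import Crest.Agent.R146.LocAsm_508
import Crest.Agent.R146.S6UBF_167

/-!
Row 146, node LOC (task 13), helper508: **LOCCORE**, final assembly.
-/

set_option autoImplicit false

open MeasureTheory ProbabilityTheory Filter Set
open scoped ENNReal NNReal Topology

namespace Crest.Agent.R146.LocAsm_508

open Crest.ProbabilityR.Perceptron
open Crest.Agent.R146.Sph_409
open Crest.Agent.R146.LocXR_508
open Crest.Agent.R146.LocCov_508
open Crest.Agent.R146.LocSeq_508
open Crest.Agent.R146.LocCore_508 (Tcut QLow LOCCORE)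
open Crest.Agent.R146.P34_734 (Test pM)
open Crest.Agent.R146.S6Def_988 (Lev Th SP)
open Crest.Agent.R146.RepairNet_840 (vec)

noncomputable section

/-- the bad set of the blocks -/
def badB (α ε : ℝ) (ψ : ℝ → ℝ) (s d : ℝ)
    (S : ∀ (N : ℕ) (I : Finset (Fin N)), Finset ({i // i ∈ I} → ℝ)) (N : ℕ) :
    Set (Patterns N α) :=
  ⋃ I ∈ (Finset.univ : Finset (Finset (Fin N))).filter (fun I => I.card ≤ K0 N), ⋃ u ∈ S N I,
    {A | (∫ A', XF ψ (∑ i, u i ^ 2) (kN N / √s) u A' ∂(Measure.pi fun _ :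
        Fin (numPatterns N α) × ({i // i ∈ I} ⊕ Fin (N - I.card)) => mixtureLaw ε)) + d * N ≤
      XF ψ (∑ i, u i ^ 2) (kN N / √s) u (fun p : Fin (numPatterns N α) ×
        ({i // i ∈ I} ⊕ Fin (N - I.card)) => A (p.1, EI I p.2))}

/-- measure of the bad set of the blocks -/
theorem badB_le {α ε s d K : ℝ} {ψ : ℝ → ℝ} (hα : 0 < α) (hd : 0 < d) (hK1 : 1 ≤ K)
    (hψ : Measurable ψ) (hK : ∀ x, |ψ x| ≤ K) {D : ℕ}
    (S : ∀ (N : ℕ) (I : Finset (Fin N)), Finset ({i // i ∈ I} → ℝ))
    (hSc : ∀ (N : ℕ) (I : Finset (Fin N)), (S N I).card ≤ D ^ (I.card + 1)) :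
    Tendsto (fun N : ℕ => (Measure.pi fun _ : Fin (numPatterns N α) × Fin N => mixtureLaw ε)
      (badB α ε ψ s d S N)) atTop (𝓝 0) := by
  have : IsProbabilityMeasure (mixtureLaw ε) := Crest.Agent.R146L878.isProb_mixtureLaw ε
  set c1 := d ^ 2 / (2 * α * K ^ 2) with hc1
  have hKpos : 0 < K := by linarith
  have hc1pos : 0 < c1 := by positivity
  have hlim : Tendsto (fun N : ℕ => ENNReal.ofReal (Real.exp (-(c1 / 2) * N))) atTop (𝓝 0) := by
    rw [← ENNReal.ofReal_zero]
    refine (ENNReal.continuous_ofReal.tendsto 0).comp ?_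
    have h1 : Tendsto (fun N : ℕ => (c1 / 2) * (N : ℝ)) atTop atTop :=
      tendsto_natCast_atTop_atTop.const_mul_atTop (by positivity)
    refine (Real.tendsto_exp_neg_atTop_nhds_zero.comp h1).congr fun N => ?_
    simp only [Function.comp]; ring_nf
  refine tendsto_of_tendsto_of_tendsto_of_le_of_le' tendsto_const_nhds hlim
    (Eventually.of_forall fun _ => zero_le) ?_
  have hM1 : ∀ᶠ N : ℕ in atTop, 1 ≤ numPatterns N α := by
    filter_upwards [(tendsto_natCast_atTop_atTop (R := ℝ)).eventually_ge_atTop (1 / α)] with N hN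
    unfold numPatterns
    refine Nat.le_floor ?_
    rw [div_le_iff₀ hα] at hN
    push_cast; linarith
  filter_upwards [count (half_pos hc1pos) D, hM1, eventually_ge_atTop 1] with N hN hM hN1
  have hNp : (0 : ℝ) < N := by exact_mod_cast hN1
  have hMN : (numPatterns N α : ℝ) ≤ α * N := Nat.floor_le (by positivity)
  have hMp : (0 : ℝ) < numPatterns N α := by
    have : (1 : ℝ) ≤ numPatterns N α := by exact_mod_cast hM
    linarith
  have hexp : Real.exp (-(d * N) ^ 2 / (2 * numPatterns N α * K ^ 2)) ≤ Real.exp (-c1 * N) := by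
    refine Real.exp_le_exp.2 ?_
    rw [neg_div, neg_mul, neg_le_neg_iff, hc1, div_mul_eq_mul_div,
      div_le_div_iff₀ (by positivity) (by positivity)]
    have := mul_le_mul_of_nonneg_left hMN (show 0 ≤ d ^ 2 * N * (2 * K ^ 2) by positivity)
    nlinarith
  unfold badB
  refine (measure_biUnion_finset_le _ _).trans ?_
  have h1 : ∀ I ∈ (Finset.univ : Finset (Finset (Fin N))).filter (fun I => I.card ≤ K0 N),
      (Measure.pi fun _ : Fin (numPatterns N α) × Fin N => mixtureLaw ε) (⋃ u ∈ S N I,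
        {A | (∫ A', XF ψ (∑ i, u i ^ 2) (kN N / √s) u A' ∂(Measure.pi fun _ :
            Fin (numPatterns N α) × ({i // i ∈ I} ⊕ Fin (N - I.card)) => mixtureLaw ε)) + d * N ≤
          XF ψ (∑ i, u i ^ 2) (kN N / √s) u (fun p : Fin (numPatterns N α) ×
            ({i // i ∈ I} ⊕ Fin (N - I.card)) => A (p.1, EI I p.2))}) ≤
      (D ^ (I.card + 1) : ℕ) * ENNReal.ofReal (Real.exp (-c1 * N)) := by
    intro I _
    refine (measure_biUnion_finset_le _ _).trans ?_
    refine (Finset.sum_le_sum fun u _ => (conc_block hψ hK I u _ _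
      (by positivity)).trans (ENNReal.ofReal_le_ofReal hexp)).trans ?_
    rw [Finset.sum_const, nsmul_eq_mul]
    exact mul_le_mul' (by exact_mod_cast hSc N I) le_rfl
  refine (Finset.sum_le_sum h1).trans ?_
  rw [← Finset.sum_mul]
  have h2 : (∑ i ∈ (Finset.univ : Finset (Finset (Fin N))).filter (fun I => I.card ≤ K0 N),
      ((D ^ (i.card + 1) : ℕ) : ℝ≥0∞)) ≤ ENNReal.ofReal (Real.exp (c1 / 2 * N)) := by
    have h3 := ENNReal.ofReal_le_ofReal hN
    rw [ENNReal.ofReal_natCast] at h3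
    refine le_trans (le_of_eq ?_) h3
    push_cast; rfl
  refine (mul_le_mul' h2 le_rfl).trans (le_of_eq ?_)
  rw [← ENNReal.ofReal_mul (Real.exp_pos _).le, ← Real.exp_add]
  congr 2; ring

/-- **LOCCORE** -/
theorem loccore_of (hUB : Crest.Agent.R146.S6U_988.UB) : LOCCORE := by
  intro αm hαm
  obtain ⟨C, hC, hHR⟩ := Crest.Agent.R146.High_840.high_region αm hαm
  refine ⟨C, hC, ?_⟩
  intro α ε s hα hααm hε0 hε1 hs0 hs1 hαε ψ hψ b0 hb0 hlo hhi b c0 R q hb hR hq hψle hQ δ hδ
  obtain ⟨K1, hK1'⟩ := Crest.Agent.R146L878.Test_bdd hψ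
  obtain ⟨L, hL0, hL⟩ := Crest.Agent.R146L878.Test_lip hψ
  set K := max K1 1 with hKdef
  have hK1 : 1 ≤ K := le_max_right _ _
  have hK : ∀ x, |ψ x| ≤ K := fun x => (hK1' x).trans (le_max_left _ _)
  have hψc : Continuous ψ := (hψ.smooth 0).continuous
  have hψm : Measurable ψ := hψc.measurable
  have hpr : IsProbabilityMeasure (mixtureLaw ε) := Crest.Agent.R146L878.isProb_mixtureLaw ε
  set d := δ / 8 with hd'
  have hd : 0 < d := by positivity
  set Bc := 8 * √(α + 1) with hBc
  have hBc0 : 0 ≤ Bc := by positivity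
  -- the mesh
  obtain ⟨h, hh0, hh1, hhd⟩ := exists_mesh (c := L * √α * Bc) (s := s) hd
  -- the entropy constant
  set κ' := 1 - Real.exp (-(2 * d)) with hκ'
  have hexp0 : 0 < Real.exp (-(2 * d)) := Real.exp_pos _
  have hexp1 : Real.exp (-(2 * d)) < 1 := by
    rw [Real.exp_lt_one_iff]; linarith
  have hκ0 : 0 < κ' := by rw [hκ']; linarith
  have hκ1 : κ' < 1 := by rw [hκ']; linarith
  have hlogκ : Real.log (1 / (1 - κ')) = 2 * d := by
    rw [hκ', sub_sub_cancel, one_div, ← Real.exp_neg, Real.log_exp]; ring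
  -- the nets
  obtain ⟨D0, hD0⟩ := Crest.Agent.R146.LocNet_840.netp h hh0 hh1
  have hSex : ∀ (N : ℕ) (I : Finset (Fin N)), ∃ S : Finset ({i // i ∈ I} → ℝ),
      S.card ≤ (D0 + 1) ^ (I.card + 1) ∧
      (∀ u ∈ S, ∃ k : ℕ, (k : ℝ) * h ≤ 1 ∧ ∑ i, u i ^ 2 = k * h) ∧
      ∀ w : {i // i ∈ I} → ℝ, ∑ i, w i ^ 2 ≤ 1 → ∃ u ∈ S, ∑ i, u i ^ 2 ≤ ∑ i, w i ^ 2 ∧
        ∑ i, w i ^ 2 ≤ ∑ i, u i ^ 2 + h ∧ ∑ i, (w i - u i) ^ 2 ≤ 9 * h := by
    intro N I
    obtain ⟨S, h1, h2, h3⟩ := hD0 {i // i ∈ I}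
    refine ⟨S, ?_, h2, h3⟩
    rw [Fintype.card_coe] at h1
    exact h1.trans (Nat.pow_le_pow_left (Nat.le_succ D0) _)
  choose S hSc hSk hSn using hSex
  -- low region
  obtain ⟨J0, hJ0⟩ := low_case hUB hψ hb0 hlo hhi hα hd hε0 hε1 hs0 hs1 hαε hh0
  refine ⟨J0, fun J hJ P hP hP1 => ?_⟩
  have hlow := hJ0 J hJ P hP hP1
  -- high region
  obtain ⟨bad3, hbad3, hhigh⟩ := high_case hC hHR hα hααm hε0 hε1 hs0 hs1 hb hR hq hψle hQ hd
  have hbad2 := badB_le (ε := ε) (s := s) hα hd hK1 hψm hK S hSc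
  -- operator norm
  let bad1 : (N : ℕ) → Set (Patterns N α) := fun N => {A | ¬ ∀ l : Fin (numPatterns N α) → ℝ,
    ‖vec A l‖ ≤ 8 * √(α + 1) * √(Fintype.card (Fin N)) * √(∑ a, l a ^ 2)}
  have hbad1 : Tendsto (fun N : ℕ => (Measure.pi fun _ : Fin (numPatterns N α) × Fin N =>
      mixtureLaw ε) (bad1 N)) atTop (𝓝 0) := by
    have hlim : Tendsto (fun N : ℕ => ENNReal.ofReal (Real.exp (-(N : ℝ)))) atTop (𝓝 0) := by
      rw [← ENNReal.ofReal_zero]
      exact (ENNReal.continuous_ofReal.tendsto 0).comp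
        (Real.tendsto_exp_neg_atTop_nhds_zero.comp tendsto_natCast_atTop_atTop)
    refine tendsto_of_tendsto_of_tendsto_of_le_of_le' tendsto_const_nhds hlim
      (Eventually.of_forall fun _ => zero_le) (Eventually.of_forall fun N => ?_)
    have hcard : (Fintype.card (Fin (numPatterns N α)) : ℝ) ≤ α * Fintype.card (Fin N) := by
      rw [Fintype.card_fin, Fintype.card_fin]
      exact Nat.floor_le (by positivity)
    have := Crest.Agent.R146.Large_840.opnorm_event
      (Crest.Agent.R146.RepairLaw_840.good_mixtureLaw ε hε0 (by linarith)) α hα.le hcard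
    refine this.trans (le_of_eq ?_)
    rw [Fintype.card_fin]
  set V := α * Th J ψ P + SP J P with hV
  set xp := max (√(α * q) - C * √s) 0 with hxp
  set H := α * c0 - b / 2 * xp ^ 2 + 1 / 2 * Real.log s with hH
  set a := max V H + 7 * d with ha
  set b' := α * K + |a| with hb'
  have hb'0 : 0 ≤ b' := by
    have : 0 ≤ K := by linarith
    positivity
  let bad : (N : ℕ) → Set (Patterns N α) := fun N => bad1 N ∪ badB α ε ψ s d S N ∪ bad3 N
  have hbad : Tendsto (fun N : ℕ => ((Measure.pi fun _ : Fin (numPatterns N α) × Fin N =>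
      mixtureLaw ε) (bad N)).toReal) atTop (𝓝 0) := by
    rw [← ENNReal.toReal_zero]
    refine (ENNReal.tendsto_toReal ENNReal.zero_ne_top).comp ?_
    have hsum := (hbad1.add hbad2).add hbad3
    simp only [add_zero] at hsum
    refine tendsto_of_tendsto_of_tendsto_of_le_of_le tendsto_const_nhds hsum
      (fun _ => zero_le) (fun N => ?_)
    exact (measure_union_le _ _).trans (add_le_add (measure_union_le _ _) le_rfl)
  -- the error terms
  set c2 := 1 / 2 * (Real.log (1 / κ') - Real.log s) with hc2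
  have hc2' : ∀ᶠ N : ℕ in atTop, (K0 N : ℝ) * c2 ≤ d * N := by
    filter_upwards [K0_eventually_le (c := d / (|c2| + 1)) (by positivity),
      eventually_ge_atTop 1] with N hN hN1
    have hNp : (0 : ℝ) < N := by exact_mod_cast hN1
    have h0 : (0 : ℝ) ≤ K0 N := Nat.cast_nonneg _
    calc (K0 N : ℝ) * c2 ≤ (K0 N : ℝ) * (|c2| + 1) :=
          mul_le_mul_of_nonneg_left ((le_abs_self _).trans (by linarith)) h0
      _ ≤ d / (|c2| + 1) * N * (|c2| + 1) := mul_le_mul_of_nonneg_right hN (by positivity)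
      _ = d * N := by field_simp
  have hbig : ∀ᶠ N : ℕ in atTop, Real.log 2 + |c0| ≤ d * N := by
    filter_upwards [(tendsto_natCast_atTop_atTop (R := ℝ)).eventually_ge_atTop
      ((Real.log 2 + |c0|) / d)] with N hN
    rw [div_le_iff₀ hd] at hN
    linarith
  filter_upwards [hlow, hc2', hbig, count hd (D0 + 1), eventually_ge_atTop 1,
    K0_eventually_le (c := 1 / 2) (by norm_num),
    hbad.eventually (gt_mem_nhds (show (0 : ℝ) < d / (b' + 1) by positivity))] with N hlowN hc2N
      hbigN hcountN hN1 hK0N hbadN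
  have hNp : (0 : ℝ) < N := by exact_mod_cast hN1
  have : NeZero N := ⟨by omega⟩
  have hMN : (numPatterns N α : ℝ) ≤ α * N := Nat.floor_le (by positivity)
  have hMN2 : α * N < (numPatterns N α : ℝ) + 1 := Nat.lt_floor_add_one _
  have hKN : K0 N < N := by
    have : (K0 N : ℝ) < N := by linarith
    exact_mod_cast this
  have hprp : IsProbabilityMeasure (patternLawMix N α ε) :=
    inferInstanceAs (IsProbabilityMeasure
      (Measure.pi fun _ : Fin (numPatterns N α) × Fin N => mixtureLaw ε))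
  have hgood : ∀ A : Patterns N α, A ∉ bad N → spherePressure N α 1 ψ A ≤ a := by
    intro A hA
    simp only [bad, Set.mem_union, not_or] at hA
    obtain ⟨⟨hA1, hA2⟩, hA3⟩ := hA
    have hA1' : ∀ l : Fin (numPatterns N α) → ℝ,
        ‖vec A l‖ ≤ 8 * √(α + 1) * √(Fintype.card (Fin N)) * √(∑ a, l a ^ 2) := by
      by_contra hc; exact hA1 hc
    rw [Fintype.card_fin] at hA1'
    have hop : ∀ v : Fin N → ℝ, ∑ a, (∑ i, A (a, i) * v i) ^ 2 ≤
        (Bc * √N) ^ 2 * ∑ i, v i ^ 2 := by
      intro v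
      have h1 := Crest.Agent.R146.Large_840.sum_lin_sq_le A (8 * √(α + 1) * √N) hA1' v
      refine le_trans (le_of_eq ?_) h1
      refine Finset.sum_congr rfl fun a _ => ?_
      congr 1
      unfold Crest.Agent.R146.RepairLaw_840.lin
      exact Finset.sum_congr rfl fun i _ => mul_comm _ _
    have hblock : ∀ I : Finset (Fin N), I.card ≤ K0 N → ∀ u ∈ S N I, ∑ i, u i ^ 2 ≤ 1 - s →
        XF ψ (∑ i, u i ^ 2) (kN N / √s) u (fun p : Fin (numPatterns N α) ×
          ({i // i ∈ I} ⊕ Fin (N - I.card)) => A (p.1, EI I p.2)) +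
          N / 2 * Real.log (1 - ∑ i, u i ^ 2) ≤ N * V + 2 * d * N := by
      intro I hI u hu hus
      have h1 := hlowN I hI u (hSk N I u hu) hus
      have h2 : ¬ ((∫ A', XF ψ (∑ i, u i ^ 2) (kN N / √s) u A' ∂(Measure.pi fun _ :
          Fin (numPatterns N α) × ({i // i ∈ I} ⊕ Fin (N - I.card)) => mixtureLaw ε)) + d * N ≤
          XF ψ (∑ i, u i ^ 2) (kN N / √s) u (fun p : Fin (numPatterns N α) ×
          ({i // i ∈ I} ⊕ Fin (N - I.card)) => A (p.1, EI I p.2))) := by
        intro hc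
        apply hA2
        unfold badB
        simp only [Set.mem_iUnion, exists_prop]
        exact ⟨I, Finset.mem_filter.2 ⟨Finset.mem_univ _, hI⟩, u, hu, hc⟩
      push Not at h2
      have h3 : (N : ℝ) * (V - 1 / 2 * Real.log (1 - ∑ i, u i ^ 2) + d) =
        N * V - N / 2 * Real.log (1 - ∑ i, u i ^ 2) + d * N := by ring
      rw [h3] at h1
      linarith
    have hZ := Z_le (κ := kN N) (s := s) (h := h) (κ' := κ') (L := L) (B := Bc * √N) (K := K)
      (W := N * V + 2 * d * N) (W' := numPatterns N α * c0 - N * (b / 2 * xp ^ 2 - d))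
      (K0 := K0 N) (D := D0 + 1) (kN_pos (by omega)) (kN_inv_le (by omega)) hKN hs0 hs1 hκ0 hκ1
      hL0 (by positivity) (by omega) (S N) (hSc N) (hSn N) hψm hK hL hop hblock
      (hhigh N hN1 A hA3)
    rw [pressure_eq, div_le_iff₀ hNp]
    refine hZ.trans ?_
    -- the terms
    have t1 : Real.log (2 * ((∑ I ∈ (Finset.univ : Finset (Finset (Fin N))).filter
        (fun I => I.card ≤ K0 N), (D0 + 1) ^ (I.card + 1) : ℕ) : ℝ)) ≤
        Real.log 2 + d * N := by
      have hpos : (0 : ℝ) < ((∑ I ∈ (Finset.univ : Finset (Finset (Fin N))).filter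
          (fun I => I.card ≤ K0 N), (D0 + 1) ^ (I.card + 1) : ℕ) : ℝ) := by
        have : 0 < ∑ I ∈ (Finset.univ : Finset (Finset (Fin N))).filter
            (fun I => I.card ≤ K0 N), (D0 + 1) ^ (I.card + 1) :=
          Finset.sum_pos (fun I _ => Nat.pow_pos (by omega))
            ⟨∅, Finset.mem_filter.2 ⟨Finset.mem_univ _, by simp⟩⟩
        exact_mod_cast this
      rw [Real.log_mul (by norm_num) hpos.ne']
      have := Real.log_le_log hpos hcountN
      rw [Real.log_exp] at this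
      linarith
    have t2 : Rerr N (K0 N) s κ' ≤ 2 * d * N := by
      unfold Rerr
      rw [hlogκ]
      have : (K0 N : ℝ) * c2 = K0 N / 2 * Real.log (1 / κ') - K0 N / 2 * Real.log s := by
        rw [hc2]; ring
      rw [← this]
      linarith
    have t3 : (numPatterns N α : ℝ) * c0 ≤ α * N * c0 + |c0| := by
      have h1 : (numPatterns N α : ℝ) * c0 - α * N * c0 = (numPatterns N α - α * N) * c0 := by ring
      have h2 : |((numPatterns N α : ℝ) - α * N) * c0| ≤ 1 * |c0| := by
        rw [abs_mul]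
        refine mul_le_mul_of_nonneg_right ?_ (abs_nonneg _)
        rw [abs_le]; constructor <;> linarith
      have h3 := le_abs_self (((numPatterns N α : ℝ) - α * N) * c0)
      linarith
    have t4 : L * √(numPatterns N α) * (Bc * √N) * √(9 * h + h ^ 2 / (4 * s)) ≤ d * N := by
      have h1 : √(numPatterns N α : ℝ) ≤ √α * √N := by
        rw [← Real.sqrt_mul hα.le]; exact Real.sqrt_le_sqrt hMN
      calc L * √(numPatterns N α) * (Bc * √N) * √(9 * h + h ^ 2 / (4 * s))
          ≤ L * (√α * √N) * (Bc * √N) * √(9 * h + h ^ 2 / (4 * s)) := by gcongr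
        _ = (L * √α * Bc * √(9 * h + h ^ 2 / (4 * s))) * (√N * √N) := by ring
        _ ≤ d * (√N * √N) := mul_le_mul_of_nonneg_right hhd (by positivity)
        _ = d * N := by rw [Real.mul_self_sqrt hNp.le]
    have t5 : max (numPatterns N α * c0 - N * (b / 2 * xp ^ 2 - d) + N / 2 * Real.log s)
        (L * √(numPatterns N α) * (Bc * √N) * √(9 * h + h ^ 2 / (4 * s)) +
          (N * V + 2 * d * N)) ≤ N * max V H + 3 * d * N + |c0| := by
      have hc := abs_nonneg c0
      have hdN : 0 ≤ d * N := by positivity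
      refine max_le ?_ ?_
      · have h1 : N * H ≤ N * max V H := mul_le_mul_of_nonneg_left (le_max_right _ _) hNp.le
        have h2 : N * H = α * N * c0 - N * (b / 2 * xp ^ 2) + N / 2 * Real.log s := by
          rw [hH]; ring
        have h3 : (N : ℝ) * (b / 2 * xp ^ 2 - d) = N * (b / 2 * xp ^ 2) - d * N := by ring
        rw [h3]
        linarith
      · have h1 : N * V ≤ N * max V H := mul_le_mul_of_nonneg_left (le_max_left _ _) hNp.le
        linarith
    have h7 : a * N = N * max V H + 7 * d * N := by rw [ha]; ring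
    rw [h7]
    linarith
  have hall : ∀ A : Patterns N α, spherePressure N α 1 ψ A ≤ a + b' := by
    intro A
    have h1 := Crest.Agent.R146.Conc_237.abs_spherePressure_le (β := 1) hα.le hψm hK A
    rw [abs_one, one_mul] at h1
    have h2 := le_abs_self (spherePressure N α 1 ψ A)
    have h3 := neg_abs_le a
    rw [hb']; linarith
  have hint : Integrable (fun A : Patterns N α => spherePressure N α 1 ψ A)
      (patternLawMix N α ε) :=
    Crest.Agent.R146.Conc_237.integrable_spherePressure (mixtureLaw ε) hψm hK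
  have hfin := integral_le_bad hint hgood hall
  have h8 : b' * ((Measure.pi fun _ : Fin (numPatterns N α) × Fin N =>
      mixtureLaw ε) (bad N)).toReal ≤ d := by
    calc b' * ((Measure.pi fun _ : Fin (numPatterns N α) × Fin N =>
          mixtureLaw ε) (bad N)).toReal ≤ (b' + 1) * (d / (b' + 1)) :=
          mul_le_mul (by linarith) hbadN.le ENNReal.toReal_nonneg (by linarith)
      _ = d := by field_simp
  have h9 : pM N α ε ψ ≤ a + d := by
    unfold pM
    refine hfin.trans ?_
    have h8' : b' * ((patternLawMix N α ε) (bad N)).toReal ≤ d := h8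
    linarith
  have h10 : a + d = max V H + δ := by rw [ha, hd']; ring
  rw [h10] at h9
  exact h9

/-- **LOCCORE**, unconditionally. -/
theorem loccore : LOCCORE := loccore_of Crest.Agent.R146.S6UBF_167.ub

end

end Crest.Agent.R146.LocAsm_508
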