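import Crest.Agent.R146.Chk05_288
import Crest.Agent.R146.LocFinal_508

/-!
Row 146 (helper288, PM-B): EDGE CHECK 2 (19:16Z). `LOCCORE` is a theorem (helper508), so
* S0203, S0204, EPS need only S6 (= S0206);
* S0205 needs only S6, TIPW, EXPO.
-/

set_option autoImplicit false

namespace Crest.Agent.R146.Chk6_288

open MeasureTheory ProbabilityTheory Filter Crest.ProbabilityR.Perceptron
open Crest.Agent.R146.P34_734 Crest.Agent.R146.P5Def_12 Crest.Agent.R146.S0205Asm_12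
open scoped Topology

theorem locub (W : BS) : LOCUB W := LocUb_393.locub_of LocAsm_508.loccore W

theorem s0204_s6 (W : BS) (h6 : S6 W) :
    ∃ αc : ℝ, 0 < αc ∧ ∃ ε₀ : ℝ, 0 < ε₀ ∧ ε₀ < 1 ∧
      ∀ ε : ℝ, 0 ≤ ε → ε < ε₀ → IsSharpThreshold ε αc :=
  Chk34_288.s0204_open W h6 (locub W)

theorem s0203_s6 (W : BS) (h6 : S6 W) :
    ∃ αc : ℝ, 0 < αc ∧
      (∀ α : ℝ, 0 < α → α < αc →
        Filter.Tendsto (fun N : ℕ => satProb N α) Filter.atTop (nhds 1)) ∧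
      (∀ α : ℝ, αc < α →
        Filter.Tendsto (fun N : ℕ => satProb N α) Filter.atTop (nhds 0)) :=
  Chk34_288.s0203_open W h6 (locub W)

theorem eps_s6 (W : BS) (h6 : S6 W) : EPS W := Chk34_288.eps_open W h6 (locub W)

theorem s0205_s6 (W : BS) (h6 : S6 W) (hTIP : TIPW W) (hEXPO : EXPO W)
    (αc : ℝ) (hαc : 0 < αc)
    (hlow : ∀ α : ℝ, 0 < α → α < αc →
      Filter.Tendsto (fun N : ℕ => satProb N α) Filter.atTop (nhds 1))
    (hhigh : ∀ α : ℝ, αc < α →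
      Filter.Tendsto (fun N : ℕ => satProb N α) Filter.atTop (nhds 0)) :
    ∃ ε₀ : ℝ, 0 < ε₀ ∧ ε₀ < 1 ∧ ∃ G F : ℝ → ℝ,
      (∀ ε : ℝ, 0 ≤ ε → ε < ε₀ →
        (∀ u : ℝ, 0 < u → ∃ g : ℝ → ℝ,
          (∀ δ : ℝ, 0 < δ → δ < u →
            HasOrderedLimit (fun N β α => gapMean N β α ε δ u) αc (g δ)) ∧
          Filter.Tendsto g (nhdsWithin 0 (Set.Ioi 0)) (nhds (G u))) ∧
        (∀ s : ℝ, 0 < s → HasOrderedLimit (fun N β α => forceMean N β α ε s) αc (F s))) ∧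
      (∃ P : MeasureTheory.Measure ℝ, MeasureTheory.IsProbabilityMeasure P ∧
        P (Set.Iic 0) = 0 ∧ ∫ x, x ∂P = 1 ∧
        ∀ s : ℝ, 0 < s → F s = (P (Set.Iic s)).toReal) ∧
      ∃ γ θ : ℝ, γ = 1 / (2 + θ) ∧ 0.4126930 < γ ∧ γ < 0.4126934 ∧
        0.4231063 < θ ∧ θ < 0.4231088 ∧
        Filter.Tendsto (fun u : ℝ => Real.log (G u) / Real.log u)
          (nhdsWithin 0 (Set.Ioi 0)) (nhds (1 - γ)) ∧
        Filter.Tendsto (fun s : ℝ => Real.log (F s) / Real.log s)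
          (nhdsWithin 0 (Set.Ioi 0)) (nhds (1 + θ)) :=
  Chk05_288.s0205_open4 W h6 LocAsm_508.loccore hTIP hEXPO αc hαc hlow hhigh

end Crest.Agent.R146.Chk6_288
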