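import Crest.Agent.R146.ExpoC_778
import Crest.Agent.R146.Emg_288
import Crest.Agent.R146.S0205Asm_12

/-!
Row 146 (helper288, glue only): **EXPO** for every `W`, from `Expo_778.expo_frame` (helper778) and
the sub-Gaussian bounds `Emg_288.emw` (helpers 861, 491, 4).
-/

set_option autoImplicit false

namespace Crest.Agent.R146.Expo_288

open Set Filter Topology MeasureTheory ProbabilityTheory Crest.ProbabilityR.Perceptron
open Crest.Agent.R146.Hilb Crest.Agent.R146.ProfB_540 Crest.Agent.R146.HilbE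
open Crest.Agent.R146.Lev2_576 Crest.Agent.R146.P34_734 Crest.Agent.R146.DualG_256
open Crest.Agent.R146.DualL_256 Crest.Agent.R146.JamIface_776 Crest.Agent.R146.P5A_12
open Crest.Agent.R146.P5Def_12 Crest.Agent.R146.P5Out_576 Crest.Agent.R146.JamAsm_576
open Crest.Agent.R146.SubG_4 Crest.Agent.R146.LevE_4 Crest.Agent.R146.LevK_4
open Crest.Agent.R146.S0205Asm_12
open scoped RealInnerProductSpace NNReal ENNReal

/-- **(EXPO)** the exponents of the gap and force laws at a jamming minimiser -/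
theorem expo (W : BS) : EXPO W := by
  intro αc hαc x D ν hJ hT
  have hprob : IsProbabilityMeasure W.P := inferInstance
  have L := P5Fin_12.lcp_of_jam W hαc hJ
  have hpos := hJ.adm.prof.pos
  have hlow := low_of_log hpos hT.log_D (by have := hT.ν_hi; linarith)
  have hPrf : Prf D := ⟨L.cont, L.anti, hpos, hlow⟩
  obtain ⟨h1, h2⟩ := Emg_288.emw W x D L hpos hJ.adm.prof.one
  have hcont : ContinuousOn (K D) (Icc 0 1) := by
    obtain ⟨M, hM, hi, hb⟩ := hPrf.K_bound
    have h1 : ContinuousOn (fun t => ∫ r in (0 : ℝ)..t, (D r)⁻¹ ^ 2) (Icc 0 1) := by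
      have := intervalIntegral.continuousOn_primitive_interval' (a := 0) hi (by simp)
      rwa [uIcc_of_le zero_le_one] at this
    refine (continuousOn_const (c := K D 0)).sub h1 |>.congr fun t ht => ?_
    have := hPrf.K_sub le_rfl ht.1 ht.2
    change K D t = K D 0 - ∫ r in (0 : ℝ)..t, (D r)⁻¹ ^ 2
    linarith
  have hEl := h2 (fun t => -K D t) (fun s t hs hst ht => by
      have := hPrf.K_dec hs hst ht
      linarith) hcont.neg
  have hK1 : K D 1 = 0 := by unfold K; simp
  have EMh : ∀ s ∈ Ico (0 : ℝ) 1, SubG W.P (Fl W.meas s)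
      (fun ω => (MW W).J (xiW W + (RW W).Dop D x) ω -
        (W.P[(MW W).J (xiW W + (RW W).Dop D x) | Fl W.meas s]) ω) (1 - s) := by
    intro s hs
    have h3 := h1 s 1 hs.1 hs.2.le le_rfl
    refine h3.congr ?_
    filter_upwards [(MW W).cond s ⟨hs.1, hs.2.le⟩ (xiW W + (RW W).Dop D x)] with ω h4
    rw [(RW W).one, h4]
  have EMl : ∀ s ∈ Ico (0 : ℝ) 1, SubG W.P (Fl W.meas s)
      (fun ω => (MW W).J x ω - (W.P[(MW W).J x | Fl W.meas s]) ω) (K D s) := by
    intro s hs
    have h3 := hEl s 1 hs.1 hs.2.le le_rfl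
    have e : (fun t => -K D t) 1 - (fun t => -K D t) s = K D s := by
      beta_reduce; rw [hK1]; ring
    rw [e] at h3
    refine h3.congr ?_
    filter_upwards [(MW W).cond s ⟨hs.1, hs.2.le⟩ x] with ω h4
    rw [(RW W).one, h4]
  exact Expo_778.expo_frame W.br.toIsPreBrownianReal (modelB_xi W.meas W.br 1) L hPrf
    hJ.adm.prof.one EMh EMl hT.charge (by have := hT.ν_lo; linarith)
    (by have := hT.ν_hi; linarith) hT.log_D

end Crest.Agent.R146.Expo_288
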