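import Crest.Agent.R146.Asm0204_734
import Crest.Agent.R146.LindLB2_878
import Crest.Agent.R146.VTr_468
import Crest.Agent.R146.VCc_468
import Crest.Agent.R146.P34Big_840
import Crest.Agent.R146.P34b_323
import Crest.Agent.R146.P34a_323
import Crest.Agent.R146.Bsw_649
import Crest.Agent.R146.LocUb_393

/-!
Row 146 (helper734): LAST STEP of S0203 and S0204 from the exact statement of S0206 and LOCCORE.
Independent of the check files.
-/

set_option autoImplicit false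

namespace Crest.Agent.R146.Fin34_734

open MeasureTheory ProbabilityTheory Filter Crest.ProbabilityR.Perceptron
open Crest.Agent.R146.P34_734
open scoped Topology

/-- the literal statement S0206 -/
def S0206Stmt : Prop :=
  ∀ (Ω : Type) [MeasurableSpace Ω] (P : MeasureTheory.Measure Ω)
    [MeasureTheory.IsProbabilityMeasure P]
    (B : NNReal → Ω → ℝ) (hBm : ∀ t, Measurable (B t)) (_ : ProbabilityTheory.IsBrownianReal B P)
    (α β : ℝ) (_ : 0 < α) (_ : 0 < β)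
    (φ : ℝ → ℝ) (_ : Continuous φ) (_ : ∃ K : ℝ, ∀ x, abs (φ x) ≤ K),
    ∃ p : ℝ,
      ⨅ m : OverlapProfile, variationalFunctional P B hBm α β φ m = (p : EReal) ∧
      Filter.Tendsto (fun N : ℕ => expectedPressure N α β φ) Filter.atTop (nhds p) ∧
      ∀ ε : ℝ, 0 < ε →
        Filter.Tendsto (fun N : ℕ => pressureTailProb N α β φ p ε) Filter.atTop (nhds 0)

theorem s6_of (h : S0206Stmt) (W : BS) : S6 W := by
  intro α β hα hβ φ hc hb
  exact h W.Ω W.P W.B W.meas W.br α β hα hβ φ hc hb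

theorem s0204_W (W : BS) (h6 : S6 W) (hCore : LocCore_508.LOCCORE) :
    ∃ αc : ℝ, 0 < αc ∧ ∃ ε₀ : ℝ, 0 < ε₀ ∧ ε₀ < 1 ∧
      ∀ ε : ℝ, 0 ≤ ε → ε < ε₀ → IsSharpThreshold ε αc :=
  Asm0204_734.s0204_of W (VCc_468.vconc W) (VTr_468.vzero W) (VTr_468.vup W) (P34b_323.gub W h6)
    (Crest.Agent.R146L878.LINDLB_of W h6 (VTr_468.vmono W) (VTr_468.vzero W))
    (LocUb_393.locub_of hCore W) P34a_323.cap P34a_323.concm P34a_323.markov P34Big_840.kern
    P34Big_840.big P34Big_840.monoa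

theorem s0204 (h : S0206Stmt) (hCore : LocCore_508.LOCCORE) :
    ∃ αc : ℝ, 0 < αc ∧ ∃ ε₀ : ℝ, 0 < ε₀ ∧ ε₀ < 1 ∧
      ∀ ε : ℝ, 0 ≤ ε → ε < ε₀ → IsSharpThreshold ε αc :=
  s0204_W Bsw_649.bsw (s6_of h _) hCore

theorem s0203 (h : S0206Stmt) (hCore : LocCore_508.LOCCORE) :
    ∃ αc : ℝ, 0 < αc ∧
      (∀ α : ℝ, 0 < α → α < αc →
        Filter.Tendsto (fun N : ℕ => satProb N α) Filter.atTop (nhds 1)) ∧
      (∀ α : ℝ, αc < α →
        Filter.Tendsto (fun N : ℕ => satProb N α) Filter.atTop (nhds 0)) :=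
  Asm0204_734.s0203_of P34Big_840.mix0 (s0204 h hCore)

end Crest.Agent.R146.Fin34_734
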