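import Crest.Agent.R146.S6Def_988

/-!
Row 146, statement S0206, node (U0), deterministic part (helper762).

`main` : the Gaussian value `G(α, b)` of the spherical model with fields of squared strengths
`α j` (`1 ≤ j ≤ J`, exponent `j/(J+1)`) at the root `b` is at most
`SP J P - 1/2 ∑ α_j (J+1)⁻¹ ∑_{k ≥ j} P_k` for all levels `P`.  `exists_root` : the root exists.
-/

set_option autoImplicit false

namespace Crest.Agent.R146.U0det_762

open Finset Crest.Agent.R146.S6Def_988

noncomputable section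

/-- the weights `(J+1)/j - (J+1)/(j+1)` -/
def cc (J : ℕ) (j : ℕ) : ℝ := ((J : ℝ) + 1) / j - ((J : ℝ) + 1) / ((j : ℝ) + 1)

theorem cc_nonneg (J : ℕ) {j : ℕ} (hj : 1 ≤ j) : 0 ≤ cc J j := by
  unfold cc
  have hj' : (1 : ℝ) ≤ j := by exact_mod_cast hj
  have : ((J : ℝ) + 1) / ((j : ℝ) + 1) ≤ ((J : ℝ) + 1) / j := by
    apply div_le_div_of_nonneg_left (by positivity) (by linarith) (by linarith)
  linarith

/-- Abel summation, partial form -/
theorem abel_aux (J : ℕ) (d : ℕ → ℝ) (m : ℕ) :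
    ∑ j ∈ Ico 1 (m + 1), (((J : ℝ) + 1) / j) * (d (j - 1) - d j) +
      (((J : ℝ) + 1) / ((m : ℝ) + 1)) * d m =
    ((J : ℝ) + 1) * d 0 - ∑ j ∈ Ico 1 (m + 1), cc J j * d j := by
  induction m with
  | zero => simp
  | succ m ih =>
    rw [Finset.sum_Ico_succ_top (show 1 ≤ m + 1 by omega),
      Finset.sum_Ico_succ_top (show 1 ≤ m + 1 by omega)]
    have e : (m + 1 : ℕ) - 1 = m := by omega
    rw [e]
    have h2 : cc J (m + 1) = ((J : ℝ) + 1) / ((m : ℝ) + 1) - ((J : ℝ) + 1) / (((m : ℝ) + 1) + 1) := by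
      unfold cc; push_cast; ring
    rw [h2]
    push_cast
    linear_combination ih

/-- Abel summation -/
theorem abel (J : ℕ) (d : ℕ → ℝ) :
    ∑ j ∈ Ico 1 (J + 1), (((J : ℝ) + 1) / j) * (d (j - 1) - d j) + d J =
    ((J : ℝ) + 1) * d 0 - ∑ j ∈ Ico 1 (J + 1), cc J j * d j := by
  have h := abel_aux J d J
  have h1 : ((J : ℝ) + 1) / ((J : ℝ) + 1) = 1 := div_self (by positivity)
  rw [h1, one_mul] at h
  exact h

theorem sum_cc (J : ℕ) : ∑ j ∈ Ico 1 (J + 1), cc J j = J := by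
  have h := abel J (fun _ => (1 : ℝ))
  simp only [sub_self, mul_zero, sum_const_zero, mul_one] at h
  linarith

/-! ### the levels -/

theorem DP_J (J : ℕ) (P : ℕ → ℝ) : DP J P J = 1 - P J := by
  unfold DP; simp

theorem DP_step (J : ℕ) (P : ℕ → ℝ) {j : ℕ} (h1 : 1 ≤ j) (h2 : j ≤ J) :
    DP J P (j - 1) - DP J P j = ((j : ℝ) / ((J : ℝ) + 1)) * (P j - P (j - 1)) := by
  unfold DP
  have e : j - 1 + 1 = j := by omega
  rw [e, Finset.sum_eq_sum_Ico_succ_bot (show j < J + 1 by omega)]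
  ring

theorem DP_pos {J : ℕ} {P : ℕ → ℝ} (hP : Lev J P) (h1 : P J < 1) (j : ℕ) : 0 < DP J P j := by
  unfold DP
  have : 0 ≤ ∑ k ∈ Ico (j + 1) (J + 1), ((k : ℝ) / ((J : ℝ) + 1)) * (P k - P (k - 1)) := by
    apply Finset.sum_nonneg
    intro k hk
    rw [mem_Ico] at hk
    apply mul_nonneg (by positivity)
    have := hP.mono (k - 1) k (by omega) (by omega)
    linarith
  linarith

/-- `P 0` as a function of the `D`'s -/
theorem P0_eq (J : ℕ) (P : ℕ → ℝ) :
    P 0 = 1 - ((J : ℝ) + 1) * DP J P 0 + ∑ j ∈ Ico 1 (J + 1), cc J j * DP J P j := by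
  have h := abel J (DP J P)
  have h2 : ∑ j ∈ Ico 1 (J + 1), (((J : ℝ) + 1) / j) * (DP J P (j - 1) - DP J P j) =
      ∑ j ∈ Ico 1 (J + 1), (P j - P (j - 1)) := by
    apply Finset.sum_congr rfl
    intro j hj
    rw [mem_Ico] at hj
    rw [DP_step J P hj.1 (by omega)]
    have : (j : ℝ) ≠ 0 := by
      have : 1 ≤ j := hj.1
      positivity
    field_simp
  have h3 : ∑ j ∈ Ico 1 (J + 1), (P j - P (j - 1)) = P J - P 0 := by
    have := Finset.sum_range_sub P J
    rw [← this, Finset.sum_Ico_eq_sum_range]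
    simp only [Nat.add_sub_cancel]
    apply Finset.sum_congr rfl
    intro i _
    have e1 : 1 + i = i + 1 := by ring
    rw [e1]
    simp
  rw [h2, h3, DP_J] at h
  linarith

/-- tail sums of the levels -/
theorem tail_eq (J : ℕ) (P : ℕ → ℝ) {j : ℕ} (hj : j ≤ J) :
    1 / ((J : ℝ) + 1) * ∑ k ∈ Ico j (J + 1), P k =
      1 - DP J P j - ((j : ℝ) / ((J : ℝ) + 1)) * P j := by
  obtain ⟨i, rfl⟩ : ∃ i, J = j + i := ⟨J - j, by omega⟩
  clear hj
  suffices H : ∀ (K : ℕ), 1 / ((K : ℝ) + 1) * ∑ k ∈ Ico j (j + i + 1), P k =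
      ((j + i + 1 : ℕ) : ℝ) / ((K : ℝ) + 1) * P (j + i) -
      ∑ k ∈ Ico (j + 1) (j + i + 1), ((k : ℝ) / ((K : ℝ) + 1)) * (P k - P (k - 1)) -
      ((j : ℝ) / ((K : ℝ) + 1)) * P j by
    rw [H (j + i)]
    unfold DP
    push_cast
    have : ((j : ℝ) + i + 1) / ((j : ℝ) + i + 1) = 1 := div_self (by positivity)
    rw [this]
    ring
  intro K
  induction i with
  | zero =>
    simp only [add_zero, Nat.Ico_succ_singleton, sum_singleton, Ico_self, sum_empty]
    push_cast
    ring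
  | succ i ih =>
    rw [show j + (i + 1) + 1 = (j + i + 1) + 1 by ring,
      Finset.sum_Ico_succ_top (show j ≤ j + i + 1 by omega),
      Finset.sum_Ico_succ_top (show j + 1 ≤ j + i + 1 by omega), mul_add, ih]
    have e : j + i + 1 - 1 = j + i := by omega
    rw [e, show j + (i + 1) = j + i + 1 by ring]
    push_cast
    ring

/-- the entropy in closed form -/
theorem two_SP {J : ℕ} {P : ℕ → ℝ} (hP : Lev J P) (h1 : P J < 1) :
    2 * SP J P = 1 / DP J P 0 - ((J : ℝ) + 1) + ∑ j ∈ Ico 1 (J + 1), cc J j * (DP J P j / DP J P 0) +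
      ((J : ℝ) + 1) * Real.log (DP J P 0) - ∑ j ∈ Ico 1 (J + 1), cc J j * Real.log (DP J P j) := by
  have hD := DP_pos hP h1
  have h := abel J (fun j => Real.log (DP J P j))
  have h2 : ∑ j ∈ Ico 1 (J + 1), (((J : ℝ) + 1) / j) * Real.log (DP J P (j - 1) / DP J P j) =
      ∑ j ∈ Ico 1 (J + 1), (((J : ℝ) + 1) / j) * (Real.log (DP J P (j - 1)) - Real.log (DP J P j)) := by
    apply Finset.sum_congr rfl
    intro j _
    rw [Real.log_div (hD _).ne' (hD _).ne']
  have h3 : P 0 / DP J P 0 = 1 / DP J P 0 - ((J : ℝ) + 1) +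
      ∑ j ∈ Ico 1 (J + 1), cc J j * (DP J P j / DP J P 0) := by
    have e : ∑ j ∈ Ico 1 (J + 1), cc J j * (DP J P j / DP J P 0) =
        (∑ j ∈ Ico 1 (J + 1), cc J j * DP J P j) / DP J P 0 := by
      rw [Finset.sum_div]
      apply Finset.sum_congr rfl
      intro j _; ring
    rw [e]
    have h4 := P0_eq J P
    have h5 := (hD 0).ne'
    rw [eq_comm, ← sub_eq_zero]
    field_simp
    linarith
  unfold SP
  rw [h2, h3]
  linarith

/-- the scalar inequality for one level -/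
theorem scalar {δ s v : ℝ} (h0 : 0 ≤ δ) (h1 : δ < 1) (hs : s < 1) (hv : 0 < v) :
    0 ≤ δ * s / (1 - s) + v * (1 - δ * s) - 1 - Real.log v := by
  have h2 : 0 < 1 - δ * s := by nlinarith
  have h3 : 0 < v * (1 - δ * s) := by positivity
  have h4 := Real.add_one_le_exp (Real.log (v * (1 - δ * s)))
  rw [Real.exp_log h3, Real.log_mul hv.ne' h2.ne'] at h4
  have h5 := Real.one_sub_inv_le_log_of_pos h2
  have h6 : 0 < 1 - s := by linarith
  have h7 : (1 - δ * s)⁻¹ - 1 ≤ δ * s / (1 - s) := by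
    have e : δ * s / (1 - s) - ((1 - δ * s)⁻¹ - 1) = δ * (1 - δ) * s ^ 2 / ((1 - s) * (1 - δ * s)) := by
      field_simp
      ring
    have : 0 ≤ δ * (1 - δ) * s ^ 2 / ((1 - s) * (1 - δ * s)) := by
      apply div_nonneg
      · apply mul_nonneg (mul_nonneg h0 (by linarith)) (sq_nonneg s)
      · positivity
    linarith
  linarith

/-- **(U0), deterministic part.** -/
theorem main {J : ℕ} {P : ℕ → ℝ} (hP : Lev J P) (h1 : P J < 1) {α b : ℕ → ℝ}
    (hα : ∀ j, 1 ≤ j → j ≤ J → 0 ≤ α j) (hb0 : 0 < b 0)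
    (hb : ∀ j, 1 ≤ j → j ≤ J → b (j - 1) = b j - ((j : ℝ) / ((J : ℝ) + 1)) * α j)
    (hroot : 1 - 1 / b J = ∑ j ∈ Ico 1 (J + 1), α j / (b j * b (j - 1))) :
    1 / 2 * (b J - 1 - Real.log (b J) +
      ∑ j ∈ Ico 1 (J + 1), (((J : ℝ) + 1) / j) * Real.log (b j / b (j - 1)) -
      ∑ j ∈ Ico 1 (J + 1), α j) ≤
    SP J P - 1 / 2 * ∑ j ∈ Ico 1 (J + 1), α j * (1 / ((J : ℝ) + 1) * ∑ k ∈ Ico j (J + 1), P k) := by
  have hD := DP_pos hP h1
  -- monotonicity of b
  have hbm : ∀ i, i ≤ J → b 0 ≤ b i := by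
    intro i hi
    induction i with
    | zero => exact le_refl _
    | succ i ih =>
      have h2 := hb (i + 1) (by omega) hi
      have h3 : 0 ≤ ((i + 1 : ℕ) : ℝ) / ((J : ℝ) + 1) * α (i + 1) :=
        mul_nonneg (by positivity) (hα _ (by omega) hi)
      have e : i + 1 - 1 = i := by omega
      rw [e] at h2
      have := ih (by omega)
      linarith
  have hbp : ∀ i, i ≤ J → 0 < b i := fun i hi => lt_of_lt_of_le hb0 (hbm i hi)
  have hx : ∀ j : ℕ, 1 ≤ j → (j : ℝ) ≠ 0 := fun j hj => by positivity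
  -- (1) Abel for log b
  have a1 := abel J (fun j => - Real.log (b j))
  have a1' : ∑ j ∈ Ico 1 (J + 1), (((J : ℝ) + 1) / j) * Real.log (b j / b (j - 1)) =
      ∑ j ∈ Ico 1 (J + 1), (((J : ℝ) + 1) / j) * (- Real.log (b (j - 1)) - - Real.log (b j)) := by
    apply Finset.sum_congr rfl
    intro j hj
    rw [mem_Ico] at hj
    rw [Real.log_div (hbp j (by omega)).ne' (hbp (j - 1) (by omega)).ne']
    ring
  -- (2) Abel for 1/b: the root condition
  have a2 := abel J (fun j => 1 / b j)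
  have a2' : ∑ j ∈ Ico 1 (J + 1), α j / (b j * b (j - 1)) =
      ∑ j ∈ Ico 1 (J + 1), (((J : ℝ) + 1) / j) * (1 / b (j - 1) - 1 / b j) := by
    apply Finset.sum_congr rfl
    intro j hj
    rw [mem_Ico] at hj
    have h2 := hb j hj.1 (by omega)
    have h3 := (hbp j (by omega)).ne'
    have h4 := (hbp (j - 1) (by omega)).ne'
    have h5 := hx j hj.1
    have h6 : α j = ((J : ℝ) + 1) / j * (b j - b (j - 1)) := by
      rw [h2]; field_simp; ring
    rw [h6]
    field_simp
  -- (3) Abel for u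
  set u : ℕ → ℝ := fun j => DP J P j * b j with hu
  have a3 := abel J u
  have a3' : ∑ j ∈ Ico 1 (J + 1), (((J : ℝ) + 1) / j) * (u (j - 1) - u j) =
      ∑ j ∈ Ico 1 (J + 1), (b (j - 1) * (P j - P (j - 1)) - α j * DP J P j) := by
    apply Finset.sum_congr rfl
    intro j hj
    rw [mem_Ico] at hj
    have h2 := hb j hj.1 (by omega)
    have h5 := hx j hj.1
    have h6 : α j = ((J : ℝ) + 1) / j * (b j - b (j - 1)) := by
      rw [h2]; field_simp; ring
    have h7 : P j - P (j - 1) = ((J : ℝ) + 1) / j * (DP J P (j - 1) - DP J P j) := by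
      rw [DP_step J P hj.1 (by omega)]; field_simp
    rw [h6, h7]
    simp only [hu]
    ring
  -- (4) Abel for b P
  have a4 : ∑ j ∈ Ico 1 (J + 1), ((b j - b (j - 1)) * P j + b (j - 1) * (P j - P (j - 1))) =
      b J * P J - b 0 * P 0 := by
    have := Finset.sum_range_sub (fun i => b i * P i) J
    rw [← this, Finset.sum_Ico_eq_sum_range]
    simp only [Nat.add_sub_cancel]
    apply Finset.sum_congr rfl
    intro i _
    have e1 : 1 + i = i + 1 := by ring
    have e2 : i + 1 - 1 = i := by omega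
    rw [e1, e2]
    ring
  -- the tails
  have t1 : ∑ j ∈ Ico 1 (J + 1), α j * (1 / ((J : ℝ) + 1) * ∑ k ∈ Ico j (J + 1), P k) =
      ∑ j ∈ Ico 1 (J + 1), (α j - α j * DP J P j - (b j - b (j - 1)) * P j) := by
    apply Finset.sum_congr rfl
    intro j hj
    rw [mem_Ico] at hj
    rw [tail_eq J P (by omega)]
    have h2 := hb j hj.1 (by omega)
    rw [h2]
    ring
  simp only [Finset.sum_sub_distrib, Finset.sum_add_distrib] at a3' a4 t1
  -- closed form of SP
  have s1 := two_SP hP h1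
  have p0 := P0_eq J P
  -- total
  have hsum := sum_cc J
  have hu0 : 0 < u 0 := mul_pos (hD 0) hb0
  have key : 2 * (SP J P - 1 / 2 * ∑ j ∈ Ico 1 (J + 1), α j *
      (1 / ((J : ℝ) + 1) * ∑ k ∈ Ico j (J + 1), P k)) -
      2 * (1 / 2 * (b J - 1 - Real.log (b J) +
      ∑ j ∈ Ico 1 (J + 1), (((J : ℝ) + 1) / j) * Real.log (b j / b (j - 1)) -
      ∑ j ∈ Ico 1 (J + 1), α j)) =
      ((u 0)⁻¹ - 1 + Real.log (u 0)) + ∑ j ∈ Ico 1 (J + 1), cc J j *
        ((1 - b 0 / b j) * (1 - u 0) / (1 - (1 - u 0)) +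
          (u j / u 0) * (1 - (1 - b 0 / b j) * (1 - u 0)) - 1 - Real.log (u j / u 0)) := by
    have e0 : b 0 = ((J : ℝ) + 1) - ∑ j ∈ Ico 1 (J + 1), cc J j * (b 0 / b j) := by
      have e1 : ∑ j ∈ Ico 1 (J + 1), cc J j * (b 0 / b j) =
          b 0 * ∑ j ∈ Ico 1 (J + 1), cc J j * (1 / b j) := by
        rw [Finset.mul_sum]; apply Finset.sum_congr rfl; intro j _; ring
      rw [e1]
      rw [← a2', ← hroot] at a2
      have h3 := hb0.ne'
      have h4 : ∑ j ∈ Ico 1 (J + 1), cc J j * (1 / b j) = ((J : ℝ) + 1) * (1 / b 0) - 1 := by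
        linarith
      rw [h4]
      field_simp
      ring
    have e2 : ∑ j ∈ Ico 1 (J + 1), cc J j *
        ((1 - b 0 / b j) * (1 - u 0) / (1 - (1 - u 0)) +
          (u j / u 0) * (1 - (1 - b 0 / b j) * (1 - u 0)) - 1 - Real.log (u j / u 0)) =
        ((u 0)⁻¹ - 1) * (∑ j ∈ Ico 1 (J + 1), cc J j) -
        ((u 0)⁻¹ - 1) * (∑ j ∈ Ico 1 (J + 1), cc J j * (b 0 / b j)) +
        (∑ j ∈ Ico 1 (J + 1), cc J j * (DP J P j / DP J P 0)) +
        (∑ j ∈ Ico 1 (J + 1), cc J j * u j) - b 0 * (∑ j ∈ Ico 1 (J + 1), cc J j * DP J P j) -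
        (∑ j ∈ Ico 1 (J + 1), cc J j) - (∑ j ∈ Ico 1 (J + 1), cc J j * Real.log (DP J P j)) -
        (∑ j ∈ Ico 1 (J + 1), cc J j * Real.log (b j)) +
        Real.log (u 0) * (∑ j ∈ Ico 1 (J + 1), cc J j) := by
      rw [Finset.mul_sum, Finset.mul_sum, Finset.mul_sum, Finset.mul_sum, ← Finset.sum_sub_distrib,
        ← Finset.sum_add_distrib, ← Finset.sum_add_distrib, ← Finset.sum_sub_distrib,
        ← Finset.sum_sub_distrib, ← Finset.sum_sub_distrib, ← Finset.sum_sub_distrib,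
        ← Finset.sum_add_distrib]
      apply Finset.sum_congr rfl
      intro j hj
      rw [mem_Ico] at hj
      have hbj := hbp j (by omega)
      have huj : 0 < u j := mul_pos (hD j) hbj
      have h5 : Real.log (u j / u 0) = Real.log (DP J P j) + Real.log (b j) - Real.log (u 0) := by
        rw [Real.log_div huj.ne' hu0.ne']
        have : Real.log (u j) = Real.log (DP J P j) + Real.log (b j) :=
          Real.log_mul (hD j).ne' hbj.ne'
        rw [this]
      rw [h5]
      have h6 : 1 - (1 - u 0) = u 0 := by ring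
      rw [h6]
      have h7 : u j / u 0 * (1 - (1 - b 0 / b j) * (1 - u 0)) =
          DP J P j / DP J P 0 + u j - b 0 * DP J P j := by
        simp only [hu]
        have h8 := (hD 0).ne'
        have h9 := hb0.ne'
        have h10 := hbj.ne'
        field_simp
        ring
      rw [h7]
      have h8 : (1 - b 0 / b j) * (1 - u 0) / u 0 = (1 - b 0 / b j) * ((u 0)⁻¹ - 1) := by
        field_simp
      rw [h8]
      ring
    rw [e2, t1, a1']
    have e3 : Real.log (u 0) = Real.log (DP J P 0) + Real.log (b 0) :=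
      Real.log_mul (hD 0).ne' hb0.ne'
    have e4 : (u 0)⁻¹ * b 0 = 1 / DP J P 0 := by
      simp only [hu]
      have h8 := (hD 0).ne'
      have h9 := hb0.ne'
      field_simp
    have e5 : u J = DP J P J * b J := rfl
    have e6 : u 0 = DP J P 0 * b 0 := rfl
    have e7 := DP_J J P
    have a1'' : ∑ j ∈ Ico 1 (J + 1), cc J j * -Real.log (b j) =
        - ∑ j ∈ Ico 1 (J + 1), cc J j * Real.log (b j) := by
      rw [← Finset.sum_neg_distrib]; apply Finset.sum_congr rfl; intro j _; ring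
    rw [a1''] at a1
    rw [a3'] at a3
    set S1 := ∑ j ∈ Ico 1 (J + 1), cc J j * (b 0 / b j)
    set S2 := ∑ j ∈ Ico 1 (J + 1), cc J j * (DP J P j / DP J P 0)
    set S3 := ∑ j ∈ Ico 1 (J + 1), cc J j * u j
    set S4 := ∑ j ∈ Ico 1 (J + 1), cc J j * DP J P j
    set S5 := ∑ j ∈ Ico 1 (J + 1), cc J j * Real.log (DP J P j)
    set S6 := ∑ j ∈ Ico 1 (J + 1), cc J j * Real.log (b j)
    set S7 := ∑ j ∈ Ico 1 (J + 1), α j * DP J P j
    set S8 := ∑ j ∈ Ico 1 (J + 1), α j
    set S9 := ∑ j ∈ Ico 1 (J + 1), (b j - b (j - 1)) * P j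
    set S10 := ∑ j ∈ Ico 1 (J + 1), b (j - 1) * (P j - P (j - 1))
    set S11 := ∑ j ∈ Ico 1 (J + 1), (((J : ℝ) + 1) / j) * (- Real.log (b (j - 1)) - - Real.log (b j))
    rw [hsum]
    have f1 : ((u 0)⁻¹ - 1) * (J : ℝ) - ((u 0)⁻¹ - 1) * S1 + ((u 0)⁻¹ - 1) = 1 / DP J P 0 - b 0 := by
      have : ((u 0)⁻¹ - 1) * (J : ℝ) - ((u 0)⁻¹ - 1) * S1 + ((u 0)⁻¹ - 1) =
          ((u 0)⁻¹ - 1) * (((J : ℝ) + 1) - S1) := by ring
      rw [this, ← e0, sub_mul, e4, one_mul]
    have f2 : b 0 * P 0 = b 0 - ((J : ℝ) + 1) * u 0 + b 0 * S4 := by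
      rw [e6]
      rw [p0]; ring
    have f3 : b J * P J = b J - u J := by
      rw [e5, e7]; ring
    have f4 : Real.log (u 0) * (J : ℝ) + Real.log (u 0) =
        ((J : ℝ) + 1) * Real.log (DP J P 0) + ((J : ℝ) + 1) * Real.log (b 0) := by
      rw [e3]; ring
    linarith
  have hpos : 0 ≤ ((u 0)⁻¹ - 1 + Real.log (u 0)) + ∑ j ∈ Ico 1 (J + 1), cc J j *
        ((1 - b 0 / b j) * (1 - u 0) / (1 - (1 - u 0)) +
          (u j / u 0) * (1 - (1 - b 0 / b j) * (1 - u 0)) - 1 - Real.log (u j / u 0)) := by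
    apply add_nonneg
    · have := Real.one_sub_inv_le_log_of_pos hu0
      linarith
    · apply Finset.sum_nonneg
      intro j hj
      rw [mem_Ico] at hj
      apply mul_nonneg (cc_nonneg J hj.1)
      have hbj := hbp j (by omega)
      have huj : 0 < u j := mul_pos (hD j) hbj
      apply scalar
      · have : b 0 / b j ≤ 1 := by rw [div_le_one hbj]; exact hbm j (by omega)
        linarith
      · have : 0 < b 0 / b j := by positivity
        linarith
      · linarith
      · positivity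
  linarith

/-- existence (and bounds) of the root -/
theorem exists_root (J : ℕ) (α : ℕ → ℝ) (hα : ∀ j, 1 ≤ j → j ≤ J → 0 < α j) :
    ∃ b : ℕ → ℝ, 0 < b 0 ∧
      (∀ j, 1 ≤ j → j ≤ J → b (j - 1) = b j - ((j : ℝ) / ((J : ℝ) + 1)) * α j) ∧
      (1 - 1 / b J = ∑ j ∈ Ico 1 (J + 1), α j / (b j * b (j - 1))) ∧ 1 ≤ b J ∧
      b J ≤ 1 + 2 * ∑ j ∈ Ico 1 (J + 1), α j := by
  rcases Nat.eq_zero_or_pos J with rfl | hJ
  · refine ⟨fun _ => 1, one_pos, ?_, ?_, le_refl _, ?_⟩
    · intro j h1 h2; omega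
    · simp
    · simp
  set c : ℕ → ℝ := fun j => ∑ i ∈ Ico (j + 1) (J + 1), ((i : ℝ) / ((J : ℝ) + 1)) * α i with hc
  have hterm : ∀ i, i ∈ Ico 1 (J + 1) → 0 ≤ ((i : ℝ) / ((J : ℝ) + 1)) * α i := by
    intro i hi
    rw [mem_Ico] at hi
    exact mul_nonneg (by positivity) (hα i hi.1 (by omega)).le
  have hcJ : c J = 0 := by simp [hc]
  have hcs : ∀ j, 1 ≤ j → j ≤ J → c (j - 1) = c j + ((j : ℝ) / ((J : ℝ) + 1)) * α j := by
    intro j h1 h2
    simp only [hc]
    have e : j - 1 + 1 = j := by omega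
    rw [e, Finset.sum_eq_sum_Ico_succ_bot (show j < J + 1 by omega)]
    ring
  have hc0 : ∀ j, c j ≤ c 0 := by
    intro j
    simp only [hc]
    apply Finset.sum_le_sum_of_subset_of_nonneg
    · intro i hi; rw [mem_Ico] at hi ⊢; omega
    · intro i hi _; exact hterm i (by rw [mem_Ico] at hi ⊢; omega)
  have hcn : ∀ j, 0 ≤ c j := by
    intro j
    simp only [hc]
    apply Finset.sum_nonneg
    intro i hi
    exact hterm i (by rw [mem_Ico] at hi ⊢; omega)
  set S : ℝ := ∑ j ∈ Ico 1 (J + 1), α j with hS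
  have hS0 : 0 ≤ S := Finset.sum_nonneg fun i hi => by
    rw [mem_Ico] at hi; exact (hα i hi.1 (by omega)).le
  have hc0S : c 0 ≤ S := by
    simp only [hc, hS]
    apply Finset.sum_le_sum
    intro i hi
    rw [mem_Ico] at hi
    have h1 := (hα i (by omega) (by omega)).le
    have h2 : (i : ℝ) / ((J : ℝ) + 1) ≤ 1 := by
      rw [div_le_one (by positivity)]
      have : (i : ℝ) ≤ J := by exact_mod_cast (show i ≤ J by omega)
      linarith
    calc ((i : ℝ) / ((J : ℝ) + 1)) * α i ≤ 1 * α i := mul_le_mul_of_nonneg_right h2 h1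
      _ = α i := one_mul _
  set F : ℝ → ℝ := fun B => ∑ j ∈ Ico 1 (J + 1), α j / ((B - c j) * (B - c (j - 1))) + 1 / B - 1
    with hF
  set η : ℝ := α 1 / (1 + α 1) with hη
  have hα1 : 0 < α 1 := hα 1 le_rfl hJ
  have hη0 : 0 < η := by positivity
  have hη1 : η < 1 := by rw [hη, div_lt_one (by linarith)]; linarith
  have hle : c 0 + η ≤ c 0 + (1 + S) := by linarith
  have hcont : ContinuousOn F (Set.Icc (c 0 + η) (c 0 + (1 + S))) := by
    simp only [hF]
    have hpos : ∀ B ∈ Set.Icc (c 0 + η) (c 0 + (1 + S)), ∀ j, 0 < B - c j := by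
      intro B hB j
      have := hc0 j; have := hB.1; linarith
    refine ((continuousOn_finsetSum _ fun j _ => ?_).add ?_).sub continuousOn_const
    · apply ContinuousOn.div continuousOn_const
      · fun_prop
      · intro B hB
        exact (mul_pos (hpos B hB j) (hpos B hB (j - 1))).ne'
    · apply ContinuousOn.div continuousOn_const continuousOn_id
      intro B hB
      have := hpos B hB 0
      have := hcn 0
      simp only [id]
      linarith
  have hF1 : 0 ≤ F (c 0 + η) := by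
    simp only [hF]
    have hb : ∀ j, 0 < c 0 + η - c j := by intro j; have := hc0 j; linarith
    have h1 : α 1 / ((c 0 + η - c 1) * (c 0 + η - c (1 - 1))) ≤
        ∑ j ∈ Ico 1 (J + 1), α j / ((c 0 + η - c j) * (c 0 + η - c (j - 1))) := by
      apply Finset.single_le_sum (f := fun j => α j / ((c 0 + η - c j) * (c 0 + η - c (j - 1))))
      · intro i hi
        rw [mem_Ico] at hi
        exact div_nonneg (hα i hi.1 (by omega)).le (mul_pos (hb i) (hb (i - 1))).le
      · rw [mem_Ico]; omega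
    have h2 : 1 ≤ α 1 / ((c 0 + η - c 1) * (c 0 + η - c (1 - 1))) := by
      rw [le_div_iff₀ (mul_pos (hb 1) (hb (1 - 1)))]
      have e := hcs 1 le_rfl hJ
      have e0 : (1 : ℕ) - 1 = 0 := rfl
      rw [e0] at e ⊢
      have h3 : c 0 + η - c 0 = η := by ring
      rw [h3]
      have h4 : c 0 + η - c 1 ≤ η + α 1 := by
        rw [e]
        have h5 : ((1 : ℕ) : ℝ) / ((J : ℝ) + 1) ≤ 1 := by
          rw [div_le_one (by positivity)]
          push_cast; linarith [show (0:ℝ) ≤ J by positivity]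
        nlinarith
      have h5 : (η + α 1) * η ≤ α 1 := by
        have e1 : (η + α 1) * η = α 1 * (α 1 * (2 + α 1) / (1 + α 1) ^ 2) := by
          rw [hη]; field_simp; ring
        rw [e1]
        have h6 : α 1 * (2 + α 1) / (1 + α 1) ^ 2 ≤ 1 := by
          rw [div_le_one (by positivity)]; nlinarith
        nlinarith
      nlinarith
    have h3 : 0 < 1 / (c 0 + η) := by
      have := hcn 0
      positivity
    linarith
  have hF2 : F (c 0 + (1 + S)) ≤ 0 := by
    simp only [hF]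
    have hb : ∀ j, 1 + S ≤ c 0 + (1 + S) - c j := by intro j; have := hc0 j; linarith
    have h1 : ∑ j ∈ Ico 1 (J + 1), α j / ((c 0 + (1 + S) - c j) * (c 0 + (1 + S) - c (j - 1))) ≤
        ∑ j ∈ Ico 1 (J + 1), α j / ((1 + S) * (1 + S)) := by
      apply Finset.sum_le_sum
      intro i hi
      rw [mem_Ico] at hi
      apply div_le_div_of_nonneg_left (hα i hi.1 (by omega)).le (by positivity)
      exact mul_le_mul (hb i) (hb (i - 1)) (by linarith) (by linarith [hb i])
    rw [← Finset.sum_div, ← hS] at h1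
    have h2 : 1 / (c 0 + (1 + S)) ≤ 1 / (1 + S) := by
      apply one_div_le_one_div_of_le (by linarith)
      linarith [hcn 0]
    have h3 : S / ((1 + S) * (1 + S)) + 1 / (1 + S) ≤ 1 := by
      rw [div_add_div _ _ (by positivity) (by positivity), div_le_one (by positivity)]
      nlinarith [mul_nonneg (show 0 ≤ 1 + S by linarith) (sq_nonneg S)]
    linarith
  obtain ⟨B, hB, hB0⟩ := intermediate_value_Icc' hle hcont ⟨hF2, hF1⟩
  have hBp : ∀ j, 0 < B - c j := by
    intro j; have := hc0 j; have := hB.1; linarith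
  refine ⟨fun j => B - c j, hBp 0, ?_, ?_, ?_, ?_⟩
  · intro j h1 h2
    have := hcs j h1 h2
    simp only
    rw [this]; ring
  · simp only [hF] at hB0
    simp only [hcJ, sub_zero]
    linarith
  · simp only [hcJ, sub_zero]
    simp only [hF] at hB0
    have h1 : 0 ≤ ∑ j ∈ Ico 1 (J + 1), α j / ((B - c j) * (B - c (j - 1))) := by
      apply Finset.sum_nonneg
      intro i hi
      rw [mem_Ico] at hi
      exact div_nonneg (hα i hi.1 (by omega)).le (mul_pos (hBp i) (hBp (i - 1))).le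
    have h2 : 0 < B := by have := hBp 0; have := hcn 0; linarith
    have h3 : 1 / B ≤ 1 := by linarith
    rw [div_le_one h2] at h3
    exact h3
  · simp only [hcJ, sub_zero]
    have := hB.2
    linarith

end

end Crest.Agent.R146.U0det_762
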