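import Crest.Agent.R146.S6Def_988
import Crest.Agent.R146.U0det_762

/-!
Row 146, S0206, lower bound, node (L2): the ALGEBRA of the Schwinger-Dyson relations, uniformly in
the number of levels (helper36).

`P` levels (`Lev J P`), `T` nonnegative and nondecreasing (`T_j = α E Φ_x(P_j, X)²`), exponents
`x_j = j/(J+1)`.  `rel J P T b` is the defect of the relation
`P_b (1 - Q) + ∑_{k ≤ b} dP_k ∑_{l ≥ k} (x_{l+1}-x_l) T_l = T_b D_b`.
If all the defects are `≤ e ≤ 1/8` then `1 - P J ≥ (1 - e)/(1 + Tm)`, `|D_j b_j - 1| ≤ e`, and the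
Gaussian value `Theta J P T` of the quadratic cavity is within `(8 + 10 Tm) e` of `SP J P`.
-/

set_option autoImplicit false

namespace Crest.Agent.R146.L2Alg_36

open Finset Crest.Agent.R146.S6Def_988 Crest.Agent.R146.U0det_762

noncomputable section

/-- `Q = ∑_l (x_{l+1}-x_l) P_l T_l` -/
def QT (J : ℕ) (P T : ℕ → ℝ) : ℝ := 1 / ((J : ℝ) + 1) * ∑ l ∈ range (J + 1), P l * T l

/-- `b_j = 1 - Q + x_{j+1} T_j + ∑_{l > j} (x_{l+1}-x_l) T_l` -/
def bT (J : ℕ) (P T : ℕ → ℝ) (j : ℕ) : ℝ :=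
  1 - QT J P T + ((j : ℝ) + 1) / ((J : ℝ) + 1) * T j + 1 / ((J : ℝ) + 1) * ∑ l ∈ Ico (j + 1) (J + 1), T l

/-- the defect of the relation at the level `b`. -/
def rel (J : ℕ) (P T : ℕ → ℝ) (b : ℕ) : ℝ :=
  P b * (1 - QT J P T) + 1 / ((J : ℝ) + 1) * ∑ l ∈ range (J + 1), P (min l b) * T l - T b * DP J P b

/-- the value of the nested Gaussian recursion with the quadratic function
`Y²/(2(1-d)) - log(1-d)/2`, `1 - d = 1 - Q + T_{J+1}`, along the levels `T`. -/
def Theta (J : ℕ) (P T : ℕ → ℝ) : ℝ :=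
  1 / 2 * (T 0 / bT J P T 0 +
    ∑ j ∈ Ico 1 (J + 1), (((J : ℝ) + 1) / j) * Real.log (bT J P T j / bT J P T (j - 1)) -
    Real.log (bT J P T J))

variable {J : ℕ} {P T : ℕ → ℝ}

theorem bT_J : bT J P T J = 1 - QT J P T + T J := by
  unfold bT
  have h : ((J : ℝ) + 1) / ((J : ℝ) + 1) = 1 := div_self (by positivity)
  simp [h]

theorem bT_step {j : ℕ} (h1 : 1 ≤ j) (h2 : j ≤ J) :
    bT J P T (j - 1) = bT J P T j - (j : ℝ) / ((J : ℝ) + 1) * (T j - T (j - 1)) := by
  unfold bT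
  have e : j - 1 + 1 = j := by omega
  have e' : ((j - 1 : ℕ) : ℝ) + 1 = j := by
    have : ((j - 1 + 1 : ℕ) : ℝ) = (j : ℝ) := by rw [e]
    push_cast at this
    exact this
  rw [e, e', Finset.sum_eq_sum_Ico_succ_bot (show j < J + 1 by omega)]
  field_simp
  ring

theorem rel_J : rel J P T J = 1 - DP J P J * bT J P T J := by
  rw [bT_J, DP_J]
  have h : ∑ l ∈ range (J + 1), P (min l J) * T l = ∑ l ∈ range (J + 1), P l * T l := by
    apply Finset.sum_congr rfl
    intro l hl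
    rw [mem_range] at hl
    rw [min_eq_left (by omega)]
  unfold rel
  rw [h, DP_J]
  unfold QT
  ring

theorem rel_zero : rel J P T 0 = P 0 * bT J P T 0 - T 0 * DP J P 0 := by
  unfold rel bT
  have h : ∑ l ∈ range (J + 1), P (min l 0) * T l = P 0 * ∑ l ∈ range (J + 1), T l := by
    rw [Finset.mul_sum]
    apply Finset.sum_congr rfl
    intro l _
    simp
  have h2 : ∑ l ∈ range (J + 1), T l = T 0 + ∑ l ∈ Ico (0 + 1) (J + 1), T l := by
    rw [Finset.range_eq_Ico, Finset.sum_eq_sum_Ico_succ_bot (show 0 < J + 1 by omega)]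
  rw [h, h2]
  push_cast
  ring

theorem rel_step {j : ℕ} (h1 : 1 ≤ j) (h2 : j ≤ J) :
    rel J P T j - rel J P T (j - 1) =
      (P j - P (j - 1)) * bT J P T (j - 1) - DP J P j * (T j - T (j - 1)) := by
  have hs : ∑ l ∈ range (J + 1), P (min l j) * T l - ∑ l ∈ range (J + 1), P (min l (j - 1)) * T l =
      (P j - P (j - 1)) * ∑ l ∈ Ico j (J + 1), T l := by
    rw [← Finset.sum_sub_distrib, Finset.mul_sum,
      ← Finset.sum_range_add_sum_Ico _ (show j ≤ J + 1 by omega)]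
    have hz : ∑ l ∈ range j, (P (min l j) * T l - P (min l (j - 1)) * T l) = 0 := by
      apply Finset.sum_eq_zero
      intro l hl
      rw [mem_range] at hl
      rw [min_eq_left (show l ≤ j by omega), min_eq_left (show l ≤ j - 1 by omega), sub_self]
    rw [hz, zero_add]
    apply Finset.sum_congr rfl
    intro l hl
    rw [mem_Ico] at hl
    rw [min_eq_right hl.1, min_eq_right (show j - 1 ≤ l by omega)]
    ring
  have hD := DP_step J P h1 h2
  have e : j - 1 + 1 = j := by omega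
  have e' : ((j - 1 : ℕ) : ℝ) + 1 = j := by
    have : ((j - 1 + 1 : ℕ) : ℝ) = (j : ℝ) := by rw [e]
    push_cast at this
    exact this
  have hD' : DP J P (j - 1) = DP J P j + (j : ℝ) / ((J : ℝ) + 1) * (P j - P (j - 1)) := by
    linarith
  unfold rel bT
  rw [e, e', hD']
  have key : 1 / ((J : ℝ) + 1) * ∑ l ∈ range (J + 1), P (min l j) * T l =
      1 / ((J : ℝ) + 1) * ∑ l ∈ range (J + 1), P (min l (j - 1)) * T l +
      1 / ((J : ℝ) + 1) * ((P j - P (j - 1)) * ∑ l ∈ Ico j (J + 1), T l) := by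
    rw [← hs]; ring
  rw [key]
  ring

/-- `D_{j-1} b_{j-1} = D_j b_j + x_j (rel_j - rel_{j-1})`. -/
theorem Db_step {j : ℕ} (h1 : 1 ≤ j) (h2 : j ≤ J) :
    DP J P (j - 1) * bT J P T (j - 1) = DP J P j * bT J P T j +
      (j : ℝ) / ((J : ℝ) + 1) * (rel J P T j - rel J P T (j - 1)) := by
  rw [rel_step h1 h2]
  have hD := DP_step J P h1 h2
  have hD' : DP J P (j - 1) = DP J P j + (j : ℝ) / ((J : ℝ) + 1) * (P j - P (j - 1)) := by
    linarith
  have hb := bT_step (P := P) (T := T) h1 h2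
  rw [hD']
  have : DP J P j * bT J P T (j - 1) = DP J P j * (bT J P T j -
      (j : ℝ) / ((J : ℝ) + 1) * (T j - T (j - 1))) := by rw [hb]
  linear_combination this

/-- closed form: `D_j b_j = 1 - (x_{j+1} rel_j + ∑_{k>j} (x_{k+1}-x_k) rel_k)`. -/
theorem Db_eq {j : ℕ} (hj : j ≤ J) :
    DP J P j * bT J P T j = 1 - (((j : ℝ) + 1) / ((J : ℝ) + 1) * rel J P T j +
      1 / ((J : ℝ) + 1) * ∑ k ∈ Ico (j + 1) (J + 1), rel J P T k) := by
  obtain ⟨i, hi⟩ : ∃ i, J = j + i := ⟨J - j, by omega⟩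
  induction i generalizing j with
  | zero =>
    have : j = J := by omega
    subst this
    have h := rel_J (J := j) (P := P) (T := T)
    have h1 : ((j : ℝ) + 1) / ((j : ℝ) + 1) = 1 := div_self (by positivity)
    rw [h1, Ico_self, sum_empty]
    linarith
  | succ i ih =>
    have h := ih (j := j + 1) (by omega) (by omega)
    have hs := Db_step (J := J) (P := P) (T := T) (j := j + 1) (by omega) (by omega)
    simp only [Nat.add_sub_cancel] at hs
    rw [hs, h, Finset.sum_eq_sum_Ico_succ_bot (show j + 1 < J + 1 by omega)]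
    push_cast
    field_simp
    ring

theorem Db_close {e : ℝ} (hrel : ∀ b ≤ J, |rel J P T b| ≤ e) {j : ℕ} (hj : j ≤ J) :
    |DP J P j * bT J P T j - 1| ≤ e := by
  rw [Db_eq hj]
  have hJ : (0 : ℝ) < (J : ℝ) + 1 := by positivity
  have hjJ : (j : ℝ) ≤ J := by exact_mod_cast hj
  have h1 : |((j : ℝ) + 1) / ((J : ℝ) + 1) * rel J P T j| ≤ ((j : ℝ) + 1) / ((J : ℝ) + 1) * e := by
    rw [abs_mul, abs_of_nonneg (by positivity)]
    exact mul_le_mul_of_nonneg_left (hrel j hj) (by positivity)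
  have h2 : |1 / ((J : ℝ) + 1) * ∑ k ∈ Ico (j + 1) (J + 1), rel J P T k| ≤
      1 / ((J : ℝ) + 1) * (((J : ℝ) - j) * e) := by
    rw [abs_mul, abs_of_nonneg (by positivity)]
    apply mul_le_mul_of_nonneg_left _ (by positivity)
    calc |∑ k ∈ Ico (j + 1) (J + 1), rel J P T k| ≤ ∑ k ∈ Ico (j + 1) (J + 1), |rel J P T k| :=
          Finset.abs_sum_le_sum_abs _ _
      _ ≤ ∑ _k ∈ Ico (j + 1) (J + 1), e := by
          apply Finset.sum_le_sum
          intro k hk
          rw [mem_Ico] at hk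
          exact hrel k (by omega)
      _ = ((J : ℝ) - j) * e := by
          rw [sum_const, Nat.card_Ico, nsmul_eq_mul]
          congr 1
          rw [Nat.cast_sub (by omega)]
          push_cast
          ring
  have h3 : ((j : ℝ) + 1) / ((J : ℝ) + 1) * e + 1 / ((J : ℝ) + 1) * (((J : ℝ) - j) * e) = e := by
    field_simp
    ring
  have h4 := abs_add_le (((j : ℝ) + 1) / ((J : ℝ) + 1) * rel J P T j)
    (1 / ((J : ℝ) + 1) * ∑ k ∈ Ico (j + 1) (J + 1), rel J P T k)
  have h5 : (1 - (((j : ℝ) + 1) / ((J : ℝ) + 1) * rel J P T j +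
      1 / ((J : ℝ) + 1) * ∑ k ∈ Ico (j + 1) (J + 1), rel J P T k)) - 1 =
      -(((j : ℝ) + 1) / ((J : ℝ) + 1) * rel J P T j +
      1 / ((J : ℝ) + 1) * ∑ k ∈ Ico (j + 1) (J + 1), rel J P T k) := by ring
  rw [h5, abs_neg]
  linarith

/-- the hypotheses on the pair `(P, T)`. -/
structure PT (J : ℕ) (P T : ℕ → ℝ) (Tm : ℝ) : Prop where
  lev : Lev J P
  T0 : 0 ≤ T 0
  Tmono : ∀ i j, i ≤ j → j ≤ J → T i ≤ T j
  TJ : T J ≤ Tm

theorem PT.T_nonneg {Tm : ℝ} (h : PT J P T Tm) {j : ℕ} (hj : j ≤ J) : 0 ≤ T j :=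
  h.T0.trans (h.Tmono 0 j (by omega) hj)

theorem PT.T_le {Tm : ℝ} (h : PT J P T Tm) {j : ℕ} (hj : j ≤ J) : T j ≤ Tm :=
  (h.Tmono j J hj le_rfl).trans h.TJ

theorem PT.P_nonneg {Tm : ℝ} (h : PT J P T Tm) {j : ℕ} (hj : j ≤ J) : 0 ≤ P j :=
  h.lev.nonneg.trans (h.lev.mono 0 j (by omega) hj)

theorem PT.P_le {Tm : ℝ} (h : PT J P T Tm) {j : ℕ} (hj : j ≤ J) : P j ≤ 1 :=
  (h.lev.mono j J hj le_rfl).trans h.lev.le_one

theorem PT.Tm_nonneg {Tm : ℝ} (h : PT J P T Tm) : 0 ≤ Tm := (h.T_nonneg le_rfl).trans h.TJ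

theorem PT.QT_nonneg {Tm : ℝ} (h : PT J P T Tm) : 0 ≤ QT J P T := by
  unfold QT
  apply mul_nonneg (by positivity)
  apply Finset.sum_nonneg
  intro l hl
  rw [mem_range] at hl
  exact mul_nonneg (h.P_nonneg (by omega)) (h.T_nonneg (by omega))

theorem PT.one_le_bT {Tm : ℝ} (h : PT J P T Tm) {j : ℕ} (hj : j ≤ J) : 1 ≤ bT J P T j := by
  unfold bT QT
  have hJ : (0 : ℝ) < (J : ℝ) + 1 := by positivity
  have h1 : ∑ l ∈ range (J + 1), P l * T l ≤ ∑ l ∈ range (J + 1), T l := by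
    apply Finset.sum_le_sum
    intro l hl
    rw [mem_range] at hl
    have := mul_le_mul_of_nonneg_right (h.P_le (show l ≤ J by omega)) (h.T_nonneg (show l ≤ J by omega))
    linarith
  have h2 : ∑ l ∈ range (J + 1), T l ≤ ((j : ℝ) + 1) * T j + ∑ l ∈ Ico (j + 1) (J + 1), T l := by
    rw [← Finset.sum_range_add_sum_Ico _ (show j + 1 ≤ J + 1 by omega)]
    have : ∑ l ∈ range (j + 1), T l ≤ ∑ _l ∈ range (j + 1), T j := by
      apply Finset.sum_le_sum
      intro l hl
      rw [mem_range] at hl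
      exact h.Tmono l j (by omega) hj
    rw [sum_const, card_range, nsmul_eq_mul] at this
    push_cast at this
    linarith
  have h3 : 1 / ((J : ℝ) + 1) * ∑ l ∈ range (J + 1), P l * T l ≤
      1 / ((J : ℝ) + 1) * (((j : ℝ) + 1) * T j + ∑ l ∈ Ico (j + 1) (J + 1), T l) :=
    mul_le_mul_of_nonneg_left (h1.trans h2) (by positivity)
  have h4 : 1 / ((J : ℝ) + 1) * (((j : ℝ) + 1) * T j + ∑ l ∈ Ico (j + 1) (J + 1), T l) =
      ((j : ℝ) + 1) / ((J : ℝ) + 1) * T j + 1 / ((J : ℝ) + 1) * ∑ l ∈ Ico (j + 1) (J + 1), T l := by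
    field_simp
  linarith

theorem PT.bT_le {Tm : ℝ} (h : PT J P T Tm) {j : ℕ} (hj : j ≤ J) : bT J P T j ≤ 1 + Tm := by
  have hQ := h.QT_nonneg
  unfold bT
  have hJ : (0 : ℝ) < (J : ℝ) + 1 := by positivity
  have h1 : ((j : ℝ) + 1) / ((J : ℝ) + 1) * T j ≤ ((j : ℝ) + 1) / ((J : ℝ) + 1) * Tm :=
    mul_le_mul_of_nonneg_left (h.T_le hj) (by positivity)
  have h2 : 1 / ((J : ℝ) + 1) * ∑ l ∈ Ico (j + 1) (J + 1), T l ≤
      1 / ((J : ℝ) + 1) * (((J : ℝ) - j) * Tm) := by
    apply mul_le_mul_of_nonneg_left _ (by positivity)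
    calc ∑ k ∈ Ico (j + 1) (J + 1), T k ≤ ∑ _k ∈ Ico (j + 1) (J + 1), Tm := by
          apply Finset.sum_le_sum
          intro k hk
          rw [mem_Ico] at hk
          exact h.T_le (by omega)
      _ = ((J : ℝ) - j) * Tm := by
          rw [sum_const, Nat.card_Ico, nsmul_eq_mul]
          congr 1
          rw [Nat.cast_sub (by omega)]
          push_cast
          ring
  have h3 : ((j : ℝ) + 1) / ((J : ℝ) + 1) * Tm + 1 / ((J : ℝ) + 1) * (((J : ℝ) - j) * Tm) = Tm := by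
    field_simp
    ring
  linarith

theorem PT.DP_le_one {Tm : ℝ} (h : PT J P T Tm) {j : ℕ} (hj : j ≤ J) : DP J P j ≤ 1 := by
  have ht := tail_eq J P hj
  have h1 : 0 ≤ 1 / ((J : ℝ) + 1) * ∑ k ∈ Ico j (J + 1), P k := by
    apply mul_nonneg (by positivity)
    apply Finset.sum_nonneg
    intro k hk
    rw [mem_Ico] at hk
    exact h.P_nonneg (by omega)
  have h2 : 0 ≤ ((j : ℝ) / ((J : ℝ) + 1)) * P j := mul_nonneg (by positivity) (h.P_nonneg hj)
  linarith

theorem PT.DP_J_le {Tm : ℝ} (h : PT J P T Tm) {j : ℕ} (_hj : j ≤ J) : DP J P J ≤ DP J P j := by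
  rw [DP_J]
  unfold DP
  have : 0 ≤ ∑ k ∈ Ico (j + 1) (J + 1), ((k : ℝ) / ((J : ℝ) + 1)) * (P k - P (k - 1)) := by
    apply Finset.sum_nonneg
    intro k hk
    rw [mem_Ico] at hk
    apply mul_nonneg (by positivity)
    have := h.lev.mono (k - 1) k (by omega) (by omega)
    linarith
  linarith

theorem sum_sub (a : ℕ → ℝ) (J : ℕ) : ∑ j ∈ Ico 1 (J + 1), (a j - a (j - 1)) = a J - a 0 := by
  have := Finset.sum_range_sub a J
  rw [← this, Finset.sum_Ico_eq_sum_range]
  simp only [Nat.add_sub_cancel]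
  apply Finset.sum_congr rfl
  intro i _
  have e1 : 1 + i = i + 1 := by ring
  rw [e1]
  simp

/-- total variation of the defects -/
theorem PT.tv {Tm : ℝ} (h : PT J P T Tm) :
    ∑ j ∈ Ico 1 (J + 1), |rel J P T j - rel J P T (j - 1)| ≤ 1 + 2 * Tm := by
  have h1 : ∀ j ∈ Ico 1 (J + 1), |rel J P T j - rel J P T (j - 1)| ≤
      (1 + Tm) * (P j - P (j - 1)) + (T j - T (j - 1)) := by
    intro j hj
    rw [mem_Ico] at hj
    have hj2 : j ≤ J := by omega
    rw [rel_step hj.1 hj2]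
    have hdP : 0 ≤ P j - P (j - 1) := by
      have := h.lev.mono (j - 1) j (by omega) hj2
      linarith
    have hdT : 0 ≤ T j - T (j - 1) := by
      have := h.Tmono (j - 1) j (by omega) hj2
      linarith
    have hb1 := h.one_le_bT (show j - 1 ≤ J by omega)
    have hb2 := h.bT_le (show j - 1 ≤ J by omega)
    have hD1 := h.DP_le_one hj2
    have hD0 : 0 ≤ DP J P j := by
      have := h.DP_J_le hj2
      rw [DP_J] at this
      have := h.lev.le_one
      linarith
    have a1 : (P j - P (j - 1)) * bT J P T (j - 1) ≤ (1 + Tm) * (P j - P (j - 1)) := by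
      rw [mul_comm]
      exact mul_le_mul_of_nonneg_right hb2 hdP
    have a2 : 0 ≤ (P j - P (j - 1)) * bT J P T (j - 1) := mul_nonneg hdP (by linarith)
    have a3 : DP J P j * (T j - T (j - 1)) ≤ T j - T (j - 1) := by
      have := mul_le_mul_of_nonneg_right hD1 hdT
      linarith
    have a4 : 0 ≤ DP J P j * (T j - T (j - 1)) := mul_nonneg hD0 hdT
    rw [abs_le]
    constructor <;> linarith
  refine (Finset.sum_le_sum h1).trans ?_
  rw [Finset.sum_add_distrib, ← Finset.mul_sum, sum_sub, sum_sub]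
  have hTm := h.Tm_nonneg
  have b1 : P J - P 0 ≤ 1 := by
    have := h.lev.le_one
    have := h.lev.nonneg
    linarith
  have b2 : (1 + Tm) * (P J - P 0) ≤ (1 + Tm) * 1 := mul_le_mul_of_nonneg_left b1 (by linarith)
  have b3 : T J - T 0 ≤ Tm := by
    have := h.TJ
    have := h.T0
    linarith
  linarith

theorem log_bound {y : ℝ} (hy : |y| ≤ 3 / 10) : |Real.log (1 + y) - y| ≤ y ^ 2 := by
  have h := Real.abs_log_sub_add_sum_range_le (x := -y) (by rw [abs_neg]; linarith) 2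
  simp only [Finset.sum_range_succ, Finset.sum_range_zero, abs_neg, sub_neg_eq_add] at h
  norm_num at h
  have h0 : 0 ≤ |y| := abs_nonneg y
  have h1 : |y| ^ 3 / (1 - |y|) ≤ 3 / 7 * y ^ 2 := by
    rw [div_le_iff₀ (by linarith), ← sq_abs y]
    nlinarith [mul_nonneg (mul_nonneg h0 h0) (sub_nonneg.2 hy)]
  have h2 := abs_le.1 (h.trans h1)
  have h3 : 0 ≤ y ^ 2 := sq_nonneg y
  rw [abs_le]
  constructor <;> linarith [h2.1, h2.2]

/-- **(L2) algebra.** -/
theorem main {Tm e : ℝ} (h : PT J P T Tm) (he8 : e ≤ 1 / 8)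
    (hrel : ∀ b ≤ J, |rel J P T b| ≤ e) :
    (1 - e) / (1 + Tm) ≤ 1 - P J ∧ |Theta J P T - SP J P| ≤ (8 + 10 * Tm) * e := by
  have he0 : 0 ≤ e := (abs_nonneg _).trans (hrel J le_rfl)
  have hTm := h.Tm_nonneg
  set r : ℕ → ℝ := fun j => DP J P j * bT J P T j with hr
  have hr1 : ∀ j ≤ J, |r j - 1| ≤ e := fun j hj => Db_close hrel hj
  have hrlo : ∀ j ≤ J, 1 - e ≤ r j := fun j hj => by have := abs_le.1 (hr1 j hj); linarith
  have hrhi : ∀ j ≤ J, r j ≤ 1 + e := fun j hj => by have := abs_le.1 (hr1 j hj); linarith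
  have hb1 : ∀ j ≤ J, 1 ≤ bT J P T j := fun j hj => h.one_le_bT hj
  have hDJ : (1 - e) / (1 + Tm) ≤ 1 - P J := by
    have h1 := hrlo J le_rfl
    have h2 := h.bT_le (le_refl J)
    have h3 : 0 ≤ DP J P J := by rw [DP_J]; have := h.lev.le_one; linarith
    rw [div_le_iff₀ (by linarith), ← DP_J J P]
    calc 1 - e ≤ DP J P J * bT J P T J := h1
      _ ≤ DP J P J * (1 + Tm) := mul_le_mul_of_nonneg_left h2 h3
  refine ⟨hDJ, ?_⟩
  have hPJ : P J < 1 := by
    have : 0 < (1 - e) / (1 + Tm) := div_pos (by linarith) (by linarith)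
    linarith
  have hD : ∀ j, 0 < DP J P j := DP_pos h.lev hPJ
  set δ : ℕ → ℝ := fun j => rel J P T j - rel J P T (j - 1) with hδ
  have hTV : ∑ j ∈ Ico 1 (J + 1), |δ j| ≤ 1 + 2 * Tm := h.tv
  have hδb : ∀ j ∈ Ico 1 (J + 1), |δ j| ≤ 2 * e := by
    intro j hj
    rw [mem_Ico] at hj
    have h1 := abs_le.1 (hrel j (by omega))
    have h2 := abs_le.1 (hrel (j - 1) (by omega))
    simp only [hδ]
    rw [abs_le]
    constructor <;> linarith
  -- each logarithmic term
  have hterm : ∀ j ∈ Ico 1 (J + 1),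
      |(((J : ℝ) + 1) / j) * Real.log (bT J P T j / bT J P T (j - 1)) -
        (((J : ℝ) + 1) / j) * Real.log (DP J P (j - 1) / DP J P j) + δ j| ≤ 8 * e * |δ j| := by
    intro j hj
    have hj' := hj
    rw [mem_Ico] at hj
    have hj2 : j ≤ J := by omega
    have hj0 : (0 : ℝ) < j := by exact_mod_cast hj.1
    have hJ : (0 : ℝ) < (J : ℝ) + 1 := by positivity
    set x : ℝ := (j : ℝ) / ((J : ℝ) + 1) with hx
    have hx0 : 0 < x := by positivity
    have hx1 : x ≤ 1 := by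
      rw [hx, div_le_one hJ]
      have : (j : ℝ) ≤ J := by exact_mod_cast hj2
      linarith
    have hxi : ((J : ℝ) + 1) / j = 1 / x := by rw [hx]; field_simp
    have hrj : 0 < r j := by have := hrlo j hj2; linarith
    have hstep : r (j - 1) = r j + x * δ j := Db_step hj.1 hj2
    have hb' : 0 < bT J P T j := by have := hb1 j hj2; linarith
    have hb'' : 0 < bT J P T (j - 1) := by have := hb1 (j - 1) (by omega); linarith
    have hlog : Real.log (bT J P T j / bT J P T (j - 1)) -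
        Real.log (DP J P (j - 1) / DP J P j) = - Real.log (1 + x * (δ j / r j)) := by
      have h1 : 1 + x * (δ j / r j) = r (j - 1) / r j := by
        rw [hstep]; field_simp
      rw [h1]
      simp only [hr]
      rw [Real.log_div hb'.ne' hb''.ne', Real.log_div (hD _).ne' (hD _).ne',
        Real.log_div (mul_pos (hD _) hb'').ne' (mul_pos (hD _) hb').ne',
        Real.log_mul (hD _).ne' hb''.ne', Real.log_mul (hD _).ne' hb'.ne']
      ring
    set u : ℝ := δ j / r j with hu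
    have hrinv : |δ j / r j| ≤ 8 / 7 * |δ j| := by
      rw [abs_div, abs_of_pos hrj, div_le_iff₀ hrj]
      have h1 := hrlo j hj2
      have h2 := abs_nonneg (δ j)
      nlinarith
    have hu1 : |u| ≤ 8 / 7 * |δ j| := hrinv
    have hub : |u| ≤ 3 / 10 := by
      have := hδb j hj'
      nlinarith
    have hxu : |x * u| ≤ 3 / 10 := by
      rw [abs_mul, abs_of_pos hx0]
      have := abs_nonneg u
      nlinarith
    have hlb := log_bound hxu
    have huδ : |u - δ j| ≤ 8 / 7 * e * |δ j| := by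
      have h1 : u - δ j = (δ j / r j) * (1 - r j) := by rw [hu]; field_simp
      rw [h1, abs_mul]
      have h2 : |1 - r j| ≤ e := by rw [abs_sub_comm]; exact hr1 j hj2
      calc |δ j / r j| * |1 - r j| ≤ (8 / 7 * |δ j|) * e :=
            mul_le_mul hrinv h2 (abs_nonneg _) (by positivity)
        _ = 8 / 7 * e * |δ j| := by ring
    have h1 : (((J : ℝ) + 1) / j) * Real.log (bT J P T j / bT J P T (j - 1)) -
        (((J : ℝ) + 1) / j) * Real.log (DP J P (j - 1) / DP J P j) + δ j =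
        -(1 / x) * (Real.log (1 + x * u) - x * u) - (u - δ j) := by
      rw [hxi, ← mul_sub, hlog]
      field_simp
      ring
    rw [h1]
    have h2 : |-(1 / x) * (Real.log (1 + x * u) - x * u)| ≤ x * u ^ 2 := by
      rw [abs_mul, abs_neg, abs_of_pos (by positivity : (0 : ℝ) < 1 / x)]
      calc 1 / x * |Real.log (1 + x * u) - x * u| ≤ 1 / x * (x * u) ^ 2 :=
            mul_le_mul_of_nonneg_left hlb (by positivity)
        _ = x * u ^ 2 := by field_simp
    have h3 : x * u ^ 2 ≤ 8 / 7 * |δ j| * (8 / 7 * (2 * e)) := by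
      have h4 : u ^ 2 = |u| * |u| := by rw [← sq, sq_abs]
      have h5 : |u| * |u| ≤ (8 / 7 * |δ j|) * (8 / 7 * (2 * e)) := by
        apply mul_le_mul hu1 _ (abs_nonneg _) (by positivity)
        have := hδb j hj'
        linarith
      have h6 : x * u ^ 2 ≤ 1 * u ^ 2 := mul_le_mul_of_nonneg_right hx1 (sq_nonneg _)
      rw [one_mul, h4] at h6
      rw [h4]
      linarith
    have h7 := abs_sub (-(1 / x) * (Real.log (1 + x * u) - x * u)) (u - δ j)
    have h8 : 0 ≤ e * |δ j| := by positivity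
    nlinarith
  -- sum of the terms
  have hsum : |∑ j ∈ Ico 1 (J + 1), (((J : ℝ) + 1) / j) * Real.log (bT J P T j / bT J P T (j - 1)) -
      ∑ j ∈ Ico 1 (J + 1), (((J : ℝ) + 1) / j) * Real.log (DP J P (j - 1) / DP J P j)| ≤
      8 * e * (1 + 2 * Tm) + 2 * e := by
    have h1 : ∑ j ∈ Ico 1 (J + 1), (((J : ℝ) + 1) / j) * Real.log (bT J P T j / bT J P T (j - 1)) -
      ∑ j ∈ Ico 1 (J + 1), (((J : ℝ) + 1) / j) * Real.log (DP J P (j - 1) / DP J P j) =
      ∑ j ∈ Ico 1 (J + 1), ((((J : ℝ) + 1) / j) * Real.log (bT J P T j / bT J P T (j - 1)) -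
        (((J : ℝ) + 1) / j) * Real.log (DP J P (j - 1) / DP J P j) + δ j) -
      ∑ j ∈ Ico 1 (J + 1), δ j := by
      rw [← Finset.sum_sub_distrib, ← Finset.sum_sub_distrib]
      apply Finset.sum_congr rfl
      intro j _
      ring
    have h2 : |∑ j ∈ Ico 1 (J + 1), δ j| ≤ 2 * e := by
      have : ∑ j ∈ Ico 1 (J + 1), δ j = rel J P T J - rel J P T 0 := sum_sub (rel J P T) J
      rw [this]
      have h1 := abs_le.1 (hrel J le_rfl)
      have h2 := abs_le.1 (hrel 0 (by omega))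
      rw [abs_le]
      constructor <;> linarith
    have h3 : |∑ j ∈ Ico 1 (J + 1), ((((J : ℝ) + 1) / j) * Real.log (bT J P T j / bT J P T (j - 1)) -
        (((J : ℝ) + 1) / j) * Real.log (DP J P (j - 1) / DP J P j) + δ j)| ≤ 8 * e * (1 + 2 * Tm) := by
      refine (Finset.abs_sum_le_sum_abs _ _).trans ((Finset.sum_le_sum hterm).trans ?_)
      rw [← Finset.mul_sum]
      exact mul_le_mul_of_nonneg_left hTV (by positivity)
    rw [h1]
    exact (abs_sub _ _).trans (add_le_add h3 h2)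
  have hr0 : 0 < r 0 := by have := hrlo 0 (by omega); linarith
  have hrJ : 0 < r J := by have := hrlo J le_rfl; linarith
  have hfirst : |T 0 / bT J P T 0 - P 0 / DP J P 0| ≤ 8 / 7 * e := by
    have hb0 : 0 < bT J P T 0 := by have := hb1 0 (by omega); linarith
    have h1 : T 0 / bT J P T 0 - P 0 / DP J P 0 = - rel J P T 0 / r 0 := by
      rw [rel_zero]
      simp only [hr]
      have := hD 0
      field_simp
      ring
    rw [h1, abs_div, abs_neg, abs_of_pos hr0, div_le_iff₀ hr0]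
    have h2 := hrel 0 (by omega)
    have h3 := hrlo 0 (by omega)
    nlinarith
  have hlast : |Real.log (bT J P T J) + Real.log (DP J P J)| ≤ 2 * e := by
    have hbJ : 0 < bT J P T J := by have := hb1 J le_rfl; linarith
    have h1 : Real.log (bT J P T J) + Real.log (DP J P J) = Real.log (1 + (r J - 1)) := by
      rw [← Real.log_mul hbJ.ne' (hD _).ne']
      congr 1
      simp only [hr]
      ring
    rw [h1]
    have h2 := hr1 J le_rfl
    have h3 := log_bound (y := r J - 1) (by linarith)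
    have h4 : (r J - 1) ^ 2 ≤ e * e := by
      rw [← sq_abs, sq]
      exact mul_le_mul h2 h2 (abs_nonneg _) he0
    have h5 : Real.log (1 + (r J - 1)) = (Real.log (1 + (r J - 1)) - (r J - 1)) + (r J - 1) := by ring
    rw [h5]
    refine (abs_add_le _ _).trans ?_
    nlinarith
  have hfin : Theta J P T - SP J P = 1 / 2 * ((T 0 / bT J P T 0 - P 0 / DP J P 0) +
      (∑ j ∈ Ico 1 (J + 1), (((J : ℝ) + 1) / j) * Real.log (bT J P T j / bT J P T (j - 1)) -
      ∑ j ∈ Ico 1 (J + 1), (((J : ℝ) + 1) / j) * Real.log (DP J P (j - 1) / DP J P j)) -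
      (Real.log (bT J P T J) + Real.log (DP J P J))) := by
    unfold Theta SP
    ring
  rw [hfin, abs_mul, abs_of_pos (by norm_num : (0 : ℝ) < 1 / 2)]
  have hA := abs_sub ((T 0 / bT J P T 0 - P 0 / DP J P 0) +
      (∑ j ∈ Ico 1 (J + 1), (((J : ℝ) + 1) / j) * Real.log (bT J P T j / bT J P T (j - 1)) -
      ∑ j ∈ Ico 1 (J + 1), (((J : ℝ) + 1) / j) * Real.log (DP J P (j - 1) / DP J P j)))
      (Real.log (bT J P T J) + Real.log (DP J P J))
  have hB := abs_add_le (T 0 / bT J P T 0 - P 0 / DP J P 0)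
      (∑ j ∈ Ico 1 (J + 1), (((J : ℝ) + 1) / j) * Real.log (bT J P T j / bT J P T (j - 1)) -
      ∑ j ∈ Ico 1 (J + 1), (((J : ℝ) + 1) / j) * Real.log (DP J P (j - 1) / DP J P j))
  have hTe : 0 ≤ Tm * e := by positivity
  nlinarith

end

end Crest.Agent.R146.L2Alg_36
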