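import Crest.Agent.R146.S6Def_988
import Crest.Agent.R164.GCalc2

/-!
Row 146, statement S0206: the LIMIT MODEL of a row (helper874), definitions only.
Notation of `S6Def_988`: levels `P 0 ≤ ... ≤ P J`, time points `tP J P j` (`j ≤ J + 2`),
exponent `j/(J+1)` on `(t_j, t_{j+1})`.

* `Psi J f P j`        : value function at time `t_j` (`Psi J f P (J+2) = f`, `Th = Psi 0 at 0`);
* `cX J f P k h j`     : `E[h(X_{t_k}) | X_{t_j} = x]` in the tilted (controlled) process, `j ≤ k`;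
* `kapX J f P b φ ψ`   : `E[ E[φ(X_1)|X_{P_b}] E[ψ(X_1)|X_{P_b}] ]` (`b ≤ J`; `b = J + 1`: `E[φψ(X_1)]`).
-/

set_option autoImplicit false

namespace Crest.Agent.R146.RowDef_874

open Crest.Agent.R146.S6Def_988 Crest.Agent.R164.GC

noncomputable section

/-- exponent on the interval `(t_j, t_{j+1})`. -/
def mJ (J j : ℕ) : ℝ := (j : ℝ) / ((J : ℝ) + 1)

/-- value function at time `t_j`, `j ≤ J + 2`. -/
def Psi (J : ℕ) (f : ℝ → ℝ) (P : ℕ → ℝ) (j : ℕ) : ℝ → ℝ :=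
  recV f (tP J P) (fun j => (j : ℝ) / ((J : ℝ) + 1)) (J + 2) (J + 2 - j)

/-- `i` backward steps from `t_k`: conditional expectation of `h(X_{t_k})` at time `t_{k-i}`. -/
def cXb (J : ℕ) (f : ℝ → ℝ) (P : ℕ → ℝ) (k : ℕ) (h : ℝ → ℝ) : ℕ → ℝ → ℝ
  | 0 => h
  | i + 1 => tE (mJ J (k - 1 - i)) (tP J P (k - i) - tP J P (k - 1 - i)) (Psi J f P (k - i))
      (cXb J f P k h i)

/-- `E[h(X_{t_k}) | X_{t_j} = x]`, `j ≤ k ≤ J + 2`. -/
def cX (J : ℕ) (f : ℝ → ℝ) (P : ℕ → ℝ) (k : ℕ) (h : ℝ → ℝ) (j : ℕ) : ℝ → ℝ :=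
  cXb J f P k h (k - j)

/-- pair expectation: two replicas of the row process which separate at time `t_{b+1} = P_b`. -/
def kapX (J : ℕ) (f : ℝ → ℝ) (P : ℕ → ℝ) (b : ℕ) (φ ψ : ℝ → ℝ) : ℝ :=
  cX J f P (b + 1) (fun x => cX J f P (J + 2) φ (b + 1) x * cX J f P (J + 2) ψ (b + 1) x) 0 0

theorem Th_eq (J : ℕ) (f : ℝ → ℝ) (P : ℕ → ℝ) : Th J f P = Psi J f P 0 0 := rfl

theorem Psi_last (J : ℕ) (f : ℝ → ℝ) (P : ℕ → ℝ) : Psi J f P (J + 2) = f := by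
  unfold Psi
  rw [Nat.sub_self]
  rfl

/-- one step of the value function. -/
theorem Psi_step (J : ℕ) (f : ℝ → ℝ) (P : ℕ → ℝ) {j : ℕ} (hj : j < J + 2) :
    Psi J f P j = Crest.ProbabilityR.InvariantGlass.gaussOp (mJ J j)
      (tP J P (j + 1) - tP J P j) (Psi J f P (j + 1)) := by
  unfold Psi
  obtain ⟨i, hi⟩ : ∃ i, J + 2 - j = i + 1 := ⟨J + 1 - j, by omega⟩
  rw [hi]
  have e1 : J + 2 - (j + 1) = i := by omega
  rw [e1]
  show Crest.ProbabilityR.InvariantGlass.gaussOp _ _ _ = _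
  have e2 : J + 2 - 1 - i = j := by omega
  have e3 : J + 2 - i = j + 1 := by omega
  rw [e2, e3]
  rfl

theorem cX_self (J : ℕ) (f : ℝ → ℝ) (P : ℕ → ℝ) (k : ℕ) (h : ℝ → ℝ) : cX J f P k h k = h := by
  unfold cX
  rw [Nat.sub_self]
  rfl

/-- one step of the conditional expectation. -/
theorem cX_step (J : ℕ) (f : ℝ → ℝ) (P : ℕ → ℝ) {k j : ℕ} (h : ℝ → ℝ) (hj : j < k) :
    cX J f P k h j = tE (mJ J j) (tP J P (j + 1) - tP J P j) (Psi J f P (j + 1))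
      (cX J f P k h (j + 1)) := by
  unfold cX
  obtain ⟨i, hi⟩ : ∃ i, k - j = i + 1 := ⟨k - j - 1, by omega⟩
  rw [hi]
  have e1 : k - (j + 1) = i := by omega
  rw [e1]
  show tE _ _ _ _ = _
  have e2 : k - 1 - i = j := by omega
  have e3 : k - i = j + 1 := by omega
  rw [e2, e3]

end

end Crest.Agent.R146.RowDef_874
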