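import Crest.Agent.R146.S6U_988
import Crest.Agent.R146.RowDef_874
import Crest.Agent.R146.CavW_47
import Crest.Agent.R146.L2Alg_36

/-!
Row 146, statement S0206: the NODES of the LOWER bound as exact Props (helper988).
Nothing is proved here.  One smooth row function `f` (all rows the same), one new coordinate per
step, fine skeleton `J` (existential) for the row observables and the relations.

Plan: `RO, REL (⇐ RO + SDp + FLD), L2IBP, L2Alg_36.main, VTRUNC, THC, CavW_47.cav_W_one, NEWC, TAYC`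
⇒ `COL`;  `COL, S6U.CAV, SKADD, S6U.STR, S6U.LIP, SPC` ⇒ `INCL`;  `INCL, CRUDE, FOBSL, FCONT` ⇒
`INC1`;  `INC1, REV, PLIM, DISC, PM` ⇒ `S6U.LB`.
-/

set_option autoImplicit false

namespace Crest.Agent.R146.S6L_988

open Finset MeasureTheory ProbabilityTheory Crest.Agent.R141
open Crest.Agent.R146.S6Def_988 Crest.Agent.R146.S6U_988
open Crest.Agent.R146.RowDef_874 Crest.Agent.R146.CavW_47 Crest.Agent.R146.L2Alg_36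

noncomputable section

/-! ### Definitions -/

/-- regular row functions: `f' = f1`, `f'' = f2`, everything bounded by `K`, `f2` `K`-Lipschitz. -/
structure S3 (K : ℝ) (f f1 f2 : ℝ → ℝ) : Prop where
  d1 : ∀ x, HasDerivAt f (f1 x) x
  d2 : ∀ x, HasDerivAt f1 (f2 x) x
  b0 : ∀ x, |f x| ≤ K
  b1 : ∀ x, |f1 x| ≤ K
  b2 : ∀ x, |f2 x| ≤ K
  l2 : ∀ x y, |f2 x - f2 y| ≤ K * |x - y|

/-- averaged hierarchical free energy (not normalised). -/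
def PhE {N : ℕ} (C : Cfg N) (nc n : ℕ) (f : ℕ → ℝ → ℝ) (M : ℕ) (s : Fin nc → ℝ) : ℝ :=
  ∫ G, Phi C nc n (M := M) f G s ∂(gam M N)

/-- average over the strengths `s g = √η l_g`, `l ∈ [1,2]^nc`. -/
def Lb {N : ℕ} (C : Cfg N) (nc n : ℕ) (f : ℕ → ℝ → ℝ) (M : ℕ) (η : ℝ) : ℝ :=
  ∫ l in Set.Icc (fun _ : Fin nc => (1 : ℝ)) (fun _ => 2), PhE C nc n f M (fun g => Real.sqrt η * l g)

/-- the field of the row `a` at the point `x` -/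
def hh {M N : ℕ} (G : Fin M → Fin N → ℝ) (a : Fin M) (x : Fin N → ℝ) : ℝ :=
  ∑ i, G a i * (x i / Real.sqrt N)

/-- row statistics of a pair of configurations -/
def RS {N : ℕ} (C : Cfg N) (nc n : ℕ) {M : ℕ} (φ ψ : ℝ → ℝ) (G : Fin M → Fin N → ℝ)
    (u v : Om C nc n) : ℝ :=
  (N : ℝ)⁻¹ * ∑ a : Fin M, φ (hh G a (C.x u.1)) * ψ (hh G a (C.x v.1))

/-- standard Gaussian vector in `ℝ^M` -/
def gv (M : ℕ) : Measure (Fin M → ℝ) := Measure.pi fun _ => gaussianReal 0 1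

/-- change of the log-weight when the last coordinate of the point of the sphere of dimension
`N + 1` is `t` (rows `(G a, g0 a)`, the new field coordinate removed). -/
def dE {N : ℕ} (C : Cfg N) (nc n : ℕ) {M : ℕ} (f : ℝ → ℝ) (G : Fin M → Fin N → ℝ) (g0 : Fin M → ℝ)
    (s : Fin nc → ℝ) (ω : Om C nc n) (t : ℝ) : ℝ :=
  ∑ a : Fin M, (f (Real.sqrt (((N : ℝ) + 1 - t ^ 2) / ((N : ℝ) + 1)) * hh G a (C.x ω.1) +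
      t / Real.sqrt ((N : ℝ) + 1) * g0 a) - f (hh G a (C.x ω.1))) +
    (Real.sqrt (((N : ℝ) + 1 - t ^ 2) / N) - 1) * fieldE s ω

/-- the potential produced by the new coordinate, `|t| ≤ k`. -/
def dV {N : ℕ} (C : Cfg N) (nc n : ℕ) {M : ℕ} (k : ℝ) (f : ℝ → ℝ) (G : Fin M → Fin N → ℝ)
    (g0 : Fin M → ℝ) (s : Fin nc → ℝ) (ω : Om C nc n) : ℝ :=
  Real.log (∫ t in (-k)..k, gaussianPDFReal 0 1 t * Real.exp (dE C nc n f G g0 s ω t))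

/-- `Λ_{k,d}(y) = log ∫_{|t| ≤ k} φ(t) exp(t y + d t²/2) dt` -/
def Lam (k d y : ℝ) : ℝ :=
  Real.log (∫ t in (-k)..k, gaussianPDFReal 0 1 t * Real.exp (t * y + d * t ^ 2 / 2))

/-- truncation at the level `L` -/
def LamT (k d L y : ℝ) : ℝ := min (Lam k d y) L

/-- the vector `W_a = f'(h_a)/√N` -/
def Wv {N : ℕ} (C : Cfg N) (nc n : ℕ) {M : ℕ} (f1 : ℝ → ℝ) (G : Fin M → Fin N → ℝ)
    (ω : Om C nc n) (a : Fin M) : ℝ := f1 (hh G a (C.x ω.1)) / Real.sqrt N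

/-- the levels of the system at the steps `τ` -/
def PR {N : ℕ} (C : Cfg N) (nc n : ℕ) (f : ℝ → ℝ) (M : ℕ) (s : Fin nc → ℝ) (τ : ℕ → ℕ) (b : ℕ) : ℝ :=
  Rk C nc n (fun _ => f) M s (τ b)

/-- the levels of `W`: `T_b = (M/N) E[E[f'(X_1)|X_{P_b}]^2]` in the limit model -/
def TR (J : ℕ) (f f1 : ℝ → ℝ) (P : ℕ → ℝ) (α : ℝ) (b : ℕ) : ℝ := α * kapX J f P b f1 f1

/-! ### Row observables (helper874) -/

/-- (RO) row observables of pairs at the steps of a skeleton and of single configurations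
concentrate at the values of the limit model; `ψ` may have linear growth.  (For fixed `J` the error
does not tend to `0`: first `J ≥ J0(ε)`, then `ε1`, then `N`.) -/
def RO : Prop := ∀ (αm K L B ε : ℝ), 0 < ε → ∃ J0 : ℕ, ∀ J : ℕ, J0 ≤ J →
  ∃ ε1 : ℝ, 0 < ε1 ∧ ∃ N0 : ℕ, ∀ (wc nc : ℕ), 2 ≤ wc → nc + 1 = (J + 1) * wc →
  ∀ N, N0 ≤ N → 0 < N → ∀ n, 0 < n → ∀ (C : Cfg N) (f φ ψ : ℝ → ℝ), BL K L f → BL B B φ →
  (∀ x y, |ψ x - ψ y| ≤ B * |x - y|) → |ψ 0| ≤ B →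
  ∀ (M : ℕ) (s : Fin nc → ℝ) (τ : ℕ → ℕ), (M : ℝ) ≤ αm * N →
  Skel C nc n (fun _ => f) M s J wc τ ε1 →
  (∀ b ≤ J, ∫ G, pE (QQ C nc n (M := M) (fun _ => f) G s) ((fil C nc n).F (τ b))
      (fun u v => |RS C nc n φ ψ G u v -
        (M : ℝ) / N * kapX J f (PR C nc n f M s τ) b φ ψ|) ∂(gam M N) ≤ ε) ∧
  ∫ G, eE (QQ C nc n (M := M) (fun _ => f) G s) (fun u => |RS C nc n φ ψ G u u -
      (M : ℝ) / N * kapX J f (PR C nc n f M s τ) (J + 1) φ ψ|) ∂(gam M N) ≤ ε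

/-! ### Moments -/

/-- (FLD) the fields have norm `O(√N)` under the tilted law, for every value of the rows. -/
def FLD : Prop := ∀ (αm K : ℝ), ∃ Cst : ℝ, 0 ≤ Cst ∧ ∀ (N nc n : ℕ), 0 < N → 0 < n →
  ∀ (C : Cfg N) (f : ℕ → ℝ → ℝ) (M : ℕ) (G : Fin M → Fin N → ℝ) (A : ℝ) (s : Fin nc → ℝ),
  (M : ℝ) ≤ αm * N → (∀ a x, |f a x| ≤ K) → (∀ g, |s g| ≤ A) → (nc : ℝ) * A ≤ 1 → ∀ g : Fin nc,
  eE (QQ C nc n (M := M) f G s) (fun ω => ∑ i, zf ω.2 g i ^ 2) ≤ Cst * N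

/-- (MOM) moments of the row fields. -/
def MOM : Prop := ∀ (K : ℝ) (N nc n : ℕ), 0 < N → 0 < n → ∀ (C : Cfg N) (f : ℕ → ℝ → ℝ) (M : ℕ)
  (s : Fin nc → ℝ), (∀ a, Measurable (f a)) → (∀ a x, |f a x| ≤ K) → ∀ (a : Fin M) (F : ℝ → ℝ),
  Measurable F → (∀ x, 0 ≤ F x) → Integrable F (gaussianReal 0 1) →
  Integrable (fun G => eE (QQ C nc n (M := M) f G s) (fun ω => F (hh G a (C.x ω.1)))) (gam M N) ∧
  ∫ G, eE (QQ C nc n (M := M) f G s) (fun ω => F (hh G a (C.x ω.1))) ∂(gam M N) ≤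
    Real.exp (4 * K) * ∫ x, F x ∂(gaussianReal 0 1)

/-! ### The limit model -/

/-- (L2IBP) Gaussian integration by parts in the limit model (exact). -/
def L2IBP : Prop := ∀ (K : ℝ) (f f1 f2 : ℝ → ℝ), S3 K f f1 f2 → ∀ (J : ℕ) (P : ℕ → ℝ), Lev J P →
  LevT J (K ^ 2) (fun b => kapX J f P b f1 f1) ∧
  kapX J f P (J + 1) f1 (fun x => x) = kapX J f P (J + 1) f2 (fun _ => 1) +
    kapX J f P (J + 1) f1 f1 - 1 / ((J : ℝ) + 1) * ∑ l ∈ range (J + 1), P l * kapX J f P l f1 f1 ∧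
  ∀ b ≤ J, kapX J f P b f1 (fun x => x) =
    P b * (kapX J f P (J + 1) f2 (fun _ => 1) + kapX J f P (J + 1) f1 f1) -
    1 / ((J : ℝ) + 1) * ∑ l ∈ range (J + 1), P (min l b) * kapX J f P l f1 f1 +
    kapX J f P b f1 f1 * DP J P b

/-- (VTRUNC) value of the truncated quadratic cavity, uniformly in the number of levels. -/
def VTRUNC : Prop := ∀ (Tm ε : ℝ), 0 ≤ Tm → 0 < ε → ∃ k L : ℝ, 0 < k ∧ 0 ≤ L ∧
  ∀ (J : ℕ) (P T : ℕ → ℝ), Lev J P → LevT J Tm T →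
  Theta J P T - ε ≤ ThT J (LamT k (QT J P T - T (J + 1)) L) T

/-- (THC) coarse and fine recursion. -/
def THC : Prop := ∀ (c L Tm : ℝ) (h : ℝ → ℝ), BL c L h → ∀ (J r J' : ℕ) (T : ℕ → ℝ), 0 < r →
  J' + 1 = (J + 1) * r → LevT J' Tm T →
  |ThT J h (fun b => if b ≤ J then T (b * r) else T (J' + 1)) - ThT J' h T| ≤
    L ^ 2 * Tm / ((J : ℝ) + 1)

/-- (SPC) continuity of the entropy in the levels. -/
def SPC : Prop := ∀ (J : ℕ) (κ ε : ℝ), 0 < κ → 0 < ε → ∃ ε' : ℝ, 0 < ε' ∧ ∀ P P' : ℕ → ℝ,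
  Lev J P → Lev J P' → κ ≤ 1 - P J → κ ≤ 1 - P' J → (∀ j ≤ J, |P j - P' j| ≤ ε') →
  |SP J P - SP J P'| ≤ ε

/-! ### The relations (L2) -/

/-- (REL) the relations between the levels `P` and `T` (Schwinger–Dyson on the sphere + row
observables + Gaussian integration by parts in the limit model). -/
def REL : Prop := ∀ (αm K : ℝ), ∃ Cst : ℝ, 0 ≤ Cst ∧ ∀ ε : ℝ, 0 < ε → ∃ J0 : ℕ, ∀ J : ℕ, J0 ≤ J →
  ∃ ε1 : ℝ, 0 < ε1 ∧ ∃ N0 : ℕ, ∀ (wc nc : ℕ), 2 ≤ wc → nc + 1 = (J + 1) * wc →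
  ∀ N, N0 ≤ N → 0 < N → ∀ n, 0 < n → ∀ (M : ℕ), (M : ℝ) ≤ αm * N → ∀ A : ℝ, (nc : ℝ) * A ≤ 1 →
  ∃ δ : ℝ, 0 < δ ∧ ∀ C : Cfg N, Near C δ → ∀ (f f1 f2 : ℝ → ℝ), S3 K f f1 f2 →
  ∀ (s : Fin nc → ℝ), (∀ g, |s g| ≤ A) → ∀ τ : ℕ → ℕ, Skel C nc n (fun _ => f) M s J wc τ ε1 →
  ∀ b ≤ J, |rel J (PR C nc n f M s τ) (TR J f f1 (PR C nc n f M s τ) ((M : ℝ) / N)) b| ≤
    Cst * ((nc : ℝ) * A) + ε

/-! ### The new coordinate (L3) -/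

/-- (NEWC) the new coordinate: increment of the free energy from dimension `N` to `N + 1`, bounded
below by the potential `dV` (sphere + `Near` + removal of the new field coordinates). -/
def NEWC : Prop := ∀ (k K L a0 ε : ℝ), 0 < k → 0 < ε → ∃ N0 : ℕ, ∀ N, N0 ≤ N → 0 < N →
  ∀ nc n M : ℕ, 0 < n →
  ∃ δ : ℝ, 0 < δ ∧ ∀ (C : Cfg N) (C1 : Cfg (N + 1)), Near C δ → Near C1 δ → ∀ f : ℝ → ℝ, BL K L f →
  ∀ s : Fin nc → ℝ, (∀ g, |s g| ≤ a0) →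
  ∫ G, (∫ g0, eE (QQ C nc n (M := M) (fun _ => f) G s)
      (Crest.Agent.R141.A (QQ C nc n (M := M) (fun _ => f) G s) (fil C nc n) (xs nc n)
        (dV C nc n k f G g0 s) 0)
      ∂(gv M)) ∂(gam M N) - ε ≤
    PhE C1 nc n (fun _ => f) M s - PhE C nc n (fun _ => f) M s

/-- (TAYC) Taylor expansion of the new coordinate. -/
def TAYC : Prop := ∀ (αm K k L D : ℝ), 0 < k → 0 ≤ L → 0 ≤ D → ∃ Cst : ℝ, 0 ≤ Cst ∧ ∀ ε : ℝ, 0 < ε →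
  ∃ N0 : ℕ, ∀ N, N0 ≤ N → 0 < N → ∀ nc n, 0 < n → ∀ (C : Cfg N) (f f1 f2 : ℝ → ℝ), S3 K f f1 f2 →
  ∀ (M : ℕ) (A : ℝ) (s : Fin nc → ℝ), (M : ℝ) ≤ αm * N → (∀ g, |s g| ≤ A) → (nc : ℝ) * A ≤ 1 →
  ∀ d : ℝ, -D ≤ d → d ≤ 0 →
  ∫ G, (∫ g0, eE (QQ C nc n (M := M) (fun _ => f) G s)
      (Crest.Agent.R141.A (QQ C nc n (M := M) (fun _ => f) G s) (fil C nc n) (xs nc n)
        (fun ω => LamT k d L (∑ a, Wv C nc n f1 G ω a * g0 a)) 0) ∂(gv M)) ∂(gam M N) -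
    Cst * ∫ G, eE (QQ C nc n (M := M) (fun _ => f) G s)
      (fun ω => |RS C nc n f2 (fun _ => 1) G ω ω - RS C nc n f1 (fun x => x) G ω ω - d|) ∂(gam M N) -
    Cst * ((nc : ℝ) * A) - ε ≤
  ∫ G, (∫ g0, eE (QQ C nc n (M := M) (fun _ => f) G s)
      (Crest.Agent.R141.A (QQ C nc n (M := M) (fun _ => f) G s) (fil C nc n) (xs nc n)
        (dV C nc n k f G g0 s) 0) ∂(gv M)) ∂(gam M N)

/-- (COL) the new coordinate gives at least the entropy of the levels. -/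
def COL : Prop := ∀ (αm K ε : ℝ) (f f1 f2 : ℝ → ℝ) (J0 : ℕ), 0 < αm → 0 < ε → S3 K f f1 f2 →
  ∃ J, J0 ≤ J ∧ ∃ ε1 : ℝ, 0 < ε1 ∧ ∀ (wc nc : ℕ), 2 ≤ wc → nc + 1 = (J + 1) * wc →
  ∃ A0 : ℝ, 0 < A0 ∧ ∃ N0 : ℕ, ∀ N, N0 ≤ N → 0 < N → ∀ n, 0 < n → ∀ M : ℕ, (M : ℝ) ≤ αm * N →
  ∃ δ : ℝ, 0 < δ ∧ ∀ (C : Cfg N) (C1 : Cfg (N + 1)), Near C δ → Near C1 δ →
  ∀ (s : Fin nc → ℝ), (∀ g, |s g| ≤ A0) → ∀ τ : ℕ → ℕ, Skel C nc n (fun _ => f) M s J wc τ ε1 →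
  1 / (2 * (1 + αm * K ^ 2)) ≤ 1 - PR C nc n f M s τ J ∧
  SP J (PR C nc n f M s τ) - ε ≤ PhE C1 nc n (fun _ => f) M s - PhE C nc n (fun _ => f) M s

/-! ### The increment -/

/-- (SKADD) a skeleton stays a skeleton when a row is added. -/
def SKADD : Prop := ∀ (K ε : ℝ), 0 < ε → ∃ ε1 : ℝ, 0 < ε1 ∧ ε1 ≤ ε ∧ ∀ (J wc nc N n : ℕ), 0 < N →
  0 < n → ∀ (C : Cfg N) (f : ℕ → ℝ → ℝ) (M : ℕ), (∀ a, Measurable (f a)) → (∀ a x, |f a x| ≤ K) →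
  ∀ (s : Fin nc → ℝ) (τ : ℕ → ℕ), Skel C nc n f M s J wc τ ε1 →
  Skel C nc n f (M + 1) s J wc τ ε ∧
  ∀ b ≤ J, |Rk C nc n f (M + 1) s (τ b) - Rk C nc n f M s (τ b)| ≤ ε

/-- (INCL) increment for good strengths: one new coordinate and `m ≤ m1` new rows. -/
def INCL : Prop := ∀ (αm K ε : ℝ) (f f1 f2 : ℝ → ℝ) (m1 : ℕ), 0 < αm → 0 < ε → S3 K f f1 f2 →
  ∃ J nc : ℕ, ∃ η0 : ℝ, 0 < η0 ∧ ∀ η : ℝ, 0 < η → η ≤ η0 → ∃ δ' : ℝ, 0 < δ' ∧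
  ∃ (N0 : ℕ) (n0 : ℕ → ℕ), ∀ N, N0 ≤ N → 0 < N → ∀ n, n0 N ≤ n → 0 < n → ∀ M : ℕ,
  (M : ℝ) ≤ αm * N → ∃ δ : ℝ, 0 < δ ∧ ∀ (C : Cfg N) (C1 : Cfg (N + 1)), Near C δ → Near C1 δ →
  ∀ (s : Fin nc → ℝ), (∀ g, Real.sqrt η ≤ s g ∧ s g ≤ 2 * Real.sqrt η) →
  (∀ g, Dconc C nc n (fun _ => f) M s g δ') →
  ∃ P : ℕ → ℝ, Lev J P ∧ P J < 1 ∧ ∀ m ≤ m1, m * Th J f P + SP J P - ε ≤
    PhE C1 nc n (fun _ => f) (M + m) s - PhE C nc n (fun _ => f) M s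

/-- (CRUDE) lower bound of the increment for all strengths. -/
def CRUDE : Prop := ∀ (αm K : ℝ), ∃ Cst : ℝ, 0 ≤ Cst ∧ ∃ N0 : ℕ, ∀ N, N0 ≤ N → 0 < N → ∀ nc n M : ℕ,
  0 < n → (M : ℝ) ≤ αm * N → ∀ A : ℝ, (nc : ℝ) * A ≤ 1 →
  ∃ δ : ℝ, 0 < δ ∧ ∀ (C : Cfg N) (C1 : Cfg (N + 1)), Near C δ → Near C1 δ →
  ∀ f f1 f2 : ℝ → ℝ, S3 K f f1 f2 → ∀ s : Fin nc → ℝ, (∀ g, |s g| ≤ A) →
  -Cst ≤ PhE C1 nc n (fun _ => f) M s - PhE C nc n (fun _ => f) M s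

/-- mean of the field observable -/
def mD {N : ℕ} (C : Cfg N) (nc n : ℕ) (f : ℕ → ℝ → ℝ) (M : ℕ) (s : Fin nc → ℝ) (g : Fin nc) : ℝ :=
  ∫ G, eE (QQ C nc n (M := M) f G s) (Dobs C nc n g) ∂(gam M N)

/-- mean absolute deviation of the field observable -/
def aD {N : ℕ} (C : Cfg N) (nc n : ℕ) (f : ℕ → ℝ → ℝ) (M : ℕ) (s : Fin nc → ℝ) (g : Fin nc) : ℝ :=
  ∫ G, eE (QQ C nc n (M := M) f G s) (fun ω => |Dobs C nc n g ω - mD C nc n f M s g|) ∂(gam M N)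

/-- (FCONT) continuity in the strengths. -/
def FCONT : Prop := ∀ (nc N n : ℕ), 0 < N → 0 < n → ∀ (C : Cfg N) (K : ℝ) (f : ℕ → ℝ → ℝ) (M : ℕ),
  (∀ a, Measurable (f a)) → (∀ a x, |f a x| ≤ K) →
  Continuous (fun s : Fin nc → ℝ => PhE C nc n f M s) ∧
  ∀ g : Fin nc, Continuous (fun s : Fin nc → ℝ => aD C nc n f M s g)

/-- (FOBSL) the field observables concentrate for most strengths. -/
def FOBSL : Prop := ∀ (nc : ℕ) (η K αm ε : ℝ), 0 < η → 0 < ε → ∃ (N0 : ℕ) (n0 : ℕ → ℕ),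
  ∀ N, N0 ≤ N → 0 < N → ∀ n, n0 N ≤ n → 0 < n → ∀ (C : Cfg N) (f : ℕ → ℝ → ℝ) (M : ℕ),
  (M : ℝ) ≤ αm * N → (∀ a, Measurable (f a)) → (∀ a x, |f a x| ≤ K) →
  ∫ l in Set.Icc (fun _ : Fin nc => (1 : ℝ)) (fun _ => 2),
    ∑ g, aD C nc n f M (fun g => Real.sqrt η * l g) g ≤ ε

/-- (INC1) the increment, averaged over the strengths and over the number of new rows
(`⌊α⌋` or `⌊α⌋ + 1` with mean `α`). -/
def INC1 : Prop := ∀ (K : ℝ) (f f1 f2 : ℝ → ℝ), S3 K f f1 f2 → ∀ (α ε : ℝ), 0 < α → 0 < ε →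
  ∃ (nc : ℕ) (η : ℝ), 0 < η ∧ (nc : ℝ) * η ≤ ε ∧ ∃ N1 : ℕ, ∀ N, N1 ≤ N → ∃ n0 : ℕ, ∀ n, n0 ≤ n →
  ∃ δ : ℝ, 0 < δ ∧ ∀ (C : Cfg N) (C1 : Cfg (N + 1)), Near C δ → Near C1 δ →
  ∀ M : ℕ, (M : ℝ) ≤ (α + 1) * N → ∃ (J : ℕ) (P : ℕ → ℝ), Lev J P ∧ P J < 1 ∧
    α * Th J f P + SP J P - ε ≤
      (1 - (α - ⌊α⌋₊)) * Lb C1 nc n (fun _ => f) (M + ⌊α⌋₊) η +
        (α - ⌊α⌋₊) * Lb C1 nc n (fun _ => f) (M + ⌊α⌋₊ + 1) η - Lb C nc n (fun _ => f) M η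

/-- (REV) removal of the fields, reverse direction. -/
def REV : Prop := ∀ (nc N n : ℕ), 0 < N → 0 < n → ∀ (C : Cfg N) (K : ℝ) (f : ℕ → ℝ → ℝ) (M : ℕ),
  (∀ a, Measurable (f a)) → (∀ a x, |f a x| ≤ K) → ∀ s : Fin nc → ℝ,
  FN C nc n f M s ≤ pC C f M

end

end Crest.Agent.R146.S6L_988
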