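import Crest.Agent.R146.FobL_998
import Crest.Agent.R146.S6L_988

/-!
Row 146, statement S0206, lower bound: the frozen node `S6L_988.FOBSL` (helper998), from the
finite-difference estimate and the averaged second difference of `FobL_998`.
-/

set_option autoImplicit false

namespace Crest.Agent.R146.Fobs_998

open Finset MeasureTheory ProbabilityTheory Crest.Agent.R141
open Crest.Agent.R146.S6Def_988 Crest.Agent.R146.S6U_988 Crest.Agent.R146.S6L_988
open Crest.Agent.R146.FobL_998

noncomputable section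

variable {N nc n : ℕ} {C : Cfg N}

theorem integrable_eE {M : ℕ} {f : ℕ → ℝ → ℝ} (hf : ∀ a, Measurable (f a)) (s : Fin nc → ℝ)
    (F : Om C nc n → ℝ) :
    Integrable (fun G : Fin M → Fin N → ℝ => eE (QQ C nc n (M := M) f G s) F) (gam M N) := by
  have hP := prior_isProb C nc n
  have hx := (xs_isExpo nc n).pos
  refine WrapA_947.integrable_of_bound _ (C := ∑ ω, |F ω|) ?_ fun G => ?_
  · refine meas_eE (fun ω => ?_) (fun ω => measurable_const)
    unfold QQ
    exact meas_tl hP hx (fun ω => (measurable_UU hf ω).comp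
      (measurable_const.prodMk measurable_id)) ω
  · have hQ : IsProb (QQ C nc n (M := M) f G s) := tl_isProb hP hx _
    have h1 : ∀ ω, |F ω| ≤ ∑ ω, |F ω| := fun ω =>
      Finset.single_le_sum (f := fun ω => |F ω|) (fun _ _ => abs_nonneg _) (mem_univ ω)
    rw [abs_le]
    constructor
    · have := eE_mono (P := QQ C nc n (M := M) f G s) hQ
        (f := fun _ => -∑ ω, |F ω|) (g := F) fun ω => by linarith [(abs_le.1 (h1 ω)).1]
      rwa [eE_const hQ] at this
    · have := eE_mono (P := QQ C nc n (M := M) f G s) hQ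
        (f := F) (g := fun _ => ∑ ω, |F ω|) fun ω => (abs_le.1 (h1 ω)).2
      rwa [eE_const hQ] at this

theorem aD_nonneg (M : ℕ) (f : ℕ → ℝ → ℝ) (s : Fin nc → ℝ) (g : Fin nc) :
    0 ≤ aD C nc n f M s g :=
  integral_nonneg fun _ => eE_nonneg (tl_isProb (prior_isProb C nc n) (xs_isExpo nc n).pos _)
    fun _ => abs_nonneg _

/-- mean absolute deviation around the mean is at most twice the one around any constant -/
theorem aD_le {M : ℕ} {f : ℕ → ℝ → ℝ} (hf : ∀ a, Measurable (f a)) (s : Fin nc → ℝ) (g : Fin nc)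
    (d : ℝ) : aD C nc n f M s g ≤
      2 * ∫ G, eE (QQ C nc n (M := M) f G s) (fun ω => |Dobs C nc n g ω - d|) ∂(gam M N) := by
  have hQ : ∀ G : Fin M → Fin N → ℝ, IsProb (QQ C nc n (M := M) f G s) := fun G =>
    tl_isProb (prior_isProb C nc n) (xs_isExpo nc n).pos _
  set I := ∫ G, eE (QQ C nc n (M := M) f G s) (fun ω => |Dobs C nc n g ω - d|) ∂(gam M N) with hI
  have i1 := integrable_eE (C := C) (n := n) (M := M) hf s (fun ω => |Dobs C nc n g ω - d|)
  have i2 := integrable_eE (C := C) (n := n) (M := M) hf s (Dobs C nc n g)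
  have h1 : |mD C nc n f M s g - d| ≤ I := by
    have e : mD C nc n f M s g - d =
        ∫ G, (eE (QQ C nc n (M := M) f G s) (Dobs C nc n g) - d) ∂(gam M N) := by
      rw [integral_sub i2 (integrable_const _)]
      simp [mD]
    rw [e, hI]
    refine (abs_integral_le_integral_abs).trans ?_
    refine integral_mono (i2.sub (integrable_const _)).abs i1 fun G => ?_
    show |eE (QQ C nc n (M := M) f G s) (Dobs C nc n g) - d| ≤ _
    have e2 : eE (QQ C nc n (M := M) f G s) (Dobs C nc n g) - d =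
        eE (QQ C nc n (M := M) f G s) (fun ω => Dobs C nc n g ω - d) := by
      rw [eE_sub, eE_const (hQ G)]
    have e3 : eE (QQ C nc n (M := M) f G s) (fun ω => -1 * |Dobs C nc n g ω - d|) =
        -1 * eE (QQ C nc n (M := M) f G s) (fun ω => |Dobs C nc n g ω - d|) := eE_smul _ _ _
    rw [e2, abs_le]
    constructor
    · have h5 := eE_mono (P := QQ C nc n (M := M) f G s) (hQ G)
        (f := fun ω => -1 * |Dobs C nc n g ω - d|) (g := fun ω => Dobs C nc n g ω - d)
        fun ω => by have := neg_le_abs (Dobs C nc n g ω - d); linarith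
      rw [e3] at h5
      linarith
    · exact eE_mono (hQ G) fun ω => le_abs_self _
  have h2 : aD C nc n f M s g ≤ ∫ G, (eE (QQ C nc n (M := M) f G s)
      (fun ω => |Dobs C nc n g ω - d|) + |mD C nc n f M s g - d|) ∂(gam M N) := by
    refine integral_mono (integrable_eE hf s _) (i1.add (integrable_const _)) fun G => ?_
    show eE (QQ C nc n (M := M) f G s) (fun ω => |Dobs C nc n g ω - mD C nc n f M s g|) ≤
      eE (QQ C nc n (M := M) f G s) (fun ω => |Dobs C nc n g ω - d|) + |mD C nc n f M s g - d|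
    rw [← eE_const (hQ G) (|mD C nc n f M s g - d|), ← eE_add]
    refine eE_mono (hQ G) fun ω => ?_
    show |Dobs C nc n g ω - mD C nc n f M s g| ≤
      |Dobs C nc n g ω - d| + |mD C nc n f M s g - d|
    have := abs_sub_le (Dobs C nc n g ω) d (mD C nc n f M s g)
    rwa [abs_sub_comm d] at this
  rw [integral_add i1 (integrable_const _)] at h2
  simp only [integral_const, probReal_univ, smul_eq_mul, one_mul] at h2
  linarith

theorem abs_D2_le {f : ℕ → ℝ → ℝ} {K : ℝ} (hf : ∀ a, Measurable (f a))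
    (hK : ∀ a x, |f a x| ≤ K) {M : ℕ} {αm : ℝ} (hN : 0 < N) (hn : 0 < n) (hM : (M : ℝ) ≤ αm * N)
    (b : ℝ) {h : ℝ} (h0 : 0 < h) (h1 : h ≤ 1) (g : Fin nc) (l : Fin nc → ℝ) :
    |D2 C nc n f M b h g (fun g' => cl (l g'))| ≤ 4 * (αm * K + 8 * b ^ 2 * nc) := by
  set B := αm * K + 8 * b ^ 2 * (nc:ℝ) with hB
  have hb : ∀ t : ℝ, |t| ≤ 4 → |Fl C nc n f M b (Function.update (fun g' => cl (l g')) g t)| ≤ B := by
    intro t ht
    refine abs_Fl_le hf hK hN hn hM b _ fun g' => ?_
    by_cases hg : g' = g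
    · subst hg; simpa using ht
    · rw [Function.update_of_ne hg]
      have := cl_mem (l g')
      rw [abs_le]; constructor <;> linarith
  have hc := cl_mem (l g)
  have b1 := abs_le.1 (hb (cl (l g) + h) (by rw [abs_le]; constructor <;> linarith))
  have b2 := abs_le.1 (hb (cl (l g) - h) (by rw [abs_le]; constructor <;> linarith))
  have b3 := abs_le.1 (hb (cl (l g)) (by rw [abs_le]; constructor <;> linarith))
  have e3 : Function.update (fun g' => cl (l g')) g (cl (l g)) = fun g' => cl (l g') :=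
    Function.update_eq_self (f := fun g' => cl (l g')) g
  rw [e3] at b3
  unfold D2
  rw [abs_le]
  constructor <;> linarith [b1.1, b1.2, b2.1, b2.2, b3.1, b3.2]

/-- pointwise bound of the deviation by the second difference -/
theorem aD_le_D2 {M : ℕ} {f : ℕ → ℝ → ℝ} {K αm : ℝ} (hf : ∀ a, Measurable (f a))
    (hK : ∀ a x, |f a x| ≤ K) (hN : 0 < N) (hM : (M : ℝ) ≤ αm * N) {b h : ℝ} (hb : 0 < b)
    (h0 : 0 < h) (l : Fin nc → ℝ) (g : Fin nc) :
    aD C nc n f M (fun g => b * l g) g ≤ 4 / (b * h) * D2 C nc n f M b h g l +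
      2 * (4 * (4 * K ^ 2 * |αm| + 1) + ((nc : ℝ) + 1)) / (b * h * Real.sqrt N) := by
  have hN' : (0:ℝ) < N := by exact_mod_cast hN
  have hs0 : 0 < Real.sqrt N := Real.sqrt_pos.2 hN'
  have hs1 : 1 ≤ Real.sqrt N := by
    rw [Real.one_le_sqrt]; exact_mod_cast hN
  have hss : Real.sqrt N * Real.sqrt N = N := Real.mul_self_sqrt hN'.le
  have hαm : 0 ≤ αm := by
    by_contra hneg
    push Not at hneg
    have : αm * N < 0 := mul_neg_of_neg_of_pos hneg hN'
    linarith [(Nat.cast_nonneg M : (0:ℝ) ≤ M)]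
  obtain ⟨d, hd⟩ := dobs_le (C := C) (nc := nc) (n := n) (M := M) hf hK (fun g => b * l g) g
    (y := b * h) (r := Real.sqrt N) (by positivity) hs0 hN
  refine (aD_le hf _ g d).trans ?_
  have e1 : ph C nc n f M (Function.update (fun g => b * l g) g (b * l g + b * h)) =
      N * Fl C nc n f M b (Function.update l g (l g + h)) := by
    unfold Fl
    rw [upd_smul, mul_add]
    field_simp
  have e2 : ph C nc n f M (Function.update (fun g => b * l g) g (b * l g - b * h)) =
      N * Fl C nc n f M b (Function.update l g (l g - h)) := by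
    unfold Fl
    rw [upd_smul, mul_sub]
    field_simp
  have e3 : ph C nc n f M (fun g => b * l g) = N * Fl C nc n f M b l := by
    unfold Fl
    field_simp
  rw [e1, e2, e3] at hd
  have h1 : 2 * (N * Fl C nc n f M b (Function.update l g (l g + h)) +
      N * Fl C nc n f M b (Function.update l g (l g - h)) - 2 * (N * Fl C nc n f M b l)) =
      2 * N * D2 C nc n f M b h g l := by unfold D2; ring
  rw [h1] at hd
  have h3 : 4 * K ^ 2 * M / Real.sqrt N ≤ 4 * K ^ 2 * |αm| * Real.sqrt N := by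
    rw [div_le_iff₀ hs0]
    have e : 4 * K ^ 2 * |αm| * Real.sqrt N * Real.sqrt N = 4 * K ^ 2 * (αm * N) := by
      rw [mul_assoc (4 * K ^ 2 * |αm|), hss, abs_of_nonneg hαm]; ring
    rw [e]
    exact mul_le_mul_of_nonneg_left hM (by positivity)
  have h4 : Real.log 2 * ((nc : ℝ) + 1) ≤ ((nc : ℝ) + 1) * Real.sqrt N := by
    have := Real.log_two_lt_d9
    have h5 : Real.log 2 ≤ Real.sqrt N := by linarith
    rw [mul_comm]
    exact mul_le_mul_of_nonneg_left h5 (by positivity)
  have h8 : 8 * ((4 * K ^ 2 * M / Real.sqrt N + Real.sqrt N) / 2) + Real.log 2 * ((nc : ℝ) + 1) ≤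
      (4 * (4 * K ^ 2 * |αm| + 1) + ((nc : ℝ) + 1)) * Real.sqrt N := by nlinarith
  have h9 : (2 * N * D2 C nc n f M b h g l + 8 * ((4 * K ^ 2 * M / Real.sqrt N +
      Real.sqrt N) / 2) + Real.log 2 * ((nc : ℝ) + 1)) / (b * h * N) ≤
      (2 * N * D2 C nc n f M b h g l + (4 * (4 * K ^ 2 * |αm| + 1) + ((nc : ℝ) + 1)) *
        Real.sqrt N) / (b * h * N) :=
    div_le_div_of_nonneg_right (by linarith) (by positivity)
  have h10 : (2 * N * D2 C nc n f M b h g l + (4 * (4 * K ^ 2 * |αm| + 1) + ((nc : ℝ) + 1)) *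
        Real.sqrt N) / (b * h * N) = 2 / (b * h) * D2 C nc n f M b h g l +
        (4 * (4 * K ^ 2 * |αm| + 1) + ((nc : ℝ) + 1)) / (b * h * Real.sqrt N) := by
    have : (4 * (4 * K ^ 2 * |αm| + 1) + ((nc : ℝ) + 1)) / (b * h * Real.sqrt N) =
        (4 * (4 * K ^ 2 * |αm| + 1) + ((nc : ℝ) + 1)) * Real.sqrt N / (b * h * N) := by
      rw [div_eq_div_iff (by positivity) (by positivity)]
      have e5 : b * h * (N:ℝ) = b * h * (Real.sqrt N * Real.sqrt N) := by rw [hss]
      rw [e5]; ring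
    rw [this, add_div]
    congr 1
    field_simp
  rw [h10] at h9
  have h11 := hd.trans h9
  have h12 : 2 * (4 * (4 * K ^ 2 * |αm| + 1) + ((nc : ℝ) + 1)) / (b * h * Real.sqrt N) =
      2 * ((4 * (4 * K ^ 2 * |αm| + 1) + ((nc : ℝ) + 1)) / (b * h * Real.sqrt N)) := by ring
  have h13 : 4 / (b * h) * D2 C nc n f M b h g l = 2 * (2 / (b * h) * D2 C nc n f M b h g l) := by
    ring
  rw [h12, h13]
  linarith

/-- explicit bound of the averaged deviation -/
theorem int_aD_le {M : ℕ} {f : ℕ → ℝ → ℝ} {K αm : ℝ} (hf : ∀ a, Measurable (f a))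
    (hK : ∀ a x, |f a x| ≤ K) (hN : 0 < N) (hn : 0 < n) (hM : (M : ℝ) ≤ αm * N) {b h : ℝ}
    (hb : 0 < b) (h0 : 0 < h) (h1 : h ≤ 1) :
    ∫ l in Set.Icc (fun _ : Fin nc => (1 : ℝ)) (fun _ => 2),
      ∑ g, aD C nc n f M (fun g => b * l g) g ≤
    nc * (4 / (b * h) * (4 * (αm * K + 8 * b ^ 2 * nc) * h ^ 2) +
      2 * (4 * (4 * K ^ 2 * |αm| + 1) + ((nc : ℝ) + 1)) / (b * h * Real.sqrt N)) := by
  set R : ℝ := 2 * (4 * (4 * K ^ 2 * |αm| + 1) + ((nc : ℝ) + 1)) / (b * h * Real.sqrt N) with hR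
  have mcl : Measurable fun l : Fin nc → ℝ => fun g' => cl (l g') :=
    measurable_pi_lambda _ fun g' => measurable_cl.comp (measurable_pi_apply g')
  have iD : ∀ g : Fin nc, Integrable (fun l : Fin nc → ℝ =>
      4 / (b * h) * D2 C nc n f M b h g (fun g' => cl (l g')) + R)
      ((volume : Measure (Fin nc → ℝ)).restrict (Set.Icc (fun _ => 1) (fun _ => 2))) := by
    intro g
    rw [← restrict_box]
    refine Integrable.add (Integrable.const_mul ?_ _) (integrable_const _)
    exact WrapA_947.integrable_of_bound _ ((measurable_D2 (C := C) (n := n) hf M b h g).comp mcl)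
      fun l => abs_D2_le hf hK hN hn hM b h0 h1 g l
  have step : ∫ l in Set.Icc (fun _ : Fin nc => (1 : ℝ)) (fun _ => 2),
      ∑ g, aD C nc n f M (fun g => b * l g) g ≤
      ∫ l in Set.Icc (fun _ : Fin nc => (1 : ℝ)) (fun _ => 2),
        ∑ g, (4 / (b * h) * D2 C nc n f M b h g (fun g' => cl (l g')) + R) := by
    refine integral_mono_of_nonneg (Filter.Eventually.of_forall fun l =>
      Finset.sum_nonneg fun g _ => aD_nonneg M f _ g)
      (integrable_finsetSum _ fun g _ => iD g) ?_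
    refine (ae_restrict_iff' measurableSet_Icc).2 (Filter.Eventually.of_forall fun l hl => ?_)
    have e : (fun g' => cl (l g')) = l := by
      funext g'
      exact cl_of_mem ⟨hl.1 g', hl.2 g'⟩
    show ∑ g, aD C nc n f M (fun g => b * l g) g ≤
      ∑ g, (4 / (b * h) * D2 C nc n f M b h g (fun g' => cl (l g')) + R)
    rw [e]
    exact Finset.sum_le_sum fun g _ => aD_le_D2 hf hK hN hM hb h0 l g
  refine step.trans ?_
  rw [integral_finsetSum _ fun g _ => iD g]
  have one : ∀ g : Fin nc, ∫ l in Set.Icc (fun _ : Fin nc => (1 : ℝ)) (fun _ => 2),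
      (4 / (b * h) * D2 C nc n f M b h g (fun g' => cl (l g')) + R) ≤
      4 / (b * h) * (4 * (αm * K + 8 * b ^ 2 * nc) * h ^ 2) + R := by
    intro g
    have i0 : Integrable (fun l : Fin nc → ℝ => D2 C nc n f M b h g (fun g' => cl (l g')))
        (Measure.pi fun _ => u12) :=
      WrapA_947.integrable_of_bound _ ((measurable_D2 (C := C) (n := n) hf M b h g).comp mcl)
        fun l => abs_D2_le hf hK hN hn hM b h0 h1 g l
    rw [← restrict_box, integral_add (i0.const_mul _) (integrable_const _), integral_const_mul]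
    simp only [integral_const, probReal_univ, smul_eq_mul, one_mul]
    have := mul_le_mul_of_nonneg_left
      (integral_D2_le (C := C) (nc := nc) hf hK hN hn hM b h0 h1 g)
      (show 0 ≤ 4 / (b * h) by positivity)
    linarith
  refine (Finset.sum_le_sum fun g _ => one g).trans (le_of_eq ?_)
  rw [Finset.sum_const, Finset.card_univ, Fintype.card_fin, nsmul_eq_mul]

/-- **(FOBSL)** -/
theorem fobsl : FOBSL := by
  intro nc η K αm ε hη hε
  set b : ℝ := Real.sqrt η with hb
  have hb0 : 0 < b := Real.sqrt_pos.2 hη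
  set B : ℝ := |αm| * |K| + 8 * b ^ 2 * nc with hB
  have hB0 : 0 ≤ B := by positivity
  set h : ℝ := min 1 (ε * b / (32 * (B * nc + 1))) with hh
  have hh0 : 0 < h := lt_min one_pos (by positivity)
  have hh1 : h ≤ 1 := min_le_left _ _
  have hh2 : h * (32 * (B * nc + 1)) ≤ ε * b := by
    have := min_le_right (1:ℝ) (ε * b / (32 * (B * nc + 1)))
    rwa [← hh, le_div_iff₀ (by positivity)] at this
  set c1 : ℝ := 4 * (4 * K ^ 2 * |αm| + 1) + ((nc : ℝ) + 1) with hc1
  have hc10 : 0 < c1 := by positivity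
  refine ⟨⌈(4 * c1 * nc / (b * h * ε)) ^ 2⌉₊ + 1, fun _ => 1, fun N hN hN0 n _ hn C f M hM hf hK => ?_⟩
  have hN' : (0:ℝ) < N := by exact_mod_cast hN0
  have hαm : 0 ≤ αm := by
    by_contra hneg
    push Not at hneg
    have : αm * N < 0 := mul_neg_of_neg_of_pos hneg hN'
    linarith [(Nat.cast_nonneg M : (0:ℝ) ≤ M)]
  have hK0 : 0 ≤ K := (abs_nonneg _).trans (hK 0 0)
  have hBe : αm * K + 8 * b ^ 2 * nc = B := by rw [hB, abs_of_nonneg hαm, abs_of_nonneg hK0]
  have hsq : 4 * c1 * nc / (b * h * ε) ≤ Real.sqrt N := by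
    apply Real.le_sqrt_of_sq_le
    have h1 := Nat.le_ceil ((4 * c1 * nc / (b * h * ε)) ^ 2)
    have h2 : ((⌈(4 * c1 * nc / (b * h * ε)) ^ 2⌉₊ : ℕ) : ℝ) ≤ N := by exact_mod_cast (by omega)
    linarith
  have hs0 : 0 < Real.sqrt N := Real.sqrt_pos.2 hN'
  refine (int_aD_le hf hK hN0 hn hM hb0 hh0 hh1).trans ?_
  rw [hBe, ← hc1]
  have t1 : (nc : ℝ) * (4 / (b * h) * (4 * B * h ^ 2)) ≤ ε / 2 := by
    have e : (nc : ℝ) * (4 / (b * h) * (4 * B * h ^ 2)) = 16 * (B * nc) * h / b := by
      field_simp; ring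
    rw [e, div_le_iff₀ hb0]
    nlinarith
  have t2 : (nc : ℝ) * (2 * c1 / (b * h * Real.sqrt N)) ≤ ε / 2 := by
    rw [← mul_div_assoc, div_le_iff₀ (by positivity)]
    rw [div_le_iff₀ (by positivity)] at hsq
    nlinarith
  linarith

end

end Crest.Agent.R146.Fobs_998
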