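import Crest.Agent.R146.S6U_988

/-!
Row 146 (S0206), lower bound: definitions used by the increment Prop `INC1` (helper679, shape of
post 876 by helper988).
-/

set_option autoImplicit false

namespace Crest.Agent.R146.LbDef_679

open Finset MeasureTheory
open Crest.Agent.R146.S6Def_988 Crest.Agent.R146.S6U_988

noncomputable section

/-- the expected hierarchical free energy (not normalised) -/
def PhE {N : ℕ} (C : Cfg N) (nc n : ℕ) (f : ℕ → ℝ → ℝ) (M : ℕ) (s : Fin nc → ℝ) : ℝ :=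
  ∫ G, Phi C nc n (M := M) f G s ∂(gam M N)

/-- the box of the strengths -/
def bx (nc : ℕ) : Set (Fin nc → ℝ) := Set.Icc (fun _ => 1) (fun _ => 2)

/-- the free energy averaged over the strengths `s_g = √η l_g`, `l ∈ [1,2]^nc`. -/
def Lb {N : ℕ} (C : Cfg N) (nc n : ℕ) (f : ℕ → ℝ → ℝ) (M : ℕ) (η : ℝ) : ℝ :=
  ∫ l in bx nc, PhE C nc n f M (fun g => Real.sqrt η * l g)

/-- (INC1) the increment of the averaged free energy: one new coordinate and, in the mean, `α`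
new rows. -/
def INC1 : Prop := ∀ (f : ℝ → ℝ), (∀ n : ℕ, ContDiff ℝ n f) →
  (∀ k : ℕ, ∃ C, ∀ x, |iteratedDeriv k f x| ≤ C) →
  ∀ (α ε : ℝ), 0 < α → 0 < ε → ∃ (nc : ℕ) (η : ℝ), 0 < η ∧ (nc : ℝ) * η ≤ ε ∧
  ∃ N1 : ℕ, ∀ N, N1 ≤ N → ∃ n0 : ℕ, ∀ n, n0 ≤ n → ∃ δ : ℝ, 0 < δ ∧
  ∀ (C : Cfg N) (C1 : Cfg (N + 1)), Near C δ → Near C1 δ →
  ∀ M : ℕ, (M : ℝ) ≤ (α + 1) * N → ∃ (J : ℕ) (P : ℕ → ℝ), Lev J P ∧ P J < 1 ∧
    α * Th J f P + SP J P - ε ≤
      (1 - (α - (Nat.floor α : ℕ))) * Lb C1 nc n (fun _ => f) (M + Nat.floor α) η +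
        (α - (Nat.floor α : ℕ)) * Lb C1 nc n (fun _ => f) (M + Nat.floor α + 1) η -
        Lb C nc n (fun _ => f) M η

end

end Crest.Agent.R146.LbDef_679
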