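import Crest.Agent.R146.S6Cavity_769
import Crest.Agent.R146.MonF_422
import Crest.Agent.R146.LbDef_679

/-!
# R146 (helper947): lower bound of S0206, node (L1) = new rows at a good strength

The skeleton of the system with `M` rows is a skeleton of the systems with `M + j` rows (bounded
tilt), its levels move little, hence every new row gives `Th J f P`, `P = ` levels in the system
with `M` rows.
-/

set_option autoImplicit false

namespace Crest.Agent.R146.LRow_947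

open Finset MeasureTheory ProbabilityTheory Crest.Agent.R141
open Crest.Agent.R146.S6Def_988 Crest.Agent.R146.S6U_988 Crest.Agent.R146.CavInc_769
open Crest.Agent.R146.CavAsm_769 Crest.Agent.R146.LbDef_679

noncomputable section

variable {N : ℕ} {C : Cfg N} {nc n : ℕ}

/-- averaged pair functional of a nonnegative pair observable -/
def pfA (C : Cfg N) (nc n : ℕ) (f : ℕ → ℝ → ℝ) (M : ℕ) (s : Fin nc → ℝ) (k : ℕ)
    (Ψ : Om C nc n → Om C nc n → ℝ) : ℝ :=
  ∫ G, pE (QQ C nc n (M := M) f G s) ((fil C nc n).F k) Ψ ∂(gam M N)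

theorem meas_pE {M : ℕ} {f : ℕ → ℝ → ℝ} (hf : ∀ a, Measurable (f a)) (s : Fin nc → ℝ) (k : ℕ)
    (Ψ : Om C nc n → Om C nc n → ℝ) :
    Measurable fun G : Fin M → Fin N → ℝ => pE (QQ C nc n f G s) ((fil C nc n).F k) Ψ := by
  unfold pE
  refine meas_eE (fun ω => meas_QQ hf s ω) fun ω => ?_
  exact meas_cE (f := fun (_ : Fin M → Fin N → ℝ) b => Ψ ω b)
    (fun ω => meas_QQ hf s ω) (fun _ => measurable_const) _ _

theorem pE_abs_le {Ω : Type} [Fintype Ω] {Q : Ω → ℝ} (hQ : IsProb Q) (r : Setoid Ω)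
    (Ψ : Ω → Ω → ℝ) : |pE Q r Ψ| ≤ pE Q r (fun a b => |Ψ a b|) := by
  unfold pE
  refine (eE_abs_le hQ _).trans (eE_mono hQ fun a => ?_)
  exact cE_abs_le hQ _ a

theorem pE_bdd (Ψ : Om C nc n → Om C nc n → ℝ) : ∃ B : ℝ, ∀ (Q : Om C nc n → ℝ), IsProb Q →
    ∀ r : Setoid (Om C nc n), |pE Q r Ψ| ≤ B := by
  refine ⟨∑ a : Om C nc n, ∑ b : Om C nc n, |Ψ a b|, fun Q hQ r => ?_⟩
  refine (pE_abs_le hQ r Ψ).trans ?_
  unfold pE
  refine eE_le_of_le hQ fun a => ?_
  refine (cE_le_of_le hQ (c := ∑ b : Om C nc n, |Ψ a b|) (fun b => ?_) a).trans ?_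
  · exact Finset.single_le_sum (f := fun b : Om C nc n => |Ψ a b|)
      (fun _ _ => abs_nonneg _) (Finset.mem_univ b)
  · exact Finset.single_le_sum (f := fun a : Om C nc n => ∑ b : Om C nc n, |Ψ a b|)
      (fun _ _ => Finset.sum_nonneg fun _ _ => abs_nonneg _) (Finset.mem_univ a)

theorem integrable_pE {M : ℕ} {f : ℕ → ℝ → ℝ} (hf : ∀ a, Measurable (f a)) (s : Fin nc → ℝ)
    (k : ℕ) (Ψ : Om C nc n → Om C nc n → ℝ) :
    Integrable (fun G : Fin M → Fin N → ℝ => pE (QQ C nc n f G s) ((fil C nc n).F k) Ψ)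
      (gam M N) := by
  obtain ⟨B, hB⟩ := pE_bdd Ψ
  exact Integrable.of_bound (C := B) (meas_pE hf s k Ψ).aestronglyMeasurable
    (ae_of_all _ fun G => by rw [Real.norm_eq_abs]; exact hB _ (QQ_isProb f G s) _)

theorem pfA_nonneg {f : ℕ → ℝ → ℝ} (M : ℕ) (s : Fin nc → ℝ) (k : ℕ)
    {Ψ : Om C nc n → Om C nc n → ℝ} (h : ∀ a b, 0 ≤ Ψ a b) : 0 ≤ pfA C nc n f M s k Ψ :=
  integral_nonneg fun G => S6Trans_944.pE_nonneg (QQ_isProb f G s) h

theorem pfA_mono {f : ℕ → ℝ → ℝ} (hf : ∀ a, Measurable (f a)) (M : ℕ) (s : Fin nc → ℝ) (k : ℕ)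
    {Ψ Ψ' : Om C nc n → Om C nc n → ℝ} (h : ∀ a b, Ψ a b ≤ Ψ' a b) :
    pfA C nc n f M s k Ψ ≤ pfA C nc n f M s k Ψ' :=
  integral_mono (integrable_pE hf s k Ψ) (integrable_pE hf s k Ψ') fun G =>
    S6Trans_944.pE_mono (QQ_isProb f G s) fun a b _ => h a b

theorem pfA_add_const {f : ℕ → ℝ → ℝ} (hf : ∀ a, Measurable (f a)) (M : ℕ) (s : Fin nc → ℝ)
    (k : ℕ) (Ψ : Om C nc n → Om C nc n → ℝ) (c : ℝ) :
    pfA C nc n f M s k (fun a b => Ψ a b + c) = pfA C nc n f M s k Ψ + c := by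
  unfold pfA
  have e : ∀ G : Fin M → Fin N → ℝ, pE (QQ C nc n f G s) ((fil C nc n).F k)
      (fun a b => Ψ a b + c) = pE (QQ C nc n f G s) ((fil C nc n).F k) Ψ + c := by
    intro G
    rw [S6Trans_944.pE_add, S6Trans_944.pE_const (QQ_isProb f G s)]
  simp_rw [e]
  rw [integral_add (integrable_pE hf s k Ψ) (integrable_const _)]
  simp

/-- one more row multiplies the averaged pair functional by at most `e^{4K}`. -/
theorem pfA_succ_le {K : ℝ} {f : ℕ → ℝ → ℝ} (hf : ∀ a, Measurable (f a))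
    (hK : ∀ a x, |f a x| ≤ K) (M : ℕ) (s : Fin nc → ℝ) (k : ℕ)
    {Ψ : Om C nc n → Om C nc n → ℝ} (h : ∀ a b, 0 ≤ Ψ a b) :
    pfA C nc n f (M + 1) s k Ψ ≤ Real.exp (4 * K) * pfA C nc n f M s k Ψ := by
  unfold pfA
  have hi := integrable_pE (C := C) (n := n) (M := M + 1) hf s k Ψ
  rw [integral_gam_succ hi, ← integral_const_mul]
  have hi2 := integrable_gam_succ hi
  refine integral_mono hi2.integral_prod_left ((integrable_pE hf s k Ψ).const_mul _) fun G => ?_
  have h1 : ∀ g : Fin N → ℝ, pE (QQ C nc n f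
      (Fin.snoc (α := fun _ => Fin N → ℝ) G g : Fin (M + 1) → Fin N → ℝ) s)
      ((fil C nc n).F k) Ψ ≤ Real.exp (4 * K) * pE (QQ C nc n f G s) ((fil C nc n).F k) Ψ := by
    intro g
    rw [QQ_snoc]
    exact S6Trans_944.pE_tl_le (QQ_isProb f G s) (xs_expo nc n) (fun ω => hK _ _) h k
  have h2 : Measurable fun g : Fin N → ℝ => pE (QQ C nc n f
      (Fin.snoc (α := fun _ => Fin N → ℝ) G g : Fin (M + 1) → Fin N → ℝ) s)
      ((fil C nc n).F k) Ψ := by
    refine (meas_pE hf s k Ψ).comp ?_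
    rw [measurable_pi_iff]
    intro a
    refine Fin.lastCases ?_ (fun b => ?_) a
    · simpa using measurable_id'
    · simp
  obtain ⟨B, hB⟩ := pE_bdd Ψ
  have h3 : Integrable (fun g : Fin N → ℝ => pE (QQ C nc n f
      (Fin.snoc (α := fun _ => Fin N → ℝ) G g : Fin (M + 1) → Fin N → ℝ) s)
      ((fil C nc n).F k) Ψ) (Measure.pi fun _ : Fin N => gaussianReal 0 1) :=
    Integrable.of_bound (C := B) h2.aestronglyMeasurable
      (ae_of_all _ fun g => by rw [Real.norm_eq_abs]; exact hB _ (QQ_isProb f _ s) _)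
  calc _ ≤ ∫ _g : Fin N → ℝ, Real.exp (4 * K) * pE (QQ C nc n f G s) ((fil C nc n).F k) Ψ
        ∂(Measure.pi fun _ : Fin N => gaussianReal 0 1) :=
        integral_mono h3 (integrable_const _) h1
    _ = _ := by simp

/-- `m` more rows. -/
theorem pfA_add_le {K : ℝ} {f : ℕ → ℝ → ℝ} (hf : ∀ a, Measurable (f a))
    (hK : ∀ a x, |f a x| ≤ K) (M m : ℕ) (s : Fin nc → ℝ) (k : ℕ)
    {Ψ : Om C nc n → Om C nc n → ℝ} (h : ∀ a b, 0 ≤ Ψ a b) :
    pfA C nc n f (M + m) s k Ψ ≤ Real.exp (4 * K * m) * pfA C nc n f M s k Ψ := by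
  induction m with
  | zero => simp
  | succ m ih =>
    refine (pfA_succ_le hf hK (M + m) s k h).trans ?_
    refine (mul_le_mul_of_nonneg_left ih (Real.exp_pos _).le).trans (le_of_eq ?_)
    rw [← mul_assoc, ← Real.exp_add]
    congr 2
    push_cast; ring

/-- the level is the mean overlap of a pair. -/
theorem Rk_eq_pfA (f : ℕ → ℝ → ℝ) (M : ℕ) (s : Fin nc → ℝ) (k : ℕ) :
    Rk C nc n f M s k = pfA C nc n f M s k (ovl C nc n) := by
  rw [Rk_eq]
  unfold pfA
  refine integral_congr_ae (ae_of_all _ fun G => ?_)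
  show rk C nc n f G s k = pE _ _ _
  have hQ := QQ_isProb (C := C) (n := n) f G s
  unfold rk pE
  have e : ∀ ω, ∑ i, (cE (QQ C nc n f G s) ((fil C nc n).F k) (fun a => xn C nc n a i) ω) ^ 2 =
      cE (QQ C nc n f G s) ((fil C nc n).F k) (fun a => cE (QQ C nc n f G s) ((fil C nc n).F k)
        (fun b => S6Trans_944.ov (xn C nc n) a b) a) ω := fun ω =>
    (S6Trans_944.cE_cE_ov (xn C nc n) ω).symm
  simp_rw [e]
  rw [eE_cE hQ]
  congr 1
  funext a
  congr 1
  funext b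
  exact (ovl_eq a b).symm

/-- the level is close to every constant to which the overlap is close. -/
theorem Rk_sub_le {f : ℕ → ℝ → ℝ} (hf : ∀ a, Measurable (f a)) (M : ℕ) (s : Fin nc → ℝ)
    (k : ℕ) (c : ℝ) :
    |Rk C nc n f M s k - c| ≤ pfA C nc n f M s k (fun a b => |ovl C nc n a b - c|) := by
  rw [Rk_eq_pfA]
  have h1 := pfA_mono (C := C) (n := n) hf M s k
    (Ψ := ovl C nc n) (Ψ' := fun a b => |ovl C nc n a b - c| + c)
    (fun a b => by linarith [le_abs_self (ovl C nc n a b - c)])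
  have h2 := pfA_mono (C := C) (n := n) hf M s k
    (Ψ := fun _ _ => c) (Ψ' := fun a b => |ovl C nc n a b - c| + ovl C nc n a b)
    (fun a b => by linarith [neg_abs_le (ovl C nc n a b - c)])
  rw [pfA_add_const hf] at h1
  have h3 : pfA C nc n f M s k (fun _ _ => c) = c := by
    unfold pfA
    have e : ∀ G : Fin M → Fin N → ℝ, pE (QQ C nc n f G s) ((fil C nc n).F k)
        (fun _ _ => c) = c := fun G => S6Trans_944.pE_const (QQ_isProb f G s) c
    simp_rw [e]; simp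
  have h4 : pfA C nc n f M s k (fun a b => |ovl C nc n a b - c| + ovl C nc n a b) =
      pfA C nc n f M s k (fun a b => |ovl C nc n a b - c|) + pfA C nc n f M s k (ovl C nc n) := by
    unfold pfA
    have e : ∀ G : Fin M → Fin N → ℝ, pE (QQ C nc n f G s) ((fil C nc n).F k)
        (fun a b => |ovl C nc n a b - c| + ovl C nc n a b) =
        pE (QQ C nc n f G s) ((fil C nc n).F k) (fun a b => |ovl C nc n a b - c|) +
        pE (QQ C nc n f G s) ((fil C nc n).F k) (ovl C nc n) := fun G =>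
      S6Trans_944.pE_add _ _
    simp_rw [e]
    exact integral_add (integrable_pE hf s k _) (integrable_pE hf s k _)
  rw [h3, h4] at h2
  rw [abs_le]
  constructor <;> linarith

/-- **transfer of the skeleton** to the systems with `m` more rows. -/
theorem skel_add {K : ℝ} {f : ℕ → ℝ → ℝ} (hf : ∀ a, Measurable (f a))
    (hK : ∀ a x, |f a x| ≤ K) {M : ℕ} {s : Fin nc → ℝ} {J wc : ℕ} {τ : ℕ → ℕ} {ε : ℝ}
    (h : Skel C nc n f M s J wc τ ε) (m : ℕ) :
    (∀ b ≤ J, pfA C nc n f (M + m) s (τ b)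
      (fun a c => |ovl C nc n a c - Rk C nc n f M s (τ b)|) ≤ Real.exp (4 * K * m) * ε) ∧
    (∀ b ≤ J, |Rk C nc n f (M + m) s (τ b) - Rk C nc n f M s (τ b)| ≤
      Real.exp (4 * K * m) * ε) ∧
    Skel C nc n f (M + m) s J wc τ (2 * (Real.exp (4 * K * m) * ε)) := by
  have h1 : ∀ b ≤ J, pfA C nc n f (M + m) s (τ b)
      (fun a c => |ovl C nc n a c - Rk C nc n f M s (τ b)|) ≤ Real.exp (4 * K * m) * ε := by
    intro b hb
    refine (pfA_add_le hf hK M m s (τ b) (fun _ _ => abs_nonneg _)).trans ?_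
    exact mul_le_mul_of_nonneg_left (h.pair b hb) (Real.exp_pos _).le
  have h2 : ∀ b ≤ J, |Rk C nc n f (M + m) s (τ b) - Rk C nc n f M s (τ b)| ≤
      Real.exp (4 * K * m) * ε := fun b hb => (Rk_sub_le hf _ _ _ _).trans (h1 b hb)
  refine ⟨h1, h2, h.blk, fun b hb => ?_⟩
  have h3 := pfA_mono (C := C) (n := n) hf (M + m) s (τ b)
    (Ψ := fun a c => |ovl C nc n a c - Rk C nc n f (M + m) s (τ b)|)
    (Ψ' := fun a c => |ovl C nc n a c - Rk C nc n f M s (τ b)| +
      |Rk C nc n f (M + m) s (τ b) - Rk C nc n f M s (τ b)|)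
    (fun a c => by
      have := abs_sub (ovl C nc n a c - Rk C nc n f M s (τ b))
        (Rk C nc n f (M + m) s (τ b) - Rk C nc n f M s (τ b))
      have e : ovl C nc n a c - Rk C nc n f M s (τ b) -
        (Rk C nc n f (M + m) s (τ b) - Rk C nc n f M s (τ b)) =
        ovl C nc n a c - Rk C nc n f (M + m) s (τ b) := by ring
      rw [e] at this
      exact this)
  rw [pfA_add_const hf] at h3
  have h4 : pfA C nc n f (M + m) s (τ b)
      (fun a c => |ovl C nc n a c - Rk C nc n f (M + m) s (τ b)|) ≤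
      2 * (Real.exp (4 * K * m) * ε) := by
    linarith [h1 b hb, h2 b hb]
  exact h4

theorem BL.meas {K L : ℝ} {h : ℝ → ℝ} (hf : BL K L h) : Measurable h := by
  have hL : LipschitzWith (Real.toNNReal (max L 0)) h := LipschitzWith.of_dist_le_mul
    fun x y => by
      rw [Real.dist_eq, Real.dist_eq, Real.coe_toNNReal _ (le_max_right _ _)]
      exact (hf.lip x y).trans (mul_le_mul_of_nonneg_right (le_max_left _ _) (abs_nonneg _))
  exact hL.continuous.measurable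

/-- **(L1)** every one of `m` new rows at a skeleton of the system without them. -/
theorem row_inc (J m : ℕ) (K L ε : ℝ) (hε : 0 < ε) : ∃ ε1 : ℝ, 0 < ε1 ∧
    ∀ (wc nc : ℕ), 2 ≤ wc → nc + 1 = (J + 1) * wc → ∀ (N n : ℕ), 0 < N → 0 < n →
    ∀ (C : Cfg N) (f : ℕ → ℝ → ℝ) (M : ℕ), (∀ a, BL K L (f a)) → ∀ s : Fin nc → ℝ,
    ∀ τ : ℕ → ℕ, Skel C nc n f M s J wc τ ε1 → ∀ j < m,
    |(N : ℝ) * (FN C nc n f (M + j + 1) s - FN C nc n f (M + j) s) -
      Th J (f (M + j)) (fun b => Rk C nc n f M s (τ b))| ≤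
      60 * K ^ 2 * Real.exp (4 * K) / ((J : ℝ) + 1) + ε := by
  obtain ⟨ε0, hε0, hcav⟩ := S6Cavity_769.cav J K L (ε / 2) (half_pos hε)
  set E : ℝ := Real.exp (4 * |K| * m) with hE
  have hE0 : 0 < E := Real.exp_pos _
  refine ⟨min (ε0 / (2 * E)) (ε / 2 / ((L ^ 2 + 1) * E)), by positivity, ?_⟩
  intro wc nc hwc hnc N n hN hn C f M hf s τ hsk j hj
  have hK0 : 0 ≤ K := (abs_nonneg _).trans ((hf 0).bd 0)
  have hfm : ∀ a, Measurable (f a) := fun a => BL.meas (hf a)
  have hK : ∀ a x, |f a x| ≤ K := fun a => (hf a).bd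
  set ε1 : ℝ := min (ε0 / (2 * E)) (ε / 2 / ((L ^ 2 + 1) * E)) with hε1
  have hε1pos : 0 < ε1 := by rw [hε1]; positivity
  have hexp : Real.exp (4 * K * ((j + 1 : ℕ) : ℝ)) ≤ E := by
    rw [hE]
    apply Real.exp_le_exp.2
    rw [abs_of_nonneg hK0]
    have : ((j + 1 : ℕ) : ℝ) ≤ m := by exact_mod_cast hj
    exact mul_le_mul_of_nonneg_left this (by positivity)
  obtain ⟨-, h2, h3⟩ := skel_add hfm hK hsk (j + 1)
  have h4 : Skel C nc n f (M + j + 1) s J wc τ ε0 := by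
    refine ⟨h3.blk, fun b hb => (h3.pair b hb).trans ?_⟩
    calc 2 * (Real.exp (4 * K * ((j + 1 : ℕ) : ℝ)) * ε1) ≤ 2 * (E * (ε0 / (2 * E))) := by
          gcongr
          exact min_le_left _ _
      _ = ε0 := by field_simp
  have h5 := hcav wc nc hwc hnc N n hN hn C f (M + j) hf s τ h4
  have hτ := tau_mono (n := n) (J := J) (wc := wc) (by omega) hsk.blk
  have h6 := MonF_422.lip J K L (f (M + j)) (hf (M + j))
    (fun b => Rk C nc n f (M + j + 1) s (τ b)) (fun b => Rk C nc n f M s (τ b))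
    (lev_Rk hN hfm (M + j + 1) s hτ) (lev_Rk hN hfm M s hτ)
  have h7 : L ^ 2 / ((J : ℝ) + 1) * ∑ b ∈ range (J + 1),
      |Rk C nc n f (M + j + 1) s (τ b) - Rk C nc n f M s (τ b)| ≤ ε / 2 := by
    have h8 : ∑ b ∈ range (J + 1),
        |Rk C nc n f (M + j + 1) s (τ b) - Rk C nc n f M s (τ b)| ≤
        ((J : ℝ) + 1) * (E * ε1) := by
      calc _ ≤ ∑ _b ∈ range (J + 1), E * ε1 := by
            refine Finset.sum_le_sum fun b hb => ?_
            have hb' : b ≤ J := by have := Finset.mem_range.1 hb; omega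
            exact (h2 b hb').trans (mul_le_mul_of_nonneg_right hexp hε1pos.le)
        _ = _ := by rw [Finset.sum_const, Finset.card_range, nsmul_eq_mul]; push_cast; ring
    calc L ^ 2 / ((J : ℝ) + 1) * ∑ b ∈ range (J + 1),
          |Rk C nc n f (M + j + 1) s (τ b) - Rk C nc n f M s (τ b)|
        ≤ L ^ 2 / ((J : ℝ) + 1) * (((J : ℝ) + 1) * (E * ε1)) := by gcongr
      _ = L ^ 2 * E * ε1 := by field_simp
      _ ≤ (L ^ 2 + 1) * E * (ε / 2 / ((L ^ 2 + 1) * E)) := by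
          gcongr
          · linarith
          · exact min_le_right _ _
      _ = ε / 2 := by field_simp
  have h9 := abs_add_le ((N : ℝ) * (FN C nc n f (M + j + 1) s - FN C nc n f (M + j) s) -
    Th J (f (M + j)) (fun b => Rk C nc n f (M + j + 1) s (τ b)))
    (Th J (f (M + j)) (fun b => Rk C nc n f (M + j + 1) s (τ b)) -
      Th J (f (M + j)) (fun b => Rk C nc n f M s (τ b)))
  rw [sub_add_sub_cancel] at h9
  linarith

/-- the relation between `FN` and `PhE`. -/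
theorem PhE_sub (hN : 0 < N) (f : ℕ → ℝ → ℝ) (M M' : ℕ) (s : Fin nc → ℝ) :
    PhE C nc n f M' s - PhE C nc n f M s = (N : ℝ) * (FN C nc n f M' s - FN C nc n f M s) := by
  have hN' : (N : ℝ) ≠ 0 := by positivity
  unfold PhE FN
  field_simp
  ring

/-- **(L1), summed**: `m` new rows of the same function. -/
theorem rows_inc (J m : ℕ) (K L ε : ℝ) (hε : 0 < ε) : ∃ ε1 : ℝ, 0 < ε1 ∧
    ∀ (wc nc : ℕ), 2 ≤ wc → nc + 1 = (J + 1) * wc → ∀ (N n : ℕ), 0 < N → 0 < n →
    ∀ (C : Cfg N) (f : ℝ → ℝ) (M : ℕ), BL K L f → ∀ s : Fin nc → ℝ,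
    ∀ τ : ℕ → ℕ, Skel C nc n (fun _ => f) M s J wc τ ε1 → ∀ j ≤ m,
    |PhE C nc n (fun _ => f) (M + j) s - PhE C nc n (fun _ => f) M s -
      j * Th J f (fun b => Rk C nc n (fun _ => f) M s (τ b))| ≤
      j * (60 * K ^ 2 * Real.exp (4 * K) / ((J : ℝ) + 1) + ε) := by
  obtain ⟨ε1, hε1, h⟩ := row_inc J m K L ε hε
  refine ⟨ε1, hε1, ?_⟩
  intro wc nc hwc hnc N n hN hn C f M hf s τ hsk j hj
  induction j with
  | zero => simp
  | succ j ih =>
    have h1 := ih (by omega)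
    have h2 := h wc nc hwc hnc N n hN hn C (fun _ => f) M (fun _ => hf) s τ hsk j (by omega)
    rw [← PhE_sub hN] at h2
    set T := Th J f (fun b => Rk C nc n (fun _ => f) M s (τ b)) with hT
    set e := 60 * K ^ 2 * Real.exp (4 * K) / ((J : ℝ) + 1) + ε with he
    have h3 := abs_add_le (PhE C nc n (fun _ => f) (M + j) s - PhE C nc n (fun _ => f) M s -
      j * T) (PhE C nc n (fun _ => f) (M + j + 1) s - PhE C nc n (fun _ => f) (M + j) s - T)
    have e1 : PhE C nc n (fun _ => f) (M + j) s - PhE C nc n (fun _ => f) M s - j * T +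
        (PhE C nc n (fun _ => f) (M + j + 1) s - PhE C nc n (fun _ => f) (M + j) s - T) =
        PhE C nc n (fun _ => f) (M + (j + 1)) s - PhE C nc n (fun _ => f) M s -
          ((j + 1 : ℕ) : ℝ) * T := by
      rw [← add_assoc]; push_cast; ring
    rw [e1] at h3
    push_cast at h3 ⊢
    linarith

end

end Crest.Agent.R146.LRow_947
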