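import Crest.Agent.R146.S6L_988
import Crest.Agent.R146.DerJen_52

/-!
Row 146, statement S0206: node `S6L_988.FCONT` (helper627): continuity of the averaged
hierarchical free energy and of the mean absolute deviation of the field observables in the
strengths of the fields.
-/

set_option autoImplicit false

namespace Crest.Agent.R146.S6Fcont_627

open Finset MeasureTheory ProbabilityTheory Crest.Agent.R141
open Crest.Agent.R146.S6Def_988
open Crest.Agent.R146.SysA_52
open Crest.Agent.R146.DerJen_52

noncomputable section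

/-! ### Continuity in a parameter -/

section cont

variable {Θ : Type*} [TopologicalSpace Θ] {Ω : Type*} [Fintype Ω]

theorem cont_A {P : Ω → ℝ} (hP : IsProb P) {𝓕 : Filt Ω} {x : ℕ → ℝ} (hx : ∀ k, 0 < x k)
    {U : Θ → Ω → ℝ} (hU : ∀ ω, Continuous fun θ => U θ ω) (k : ℕ) :
    ∀ ω, Continuous fun θ => A P 𝓕 x (U θ) k ω := by
  induction k using back_induction 𝓕 with
  | h0 k hk =>
    intro ω
    simp only [A_of_ge _ hk]
    exact hU ω
  | h1 k ih =>
    intro ω
    have h : (fun θ => A P 𝓕 x (U θ) k ω) =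
        fun θ => pm P (𝓕.F k) (x (k + 1)) (A P 𝓕 x (U θ) (k + 1)) ω := by
      funext θ
      rw [A_step hP hx (U θ) k]
    rw [h]
    unfold pm
    have h2 : Continuous fun θ => cE P (𝓕.F k)
        (fun w => Real.exp (x (k + 1) * A P 𝓕 x (U θ) (k + 1) w)) ω := by
      unfold cE
      refine Continuous.div_const (continuous_finsetSum _ fun a _ => ?_) _
      exact continuous_const.mul (Real.continuous_exp.comp (continuous_const.mul (ih a)))
    exact continuous_const.mul (h2.log fun θ => (cE_pos hP (fun _ => Real.exp_pos _) ω).ne')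

theorem cont_tl {P : Ω → ℝ} (hP : IsProb P) {𝓕 : Filt Ω} {x : ℕ → ℝ} (hx : ∀ k, 0 < x k)
    {U : Θ → Ω → ℝ} (hU : ∀ ω, Continuous fun θ => U θ ω) (ω : Ω) :
    Continuous fun θ => tl P 𝓕 x (U θ) ω := by
  unfold tl S
  refine continuous_const.mul (Real.continuous_exp.comp ?_)
  exact continuous_finsetSum _ fun l _ =>
    continuous_const.mul ((cont_A hP hx hU _ ω).sub (cont_A hP hx hU _ ω))

end cont

variable {N : ℕ} {C : Cfg N} {nc n : ℕ} {M : ℕ} {f : ℕ → ℝ → ℝ} {K : ℝ}

theorem cont_UU (G : Fin M → Fin N → ℝ) (ω : Om C nc n) :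
    Continuous fun s : Fin nc → ℝ => UU f G s ω := by
  unfold UU fieldE
  refine continuous_const.add (continuous_finsetSum _ fun g _ => ?_)
  exact (continuous_apply g).mul continuous_const

theorem cont_QQ (G : Fin M → Fin N → ℝ) (ω : Om C nc n) :
    Continuous fun s : Fin nc → ℝ => QQ C nc n f G s ω :=
  cont_tl (prior_isProb C nc n) (xs_pos nc n) (fun ω => cont_UU G ω) ω

/-- expectation under the tilted law of a jointly continuous function -/
theorem cont_eE (G : Fin M → Fin N → ℝ) {h : (Fin nc → ℝ) → Om C nc n → ℝ}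
    (hh : ∀ ω, Continuous fun s => h s ω) :
    Continuous fun s : Fin nc → ℝ => eE (QQ C nc n f G s) (h s) := by
  unfold eE
  exact continuous_finsetSum _ fun ω _ => (cont_QQ G ω).mul (hh ω)

/-- the averaged expectation of a jointly continuous bounded function -/
theorem cont_int (hf : ∀ a, Measurable (f a)) {h : (Fin nc → ℝ) → Om C nc n → ℝ}
    (hh : ∀ ω, Continuous fun s => h s ω) {B : ℝ} (hB : ∀ s ω, |h s ω| ≤ B) :
    Continuous fun s : Fin nc → ℝ => ∫ G, eE (QQ C nc n (M := M) f G s) (h s) ∂(gam M N) := by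
  refine continuous_of_dominated (bound := fun _ => B) (fun s => ?_) (fun s => ?_)
    (integrable_const _) ?_
  · exact (measurable_eE_QQ hf s (h s)).aestronglyMeasurable
  · refine Filter.Eventually.of_forall fun G => ?_
    rw [Real.norm_eq_abs]
    exact Crest.Agent.R164.Rot.eE_abs_le (QQ_isProb G s) (hB s)
  · exact Filter.Eventually.of_forall fun G => cont_eE G hh

theorem cont_mD (hf : ∀ a, Measurable (f a)) (g : Fin nc) :
    Continuous fun s : Fin nc → ℝ => S6L_988.mD C nc n f M s g := by
  unfold S6L_988.mD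
  exact cont_int hf (h := fun _ => Dobs C nc n g) (fun _ => continuous_const)
    (fun _ ω => Dobs_abs_le g ω)

theorem mD_abs_le (s : Fin nc → ℝ) (g : Fin nc) :
    |S6L_988.mD C nc n f M s g| ≤ Real.sqrt n := by
  unfold S6L_988.mD
  have h := norm_integral_le_of_norm_le_const (μ := gam M N)
    (f := fun G => eE (QQ C nc n (M := M) f G s) (Dobs C nc n g)) (C := Real.sqrt n)
    (Filter.Eventually.of_forall fun G => by
      rw [Real.norm_eq_abs]
      exact Crest.Agent.R164.Rot.eE_abs_le (QQ_isProb G s) fun ω => Dobs_abs_le g ω)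
  simpa using h

theorem cont_aD (hf : ∀ a, Measurable (f a)) (g : Fin nc) :
    Continuous fun s : Fin nc → ℝ => S6L_988.aD C nc n f M s g := by
  unfold S6L_988.aD
  refine cont_int hf (h := fun s ω => |Dobs C nc n g ω - S6L_988.mD C nc n f M s g|)
    (B := Real.sqrt n + Real.sqrt n)
    (fun ω => (continuous_const.sub (cont_mD hf g)).abs) fun s ω => ?_
  rw [abs_abs]
  exact (abs_sub _ _).trans (add_le_add (Dobs_abs_le g ω) (mD_abs_le s g))

theorem PhE_eq (hN : 0 < N) (s : Fin nc → ℝ) :
    S6L_988.PhE C nc n f M s = N * (FN C nc n f M s + 1 / 2 * ∑ g, s g ^ 2) :=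
  FN_mul hN s

theorem cont_PhE (hN : 0 < N) (hf : ∀ a, Measurable (f a)) (hK : ∀ a x, |f a x| ≤ K) :
    Continuous fun s : Fin nc → ℝ => S6L_988.PhE C nc n f M s := by
  simp only [PhE_eq hN]
  refine continuous_const.mul ((continuous_FN hf hK).add ?_)
  fun_prop

/-- **(FCONT)** -/
theorem fcont : S6L_988.FCONT := by
  intro nc N n hN _hn C K f M hf hK
  exact ⟨cont_PhE hN hf hK, fun g => cont_aD hf g⟩

end

end Crest.Agent.R146.S6Fcont_627
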