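import Crest.Agent.R146.NewcD_857

/-!
# Row 146 (helper857), node NEWC, part E: conclusion
-/

set_option autoImplicit false

namespace Crest.Agent.R146.Newc857

open Finset MeasureTheory ProbabilityTheory
open Crest.Agent.R141 (A tl eE cE IsProb Filt A_meas A_mono A_abs_le A_cocycle A_add_const
  cE_of_meas tl_isProb)
open Crest.Agent.R146.S6Def_988 Crest.Agent.R146.SysA_52 Crest.Agent.R146.S6L_988
open Crest.Agent.R146.NewF857 (npt sc newc_fin)

noncomputable section

variable {N nc n M : ℕ}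

/-! ### law of the rows -/

instance gv_prob (M : ℕ) : IsProbabilityMeasure (gv M) := by unfold gv; infer_instance

theorem mp_split (M N : ℕ) :
    MeasurePreserving (fun G1 : Fin M → Fin (N + 1) → ℝ => (gOld G1, gNew G1))
      (gam M (N + 1)) ((gam M N).prod (gv M)) := by
  have h1 : MeasurePreserving (fun (G1 : Fin M → Fin (N + 1) → ℝ) (a : Fin M) =>
      (MeasurableEquiv.piFinSuccAbove (fun _ : Fin (N + 1) => ℝ) (Fin.last N)) (G1 a))
      (gam M (N + 1))
      (Measure.pi fun _ : Fin M => (gaussianReal 0 1).prod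
        (Measure.pi fun _ : Fin N => gaussianReal 0 1)) :=
    measurePreserving_pi (fun _ : Fin M => Measure.pi fun _ : Fin (N + 1) => gaussianReal 0 1)
      (fun _ : Fin M => (gaussianReal 0 1).prod (Measure.pi fun _ : Fin N => gaussianReal 0 1))
      (fun _ => measurePreserving_piFinSuccAbove (fun _ : Fin (N + 1) => gaussianReal 0 1)
        (Fin.last N))
  have h2 := measurePreserving_arrowProdEquivProdArrow ℝ (Fin N → ℝ) (Fin M)
    (fun _ => gaussianReal 0 1) (fun _ => Measure.pi fun _ : Fin N => gaussianReal 0 1)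
  have h3 : MeasurePreserving (Prod.swap : (Fin M → ℝ) × (Fin M → Fin N → ℝ) → _)
      ((gv M).prod (gam M N)) ((gam M N).prod (gv M)) := Measure.measurePreserving_swap
  have h4 := h3.comp (h2.comp h1)
  have e : (fun G1 : Fin M → Fin (N + 1) → ℝ => (gOld G1, gNew G1)) =
      Prod.swap ∘ (MeasurableEquiv.arrowProdEquivProdArrow ℝ (Fin N → ℝ) (Fin M)) ∘
        (fun (G1 : Fin M → Fin (N + 1) → ℝ) (a : Fin M) =>
          (MeasurableEquiv.piFinSuccAbove (fun _ : Fin (N + 1) => ℝ) (Fin.last N)) (G1 a)) := by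
    funext G1
    refine Prod.ext ?_ ?_
    · funext a i
      show G1 a i.castSucc = G1 a ((Fin.last N).succAbove i)
      rw [Fin.succAbove_last_apply]
    · funext a
      rfl
  rw [e]
  exact h4

/-! ### the value of the potential -/

/-- the value of the potential `dV` in the tilted system -/
def VV (C : Cfg N) (nc n : ℕ) (k : ℝ) (f : ℝ → ℝ) (s : Fin nc → ℝ) (G : Fin M → Fin N → ℝ)
    (g0 : Fin M → ℝ) : ℝ :=
  eE (QQ C nc n (M := M) (fun _ => f) G s)
    (A (QQ C nc n (M := M) (fun _ => f) G s) (fil C nc n) (xs nc n) (dV C nc n k f G g0 s) 0)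

theorem VV_eq (C : Cfg N) (k : ℝ) (f : ℝ → ℝ) (s : Fin nc → ℝ) (G : Fin M → Fin N → ℝ)
    (g0 : Fin M → ℝ) (ω : Om C nc n) :
    VV C nc n k f s G g0 = A (S6Def_988.prior C nc n) (fil C nc n) (xs nc n)
      (fun w => UU (fun _ => f) G s w + dV C nc n k f G g0 s w) 0 ω -
        Phi C nc n (fun _ => f) G s := by
  rw [A_cocycle (prior_isProb C nc n) (xs_pos nc n), ← Phi_eq]
  unfold VV
  rw [Crest.Agent.R164.ObsConc.eE_eq_cE_top (fil_zero C nc n) (QQ_isProb G s) _ ω,
    cE_of_meas (QQ_isProb G s) (A_meas (QQ_isProb G s) (xs_pos nc n) _ 0)]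
  unfold QQ
  ring

theorem measurable_VV (C : Cfg N) (nc n : ℕ) (k : ℝ) {K L : ℝ} {f : ℝ → ℝ} (hf : BL K L f)
    (s : Fin nc → ℝ) :
    Measurable fun p : (Fin M → Fin N → ℝ) × (Fin M → ℝ) => VV C nc n k f s p.1 p.2 := by
  have hfm : Measurable f := PLim857.measurable_BL hf
  obtain ⟨ω⟩ : Nonempty (Om C nc n) := inferInstance
  have e : (fun p : (Fin M → Fin N → ℝ) × (Fin M → ℝ) => VV C nc n k f s p.1 p.2) =
      fun p => A (S6Def_988.prior C nc n) (fil C nc n) (xs nc n)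
        (fun w => UU (fun _ => f) p.1 s w + dV C nc n k f p.1 p.2 s w) 0 ω -
          Phi C nc n (fun _ => f) p.1 s := by
    funext p
    exact VV_eq C k f s p.1 p.2 ω
  rw [e]
  refine Measurable.sub ?_ ((measurable_Phi (fun _ => hfm) s).comp measurable_fst)
  refine meas_A (prior_isProb C nc n) (xs_pos nc n)
    (U := fun (p : (Fin M → Fin N → ℝ) × (Fin M → ℝ)) w =>
      UU (fun _ => f) p.1 s w + dV C nc n k f p.1 p.2 s w) (fun w => ?_) 0 ω
  exact ((measurable_UU (fun _ => hfm) s w).comp measurable_fst).add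
    (measurable_dV C (BL_continuous hf) k s w)

theorem abs_VV_le (hN : 0 < N) (C : Cfg N) {k K L : ℝ} (hk : 0 < k) {f : ℝ → ℝ} (hf : BL K L f)
    (G : Fin M → Fin N → ℝ) (g0 : Fin M → ℝ) {a0 : ℝ} {s : Fin nc → ℝ} (hs : ∀ g, |s g| ≤ a0) :
    |VV C nc n k f s G g0| ≤
      2 * (M * K) + nc * |a0| * (N * Real.sqrt n) + |Real.log (pk k)| :=
  Crest.Agent.R164.Rot.eE_abs_le (QQ_isProb G s) fun ω =>
    A_abs_le (QQ_isProb G s) (xs_pos nc n)
      (fun ω => abs_dV_le C hN hk (BL_continuous hf) hf.bd G g0 hs ω) 0 ω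

/-! ### the inequality for fixed rows -/

theorem Phi_ineq (hN : 0 < N) (hn : 0 < n) {k ε Λ : ℝ} (hk : 0 < k) (hε1 : ε < 1)
    {K L R a0 : ℝ} {f : ℝ → ℝ} (hf : BL K L f) {G1 : Fin M → Fin (N + 1) → ℝ}
    (hR : ∑ a, ∑ i, |G1 a i| ≤ R)
    {s : Fin nc → ℝ} (hs : ∀ g, |s g| ≤ a0) (hΛ : Λ = L * R + nc * (|a0| * Real.sqrt n))
    (C : Cfg N) (C1 : Cfg (N + 1))
    (hnew : ∀ U : (Fin (N + 1) → ℝ) → ℝ, (∀ u v, |U u - U v| ≤ Λ * ∑ j, |u j - v j|) →
      (1 - ε) * ∫ t in Set.Icc (-k) k, (∑ y, C.q y * Real.exp (U (npt (Fin.last N) (C.x y) t)))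
        ∂(gaussianReal 0 1) ≤ ∑ y, C1.q y * Real.exp (U (C1.x y))) :
    Phi C nc n (fun _ => f) (gOld G1) s + VV C nc n k f s (gOld G1) (gNew G1) +
      Real.log (1 - ε) ≤ Phi C1 nc n (fun _ => f) G1 s := by
  obtain ⟨ω⟩ : Nonempty (Om C nc n) := inferInstance
  obtain ⟨ω1⟩ : Nonempty (Om C1 nc n) := inferInstance
  have h1 := coin_main nc n N
    (LZ C (fun ω => UU (fun _ => f) (gOld G1) s ω + dV C nc n k f (gOld G1) (gNew G1) s ω))
    (LZ C1 (UU (fun _ => f) G1 s)) (Real.log (1 - ε))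
    (fun c1 => LZ_ineq C hN hk hε1 hf hR hs hΛ C1 hnew c1) ω.2 ω1.2
  rw [← A_coin C hn _ ω, ← A_coin C1 hn _ ω1, ← Phi_eq] at h1
  rw [VV_eq C k f s (gOld G1) (gNew G1) ω]
  linarith

/-- **(NEWC)** -/
theorem newc : NEWC := by
  intro k K L a0 ε hk hε
  set ε1 : ℝ := 1 - Real.exp (-(ε / 2)) with hε1def
  have hexp : Real.exp (-(ε / 2)) < 1 := by rw [Real.exp_lt_one_iff]; linarith
  have hε1pos : 0 < ε1 := by rw [hε1def]; linarith
  have hε1lt : ε1 < 1 := by rw [hε1def]; linarith [Real.exp_pos (-(ε / 2))]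
  have hlog : Real.log (1 - ε1) = -(ε / 2) := by
    rw [hε1def, sub_sub_cancel, Real.log_exp]
  obtain ⟨N0, hN0⟩ := newc_fin k ε1 hε1pos hε1lt
  refine ⟨N0, fun N hN hNpos nc n M hn => ?_⟩
  obtain ⟨_, hNΛ⟩ := hN0 N hN
  set T : ℝ := ∫ G1 : Fin M → Fin (N + 1) → ℝ, (∑ a, ∑ i, |G1 a i|) ∂(gam M (N + 1)) with hT
  set B : ℝ := (M * K + nc * |a0| * (((N + 1 : ℕ) : ℝ) * Real.sqrt n)) +
    (M * K + nc * |a0| * (N * Real.sqrt n)) +
    (2 * (M * K) + nc * |a0| * (N * Real.sqrt n) + |Real.log (pk k)|) with hB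
  set R : ℝ := 2 * B * T / ε + 1 with hR
  obtain ⟨δ, hδ, hmain⟩ := hNΛ (L * R + nc * (|a0| * Real.sqrt n))
  refine ⟨δ, hδ, fun C C1 hC hC1 f hf s hs => ?_⟩
  have hfm : Measurable f := PLim857.measurable_BL hf
  have hK : 0 ≤ K := (PLim857.BL_nonneg hf).1
  have hT0 : 0 ≤ T := integral_nonneg fun G1 => Finset.sum_nonneg fun a _ =>
    Finset.sum_nonneg fun i _ => abs_nonneg _
  have hB0 : 0 ≤ B := by positivity
  have hR0 : 0 < R := by positivity
  have hsum : ∑ g, |s g| ≤ nc * |a0| := by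
    refine (Finset.sum_le_sum (g := fun _ : Fin nc => |a0|) fun g _ =>
      (hs g).trans (le_abs_self _)).trans (le_of_eq ?_)
    rw [Finset.sum_const, Finset.card_univ, Fintype.card_fin, nsmul_eq_mul]
  -- pointwise
  have hpt : ∀ G1 : Fin M → Fin (N + 1) → ℝ,
      Phi C nc n (fun _ => f) (gOld G1) s + VV C nc n k f s (gOld G1) (gNew G1) - ε / 2 -
        B / R * (∑ a, ∑ i, |G1 a i|) ≤ Phi C1 nc n (fun _ => f) G1 s := by
    intro G1
    have hS0 : 0 ≤ ∑ a, ∑ i, |G1 a i| := Finset.sum_nonneg fun a _ =>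
      Finset.sum_nonneg fun i _ => abs_nonneg _
    have hBR : 0 ≤ B / R * (∑ a, ∑ i, |G1 a i|) := by positivity
    by_cases hG : ∑ a, ∑ i, |G1 a i| ≤ R
    · have h1 := Phi_ineq hNpos hn hk hε1lt hf hG hs rfl C C1
        (fun U hU => hmain C C1 hC hC1 (Fin.last N) U hU)
      rw [hlog] at h1
      linarith
    · have hG : R < ∑ a, ∑ i, |G1 a i| := lt_of_not_ge hG
      have h1 : B ≤ B / R * (∑ a, ∑ i, |G1 a i|) := by
        rw [div_mul_eq_mul_div, le_div_iff₀ hR0]
        exact mul_le_mul_of_nonneg_left hG.le hB0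
      have h2 := (abs_le.mp (Phi_abs_le (C := C1) (nc := nc) (n := n) (f := fun _ => f)
        (fun _ => hf.bd) G1 s)).1
      have h3 := (abs_le.mp (Phi_abs_le (C := C) (nc := nc) (n := n) (f := fun _ => f)
        (fun _ => hf.bd) (gOld G1) s)).2
      have h4 := (abs_le.mp (abs_VV_le (n := n) hNpos C hk hf (gOld G1) (gNew G1) hs)).2
      have h5 := mul_le_mul_of_nonneg_right hsum
        (by positivity : (0 : ℝ) ≤ ((N + 1 : ℕ) : ℝ) * Real.sqrt n)
      have h6 := mul_le_mul_of_nonneg_right hsum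
        (by positivity : (0 : ℝ) ≤ (N : ℝ) * Real.sqrt n)
      linarith
  -- integrability
  have hmp := mp_split M N
  have iT : Integrable (fun G1 : Fin M → Fin (N + 1) → ℝ => ∑ a, ∑ i, |G1 a i|)
      (gam M (N + 1)) :=
    integrable_finsetSum _ fun a _ => integrable_finsetSum _ fun i _ =>
      (PLim857.integrable_abs_entry M (N + 1) a i).1
  have i1 : Integrable (fun G1 : Fin M → Fin (N + 1) → ℝ => Phi C1 nc n (fun _ => f) G1 s)
      (gam M (N + 1)) := integrable_Phi (fun _ => hfm) (fun _ => hf.bd) s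
  have i2 : Integrable (fun G : Fin M → Fin N → ℝ => Phi C nc n (fun _ => f) G s)
      (gam M N) := integrable_Phi (fun _ => hfm) (fun _ => hf.bd) s
  have i3 : Integrable (fun p : (Fin M → Fin N → ℝ) × (Fin M → ℝ) => VV C nc n k f s p.1 p.2)
      ((gam M N).prod (gv M)) :=
    Integrable.of_bound (measurable_VV C nc n k hf s).aestronglyMeasurable
      (2 * (M * K) + nc * |a0| * (N * Real.sqrt n) + |Real.log (pk k)|)
      (Filter.Eventually.of_forall fun p => by
        rw [Real.norm_eq_abs]; exact abs_VV_le hNpos C hk hf p.1 p.2 hs)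
  have i2' : Integrable (fun p : (Fin M → Fin N → ℝ) × (Fin M → ℝ) =>
      Phi C nc n (fun _ => f) p.1 s) ((gam M N).prod (gv M)) := i2.comp_fst _
  have j2 : Integrable (fun G1 : Fin M → Fin (N + 1) → ℝ => Phi C nc n (fun _ => f) (gOld G1) s)
      (gam M (N + 1)) := hmp.integrable_comp_of_integrable i2'
  have j3 : Integrable (fun G1 : Fin M → Fin (N + 1) → ℝ => VV C nc n k f s (gOld G1) (gNew G1))
      (gam M (N + 1)) := hmp.integrable_comp_of_integrable i3
  -- values of the integrals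
  have v2 : ∫ G1, Phi C nc n (fun _ => f) (gOld G1) s ∂(gam M (N + 1)) =
      ∫ G, Phi C nc n (M := M) (fun _ => f) G s ∂(gam M N) := by
    have h := integral_map (μ := gam M (N + 1)) hmp.measurable.aemeasurable
      (f := fun p : (Fin M → Fin N → ℝ) × (Fin M → ℝ) => Phi C nc n (fun _ => f) p.1 s)
      (by rw [hmp.map_eq]; exact i2'.aestronglyMeasurable)
    rw [hmp.map_eq] at h
    rw [← h, integral_prod _ i2']
    simp
  have v3 : ∫ G1, VV C nc n k f s (gOld G1) (gNew G1) ∂(gam M (N + 1)) =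
      ∫ G, (∫ g0, VV C nc n k f s G g0 ∂(gv M)) ∂(gam M N) := by
    have h := integral_map (μ := gam M (N + 1)) hmp.measurable.aemeasurable
      (f := fun p : (Fin M → Fin N → ℝ) × (Fin M → ℝ) => VV C nc n k f s p.1 p.2)
      (by rw [hmp.map_eq]; exact i3.aestronglyMeasurable)
    rw [hmp.map_eq] at h
    rw [← h, integral_prod _ i3]
  -- integrate
  have k1 : Integrable (fun G1 : Fin M → Fin (N + 1) → ℝ => Phi C nc n (fun _ => f) (gOld G1) s +
      VV C nc n k f s (gOld G1) (gNew G1)) (gam M (N + 1)) := j2.add j3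
  have k2 : Integrable (fun G1 : Fin M → Fin (N + 1) → ℝ => Phi C nc n (fun _ => f) (gOld G1) s +
      VV C nc n k f s (gOld G1) (gNew G1) - ε / 2) (gam M (N + 1)) := k1.sub (integrable_const _)
  have hint : ∫ G1 : Fin M → Fin (N + 1) → ℝ, (Phi C nc n (fun _ => f) (gOld G1) s +
      VV C nc n k f s (gOld G1) (gNew G1) - ε / 2 - B / R * (∑ a, ∑ i, |G1 a i|))
        ∂(gam M (N + 1)) ≤ ∫ G1, Phi C1 nc n (fun _ => f) G1 s ∂(gam M (N + 1)) :=
    integral_mono (k2.sub (iT.const_mul (B / R))) i1 hpt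
  rw [integral_sub k2 (iT.const_mul _), integral_sub k1 (integrable_const _),
    integral_add j2 j3, integral_const_mul, v2, v3, ← hT] at hint
  simp only [integral_const, probReal_univ, smul_eq_mul, one_mul] at hint
  have hBT : B / R * T ≤ ε / 2 := by
    rw [div_mul_eq_mul_div, div_le_iff₀ hR0, hR]
    have : ε / 2 * (2 * B * T / ε + 1) = B * T + ε / 2 := by field_simp
    rw [this]; linarith
  unfold PhE
  have e1 : ∫ G, (∫ g0, eE (QQ C nc n (M := M) (fun _ => f) G s)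
      (Crest.Agent.R141.A (QQ C nc n (M := M) (fun _ => f) G s) (fil C nc n) (xs nc n)
        (dV C nc n k f G g0 s) 0) ∂(gv M)) ∂(gam M N) =
      ∫ G, (∫ g0, VV C nc n k f s G g0 ∂(gv M)) ∂(gam M N) := rfl
  rw [e1]
  linarith

end

end Crest.Agent.R146.Newc857
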