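import Crest.Agent.R146.S6L_988
import Crest.Agent.R146.CavInc_769

/-!
Row 146, S0206, node MOM (helper649): moments of the row fields under the tilted law.

The row `a` has a bounded row function, so the tilted law is at most `e^{2K}` times the tilted law
without the row `a`, which does not depend on `G a`.
-/

set_option autoImplicit false

namespace Crest.Agent.R146.S6Mom_649

open Finset MeasureTheory ProbabilityTheory Crest.Agent.R141
open Crest.Agent.R146.S6Def_988 Crest.Agent.R146.S6U_988 Crest.Agent.R146.S6L_988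
open Crest.Agent.R146.CavInc_769 (prior_isProb xs_pos xs_expo QQ_isProb meas_QQ)

noncomputable section

/-- law of a normalised linear form of a standard Gaussian vector. -/
theorem map_lin {N : ℕ} (c : Fin N → ℝ) (hc : ∑ i, c i ^ 2 = 1) :
    (Measure.pi fun _ : Fin N => gaussianReal 0 1).map (fun g => ∑ i, g i * c i) =
      gaussianReal 0 1 := by
  have hm : Measurable fun g : Fin N → ℝ => ∑ i, g i * c i :=
    Finset.measurable_sum _ fun i _ => (measurable_pi_apply i).mul_const _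
  have hp : IsProbabilityMeasure ((Measure.pi fun _ : Fin N => gaussianReal 0 1).map
      (fun g => ∑ i, g i * c i)) := Measure.isProbabilityMeasure_map hm.aemeasurable
  refine Measure.ext_of_charFun ?_
  funext t
  rw [charFun_gaussianReal, charFun_apply_real, integral_map hm.aemeasurable (by fun_prop)]
  have h1 : ∀ x : Fin N → ℝ, Complex.exp (t * ((∑ i, x i * c i : ℝ) : ℂ) * Complex.I) =
      ∏ i, Complex.exp ((t * c i : ℝ) * (x i : ℂ) * Complex.I) := by
    intro x
    rw [← Complex.exp_sum]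
    congr 1
    push_cast
    rw [Finset.mul_sum, Finset.sum_mul]
    refine Finset.sum_congr rfl fun i _ => ?_
    ring
  simp_rw [h1]
  rw [integral_fintype_prod_eq_prod (𝕜 := ℂ)
    (f := fun (i : Fin N) (s : ℝ) => Complex.exp ((t * c i : ℝ) * (s : ℂ) * Complex.I))]
  have h2 : ∀ i : Fin N, ∫ s, Complex.exp ((t * c i : ℝ) * (s : ℂ) * Complex.I)
      ∂gaussianReal 0 1 = Complex.exp (-(t ^ 2 * (c i) ^ 2 : ℝ) / 2) := by
    intro i
    rw [← charFun_apply_real, charFun_gaussianReal]
    congr 1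
    push_cast
    ring
  simp_rw [h2]
  rw [← Complex.exp_sum]
  congr 1
  have h4 : ∑ i, (-(t ^ 2 * (c i) ^ 2 : ℝ) / 2 : ℂ) =
      -(t ^ 2 : ℝ) / 2 * ((∑ i, (c i) ^ 2 : ℝ) : ℂ) := by
    push_cast
    rw [Finset.mul_sum]
    refine Finset.sum_congr rfl fun i _ => ?_
    ring
  rw [h4, hc]
  push_cast
  ring

/-- the row functions without the row `a`. -/
def fsk (f : ℕ → ℝ → ℝ) (a k : ℕ) : ℝ → ℝ := f (if k < a then k else k + 1)

theorem rowE_skip {N m : ℕ} (f : ℕ → ℝ → ℝ) (a : Fin (m + 1)) (G : Fin (m + 1) → Fin N → ℝ)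
    (x : Fin N → ℝ) :
    rowE f G x = rowE (fsk f a) (fun j : Fin m => G (a.succAbove j)) x + f a (hh G a x) := by
  unfold rowE hh
  rw [Fin.sum_univ_succAbove _ a, add_comm]
  congr 1
  refine Finset.sum_congr rfl fun j _ => ?_
  have e : ((a.succAbove j : Fin (m + 1)) : ℕ) = if (j : ℕ) < a then (j : ℕ) else j + 1 := by
    unfold Fin.succAbove
    by_cases h : j.castSucc < a
    · have h' : (j : ℕ) < a := h
      rw [if_pos h, if_pos h']; rfl
    · have h' : ¬ (j : ℕ) < a := h
      rw [if_neg h, if_neg h']; rfl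
  unfold fsk
  rw [e]

variable {N nc n : ℕ} {C : Cfg N}

theorem QQ_skip {m : ℕ} (f : ℕ → ℝ → ℝ) (a : Fin (m + 1)) (G : Fin (m + 1) → Fin N → ℝ)
    (s : Fin nc → ℝ) :
    QQ C nc n f G s = tl (QQ C nc n (fsk f a) (fun j : Fin m => G (a.succAbove j)) s)
      (fil C nc n) (xs nc n) (fun ω => f a (hh G a (C.x ω.1))) := by
  unfold QQ
  rw [← tl_add (prior_isProb C nc n) (xs_pos nc n)]
  congr 1
  funext ω
  unfold UU
  rw [rowE_skip f a]
  ring

theorem sum_sq (hN : 0 < N) (y : C.Y) : ∑ i, (C.x y i / Real.sqrt N) ^ 2 = 1 := by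
  have hN' : (0 : ℝ) < N := by exact_mod_cast hN
  have h1 : ∀ i, (C.x y i / Real.sqrt N) ^ 2 = C.x y i ^ 2 * (N : ℝ)⁻¹ := by
    intro i
    rw [div_pow, Real.sq_sqrt hN'.le]; rfl
  simp_rw [h1]
  rw [← Finset.sum_mul, C.hx y]
  exact mul_inv_cancel₀ hN'.ne'

theorem meas_hh {M : ℕ} (a : Fin M) (x : Fin N → ℝ) :
    Measurable fun G : Fin M → Fin N → ℝ => hh G a x := by
  unfold hh
  refine Finset.measurable_sum _ fun i _ => ?_
  exact ((measurable_pi_apply i).comp (measurable_pi_apply a)).mul_const _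

/-- the law of a row field is standard Gaussian. -/
theorem mp_hh (hN : 0 < N) {M : ℕ} (a : Fin M) (y : C.Y) :
    MeasurePreserving (fun G : Fin M → Fin N → ℝ => hh G a (C.x y)) (gam M N)
      (gaussianReal 0 1) := by
  have h1 : MeasurePreserving (Function.eval a)
      (Measure.pi fun _ : Fin M => Measure.pi fun _ : Fin N => gaussianReal 0 1)
      (Measure.pi fun _ : Fin N => gaussianReal 0 1) :=
    measurePreserving_eval (fun _ : Fin M => Measure.pi fun _ : Fin N => gaussianReal 0 1) a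
  have h2 : MeasurePreserving (fun g : Fin N → ℝ => ∑ i, g i * (C.x y i / Real.sqrt N))
      (Measure.pi fun _ : Fin N => gaussianReal 0 1) (gaussianReal 0 1) :=
    ⟨Finset.measurable_sum _ fun i _ => (measurable_pi_apply i).mul_const _,
      map_lin _ (sum_sq hN y)⟩
  exact h2.comp h1

theorem integrable_hh (hN : 0 < N) {M : ℕ} (a : Fin M) (y : C.Y) {F : ℝ → ℝ}
    (hF : Integrable F (gaussianReal 0 1)) :
    Integrable (fun G : Fin M → Fin N → ℝ => F (hh G a (C.x y))) (gam M N) :=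
  (mp_hh hN a y).integrable_comp_of_integrable hF

theorem QQ_le_one {M : ℕ} (f : ℕ → ℝ → ℝ) (G : Fin M → Fin N → ℝ) (s : Fin nc → ℝ)
    (ω : Om C nc n) : QQ C nc n f G s ω ≤ 1 := by
  have h := QQ_isProb (C := C) (n := n) f G s
  rw [← h.sum]
  exact Finset.single_le_sum (f := QQ C nc n f G s) (fun i _ => (h.pos i).le) (Finset.mem_univ ω)

theorem meas_eQ {M : ℕ} {f : ℕ → ℝ → ℝ} (hf : ∀ a, Measurable (f a)) (s : Fin nc → ℝ)
    (a : Fin M) {F : ℝ → ℝ} (hF : Measurable F) :
    Measurable fun G : Fin M → Fin N → ℝ =>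
      eE (QQ C nc n f G s) (fun ω => F (hh G a (C.x ω.1))) :=
  Crest.Agent.R146.CavInc_769.meas_eE (fun ω => meas_QQ hf s ω)
    (fun ω => hF.comp (meas_hh a (C.x ω.1)))

/-- Gaussian expectations of a function of the row `a` and of the configuration. -/
theorem integrable_row {M : ℕ} (a : Fin M) {u : (Fin N → ℝ) → ℝ}
    (hu : Integrable u (Measure.pi fun _ : Fin N => gaussianReal 0 1)) :
    Integrable (fun G : Fin M → Fin N → ℝ => u (G a)) (gam M N) :=
  (measurePreserving_eval (fun _ : Fin M => Measure.pi fun _ : Fin N => gaussianReal 0 1)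
    a).integrable_comp_of_integrable hu

/-- integrability of the tilted expectation of a function of the row `a`. -/
theorem integrable_gen {M : ℕ} {f : ℕ → ℝ → ℝ} (hf : ∀ a, Measurable (f a))
    (s : Fin nc → ℝ) (a : Fin M) {u : Om C nc n → (Fin N → ℝ) → ℝ}
    (hu : ∀ ω, Integrable (u ω) (Measure.pi fun _ : Fin N => gaussianReal 0 1)) :
    Integrable (fun G : Fin M → Fin N → ℝ =>
      eE (QQ C nc n f G s) (fun ω => u ω (G a))) (gam M N) := by
  unfold eE
  refine integrable_finsetSum _ fun ω _ => ?_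
  refine (integrable_row a (hu ω)).bdd_mul (c := 1) (meas_QQ hf s ω).aestronglyMeasurable
    (ae_of_all _ fun G => ?_)
  rw [Real.norm_eq_abs, abs_of_pos ((QQ_isProb f G s).pos ω)]
  exact QQ_le_one f G s ω

/-- integral of a product of a function of the row `a` and a function of the other rows. -/
theorem integral_split {m : ℕ} (a : Fin (m + 1)) (u : (Fin N → ℝ) → ℝ)
    (v : (Fin m → Fin N → ℝ) → ℝ) :
    ∫ G, u (G a) * v (fun j : Fin m => G (a.succAbove j)) ∂(gam (m + 1) N) =
      (∫ g, u g ∂(Measure.pi fun _ : Fin N => gaussianReal 0 1)) * ∫ G, v G ∂(gam m N) := by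
  have h := measurePreserving_piFinSuccAbove
    (fun _ : Fin (m + 1) => (Measure.pi fun _ : Fin N => gaussianReal 0 1)) a
  rw [← integral_prod_mul]
  have h2 := h.integral_comp' (g := fun p : (Fin N → ℝ) × (Fin m → Fin N → ℝ) => u p.1 * v p.2)
  exact h2

/-- **general moment bound**: the tilted expectation of a nonnegative function `u ω (G a)` of the
row `a` is at most `e^{2K}` times the supremum over `ω` of its Gaussian expectation. -/
theorem mom_gen {K B : ℝ} {M : ℕ} {f : ℕ → ℝ → ℝ} (hf : ∀ a, Measurable (f a))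
    (hK : ∀ a x, |f a x| ≤ K) (s : Fin nc → ℝ) (a : Fin M) {u : Om C nc n → (Fin N → ℝ) → ℝ}
    (hu : ∀ ω, Integrable (u ω) (Measure.pi fun _ : Fin N => gaussianReal 0 1))
    (hu0 : ∀ ω g, 0 ≤ u ω g)
    (hB : ∀ ω, ∫ g, u ω g ∂(Measure.pi fun _ : Fin N => gaussianReal 0 1) ≤ B) :
    ∫ G : Fin M → Fin N → ℝ, eE (QQ C nc n f G s) (fun ω => u ω (G a)) ∂(gam M N) ≤
      Real.exp (2 * K) * B := by
  obtain ⟨m, rfl⟩ : ∃ m, M = m + 1 := ⟨M - 1, by have := a.2; omega⟩
  have hf' : ∀ k, Measurable (fsk f a k) := fun k => hf _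
  -- pointwise bound
  have h1 : ∀ G : Fin (m + 1) → Fin N → ℝ,
      eE (QQ C nc n f G s) (fun ω => u ω (G a)) ≤
      Real.exp (2 * K) * eE (QQ C nc n (fsk f a) (fun j : Fin m => G (a.succAbove j)) s)
        (fun ω => u ω (G a)) := by
    intro G
    rw [QQ_skip f a]
    exact eE_tl_le (QQ_isProb _ _ s) (xs_expo nc n) (fun ω => hK _ _) (fun ω => hu0 _ _)
  -- the terms
  have h2 : ∀ ω : Om C nc n, Integrable (fun G : Fin (m + 1) → Fin N → ℝ =>
      QQ C nc n (fsk f a) (fun j : Fin m => G (a.succAbove j)) s ω * u ω (G a))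
      (gam (m + 1) N) := by
    intro ω
    have hm : Measurable fun G : Fin (m + 1) → Fin N → ℝ =>
        QQ C nc n (fsk f a) (fun j : Fin m => G (a.succAbove j)) s ω :=
      (meas_QQ hf' s ω).comp (measurable_pi_lambda _ fun j => measurable_pi_apply _)
    refine (integrable_row a (hu ω)).bdd_mul (c := 1) hm.aestronglyMeasurable
      (ae_of_all _ fun G => ?_)
    rw [Real.norm_eq_abs, abs_of_pos ((QQ_isProb _ _ s).pos ω)]
    exact QQ_le_one _ _ s ω
  have hQ0 : ∀ ω : Om C nc n, 0 ≤ ∫ G, QQ C nc n (M := m) (fsk f a) G s ω ∂(gam m N) :=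
    fun ω => integral_nonneg fun G => ((QQ_isProb _ G s).pos ω).le
  have h3 : ∀ ω : Om C nc n, ∫ G : Fin (m + 1) → Fin N → ℝ,
      QQ C nc n (fsk f a) (fun j : Fin m => G (a.succAbove j)) s ω * u ω (G a)
      ∂(gam (m + 1) N) ≤ B * ∫ G, QQ C nc n (M := m) (fsk f a) G s ω ∂(gam m N) := by
    intro ω
    have e := integral_split (N := N) a (u ω) (fun G => QQ C nc n (M := m) (fsk f a) G s ω)
    calc ∫ G : Fin (m + 1) → Fin N → ℝ,
        QQ C nc n (fsk f a) (fun j : Fin m => G (a.succAbove j)) s ω * u ω (G a)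
        ∂(gam (m + 1) N) = ∫ G : Fin (m + 1) → Fin N → ℝ,
        u ω (G a) * QQ C nc n (fsk f a) (fun j : Fin m => G (a.succAbove j)) s ω
        ∂(gam (m + 1) N) := by
          refine integral_congr_ae (ae_of_all _ fun G => ?_)
          exact mul_comm _ _
      _ = _ := e
      _ ≤ _ := mul_le_mul_of_nonneg_right (hB ω) (hQ0 ω)
  have h4 : ∑ ω : Om C nc n, ∫ G, QQ C nc n (M := m) (fsk f a) G s ω ∂(gam m N) = 1 := by
    rw [← integral_finsetSum]
    · have : ∀ G : Fin m → Fin N → ℝ, ∑ ω : Om C nc n, QQ C nc n (fsk f a) G s ω = 1 :=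
        fun G => (QQ_isProb _ G s).sum
      simp_rw [this]
      simp
    · intro ω _
      refine Integrable.of_bound (C := 1) (meas_QQ hf' s ω).aestronglyMeasurable
        (ae_of_all _ fun G => ?_)
      rw [Real.norm_eq_abs, abs_of_pos ((QQ_isProb _ _ s).pos ω)]
      exact QQ_le_one _ _ s ω
  calc ∫ G, eE (QQ C nc n f G s) (fun ω => u ω (G a)) ∂(gam (m + 1) N)
      ≤ ∫ G, Real.exp (2 * K) *
        eE (QQ C nc n (fsk f a) (fun j : Fin m => G (a.succAbove j)) s)
          (fun ω => u ω (G a)) ∂(gam (m + 1) N) := by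
        refine integral_mono (integrable_gen hf s a hu) ?_ h1
        refine Integrable.const_mul ?_ _
        unfold eE
        exact integrable_finsetSum _ fun ω _ => h2 ω
    _ ≤ Real.exp (2 * K) * B := by
        rw [integral_const_mul]
        refine mul_le_mul_of_nonneg_left ?_ (Real.exp_pos _).le
        unfold eE
        rw [integral_finsetSum _ fun ω _ => h2 ω]
        calc ∑ ω : Om C nc n, ∫ G : Fin (m + 1) → Fin N → ℝ,
              QQ C nc n (fsk f a) (fun j : Fin m => G (a.succAbove j)) s ω * u ω (G a)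
              ∂(gam (m + 1) N)
            ≤ ∑ ω : Om C nc n, B * ∫ G, QQ C nc n (M := m) (fsk f a) G s ω ∂(gam m N) :=
              Finset.sum_le_sum fun ω _ => h3 ω
          _ = B := by rw [← Finset.mul_sum, h4, mul_one]

/-- the Gaussian expectation of a function of the field. -/
theorem integral_lin (hN : 0 < N) (y : C.Y) {F : ℝ → ℝ} (hF : Measurable F) :
    ∫ g : Fin N → ℝ, F (∑ i, g i * (C.x y i / Real.sqrt N))
      ∂(Measure.pi fun _ : Fin N => gaussianReal 0 1) = ∫ x, F x ∂(gaussianReal 0 1) := by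
  have hm : Measurable fun g : Fin N → ℝ => ∑ i, g i * (C.x y i / Real.sqrt N) :=
    Finset.measurable_sum _ fun i _ => (measurable_pi_apply i).mul_const _
  have h := integral_map (μ := Measure.pi fun _ : Fin N => gaussianReal 0 1) hm.aemeasurable
    (f := F) hF.aestronglyMeasurable
  rw [map_lin (fun i => C.x y i / Real.sqrt N) (sum_sq hN y)] at h
  exact h.symm

theorem integrable_lin (hN : 0 < N) (y : C.Y) {F : ℝ → ℝ}
    (hi : Integrable F (gaussianReal 0 1)) :
    Integrable (fun g : Fin N → ℝ => F (∑ i, g i * (C.x y i / Real.sqrt N)))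
      (Measure.pi fun _ : Fin N => gaussianReal 0 1) := by
  have h2 : MeasurePreserving (fun g : Fin N → ℝ => ∑ i, g i * (C.x y i / Real.sqrt N))
      (Measure.pi fun _ : Fin N => gaussianReal 0 1) (gaussianReal 0 1) :=
    ⟨Finset.measurable_sum _ fun i _ => (measurable_pi_apply i).mul_const _,
      map_lin _ (sum_sq hN y)⟩
  exact h2.integrable_comp_of_integrable hi

/-- the sharper form of MOM, constant `e^{2K}`. -/
theorem mom_two {K : ℝ} (hN : 0 < N) {M : ℕ} {f : ℕ → ℝ → ℝ} (hf : ∀ a, Measurable (f a))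
    (hK : ∀ a x, |f a x| ≤ K) (s : Fin nc → ℝ) (a : Fin M) {F : ℝ → ℝ} (hF : Measurable F)
    (hF0 : ∀ x, 0 ≤ F x) (hi : Integrable F (gaussianReal 0 1)) :
    Integrable (fun G : Fin M → Fin N → ℝ =>
      eE (QQ C nc n f G s) (fun ω => F (hh G a (C.x ω.1)))) (gam M N) ∧
    ∫ G : Fin M → Fin N → ℝ, eE (QQ C nc n f G s) (fun ω => F (hh G a (C.x ω.1))) ∂(gam M N) ≤
      Real.exp (2 * K) * ∫ x, F x ∂(gaussianReal 0 1) :=
  ⟨integrable_gen (C := C) hf s a
      (u := fun ω g => F (∑ i, g i * (C.x ω.1 i / Real.sqrt N)))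
      (fun ω => integrable_lin hN ω.1 hi),
    mom_gen (C := C) hf hK s a (u := fun ω g => F (∑ i, g i * (C.x ω.1 i / Real.sqrt N)))
      (fun ω => integrable_lin hN ω.1 hi) (fun _ _ => hF0 _)
      (fun ω => (integral_lin hN ω.1 hF).le)⟩

theorem mom : MOM := by
  intro K N nc n hN hn C f M s hf hK a F hF hF0 hi
  obtain ⟨h1, h2⟩ := mom_two (C := C) (n := n) hN hf hK s a hF hF0 hi
  have hK0 : 0 ≤ K := (abs_nonneg _).trans (hK 0 0)
  refine ⟨h1, h2.trans ?_⟩
  exact mul_le_mul_of_nonneg_right (Real.exp_le_exp.2 (by linarith)) (integral_nonneg hF0)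

end

end Crest.Agent.R146.S6Mom_649
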