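import Crest.Agent.R146.Crude_663
import Crest.Agent.R146.NewcE_857
import Crest.Agent.R146.S6Mom_649

/-!
Row 146: TAYC and CRUDE from FLD alone (helper663).
-/

set_option autoImplicit false

namespace Crest.Agent.R146.CrudeF_663

open Crest.Agent.R146.S6L_988

theorem tayc_of_fld (h : FLD) : TAYC := L3Tay_663.tayc_of S6Mom_649.mom h

theorem crude_of_fld (h : FLD) : CRUDE :=
  Crude_663.crude_of Newc857.newc S6Mom_649.mom h

end Crest.Agent.R146.CrudeF_663
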