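import Crest.Agent.R146.RowFact_874
import Crest.Agent.R146.LimIbp_290

/-!
Row 146, statement S0206, part of (RO) (helper130): the limit model with test functions of
polynomial growth.  For a bounded Lipschitz row function `f`:

* `cXg`, `cXm`, `cXa`  : exponential growth, monotonicity, additivity of `cX`;
* `cX_tower`           : tower property;
* `cX_one_sq`          : `E[1 + X_1²] ≤ 2 exp (4 K)` in the limit model, uniformly in the levels;
* `kapX_change`        : `kapX` depends continuously on the second test function in the weighted norm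
                         `sup |ψ - ψ'| / (1 + y²)`.
-/

set_option autoImplicit false

namespace Crest.Agent.R146.RoTruncA_130

open MeasureTheory ProbabilityTheory Filter Topology Set
open Crest.ProbabilityR.InvariantGlass
open Crest.Agent.R146.S6Def_988 Crest.Agent.R164.GC Crest.Agent.R146.RowDef_874
open Crest.Agent.R146.LimIbp_290 (EE tE_EG dJ)

noncomputable section

variable {J : ℕ} {f : ℝ → ℝ} {P : ℕ → ℝ} {K L : ℝ}

theorem BL_cont {K L : ℝ} {f : ℝ → ℝ} (h : BL K L f) : Continuous f := by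
  have hL : 0 ≤ L := by
    have h1 := (abs_nonneg _).trans (h.lip 1 0)
    simpa using h1
  refine (LipschitzWith.of_dist_le_mul (K := ⟨L, hL⟩) fun x y => ?_).continuous
  rw [Real.dist_eq, Real.dist_eq]
  exact h.lip x y

theorem BL_L {K L : ℝ} {f : ℝ → ℝ} (h : BL K L f) : 0 ≤ L := by
  have h1 := (abs_nonneg _).trans (h.lip 1 0)
  simpa using h1

theorem BL_K {K L : ℝ} {f : ℝ → ℝ} (h : BL K L f) : 0 ≤ K := (abs_nonneg _).trans (h.bd 0)

/-- the value functions are bounded and continuous -/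
theorem Psi_bc (hf : BL K L f) (P : ℕ → ℝ) {j : ℕ} (h1 : 1 ≤ j) (h2 : j ≤ J + 2) :
    BC (Psi J f P j) K := by
  have h := Crest.Agent.R146.RowFact_874.Psi_BL (J := J) (BL_L hf) hf P (J + 2 - j) (by omega)
  have e : J + 2 - (J + 2 - j) = j := by omega
  rw [e] at h
  exact ⟨BL_cont h, h.bd⟩

theorem ee (hf : BL K L f) (P : ℕ → ℝ) {j : ℕ} (h1 : 1 ≤ j) (h2 : j ≤ J + 2) :
    EE (Psi J f P j) := EE.of_bdd (Psi_bc hf P h1 h2).cont (Psi_bc hf P h1 h2).bd

theorem stp {k j : ℕ} (g : ℝ → ℝ) (hj : j < k) : cX J f P k g j =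
    tE (mJ J j) (tP J P (j + 1) - tP J P j) (Psi J f P (j + 1)) (cX J f P k g (j + 1)) :=
  cX_step J f P g hj

theorem cXg (hf : BL K L f) {k : ℕ} (hk : k ≤ J + 2) {g : ℝ → ℝ} (hg : EG g) :
    ∀ i, i ≤ k → EG (cX J f P k g (k - i)) := by
  intro i
  induction i with
  | zero => intro _; rw [Nat.sub_zero, cX_self]; exact hg
  | succ i ih =>
    intro hi
    have e : k - (i + 1) + 1 = k - i := by omega
    rw [stp g (by omega : k - (i + 1) < k), e]
    have hb := Psi_bc (J := J) hf P (j := k - i) (by omega) (by omega)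
    exact tE_EG hb.cont hb.bd _ _ (ih (by omega))

theorem cXg' (hf : BL K L f) {k : ℕ} (hk : k ≤ J + 2) {g : ℝ → ℝ} (hg : EG g) {j : ℕ}
    (hj : j ≤ k) : EG (cX J f P k g j) := by
  have h := cXg (P := P) hf hk hg (k - j) (by omega)
  have e : k - (k - j) = j := by omega
  rwa [e] at h

theorem cXm (hf : BL K L f) {k : ℕ} (hk : k ≤ J + 2) {g g' : ℝ → ℝ} (hg : EG g) (hg' : EG g')
    (h : ∀ y, g y ≤ g' y) : ∀ i, i ≤ k → ∀ x, cX J f P k g (k - i) x ≤ cX J f P k g' (k - i) x := by
  intro i
  induction i with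
  | zero => intro _ x; rw [Nat.sub_zero, cX_self, cX_self]; exact h x
  | succ i ih =>
    intro hi x
    have e : k - (i + 1) + 1 = k - i := by omega
    rw [stp g (by omega : k - (i + 1) < k), stp g' (by omega : k - (i + 1) < k), e]
    exact Crest.Agent.R146.LimIbp_290.tE_mono (ee hf P (by omega) (by omega)) _ _
      (cXg hf hk hg i (by omega)) (cXg hf hk hg' i (by omega)) (ih (by omega)) x

theorem cXm' (hf : BL K L f) {k : ℕ} (hk : k ≤ J + 2) {g g' : ℝ → ℝ} (hg : EG g) (hg' : EG g')
    (h : ∀ y, g y ≤ g' y) {j : ℕ} (hj : j ≤ k) (x : ℝ) :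
    cX J f P k g j x ≤ cX J f P k g' j x := by
  have h := cXm (P := P) hf hk hg hg' h (k - j) (by omega) x
  have e : k - (k - j) = j := by omega
  rwa [e] at h

theorem cXa (hf : BL K L f) {k : ℕ} (hk : k ≤ J + 2) {g g' : ℝ → ℝ} (hg : EG g) (hg' : EG g') :
    ∀ i, i ≤ k → ∀ x, cX J f P k (fun y => g y + g' y) (k - i) x =
      cX J f P k g (k - i) x + cX J f P k g' (k - i) x := by
  intro i
  induction i with
  | zero => intro _ x; rw [Nat.sub_zero, cX_self, cX_self, cX_self]
  | succ i ih =>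
    intro hi x
    have e : k - (i + 1) + 1 = k - i := by omega
    rw [stp _ (by omega : k - (i + 1) < k), stp g (by omega : k - (i + 1) < k),
      stp g' (by omega : k - (i + 1) < k), e]
    have h2 : cX J f P k (fun y => g y + g' y) (k - i) =
        fun x => cX J f P k g (k - i) x + cX J f P k g' (k - i) x := funext (ih (by omega))
    rw [h2]
    exact Crest.Agent.R146.LimIbp_290.tE_add (ee hf P (by omega) (by omega)) _ _
      (cXg hf hk hg i (by omega)) (cXg hf hk hg' i (by omega)) x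

theorem cXa' (hf : BL K L f) {k : ℕ} (hk : k ≤ J + 2) {g g' : ℝ → ℝ} (hg : EG g) (hg' : EG g')
    {j : ℕ} (hj : j ≤ k) (x : ℝ) : cX J f P k (fun y => g y + g' y) j x =
      cX J f P k g j x + cX J f P k g' j x := by
  have h := cXa (P := P) hf hk hg hg' (k - j) (by omega) x
  have e : k - (k - j) = j := by omega
  rwa [e] at h

theorem cXs {k : ℕ} {g : ℝ → ℝ} (c : ℝ) {j : ℕ} (hj : j ≤ k) (x : ℝ) :
    cX J f P k (fun y => c * g y) j x = c * cX J f P k g j x := by
  have h := Crest.Agent.R146.LimIbp_290.cX_smul (J := J) (f := f) (P := P) (k := k) (g := g) c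
    (k - j) (by omega) x
  have e : k - (k - j) = j := by omega
  rwa [e] at h

theorem cXc (hf : BL K L f) {k : ℕ} (hk : k ≤ J + 2) (c : ℝ) :
    ∀ i, i ≤ k → ∀ x, cX J f P k (fun _ => c) (k - i) x = c := by
  intro i
  induction i with
  | zero => intro _ x; rw [Nat.sub_zero, cX_self]
  | succ i ih =>
    intro hi x
    have e : k - (i + 1) + 1 = k - i := by omega
    rw [stp _ (by omega : k - (i + 1) < k), e]
    have h2 : cX J f P k (fun _ => c) (k - i) = fun _ => c := funext (ih (by omega))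
    rw [h2]
    exact Crest.Agent.R146.LimIbp_290.tE_const (ee hf P (by omega) (by omega)) _ _ _ x

theorem cXb (hf : BL K L f) {k : ℕ} (hk : k ≤ J + 2) {g : ℝ → ℝ} {B : ℝ} (hg : BC g B) {j : ℕ}
    (hj : j ≤ k) (x : ℝ) : |cX J f P k g j x| ≤ B := by
  have e : k - (k - j) = j := by omega
  have hc : ∀ c : ℝ, cX J f P k (fun _ => c) j x = c := fun c => by
    have := cXc (P := P) hf hk c (k - j) (by omega) x
    rwa [e] at this
  rw [abs_le]
  constructor
  · have := cXm' (P := P) hf hk (EG.const (-B)) hg.eg (fun y => (abs_le.1 (hg.bd y)).1) hj x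
    rwa [hc] at this
  · have := cXm' (P := P) hf hk hg.eg (EG.const B) (fun y => (abs_le.1 (hg.bd y)).2) hj x
    rwa [hc] at this

/-- tower property -/
theorem cX_tower {k l : ℕ} (hkl : k ≤ l) (h : ℝ → ℝ) : ∀ i, i ≤ k →
    cX J f P k (cX J f P l h k) (k - i) = cX J f P l h (k - i) := by
  intro i
  induction i with
  | zero => intro _; rw [Nat.sub_zero, cX_self]
  | succ i ih =>
    intro hi
    have e : k - (i + 1) + 1 = k - i := by omega
    rw [stp _ (by omega : k - (i + 1) < k), stp _ (by omega : k - (i + 1) < l), e,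
      ih (by omega)]

theorem cX_tower' {k l : ℕ} (hkl : k ≤ l) (h : ℝ → ℝ) {j : ℕ} (hj : j ≤ k) :
    cX J f P k (cX J f P l h k) j = cX J f P l h j := by
  have h := cX_tower (J := J) (f := f) (P := P) hkl h (k - j) (by omega)
  have e : k - (k - j) = j := by omega
  rwa [e] at h

/-! ### second moments -/

theorem EG_sq (c : ℝ) : EG (fun y : ℝ => 1 + y ^ 2 + c) :=
  ((EG.const 1).add (Crest.Agent.R146.LimIbp_290.EG_id.pow 2)).add (EG.const c)

theorem int_sq : ∫ g : ℝ, g ^ 2 ∂gaussianReal 0 1 = 1 := by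
  have h := ProbabilityTheory.variance_id_gaussianReal (μ := 0) (v := 1)
  have h2 : MemLp id 2 (gaussianReal 0 1) := memLp_id_gaussianReal 2
  rw [ProbabilityTheory.variance_eq_sub h2] at h
  have h3 : ∫ x, (id : ℝ → ℝ) x ∂gaussianReal 0 1 = 0 := integral_id_gaussianReal
  rw [h3] at h
  simpa using h

theorem H_sq (c t x : ℝ) : H t (fun y => 1 + y ^ 2 + c) x = 1 + x ^ 2 + t ^ 2 + c := by
  have h1 : Integrable (fun g : ℝ => g) (gaussianReal 0 1) :=
    (memLp_id_gaussianReal 1).integrable le_rfl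
  have h2 : Integrable (fun g : ℝ => g ^ 2) (gaussianReal 0 1) :=
    (memLp_id_gaussianReal 2).integrable_sq
  have h3 : ∫ g : ℝ, g ∂gaussianReal 0 1 = 0 := integral_id_gaussianReal
  unfold H
  have e : ∀ g : ℝ, 1 + (x + t * g) ^ 2 + c = (1 + x ^ 2 + c) + (2 * x * t) * g + t ^ 2 * g ^ 2 :=
    fun g => by ring
  simp_rw [e]
  have hA : Integrable (fun g : ℝ => (1 + x ^ 2 + c) + (2 * x * t) * g) (gaussianReal 0 1) :=
    (integrable_const _).add (h1.const_mul _)
  have hB : Integrable (fun g : ℝ => t ^ 2 * g ^ 2) (gaussianReal 0 1) := h2.const_mul _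
  rw [integral_add hA hB, integral_add (integrable_const _) (h1.const_mul _), integral_const_mul,
    integral_const_mul, int_sq, h3]
  simp
  ring

theorem mJ_mono {i j : ℕ} (h : i ≤ j) : mJ J i ≤ mJ J j := by
  unfold mJ
  have : (i : ℝ) ≤ j := by exact_mod_cast h
  gcongr

theorem mJ_nonneg (j : ℕ) : 0 ≤ mJ J j := by unfold mJ; positivity

/-- the exponential of the value function is a Gaussian average. -/
theorem exp_Psi (hf : BL K L f) {j : ℕ} (hj : j < J + 2) (x : ℝ) :
    Real.exp (mJ J j * Psi J f P j x) = H (Real.sqrt (tP J P (j + 1) - tP J P j))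
      (fun y => Real.exp (mJ J j * Psi J f P (j + 1) y)) x := by
  rcases Nat.eq_zero_or_pos j with h0 | h0
  · subst h0
    have hm : mJ J 0 = 0 := by unfold mJ; simp
    rw [hm]
    simp only [zero_mul, Real.exp_zero]
    rw [H_const]
  · have hm : mJ J j ≠ 0 := (Crest.Agent.R146.RowFact_874.mJ_pos h0).ne'
    rw [Psi_step J f P hj, gaussOp_ne hm]
    have hp := Crest.Agent.R146.LimIbp_290.den_pos
      (ee hf P (J := J) (j := j + 1) (by omega) (by omega)) (mJ J j)
      (Real.sqrt (tP J P (j + 1) - tP J P j)) x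
    rw [← mul_assoc, mul_inv_cancel₀ hm, one_mul]
    exact Real.exp_log hp

/-- density bound for second moments, backward induction. -/
theorem dens_sq (hf : BL K L f) (hP : Lev J P) {k : ℕ} (hk : k ≤ J + 2) :
    ∀ i, i ≤ k → ∀ x, Real.exp (mJ J (k - i) * Psi J f P (k - i) x) *
      cX J f P k (fun y => 1 + y ^ 2 + 0) (k - i) x ≤
      Real.exp ((2 * mJ J k - mJ J (k - i)) * K) *
        (1 + x ^ 2 + (tP J P k - tP J P (k - i))) := by
  have hK : 0 ≤ K := BL_K hf
  intro i
  induction i with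
  | zero =>
    intro _ x
    rw [Nat.sub_zero, cX_self]
    have h1 : mJ J k * Psi J f P k x ≤ (2 * mJ J k - mJ J k) * K := by
      have h2 : 2 * mJ J k - mJ J k = mJ J k := by ring
      rw [h2]
      rcases Nat.eq_zero_or_pos k with h0 | h0
      · subst h0
        have hm : mJ J 0 = 0 := by unfold mJ; simp
        rw [hm]; simp
      · exact mul_le_mul_of_nonneg_left ((abs_le.1 ((Psi_bc hf P h0 hk).bd x)).2) (mJ_nonneg _)
    have h3 : (1 + x ^ 2 + 0 : ℝ) = 1 + x ^ 2 + (tP J P k - tP J P k) := by ring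
    rw [h3]
    refine mul_le_mul_of_nonneg_right (Real.exp_le_exp.2 h1) ?_
    rw [sub_self]; positivity
  | succ i ih =>
    intro hi x
    obtain ⟨j, hj⟩ : ∃ j, j = k - (i + 1) := ⟨_, rfl⟩
    have e : k - i = j + 1 := by omega
    have hjk : j < k := by omega
    rw [← hj]
    have ih' := ih (by omega)
    rw [e] at ih'
    set d := tP J P (j + 1) - tP J P j with hd
    have hd0 : 0 ≤ d := Crest.Agent.R146.LimIbp_290.tP_le hP j
    have hee := ee hf P (J := J) (j := j + 1) (by omega) (by omega)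
    have hg : EG (cX J f P k (fun y => 1 + y ^ 2 + 0) (j + 1)) :=
      cXg' hf hk (EG_sq 0) (by omega)
    have hpos := Crest.Agent.R146.LimIbp_290.den_pos hee (mJ J j) (Real.sqrt d) x
    have h1 : Real.exp (mJ J j * Psi J f P j x) *
        cX J f P k (fun y => 1 + y ^ 2 + 0) j x = H (Real.sqrt d)
          (fun y => cX J f P k (fun y => 1 + y ^ 2 + 0) (j + 1) y *
            Real.exp (mJ J j * Psi J f P (j + 1) y)) x := by
      rw [exp_Psi hf (by omega : j < J + 2) x, stp _ hjk, ← hd]
      unfold tE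
      rw [mul_div_cancel₀ _ hpos.ne']
    rw [h1]
    have h2 : ∀ y, cX J f P k (fun y => 1 + y ^ 2 + 0) (j + 1) y *
        Real.exp (mJ J j * Psi J f P (j + 1) y) ≤ Real.exp ((2 * mJ J k - mJ J j) * K) *
          (1 + y ^ 2 + (tP J P k - tP J P (j + 1))) := by
      intro y
      have a1 := ih' y
      have a2 : Real.exp (mJ J j * Psi J f P (j + 1) y) =
          Real.exp (-(mJ J (j + 1) - mJ J j) * Psi J f P (j + 1) y) *
            Real.exp (mJ J (j + 1) * Psi J f P (j + 1) y) := by
        rw [← Real.exp_add]; congr 1; ring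
      have a3 : Real.exp (-(mJ J (j + 1) - mJ J j) * Psi J f P (j + 1) y) ≤
          Real.exp ((mJ J (j + 1) - mJ J j) * K) := by
        refine Real.exp_le_exp.2 ?_
        have h3 : 0 ≤ mJ J (j + 1) - mJ J j := sub_nonneg.2 (mJ_mono (by omega))
        have h4 := (abs_le.1 ((Psi_bc hf P (J := J) (j := j + 1) (by omega) (by omega)).bd y)).1
        nlinarith
      have a4 : Real.exp ((2 * mJ J k - mJ J j) * K) = Real.exp ((mJ J (j + 1) - mJ J j) * K) *
          Real.exp ((2 * mJ J k - mJ J (j + 1)) * K) := by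
        rw [← Real.exp_add]; congr 1; ring
      have a5 : 0 ≤ Real.exp ((2 * mJ J k - mJ J (j + 1)) * K) *
          (1 + y ^ 2 + (tP J P k - tP J P (j + 1))) := by
        refine mul_nonneg (Real.exp_pos _).le ?_
        have h5 : tP J P (j + 1) ≤ tP J P k := by
          have : ∀ l, tP J P (j + 1) ≤ tP J P (j + 1 + l) := by
            intro l
            induction l with
            | zero => exact le_rfl
            | succ l ihl => exact ihl.trans (sub_nonneg.1
                (Crest.Agent.R146.LimIbp_290.tP_le hP (j + 1 + l)))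
          have h6 := this (k - (j + 1))
          have e6 : j + 1 + (k - (j + 1)) = k := by omega
          rwa [e6] at h6
        have := sq_nonneg y
        linarith
      rw [a2, a4]
      calc cX J f P k (fun y => 1 + y ^ 2 + 0) (j + 1) y *
            (Real.exp (-(mJ J (j + 1) - mJ J j) * Psi J f P (j + 1) y) *
              Real.exp (mJ J (j + 1) * Psi J f P (j + 1) y))
          = Real.exp (-(mJ J (j + 1) - mJ J j) * Psi J f P (j + 1) y) *
            (Real.exp (mJ J (j + 1) * Psi J f P (j + 1) y) *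
              cX J f P k (fun y => 1 + y ^ 2 + 0) (j + 1) y) := by ring
        _ ≤ Real.exp (-(mJ J (j + 1) - mJ J j) * Psi J f P (j + 1) y) *
            (Real.exp ((2 * mJ J k - mJ J (j + 1)) * K) *
              (1 + y ^ 2 + (tP J P k - tP J P (j + 1)))) :=
            mul_le_mul_of_nonneg_left a1 (Real.exp_pos _).le
        _ ≤ Real.exp ((mJ J (j + 1) - mJ J j) * K) *
            (Real.exp ((2 * mJ J k - mJ J (j + 1)) * K) *
              (1 + y ^ 2 + (tP J P k - tP J P (j + 1)))) :=
            mul_le_mul_of_nonneg_right a3 a5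
        _ = _ := by ring
    have h3 := H_mono (hg.mul (hee (mJ J j))) ((EG_sq (tP J P k - tP J P (j + 1))).const_mul
      (Real.exp ((2 * mJ J k - mJ J j) * K))) h2 (Real.sqrt d) x
    refine h3.trans (le_of_eq ?_)
    rw [H_const_mul, H_sq, Real.sq_sqrt hd0, hd]
    ring

theorem tP_le_one (hP : Lev J P) {k : ℕ} : tP J P k ≤ 1 := by
  unfold tP
  split_ifs with h1 h2
  · exact zero_le_one
  · exact (hP.mono (k - 1) J (by omega) le_rfl).trans hP.le_one
  · exact le_rfl

/-- second moment in the limit model -/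
theorem cX_one_sq (hf : BL K L f) (hP : Lev J P) :
    cX J f P (J + 2) (fun y => 1 + y ^ 2) 0 0 ≤ 2 * Real.exp (4 * K) := by
  have hK : 0 ≤ K := BL_K hf
  have h := dens_sq hf hP (k := J + 2) le_rfl (J + 2) le_rfl 0
  rw [Nat.sub_self] at h
  have hm : mJ J 0 = 0 := by unfold mJ; simp
  rw [hm, zero_mul, Real.exp_zero, one_mul, sub_zero] at h
  have e : (fun y : ℝ => 1 + y ^ 2 + 0) = fun y : ℝ => 1 + y ^ 2 := by funext y; ring
  rw [e] at h
  have ht0 : tP J P 0 = 0 := by unfold tP; simp
  have ht := tP_le_one hP (k := J + 2)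
  have hm2 : mJ J (J + 2) ≤ 2 := by
    unfold mJ
    rw [div_le_iff₀ (by positivity)]
    push_cast
    have : (0 : ℝ) ≤ J := Nat.cast_nonneg J
    linarith
  have h1 : Real.exp (2 * mJ J (J + 2) * K) ≤ Real.exp (4 * K) := by
    refine Real.exp_le_exp.2 ?_
    nlinarith
  calc cX J f P (J + 2) (fun y => 1 + y ^ 2) 0 0
      ≤ Real.exp (2 * mJ J (J + 2) * K) * (1 + 0 ^ 2 + (tP J P (J + 2) - tP J P 0)) := h
    _ ≤ Real.exp (4 * K) * 2 := by
        refine mul_le_mul h1 ?_ ?_ (Real.exp_pos _).le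
        · rw [ht0]; nlinarith
        · rw [ht0]
          have : 0 ≤ tP J P (J + 2) := by
            unfold tP
            rw [if_neg (by omega), if_neg (by omega)]
            exact zero_le_one
          nlinarith
    _ = _ := by ring

/-- change of the second test function in the pair expectation -/
theorem kapX_le (hf : BL K L f) (hP : Lev J P) {b : ℕ} (hb : b ≤ J + 1) {φ ψ ψ' : ℝ → ℝ} {B η : ℝ}
    (hφ : BC φ B) (hψ : EG ψ) (hψ' : EG ψ') (hη : 0 ≤ η)
    (h : ∀ y, |ψ y - ψ' y| ≤ η * (1 + y ^ 2)) :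
    kapX J f P b φ ψ ≤ kapX J f P b φ ψ' + 2 * B * η * Real.exp (4 * K) := by
  have hB : 0 ≤ B := hφ.nonneg
  have hq : EG (fun y : ℝ => 1 + y ^ 2) := by
    have := EG_sq 0
    have e : (fun y : ℝ => 1 + y ^ 2 + 0) = fun y : ℝ => 1 + y ^ 2 := by funext y; ring
    rwa [e] at this
  set u := cX J f P (J + 2) φ (b + 1) with hu
  set v := cX J f P (J + 2) ψ (b + 1) with hv
  set v' := cX J f P (J + 2) ψ' (b + 1) with hv'
  set w := cX J f P (J + 2) (fun y => 1 + y ^ 2) (b + 1) with hw
  have egu : EG u := cXg' hf le_rfl hφ.eg (by omega)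
  have egv : EG v := cXg' hf le_rfl hψ (by omega)
  have egv' : EG v' := cXg' hf le_rfl hψ' (by omega)
  have egw : EG w := cXg' hf le_rfl hq (by omega)
  have hub : ∀ x, |u x| ≤ B := fun x => cXb hf le_rfl hφ (by omega) x
  have d1 : ∀ x, v x ≤ v' x + η * w x := by
    intro x
    have h1 := cXm' (P := P) hf (le_refl (J + 2)) hψ (hψ'.add (hq.const_mul η))
      (fun y => by have := (abs_le.1 (h y)).2; linarith) (j := b + 1) (by omega) x
    rw [cXa' hf (le_refl (J + 2)) hψ' (hq.const_mul η) (by omega) x, cXs η (by omega) x] at h1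
    exact h1
  have d2 : ∀ x, v' x ≤ v x + η * w x := by
    intro x
    have h1 := cXm' (P := P) hf (le_refl (J + 2)) hψ' (hψ.add (hq.const_mul η))
      (fun y => by have := (abs_le.1 (h y)).1; linarith) (j := b + 1) (by omega) x
    rw [cXa' hf (le_refl (J + 2)) hψ (hq.const_mul η) (by omega) x, cXs η (by omega) x] at h1
    exact h1
  have d3 : ∀ x, u x * v x ≤ u x * v' x + (B * η) * w x := by
    intro x
    have h1 : |v x - v' x| ≤ η * w x := by
      rw [abs_le]; constructor <;> linarith [d1 x, d2 x]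
    have h2 : u x * v x - u x * v' x ≤ |u x| * |v x - v' x| := by
      rw [← mul_sub, ← abs_mul]; exact le_abs_self _
    have h3 : |u x| * |v x - v' x| ≤ B * (η * w x) :=
      mul_le_mul (hub x) h1 (abs_nonneg _) hB
    nlinarith
  have hb1 : b + 1 ≤ J + 2 := by omega
  have h4 := cXm' (P := P) hf hb1 (egu.mul egv) ((egu.mul egv').add (egw.const_mul (B * η))) d3
    (j := 0) (by omega) 0
  rw [cXa' hf hb1 (egu.mul egv') (egw.const_mul (B * η)) (by omega) 0, cXs _ (by omega) 0] at h4
  have h5 : cX J f P (b + 1) w 0 = cX J f P (J + 2) (fun y => 1 + y ^ 2) 0 :=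
    cX_tower' hb1 _ (by omega)
  rw [h5] at h4
  have h6 := cX_one_sq hf hP
  have h7 : 0 ≤ B * η := mul_nonneg hB hη
  have h8 := mul_le_mul_of_nonneg_left h6 h7
  show cX J f P (b + 1) (fun x => u x * v x) 0 0 ≤ cX J f P (b + 1) (fun x => u x * v' x) 0 0 + _
  linarith

theorem kapX_change (hf : BL K L f) (hP : Lev J P) {b : ℕ} (hb : b ≤ J + 1) {φ ψ ψ' : ℝ → ℝ}
    {B η : ℝ} (hφ : BC φ B) (hψ : EG ψ) (hψ' : EG ψ') (hη : 0 ≤ η)
    (h : ∀ y, |ψ y - ψ' y| ≤ η * (1 + y ^ 2)) :
    |kapX J f P b φ ψ - kapX J f P b φ ψ'| ≤ 2 * B * η * Real.exp (4 * K) := by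
  rw [abs_le]
  constructor
  · have := kapX_le hf hP hb hφ hψ' hψ hη (fun y => by rw [abs_sub_comm]; exact h y)
    linarith
  · have := kapX_le hf hP hb hφ hψ hψ' hη h
    linarith

end

end Crest.Agent.R146.RoTruncA_130
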