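import Crest.Agent.R146.RowDef2_874
import Crest.Agent.R146.RoTruncA_130
import Crest.Agent.R146.CavAsm_769
import Crest.Agent.R146.S6Trans_944

/-!
Row 146, statement S0206, part of (RO) (helper130): TRUNCATION.
`ro_of : ROb → MOM → RO` : the row observables for test functions `ψ` of linear growth from the
bounded case.
-/

set_option autoImplicit false

namespace Crest.Agent.R146.RoTrunc_130

open Finset MeasureTheory ProbabilityTheory Crest.Agent.R141
open Crest.Agent.R146.S6Def_988 Crest.Agent.R146.S6U_988 Crest.Agent.R146.S6L_988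
open Crest.Agent.R146.RowDef_874 Crest.Agent.R146.RowDef2_874 Crest.Agent.R164.GC
open Crest.Agent.R146.RoTruncA_130
open Crest.Agent.R146.CavInc_769 (meas_QQ meas_cE meas_eE QQ_isProb)

noncomputable section

/-! ### the truncated test function -/

/-- truncation at the level `r` -/
def tr (r : ℝ) (ψ : ℝ → ℝ) (y : ℝ) : ℝ := max (-r) (min r (ψ y))

theorem tr_bd {r : ℝ} (hr : 0 ≤ r) (ψ : ℝ → ℝ) (y : ℝ) : |tr r ψ y| ≤ r := by
  unfold tr
  rw [abs_le]
  exact ⟨le_max_left _ _, max_le (by linarith) (min_le_left _ _)⟩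

theorem tr_lip {r : ℝ} (ψ : ℝ → ℝ) (x y : ℝ) : |tr r ψ x - tr r ψ y| ≤ |ψ x - ψ y| := by
  unfold tr
  have h1 := abs_max_sub_max_le_max (-r) (min r (ψ x)) (-r) (min r (ψ y))
  have h2 := abs_min_sub_min_le_max r (ψ x) r (ψ y)
  simp only [sub_self, abs_zero] at h1 h2
  rw [max_eq_right (abs_nonneg (min r (ψ x) - min r (ψ y)))] at h1
  rw [max_eq_right (abs_nonneg (ψ x - ψ y))] at h2
  exact h1.trans h2

theorem tr_err {r : ℝ} (hr : 0 < r) (ψ : ℝ → ℝ) (y : ℝ) : |ψ y - tr r ψ y| ≤ ψ y ^ 2 / r := by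
  rw [le_div_iff₀ hr]
  unfold tr
  rcases le_total (ψ y) r with h1 | h1
  · rw [min_eq_right h1]
    rcases le_total (-r) (ψ y) with h2 | h2
    · rw [max_eq_right h2, sub_self, abs_zero, zero_mul]; positivity
    · rw [max_eq_left h2, abs_of_nonpos (by linarith)]
      nlinarith
  · rw [min_eq_left h1, max_eq_right (by linarith), abs_of_nonneg (by linarith)]
    nlinarith

/-- linear growth -/
theorem growth {ψ : ℝ → ℝ} {B : ℝ} (h1 : ∀ x y, |ψ x - ψ y| ≤ B * |x - y|) (h0 : |ψ 0| ≤ B)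
    (y : ℝ) : |ψ y| ≤ B * (1 + |y|) := by
  have h2 := h1 y 0
  rw [sub_zero] at h2
  have h3 : |ψ y| ≤ |ψ y - ψ 0| + |ψ 0| := by
    have := abs_add_le (ψ y - ψ 0) (ψ 0)
    simpa using this
  linarith

theorem growth_sq {ψ : ℝ → ℝ} {B : ℝ} (h1 : ∀ x y, |ψ x - ψ y| ≤ B * |x - y|) (h0 : |ψ 0| ≤ B)
    (y : ℝ) : ψ y ^ 2 ≤ 2 * B ^ 2 * (1 + y ^ 2) := by
  have hB : 0 ≤ B := (abs_nonneg _).trans h0
  have h2 := growth h1 h0 y
  have h3 : ψ y ^ 2 ≤ (B * (1 + |y|)) ^ 2 := by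
    rw [← sq_abs (ψ y)]
    exact pow_le_pow_left₀ (abs_nonneg _) h2 2
  have h4 : (B * (1 + |y|)) ^ 2 = B ^ 2 * (1 + 2 * |y| + y ^ 2) := by
    rw [mul_pow, add_sq, sq_abs]; ring
  have h5 : 2 * |y| ≤ 1 + y ^ 2 := by
    have := sq_nonneg (|y| - 1)
    rw [sub_sq, sq_abs] at this
    linarith
  have h6 : 0 ≤ B ^ 2 := sq_nonneg B
  nlinarith

theorem eg_of_growth {ψ : ℝ → ℝ} {B : ℝ} (h1 : ∀ x y, |ψ x - ψ y| ≤ B * |x - y|)
    (h0 : |ψ 0| ≤ B) : EG ψ := by
  have hB : 0 ≤ B := (abs_nonneg _).trans h0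
  have hc : Continuous ψ := by
    refine (LipschitzWith.of_dist_le_mul (K := ⟨B, hB⟩) fun x y => ?_).continuous
    rw [Real.dist_eq, Real.dist_eq]
    exact h1 x y
  refine ⟨hc, B, 1, hB, zero_le_one, fun x => (growth h1 h0 x).trans ?_⟩
  refine mul_le_mul_of_nonneg_left ?_ hB
  rw [one_mul, add_comm]
  exact Real.add_one_le_exp _

theorem int_Fsq : ∫ y : ℝ, (1 + y ^ 2) ∂gaussianReal 0 1 = 2 := by
  have h := H_sq 0 1 0
  unfold H at h
  have e : ∀ g : ℝ, (1 + (0 + 1 * g) ^ 2 + 0 : ℝ) = 1 + g ^ 2 := fun g => by ring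
  simp_rw [e] at h
  rw [h]; norm_num

theorem integrable_Fsq : Integrable (fun y : ℝ => 1 + y ^ 2) (gaussianReal 0 1) :=
  (integrable_const _).add (memLp_id_gaussianReal 2).integrable_sq

/-! ### the system side -/

section sys

variable {N nc n : ℕ} {C : Cfg N}

theorem meas_hh {M : ℕ} (a : Fin M) (x : Fin N → ℝ) :
    Measurable fun G : Fin M → Fin N → ℝ => hh G a x := by
  unfold hh
  refine Finset.measurable_sum _ fun i _ => ?_
  exact ((measurable_pi_apply i).comp (measurable_pi_apply a)).mul_const _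

theorem meas_RS {M : ℕ} {φ ψ : ℝ → ℝ} (hφ : Measurable φ) (hψ : Measurable ψ) (u v : Om C nc n) :
    Measurable fun G : Fin M → Fin N → ℝ => RS C nc n φ ψ G u v := by
  unfold RS
  refine (Finset.measurable_sum _ fun a _ => ?_).const_mul _
  exact (hφ.comp (meas_hh a _)).mul (hψ.comp (meas_hh a _))

/-- a pair expectation: the two cases (conditionally independent pair, diagonal) -/
structure PairE {M : ℕ} (C : Cfg N) (nc n : ℕ) (Q : (Fin M → Fin N → ℝ) → Om C nc n → ℝ)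
    (E : (Fin M → Fin N → ℝ) → (Om C nc n → Om C nc n → ℝ) → ℝ) : Prop where
  mono : ∀ G g g', (∀ u v, g u v ≤ g' u v) → E G g ≤ E G g'
  add : ∀ G g g', E G (fun u v => g u v + g' u v) = E G g + E G g'
  cst : ∀ G c, E G (fun _ _ => c) = c
  snd : ∀ G h, E G (fun _ v => h v) = eE (Q G) h
  meas : ∀ g : (Fin M → Fin N → ℝ) → Om C nc n → Om C nc n → ℝ,
    (∀ u v, Measurable fun G => g G u v) → Measurable fun G => E G (g G)

theorem pairE_pE {M : ℕ} {f : ℕ → ℝ → ℝ} (hf : ∀ a, Measurable (f a)) (s : Fin nc → ℝ)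
    (r : Setoid (Om C nc n)) :
    PairE (M := M) C nc n (fun G => QQ C nc n f G s) (fun G g => pE (QQ C nc n f G s) r g) where
  mono G _ _ h := S6Trans_944.pE_mono (QQ_isProb f G s) fun u v _ => h u v
  add _ g g' := S6Trans_944.pE_add g g'
  cst G c := S6Trans_944.pE_const (QQ_isProb f G s) c
  snd G h := S6Trans_944.pE_snd (QQ_isProb f G s) h
  meas g hg := by
    unfold pE
    refine meas_eE (fun ω => meas_QQ hf s ω) fun u => ?_
    exact meas_cE (f := fun G v => g G u v) (fun ω => meas_QQ hf s ω) (fun v => hg u v) _ _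

theorem pairE_eE {M : ℕ} {f : ℕ → ℝ → ℝ} (hf : ∀ a, Measurable (f a)) (s : Fin nc → ℝ) :
    PairE (M := M) C nc n (fun G => QQ C nc n f G s)
      (fun G g => eE (QQ C nc n f G s) (fun u => g u u)) where
  mono G _ _ h := eE_mono (QQ_isProb f G s) fun u => h u u
  add _ _ _ := eE_add _ _ _
  cst G c := eE_const (QQ_isProb f G s) c
  snd _ _ := rfl
  meas g hg := meas_eE (f := fun G u => g G u u) (fun ω => meas_QQ hf s ω) (fun u => hg u u)

theorem core (hM : MOM) (hN : 0 < N) (hn : 0 < n) {K L : ℝ} {f : ℝ → ℝ} (hf : BL K L f) {M : ℕ}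
    (s : Fin nc → ℝ) {E : (Fin M → Fin N → ℝ) → (Om C nc n → Om C nc n → ℝ) → ℝ}
    (hE : PairE C nc n (fun G => QQ C nc n (fun _ => f) G s) E) {φ ψ ψ' : ℝ → ℝ} {B B' η κ κ' δ : ℝ}
    (hφ : BC φ B) (hψ' : BC ψ' B') (hη : 0 ≤ η)
    (hd : ∀ y, |ψ y - ψ' y| ≤ η * (1 + y ^ 2)) (hκ : |κ - κ'| ≤ δ) :
    ∫ G, E G (fun u v => |RS C nc n φ ψ G u v - (M : ℝ) / N * κ|) ∂(gam M N) ≤
      ∫ G, E G (fun u v => |RS C nc n φ ψ' G u v - (M : ℝ) / N * κ'|) ∂(gam M N) +
        (M : ℝ) / N * (2 * B * η * Real.exp (4 * K) + δ) := by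
  have hB : 0 ≤ B := hφ.nonneg
  have hN0 : (0 : ℝ) < N := by exact_mod_cast hN
  have hcm : Measurable f := (BL_cont hf).measurable
  have : IsProbabilityMeasure (gam M N) := by unfold gam; infer_instance
  obtain ⟨F, hF⟩ : ∃ F : ℝ → ℝ, F = fun y => 1 + y ^ 2 := ⟨_, rfl⟩
  have hFm : Measurable F := by rw [hF]; fun_prop
  have hF0 : ∀ x, 0 ≤ F x := fun x => by rw [hF]; positivity
  have hFi : Integrable F (gaussianReal 0 1) := by rw [hF]; exact integrable_Fsq
  have hF2 : ∫ x, F x ∂gaussianReal 0 1 = 2 := by rw [hF]; exact int_Fsq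
  have mom := fun a : Fin M => hM K N nc n hN hn C (fun _ => f) M s (fun _ => hcm)
    (fun _ => hf.bd) a F hFm hF0 hFi
  -- the error function
  set w : (Fin M → Fin N → ℝ) → Om C nc n → ℝ := fun G v =>
    (N : ℝ)⁻¹ * ∑ a : Fin M, (B * η) * F (hh G a (C.x v.1)) with hw
  have hW : ∀ G, eE (QQ C nc n (fun _ => f) G s) (w G) = (N : ℝ)⁻¹ * ∑ a : Fin M, (B * η) *
      eE (QQ C nc n (fun _ => f) G s) (fun v => F (hh G a (C.x v.1))) := by
    intro G
    rw [hw]
    simp only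
    rw [eE_smul, eE_sum]
    congr 1
    exact Finset.sum_congr rfl fun a _ => eE_smul _ _ _
  have hWi : Integrable (fun G => eE (QQ C nc n (fun _ => f) G s) (w G)) (gam M N) := by
    simp_rw [hW]
    exact (integrable_finsetSum _ fun a _ => (mom a).1.const_mul _).const_mul _
  have hWint : ∫ G, eE (QQ C nc n (fun _ => f) G s) (w G) ∂(gam M N) ≤
      (M : ℝ) / N * (2 * B * η * Real.exp (4 * K)) := by
    simp_rw [hW]
    rw [integral_const_mul, integral_finsetSum _ fun a _ => (mom a).1.const_mul _]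
    have h1 : ∑ a : Fin M, ∫ G, (B * η) *
        eE (QQ C nc n (fun _ => f) G s) (fun v => F (hh G a (C.x v.1))) ∂(gam M N) ≤
        ∑ _a : Fin M, (B * η) * (Real.exp (4 * K) * 2) := by
      refine Finset.sum_le_sum fun a _ => ?_
      rw [integral_const_mul]
      refine mul_le_mul_of_nonneg_left ?_ (mul_nonneg hB hη)
      have := (mom a).2
      rwa [hF2] at this
    rw [Finset.sum_const, Finset.card_univ, Fintype.card_fin, nsmul_eq_mul] at h1
    calc (N : ℝ)⁻¹ * ∑ a : Fin M, ∫ G, (B * η) *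
          eE (QQ C nc n (fun _ => f) G s) (fun v => F (hh G a (C.x v.1))) ∂(gam M N)
        ≤ (N : ℝ)⁻¹ * (M * ((B * η) * (Real.exp (4 * K) * 2))) :=
          mul_le_mul_of_nonneg_left h1 (inv_nonneg.2 hN0.le)
      _ = _ := by rw [div_eq_mul_inv]; ring
  -- pointwise comparison
  have hpt : ∀ (G : Fin M → Fin N → ℝ) (u v : Om C nc n),
      |RS C nc n φ ψ G u v - (M : ℝ) / N * κ| ≤
        (|RS C nc n φ ψ' G u v - (M : ℝ) / N * κ'| + w G v) + (M : ℝ) / N * δ := by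
    intro G u v
    have h1 : |RS C nc n φ ψ G u v - RS C nc n φ ψ' G u v| ≤ w G v := by
      have e : RS C nc n φ ψ G u v - RS C nc n φ ψ' G u v = (N : ℝ)⁻¹ * ∑ a : Fin M,
          φ (hh G a (C.x u.1)) * (ψ (hh G a (C.x v.1)) - ψ' (hh G a (C.x v.1))) := by
        unfold RS
        rw [← mul_sub, ← Finset.sum_sub_distrib]
        congr 1
        exact Finset.sum_congr rfl fun a _ => by ring
      rw [e, abs_mul, abs_of_nonneg (inv_nonneg.2 hN0.le)]
      refine mul_le_mul_of_nonneg_left ?_ (inv_nonneg.2 hN0.le)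
      refine (Finset.abs_sum_le_sum_abs _ _).trans (Finset.sum_le_sum fun a _ => ?_)
      rw [abs_mul, mul_assoc]
      refine mul_le_mul (hφ.bd _) ?_ (abs_nonneg _) hB
      rw [hF]
      exact hd _
    have h2 : |(M : ℝ) / N * κ - (M : ℝ) / N * κ'| ≤ (M : ℝ) / N * δ := by
      rw [← mul_sub, abs_mul, abs_of_nonneg (by positivity)]
      exact mul_le_mul_of_nonneg_left hκ (by positivity)
    have h3 : RS C nc n φ ψ G u v - (M : ℝ) / N * κ =
        (RS C nc n φ ψ G u v - RS C nc n φ ψ' G u v) +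
        (RS C nc n φ ψ' G u v - (M : ℝ) / N * κ') - ((M : ℝ) / N * κ - (M : ℝ) / N * κ') := by
      ring
    rw [h3]
    have h4 := abs_sub ((RS C nc n φ ψ G u v - RS C nc n φ ψ' G u v) +
        (RS C nc n φ ψ' G u v - (M : ℝ) / N * κ')) ((M : ℝ) / N * κ - (M : ℝ) / N * κ')
    have h5 := abs_add_le (RS C nc n φ ψ G u v - RS C nc n φ ψ' G u v)
      (RS C nc n φ ψ' G u v - (M : ℝ) / N * κ')
    linarith
  have hEpt : ∀ G, E G (fun u v => |RS C nc n φ ψ G u v - (M : ℝ) / N * κ|) ≤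
      (E G (fun u v => |RS C nc n φ ψ' G u v - (M : ℝ) / N * κ'|) +
        eE (QQ C nc n (fun _ => f) G s) (w G)) + (M : ℝ) / N * δ := by
    intro G
    have h1 := hE.mono G _ _ (hpt G)
    rw [hE.add G (fun u v => |RS C nc n φ ψ' G u v - (M : ℝ) / N * κ'| + w G v)
      (fun _ _ => (M : ℝ) / N * δ), hE.cst,
      hE.add G (fun u v => |RS C nc n φ ψ' G u v - (M : ℝ) / N * κ'|) (fun _ v => w G v),
      hE.snd] at h1
    exact h1
  -- integrability of the truncated quantity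
  have hX : Integrable (fun G => E G (fun u v => |RS C nc n φ ψ' G u v - (M : ℝ) / N * κ'|))
      (gam M N) := by
    have hb : ∀ (G : Fin M → Fin N → ℝ) (u v : Om C nc n),
        |RS C nc n φ ψ' G u v - (M : ℝ) / N * κ'| ≤
          (N : ℝ)⁻¹ * (M * (B * B')) + |(M : ℝ) / N * κ'| := by
      intro G u v
      refine (abs_sub _ _).trans (add_le_add ?_ le_rfl)
      unfold RS
      rw [abs_mul, abs_of_nonneg (inv_nonneg.2 hN0.le)]
      refine mul_le_mul_of_nonneg_left ?_ (inv_nonneg.2 hN0.le)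
      refine (Finset.abs_sum_le_sum_abs _ _).trans ?_
      calc ∑ a : Fin M, |φ (hh G a (C.x u.1)) * ψ' (hh G a (C.x v.1))|
          ≤ ∑ _a : Fin M, B * B' := Finset.sum_le_sum fun a _ => by
            rw [abs_mul]
            exact mul_le_mul (hφ.bd _) (hψ'.bd _) (abs_nonneg _) hB
        _ = _ := by rw [Finset.sum_const, Finset.card_univ, Fintype.card_fin, nsmul_eq_mul]
    refine Integrable.of_bound (C := (N : ℝ)⁻¹ * (M * (B * B')) + |(M : ℝ) / N * κ'|)
      (hE.meas _ fun u v => ?_).aestronglyMeasurable (ae_of_all _ fun G => ?_)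
    · exact ((meas_RS hφ.cont.measurable hψ'.cont.measurable u v).sub_const _).abs
    · have h1 := hE.mono G _ _ (hb G)
      rw [hE.cst] at h1
      have h2 := hE.mono G (fun _ _ => 0)
        (fun u v => |RS C nc n φ ψ' G u v - (M : ℝ) / N * κ'|) fun _ _ => abs_nonneg _
      rw [hE.cst] at h2
      rw [Real.norm_eq_abs, abs_of_nonneg h2]
      exact h1
  have h0 : ∀ G, 0 ≤ E G (fun u v => |RS C nc n φ ψ G u v - (M : ℝ) / N * κ|) := by
    intro G
    have h2 := hE.mono G (fun _ _ => 0)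
      (fun u v => |RS C nc n φ ψ G u v - (M : ℝ) / N * κ|) fun _ _ => abs_nonneg _
    rwa [hE.cst] at h2
  have hfin := integral_mono_of_nonneg (μ := gam M N) (ae_of_all _ h0)
    ((hX.add hWi).add (integrable_const ((M : ℝ) / N * δ))) (ae_of_all _ hEpt)
  rw [integral_add' (hX.add hWi) (integrable_const _), integral_add' hX hWi, integral_const] at hfin
  simp only [probReal_univ, one_smul] at hfin
  linarith

end sys

/-- (RO) from the bounded case and the moments. -/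
theorem ro_of (hR : ROb) (hM : MOM) : RO := by
  intro αm K L B ε hε
  -- the level of the truncation
  obtain ⟨r, hr⟩ : ∃ r : ℝ, r = 1 + |B| + 16 * |αm| * |B| ^ 3 * Real.exp (4 * K) / ε := ⟨_, rfl⟩
  have hr1 : 1 ≤ r := by
    rw [hr]
    have : 0 ≤ 16 * |αm| * |B| ^ 3 * Real.exp (4 * K) / ε := by positivity
    have := abs_nonneg B
    linarith
  have hrB : B ≤ r := by
    rw [hr]
    have : 0 ≤ 16 * |αm| * |B| ^ 3 * Real.exp (4 * K) / ε := by positivity
    have := le_abs_self B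
    linarith
  have hr0 : 0 < r := by linarith
  have hre : 8 * |αm| * |B| ^ 3 * Real.exp (4 * K) / r ≤ ε / 2 := by
    rw [div_le_iff₀ hr0]
    have h1 : ε / 2 * (16 * |αm| * |B| ^ 3 * Real.exp (4 * K) / ε) =
        8 * |αm| * |B| ^ 3 * Real.exp (4 * K) := by
      field_simp; ring
    rw [hr, mul_add, h1]
    have := abs_nonneg B
    nlinarith
  obtain ⟨J0, hJ0⟩ := hR αm K L r (ε / 2) (by linarith)
  refine ⟨J0, fun J hJ => ?_⟩
  obtain ⟨ε1, hε1, N0, hN0⟩ := hJ0 J hJ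
  refine ⟨ε1, hε1, N0, ?_⟩
  intro wc nc hwc hnc N hN hNpos n hn C f φ ψ hf hφ hψ hψ0 M s τ hMα hsk
  have hB : 0 ≤ B := BL_K hφ
  have hNr : (0 : ℝ) < N := by exact_mod_cast hNpos
  have hφr : BL r r φ := ⟨fun x => (hφ.bd x).trans hrB, fun x y => (hφ.lip x y).trans
    (mul_le_mul_of_nonneg_right hrB (abs_nonneg _))⟩
  have hψr : BL r r (tr r ψ) := ⟨fun x => tr_bd hr0.le ψ x, fun x y => (tr_lip ψ x y).trans
    ((hψ x y).trans (mul_le_mul_of_nonneg_right hrB (abs_nonneg _)))⟩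
  obtain ⟨h1, h2⟩ := hN0 wc nc hwc hnc N hN hNpos n hn C f φ (tr r ψ) hf hφr hψr M s τ hMα hsk
  have hcm : Measurable f := (BL_cont hf).measurable
  have hlev : Lev J (PR C nc n f M s τ) :=
    CavAsm_769.lev_Rk hNpos (fun _ => hcm) M s (CavAsm_769.tau_mono (by omega) hsk.blk)
  have hα0 : (M : ℝ) / N ≤ |αm| := by
    rw [div_le_iff₀ hNr]
    exact hMα.trans (mul_le_mul_of_nonneg_right (le_abs_self _) hNr.le)
  have hη : 0 ≤ 2 * B ^ 2 / r := by positivity
  have hd : ∀ y, |ψ y - tr r ψ y| ≤ 2 * B ^ 2 / r * (1 + y ^ 2) := by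
    intro y
    refine (tr_err hr0 ψ y).trans ?_
    rw [div_mul_eq_mul_div]
    exact div_le_div_of_nonneg_right (growth_sq hψ hψ0 y) hr0.le
  have hψc : EG ψ := eg_of_growth hψ hψ0
  have hφb : BC φ B := ⟨BL_cont hφ, hφ.bd⟩
  have hψb : BC (tr r ψ) r := ⟨BL_cont hψr, hψr.bd⟩
  have herr : (M : ℝ) / N * (2 * B * (2 * B ^ 2 / r) * Real.exp (4 * K) +
      2 * B * (2 * B ^ 2 / r) * Real.exp (4 * K)) ≤ ε / 2 := by
    have e : 2 * B * (2 * B ^ 2 / r) * Real.exp (4 * K) +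
      2 * B * (2 * B ^ 2 / r) * Real.exp (4 * K) = 8 * |B| ^ 3 * Real.exp (4 * K) / r := by
      rw [abs_of_nonneg hB]; field_simp; ring
    rw [e]
    calc (M : ℝ) / N * (8 * |B| ^ 3 * Real.exp (4 * K) / r)
        ≤ |αm| * (8 * |B| ^ 3 * Real.exp (4 * K) / r) :=
          mul_le_mul_of_nonneg_right hα0 (by positivity)
      _ = 8 * |αm| * |B| ^ 3 * Real.exp (4 * K) / r := by ring
      _ ≤ ε / 2 := hre
  constructor
  · intro b hb
    have h3 := core hM hNpos hn hf s (pairE_pE (M := M) (fun _ => hcm) s ((fil C nc n).F (τ b)))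
      hφb hψb hη hd (kapX_change hf hlev (by omega : b ≤ J + 1) hφb hψc hψb.eg hη hd)
    have h4 := h1 b hb
    linarith
  · have h3 := core hM hNpos hn hf s (pairE_eE (M := M) (C := C) (n := n) (fun _ => hcm) s)
      hφb hψb hη hd (kapX_change hf hlev (le_refl (J + 1)) hφb hψc hψb.eg hη hd)
    linarith

end

end Crest.Agent.R146.RoTrunc_130
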