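import Crest.Agent.R164.CavG7
import Crest.Agent.R146.RowChain_874

/-!
Row 146, node ROWOBS (helper874), part 2: the tilted conditional expectations along the skeleton
converge to those of the nested Gaussian model.
-/

set_option autoImplicit false

namespace Crest.Agent.R146.RowChain_874

open MeasureTheory ProbabilityTheory Finset Crest.Agent.R141 Crest.Agent.R141.Fact
open Crest.Agent.R164.CavG

noncomputable section

/-- variances of the nested Gaussian model. -/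
def vQ {β : Type} (Q : ℕ → β → ℝ) (n : ℕ) (k : β) : ℝ := Q n k - Q (n + 1) k

/-- tilted backward conditional expectations of `h`, started at depth `n0`. -/
def tsk {Ω : Type} [Fintype Ω] (P : Ω → ℝ) (r : ℕ → Setoid Ω) (y : ℕ → ℝ) (U : Ω → ℝ) (n0 : ℕ)
    (h : Ω → ℝ) : ℕ → Ω → ℝ
  | 0 => h
  | i + 1 => fun ω =>
      cE P (r (n0 + i)) (fun a => Real.exp (y (n0 + i) * skelA P r y U (n0 + i) a) *
        tsk P r y U n0 h i a) ω /
      cE P (r (n0 + i)) (fun a => Real.exp (y (n0 + i) * skelA P r y U (n0 + i) a)) ω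

/-- the same in the Gaussian model. -/
def gsk {ι : Type} [Fintype ι] (y : ℕ → ℝ) (v : ℕ → ι → ℝ) (w : (ι → ℝ) → ℝ) (n0 : ℕ)
    (G : (ι → ℝ) → ℝ) : ℕ → (ι → ℝ) → ℝ
  | 0 => G
  | i + 1 => fun z =>
      sm (v (n0 + i)) (fun z => Real.exp (y (n0 + i) * th y v w (n0 + i) z) *
        gsk y v w n0 G i z) z /
      sm (v (n0 + i)) (fun z => Real.exp (y (n0 + i) * th y v w (n0 + i) z)) z

section

variable {Ω κ β : Type} [Fintype Ω] [Fintype κ] [Fintype β] [DecidableEq β]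
    {P : Ω → ℝ} {r : ℕ → Setoid Ω} {J : ℕ} {kap : κ → β}
    {x : Ω → κ → ℝ} {Q : ℕ → β → ℝ} {C δ : ℝ}

theorem exp_lip1 {c y : ℝ} (hy0 : 0 < y) (hy1 : y ≤ 1) {s t : ℝ} (hs : |s| ≤ c) (ht : |t| ≤ c) :
    |Real.exp (y * s) - Real.exp (y * t)| ≤ Real.exp c * |s - t| := by
  refine (exp_mul_sub_le hy0 hy1 s t hs ht).trans ?_
  have h1 : 0 ≤ Real.exp c * |s - t| := by positivity
  nlinarith

theorem App.expo (hP : IsProb P) {n : ℕ} {a : (κ → ℝ) → Ω → ℝ} {F : (β → ℝ) → ℝ} {c L e y : ℝ}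
    (hy0 : 0 < y) (hy1 : y ≤ 1) (h : App P r kap x n a F c L e) :
    App P r kap x n (fun ζ ω => Real.exp (y * a ζ ω)) (fun z => Real.exp (y * F z)) (Real.exp c)
      (Real.exp c * L) (Real.exp c * e) := by
  refine h.comp hP (fun s => Real.exp (y * s)) (by fun_prop) (S := Set.Icc (-c) c)
    (Real.exp_pos c).le ?_ (fun ζ ω => abs_le.1 (h.ba ζ ω)) (fun z => abs_le.1 (h.bF z)) ?_ ?_
  · intro s hs t ht
    exact exp_lip1 hy0 hy1 (abs_le.2 hs) (abs_le.2 ht)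
  · intro ζ ω
    rw [abs_of_pos (Real.exp_pos _)]
    exact (exp_bounds hy0.le hy1 (h.ba ζ ω)).2
  · intro z
    rw [abs_of_pos (Real.exp_pos _)]
    exact (exp_bounds hy0.le hy1 (h.bF z)).2

/-- one step of the free energies. -/
theorem App.stepA (H : RS P r J kap x Q C δ) {n : ℕ} (hn : n ≤ J) {a : (κ → ℝ) → Ω → ℝ}
    {F : (β → ℝ) → ℝ} {c L e y y0 : ℝ} (hy00 : 0 < y0) (hyy : y0 ≤ y) (hy1 : y ≤ 1)
    (h : App P r kap x n a F c L e) :
    App P r kap x (n + 1) (fun ζ ω => pm P (r n) y (a ζ) ω) (gstep y (vQ Q n) F) c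
      (y0⁻¹ * Real.exp c * (Real.exp c * L))
      (y0⁻¹ * Real.exp c * (Real.exp c * e +
        Real.sqrt (Real.exp c * (Real.exp c * L)) * s0 β C δ)) := by
  have hP := H.hP
  have hy0 : 0 < y := lt_of_lt_of_le hy00 hyy
  have hD := (h.expo hP hy0 hy1).cond H hn
  have hlow1 : ∀ ζ ω, Real.exp (-c) ≤ cE P (r n) (fun b => Real.exp (y * a ζ b)) ω := fun ζ ω =>
    le_cE_of_le hP (fun b => (exp_bounds hy0.le hy1 (h.ba ζ b)).1) ω
  have hlow2 : ∀ z, Real.exp (-c) ≤ sm (vQ Q n) (fun z => Real.exp (y * F z)) z := fun z =>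
    (sm_exp_bounds hy0.le hy1 h.hL h.lip h.bF _ z).1
  have hinv : y⁻¹ ≤ y0⁻¹ := inv_anti₀ hy00 hyy
  have h2 := hD.comp hP (fun s => (1 / y) * Real.log s)
    (Real.measurable_log.const_mul _) (S := Set.Ici (Real.exp (-c)))
    (l := y0⁻¹ * Real.exp c) (c' := c) (by positivity) ?_ (fun ζ ω => hlow1 ζ ω) hlow2 ?_ ?_
  · exact h2
  · intro s hs t ht
    rw [← mul_sub, abs_mul, abs_of_pos (by positivity : (0 : ℝ) < 1 / y), one_div, mul_assoc]
    exact mul_le_mul hinv (abs_log_sub_le' hs ht) (abs_nonneg _) (by positivity)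
  · intro ζ ω
    exact abs_le.2 ⟨(pm_const hP (r n) hy0 (-c) ω ▸ pm_mono hP hy0 ω fun b _ => (abs_le.1 (h.ba ζ b)).1),
      (pm_const hP (r n) hy0 c ω ▸ pm_mono hP hy0 ω fun b _ => (abs_le.1 (h.ba ζ b)).2)⟩
  · intro z
    exact gstep_bound hy0 h.hL h.lip h.bF _ hy1 z

/-- Lipschitz constant after one tilted step. -/
def LT (c B L L' : ℝ) : ℝ :=
  Real.exp c * B * (Real.exp c ^ 2 * (Real.exp c * L)) +
    Real.exp c * (Real.exp c * L' + B * (Real.exp c * L))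

/-- error coefficient after one tilted step. -/
def ET (c B L L' E E' : ℝ) : ℝ :=
  Real.exp c * B * (Real.exp c ^ 2 * (Real.exp c * E +
      Real.sqrt (Real.exp c * (Real.exp c * L)))) +
    Real.exp c * ((Real.exp c * E' + B * (Real.exp c * E)) +
      Real.sqrt (Real.exp c * B * (Real.exp c * L' + B * (Real.exp c * L))))

/-- one tilted step. -/
theorem App.stepT (H : RS P r J kap x Q C δ) {n : ℕ} (hn : n ≤ J) {a h : (κ → ℝ) → Ω → ℝ}
    {F G : (β → ℝ) → ℝ} {c B L L' E E' y : ℝ} (hy0 : 0 < y) (hy1 : y ≤ 1)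
    (ha : App P r kap x n a F c L (E * s0 β C δ)) (hh : App P r kap x n h G B L' (E' * s0 β C δ)) :
    App P r kap x (n + 1)
      (fun ζ ω => cE P (r n) (fun b => Real.exp (y * a ζ b) * h ζ b) ω /
        cE P (r n) (fun b => Real.exp (y * a ζ b)) ω)
      (fun z => sm (vQ Q n) (fun z => Real.exp (y * F z) * G z) z /
        sm (vQ Q n) (fun z => Real.exp (y * F z)) z) B (LT c B L L')
      (ET c B L L' E E' * s0 β C δ) := by
  have hP := H.hP
  have hB := hh.c_nonneg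
  have hE := ha.expo hP hy0 hy1
  have hN := (hE.mul hP hh).cond H hn
  have hD := hE.cond H hn
  have hlow1 : ∀ ζ ω, Real.exp (-c) ≤ cE P (r n) (fun b => Real.exp (y * a ζ b)) ω := fun ζ ω =>
    le_cE_of_le hP (fun b => (exp_bounds hy0.le hy1 (ha.ba ζ b)).1) ω
  have hlow2 : ∀ z, Real.exp (-c) ≤ sm (vQ Q n) (fun z => Real.exp (y * F z)) z := fun z =>
    (sm_exp_bounds hy0.le hy1 ha.hL ha.lip ha.bF _ z).1
  have hec : Real.exp c * Real.exp (-c) = 1 := by rw [← Real.exp_add]; simp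
  have hI := hD.comp hP (fun s => s⁻¹) measurable_inv (S := Set.Ici (Real.exp (-c)))
    (l := Real.exp c ^ 2) (c' := Real.exp c) (by positivity) (by
      intro s hs t ht
      have hs0 : 0 < s := lt_of_lt_of_le (Real.exp_pos _) hs
      have ht0 : 0 < t := lt_of_lt_of_le (Real.exp_pos _) ht
      have h1 : s⁻¹ - t⁻¹ = (t - s) * (s⁻¹ * t⁻¹) := by field_simp
      have h2 : s⁻¹ ≤ Real.exp c := by
        rw [inv_le_comm₀ hs0 (Real.exp_pos _), ← Real.exp_neg]; exact hs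
      have h3 : t⁻¹ ≤ Real.exp c := by
        rw [inv_le_comm₀ ht0 (Real.exp_pos _), ← Real.exp_neg]; exact ht
      rw [h1, abs_mul, abs_of_pos (by positivity : 0 < s⁻¹ * t⁻¹), abs_sub_comm, mul_comm, sq]
      exact mul_le_mul_of_nonneg_right (mul_le_mul h2 h3 (by positivity) (by positivity))
        (abs_nonneg _)) (fun ζ ω => hlow1 ζ ω) hlow2 (by
      intro ζ ω
      have h0 : 0 < cE P (r n) (fun b => Real.exp (y * a ζ b)) ω :=
        lt_of_lt_of_le (Real.exp_pos _) (hlow1 ζ ω)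
      rw [abs_of_pos (by positivity), inv_le_comm₀ h0 (Real.exp_pos _), ← Real.exp_neg]
      exact hlow1 ζ ω) (by
      intro z
      have h0 : 0 < sm (vQ Q n) (fun z => Real.exp (y * F z)) z :=
        lt_of_lt_of_le (Real.exp_pos _) (hlow2 z)
      show |(sm (vQ Q n) (fun z => Real.exp (y * F z)) z)⁻¹| ≤ _
      rw [abs_of_pos (by positivity), inv_le_comm₀ h0 (Real.exp_pos _), ← Real.exp_neg]
      exact hlow2 z)
  have hM := hN.mul hP hI
  have hM2 := hM.bound (c' := B) (by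
      intro ζ ω
      have h0 : 0 < cE P (r n) (fun b => Real.exp (y * a ζ b)) ω :=
        lt_of_lt_of_le (Real.exp_pos _) (hlow1 ζ ω)
      rw [← div_eq_mul_inv, abs_div, abs_of_pos h0, div_le_iff₀ h0]
      refine (cE_abs_le hP _ _).trans ?_
      rw [← cE_smul]
      refine cE_mono' hP (fun b => ?_) ω
      rw [abs_mul, abs_of_pos (Real.exp_pos _), mul_comm]
      exact mul_le_mul_of_nonneg_right (hh.ba ζ b) (Real.exp_pos _).le) (by
      intro z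
      have h0 : 0 < sm (vQ Q n) (fun z => Real.exp (y * F z)) z :=
        lt_of_lt_of_le (Real.exp_pos _) (hlow2 z)
      show |sm (vQ Q n) (fun z => Real.exp (y * F z) * G z) z *
        (sm (vQ Q n) (fun z => Real.exp (y * F z)) z)⁻¹| ≤ _
      rw [← div_eq_mul_inv, abs_div, abs_of_pos h0, div_le_iff₀ h0]
      unfold sm
      refine abs_integral_le_integral_abs.trans ?_
      rw [← integral_const_mul]
      refine integral_mono (integrable_shift _ (hE.mul hP hh).lip z).abs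
        ((integrable_shift _ hE.lip z).const_mul B) fun g => ?_
      show |Real.exp _ * G _| ≤ B * Real.exp _
      rw [abs_mul, abs_of_pos (Real.exp_pos _), mul_comm]
      exact mul_le_mul_of_nonneg_right (hh.bF _) (Real.exp_pos _).le)
  refine ⟨?_, ?_, ?_, ?_, ?_, ?_⟩
  · intro ω
    exact hM2.meas ω
  · intro ζ ω
    rw [div_eq_mul_inv]
    exact hM2.ba ζ ω
  · intro z
    rw [div_eq_mul_inv]
    exact hM2.bF z
  · exact hM2.hL
  · exact hM2.lip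
  · refine hM2.err.trans (le_of_eq ?_)
    unfold ET
    ring

theorem skelA_zero' (U : Ω → ℝ) (y : ℕ → ℝ) : skelA P r y U 0 = U := rfl

theorem skelA_succ' (U : Ω → ℝ) (y : ℕ → ℝ) (n : ℕ) :
    skelA P r y U (n + 1) = pm P (r n) (y n) (skelA P r y U n) := rfl

/-- a function of the field point at the leaf. -/
theorem App.leaf {w : (β → ℝ) → ℝ} {L c : ℝ} (hP : IsProb P) (hL : 0 ≤ L) (hw : Lip L w)
    (hc : ∀ z, |w z| ≤ c) :
    App P r kap x 0 (fun ζ ω => w (zf kap (x ω) ζ)) w c L 0 := by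
  refine ⟨fun ω => hw.measurable.comp (measurable_zf kap _), fun ζ ω => hc _, hc, hL, hw, ?_⟩
  have h1 : ∀ ζ ω, |w (zf kap (x ω) ζ) - w (zf kap (XX P r x 0 ω) ζ)| = 0 := by
    intro ζ ω
    show |w (zf kap (x ω) ζ) - w (zf kap (x ω) ζ)| = 0
    simp
  simp_rw [h1, eE_const hP]
  simp

end

/-- the free energies along the skeleton. -/
theorem chainA (β : Type) [Fintype β] [DecidableEq β] (J : ℕ) (y : ℕ → ℝ) {y0 c L : ℝ} (C : ℝ)
    (hy0 : 0 < y0) (hy : ∀ n ≤ J, y0 ≤ y n) (hy1 : ∀ n ≤ J, y n ≤ 1) (hL : 0 ≤ L) :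
    ∀ n ≤ J + 1, ∃ L' E' : ℝ, 0 ≤ L' ∧ 0 ≤ E' ∧
    ∀ {Ω κ : Type} [Fintype Ω] [Fintype κ] (P : Ω → ℝ) (r : ℕ → Setoid Ω) (kap : κ → β)
      (x : Ω → κ → ℝ) (Q : ℕ → β → ℝ) (δ : ℝ), RS P r J kap x Q C δ →
      ∀ w : (β → ℝ) → ℝ, Lip L w → (∀ z, |w z| ≤ c) →
      App P r kap x n (fun ζ => skelA P r y (fun ω => w (zf kap (x ω) ζ)) n)
        (th y (vQ Q) w n) c L' (E' * s0 β C δ) := by
  intro n
  induction n with
  | zero =>
    intro _
    refine ⟨L, 0, hL, le_refl _, ?_⟩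
    intro Ω κ _ _ P r kap x Q δ H w hw hc
    rw [zero_mul]
    exact App.leaf H.hP hL hw hc
  | succ n ih =>
    intro hn
    obtain ⟨L', E', h1, h2, h3⟩ := ih (by omega)
    refine ⟨y0⁻¹ * Real.exp c * (Real.exp c * L'), y0⁻¹ * Real.exp c * (Real.exp c * E' +
        Real.sqrt (Real.exp c * (Real.exp c * L'))), by positivity, by positivity, ?_⟩
    intro Ω κ _ _ P r kap x Q δ H w hw hc
    have h4 := (h3 P r kap x Q δ H w hw hc).stepA H (by omega : n ≤ J) hy0 (hy n (by omega))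
      (hy1 n (by omega))
    refine h4.weaken le_rfl (le_of_eq ?_)
    ring

/-- the tilted conditional expectations along the skeleton. -/
theorem chainT (β : Type) [Fintype β] [DecidableEq β] (J : ℕ) (y : ℕ → ℝ) {y0 c L : ℝ} (C : ℝ)
    (hy0 : 0 < y0) (hy : ∀ n ≤ J, y0 ≤ y n) (hy1 : ∀ n ≤ J, y n ≤ 1) (hL : 0 ≤ L)
    {B L0 E0 : ℝ} (hB : 0 ≤ B) (hL0 : 0 ≤ L0) (hE0 : 0 ≤ E0) (n0 : ℕ) :
    ∀ i, n0 + i ≤ J + 1 → ∃ L' E' : ℝ, 0 ≤ L' ∧ 0 ≤ E' ∧
    ∀ {Ω κ : Type} [Fintype Ω] [Fintype κ] (P : Ω → ℝ) (r : ℕ → Setoid Ω) (kap : κ → β)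
      (x : Ω → κ → ℝ) (Q : ℕ → β → ℝ) (δ : ℝ), RS P r J kap x Q C δ →
      ∀ w : (β → ℝ) → ℝ, Lip L w → (∀ z, |w z| ≤ c) →
      ∀ (h : (κ → ℝ) → Ω → ℝ) (G : (β → ℝ) → ℝ), App P r kap x n0 h G B L0 (E0 * s0 β C δ) →
      App P r kap x (n0 + i)
        (fun ζ => tsk P r y (fun ω => w (zf kap (x ω) ζ)) n0 (h ζ) i)
        (gsk y (vQ Q) w n0 G i) B L' (E' * s0 β C δ) := by
  intro i
  induction i with
  | zero =>
    intro _
    exact ⟨L0, E0, hL0, hE0, fun P r kap x Q δ H w hw hc h G hh => hh⟩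
  | succ i ih =>
    intro hn
    obtain ⟨L', E', h1, h2, h3⟩ := ih (by omega)
    obtain ⟨LA, EA, h4, h5, h6⟩ := chainA β J y C hy0 hy hy1 hL (c := c) (n0 + i) (by omega)
    refine ⟨LT c B LA L', ET c B LA L' EA E', ?_, ?_, ?_⟩
    · unfold LT; positivity
    · unfold ET; positivity
    intro Ω κ _ _ P r kap x Q δ H w hw hc h G hh
    exact (h6 P r kap x Q δ H w hw hc).stepT H (by omega : n0 + i ≤ J)
      (lt_of_lt_of_le hy0 (hy _ (by omega))) (hy1 _ (by omega)) (h3 P r kap x Q δ H w hw hc h G hh)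

/-- the error unit is small. -/
theorem s0_small (β : Type) [Fintype β] (C : ℝ) {ε : ℝ} (hε : 0 < ε) :
    ∃ d > 0, ∀ δ, 0 ≤ δ → δ ≤ d → s0 β C δ ≤ ε ∧ Real.sqrt δ ≤ ε := by
  have hc : Continuous fun δ : ℝ => s0 β C δ := by
    unfold s0 etaB
    fun_prop
  have h0 : s0 β C 0 = 0 := by
    unfold s0 etaB
    simp
  have h1 : Filter.Tendsto (fun δ : ℝ => s0 β C δ) (nhds 0) (nhds 0) := by
    have := hc.tendsto 0
    simpa [h0] using this
  have h1' : Filter.Tendsto (fun δ : ℝ => Real.sqrt δ) (nhds 0) (nhds 0) := by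
    have := Real.continuous_sqrt.tendsto 0
    simpa using this
  have h2 := (h1.eventually (gt_mem_nhds hε)).and (h1'.eventually (gt_mem_nhds hε))
  obtain ⟨d, hd, h3⟩ := Metric.eventually_nhds_iff.1 h2
  refine ⟨d / 2, by positivity, fun δ h4 h5 => ?_⟩
  have h6 := h3 (y := δ) (by rw [Real.dist_eq, sub_zero, abs_of_nonneg h4]; linarith)
  exact ⟨h6.1.le, h6.2.le⟩

/-- **Pair expectations along the skeleton** converge to those of the nested Gaussian model. -/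
theorem pair_limit (β : Type) [Fintype β] [DecidableEq β] (J : ℕ) (y : ℕ → ℝ)
    {y0 c L B1 B2 L1 L2 : ℝ} (C : ℝ)
    (hy0 : 0 < y0) (hy : ∀ n ≤ J, y0 ≤ y n) (hy1 : ∀ n ≤ J, y n ≤ 1) (hL : 0 ≤ L)
    (hB1 : 0 ≤ B1) (hB2 : 0 ≤ B2) (hL1 : 0 ≤ L1) (hL2 : 0 ≤ L2) {n0 : ℕ} (hn0 : n0 ≤ J + 1)
    {ε : ℝ} (hε : 0 < ε) :
    ∃ d > 0, ∀ {Ω κ : Type} [Fintype Ω] [Fintype κ] (P : Ω → ℝ) (r : ℕ → Setoid Ω) (kap : κ → β)
      (x : Ω → κ → ℝ) (Q : ℕ → β → ℝ) (δ : ℝ), RS P r J kap x Q C δ → δ ≤ d →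
      ∀ w φ1 φ2 : (β → ℝ) → ℝ, Lip L w → (∀ z, |w z| ≤ c) → Lip L1 φ1 → (∀ z, |φ1 z| ≤ B1) →
      Lip L2 φ2 → (∀ z, |φ2 z| ≤ B2) →
      |∫ ζ, eE P (tsk P r y (fun ω => w (zf kap (x ω) ζ)) n0 (fun ω =>
          tsk P r y (fun ω => w (zf kap (x ω) ζ)) 0 (fun ω => φ1 (zf kap (x ω) ζ)) n0 ω *
          tsk P r y (fun ω => w (zf kap (x ω) ζ)) 0 (fun ω => φ2 (zf kap (x ω) ζ)) n0 ω)
          (J + 1 - n0)) ∂(gm κ) -
        sm (Q (J + 1)) (gsk y (vQ Q) w n0 (fun z => gsk y (vQ Q) w 0 φ1 n0 z *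
          gsk y (vQ Q) w 0 φ2 n0 z) (J + 1 - n0)) 0| ≤ ε := by
  obtain ⟨LL1, EE1, h1, h2, h3⟩ := chainT β J y (c := c) C hy0 hy hy1 hL hB1 hL1 (le_refl 0) 0
    n0 (by omega)
  obtain ⟨LL2, EE2, h4, h5, h6⟩ := chainT β J y (c := c) C hy0 hy hy1 hL hB2 hL2 (le_refl 0) 0
    n0 (by omega)
  obtain ⟨LL, EE, h7, h8, h9⟩ := chainT β J y (c := c) C hy0 hy hy1 hL
    (B := B1 * B2) (L0 := B1 * LL2 + B2 * LL1) (E0 := B1 * EE2 + B2 * EE1)
    (by positivity) (by positivity) (by positivity) n0 (J + 1 - n0) (by omega)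
  obtain ⟨d, hd, h10⟩ := s0_small β C (ε := ε / (EE + LL * Fintype.card β + 1)) (by positivity)
  refine ⟨d, hd, ?_⟩
  intro Ω κ _ _ P r kap x Q δ H hδ w φ1 φ2 hw hc hφ1 hb1 hφ2 hb2
  have a1 := h3 P r kap x Q δ H w hw hc (fun ζ ω => φ1 (zf kap (x ω) ζ)) φ1
    (by rw [zero_mul]; exact App.leaf H.hP hL1 hφ1 hb1)
  have a2 := h6 P r kap x Q δ H w hw hc (fun ζ ω => φ2 (zf kap (x ω) ζ)) φ2
    (by rw [zero_mul]; exact App.leaf H.hP hL2 hφ2 hb2)
  rw [zero_add] at a1 a2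
  have a3 := (a1.mul H.hP a2).weaken (L' := B1 * LL2 + B2 * LL1)
    (e' := (B1 * EE2 + B2 * EE1) * s0 β C δ) le_rfl (le_of_eq (by ring))
  have a4 := h9 P r kap x Q δ H w hw hc _ _ a3
  have e1 : n0 + (J + 1 - n0) = J + 1 := by omega
  rw [e1] at a4
  have a5 := a4.bottom H
  refine a5.trans ?_
  obtain ⟨h11, h12⟩ := h10 δ H.hδ hδ
  have h13 : EE * s0 β C δ ≤ EE * (ε / (EE + LL * Fintype.card β + 1)) :=
    mul_le_mul_of_nonneg_left h11 h8
  have h14 : LL * ((Fintype.card β : ℝ) * Real.sqrt δ) ≤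
      LL * ((Fintype.card β : ℝ) * (ε / (EE + LL * Fintype.card β + 1))) :=
    mul_le_mul_of_nonneg_left (mul_le_mul_of_nonneg_left h12 (by positivity)) h7
  have h15 : EE * (ε / (EE + LL * Fintype.card β + 1)) +
      LL * ((Fintype.card β : ℝ) * (ε / (EE + LL * Fintype.card β + 1))) ≤ ε := by
    have h16 : 0 < EE + LL * Fintype.card β + 1 := by positivity
    rw [← mul_div_assoc, ← mul_div_assoc, ← mul_div_assoc, ← add_div, div_le_iff₀ h16]
    nlinarith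
  linarith

end

end Crest.Agent.R146.RowChain_874
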