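import Crest.Agent.R146.RowDef_874
import Crest.Agent.R146.RowChain2_874

/-!
Row 146, node ROWOBS (helper874), part 5: for functions which are sums/products over the blocks,
the nested Gaussian model with equal variances factorises into copies of the one-row limit model
of `RowDef_874`.
-/

set_option autoImplicit false

namespace Crest.Agent.R146.RowFact_874

open Finset MeasureTheory ProbabilityTheory Crest.Agent.R141 Crest.Agent.R141.Fact
open Crest.Agent.R164.CavG Crest.Agent.R146.RowChain_874 Crest.Agent.R146.RowDef_874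
open Crest.Agent.R146.S6Def_988
open Crest.ProbabilityR.InvariantGlass (gaussOp)

noncomputable section

section

variable {β : Type} [Fintype β]

theorem sm_prod (v : β → ℝ) (F : β → ℝ → ℝ) (z : β → ℝ) :
    sm v (fun z => ∏ k, F k (z k)) z = ∏ k, Crest.Agent.R164.GC.H (Real.sqrt (v k)) (F k) (z k) := by
  unfold sm Crest.Agent.R164.GC.H
  exact integral_fintype_prod_eq_prod (fun k g => F k (z k + Real.sqrt (v k) * g))

end

theorem lip_unit {L : ℝ} {f : ℝ → ℝ} (hf : ∀ x y, |f x - f y| ≤ L * |x - y|) :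
    Lip L (fun z : Unit → ℝ => f (z ())) := by
  intro z z'
  simpa using hf (z ()) (z' ())

theorem gaussOp_eq_gstep {y : ℝ} (hy : y ≠ 0) (v : ℝ) (f : ℝ → ℝ) (x : ℝ) :
    gaussOp y v f x = gstep y (fun _ : Unit => v) (fun z => f (z ())) (fun _ => x) := by
  unfold gaussOp
  rw [if_neg hy]
  have h1 := sm_prod (β := Unit) (fun _ => v) (fun _ s => Real.exp (y * f s)) (fun _ => x)
  simp only [univ_unique, prod_singleton] at h1
  rw [gstep_eq_sm, one_div]
  congr 2
  exact h1.symm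

/-- `gaussOp` preserves bounded Lipschitz functions. -/
theorem gaussOp_BL {y K L : ℝ} (hy0 : 0 < y) (hy1 : y ≤ 1) (hL : 0 ≤ L) (v : ℝ) {f : ℝ → ℝ}
    (hf : BL K L f) : BL K L (gaussOp y v f) := by
  constructor
  · intro x
    rw [gaussOp_eq_gstep hy0.ne']
    exact gstep_bound hy0 hL (lip_unit hf.lip) (fun z => hf.bd _) _ hy1 _
  · intro x x'
    rw [gaussOp_eq_gstep hy0.ne', gaussOp_eq_gstep hy0.ne']
    have h := gstep_lip hy0 hy1 hL (lip_unit hf.lip) (fun z => hf.bd _) (fun _ : Unit => v)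
      (fun _ => x) (fun _ => x')
    simpa using h

theorem mJ_pos {J j : ℕ} (hj : 1 ≤ j) : 0 < mJ J j := by
  unfold mJ
  have : (0 : ℝ) < j := by exact_mod_cast hj
  positivity

theorem mJ_le_one {J j : ℕ} (hj : j ≤ J + 1) : mJ J j ≤ 1 := by
  unfold mJ
  rw [div_le_one (by positivity)]
  exact_mod_cast hj

theorem mJ_eq_ySk {J n : ℕ} (hn : n ≤ J + 1) : mJ J (J + 1 - n) = ySk J n := by
  unfold mJ ySk
  rw [Nat.cast_sub hn]
  push_cast
  rfl

/-- the value functions are bounded Lipschitz (`j ≥ 1`). -/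
theorem Psi_BL {J : ℕ} {f : ℝ → ℝ} {K L : ℝ} (hL : 0 ≤ L) (hf : BL K L f) (P : ℕ → ℝ) :
    ∀ n ≤ J + 1, BL K L (Psi J f P (J + 2 - n)) := by
  intro n
  induction n with
  | zero => intro _; rw [Nat.sub_zero, Psi_last]; exact hf
  | succ n ih =>
    intro hn
    have h1 : J + 2 - (n + 1) < J + 2 := by omega
    rw [Psi_step J f P h1]
    have h2 : J + 2 - (n + 1) + 1 = J + 2 - n := by omega
    rw [h2]
    exact gaussOp_BL (mJ_pos (by omega)) (mJ_le_one (by omega)) hL _ (ih (by omega))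

section

variable {β : Type} [Fintype β]

/-- levels of the model at the depths. -/
def Qd (β : Type) (J : ℕ) (P : ℕ → ℝ) (n : ℕ) (_ : β) : ℝ := tP J P (J + 2 - n)

/-- the value functions of a sum factorise. -/
theorem th_sum (J : ℕ) {f : ℝ → ℝ} {K L : ℝ} (hL : 0 ≤ L) (hf : BL K L f) (P : ℕ → ℝ) :
    ∀ n ≤ J + 1, ∀ z : β → ℝ,
    th (ySk J) (vQ (Qd β J P)) (fun z => ∑ k, f (z k)) n z = ∑ k, Psi J f P (J + 2 - n) (z k) := by
  intro n
  induction n with
  | zero => intro _ z; rw [th_zero, Nat.sub_zero, Psi_last]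
  | succ n ih =>
    intro hn z
    have ih' : th (ySk J) (vQ (Qd β J P)) (fun z => ∑ k, f (z k)) n =
        fun z => ∑ k, Psi J f P (J + 2 - n) (z k) := funext (ih (by omega))
    rw [th_succ, ih', gstep_eq_sm]
    have hy : 0 < ySk J n := ySk_pos (by omega)
    have e1 : (fun z : β → ℝ => Real.exp (ySk J n * ∑ k, Psi J f P (J + 2 - n) (z k))) =
        fun z => ∏ k, Real.exp (ySk J n * Psi J f P (J + 2 - n) (z k)) := by
      funext z
      rw [Finset.mul_sum, Real.exp_sum]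
    rw [e1, sm_prod _ (fun _ s => Real.exp (ySk J n * Psi J f P (J + 2 - n) s)), Real.log_prod]
    · rw [Finset.mul_sum]
      refine Finset.sum_congr rfl fun k _ => ?_
      have h1 : J + 2 - (n + 1) < J + 2 := by omega
      rw [Psi_step J f P h1]
      have h2 : J + 2 - (n + 1) + 1 = J + 2 - n := by omega
      have h3 : J + 2 - (n + 1) = J + 1 - n := by omega
      rw [h2, h3, mJ_eq_ySk (by omega)]
      unfold gaussOp
      rw [if_neg hy.ne', one_div]
      congr 2
      unfold vQ Qd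
      rw [show J + 2 - (n + 1) = J + 1 - n by omega]
      rfl
    · intro k _
      have hbl := Psi_BL (J := J) hL hf P n (by omega)
      have hc : Continuous (Psi J f P (J + 2 - n)) := by
        have := cont_of_lip1 hbl.lip
        exact this
      have heg : Crest.Agent.R164.GC.EG (fun s => Real.exp (ySk J n * Psi J f P (J + 2 - n) s)) :=
        Crest.Agent.R164.GC.EG.of_bdd (by fun_prop) (K := Real.exp K) (fun s => by
          rw [abs_of_pos (Real.exp_pos _)]
          exact (exp_bounds hy.le (ySk_le_one J n) (hbl.bd s)).2)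
      exact (Crest.Agent.R164.GC.H_pos heg (fun s => Real.exp_pos _) _ _).ne'

/-- the tilted conditional expectations of a product factorise. -/
theorem gsk_prod (J : ℕ) {f : ℝ → ℝ} {K L : ℝ} (hL : 0 ≤ L) (hf : BL K L f) (P : ℕ → ℝ)
    {n0 : ℕ} (h : β → ℝ → ℝ) : ∀ i, n0 + i ≤ J + 1 → ∀ z : β → ℝ,
    gsk (ySk J) (vQ (Qd β J P)) (fun z => ∑ k, f (z k)) n0 (fun z => ∏ k, h k (z k)) i z =
      ∏ k, cX J f P (J + 2 - n0) (h k) (J + 2 - n0 - i) (z k) := by
  intro i
  induction i with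
  | zero =>
    intro _ z
    show ∏ k, h k (z k) = _
    refine Finset.prod_congr rfl fun k _ => ?_
    rw [Nat.sub_zero, cX_self]
  | succ i ih =>
    intro hi z
    have ih' : gsk (ySk J) (vQ (Qd β J P)) (fun z => ∑ k, f (z k)) n0 (fun z => ∏ k, h k (z k)) i =
        fun z => ∏ k, cX J f P (J + 2 - n0) (h k) (J + 2 - n0 - i) (z k) :=
      funext (ih (by omega))
    have hth : th (ySk J) (vQ (Qd β J P)) (fun z => ∑ k, f (z k)) (n0 + i) =
        fun z => ∑ k, Psi J f P (J + 2 - (n0 + i)) (z k) :=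
      funext (th_sum J hL hf P (n0 + i) (by omega))
    show sm (vQ (Qd β J P) (n0 + i)) (fun z => Real.exp (ySk J (n0 + i) *
        th (ySk J) (vQ (Qd β J P)) (fun z => ∑ k, f (z k)) (n0 + i) z) *
        gsk (ySk J) (vQ (Qd β J P)) (fun z => ∑ k, f (z k)) n0 (fun z => ∏ k, h k (z k)) i z) z /
      sm (vQ (Qd β J P) (n0 + i)) (fun z => Real.exp (ySk J (n0 + i) *
        th (ySk J) (vQ (Qd β J P)) (fun z => ∑ k, f (z k)) (n0 + i) z)) z = _
    rw [ih', hth]
    have e1 : (fun z : β → ℝ => Real.exp (ySk J (n0 + i) *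
        ∑ k, Psi J f P (J + 2 - (n0 + i)) (z k)) *
        ∏ k, cX J f P (J + 2 - n0) (h k) (J + 2 - n0 - i) (z k)) =
        fun z => ∏ k, (fun s => cX J f P (J + 2 - n0) (h k) (J + 2 - n0 - i) s *
          Real.exp (ySk J (n0 + i) * Psi J f P (J + 2 - (n0 + i)) s)) (z k) := by
      funext z
      rw [Finset.mul_sum, Real.exp_sum, ← Finset.prod_mul_distrib]
      exact Finset.prod_congr rfl fun k _ => mul_comm _ _
    have e2 : (fun z : β → ℝ => Real.exp (ySk J (n0 + i) *
        ∑ k, Psi J f P (J + 2 - (n0 + i)) (z k))) =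
        fun z => ∏ k, (fun s => Real.exp (ySk J (n0 + i) * Psi J f P (J + 2 - (n0 + i)) s))
          (z k) := by
      funext z
      rw [Finset.mul_sum, Real.exp_sum]
    rw [e1, e2, sm_prod _ (fun k s => cX J f P (J + 2 - n0) (h k) (J + 2 - n0 - i) s *
          Real.exp (ySk J (n0 + i) * Psi J f P (J + 2 - (n0 + i)) s)),
      sm_prod _ (fun _ s => Real.exp (ySk J (n0 + i) * Psi J f P (J + 2 - (n0 + i)) s)),
      ← Finset.prod_div_distrib]
    refine Finset.prod_congr rfl fun k _ => ?_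
    have h1 : J + 2 - n0 - (i + 1) < J + 2 - n0 := by omega
    rw [cX_step J f P (h k) h1]
    have h2 : J + 2 - n0 - (i + 1) + 1 = J + 2 - n0 - i := by omega
    have h3 : J + 2 - n0 - (i + 1) = J + 1 - (n0 + i) := by omega
    have h4 : J + 2 - n0 - i = J + 2 - (n0 + i) := by omega
    have h5 : J + 1 - (n0 + i) + 1 = J + 2 - (n0 + i) := by omega
    rw [h3, mJ_eq_ySk (n := n0 + i) (by omega), h4, h5]
    unfold Crest.Agent.R164.GC.tE
    have h6 : vQ (Qd β J P) (n0 + i) k = tP J P (J + 2 - (n0 + i)) - tP J P (J + 1 - (n0 + i)) := by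
      unfold vQ Qd
      rw [show J + 2 - (n0 + i + 1) = J + 1 - (n0 + i) by omega]
    rw [h6]

/-- **Factorisation** of the limit of the pair expectations. -/
theorem pair_value (J : ℕ) {f : ℝ → ℝ} {K L : ℝ} (hL : 0 ≤ L) (hf : BL K L f) (P : ℕ → ℝ)
    {n0 : ℕ} (hn0 : n0 ≤ J + 1) (φ ψ : β → ℝ → ℝ) :
    sm (Qd β J P (J + 1)) (gsk (ySk J) (vQ (Qd β J P)) (fun z => ∑ k, f (z k)) n0
      (fun z => gsk (ySk J) (vQ (Qd β J P)) (fun z => ∑ k, f (z k)) 0
          (fun z => ∏ k, φ k (z k)) n0 z *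
        gsk (ySk J) (vQ (Qd β J P)) (fun z => ∑ k, f (z k)) 0
          (fun z => ∏ k, ψ k (z k)) n0 z) (J + 1 - n0)) 0 =
      ∏ k, kapX J f P (J + 1 - n0) (φ k) (ψ k) := by
  have e1 : (fun z => gsk (ySk J) (vQ (Qd β J P)) (fun z => ∑ k, f (z k)) 0
          (fun z => ∏ k, φ k (z k)) n0 z *
        gsk (ySk J) (vQ (Qd β J P)) (fun z => ∑ k, f (z k)) 0
          (fun z => ∏ k, ψ k (z k)) n0 z) =
      fun z : β → ℝ => ∏ k, (fun s => cX J f P (J + 2) (φ k) (J + 2 - n0) s *
        cX J f P (J + 2) (ψ k) (J + 2 - n0) s) (z k) := by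
    funext z
    rw [gsk_prod J hL hf P φ n0 (by omega) z, gsk_prod J hL hf P ψ n0 (by omega) z,
      ← Finset.prod_mul_distrib]
    rfl
  rw [e1]
  have e2 : gsk (ySk J) (vQ (Qd β J P)) (fun z => ∑ k, f (z k)) n0
      (fun z : β → ℝ => ∏ k, (fun s => cX J f P (J + 2) (φ k) (J + 2 - n0) s *
        cX J f P (J + 2) (ψ k) (J + 2 - n0) s) (z k)) (J + 1 - n0) =
      fun z => ∏ k, cX J f P (J + 2 - n0) (fun s => cX J f P (J + 2) (φ k) (J + 2 - n0) s *
        cX J f P (J + 2) (ψ k) (J + 2 - n0) s) 1 (z k) := by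
    funext z
    rw [gsk_prod J hL hf P (fun k s => cX J f P (J + 2) (φ k) (J + 2 - n0) s *
        cX J f P (J + 2) (ψ k) (J + 2 - n0) s) (J + 1 - n0) (by omega) z,
      show J + 2 - n0 - (J + 1 - n0) = 1 by omega]
  rw [e2, sm_prod _ (fun k => cX J f P (J + 2 - n0)
    (fun s => cX J f P (J + 2) (φ k) (J + 2 - n0) s *
        cX J f P (J + 2) (ψ k) (J + 2 - n0) s) 1)]
  refine Finset.prod_congr rfl fun k _ => ?_
  unfold kapX
  have h1 : J + 1 - n0 + 1 = J + 2 - n0 := by omega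
  rw [h1, cX_step J f P _ (by omega : 0 < J + 2 - n0)]
  have h2 : mJ J 0 = 0 := by unfold mJ; simp
  rw [h2, Crest.Agent.R164.GC.tE_zero]
  have h3 : Qd β J P (J + 1) k = tP J P (0 + 1) - tP J P 0 := by
    unfold Qd
    rw [show J + 2 - (J + 1) = 0 + 1 by omega]
    have : tP J P 0 = 0 := by unfold tP; simp
    rw [this, sub_zero]
  rw [h3]
  rfl

end

end

end Crest.Agent.R146.RowFact_874
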