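import Crest.Agent.R146.RowDef2_874
import Crest.Agent.R146.RowFact_874
import Crest.Agent.R146.LimIbp_290
import Crest.Agent.R146.Noise2_143

/-!
Row 146, S0206, node ROWOBS (helper143): from the values of the one-row and two-row observables
(`TWO`) to the concentration of the row statistics (`RowDef2_874.ROb`, bounded test functions), by the second
moment.
-/

set_option autoImplicit false

namespace Crest.Agent.R146.RoTwo_143

open Finset MeasureTheory ProbabilityTheory Crest.Agent.R141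
open Crest.Agent.R146.S6Def_988 Crest.Agent.R146.S6U_988 Crest.Agent.R146.S6L_988
open Crest.Agent.R146.RowDef_874 Crest.Agent.R146.Noise2_143

noncomputable section

/-! ### Abstract second moment argument -/

/-- a family of positive normalised linear functionals. -/
structure Fam {Z S : Type*} [MeasurableSpace Z] (E : Z → (S → ℝ) → ℝ) : Prop where
  add : ∀ z f g, E z (fun s => f s + g s) = E z f + E z g
  smul : ∀ z c f, E z (fun s => c * f s) = c * E z f
  mono : ∀ z f g, (∀ s, f s ≤ g s) → E z f ≤ E z g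
  one : ∀ z, E z (fun _ => 1) = 1
  meas : ∀ F : Z → S → ℝ, (∀ s, Measurable fun z => F z s) → Measurable fun z => E z (F z)

section abstract

variable {Z S : Type*} [MeasurableSpace Z] {E : Z → (S → ℝ) → ℝ}

theorem Fam.const (h : Fam E) (z : Z) (c : ℝ) : E z (fun _ => c) = c := by
  have := h.smul z c (fun _ => 1)
  simpa [h.one] using this

theorem Fam.abs_bd (h : Fam E) {D : ℝ} {z : Z} {f : S → ℝ} (hf : ∀ s, |f s| ≤ D) :
    |E z f| ≤ D := by
  rw [abs_le]
  constructor
  · rw [← h.const z (-D)]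
    exact h.mono z _ _ fun s => (abs_le.1 (hf s)).1
  · rw [← h.const z D]
    exact h.mono z _ _ fun s => (abs_le.1 (hf s)).2

theorem Fam.sq_abs_le (h : Fam E) (z : Z) (f : S → ℝ) :
    (E z (fun s => |f s|)) ^ 2 ≤ E z (fun s => f s ^ 2) := by
  set t := E z (fun s => |f s|) with ht
  have h1 : E z (fun s => (2 * t) * |f s| + -(t ^ 2)) ≤ E z (fun s => f s ^ 2) :=
    h.mono z _ _ fun s => by nlinarith [sq_nonneg (|f s| - t), sq_abs (f s)]
  rw [h.add, h.smul, h.const, ← ht] at h1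
  nlinarith

theorem Fam.sum (h : Fam E) {ι : Type*} (T : Finset ι) (z : Z) (f : ι → S → ℝ) :
    E z (fun s => ∑ i ∈ T, f i s) = ∑ i ∈ T, E z (f i) := by
  classical
  induction T using Finset.induction_on with
  | empty => simpa using h.const z 0
  | insert a T ha ih =>
    simp only [Finset.sum_insert ha]
    rw [h.add, ih]

theorem Fam.int (h : Fam E) (μ : Measure Z) [IsProbabilityMeasure μ] {F : Z → S → ℝ} {D : ℝ}
    (hF : ∀ s, Measurable fun z => F z s) (hD : ∀ z s, |F z s| ≤ D) :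
    Integrable (fun z => E z (F z)) μ := by
  refine Integrable.of_bound (C := D) (h.meas F hF).aestronglyMeasurable ?_
  refine Filter.Eventually.of_forall fun z => ?_
  rw [Real.norm_eq_abs]
  exact h.abs_bd (hD z)

theorem int4 (μ : Measure Z) [IsProbabilityMeasure μ] {a b c : Z → ℝ} (ha : Integrable a μ)
    (hb : Integrable b μ) (hc : Integrable c μ) (p q k : ℝ) :
    ∫ z, (a z + p * b z + q * c z + k) ∂μ = ∫ z, a z ∂μ + p * ∫ z, b z ∂μ + q * ∫ z, c z ∂μ + k := by
  have h1 : Integrable (fun z => a z + p * b z) μ := ha.add (hb.const_mul p)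
  have h2 : Integrable (fun z => a z + p * b z + q * c z) μ := h1.add (hc.const_mul q)
  rw [integral_add h2 (integrable_const k), integral_add h1 (hc.const_mul q),
    integral_add ha (hb.const_mul p), integral_const_mul, integral_const_mul]
  simp

/-- second moment bound. -/
theorem Fam.conc (h : Fam E) (μ : Measure Z) [IsProbabilityMeasure μ] {M : ℕ}
    {X : Fin M → Z → S → ℝ} {D κ e : ℝ} (he : 0 ≤ e) (he1 : e ≤ 1) (hD0 : 0 ≤ D)
    (hX : ∀ a s, Measurable fun z => X a z s) (hD : ∀ a z s, |X a z s| ≤ D)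
    (h1 : ∀ a, |∫ z, E z (X a z) ∂μ - κ| ≤ e)
    (h2 : ∀ a a', a ≠ a' → |∫ z, E z (fun s => X a z s * X a' z s) ∂μ - κ ^ 2| ≤ e) (N : ℕ) :
    (∫ z, E z (fun s => |(N : ℝ)⁻¹ * ∑ a, X a z s - (M : ℝ) / N * κ|) ∂μ) ^ 2 ≤
      ((M : ℝ) / N) ^ 2 * (e * (2 * D + 3)) + (M : ℝ) / N / N * (2 * D + 1) ^ 2 := by
  classical
  rcases Nat.eq_zero_or_pos M with hM | hM
  · subst hM
    have e0 : (fun z => E z (fun s => |(N : ℝ)⁻¹ * ∑ a, X a z s - ((0 : ℕ) : ℝ) / N * κ|)) =
        fun _ => 0 := by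
      funext z
      have : (fun s => |(N : ℝ)⁻¹ * ∑ a, X a z s - ((0 : ℕ) : ℝ) / N * κ|) =
          fun _ => (0 : ℝ) := by
        funext s
        simp
      rw [this, h.const]
    rw [e0]
    simp
  have ha0 : Fin M := ⟨0, hM⟩
  -- bound of κ
  have hκ : |κ| ≤ D + 1 := by
    have b1 : |∫ z, E z (X ha0 z) ∂μ| ≤ D := by
      rw [← Real.norm_eq_abs]
      refine (norm_integral_le_of_norm_le_const (C := D)
        (Filter.Eventually.of_forall fun z => ?_)).trans ?_
      · rw [Real.norm_eq_abs]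
        exact h.abs_bd (hD ha0 z)
      · simp
    have b2 := h1 ha0
    calc |κ| = |∫ z, E z (X ha0 z) ∂μ - (∫ z, E z (X ha0 z) ∂μ - κ)| := by
          congr 1; ring
      _ ≤ |∫ z, E z (X ha0 z) ∂μ| + |∫ z, E z (X ha0 z) ∂μ - κ| := abs_sub _ _
      _ ≤ D + 1 := by linarith
  set Y : Fin M → Z → S → ℝ := fun a z s => X a z s - κ with hY
  have hYm : ∀ a s, Measurable fun z => Y a z s := fun a s => (hX a s).sub_const _
  have hYb : ∀ a z s, |Y a z s| ≤ 2 * D + 1 := by
    intro a z s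
    calc |X a z s - κ| ≤ |X a z s| + |κ| := abs_sub _ _
      _ ≤ 2 * D + 1 := by linarith [hD a z s]
  have e1 : ∀ z s, (N : ℝ)⁻¹ * ∑ a, X a z s - (M : ℝ) / N * κ = (N : ℝ)⁻¹ * ∑ a, Y a z s := by
    intro z s
    simp only [hY, Finset.sum_sub_distrib, Finset.sum_const, Finset.card_univ, Fintype.card_fin,
      nsmul_eq_mul]
    ring
  simp only [e1]
  -- Cauchy-Schwarz
  have hTm : ∀ s, Measurable fun z => (N : ℝ)⁻¹ * ∑ a, Y a z s := fun s =>
    (Finset.measurable_sum _ fun a _ => hYm a s).const_mul _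
  have hTb : ∀ z s, |(N : ℝ)⁻¹ * ∑ a, Y a z s| ≤ (N : ℝ)⁻¹ * (M * (2 * D + 1)) := by
    intro z s
    rw [abs_mul, abs_of_nonneg (by positivity : (0 : ℝ) ≤ (N : ℝ)⁻¹)]
    refine mul_le_mul_of_nonneg_left ?_ (by positivity)
    refine (Finset.abs_sum_le_sum_abs _ _).trans ?_
    refine (Finset.sum_le_sum fun a _ => hYb a z s).trans (le_of_eq ?_)
    rw [Finset.sum_const, Finset.card_univ, Fintype.card_fin, nsmul_eq_mul]
  set c : ℝ := (N : ℝ)⁻¹ * (M * (2 * D + 1)) with hc
  have i1 : Integrable (fun z => E z (fun s => |(N : ℝ)⁻¹ * ∑ a, Y a z s|)) μ :=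
    h.int μ (D := c) (fun s => (hTm s).abs) fun z s => by rw [abs_abs]; exact hTb z s
  have i2 : Integrable (fun z => E z (fun s => ((N : ℝ)⁻¹ * ∑ a, Y a z s) ^ 2)) μ :=
    h.int μ (D := c ^ 2) (fun s => (hTm s).pow_const 2) fun z s => by
      rw [abs_pow]
      exact pow_le_pow_left₀ (abs_nonneg _) (hTb z s) 2
  have cs : (∫ z, E z (fun s => |(N : ℝ)⁻¹ * ∑ a, Y a z s|) ∂μ) ^ 2 ≤
      ∫ z, E z (fun s => ((N : ℝ)⁻¹ * ∑ a, Y a z s) ^ 2) ∂μ := by
    set t := ∫ z, E z (fun s => |(N : ℝ)⁻¹ * ∑ a, Y a z s|) ∂μ with ht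
    have k1 : ∫ z, ((2 * t) * E z (fun s => |(N : ℝ)⁻¹ * ∑ a, Y a z s|) - t ^ 2) ∂μ ≤
        ∫ z, E z (fun s => ((N : ℝ)⁻¹ * ∑ a, Y a z s) ^ 2) ∂μ := by
      refine integral_mono ((i1.const_mul _).sub (integrable_const _)) i2 fun z => ?_
      have := h.sq_abs_le z (fun s => (N : ℝ)⁻¹ * ∑ a, Y a z s)
      show _ ≤ _
      nlinarith [sq_nonneg (E z (fun s => |(N : ℝ)⁻¹ * ∑ a, Y a z s|) - t)]
    rw [integral_sub (i1.const_mul _) (integrable_const _), integral_const_mul, ← ht] at k1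
    simp at k1
    nlinarith
  refine cs.trans ?_
  -- expansion
  have e2 : ∀ z, E z (fun s => ((N : ℝ)⁻¹ * ∑ a, Y a z s) ^ 2) =
      ((N : ℝ)⁻¹) ^ 2 * ∑ a, ∑ a', E z (fun s => Y a z s * Y a' z s) := by
    intro z
    have : (fun s => ((N : ℝ)⁻¹ * ∑ a, Y a z s) ^ 2) =
        fun s => ((N : ℝ)⁻¹) ^ 2 * ∑ a, ∑ a', Y a z s * Y a' z s := by
      funext s
      rw [mul_pow, pow_two (∑ a, Y a z s), Finset.sum_mul_sum]
    rw [this, h.smul, h.sum]
    congr 1
    refine Finset.sum_congr rfl fun a _ => ?_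
    rw [h.sum]
  have i3 : ∀ a a', Integrable (fun z => E z (fun s => Y a z s * Y a' z s)) μ := fun a a' =>
    h.int μ (D := (2 * D + 1) * (2 * D + 1)) (fun s => (hYm a s).mul (hYm a' s)) fun z s => by
      rw [abs_mul]
      exact mul_le_mul (hYb a z s) (hYb a' z s) (abs_nonneg _) (by linarith)
  simp only [e2]
  rw [integral_const_mul, integral_finsetSum _ fun a _ => integrable_finsetSum _ fun a' _ =>
    i3 a a']
  simp only [fun a => integral_finsetSum (μ := μ) univ (fun a' _ => i3 a a')]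
  have hb : ∀ a a', ∫ z, E z (fun s => Y a z s * Y a' z s) ∂μ ≤
      if a = a' then (2 * D + 1) ^ 2 else e * (2 * D + 3) := by
    intro a a'
    split_ifs with haa
    · refine (integral_mono (i3 a a') (integrable_const ((2 * D + 1) ^ 2)) fun z => ?_).trans
        (by simp)
      have : E z (fun s => Y a z s * Y a' z s) ≤ E z (fun _ => (2 * D + 1) ^ 2) := by
        refine h.mono z _ _ fun s => ?_
        have k := abs_le.1 (le_of_eq_of_le (abs_mul (Y a z s) (Y a' z s))
          (mul_le_mul (hYb a z s) (hYb a' z s) (abs_nonneg _) (by linarith)))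
        nlinarith [k.2]
      rw [h.const] at this
      exact this
    · have e3 : ∀ z, E z (fun s => Y a z s * Y a' z s) =
          E z (fun s => X a z s * X a' z s) + -κ * E z (X a z) + -κ * E z (X a' z) + κ ^ 2 := by
        intro z
        have : (fun s => Y a z s * Y a' z s) = fun s => ((X a z s * X a' z s + -κ * X a z s) +
            -κ * X a' z s) + κ ^ 2 := by
          funext s
          simp only [hY]
          ring
        rw [this, h.add, h.add, h.add, h.const, h.smul, h.smul]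
      have j0 : Integrable (fun z => E z (fun s => X a z s * X a' z s)) μ :=
        h.int μ (D := D * D) (fun s => (hX a s).mul (hX a' s)) fun z s => by
          rw [abs_mul]
          exact mul_le_mul (hD a z s) (hD a' z s) (abs_nonneg _) hD0
      have j1 : ∀ a, Integrable (fun z => E z (X a z)) μ := fun a => h.int μ (hX a) (hD a)
      simp only [e3]
      rw [int4 μ j0 (j1 a) (j1 a')]
      have q0 := abs_le.1 (h2 a a' haa)
      have q1 : |κ * (∫ z, E z (X a z) ∂μ - κ)| ≤ (D + 1) * e := by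
        rw [abs_mul]
        exact mul_le_mul hκ (h1 a) (abs_nonneg _) (by linarith)
      have q2 : |κ * (∫ z, E z (X a' z) ∂μ - κ)| ≤ (D + 1) * e := by
        rw [abs_mul]
        exact mul_le_mul hκ (h1 a') (abs_nonneg _) (by linarith)
      have q1' := abs_le.1 q1
      have q2' := abs_le.1 q2
      nlinarith [q0.2, q1'.1, q2'.1]
  have hs : ∑ a : Fin M, ∑ a' : Fin M, ∫ z, E z (fun s => Y a z s * Y a' z s) ∂μ ≤
      (M : ℝ) ^ 2 * (e * (2 * D + 3)) + M * (2 * D + 1) ^ 2 := by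
    have : ∀ a : Fin M, ∑ a' : Fin M, ∫ z, E z (fun s => Y a z s * Y a' z s) ∂μ ≤
        (M : ℝ) * (e * (2 * D + 3)) + (2 * D + 1) ^ 2 := by
      intro a
      refine (Finset.sum_le_sum fun a' _ => (hb a a').trans (?_ : _ ≤
        e * (2 * D + 3) + if a = a' then (2 * D + 1) ^ 2 else 0)).trans (le_of_eq ?_)
      · split_ifs
        · have : 0 ≤ e * (2 * D + 3) := by positivity
          linarith
        · linarith
      · rw [Finset.sum_add_distrib]
        simp
    refine (Finset.sum_le_sum fun a _ => this a).trans (le_of_eq ?_)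
    simp
    ring
  refine (mul_le_mul_of_nonneg_left hs (by positivity)).trans (le_of_eq ?_)
  ring

end abstract

/-! ### The two families -/

section fam

variable {Z : Type*} {Ω : Type} [MeasurableSpace Z] [Fintype Ω]

theorem fam_eE {Q : Z → Ω → ℝ} (hQ : ∀ z, IsProb (Q z)) (hm : ∀ ω, Measurable fun z => Q z ω) :
    Fam (fun z (F : Ω → ℝ) => eE (Q z) F) where
  add z f g := eE_add _ f g
  smul z c f := by
    unfold eE
    rw [Finset.mul_sum]
    exact Finset.sum_congr rfl fun ω _ => by ring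
  mono z f g h := by
    unfold eE
    exact Finset.sum_le_sum fun ω _ => mul_le_mul_of_nonneg_left (h ω) ((hQ z).pos ω).le
  one z := by
    unfold eE
    simp [(hQ z).sum]
  meas F hF := meas_eE hm hF

theorem fam_pE {Q : Z → Ω → ℝ} (hQ : ∀ z, IsProb (Q z)) (hm : ∀ ω, Measurable fun z => Q z ω)
    (r : Setoid Ω) :
    Fam (fun z (F : Ω × Ω → ℝ) => pE (Q z) r (fun (u v : Ω) => F (u, v))) where
  add z f g := by
    unfold pE
    rw [← (fam_eE hQ hm).add]
    congr 1
    funext a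
    exact cE_add _ _ _ _ _
  smul z c f := by
    unfold pE
    rw [← (fam_eE hQ hm).smul]
    congr 1
    funext a
    exact cE_smul _ _ _ _ _
  mono z f g h := by
    unfold pE
    exact (fam_eE hQ hm).mono z _ _ fun a => cE_mono' (hQ z) (fun b => h (a, b)) a
  one z := by
    unfold pE
    have : (fun a : Ω => cE (Q z) r (fun _ => (1 : ℝ)) a) = fun _ => 1 := by
      funext a
      exact cE_const (hQ z) r 1 a
    rw [this]
    exact (fam_eE hQ hm).one z
  meas F hF := by
    unfold pE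
    exact meas_eE hm fun a => meas_cE hm (fun b => hF (a, b)) r a

end fam

/-! ### The statements -/

/-- values of the one-row and two-row observables. -/
def TWO : Prop := ∀ (αm K L B ε : ℝ), 0 < ε → ∃ J0 : ℕ, ∀ J : ℕ, J0 ≤ J →
  ∃ ε1 : ℝ, 0 < ε1 ∧ ∃ N0 : ℕ, ∀ (wc nc : ℕ), 2 ≤ wc → nc + 1 = (J + 1) * wc →
  ∀ N, N0 ≤ N → 0 < N → ∀ n, 0 < n → ∀ (C : Cfg N) (f φ ψ : ℝ → ℝ), BL K L f → BL B B φ →
  BL B B ψ →
  ∀ (M : ℕ) (s : Fin nc → ℝ) (τ : ℕ → ℕ), (M : ℝ) ≤ αm * N →
  Skel C nc n (fun _ => f) M s J wc τ ε1 →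
  (2 ≤ M → ∀ b ≤ J, ∀ a : Fin M,
    |∫ G, pE (QQ C nc n (M := M) (fun _ => f) G s) ((fil C nc n).F (τ b))
      (fun u v => φ (hh G a (C.x u.1)) * ψ (hh G a (C.x v.1))) ∂(gam M N) -
        kapX J f (PR C nc n f M s τ) b φ ψ| ≤ ε) ∧
  (∀ b ≤ J, ∀ a a' : Fin M, a ≠ a' →
    |∫ G, pE (QQ C nc n (M := M) (fun _ => f) G s) ((fil C nc n).F (τ b))
      (fun u v => φ (hh G a (C.x u.1)) * ψ (hh G a (C.x v.1)) *
        (φ (hh G a' (C.x u.1)) * ψ (hh G a' (C.x v.1)))) ∂(gam M N) -
        kapX J f (PR C nc n f M s τ) b φ ψ ^ 2| ≤ ε) ∧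
  (2 ≤ M → ∀ a : Fin M, |∫ G, eE (QQ C nc n (M := M) (fun _ => f) G s)
      (fun u => φ (hh G a (C.x u.1)) * ψ (hh G a (C.x u.1))) ∂(gam M N) -
        kapX J f (PR C nc n f M s τ) (J + 1) φ ψ| ≤ ε) ∧
  (∀ a a' : Fin M, a ≠ a' →
    |∫ G, eE (QQ C nc n (M := M) (fun _ => f) G s)
      (fun u => φ (hh G a (C.x u.1)) * ψ (hh G a (C.x u.1)) *
        (φ (hh G a' (C.x u.1)) * ψ (hh G a' (C.x u.1)))) ∂(gam M N) -
        kapX J f (PR C nc n f M s τ) (J + 1) φ ψ ^ 2| ≤ ε)

/-- at a level where the partition is trivial, the two replicas coincide. -/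
theorem pE_bot {Ω : Type} [Fintype Ω] {Q : Ω → ℝ} (hQ : IsProb Q) {r : Setoid Ω} (hr : r = ⊥)
    (Ψ : Ω → Ω → ℝ) : pE Q r Ψ = eE Q (fun u => Ψ u u) := by
  classical
  subst hr
  unfold pE
  congr 1
  funext u
  unfold cE
  have : (univ.filter fun ω' => (⊥ : Setoid Ω) u ω') = {u} := by
    ext v
    simp only [mem_filter, mem_univ, true_and, mem_singleton]
    exact ⟨fun h => h.symm, fun h => h.symm⟩
  rw [this, Finset.sum_singleton, Finset.sum_singleton]
  exact mul_div_cancel_left₀ _ (hQ.pos u).ne'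

theorem measurable_of_lip {L : ℝ} {φ : ℝ → ℝ} (h : ∀ x y, |φ x - φ y| ≤ L * |x - y|) :
    Measurable φ := by
  have : Continuous φ := by
    refine continuous_iff_continuousAt.2 fun x => ?_
    rw [ContinuousAt, tendsto_iff_dist_tendsto_zero]
    have h1 : Filter.Tendsto (fun y => L * |y - x|) (nhds x) (nhds (L * |x - x|)) :=
      (Continuous.tendsto (by fun_prop) x)
    rw [sub_self, abs_zero, mul_zero] at h1
    exact squeeze_zero (fun y => dist_nonneg) (fun y => by rw [Real.dist_eq]; exact h y x) h1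
  exact this.measurable

theorem measurable_hh {M N : ℕ} (a : Fin M) (x : Fin N → ℝ) :
    Measurable fun G : Fin M → Fin N → ℝ => hh G a x := by
  unfold hh
  exact Finset.measurable_sum _ fun i _ => by fun_prop

/-! ### The limit model for bounded Lipschitz `f` -/

section lim

open Crest.Agent.R146.LimIbp_290 Crest.Agent.R164.GC

theorem cont_of_lip {L : ℝ} {φ : ℝ → ℝ} (h : ∀ x y, |φ x - φ y| ≤ L * |x - y|) :
    Continuous φ := by
  refine continuous_iff_continuousAt.2 fun x => ?_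
  rw [ContinuousAt, tendsto_iff_dist_tendsto_zero]
  have h1 : Filter.Tendsto (fun y => L * |y - x|) (nhds x) (nhds (L * |x - x|)) :=
    (Continuous.tendsto (by fun_prop) x)
  rw [sub_self, abs_zero, mul_zero] at h1
  exact squeeze_zero (fun y => dist_nonneg) (fun y => by rw [Real.dist_eq]; exact h y x) h1

theorem BL.nonneg_L {K L : ℝ} {f : ℝ → ℝ} (h : BL K L f) : 0 ≤ L := by
  have := (abs_nonneg _).trans (h.lip 1 0)
  simpa using this

theorem Psi_EE {J : ℕ} {f : ℝ → ℝ} {K L : ℝ} (hf : BL K L f) (P : ℕ → ℝ) {j : ℕ} (h1 : 1 ≤ j)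
    (h2 : j ≤ J + 2) : EE (Psi J f P j) := by
  have h := Crest.Agent.R146.RowFact_874.Psi_BL (J := J) (BL.nonneg_L hf) hf P (J + 2 - j) (by omega)
  rw [show J + 2 - (J + 2 - j) = j by omega] at h
  exact EE.of_bdd (cont_of_lip h.lip) h.bd

/-- conditional expectations of bounded continuous functions (`f` bounded Lipschitz). -/
theorem cX_BC_bl {J : ℕ} {f : ℝ → ℝ} {K L : ℝ} (hf : BL K L f) (P : ℕ → ℝ) {k : ℕ}
    (hk : k ≤ J + 2) {g : ℝ → ℝ} {D : ℝ} (hg : BC g D) : ∀ i ≤ k, BC (cX J f P k g (k - i)) D := by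
  intro i
  induction i with
  | zero => intro _; rw [Nat.sub_zero, cX_self]; exact hg
  | succ i ih =>
    intro hi
    rw [cX_step J f P g (show k - (i + 1) < k by omega)]
    have e1 : k - (i + 1) + 1 = k - i := by omega
    rw [e1]
    exact tE_BC (Psi_EE hf P (by omega) (by omega)) _ _ (ih (by omega))

theorem kapX_abs_le {J : ℕ} {f : ℝ → ℝ} {K L : ℝ} (hf : BL K L f) (P : ℕ → ℝ) {b : ℕ}
    (hb : b ≤ J + 1) {φ ψ : ℝ → ℝ} {B B' : ℝ} (hφ : BC φ B) (hψ : BC ψ B') :
    |kapX J f P b φ ψ| ≤ B * B' := by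
  have c1 : BC (cX J f P (J + 2) φ (b + 1)) B := by
    have := cX_BC_bl hf P (le_refl (J + 2)) hφ (J + 2 - (b + 1)) (by omega)
    rwa [show J + 2 - (J + 2 - (b + 1)) = b + 1 by omega] at this
  have c2 : BC (cX J f P (J + 2) ψ (b + 1)) B' := by
    have := cX_BC_bl hf P (le_refl (J + 2)) hψ (J + 2 - (b + 1)) (by omega)
    rwa [show J + 2 - (J + 2 - (b + 1)) = b + 1 by omega] at this
  have c3 := cX_BC_bl hf P (show b + 1 ≤ J + 2 by omega) (c1.mul c2) (b + 1) (le_refl _)
  rw [Nat.sub_self] at c3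
  exact c3.bd 0

end lim

/-- **second moments: TWO gives ROb.** -/
theorem rob_of (h : TWO) : RowDef2_874.ROb := by
  intro αm K L B ε hε
  set α : ℝ := max αm 0 with hα
  have hα0 : 0 ≤ α := le_max_right _ _
  set D : ℝ := B * B with hD
  have hD0 : 0 ≤ D := mul_self_nonneg B
  set c1 : ℝ := α ^ 2 * (2 * D + 3) with hc1
  set c2 : ℝ := α * (2 * D + 1) ^ 2 with hc2
  have hc10 : 0 ≤ c1 := by positivity
  have hc20 : 0 ≤ c2 := by positivity
  set e : ℝ := min 1 (ε ^ 2 / (2 * (c1 + 1))) with he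
  have he0 : 0 < e := lt_min one_pos (by positivity)
  have he1 : e ≤ 1 := min_le_left _ _
  have hec : c1 * e ≤ ε ^ 2 / 2 := by
    have : e ≤ ε ^ 2 / (2 * (c1 + 1)) := min_le_right _ _
    rw [le_div_iff₀ (by positivity)] at this
    nlinarith
  obtain ⟨J0, hJ0⟩ := h αm K L B e he0
  refine ⟨J0, fun J hJ => ?_⟩
  obtain ⟨ε1, hε1, N0, hN0⟩ := hJ0 J hJ
  obtain ⟨N1, hN1⟩ := exists_nat_ge (2 * c2 / ε ^ 2)
  obtain ⟨N2, hN2⟩ := exists_nat_ge (2 * D / ε)
  refine ⟨ε1, hε1, max N0 (max N1 N2), ?_⟩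
  intro wc nc hwc hnc N hN hNpos n hn C f φ ψ hf hφ hψ M s τ hM hS
  obtain ⟨t1, t2, t3, t4⟩ := hN0 wc nc hwc hnc N ((le_max_left _ _).trans hN) hNpos n hn C f φ ψ
    hf hφ hψ M s τ hM hS
  have hB0 : 0 ≤ B := (abs_nonneg _).trans (hφ.bd 0)
  have hNr : (0 : ℝ) < N := by exact_mod_cast hNpos
  have hMN : (M : ℝ) / N ≤ α := by
    rw [div_le_iff₀ hNr]
    exact hM.trans (mul_le_mul_of_nonneg_right (le_max_left _ _) hNr.le)
  have hMN0 : (0 : ℝ) ≤ (M : ℝ) / N := by positivity
  have hcN : c2 / N ≤ ε ^ 2 / 2 := by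
    have h1 : (N1 : ℝ) ≤ N := by
      exact_mod_cast (le_max_left _ _).trans ((le_max_right _ _).trans hN)
    have h2 : 2 * c2 / ε ^ 2 ≤ N := hN1.trans h1
    rw [div_le_iff₀ (by positivity)] at h2
    rw [div_le_iff₀ hNr]
    linarith
  have key : ∀ t : ℝ, t ^ 2 ≤ ((M : ℝ) / N) ^ 2 * (e * (2 * D + 3)) +
      (M : ℝ) / N / N * (2 * D + 1) ^ 2 → t ≤ ε := by
    intro t ht
    have a1 : ((M : ℝ) / N) ^ 2 * (e * (2 * D + 3)) ≤ c1 * e := by
      have : ((M : ℝ) / N) ^ 2 ≤ α ^ 2 := pow_le_pow_left₀ hMN0 hMN 2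
      calc ((M : ℝ) / N) ^ 2 * (e * (2 * D + 3)) ≤ α ^ 2 * (e * (2 * D + 3)) :=
            mul_le_mul_of_nonneg_right this (by positivity)
        _ = c1 * e := by rw [hc1]; ring
    have a2 : (M : ℝ) / N / N * (2 * D + 1) ^ 2 ≤ c2 / N := by
      calc (M : ℝ) / N / N * (2 * D + 1) ^ 2 ≤ α / N * (2 * D + 1) ^ 2 :=
            mul_le_mul_of_nonneg_right (div_le_div_of_nonneg_right hMN hNr.le) (by positivity)
        _ = c2 / N := by rw [hc2]; ring
    have a3 : t ^ 2 ≤ ε ^ 2 := by linarith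
    exact (le_abs_self t).trans (abs_le_of_sq_le_sq a3 hε.le)
  have hfm : ∀ a : ℕ, Measurable ((fun _ => f) a : ℝ → ℝ) := fun _ => measurable_of_lip hf.lip
  have hφm := measurable_of_lip hφ.lip
  have hψm := measurable_of_lip hψ.lip
  have hQ : ∀ G : Fin M → Fin N → ℝ, IsProb (QQ C nc n (M := M) (fun _ => f) G s) := fun G =>
    QQ_isProb C (nc := nc) (n := n) _ G s
  have hQm : ∀ ω, Measurable fun G : Fin M → Fin N → ℝ => QQ C nc n (fun _ => f) G s ω :=
    fun ω => meas_QQ C hfm s ω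
  have hb : ∀ x y, |φ x * ψ y| ≤ D := fun x y => by
    rw [abs_mul]
    exact mul_le_mul (hφ.bd x) (hψ.bd y) (abs_nonneg _) hB0
  have hφc : Crest.Agent.R164.GC.BC φ B := ⟨cont_of_lip hφ.lip, hφ.bd⟩
  have hψc : Crest.Agent.R164.GC.BC ψ B := ⟨cont_of_lip hψ.lip, hψ.bd⟩
  rcases Nat.lt_or_ge M 2 with hM2 | hM2
  · -- at most one row
    have hcN2 : 2 * D / N ≤ ε := by
      have h1 : (N2 : ℝ) ≤ N := by
        exact_mod_cast (le_max_right _ _).trans ((le_max_right _ _).trans hN)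
      have h2 : 2 * D / ε ≤ N := hN2.trans h1
      rw [div_le_iff₀ hε] at h2
      rw [div_le_iff₀ hNr]
      linarith
    have hM1 : (M : ℝ) ≤ 1 := by exact_mod_cast Nat.lt_succ_iff.1 hM2
    have hpt : ∀ (κ : ℝ), |κ| ≤ D → ∀ (G : Fin M → Fin N → ℝ) (u v : Om C nc n),
        |RS C nc n φ ψ G u v - (M : ℝ) / N * κ| ≤ ε := by
      intro κ hκ G u v
      have a1 : |RS C nc n φ ψ G u v| ≤ (N : ℝ)⁻¹ * (M * D) := by
        unfold RS
        rw [abs_mul, abs_of_nonneg (by positivity : (0 : ℝ) ≤ (N : ℝ)⁻¹)]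
        refine mul_le_mul_of_nonneg_left ?_ (by positivity)
        refine (Finset.abs_sum_le_sum_abs _ _).trans ?_
        refine (Finset.sum_le_sum fun a _ => hb _ _).trans (le_of_eq ?_)
        rw [Finset.sum_const, Finset.card_univ, Fintype.card_fin, nsmul_eq_mul]
      have a2 : |(M : ℝ) / N * κ| ≤ (M : ℝ) / N * D := by
        rw [abs_mul, abs_of_nonneg hMN0]
        exact mul_le_mul_of_nonneg_left hκ hMN0
      have a3 : (M : ℝ) / N * D ≤ D / N := by
        rw [div_mul_eq_mul_div]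
        refine div_le_div_of_nonneg_right ?_ hNr.le
        nlinarith
      have a4 : (N : ℝ)⁻¹ * (M * D) = (M : ℝ) / N * D := by ring
      have a5 : 2 * D / N = D / N + D / N := by ring
      calc |RS C nc n φ ψ G u v - (M : ℝ) / N * κ|
          ≤ |RS C nc n φ ψ G u v| + |(M : ℝ) / N * κ| := abs_sub _ _
        _ ≤ ε := by linarith
    have hint : ∀ (g : (Fin M → Fin N → ℝ) → ℝ), (∀ G, g G ≤ ε) → (∀ G, 0 ≤ g G) →
        ∫ G, g G ∂(gam M N) ≤ ε := by
      intro g hg hg0
      have := norm_integral_le_of_norm_le_const (μ := gam M N) (C := ε) (f := g)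
        (Filter.Eventually.of_forall fun G => by
          rw [Real.norm_eq_abs, abs_of_nonneg (hg0 G)]; exact hg G)
      rw [probReal_univ, mul_one, Real.norm_eq_abs] at this
      exact (le_abs_self _).trans this
    constructor
    · intro b hb'
      have hκ := kapX_abs_le hf (PR C nc n f M s τ) (show b ≤ J + 1 by omega) hφc hψc
      refine hint _ (fun G => ?_) (fun G => ?_)
      · have := (fam_pE hQ hQm ((fil C nc n).F (τ b))).mono G
          (fun uv => |RS C nc n φ ψ G uv.1 uv.2 -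
            (M : ℝ) / N * kapX J f (PR C nc n f M s τ) b φ ψ|) (fun _ => ε)
          (fun uv => hpt _ hκ G uv.1 uv.2)
        rw [(fam_pE hQ hQm ((fil C nc n).F (τ b))).const G ε] at this
        exact this
      · have := (fam_pE hQ hQm ((fil C nc n).F (τ b))).mono G (fun _ => 0)
          (fun uv => |RS C nc n φ ψ G uv.1 uv.2 -
            (M : ℝ) / N * kapX J f (PR C nc n f M s τ) b φ ψ|)
          (fun uv => abs_nonneg _)
        rw [(fam_pE hQ hQm ((fil C nc n).F (τ b))).const G 0] at this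
        exact this
    · have hκ := kapX_abs_le hf (PR C nc n f M s τ) (le_refl (J + 1)) hφc hψc
      refine hint _ (fun G => ?_) (fun G => ?_)
      · have := (fam_eE hQ hQm).mono G
          (fun u => |RS C nc n φ ψ G u u -
            (M : ℝ) / N * kapX J f (PR C nc n f M s τ) (J + 1) φ ψ|) (fun _ => ε)
          (fun u => hpt _ hκ G u u)
        rw [(fam_eE hQ hQm).const G ε] at this
        exact this
      · have := (fam_eE hQ hQm).mono G (fun _ => 0)
          (fun u => |RS C nc n φ ψ G u u -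
            (M : ℝ) / N * kapX J f (PR C nc n f M s τ) (J + 1) φ ψ|)
          (fun u => abs_nonneg _)
        rw [(fam_eE hQ hQm).const G 0] at this
        exact this
  constructor
  · intro b hb'
    refine key _ ?_
    have := (fam_pE hQ hQm ((fil C nc n).F (τ b))).conc (gam M N) (M := M)
      (X := fun a G uv => φ (hh G a (C.x uv.1.1)) * ψ (hh G a (C.x uv.2.1))) he0.le he1 hD0
      (fun a uv => (hφm.comp (measurable_hh a _)).mul (hψm.comp (measurable_hh a _)))
      (fun a G uv => hb _ _) (t1 hM2 b hb') (t2 b hb') N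
    exact this
  · refine key _ ?_
    have := (fam_eE hQ hQm).conc (gam M N) (M := M)
      (X := fun a G u => φ (hh G a (C.x u.1)) * ψ (hh G a (C.x u.1))) he0.le he1 hD0
      (fun a u => (hφm.comp (measurable_hh a _)).mul (hψm.comp (measurable_hh a _)))
      (fun a G u => hb _ _) (t3 hM2) t4 N
    exact this

end

end Crest.Agent.R146.RoTwo_143
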