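import Crest.Agent.R146.RowObs_874
import Crest.Agent.R146.RoTwo_143
import Crest.Agent.R146.RoTrunc_130
import Crest.Agent.R146.S6Mom_649

/-!
Row 146, node ROWOBS (helper874), part 8: the Prop `S6L_988.RO`.
-/

set_option autoImplicit false

namespace Crest.Agent.R146.RowFin_874

open Finset MeasureTheory ProbabilityTheory Crest.Agent.R141
open Crest.Agent.R146.S6Def_988 Crest.Agent.R146.S6U_988 Crest.Agent.R146.S6L_988
open Crest.Agent.R146.RowDef_874 Crest.Agent.R146.RowDef2_874 Crest.Agent.R146.RowSys_874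
open Crest.Agent.R146.RowObs_874
open Crest.Agent.R146.CavInc_769 (prior_isProb xs_pos xs_expo QQ_isProb meas_QQ)

noncomputable section

theorem BL_mono {f : ℝ → ℝ} {K L K' L' : ℝ} (h : BL K L f) (hK : K ≤ K') (hL : L ≤ L') :
    BL K' L' f :=
  ⟨fun x => (h.bd x).trans hK, fun x y => (h.lip x y).trans
    (mul_le_mul_of_nonneg_right hL (abs_nonneg _))⟩

theorem kapX_one {J : ℕ} {f : ℝ → ℝ} {K L : ℝ} (hf : BL K L f) (P : ℕ → ℝ) {b : ℕ}
    (hb : b ≤ J + 1) : kapX J f P b (fun _ => 1) (fun _ => 1) = 1 := by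
  unfold kapX
  have h1 : ∀ x, cX J f P (J + 2) (fun _ => 1) (b + 1) x = 1 := by
    intro x
    have := RoTruncA_130.cXc (P := P) hf (le_refl (J + 2)) 1 (J + 2 - (b + 1)) (by omega) x
    rwa [show J + 2 - (J + 2 - (b + 1)) = b + 1 by omega] at this
  simp_rw [h1, mul_one]
  have := RoTruncA_130.cXc (P := P) hf (show b + 1 ≤ J + 2 by omega) 1 (b + 1) le_rfl 0
  rwa [Nat.sub_self] at this

/-- the averaged observables of one and of two rows of the system. -/
theorem two : RoTwo_143.TWO := by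
  intro αm K L B ε hε
  set L' : ℝ := max L 0 with hL'
  have hL0 : 0 ≤ L' := le_max_right _ _
  set B' : ℝ := max B 1 with hB'
  have hB0 : 0 < B' := lt_of_lt_of_le one_pos (le_max_right _ _)
  set c0 : ℝ := B' ^ 2 * B' ^ 2 * ((2 * Real.exp (2 * (2 * K)) + 1) * RowTilt_874.CT (2 * K))
    with hc0
  have hc00 : 0 ≤ c0 := by
    have := RowTilt_874.CT_nonneg (2 * K)
    rw [hc0]
    positivity
  obtain ⟨J0, hJ0⟩ := exists_nat_ge ((c0 / (ε / 3)) ^ 2)
  refine ⟨J0, fun J hJ => ?_⟩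
  have hcst : c0 * Real.sqrt (1 / ((J : ℝ) + 1)) ≤ ε / 3 := by
    have h1 : (c0 / (ε / 3)) ^ 2 ≤ (J : ℝ) + 1 := by
      have : (J0 : ℝ) ≤ J := by exact_mod_cast hJ
      linarith
    have h2 : c0 / (ε / 3) ≤ Real.sqrt ((J : ℝ) + 1) := Real.le_sqrt_of_sq_le h1
    rw [Real.sqrt_div zero_le_one, Real.sqrt_one, mul_one_div]
    have h3 : 0 < Real.sqrt ((J : ℝ) + 1) := Real.sqrt_pos.2 (by positivity)
    rw [div_le_iff₀ h3]
    rw [div_le_iff₀ (by positivity)] at h2
    linarith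
  have hex : ∀ b : ℕ, ∃ D : ℝ, 0 ≤ D ∧ (b ≤ J + 1 → ∀ (ε1 : ℝ) (wc nc : ℕ), 2 ≤ wc →
      nc + 1 = (J + 1) * wc →
      ∀ (N n : ℕ), 0 < N → 0 < n → ∀ (C : Cfg N) (f : ℝ → ℝ), BL K L' f →
      ∀ φ ψ : Fin 2 → ℝ → ℝ, (∀ r, BL B' B' (φ r)) → (∀ r, BL B' B' (ψ r)) →
      ∀ (M : ℕ) (s : Fin nc → ℝ) (τ : ℕ → ℕ), Skel C nc n (fun _ => f) M s J wc τ ε1 →
      ∀ x y : Fin M, x ≠ y →
      |∫ G, XV C nc n f φ ψ x y s (stp nc n J τ b) G ∂(gam M N) -
          ∏ r, kapX J f (PR C nc n f M s τ) b (φ r) (ψ r)| ≤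
        ε / 3 + D * ε1 + c0 * Real.sqrt (1 / ((J : ℝ) + 1))) := by
    intro b
    by_cases hb : b ≤ J + 1
    · obtain ⟨D, hD, h⟩ := two_bound J (K := K) hL0 hB0 hb (show 0 < ε / 3 by positivity)
      exact ⟨D, hD, fun _ => h⟩
    · exact ⟨0, le_rfl, fun h => absurd h hb⟩
  choose D hD0 hD using hex
  set Dm : ℝ := ∑ b ∈ range (J + 2), D b with hDm
  have hDm0 : 0 ≤ Dm := Finset.sum_nonneg fun b _ => hD0 b
  have hDle : ∀ b ≤ J + 1, D b ≤ Dm := fun b hb =>
    Finset.single_le_sum (f := D) (fun b _ => hD0 b) (Finset.mem_range.2 (by omega))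
  set ε1 : ℝ := ε / 3 / (Dm + 1) with hε1
  have hε10 : 0 < ε1 := by positivity
  have hDε : ∀ b ≤ J + 1, D b * ε1 ≤ ε / 3 := by
    intro b hb
    rw [hε1, mul_div_assoc', div_le_iff₀ (by positivity)]
    have := hDle b hb
    nlinarith
  refine ⟨ε1, hε10, 0, ?_⟩
  intro wc nc hwc hnc N _ hN n hn C f φ ψ hf hφ hψ M s τ hM hS
  have hf' : BL K L' f := BL_mono hf le_rfl (le_max_left _ _)
  have hφ' : BL B' B' φ := BL_mono hφ (le_max_left _ _) (le_max_left _ _)
  have hψ' : BL B' B' ψ := BL_mono hψ (le_max_left _ _) (le_max_left _ _)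
  have h1' : BL B' B' (fun _ : ℝ => (1 : ℝ)) :=
    ⟨fun x => by rw [abs_one]; exact le_max_right _ _, fun x y => by
      rw [sub_self, abs_zero]; positivity⟩
  set P := PR C nc n f M s τ with hP
  -- two rows
  have T2 : ∀ b ≤ J + 1, ∀ a a' : Fin M, a ≠ a' →
      |∫ G, pE (QQ C nc n (M := M) (fun _ => f) G s) ((fil C nc n).F (stp nc n J τ b))
      (fun u v => φ (hh G a (C.x u.1)) * ψ (hh G a (C.x v.1)) *
        (φ (hh G a' (C.x u.1)) * ψ (hh G a' (C.x v.1)))) ∂(gam M N) -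
        kapX J f P b φ ψ ^ 2| ≤ ε := by
    intro b hb a a' haa
    have h := hD b hb ε1 wc nc hwc hnc N n hN hn C f hf' (fun _ => φ) (fun _ => ψ) (fun _ => hφ')
      (fun _ => hψ') M s τ hS a a' haa
    have e1 : ∀ G : Fin M → Fin N → ℝ, XV C nc n f (fun _ => φ) (fun _ => ψ) a a' s
        (stp nc n J τ b) G = pE (QQ C nc n (M := M) (fun _ => f) G s)
        ((fil C nc n).F (stp nc n J τ b)) (fun u v => φ (hh G a (C.x u.1)) * ψ (hh G a (C.x v.1)) *
        (φ (hh G a' (C.x u.1)) * ψ (hh G a' (C.x v.1)))) := by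
      intro G
      unfold XV
      congr 1
      funext u v
      ring
    simp_rw [e1] at h
    rw [Fin.prod_univ_two, ← sq] at h
    have := hDε b hb
    linarith
  -- one row
  have T1 : 2 ≤ M → ∀ b ≤ J + 1, ∀ a : Fin M,
      |∫ G, pE (QQ C nc n (M := M) (fun _ => f) G s) ((fil C nc n).F (stp nc n J τ b))
      (fun u v => φ (hh G a (C.x u.1)) * ψ (hh G a (C.x v.1))) ∂(gam M N) -
        kapX J f P b φ ψ| ≤ ε := by
    intro hM2 b hb a
    obtain ⟨a', haa⟩ : ∃ a' : Fin M, a ≠ a' := by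
      by_cases h0 : (a : ℕ) = 0
      · exact ⟨⟨1, by omega⟩, fun h => by rw [h] at h0; simp at h0⟩
      · exact ⟨⟨0, by omega⟩, fun h => by rw [h] at h0; simp at h0⟩
    have h := hD b hb ε1 wc nc hwc hnc N n hN hn C f hf' ![φ, fun _ => 1] ![ψ, fun _ => 1]
      (fun r => by fin_cases r; exacts [hφ', h1']) (fun r => by fin_cases r; exacts [hψ', h1'])
      M s τ hS a a' haa
    have e1 : ∀ G : Fin M → Fin N → ℝ, XV C nc n f ![φ, fun _ => 1] ![ψ, fun _ => 1] a a' s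
        (stp nc n J τ b) G = pE (QQ C nc n (M := M) (fun _ => f) G s)
        ((fil C nc n).F (stp nc n J τ b))
          (fun u v => φ (hh G a (C.x u.1)) * ψ (hh G a (C.x v.1))) := by
      intro G
      unfold XV
      congr 1
      funext u v
      simp
    simp_rw [e1] at h
    rw [Fin.prod_univ_two] at h
    simp only [Matrix.cons_val_zero, Matrix.cons_val_one] at h
    rw [kapX_one hf P hb, mul_one] at h
    have := hDε b hb
    linarith
  have hstp : ∀ b ≤ J, stp nc n J τ b = τ b := fun b hb => by unfold stp; rw [if_pos hb]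
  have hstl : stp nc n J τ (J + 1) = Lv nc n := by unfold stp; rw [if_neg (by omega)]
  have hbot : (fil C nc n).F (Lv nc n) = ⊥ := (fil C nc n).bot _ le_rfl
  refine ⟨?_, ?_, ?_, ?_⟩
  · intro hM2 b hb a
    have := T1 hM2 b (by omega) a
    rwa [hstp b hb] at this
  · intro b hb a a' haa
    have := T2 b (by omega) a a' haa
    rwa [hstp b hb] at this
  · intro hM2 a
    have := T1 hM2 (J + 1) le_rfl a
    rw [hstl] at this
    simp_rw [RoTwo_143.pE_bot (QQ_isProb _ _ _) hbot] at this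
    exact this
  · intro a a' haa
    have := T2 (J + 1) le_rfl a a' haa
    rw [hstl] at this
    simp_rw [RoTwo_143.pE_bot (QQ_isProb _ _ _) hbot] at this
    exact this

/-- **(RO)** the row observables of the lower bound of S0206. -/
theorem ro : S6L_988.RO := RoTrunc_130.ro_of (RoTwo_143.rob_of two) S6Mom_649.mom

end

end Crest.Agent.R146.RowFin_874
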