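import Crest.Agent.R146.Rev_649
import Crest.Agent.R146.S6L_988

/-!
# Row 146, statement S0206 (helper857): node FLD of `S6L_988` (backup)

Field norms `O(√N)` under the tilted law, for every value of the rows.
-/

set_option autoImplicit false

namespace Crest.Agent.R146.S6Fld_857

open Finset MeasureTheory ProbabilityTheory
open Crest.Agent.R141 (IsProb Filt A tl eE cE A_cocycle A_le_log cE_le_A eE_top eE_mono eE_cE
  tl_isProb eE_const A_meas cE_of_meas eE_le_of_le)
open Crest.Agent.R146.S6Def_988 Crest.Agent.R146.Rev_649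

noncomputable section

/-- exponential moment of the coins, one vector per cell -/
theorem coin_mgf2 (nc n N : ℕ) (θ : Fin nc → Fin N → ℝ) :
    ∑ c : Coins nc n N, Real.exp (∑ g, ∑ i, zf c g i * θ g i) ≤
      (Fintype.card (Coins nc n N) : ℝ) * Real.exp (1 / 2 * ∑ g, ∑ i, θ g i ^ 2) := by
  set a : Fin nc → Fin N → ℝ := fun g i => (Real.sqrt n)⁻¹ * θ g i with ha
  have e1 : ∀ c : Coins nc n N, Real.exp (∑ g, ∑ i, zf c g i * θ g i) =
      ∏ g, ∏ t, ∏ i, Real.exp (a g i * sv (c g t i)) := by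
    intro c
    simp_rw [← Real.exp_sum]
    congr 1
    refine Finset.sum_congr rfl fun g _ => ?_
    rw [Finset.sum_comm]
    refine Finset.sum_congr rfl fun i _ => ?_
    unfold zf
    rw [← Finset.mul_sum]
    simp only [ha]
    ring
  simp_rw [e1]
  have e2 : ∑ c : Coins nc n N, ∏ g, ∏ t, ∏ i, Real.exp (a g i * sv (c g t i)) =
      ∏ g, ∏ _t : Fin n, ∏ i, ∑ b : Bool, Real.exp (a g i * sv b) := by
    rw [sum_prod (fun g (d : Fin n → Fin N → Bool) => ∏ t, ∏ i, Real.exp (a g i * sv (d t i)))]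
    refine Finset.prod_congr rfl fun g _ => ?_
    rw [sum_prod (fun t (d : Fin N → Bool) => ∏ i, Real.exp (a g i * sv (d i)))]
    refine Finset.prod_congr rfl fun t _ => ?_
    rw [sum_prod (fun i b => Real.exp (a g i * sv b))]
  rw [e2]
  have h3 : ∏ g, ∏ _t : Fin n, ∏ i, ∑ b : Bool, Real.exp (a g i * sv b) ≤
      ∏ g, ∏ _t : Fin n, ∏ i, (2 * Real.exp (a g i ^ 2 / 2)) := by
    refine Finset.prod_le_prod (fun g _ => Finset.prod_nonneg fun t _ =>
      Finset.prod_nonneg fun i _ => Finset.sum_nonneg fun b _ => (Real.exp_pos _).le) fun g _ => ?_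
    refine Finset.prod_le_prod (fun t _ => Finset.prod_nonneg fun i _ =>
      Finset.sum_nonneg fun b _ => (Real.exp_pos _).le) fun t _ => ?_
    exact Finset.prod_le_prod (fun i _ => Finset.sum_nonneg fun b _ => (Real.exp_pos _).le)
      fun i _ => sum_bool_exp_le _
  refine h3.trans ?_
  have h4 : ∏ g, ∏ _t : Fin n, ∏ i, (2 * Real.exp (a g i ^ 2 / 2)) =
      (Fintype.card (Coins nc n N) : ℝ) *
        Real.exp (∑ g, ∑ _t : Fin n, ∑ i, a g i ^ 2 / 2) := by
    simp_rw [Finset.prod_mul_distrib, Real.exp_sum]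
    congr 1
    simp [Coins, Finset.prod_const, Finset.card_univ]
  rw [h4]
  refine mul_le_mul_of_nonneg_left (Real.exp_le_exp.2 ?_) (Nat.cast_nonneg _)
  have h5 : ∀ g, ∑ _t : Fin n, ∑ i, a g i ^ 2 / 2 ≤ 1 / 2 * ∑ i, θ g i ^ 2 := by
    intro g
    rw [Finset.sum_const, Finset.card_univ, Fintype.card_fin, nsmul_eq_mul]
    have h6 : ∑ i, a g i ^ 2 / 2 = 1 / 2 * ((Real.sqrt n)⁻¹ ^ 2) * ∑ i, θ g i ^ 2 := by
      rw [Finset.mul_sum]
      refine Finset.sum_congr rfl fun i _ => ?_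
      simp only [ha]
      ring
    rw [h6]
    rcases Nat.eq_zero_or_pos n with hn | hn
    · subst hn
      simp only [Nat.cast_zero, zero_mul]
      positivity
    · have hn' : (0 : ℝ) < n := by exact_mod_cast hn
      rw [inv_pow, Real.sq_sqrt hn'.le]
      refine le_of_eq ?_
      field_simp
  refine (Finset.sum_le_sum fun g _ => h5 g).trans (le_of_eq ?_)
  rw [← Finset.mul_sum]

/-! ### Gaussian integrals -/

/-- the constant `E e^{x²/4}` -/
def κ : ℝ := ∫ x, Real.exp (1 / 4 * x ^ 2) ∂(gaussianReal 0 1)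

theorem integrable_quarter : Integrable (fun x : ℝ => Real.exp (1 / 4 * x ^ 2))
    (gaussianReal 0 1) := by
  rw [gaussianReal_of_var_ne_zero _ (one_ne_zero),
    integrable_withDensity_iff (measurable_gaussianPDF _ _) (by simp [gaussianPDF])]
  have h := (integrable_exp_neg_mul_sq (b := 1 / 4) (by norm_num)).const_mul
    ((Real.sqrt (2 * Real.pi))⁻¹)
  refine h.congr (Filter.Eventually.of_forall fun x => ?_)
  simp only [toReal_gaussianPDF, gaussianPDFReal, NNReal.coe_one, mul_one, sub_zero]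
  rw [mul_comm (Real.exp (1 / 4 * x ^ 2)), mul_assoc, ← Real.exp_add]
  congr 2
  ring

theorem κ_pos : 0 < κ := by
  unfold κ
  rw [integral_pos_iff_support_of_nonneg (fun x => (Real.exp_pos _).le) integrable_quarter]
  have : Function.support (fun x : ℝ => Real.exp (1 / 4 * x ^ 2)) = Set.univ := by
    ext x; simp [(Real.exp_pos _).ne']
  rw [this]; simp

theorem integral_exp_lin (a : ℝ) :
    ∫ x, Real.exp (a * x) ∂(gaussianReal 0 1) = Real.exp (a ^ 2 / 2) := by
  have h := mgf_id_gaussianReal (μ := 0) (v := 1)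
  have h1 := congrFun h a
  simp only [mgf, id_eq, NNReal.coe_one, zero_mul, one_mul, zero_add] at h1
  exact h1

/-- linearisation of the square norm -/
theorem quad_eq {N : ℕ} (v : Fin N → ℝ) :
    ∫ ξ : Fin N → ℝ, Real.exp (∑ i, v i / 2 * ξ i) ∂(Measure.pi fun _ => gaussianReal 0 1) =
      Real.exp (1 / 8 * ∑ i, v i ^ 2) := by
  simp_rw [Real.exp_sum]
  rw [integral_fintype_prod_eq_prod (fun i (x : ℝ) => Real.exp (v i / 2 * x))
    (μ := fun _ => gaussianReal 0 1)]
  simp_rw [integral_exp_lin]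
  rw [← Real.exp_sum, Finset.mul_sum]
  congr 1
  refine Finset.sum_congr rfl fun i _ => ?_
  ring

theorem integrable_lin {N : ℕ} (v : Fin N → ℝ) :
    Integrable (fun ξ : Fin N → ℝ => Real.exp (∑ i, v i * ξ i))
      (Measure.pi fun _ => gaussianReal 0 1) := by
  simp_rw [Real.exp_sum]
  exact Integrable.fintype_prod (f := fun i (x : ℝ) => Real.exp (v i * x))
    (μ := fun _ => gaussianReal 0 1) fun i => integrable_exp_mul_gaussianReal _

theorem integrable_sq {N : ℕ} :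
    Integrable (fun ξ : Fin N → ℝ => Real.exp (∑ i, 1 / 4 * ξ i ^ 2))
      (Measure.pi fun _ => gaussianReal 0 1) := by
  simp_rw [Real.exp_sum]
  exact Integrable.fintype_prod (f := fun _ (x : ℝ) => Real.exp (1 / 4 * x ^ 2))
    (μ := fun _ => gaussianReal 0 1) fun i => integrable_quarter

theorem integral_sq {N : ℕ} :
    ∫ ξ : Fin N → ℝ, Real.exp (∑ i, 1 / 4 * ξ i ^ 2) ∂(Measure.pi fun _ => gaussianReal 0 1) =
      κ ^ N := by
  simp_rw [Real.exp_sum]
  rw [integral_fintype_prod_eq_prod (fun _ (x : ℝ) => Real.exp (1 / 4 * x ^ 2))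
    (μ := fun _ : Fin N => gaussianReal 0 1)]
  simp [κ]

/-- exponential moment of the field energy plus one eighth of the square norm of one field -/
theorem coin_quad (nc n N : ℕ) (s : Fin nc → ℝ) (g : Fin nc) (x : Fin N → ℝ) :
    ∑ c : Coins nc n N, Real.exp ((∑ h, s h * ∑ i, zf c h i * x i) +
        1 / 8 * ∑ i, zf c g i ^ 2) ≤
      (Fintype.card (Coins nc n N) : ℝ) *
        (Real.exp ((∑ h, s h ^ 2) * ∑ i, x i ^ 2) * κ ^ N) := by
  classical
  set γ : Measure (Fin N → ℝ) := Measure.pi fun _ => gaussianReal 0 1 with hγ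
  -- the vectors
  set θ : (Fin N → ℝ) → Fin nc → Fin N → ℝ := fun ξ h i => s h * x i + if h = g then ξ i / 2 else 0
    with hθ
  have e1 : ∀ (c : Coins nc n N) (ξ : Fin N → ℝ), ∑ h, ∑ i, zf c h i * θ ξ h i =
      (∑ h, s h * ∑ i, zf c h i * x i) + ∑ i, zf c g i / 2 * ξ i := by
    intro c ξ
    simp only [hθ, mul_add, Finset.sum_add_distrib]
    congr 1
    · refine Finset.sum_congr rfl fun h _ => ?_
      rw [Finset.mul_sum]
      exact Finset.sum_congr rfl fun i _ => by ring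
    · rw [Finset.sum_eq_single g]
      · refine Finset.sum_congr rfl fun i _ => ?_
        simp only [if_true]; ring
      · intro h _ hh
        refine Finset.sum_eq_zero fun i _ => ?_
        rw [if_neg hh, mul_zero]
      · intro h; exact absurd (Finset.mem_univ g) h
  have e2 : ∀ c : Coins nc n N, Real.exp ((∑ h, s h * ∑ i, zf c h i * x i) +
      1 / 8 * ∑ i, zf c g i ^ 2) = ∫ ξ, Real.exp (∑ h, ∑ i, zf c h i * θ ξ h i) ∂γ := by
    intro c
    simp_rw [e1, Real.exp_add]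
    rw [integral_const_mul, quad_eq]
  have hint : ∀ c : Coins nc n N,
      Integrable (fun ξ => Real.exp (∑ h, ∑ i, zf c h i * θ ξ h i)) γ := by
    intro c
    simp_rw [e1, Real.exp_add]
    exact (integrable_lin (fun i => zf c g i / 2)).const_mul _
  simp_rw [e2]
  rw [← integral_finsetSum _ fun c _ => hint c]
  have h3 : ∀ ξ : Fin N → ℝ, ∑ h, ∑ i, θ ξ h i ^ 2 ≤
      2 * ((∑ h, s h ^ 2) * ∑ i, x i ^ 2) + ∑ i, 1 / 2 * ξ i ^ 2 := by
    intro ξ
    have h4 : ∀ h, ∑ i, θ ξ h i ^ 2 ≤ 2 * (s h ^ 2 * ∑ i, x i ^ 2) +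
        if h = g then ∑ i, 1 / 2 * ξ i ^ 2 else 0 := by
      intro h
      by_cases hh : h = g
      · simp only [hθ, hh, if_true]
        rw [Finset.mul_sum, Finset.mul_sum, ← Finset.sum_add_distrib]
        refine Finset.sum_le_sum fun i _ => ?_
        nlinarith [sq_nonneg (s g * x i - ξ i / 2)]
      · simp only [hθ, if_neg hh, add_zero]
        rw [Finset.mul_sum, Finset.mul_sum]
        refine Finset.sum_le_sum fun i _ => ?_
        nlinarith [sq_nonneg (s h * x i)]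
    refine (Finset.sum_le_sum fun h _ => h4 h).trans (le_of_eq ?_)
    rw [Finset.sum_add_distrib, Finset.sum_ite_eq' Finset.univ g, if_pos (Finset.mem_univ g),
      ← Finset.mul_sum, ← Finset.sum_mul]
  have h5 : ∀ ξ : Fin N → ℝ, ∑ c : Coins nc n N, Real.exp (∑ h, ∑ i, zf c h i * θ ξ h i) ≤
      (Fintype.card (Coins nc n N) : ℝ) * (Real.exp ((∑ h, s h ^ 2) * ∑ i, x i ^ 2) *
        Real.exp (∑ i, 1 / 4 * ξ i ^ 2)) := by
    intro ξ
    refine (coin_mgf2 nc n N (θ ξ)).trans ?_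
    refine mul_le_mul_of_nonneg_left ?_ (Nat.cast_nonneg _)
    rw [← Real.exp_add]
    refine Real.exp_le_exp.mpr ?_
    have e3 : ∑ i, 1 / 2 * ξ i ^ 2 = 2 * ∑ i, 1 / 4 * ξ i ^ 2 := by
      rw [Finset.mul_sum]
      exact Finset.sum_congr rfl fun i _ => by ring
    have := h3 ξ
    rw [e3] at this
    linarith
  have h6 := integral_mono (integrable_finsetSum _ fun c _ => hint c)
    ((integrable_sq (N := N)).const_mul (Real.exp ((∑ h, s h ^ 2) * ∑ i, x i ^ 2)) |>.const_mul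
      (Fintype.card (Coins nc n N) : ℝ)) h5
  refine h6.trans (le_of_eq ?_)
  rw [integral_const_mul, integral_const_mul, integral_sq]

/-! ### the bound -/

section sys

variable {N : ℕ} (C : Cfg N) (nc n : ℕ) {M : ℕ} {K : ℝ} {f : ℕ → ℝ → ℝ}

theorem eE_exp_le (hK : ∀ a x, |f a x| ≤ K) (G : Fin M → Fin N → ℝ) (s : Fin nc → ℝ)
    (g : Fin nc) :
    eE (prior C nc n) (fun ω => Real.exp (UU f G s ω + 1 / 8 * ∑ i, zf ω.2 g i ^ 2)) ≤
      Real.exp (K * M) * (Real.exp ((∑ h, s h ^ 2) * N) * κ ^ N) := by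
  unfold eE prior
  rw [Fintype.sum_prod_type]
  have hc : 0 < (Fintype.card (Coins nc n N) : ℝ) := by exact_mod_cast Fintype.card_pos
  have h1 : ∀ y : C.Y, ∑ c : Coins nc n N, C.q y * (Fintype.card (Coins nc n N) : ℝ)⁻¹ *
      Real.exp (UU f G s (y, c) + 1 / 8 * ∑ i, zf c g i ^ 2) ≤
      C.q y * (Real.exp (K * M) * (Real.exp ((∑ h, s h ^ 2) * N) * κ ^ N)) := by
    intro y
    have h2 : ∑ c : Coins nc n N, C.q y * (Fintype.card (Coins nc n N) : ℝ)⁻¹ *
        Real.exp (UU f G s (y, c) + 1 / 8 * ∑ i, zf c g i ^ 2) =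
        C.q y * Real.exp (rowE f G (C.x y)) * ((Fintype.card (Coins nc n N) : ℝ)⁻¹ *
          ∑ c : Coins nc n N, Real.exp ((∑ h, s h * ∑ i, zf c h i * C.x y i) +
            1 / 8 * ∑ i, zf c g i ^ 2)) := by
      rw [Finset.mul_sum, Finset.mul_sum]
      refine Finset.sum_congr rfl fun c _ => ?_
      unfold UU fieldE
      rw [add_assoc, Real.exp_add]
      ring
    rw [h2, mul_assoc]
    refine mul_le_mul_of_nonneg_left ?_ (C.hq.pos y).le
    have h3 := coin_quad nc n N s g (C.x y)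
    rw [C.hx y] at h3
    have h4 : (Fintype.card (Coins nc n N) : ℝ)⁻¹ *
        ∑ c : Coins nc n N, Real.exp ((∑ h, s h * ∑ i, zf c h i * C.x y i) +
            1 / 8 * ∑ i, zf c g i ^ 2) ≤ Real.exp ((∑ h, s h ^ 2) * N) * κ ^ N := by
      rw [inv_mul_le_iff₀ hc]; exact h3
    refine mul_le_mul ?_ h4 ?_ (Real.exp_pos _).le
    · exact Real.exp_le_exp.mpr (abs_le.1 (abs_rowE_le f hK G (C.x y))).2
    · exact mul_nonneg (inv_nonneg.mpr hc.le) (Finset.sum_nonneg fun c _ => (Real.exp_pos _).le)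
  refine (Finset.sum_le_sum fun y _ => h1 y).trans (le_of_eq ?_)
  rw [← Finset.sum_mul, C.hq.sum, one_mul]

theorem fld_bound (hK : ∀ a x, |f a x| ≤ K) (G : Fin M → Fin N → ℝ) (s : Fin nc → ℝ)
    (g : Fin nc) :
    eE (QQ C nc n (M := M) f G s) (fun ω => ∑ i, zf ω.2 g i ^ 2) ≤
      8 * (2 * (K * M) + (∑ h, s h ^ 2) * N + N * Real.log κ) := by
  have hP := S6Str_649.prior_isProb C nc n
  have hx := S6Str_649.xs_expo nc n
  obtain ⟨ω⟩ : Nonempty (Om C nc n) := inferInstance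
  have h0 : (fil C nc n).F 0 = ⊤ := by
    ext a b
    constructor
    · intro _
      trivial
    · intro _
      refine ⟨fun g t h => ?_, fun h => ?_⟩
      · omega
      · unfold Lv at h
        omega
  -- upper bound
  have h1 := A_le_log hP hx (𝓕 := fil C nc n)
    (fun ω : Om C nc n => UU f G s ω + 1 / 8 * ∑ i, zf ω.2 g i ^ 2) 0 ω
  rw [h0, eE_top hP] at h1
  have hpos : 0 < eE (prior C nc n)
      (fun ω => Real.exp (UU f G s ω + 1 / 8 * ∑ i, zf ω.2 g i ^ 2)) :=
    Finset.sum_pos (fun ω _ => mul_pos (hP.pos ω) (Real.exp_pos _)) ⟨ω, Finset.mem_univ _⟩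
  have h2 := Real.log_le_log hpos (eE_exp_le C nc n hK G s g)
  have hκ := κ_pos
  rw [Real.log_mul (Real.exp_pos _).ne' (mul_pos (Real.exp_pos _) (pow_pos hκ N)).ne',
    Real.log_mul (Real.exp_pos _).ne' (pow_pos hκ N).ne', Real.log_exp, Real.log_exp,
    Real.log_pow] at h2
  -- lower bound
  have h3 := A_cocycle (𝓕 := fil C nc n) hP hx.pos (UU f G s)
    (fun ω : Om C nc n => 1 / 8 * ∑ i, zf ω.2 g i ^ 2) 0 ω
  have hQ : IsProb (tl (prior C nc n) (fil C nc n) (xs nc n) (UU f G s)) := tl_isProb hP hx.pos _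
  have h4 := cE_le_A (𝓕 := fil C nc n) hQ hx.pos
    (fun ω : Om C nc n => 1 / 8 * ∑ i, zf ω.2 g i ^ 2) 0 ω
  rw [h0, eE_top hQ] at h4
  have h5 : eE (tl (prior C nc n) (fil C nc n) (xs nc n) (UU f G s))
      (fun ω : Om C nc n => 1 / 8 * ∑ i, zf ω.2 g i ^ 2) =
      1 / 8 * eE (QQ C nc n (M := M) f G s) (fun ω => ∑ i, zf ω.2 g i ^ 2) := by
    unfold eE QQ
    rw [Finset.mul_sum]
    exact Finset.sum_congr rfl fun w _ => by ring
  have h6 : A (prior C nc n) (fil C nc n) (xs nc n) (UU f G s) 0 ω = Phi C nc n f G s := by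
    unfold Phi
    rw [← eE_top hP _ ω, ← h0, cE_of_meas hP (A_meas hP hx.pos _ 0)]
  have h7 := le_Phi C nc n f hK G s
  rw [h5] at h4
  rw [h6] at h3
  linarith

end sys

/-- **(FLD)** -/
theorem fld : S6L_988.FLD := by
  intro αm K
  refine ⟨8 * (2 * (|K| * |αm|) + 1 + |Real.log κ|), by positivity, ?_⟩
  intro N nc n hN hn C f M G A s hM hK hs hA g
  have hNp : (0 : ℝ) < N := by exact_mod_cast hN
  have hnc : 0 < nc := lt_of_le_of_lt (Nat.zero_le _) g.2
  have hncr : (1 : ℝ) ≤ nc := by exact_mod_cast hnc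
  have hA0 : 0 ≤ A := (abs_nonneg _).trans (hs g)
  have hA1 : A ≤ 1 := by nlinarith
  have hs2 : ∑ h, s h ^ 2 ≤ 1 := by
    have h1 : ∀ h ∈ (Finset.univ : Finset (Fin nc)), s h ^ 2 ≤ A ^ 2 := fun h _ => by
      rw [← sq_abs]; exact pow_le_pow_left₀ (abs_nonneg _) (hs h) 2
    refine (Finset.sum_le_sum h1).trans ?_
    rw [Finset.sum_const, Finset.card_univ, Fintype.card_fin, nsmul_eq_mul]
    nlinarith
  refine (fld_bound C nc n hK G s g).trans ?_
  have hK0 : 0 ≤ K := (abs_nonneg _).trans (hK 0 0)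
  have h1 : K * M ≤ |K| * |αm| * N := by
    have h2 : (M : ℝ) ≤ |αm| * N := hM.trans (mul_le_mul_of_nonneg_right (le_abs_self _) hNp.le)
    calc K * M ≤ |K| * M := mul_le_mul_of_nonneg_right (le_abs_self K) (Nat.cast_nonneg _)
      _ ≤ |K| * (|αm| * N) := mul_le_mul_of_nonneg_left h2 (abs_nonneg _)
      _ = _ := by ring
  have h3 : (∑ h, s h ^ 2) * N ≤ 1 * N := mul_le_mul_of_nonneg_right hs2 hNp.le
  have h4 : N * Real.log κ ≤ N * |Real.log κ| :=
    mul_le_mul_of_nonneg_left (le_abs_self _) hNp.le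
  nlinarith

end

end Crest.Agent.R146.S6Fld_857
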