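import Crest.Agent.R146.S6L2_290
import Crest.Agent.R146.S6Trans_944
import Crest.Agent.R146.S6Ovl_382

/-!
Row 146, statement S0206, lower bound (helper290): the relations (L2) between the levels `P` and
`T` (`S6L_988.REL`) from the Schwinger-Dyson relation `S6Sd_290.sd_pair`, the row observables and
the bound of the fields.
-/

set_option autoImplicit false

namespace Crest.Agent.R146.S6Rel_290

open Finset MeasureTheory ProbabilityTheory
open Crest.Agent.R141 hiding prior UU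
open Crest.Agent.R146.S6Def_988 Crest.Agent.R146.S6U_988 Crest.Agent.R146.RowDef_874
open Crest.Agent.R146.LimIbp_290 Crest.Agent.R146.LimRel_290 Crest.Agent.R146.L2Alg_36
open Crest.Agent.R146.S6L_988 Crest.Agent.R146.S6L2_290 Crest.Agent.R146.S6Trans_944
open Crest.Agent.R146.S6Sd_290 (HG one_le_HG sum_row_le_HG integrable_HG PsiP sd_pair)
open Crest.Agent.R146.S6Ovl_382 (QQ_isProb measurable_QQ)

noncomputable section

/-! ### pairs -/

section pE

variable {Ω : Type} [Fintype Ω] {P : Ω → ℝ} {r : Setoid Ω}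

theorem pE_sub (f g : Ω → Ω → ℝ) : pE P r (fun a b => f a b - g a b) = pE P r f - pE P r g := by
  unfold pE
  simp_rw [cE_sub]
  rw [eE_sub]

theorem pE_abs_le (hP : IsProb P) (f : Ω → Ω → ℝ) : |pE P r f| ≤ pE P r (fun a b => |f a b|) := by
  rw [abs_le]
  constructor
  · have h := pE_mono (r := r) hP (f := fun a b => (-1) * |f a b|) (g := f)
      (fun a b _ => by linarith [neg_abs_le (f a b)])
    rw [pE_smul] at h
    linarith
  · exact pE_mono hP fun a b _ => le_abs_self _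

theorem pE_le_of_le (hP : IsProb P) {f : Ω → Ω → ℝ} {c : ℝ} (h : ∀ a b, f a b ≤ c) :
    pE P r f ≤ c :=
  (pE_mono hP fun a b _ => h a b).trans (pE_const hP c).le

theorem pE_sum {ι : Type*} (t : Finset ι) (f : ι → Ω → Ω → ℝ) :
    pE P r (fun a b => ∑ i ∈ t, f i a b) = ∑ i ∈ t, pE P r (f i) := by
  unfold pE
  simp_rw [cE_sum]
  rw [eE_sum]

end pE

variable {N : ℕ} {C : Cfg N} {nc n M : ℕ}

theorem pE_ovl {Q : Om C nc n → ℝ} (hQ : IsProb Q) (r : Setoid (Om C nc n)) :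
    pE Q r (ovl C nc n) = eE Q (fun ω => (N : ℝ)⁻¹ *
      ∑ i, (cE Q r (fun w => C.x w.1 i) ω) ^ 2) := by
  have h1 : pE Q r (ovl C nc n) = eE Q (fun ω => (N : ℝ)⁻¹ *
      ∑ i, C.x ω.1 i * cE Q r (fun w => C.x w.1 i) ω) := by
    unfold pE ovl
    congr 1
    funext ω
    rw [cE_smul, cE_sum]
    simp_rw [cE_smul]
  rw [h1, eE_smul, eE_smul, eE_sum, eE_sum]
  congr 1
  refine sum_congr rfl fun i _ => ?_
  have h2 : (fun ω => (cE Q r (fun w => C.x w.1 i) ω) ^ 2) =
      cE Q r (fun ω => C.x ω.1 i * cE Q r (fun w => C.x w.1 i) ω) := by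
    funext ω
    rw [cE_mul_right (cE_meas Q r _)]
    ring
  rw [h2, eE_cE hQ]

theorem Rk_eq (f : ℕ → ℝ → ℝ) (s : Fin nc → ℝ) (k : ℕ) : Rk C nc n f M s k =
    ∫ G, pE (QQ C nc n (M := M) f G s) ((fil C nc n).F k) (ovl C nc n) ∂(gam M N) := by
  unfold Rk
  refine integral_congr_ae (Filter.Eventually.of_forall fun G => ?_)
  exact (pE_ovl (QQ_isProb C nc n f G s) _).symm

theorem abs_ovl_le (hN : 0 < N) (u v : Om C nc n) : |ovl C nc n u v| ≤ 1 := by
  have hN' : (0 : ℝ) < N := by exact_mod_cast hN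
  unfold ovl
  rw [abs_mul, abs_of_pos (inv_pos.2 hN'), inv_mul_le_iff₀ hN', mul_one]
  refine (abs_sum_le_sum_abs _ _).trans ?_
  have h1 : ∀ i ∈ (univ : Finset (Fin N)), |C.x u.1 i * C.x v.1 i| ≤
      (C.x u.1 i ^ 2 + C.x v.1 i ^ 2) / 2 := by
    intro i _
    rw [abs_mul]
    nlinarith [sq_nonneg (|C.x u.1 i| - |C.x v.1 i|), sq_abs (C.x u.1 i), sq_abs (C.x v.1 i)]
  refine (sum_le_sum h1).trans ?_
  rw [← sum_div, sum_add_distrib, C.hx, C.hx]
  linarith

theorem x_le (hN : 0 < N) (y : C.Y) (i : Fin N) : |C.x y i / Real.sqrt N| ≤ 1 := by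
  have hN' : (0 : ℝ) < N := by exact_mod_cast hN
  have hs : 0 < Real.sqrt N := Real.sqrt_pos.2 hN'
  rw [abs_div, abs_of_pos hs, div_le_one hs, ← Real.sqrt_sq_eq_abs]
  refine Real.sqrt_le_sqrt ?_
  have h := single_le_sum (f := fun i => C.x y i ^ 2) (fun i _ => sq_nonneg _) (mem_univ i)
  rw [C.hx y] at h
  exact h

theorem abs_hh_le (hN : 0 < N) (G : Fin M → Fin N → ℝ) (a : Fin M) (y : C.Y) :
    |hh G a (C.x y)| ≤ HG G := by
  unfold hh
  refine (abs_sum_le_sum_abs _ _).trans ((sum_le_sum fun i _ => ?_).trans (sum_row_le_HG G a))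
  rw [abs_mul]
  exact mul_le_of_le_one_right (abs_nonneg _) (x_le hN y i)

/-! ### the three terms -/

theorem meas_hh (a : Fin M) (x : Fin N → ℝ) : Measurable fun G : Fin M → Fin N → ℝ => hh G a x := by
  unfold hh
  fun_prop

theorem meas_RS {φ ψ : ℝ → ℝ} (hφ : Measurable φ) (hψ : Measurable ψ) (u v : Om C nc n) :
    Measurable fun G : Fin M → Fin N → ℝ => RS C nc n φ ψ G u v := by
  unfold RS
  refine Measurable.const_mul (Finset.measurable_sum _ fun a _ => ?_) _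
  exact (hφ.comp (meas_hh a _)).mul (hψ.comp (meas_hh a _))

theorem abs_RS_le (hN : 0 < N) {f1 : ℝ → ℝ} {K : ℝ} (hK : ∀ x, |f1 x| ≤ K)
    (G : Fin M → Fin N → ℝ) (u v : Om C nc n) :
    |RS C nc n f1 (fun x => x) G u v| ≤ (M : ℝ) / N * (K * HG G ^ 3) := by
  have hN' : (0 : ℝ) < N := by exact_mod_cast hN
  have hH := one_le_HG G
  have hK0 : 0 ≤ K := (abs_nonneg _).trans (hK 0)
  unfold RS
  rw [abs_mul, abs_of_pos (inv_pos.2 hN')]
  have h1 : |∑ a : Fin M, f1 (hh G a (C.x u.1)) * hh G a (C.x v.1)| ≤ M * (K * HG G) := by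
    refine (abs_sum_le_sum_abs _ _).trans ?_
    have h2 : ∀ a ∈ (univ : Finset (Fin M)), |f1 (hh G a (C.x u.1)) * hh G a (C.x v.1)| ≤
        K * HG G := by
      intro a _
      rw [abs_mul]
      exact mul_le_mul (hK _) (abs_hh_le hN G a _) (abs_nonneg _) hK0
    refine (sum_le_sum h2).trans ?_
    rw [sum_const, card_univ, Fintype.card_fin, nsmul_eq_mul]
  have h3 : HG G ≤ HG G ^ 3 := le_self_pow₀ hH (by norm_num)
  have h4 : (M : ℝ) * (K * HG G) ≤ M * (K * HG G ^ 3) := by gcongr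
  calc (N : ℝ)⁻¹ * _ ≤ (N : ℝ)⁻¹ * (M * (K * HG G ^ 3)) :=
        mul_le_mul_of_nonneg_left (h1.trans h4) (inv_pos.2 hN').le
    _ = _ := by rw [div_eq_mul_inv]; ring

theorem integrable_pE {f : ℕ → ℝ → ℝ} (hf : ∀ a, Measurable (f a)) (s : Fin nc → ℝ)
    (r : Setoid (Om C nc n)) {Ψ : (Fin M → Fin N → ℝ) → Om C nc n → Om C nc n → ℝ}
    (hΨ : ∀ u v, Measurable fun G => Ψ G u v) {c : ℝ} (hb : ∀ G u v, |Ψ G u v| ≤ c * HG G ^ 3) :
    Integrable (fun G => pE (QQ C nc n f G s) r (Ψ G)) (gam M N) := by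
  refine ((integrable_HG M N).const_mul c).mono' ?_ (Filter.Eventually.of_forall fun G => ?_)
  · unfold pE
    refine Measurable.aestronglyMeasurable ?_
    exact Crest.Agent.R164.G.meas_eE (measurable_QQ C nc n hf s) fun u =>
      Crest.Agent.R164.G.meas_cE (f := fun G v => Ψ G u v) (measurable_QQ C nc n hf s)
        (fun v => hΨ u v) r u
  · rw [Real.norm_eq_abs]
    exact (pE_abs_le (QQ_isProb C nc n f G s) _).trans
      (pE_le_of_le (QQ_isProb C nc n f G s) (hb G))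

/-- the field terms -/
def FT {N : ℕ} (C : Cfg N) (nc n : ℕ) (s : Fin nc → ℝ) (u v : Om C nc n) : ℝ :=
  (N : ℝ)⁻¹ * ∑ g, s g * ((∑ i, zf u.2 g i * C.x v.1 i) -
    ovl C nc n u v * ∑ i, zf u.2 g i * C.x u.1 i)

theorem PsiP_eq (hN : 0 < N) (f1 : ℝ → ℝ) (G : Fin M → Fin N → ℝ) (s : Fin nc → ℝ)
    (u v : Om C nc n) : (N : ℝ)⁻¹ * PsiP C (fun _ => f1) G s u v =
      (1 - (N : ℝ)⁻¹) * ovl C nc n u v - RS C nc n f1 (fun x => x) G u v +
        ovl C nc n u v * RS C nc n f1 (fun x => x) G u u - FT C nc n s u v := by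
  have hN' : (N : ℝ) ≠ 0 := by exact_mod_cast hN.ne'
  have h0 : ∑ i, C.x v.1 i * C.x u.1 i = N * ovl C nc n u v := by
    unfold ovl
    rw [← mul_assoc, mul_inv_cancel₀ hN', one_mul]
    exact sum_congr rfl fun i _ => mul_comm _ _
  have e1 : ∑ a : Fin M, f1 (S6Sd_290.hr G a (C.x u.1)) * (S6Sd_290.hr G a (C.x v.1) -
      ovl C nc n u v * S6Sd_290.hr G a (C.x u.1)) =
      N * (RS C nc n f1 (fun x => x) G u v - ovl C nc n u v * RS C nc n f1 (fun x => x) G u u) := by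
    have h1 : ∀ w, (N : ℝ) * RS C nc n f1 (fun x => x) G u w =
        ∑ a : Fin M, f1 (S6Sd_290.hr G a (C.x u.1)) * S6Sd_290.hr G a (C.x w.1) := by
      intro w
      unfold RS
      rw [← mul_assoc, mul_inv_cancel₀ hN', one_mul]
      rfl
    have h2 : (N : ℝ) * (RS C nc n f1 (fun x => x) G u v -
        ovl C nc n u v * RS C nc n f1 (fun x => x) G u u) =
        (N : ℝ) * RS C nc n f1 (fun x => x) G u v -
        ovl C nc n u v * ((N : ℝ) * RS C nc n f1 (fun x => x) G u u) := by ring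
    rw [h2, h1, h1, mul_sum, ← sum_sub_distrib]
    exact sum_congr rfl fun a _ => by ring
  unfold PsiP S6Sd_290.Psi FT
  rw [h0]
  have e2 : (N : ℝ) * ovl C nc n u v / N = ovl C nc n u v := by field_simp
  rw [e2, e1]
  field_simp
  ring

theorem pE_FT_le (hN : 0 < N) {Q : Om C nc n → ℝ} (hQ : IsProb Q) (r : Setoid (Om C nc n))
    {s : Fin nc → ℝ} {A Cf : ℝ} (hs : ∀ g, |s g| ≤ A)
    (hF : ∀ g : Fin nc, eE Q (fun ω => ∑ i, zf ω.2 g i ^ 2) ≤ Cf * N) :
    |pE Q r (FT C nc n s)| ≤ (nc : ℝ) * A * (Cf + 1) := by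
  have hN' : (0 : ℝ) < N := by exact_mod_cast hN
  have hdot : ∀ (g : Fin nc) (u v : Om C nc n), |∑ i, zf u.2 g i * C.x v.1 i| ≤
      (∑ i, zf u.2 g i ^ 2 + N) / 2 := by
    intro g u v
    refine (abs_sum_le_sum_abs _ _).trans ?_
    rw [← C.hx v.1, ← sum_add_distrib, sum_div]
    refine sum_le_sum fun i _ => ?_
    rw [abs_mul]
    nlinarith [sq_nonneg (|zf u.2 g i| - |C.x v.1 i|), sq_abs (zf u.2 g i), sq_abs (C.x v.1 i)]
  have hpt : ∀ u v : Om C nc n, |FT C nc n s u v| ≤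
      ∑ g : Fin nc, (N : ℝ)⁻¹ * (A * (∑ i, zf u.2 g i ^ 2 + N)) := by
    intro u v
    unfold FT
    rw [mul_sum]
    refine (abs_sum_le_sum_abs _ _).trans (sum_le_sum fun g _ => ?_)
    rw [abs_mul, abs_of_pos (inv_pos.2 hN'), abs_mul]
    refine mul_le_mul_of_nonneg_left ?_ (inv_pos.2 hN').le
    refine mul_le_mul (hs g) ?_ (abs_nonneg _) ((abs_nonneg _).trans (hs g))
    refine (abs_sub _ _).trans ?_
    have h1 := hdot g u v
    have h2 := hdot g u u
    have h3 : |ovl C nc n u v * ∑ i, zf u.2 g i * C.x u.1 i| ≤ |∑ i, zf u.2 g i * C.x u.1 i| := by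
      rw [abs_mul]
      exact mul_le_of_le_one_left (abs_nonneg _) (abs_ovl_le hN u v)
    linarith
  refine (pE_abs_le hQ _).trans ((pE_mono hQ fun a b _ => hpt a b).trans ?_)
  rw [pE_fst hQ, eE_sum]
  have h5 : ∀ g ∈ (univ : Finset (Fin nc)), eE Q (fun ω => (N : ℝ)⁻¹ * (A *
      (∑ i, zf ω.2 g i ^ 2 + N))) ≤ A * (Cf + 1) := by
    intro g _
    rw [eE_smul, eE_smul, eE_add, eE_const hQ]
    have hA : 0 ≤ A := (abs_nonneg _).trans (hs g)
    rw [inv_mul_le_iff₀ hN']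
    have h6 := hF g
    calc A * (eE Q (fun ω => ∑ i, zf ω.2 g i ^ 2) + N) ≤ A * (Cf * N + N) :=
          mul_le_mul_of_nonneg_left (by linarith) hA
      _ = _ := by ring
  refine (sum_le_sum h5).trans ?_
  rw [sum_const, card_univ, Fintype.card_fin, nsmul_eq_mul]
  linarith

/-! ### the skeleton -/

theorem tau_le {f : ℕ → ℝ → ℝ} {s : Fin nc → ℝ} {J wc : ℕ} {τ : ℕ → ℕ} {ε : ℝ}
    (hwc : 2 ≤ wc) (hnc : nc + 1 = (J + 1) * wc) (hS : Skel C nc n f M s J wc τ ε)
    {b : ℕ} (hb : b ≤ J) : τ b ≤ nc * n := by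
  have h1 := (hS.blk b hb).2
  unfold st at h1
  have h2 : b * wc + wc - 1 ≤ nc := by
    have h3 : (b + 1) * wc ≤ (J + 1) * wc := Nat.mul_le_mul_right wc (by omega)
    rw [add_mul, one_mul] at h3
    omega
  exact h1.le.trans (Nat.mul_le_mul_right n h2)

theorem tau_mono {f : ℕ → ℝ → ℝ} {s : Fin nc → ℝ} {J wc : ℕ} {τ : ℕ → ℕ} {ε : ℝ}
    (hwc : 2 ≤ wc) (hS : Skel C nc n f M s J wc τ ε)
    {b b' : ℕ} (hbb : b ≤ b') (hb : b' ≤ J) : τ b ≤ τ b' := by
  rcases Nat.lt_or_ge b b' with h | h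
  · have h1 := (hS.blk b (by omega)).2
    have h2 := (hS.blk b' hb).1
    unfold st at h1 h2
    refine h1.le.trans (le_trans (Nat.mul_le_mul_right n ?_) h2)
    have h3 : (b + 1) * wc ≤ b' * wc := Nat.mul_le_mul_right wc h
    rw [add_mul, one_mul] at h3
    omega
  · have : b = b' := le_antisymm hbb h
    rw [this]

/-- the levels of a skeleton are admissible. -/
theorem lev_PR (hN : 0 < N) {f : ℝ → ℝ} (hf : Measurable f) {s : Fin nc → ℝ} {J wc : ℕ}
    {τ : ℕ → ℕ} {ε : ℝ} (hwc : 2 ≤ wc) (hS : Skel C nc n (fun _ => f) M s J wc τ ε) :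
    Lev J (PR C nc n f M s τ) where
  nonneg := S6Ovl_382.Rk_nonneg C nc n (fun _ => f) s (τ 0)
  mono _ _ hij hj := S6Ovl_382.Rk_mono C nc n s hN (fun _ => hf) (tau_mono hwc hS hij hj)
  le_one := S6Ovl_382.Rk_le_one C nc n s hN (fun _ => hf) _

/-! ### the relation -/

theorem lin4 {Θ : Type*} [MeasurableSpace Θ] {μ : Measure Θ} {X0 X1 X2 X3 X4 : Θ → ℝ}
    (h1 : Integrable X1 μ) (h2 : Integrable X2 μ) (h3 : Integrable X3 μ) (h4 : Integrable X4 μ)
    (c d : ℝ) (h : ∀ G, c * X0 G = d * X1 G - X2 G + X3 G - X4 G) :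
    c * ∫ G, X0 G ∂μ = d * (∫ G, X1 G ∂μ) - (∫ G, X2 G ∂μ) + (∫ G, X3 G ∂μ) - ∫ G, X4 G ∂μ := by
  have h12 : Integrable (fun G => d * X1 G - X2 G) μ := (h1.const_mul d).sub h2
  have h123 : Integrable (fun G => d * X1 G - X2 G + X3 G) μ := h12.add h3
  rw [← integral_const_mul]
  simp_rw [h]
  rw [integral_sub h123 h4, integral_add h12 h3, integral_sub (h1.const_mul d) h2,
    integral_const_mul]

/-- the value `κ_* = kapX (J+1) f' id` is bounded. -/
theorem abs_kapX_top_le {K : ℝ} {f f1 f2 : ℝ → ℝ} (h3 : S3 K f f1 f2) {J : ℕ} {P : ℕ → ℝ}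
    (hP : Lev J P) : |kapX J f P (J + 1) f1 (fun x => x)| ≤ K + 2 * K ^ 2 := by
  obtain ⟨hT, h1, -⟩ := l2ibp K f f1 f2 h3 J P hP
  have h := S3_S2 h3
  have hK := S3_nK h3
  have e1 : |kapX J f P (J + 1) f2 (fun _ => 1)| ≤ K := by
    rw [kapX_top_eq]
    have h4 : Crest.Agent.R164.GC.BC (fun x => f2 x * 1) K := by
      refine ⟨by simpa using h.c2, fun x => ?_⟩
      rw [mul_one]
      exact h.b2 x
    exact EX_abs_le h le_rfl h4
  have e2 : |kapX J f P (J + 1) f1 f1| ≤ K ^ 2 := by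
    rw [abs_of_nonneg (hT.nonneg' le_rfl)]
    exact hT.le
  have e3 : |1 / ((J : ℝ) + 1) * ∑ l ∈ range (J + 1), P l * kapX J f P l f1 f1| ≤ K ^ 2 := by
    have h5 : |∑ l ∈ range (J + 1), P l * kapX J f P l f1 f1| ≤ ((J : ℝ) + 1) * K ^ 2 := by
      refine (abs_sum_le_sum_abs _ _).trans ?_
      have h6 : ∀ l ∈ range (J + 1), |P l * kapX J f P l f1 f1| ≤ K ^ 2 := by
        intro l hl
        rw [mem_range] at hl
        have h7 : 0 ≤ P l := hP.nonneg.trans (hP.mono 0 l (Nat.zero_le _) (by omega))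
        have h8 : P l ≤ 1 := (hP.mono l J (by omega) le_rfl).trans hP.le_one
        have h9 : 0 ≤ kapX J f P l f1 f1 := hT.nonneg' (by omega)
        have h10 : kapX J f P l f1 f1 ≤ K ^ 2 := (hT.mono l (J + 1) (by omega) le_rfl).trans hT.le
        rw [abs_of_nonneg (mul_nonneg h7 h9)]
        calc P l * kapX J f P l f1 f1 ≤ 1 * K ^ 2 := mul_le_mul h8 h10 h9 zero_le_one
          _ = _ := one_mul _
      refine (sum_le_sum h6).trans ?_
      rw [sum_const, card_range, nsmul_eq_mul]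
      push_cast
      exact le_rfl
    have hJ : (0 : ℝ) < (J : ℝ) + 1 := by positivity
    rw [abs_mul, abs_of_pos (by positivity : (0 : ℝ) < 1 / ((J : ℝ) + 1)), one_div,
      inv_mul_le_iff₀ hJ]
    exact h5
  rw [h1]
  rw [abs_le] at e1 e2 e3 ⊢
  constructor <;> linarith [e1.1, e1.2, e2.1, e2.2, e3.1, e3.2]

/-- **the defect of the relation at the level `b`**, for one system. -/
theorem rel_core (hN : 0 < N) {K : ℝ} {f f1 f2 : ℝ → ℝ} (h3 : S3 K f f1 f2)
    {s : Fin nc → ℝ} {J wc : ℕ} {τ : ℕ → ℕ} {ε1 : ℝ} (hwc : 2 ≤ wc)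
    (hS : Skel C nc n (fun _ => f) M s J wc τ ε1) {b : ℕ} (hb : b ≤ J) {A Cf r1 r2 e0 : ℝ}
    (hs : ∀ g, |s g| ≤ A)
    (hF : ∀ (G : Fin M → Fin N → ℝ) (g : Fin nc),
      eE (QQ C nc n (M := M) (fun _ => f) G s) (fun ω => ∑ i, zf ω.2 g i ^ 2) ≤ Cf * N)
    (h1 : ∫ G, pE (QQ C nc n (M := M) (fun _ => f) G s) ((fil C nc n).F (τ b))
      (fun u v => |RS C nc n f1 (fun x => x) G u v -
        (M : ℝ) / N * kapX J f (PR C nc n f M s τ) b f1 (fun x => x)|) ∂(gam M N) ≤ r1)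
    (h2 : ∫ G, eE (QQ C nc n (M := M) (fun _ => f) G s) (fun u =>
      |RS C nc n f1 (fun x => x) G u u -
        (M : ℝ) / N * kapX J f (PR C nc n f M s τ) (J + 1) f1 (fun x => x)|) ∂(gam M N) ≤ r2)
    (h0 : |∫ G, pE (QQ C nc n (M := M) (fun _ => f) G s) ((fil C nc n).F (τ b))
      (PsiP C (fun _ => f1) G s) ∂(gam M N)| ≤ e0) :
    |rel J (PR C nc n f M s τ) (TR J f f1 (PR C nc n f M s τ) ((M : ℝ) / N)) b| ≤
      (N : ℝ)⁻¹ * e0 + (N : ℝ)⁻¹ + r1 + (r2 + (M : ℝ) / N * (K + 2 * K ^ 2) * ε1) +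
        (nc : ℝ) * A * (Cf + 1) := by
  have hN' : (0 : ℝ) < N := by exact_mod_cast hN
  have h := S3_S2 h3
  have hK := S3_nK h3
  have hfm : Measurable f := h.c0.measurable
  have hf1m : Measurable f1 := h.c1.measurable
  obtain ⟨P, hPdef⟩ : ∃ P, P = PR C nc n f M s τ := ⟨_, rfl⟩
  rw [← hPdef] at h1 h2 ⊢
  have hP : Lev J P := by rw [hPdef]; exact lev_PR hN hfm hwc hS
  obtain ⟨α, hα⟩ : ∃ α : ℝ, α = (M : ℝ) / N := ⟨_, rfl⟩
  rw [← hα] at h1 h2 ⊢
  have hα0 : 0 ≤ α := by rw [hα]; positivity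
  obtain ⟨kb, hkb⟩ : ∃ kb : ℝ, kb = kapX J f P b f1 (fun x => x) := ⟨_, rfl⟩
  obtain ⟨ks, hks⟩ : ∃ ks : ℝ, ks = kapX J f P (J + 1) f1 (fun x => x) := ⟨_, rfl⟩
  rw [← hkb] at h1
  rw [← hks] at h2
  have hks1 : |ks| ≤ K + 2 * K ^ 2 := by rw [hks]; exact abs_kapX_top_le h3 hP
  have hrel : rel J P (TR J f f1 P α) b = P b - α * (kb - P b * ks) := by
    have := rel_eq h hP α hb
    rw [← kapX_top f1 (fun x => x), ← hkb, ← hks] at this
    exact this
  rw [hrel]
  -- abbreviations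
  obtain ⟨r, hr⟩ : ∃ r, r = (fil C nc n).F (τ b) := ⟨_, rfl⟩
  rw [← hr] at h0 h1
  have hpair := hS.pair b hb
  rw [← hr] at hpair
  have hQ : ∀ G : Fin M → Fin N → ℝ, IsProb (QQ C nc n (fun _ => f) G s) :=
    fun G => QQ_isProb C nc n (fun _ => f) G s
  have hfm' : ∀ a : ℕ, Measurable ((fun _ => f : ℕ → ℝ → ℝ) a) := fun _ => hfm
  have hPb : P b = ∫ G, pE (QQ C nc n (M := M) (fun _ => f) G s) r (ovl C nc n) ∂(gam M N) := by
    rw [hPdef, hr]
    exact Rk_eq (fun _ => f) s (τ b)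
  have hH3 : ∀ G : Fin M → Fin N → ℝ, 1 ≤ HG G ^ 3 := fun G => one_le_pow₀ (one_le_HG G)
  -- integrability
  have hc1 : ∀ (G : Fin M → Fin N → ℝ) (u v : Om C nc n),
      |RS C nc n f1 (fun x => x) G u v| ≤ α * K * HG G ^ 3 := by
    intro G u v
    refine (abs_RS_le hN h.b1 G u v).trans (le_of_eq ?_)
    rw [hα]
    ring
  have hm1 : ∀ u v : Om C nc n, Measurable fun G : Fin M → Fin N → ℝ =>
      RS C nc n f1 (fun x => x) G u v := fun u v => meas_RS hf1m measurable_id u v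
  have I1 : Integrable (fun G : Fin M → Fin N → ℝ => pE (QQ C nc n (fun _ => f) G s) r
      (ovl C nc n)) (gam M N) :=
    integrable_pE hfm' s r (Ψ := fun _ => ovl C nc n) (fun _ _ => measurable_const) (c := 1)
      fun G u v => by rw [one_mul]; exact (abs_ovl_le hN u v).trans (hH3 G)
  have I2 : Integrable (fun G : Fin M → Fin N → ℝ => pE (QQ C nc n (fun _ => f) G s) r
      (RS C nc n f1 (fun x => x) G)) (gam M N) :=
    integrable_pE hfm' s r hm1 hc1
  have I3 : Integrable (fun G : Fin M → Fin N → ℝ => pE (QQ C nc n (fun _ => f) G s) r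
      (fun u v => ovl C nc n u v * RS C nc n f1 (fun x => x) G u u)) (gam M N) := by
    refine integrable_pE hfm' s r (fun u v => (hm1 u u).const_mul _) (c := α * K) fun G u v => ?_
    rw [abs_mul]
    exact (mul_le_of_le_one_left (abs_nonneg _) (abs_ovl_le hN u v)).trans (hc1 G u u)
  obtain ⟨BF, hBF⟩ : ∃ BF : ℝ, ∀ u v : Om C nc n, |FT C nc n s u v| ≤ BF := by
    refine ⟨∑ u, ∑ v, |FT C nc n s u v|, fun u v => ?_⟩
    refine (single_le_sum (f := fun v => |FT C nc n s u v|) (fun _ _ => abs_nonneg _)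
      (mem_univ v)).trans ?_
    exact single_le_sum (f := fun u => ∑ v, |FT C nc n s u v|)
      (fun _ _ => sum_nonneg fun _ _ => abs_nonneg _) (mem_univ u)
  have I4 : Integrable (fun G : Fin M → Fin N → ℝ => pE (QQ C nc n (fun _ => f) G s) r
      (FT C nc n s)) (gam M N) := by
    refine integrable_pE hfm' s r (Ψ := fun _ => FT C nc n s) (fun _ _ => measurable_const)
      (c := |BF|) fun G u v => ?_
    exact (hBF u v).trans ((le_abs_self _).trans (le_mul_of_one_le_right (abs_nonneg _) (hH3 G)))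
  -- the identity
  have key : (N : ℝ)⁻¹ * ∫ G, pE (QQ C nc n (M := M) (fun _ => f) G s) r
      (PsiP C (fun _ => f1) G s) ∂(gam M N) = (1 - (N : ℝ)⁻¹) * P b -
      (∫ G, pE (QQ C nc n (M := M) (fun _ => f) G s) r (RS C nc n f1 (fun x => x) G) ∂(gam M N)) +
      (∫ G, pE (QQ C nc n (M := M) (fun _ => f) G s) r
        (fun u v => ovl C nc n u v * RS C nc n f1 (fun x => x) G u u) ∂(gam M N)) -
      ∫ G, pE (QQ C nc n (M := M) (fun _ => f) G s) r (FT C nc n s) ∂(gam M N) := by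
    rw [hPb]
    refine lin4 I1 I2 I3 I4 _ _ fun G => ?_
    rw [← pE_smul]
    have e : (fun u v => (N : ℝ)⁻¹ * PsiP C (fun _ => f1) G s u v) =
        fun u v => ((1 - (N : ℝ)⁻¹) * ovl C nc n u v - RS C nc n f1 (fun x => x) G u v +
          ovl C nc n u v * RS C nc n f1 (fun x => x) G u u) - FT C nc n s u v := by
      funext u v
      exact PsiP_eq hN f1 G s u v
    rw [e, pE_sub, pE_add, pE_sub, pE_smul]
  -- (1)
  have t1 : |(∫ G, pE (QQ C nc n (M := M) (fun _ => f) G s) r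
      (RS C nc n f1 (fun x => x) G) ∂(gam M N)) - α * kb| ≤ r1 := by
    have e1 : (∫ G, pE (QQ C nc n (M := M) (fun _ => f) G s) r
        (RS C nc n f1 (fun x => x) G) ∂(gam M N)) - α * kb =
        ∫ G, pE (QQ C nc n (M := M) (fun _ => f) G s) r
        (fun u v => RS C nc n f1 (fun x => x) G u v - α * kb) ∂(gam M N) := by
      have e2 : ∀ G : Fin M → Fin N → ℝ, pE (QQ C nc n (M := M) (fun _ => f) G s) r
          (fun u v => RS C nc n f1 (fun x => x) G u v - α * kb) =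
          pE (QQ C nc n (M := M) (fun _ => f) G s) r (RS C nc n f1 (fun x => x) G) - α * kb := by
        intro G
        rw [pE_sub, pE_const (hQ G)]
      simp_rw [e2]
      rw [integral_sub I2 (integrable_const _)]
      simp
    rw [e1]
    refine (abs_integral_le_integral_abs).trans (le_trans (integral_mono_of_nonneg
      (Filter.Eventually.of_forall fun G => abs_nonneg _) ?_
      (Filter.Eventually.of_forall fun G => pE_abs_le (hQ G) _)) h1)
    refine integrable_pE hfm' s r (fun u v => ((hm1 u v).sub_const _).norm)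
      (c := α * K + |α * kb|) fun G u v => ?_
    show |(|RS C nc n f1 (fun x => x) G u v - α * kb|)| ≤ _
    rw [abs_abs]
    refine (abs_sub _ _).trans ?_
    have := hc1 G u v
    have h5 : |α * kb| ≤ |α * kb| * HG G ^ 3 := le_mul_of_one_le_right (abs_nonneg _) (hH3 G)
    linarith
  -- (2)
  have t2 : |(∫ G, pE (QQ C nc n (M := M) (fun _ => f) G s) r
      (fun u v => ovl C nc n u v * RS C nc n f1 (fun x => x) G u u) ∂(gam M N)) -
      P b * (α * ks)| ≤ r2 + α * (K + 2 * K ^ 2) * ε1 := by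
    have e1 : (∫ G, pE (QQ C nc n (M := M) (fun _ => f) G s) r
        (fun u v => ovl C nc n u v * RS C nc n f1 (fun x => x) G u u) ∂(gam M N)) -
        P b * (α * ks) =
        ∫ G, pE (QQ C nc n (M := M) (fun _ => f) G s) r
        (fun u v => ovl C nc n u v * RS C nc n f1 (fun x => x) G u u - P b * (α * ks))
          ∂(gam M N) := by
      have e2 : ∀ G : Fin M → Fin N → ℝ, pE (QQ C nc n (M := M) (fun _ => f) G s) r
          (fun u v => ovl C nc n u v * RS C nc n f1 (fun x => x) G u u - P b * (α * ks)) =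
          pE (QQ C nc n (M := M) (fun _ => f) G s) r
          (fun u v => ovl C nc n u v * RS C nc n f1 (fun x => x) G u u) - P b * (α * ks) := by
        intro G
        rw [pE_sub, pE_const (hQ G)]
      simp_rw [e2]
      rw [integral_sub I3 (integrable_const _)]
      simp
    have J1 : Integrable (fun G : Fin M → Fin N → ℝ => eE (QQ C nc n (M := M) (fun _ => f) G s)
        (fun u => |RS C nc n f1 (fun x => x) G u u - α * ks|)) (gam M N) := by
      have e3 : ∀ G : Fin M → Fin N → ℝ, eE (QQ C nc n (M := M) (fun _ => f) G s)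
        (fun u => |RS C nc n f1 (fun x => x) G u u - α * ks|) =
        pE (QQ C nc n (M := M) (fun _ => f) G s) r
          (fun u _ => |RS C nc n f1 (fun x => x) G u u - α * ks|) := fun G => (pE_fst (hQ G) _).symm
      simp_rw [e3]
      refine integrable_pE hfm' s r (fun u v => ((hm1 u u).sub_const _).norm)
        (c := α * K + |α * ks|) fun G u v => ?_
      show |(|RS C nc n f1 (fun x => x) G u u - α * ks|)| ≤ _
      rw [abs_abs]
      refine (abs_sub _ _).trans ?_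
      have := hc1 G u u
      have h5 : |α * ks| ≤ |α * ks| * HG G ^ 3 := le_mul_of_one_le_right (abs_nonneg _) (hH3 G)
      linarith
    have J2 : Integrable (fun G : Fin M → Fin N → ℝ => pE (QQ C nc n (M := M) (fun _ => f) G s) r
        (fun u v => |ovl C nc n u v - P b|)) (gam M N) := by
      refine integrable_pE hfm' s r (Ψ := fun _ u v => |ovl C nc n u v - P b|)
        (fun _ _ => measurable_const) (c := 1 + |P b|) fun G u v => ?_
      rw [abs_abs]
      refine (abs_sub _ _).trans ?_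
      have h5 : 1 + |P b| ≤ (1 + |P b|) * HG G ^ 3 :=
        le_mul_of_one_le_right (by positivity) (hH3 G)
      linarith [abs_ovl_le hN u v]
    rw [e1]
    refine (abs_integral_le_integral_abs).trans ?_
    have e4 : ∀ G : Fin M → Fin N → ℝ, |pE (QQ C nc n (M := M) (fun _ => f) G s) r
        (fun u v => ovl C nc n u v * RS C nc n f1 (fun x => x) G u u - P b * (α * ks))| ≤
        eE (QQ C nc n (M := M) (fun _ => f) G s)
        (fun u => |RS C nc n f1 (fun x => x) G u u - α * ks|) +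
        |α * ks| * pE (QQ C nc n (M := M) (fun _ => f) G s) r
        (fun u v => |ovl C nc n u v - P b|) := by
      intro G
      refine (pE_abs_le (hQ G) _).trans ?_
      rw [← pE_fst (r := r) (hQ G) (fun u => |RS C nc n f1 (fun x => x) G u u - α * ks|),
        ← pE_smul, ← pE_add]
      refine pE_mono (hQ G) fun u v _ => ?_
      have e5 : ovl C nc n u v * RS C nc n f1 (fun x => x) G u u - P b * (α * ks) =
          ovl C nc n u v * (RS C nc n f1 (fun x => x) G u u - α * ks) +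
          (α * ks) * (ovl C nc n u v - P b) := by ring
      rw [e5]
      refine (abs_add_le _ _).trans ?_
      rw [abs_mul, abs_mul]
      have := mul_le_of_le_one_left (abs_nonneg (RS C nc n f1 (fun x => x) G u u - α * ks))
        (abs_ovl_le hN u v)
      linarith
    refine (integral_mono_of_nonneg (Filter.Eventually.of_forall fun G => abs_nonneg _)
      (J1.add (J2.const_mul _)) (Filter.Eventually.of_forall e4)).trans ?_
    have e6 : ∫ G, (fun G : Fin M → Fin N → ℝ => eE (QQ C nc n (M := M) (fun _ => f) G s)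
        (fun u => |RS C nc n f1 (fun x => x) G u u - α * ks|) +
        |α * ks| * pE (QQ C nc n (M := M) (fun _ => f) G s) r
        (fun u v => |ovl C nc n u v - P b|)) G ∂(gam M N) =
        (∫ G, eE (QQ C nc n (M := M) (fun _ => f) G s)
        (fun u => |RS C nc n f1 (fun x => x) G u u - α * ks|) ∂(gam M N)) +
        |α * ks| * ∫ G, pE (QQ C nc n (M := M) (fun _ => f) G s) r
        (fun u v => |ovl C nc n u v - P b|) ∂(gam M N) := by
      rw [integral_add J1 (J2.const_mul _), integral_const_mul]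
    have hpair' : ∫ G, pE (QQ C nc n (M := M) (fun _ => f) G s) r
        (fun u v => |ovl C nc n u v - P b|) ∂(gam M N) ≤ ε1 := by
      rw [hPdef]; exact hpair
    have hpos : 0 ≤ ∫ G, pE (QQ C nc n (M := M) (fun _ => f) G s) r
        (fun u v => |ovl C nc n u v - P b|) ∂(gam M N) :=
      integral_nonneg fun G => pE_nonneg (hQ G) fun _ _ => abs_nonneg _
    have h7 : |α * ks| ≤ α * (K + 2 * K ^ 2) := by
      rw [abs_mul, abs_of_nonneg hα0]
      exact mul_le_mul_of_nonneg_left hks1 hα0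
    have h8 : |α * ks| * ∫ G, pE (QQ C nc n (M := M) (fun _ => f) G s) r
        (fun u v => |ovl C nc n u v - P b|) ∂(gam M N) ≤ α * (K + 2 * K ^ 2) * ε1 :=
      mul_le_mul h7 hpair' hpos ((abs_nonneg _).trans h7)
    exact (le_of_eq e6).trans (add_le_add h2 h8)
  -- (3)
  have t3 : |∫ G, pE (QQ C nc n (M := M) (fun _ => f) G s) r (FT C nc n s) ∂(gam M N)| ≤
      (nc : ℝ) * A * (Cf + 1) := by
    refine (abs_integral_le_integral_abs).trans ?_
    have h9 := integral_mono_of_nonneg (μ := gam M N)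
      (f := fun G : Fin M → Fin N → ℝ => |pE (QQ C nc n (M := M) (fun _ => f) G s) r
        (FT C nc n s)|) (g := fun _ => (nc : ℝ) * A * (Cf + 1))
      (Filter.Eventually.of_forall fun G => abs_nonneg _) (integrable_const _)
      (Filter.Eventually.of_forall fun G => pE_FT_le hN (hQ G) r hs (hF G))
    simpa using h9
  -- (4)
  have t4 : |(N : ℝ)⁻¹ * P b| ≤ (N : ℝ)⁻¹ := by
    have h7 : 0 ≤ P b := hP.nonneg.trans (hP.mono 0 b (Nat.zero_le _) hb)
    have h8 : P b ≤ 1 := (hP.mono b J hb le_rfl).trans hP.le_one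
    rw [abs_of_nonneg (mul_nonneg (inv_pos.2 hN').le h7)]
    exact mul_le_of_le_one_right (inv_pos.2 hN').le h8
  have t0 : |(N : ℝ)⁻¹ * ∫ G, pE (QQ C nc n (M := M) (fun _ => f) G s) r
      (PsiP C (fun _ => f1) G s) ∂(gam M N)| ≤ (N : ℝ)⁻¹ * e0 := by
    rw [abs_mul, abs_of_pos (inv_pos.2 hN')]
    exact mul_le_mul_of_nonneg_left h0 (inv_pos.2 hN').le
  rw [abs_le] at t0 t1 t2 t3 t4 ⊢
  constructor <;> linarith [t0.1, t0.2, t1.1, t1.2, t2.1, t2.2, t3.1, t3.2, t4.1, t4.2]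

theorem skel_mono {f : ℕ → ℝ → ℝ} {s : Fin nc → ℝ} {J wc : ℕ} {τ : ℕ → ℕ} {ε ε' : ℝ}
    (hS : Skel C nc n f M s J wc τ ε) (h : ε ≤ ε') : Skel C nc n f M s J wc τ ε' :=
  ⟨hS.blk, fun b hb => (hS.pair b hb).trans h⟩

/-- **(REL)** from the row observables and the bound of the fields. -/
theorem rel_of (hRO : RO) (hFLD : FLD) : REL := by
  intro αm K
  obtain ⟨Cf, hCf, hF⟩ := hFLD αm K
  refine ⟨Cf + 1, by linarith, fun ε hε => ?_⟩
  obtain ⟨J0, hJ0⟩ := hRO αm K K (K + 1) (ε / 8) (by linarith)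
  refine ⟨J0, fun J hJ => ?_⟩
  obtain ⟨ε1, hε1, N0, hN0⟩ := hJ0 J hJ
  obtain ⟨D, hD⟩ : ∃ D : ℝ, D = |αm| * (|K| + 2 * K ^ 2) + 1 := ⟨_, rfl⟩
  have hDpos : 0 < D := by rw [hD]; positivity
  obtain ⟨N1, hN1⟩ := exists_nat_gt (8 / ε)
  refine ⟨min ε1 (ε / (8 * D)), lt_min hε1 (by positivity), max N0 N1, ?_⟩
  intro wc nc hwc hnc N hN hN0' n hn M hM A hA
  have hNpos : (0 : ℝ) < N := by exact_mod_cast hN0'
  obtain ⟨δ, hδ, hsd⟩ := sd_pair N M nc n hN0' hn K A (ε / 8) (by linarith)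
  refine ⟨δ, hδ, fun C hC f f1 f2 h3 s hs τ hS b hb => ?_⟩
  have hK := S3_nK h3
  have hS1 := skel_mono hS (min_le_left _ _)
  have hB : BL (K + 1) (K + 1) f1 := by
    refine ⟨fun x => (h3.b1 x).trans (by linarith), fun x y => (S3_lip1 h3 x y).trans ?_⟩
    exact mul_le_mul_of_nonneg_right (by linarith) (abs_nonneg _)
  obtain ⟨ho1, ho2⟩ := hN0 wc nc hwc hnc N ((le_max_left _ _).trans hN) hN0' n hn C f f1
    (fun x => x) (S3_BL h3) hB (fun x y => le_mul_of_one_le_left (abs_nonneg _) (by linarith))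
    (by simp; linarith) M s τ hM hS1
  have hfld : ∀ (G : Fin M → Fin N → ℝ) (g : Fin nc),
      eE (QQ C nc n (M := M) (fun _ => f) G s) (fun ω => ∑ i, zf ω.2 g i ^ 2) ≤ Cf * N :=
    fun G g => hF N nc n hN0' hn C (fun _ => f) M G A s hM (fun _ => h3.b0) hs hA g
  have h := rel_core hN0' h3 hwc hS hb hs hfld (ho1 b hb) ho2
    (hsd C hC (fun _ => f) (fun _ => f1) (fun _ => S3_Sm h3) s hs (τ b) (tau_le hwc hnc hS hb))
  refine h.trans ?_
  have hN1' : (N1 : ℝ) ≤ N := by exact_mod_cast (le_max_right _ _).trans hN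
  have e1 : (N : ℝ)⁻¹ ≤ ε / 8 := by
    rw [inv_le_comm₀ hNpos (by positivity)]
    have : (ε / 8)⁻¹ = 8 / ε := by rw [inv_div]
    rw [this]
    exact hN1.le.trans hN1'
  have e2 : (N : ℝ)⁻¹ * (ε / 8) ≤ ε / 8 := by
    have h1 : (N : ℝ)⁻¹ ≤ 1 := inv_le_one_of_one_le₀ (by exact_mod_cast hN0')
    exact mul_le_of_le_one_left (by positivity) h1
  have e3 : (M : ℝ) / N * (K + 2 * K ^ 2) * min ε1 (ε / (8 * D)) ≤ ε / 8 := by
    have h1 : (M : ℝ) / N ≤ |αm| := by
      rw [div_le_iff₀ hNpos]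
      exact hM.trans (mul_le_mul_of_nonneg_right (le_abs_self _) hNpos.le)
    have h2 : (M : ℝ) / N * (K + 2 * K ^ 2) ≤ D := by
      rw [hD, abs_of_nonneg hK]
      have := mul_le_mul_of_nonneg_right h1 (by positivity : 0 ≤ K + 2 * K ^ 2)
      linarith
    have h3 : 0 ≤ min ε1 (ε / (8 * D)) := (lt_min hε1 (by positivity)).le
    calc (M : ℝ) / N * (K + 2 * K ^ 2) * min ε1 (ε / (8 * D)) ≤ D * min ε1 (ε / (8 * D)) :=
          mul_le_mul_of_nonneg_right h2 h3
      _ ≤ D * (ε / (8 * D)) := mul_le_mul_of_nonneg_left (min_le_right _ _) hDpos.le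
      _ = ε / 8 := by field_simp
  linarith

end

end Crest.Agent.R146.S6Rel_290
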