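import Crest.Agent.R146.S6L_988
import Crest.Agent.R146.CavAsm_769

/-!
Row 146, S0206, lower bound, node SKADD (helper495): a skeleton stays a skeleton when a row is added.
-/

set_option autoImplicit false

namespace Crest.Agent.R146.S6Skadd_495

open Finset MeasureTheory ProbabilityTheory Crest.Agent.R141
open Crest.Agent.R146.S6Def_988 Crest.Agent.R146.S6U_988 Crest.Agent.R146.S6L_988
open Crest.Agent.R146.CavInc_769 Crest.Agent.R146.CavAsm_769

noncomputable section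

section abs

variable {Ω : Type} [Fintype Ω] {P : Ω → ℝ} {𝓕 : Filt Ω} {x : ℕ → ℝ}

/-- the pair form of a nonnegative function under a bounded tilt. -/
theorem pE_tl_le (hP : IsProb P) (hx : IsExpo x) {V : Ω → ℝ} {a : ℝ} (h : ∀ ω, |V ω| ≤ a)
    {Ψ : Ω → Ω → ℝ} (hΨ : ∀ u v, 0 ≤ Ψ u v) (k : ℕ) :
    pE (tl P 𝓕 x V) (𝓕.F k) Ψ ≤ Real.exp (4 * a) * pE P (𝓕.F k) Ψ := by
  unfold pE
  have hQ : IsProb (tl P 𝓕 x V) := tl_isProb hP hx.pos V
  have h1 : eE (tl P 𝓕 x V) (fun u => cE (tl P 𝓕 x V) (𝓕.F k) (fun v => Ψ u v) u) ≤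
      eE (tl P 𝓕 x V) (fun u => Real.exp (2 * a) * cE P (𝓕.F k) (fun v => Ψ u v) u) :=
    eE_mono hQ fun u => cE_tl_le hP hx h (fun v => hΨ u v) k u
  have h2 := eE_tl_le (𝓕 := 𝓕) hP hx h (f := fun u => cE P (𝓕.F k) (fun v => Ψ u v) u)
    (fun u => cE_nonneg hP (fun v => hΨ u v) u)
  rw [eE_smul] at h1
  refine h1.trans ((mul_le_mul_of_nonneg_left h2 (Real.exp_pos _).le).trans (le_of_eq ?_))
  rw [← mul_assoc, ← Real.exp_add]
  congr 2
  ring

theorem pE_sub (P : Ω → ℝ) (r : Setoid Ω) (Ψ Ψ' : Ω → Ω → ℝ) :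
    pE P r (fun u v => Ψ u v - Ψ' u v) = pE P r Ψ - pE P r Ψ' := by
  unfold pE
  rw [← eE_sub]
  congr 1
  funext u
  exact cE_sub P r _ _ u

theorem pE_const (hP : IsProb P) (r : Setoid Ω) (c : ℝ) : pE P r (fun _ _ => c) = c := by
  unfold pE
  have : (fun a : Ω => cE P r (fun _ => c) a) = fun _ => c := by
    funext a; exact cE_const hP r c a
  rw [this, eE_const hP]

theorem pE_abs_le (hP : IsProb P) (r : Setoid Ω) (Ψ : Ω → Ω → ℝ) :
    |pE P r Ψ| ≤ pE P r (fun u v => |Ψ u v|) := by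
  unfold pE
  exact (eE_abs_le hP _).trans (eE_mono hP fun u => cE_abs_le hP _ u)

theorem pE_mono (hP : IsProb P) (r : Setoid Ω) {Ψ Ψ' : Ω → Ω → ℝ} (h : ∀ u v, Ψ u v ≤ Ψ' u v) :
    pE P r Ψ ≤ pE P r Ψ' := by
  unfold pE
  exact eE_mono hP fun u => cE_mono' hP (fun v => h u v) u

theorem pE_add (P : Ω → ℝ) (r : Setoid Ω) (Ψ Ψ' : Ω → Ω → ℝ) :
    pE P r (fun u v => Ψ u v + Ψ' u v) = pE P r Ψ + pE P r Ψ' := by
  unfold pE
  rw [← eE_add]
  congr 1
  funext u
  exact cE_add P r _ _ u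

/-- the overlap of two conditionally independent copies = squared norm of the conditional mean. -/
theorem pE_ip {κ : Type} [Fintype κ] (hP : IsProb P) (r : Setoid Ω) (y : Ω → κ → ℝ) :
    pE P r (fun u v => ∑ i, y u i * y v i) =
      eE P (fun ω => ∑ i, (cE P r (fun a => y a i) ω) ^ 2) := by
  unfold pE
  have h1 : (fun u : Ω => cE P r (fun v => ∑ i, y u i * y v i) u) =
      fun u => ∑ i, y u i * cE P r (fun a => y a i) u := by
    funext u
    rw [cE_sum]
    refine Finset.sum_congr rfl fun i _ => ?_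
    rw [cE_smul]
  rw [h1, eE_sum, eE_sum]
  refine Finset.sum_congr rfl fun i _ => ?_
  rw [← eE_cE hP r (fun u => y u i * cE P r (fun a => y a i) u)]
  congr 1
  funext u
  have := cE_mul_right (P := P) (cE_meas P r (fun a => y a i)) (fun a => y a i) u
  rw [this, sq]

end abs

section

variable {N : ℕ} {C : Cfg N} {nc n : ℕ}

theorem pf_snoc_le {K : ℝ} {M : ℕ} {f : ℕ → ℝ → ℝ} (hK : ∀ a x, |f a x| ≤ K) (s : Fin nc → ℝ)
    (k : ℕ) (c : ℝ) (G : Fin M → Fin N → ℝ) (g : Fin N → ℝ) :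
    pf C nc n f s k c (Fin.snoc (α := fun _ => Fin N → ℝ) G g : Fin (M + 1) → Fin N → ℝ) ≤
      Real.exp (4 * K) * pf C nc n f s k c G := by
  unfold pf
  rw [QQ_snoc]
  exact pE_tl_le (QQ_isProb f G s) (xs_expo nc n) (fun ω => hK _ _) (fun _ _ => abs_nonneg _) k

theorem int_pf_succ_le {K : ℝ} {f : ℕ → ℝ → ℝ} (hf : ∀ a, Measurable (f a))
    (hK : ∀ a x, |f a x| ≤ K) (M : ℕ) (s : Fin nc → ℝ) (k : ℕ) (c : ℝ) :
    ∫ G, pf (M := M + 1) C nc n f s k c G ∂(gam (M + 1) N) ≤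
      Real.exp (4 * K) * ∫ G, pf (M := M) C nc n f s k c G ∂(gam M N) := by
  have hi := integrable_pf (C := C) (nc := nc) (n := n) (M := M + 1) hf s k c
  rw [integral_gam_succ hi, ← integral_const_mul]
  refine integral_mono ?_ ((integrable_pf hf s k c).const_mul _) fun G => ?_
  · exact (integrable_gam_succ hi).integral_prod_left
  · have h1 : ∀ g : Fin N → ℝ, pf C nc n f s k c
        (Fin.snoc (α := fun _ => Fin N → ℝ) G g : Fin (M + 1) → Fin N → ℝ) ≤
        Real.exp (4 * K) * pf C nc n f s k c G := fun g => pf_snoc_le hK s k c G g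
    have h0 : ∀ g : Fin N → ℝ, 0 ≤ pf C nc n f s k c
        (Fin.snoc (α := fun _ => Fin N → ℝ) G g : Fin (M + 1) → Fin N → ℝ) :=
      fun g => pf_nonneg f s k c _
    have h2 := integral_mono_of_nonneg (μ := Measure.pi fun _ : Fin N => gaussianReal 0 1)
      (ae_of_all _ h0) (integrable_const (Real.exp (4 * K) * pf C nc n f s k c G))
      (ae_of_all _ h1)
    simpa using h2

theorem rk_eq_pE {M : ℕ} (f : ℕ → ℝ → ℝ) (G : Fin M → Fin N → ℝ) (s : Fin nc → ℝ) (k : ℕ) :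
    rk C nc n f G s k =
      pE (QQ C nc n f G s) ((fil C nc n).F k) (fun a b => ovl C nc n a b) := by
  unfold rk
  simp_rw [ovl_eq]
  exact (pE_ip (QQ_isProb f G s) _ (xn C nc n)).symm

theorem rk_sub_le {M : ℕ} (f : ℕ → ℝ → ℝ) (G : Fin M → Fin N → ℝ) (s : Fin nc → ℝ) (k : ℕ)
    (c : ℝ) : |rk C nc n f G s k - c| ≤ pf C nc n f s k c G := by
  have hQ := QQ_isProb (C := C) (n := n) f G s
  rw [rk_eq_pE]
  have h := pE_sub (QQ C nc n f G s) ((fil C nc n).F k) (fun a b => ovl C nc n a b) (fun _ _ => c)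
  rw [pE_const hQ] at h
  rw [← h]
  exact pE_abs_le hQ _ _

theorem Rk_sub_le (hN : 0 < N) {f : ℕ → ℝ → ℝ} (hf : ∀ a, Measurable (f a)) (M : ℕ)
    (s : Fin nc → ℝ) (k : ℕ) (c : ℝ) :
    |Rk C nc n f M s k - c| ≤ ∫ G, pf (M := M) C nc n f s k c G ∂(gam M N) := by
  rw [Rk_eq]
  have h1 : ∫ G, rk (M := M) C nc n f G s k ∂(gam M N) - c =
      ∫ G, (rk (M := M) C nc n f G s k - c) ∂(gam M N) := by
    rw [integral_sub (integrable_rk hN hf s k) (integrable_const c)]
    simp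
  rw [h1]
  refine (abs_integral_le_integral_abs).trans ?_
  refine integral_mono ((integrable_rk hN hf s k).sub (integrable_const c)).abs
    (integrable_pf hf s k c) fun G => rk_sub_le f G s k c

theorem pf_shift {M : ℕ} (f : ℕ → ℝ → ℝ) (G : Fin M → Fin N → ℝ) (s : Fin nc → ℝ) (k : ℕ)
    (c c' : ℝ) : pf C nc n f s k c' G ≤ pf C nc n f s k c G + |c - c'| := by
  have hQ := QQ_isProb (C := C) (n := n) f G s
  unfold pf
  have h := pE_add (QQ C nc n f G s) ((fil C nc n).F k) (fun a b => |ovl C nc n a b - c|)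
    (fun _ _ => |c - c'|)
  rw [pE_const hQ] at h
  rw [← h]
  refine pE_mono hQ _ fun u v => ?_
  have e : ovl C nc n u v - c' = (ovl C nc n u v - c) + (c - c') := by ring
  rw [e]
  exact abs_add_le _ _

theorem int_pf_shift {f : ℕ → ℝ → ℝ} (hf : ∀ a, Measurable (f a)) (M : ℕ)
    (s : Fin nc → ℝ) (k : ℕ) (c c' : ℝ) :
    ∫ G, pf (M := M) C nc n f s k c' G ∂(gam M N) ≤
      ∫ G, pf (M := M) C nc n f s k c G ∂(gam M N) + |c - c'| := by
  have h1 : ∫ G, pf (M := M) C nc n f s k c G ∂(gam M N) + |c - c'| =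
      ∫ G, (pf (M := M) C nc n f s k c G + |c - c'|) ∂(gam M N) := by
    rw [integral_add (integrable_pf hf s k c) (integrable_const _)]
    simp
  rw [h1]
  exact integral_mono (integrable_pf hf s k c')
    ((integrable_pf hf s k c).add (integrable_const _)) fun G => pf_shift f G s k c c'

end

/-- **SKADD**: a skeleton stays a skeleton when a row is added. -/
theorem skadd : SKADD := by
  intro K ε hε
  have hE1 : 1 ≤ Real.exp (4 * |K|) := by
    rw [← Real.exp_zero]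
    exact Real.exp_le_exp.mpr (by positivity)
  have hE0 : 0 < Real.exp (4 * |K|) := Real.exp_pos _
  refine ⟨ε / (2 * Real.exp (4 * |K|)), by positivity, ?_, ?_⟩
  · rw [div_le_iff₀ (by positivity)]
    nlinarith
  · intro J wc nc N n hN hn C f M hf hK s τ hS
    have hK' : ∀ a x, |f a x| ≤ |K| := fun a x => (hK a x).trans (le_abs_self K)
    have key : ∀ b ≤ J, ∫ G, pf (M := M + 1) C nc n f s (τ b) (Rk C nc n f M s (τ b)) G
        ∂(gam (M + 1) N) ≤ ε / 2 := by
      intro b hb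
      refine (int_pf_succ_le hf hK' M s (τ b) _).trans ?_
      have h1 : ∫ G, pf (M := M) C nc n f s (τ b) (Rk C nc n f M s (τ b)) G ∂(gam M N) ≤
          ε / (2 * Real.exp (4 * |K|)) := hS.pair b hb
      calc Real.exp (4 * |K|) * ∫ G, pf (M := M) C nc n f s (τ b) (Rk C nc n f M s (τ b)) G
            ∂(gam M N) ≤ Real.exp (4 * |K|) * (ε / (2 * Real.exp (4 * |K|))) :=
            mul_le_mul_of_nonneg_left h1 hE0.le
        _ = ε / 2 := by field_simp
    have hR : ∀ b ≤ J, |Rk C nc n f (M + 1) s (τ b) - Rk C nc n f M s (τ b)| ≤ ε / 2 :=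
      fun b hb => (Rk_sub_le hN hf (M + 1) s (τ b) _).trans (key b hb)
    refine ⟨⟨hS.blk, fun b hb => ?_⟩, fun b hb => (hR b hb).trans (by linarith)⟩
    have h1 := int_pf_shift (C := C) (nc := nc) (n := n) hf (M + 1) s (τ b)
      (Rk C nc n f M s (τ b)) (Rk C nc n f (M + 1) s (τ b))
    have h2 := key b hb
    have h3 := hR b hb
    rw [abs_sub_comm] at h3
    have h4 : ∫ G, pf (M := M + 1) C nc n f s (τ b) (Rk C nc n f (M + 1) s (τ b)) G
        ∂(gam (M + 1) N) ≤ ε := by linarith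
    exact h4

end

end Crest.Agent.R146.S6Skadd_495
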