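import Crest.Agent.R146.S6L_988

/-!
Row 146, statement S0206: node `S6L_988.SPC` (continuity of the entropy in the levels), helper311.
-/

set_option autoImplicit false

namespace Crest.Agent.R146.S6Spc_311

open Finset Crest.Agent.R146.S6Def_988 Crest.Agent.R146.S6L_988

theorem DP_ge {J : ℕ} {P : ℕ → ℝ} (h : Lev J P) {κ : ℝ} (hκ : κ ≤ 1 - P J) (j : ℕ) :
    κ ≤ DP J P j := by
  unfold DP
  have : 0 ≤ ∑ k ∈ Ico (j + 1) (J + 1), ((k : ℝ) / ((J : ℝ) + 1)) * (P k - P (k - 1)) := by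
    apply Finset.sum_nonneg
    intro k hk
    rw [Finset.mem_Ico] at hk
    have := h.mono (k - 1) k (by omega) (by omega)
    apply mul_nonneg (by positivity)
    linarith
  linarith

theorem DP_diff {J : ℕ} {P P' : ℕ → ℝ} {e : ℝ} (he : 0 ≤ e) (hd : ∀ j ≤ J, |P j - P' j| ≤ e)
    (j : ℕ) : |DP J P j - DP J P' j| ≤ (2 * (J : ℝ) + 1) * e := by
  have h1 : DP J P j - DP J P' j = -(P J - P' J) + ∑ k ∈ Ico (j + 1) (J + 1),
      ((k : ℝ) / ((J : ℝ) + 1)) * ((P k - P' k) - (P (k - 1) - P' (k - 1))) := by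
    have h2 : ∑ k ∈ Ico (j + 1) (J + 1),
        ((k : ℝ) / ((J : ℝ) + 1)) * ((P k - P' k) - (P (k - 1) - P' (k - 1))) =
        ∑ k ∈ Ico (j + 1) (J + 1), ((k : ℝ) / ((J : ℝ) + 1)) * (P k - P (k - 1)) -
        ∑ k ∈ Ico (j + 1) (J + 1), ((k : ℝ) / ((J : ℝ) + 1)) * (P' k - P' (k - 1)) := by
      rw [← Finset.sum_sub_distrib]
      exact Finset.sum_congr rfl fun k _ => by ring
    rw [h2]
    unfold DP
    ring
  have h3 : |∑ k ∈ Ico (j + 1) (J + 1),
      ((k : ℝ) / ((J : ℝ) + 1)) * ((P k - P' k) - (P (k - 1) - P' (k - 1)))| ≤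
      (J : ℝ) * (2 * e) := by
    refine (Finset.abs_sum_le_sum_abs _ _).trans ?_
    refine (Finset.sum_le_sum (g := fun _ => 2 * e) fun k hk => ?_).trans ?_
    · rw [Finset.mem_Ico] at hk
      rw [abs_mul]
      have h4 : |(k : ℝ) / ((J : ℝ) + 1)| ≤ 1 := by
        rw [abs_of_nonneg (by positivity), div_le_one (by positivity)]
        have : k ≤ J + 1 := by omega
        exact_mod_cast this
      have h5 : |(P k - P' k) - (P (k - 1) - P' (k - 1))| ≤ 2 * e := by
        have a1 := abs_le.1 (hd k (by omega))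
        have a2 := abs_le.1 (hd (k - 1) (by omega))
        rw [abs_le]
        constructor <;> linarith [a1.1, a1.2, a2.1, a2.2]
      calc |(k : ℝ) / ((J : ℝ) + 1)| * |(P k - P' k) - (P (k - 1) - P' (k - 1))| ≤ 1 * (2 * e) :=
            mul_le_mul h4 h5 (abs_nonneg _) zero_le_one
        _ = 2 * e := one_mul _
    · rw [Finset.sum_const, Nat.card_Ico, nsmul_eq_mul]
      apply mul_le_mul_of_nonneg_right _ (by positivity)
      have : J + 1 - (j + 1) ≤ J := by omega
      exact_mod_cast this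
  rw [h1]
  have h6 := hd J le_rfl
  calc _ ≤ |-(P J - P' J)| + _ := abs_add_le _ _
    _ ≤ e + (J : ℝ) * (2 * e) := by rw [abs_neg]; exact add_le_add h6 h3
    _ = (2 * (J : ℝ) + 1) * e := by ring

theorem log_diff {κ a b : ℝ} (hκ : 0 < κ) (ha : κ ≤ a) (hb : κ ≤ b) :
    |Real.log a - Real.log b| ≤ |a - b| / κ := by
  have key : ∀ x y : ℝ, κ ≤ x → κ ≤ y → Real.log x - Real.log y ≤ |x - y| / κ := by
    intro x y hx hy
    have hx0 : 0 < x := hκ.trans_le hx
    have hy0 : 0 < y := hκ.trans_le hy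
    rw [← Real.log_div hx0.ne' hy0.ne']
    calc Real.log (x / y) ≤ x / y - 1 := Real.log_le_sub_one_of_pos (by positivity)
      _ = (x - y) / y := by field_simp
      _ ≤ |x - y| / y := by gcongr; exact le_abs_self _
      _ ≤ |x - y| / κ := by gcongr
  rw [abs_le]
  constructor
  · have := key b a hb ha
    rw [abs_sub_comm] at this
    linarith
  · exact key a b ha hb

/-- (SPC): continuity of the entropy in the levels. -/
theorem spc : SPC := by
  intro J κ ε hκ hε
  set c : ℝ := 2 * (J : ℝ) + 1 with hc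
  set Q : ℝ := 1 / κ + c / κ ^ 2 + (J : ℝ) * (((J : ℝ) + 1) * (2 * c / κ)) + c / κ with hQ
  have hc0 : 0 < c := by positivity
  have hQ0 : 0 < Q := by positivity
  refine ⟨ε / Q, by positivity, ?_⟩
  intro P P' hP hP' hk hk' hd
  set e : ℝ := ε / Q with he
  have he0 : 0 ≤ e := by positivity
  have hD := DP_ge hP hk
  have hD' := DP_ge hP' hk'
  have hdiff := DP_diff he0 hd
  have hlog : ∀ j, |Real.log (DP J P j) - Real.log (DP J P' j)| ≤ c * e / κ := fun j =>
    (log_diff hκ (hD j) (hD' j)).trans (by gcongr; exact hdiff j)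
  -- first term
  have hT1 : |P 0 / DP J P 0 - P' 0 / DP J P' 0| ≤ e / κ + c * e / κ ^ 2 := by
    have hD0 : 0 < DP J P 0 := hκ.trans_le (hD 0)
    have hD0' : 0 < DP J P' 0 := hκ.trans_le (hD' 0)
    have hid : P 0 / DP J P 0 - P' 0 / DP J P' 0 =
        (P 0 - P' 0) / DP J P 0 + P' 0 * ((DP J P' 0 - DP J P 0) / (DP J P 0 * DP J P' 0)) := by
      field_simp
      ring
    rw [hid]
    refine (abs_add_le _ _).trans (add_le_add ?_ ?_)
    · rw [abs_div, abs_of_pos hD0]
      exact div_le_div₀ he0 (hd 0 (Nat.zero_le _)) hκ (hD 0)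
    · rw [abs_mul, abs_div, abs_of_nonneg hP'.nonneg, abs_of_pos (mul_pos hD0 hD0')]
      have hP1 : P' 0 ≤ 1 := (hP'.mono 0 J (Nat.zero_le _) le_rfl).trans hP'.le_one
      have h7 : |DP J P' 0 - DP J P 0| / (DP J P 0 * DP J P' 0) ≤ c * e / κ ^ 2 := by
        rw [abs_sub_comm]
        refine div_le_div₀ (by positivity) (hdiff 0) (by positivity) ?_
        rw [pow_two]
        exact mul_le_mul (hD 0) (hD' 0) hκ.le (by linarith)
      calc P' 0 * (|DP J P' 0 - DP J P 0| / (DP J P 0 * DP J P' 0)) ≤ 1 * (c * e / κ ^ 2) :=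
            mul_le_mul hP1 h7 (by positivity) zero_le_one
        _ = c * e / κ ^ 2 := one_mul _
  -- the sum
  have hT2 : |∑ j ∈ Ico 1 (J + 1), (((J : ℝ) + 1) / j) * Real.log (DP J P (j - 1) / DP J P j) -
      ∑ j ∈ Ico 1 (J + 1), (((J : ℝ) + 1) / j) * Real.log (DP J P' (j - 1) / DP J P' j)| ≤
      (J : ℝ) * (((J : ℝ) + 1) * (2 * (c * e / κ))) := by
    rw [← Finset.sum_sub_distrib]
    refine (Finset.abs_sum_le_sum_abs _ _).trans ?_
    refine (Finset.sum_le_sum (g := fun _ => ((J : ℝ) + 1) * (2 * (c * e / κ))) fun j hj => ?_).trans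
      ?_
    · rw [Finset.mem_Ico] at hj
      have hj0 : (1 : ℝ) ≤ j := by exact_mod_cast hj.1
      rw [← mul_sub, abs_mul]
      have h8 : |((J : ℝ) + 1) / j| ≤ (J : ℝ) + 1 := by
        rw [abs_of_nonneg (by positivity)]
        exact div_le_self (by positivity) hj0
      have h9 : |Real.log (DP J P (j - 1) / DP J P j) - Real.log (DP J P' (j - 1) / DP J P' j)| ≤
          2 * (c * e / κ) := by
        rw [Real.log_div (hκ.trans_le (hD _)).ne' (hκ.trans_le (hD _)).ne',
          Real.log_div (hκ.trans_le (hD' _)).ne' (hκ.trans_le (hD' _)).ne']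
        have b1 := abs_le.1 (hlog (j - 1))
        have b2 := abs_le.1 (hlog j)
        rw [abs_le]
        constructor <;> linarith [b1.1, b1.2, b2.1, b2.2]
      exact mul_le_mul h8 h9 (abs_nonneg _) (by positivity)
    · rw [Finset.sum_const, Nat.card_Ico, nsmul_eq_mul]
      apply le_of_eq
      simp
  have hT3 := hlog J
  have hfin : |SP J P - SP J P'| ≤ 1 / 2 * (e / κ + c * e / κ ^ 2 +
      (J : ℝ) * (((J : ℝ) + 1) * (2 * (c * e / κ))) + c * e / κ) := by
    unfold SP
    rw [← mul_sub, abs_mul, abs_of_pos (by norm_num : (0 : ℝ) < 1 / 2)]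
    refine mul_le_mul_of_nonneg_left ?_ (by norm_num)
    have c1 := abs_le.1 hT1
    have c2 := abs_le.1 hT2
    have c3 := abs_le.1 hT3
    rw [abs_le]
    constructor <;> linarith [c1.1, c1.2, c2.1, c2.2, c3.1, c3.2]
  have hsum : e / κ + c * e / κ ^ 2 +
      (J : ℝ) * (((J : ℝ) + 1) * (2 * (c * e / κ))) + c * e / κ = Q * e := by
    rw [hQ]; ring
  rw [hsum] at hfin
  have hQe : Q * e = ε := by rw [he]; field_simp
  rw [hQe] at hfin
  linarith

end Crest.Agent.R146.S6Spc_311
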