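import Crest.Agent.R146.S6L_988
import Crest.Agent.R146.Mon_422

/-!
Row 146, S0206 (helper451): the frozen Prop `S6L_988.THC` (coarse and fine recursion).

* `ThT_eq_recV` : `ThT` as a value of `recV`;
* `ThT_lip`     : `|ThT J h T - ThT J h T'| ≤ L² / (2 (J+1)) * ∑ |T j - T' j|` for equal leaf norms;
* `ThT_coarse`  : the coarse recursion is the fine recursion with repeated levels;
* `thc`         : `S6L_988.THC`.
-/

set_option autoImplicit false

namespace Crest.Agent.R146.S6Thc_451

open MeasureTheory ProbabilityTheory Filter Topology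
open Crest.ProbabilityR.InvariantGlass Crest.Agent.R164.GC
open Crest.Agent.R141.Fact (ySk)
open Crest.Agent.R146.MonA_422 Crest.Agent.R146.MonB_422 Crest.Agent.R146.Mon_422
open Crest.Agent.R146.S6Def_988 Crest.Agent.R146.CavW_47 Crest.Agent.R146.Cav5_47

noncomputable section

/-! ### `ThT` as a value of `recV` -/

/-- time points `0, T_0, ..., T_J, T_{J+1}` -/
def tT (J : ℕ) (T : ℕ → ℝ) (j : ℕ) : ℝ :=
  if j = 0 then 0 else if j ≤ J + 1 then T (j - 1) else T (J + 1)

theorem tT_zero (J : ℕ) (T : ℕ → ℝ) : tT J T 0 = 0 := by simp [tT]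

theorem tT_top (J : ℕ) (T : ℕ → ℝ) : tT J T (J + 2) = T (J + 1) := by
  unfold tT
  rw [if_neg (by omega), if_neg (by omega)]

theorem tT_succ {J : ℕ} {T : ℕ → ℝ} {l : ℕ} (h : l ≤ J + 1) : tT J T (l + 1) = T l := by
  unfold tT
  rw [if_neg (by omega)]
  split_ifs with h1
  · rfl
  · congr 1
    omega

theorem tT_mono {J : ℕ} {C : ℝ} {T : ℕ → ℝ} (h : LevT J C T) : Monotone (tT J T) := by
  intro a b hab
  unfold tT
  split_ifs with h2 h3 h4 h5 h6 h7
  · exact le_rfl
  · exact h.nonneg' (by omega)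
  · exact h.nonneg' le_rfl
  · omega
  · exact h.mono _ _ (by omega) (by omega)
  · exact h.mono _ _ (by omega) (by omega)
  · omega
  · omega
  · exact le_rfl

theorem recV_eq_rcT (J : ℕ) (f : ℝ → ℝ) (T : ℕ → ℝ) : ∀ n ≤ J + 1,
    recV f (tT J T) (mJ J) (J + 2) n = rc (ySk J) (vT J T) f n := by
  intro n
  induction n with
  | zero => intro _; rfl
  | succ n ih =>
    intro hn
    have hJn : n ≤ J := by omega
    unfold recV rc
    rw [ih (by omega)]
    have e1 : mJ J (J + 2 - 1 - n) = ySk J n := by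
      unfold mJ ySk
      rw [show J + 2 - 1 - n = J + 1 - n by omega, Nat.cast_sub (by omega)]
      push_cast
      rfl
    have e2 : tT J T (J + 2 - n) - tT J T (J + 2 - 1 - n) = vT J T n := by
      rw [show J + 2 - n = (J + 1 - n) + 1 by omega, show J + 2 - 1 - n = (J - n) + 1 by omega,
        tT_succ (by omega), tT_succ (by omega)]
      unfold vT
      rw [if_pos hJn, show J - n = J + 1 - (n + 1) by omega]
    rw [e1, e2]

theorem ThT_eq_recV (J : ℕ) (f : ℝ → ℝ) (T : ℕ → ℝ) :
    ThT J f T = recV f (tT J T) (mJ J) (J + 2) (J + 2) 0 := by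
  unfold ThT
  rw [show J + 2 = (J + 1) + 1 from rfl]
  unfold recV
  have h1 := recV_eq_rcT J f T (J + 1) le_rfl
  rw [show J + 2 = (J + 1) + 1 from rfl] at h1
  rw [h1]
  have e1 : mJ J (J + 1 + 1 - 1 - (J + 1)) = 0 := by
    rw [show J + 1 + 1 - 1 - (J + 1) = 0 by omega]
    simp [mJ]
  have e2 : tT J T (J + 1 + 1 - (J + 1)) - tT J T (J + 1 + 1 - 1 - (J + 1)) = vT J T (J + 1) := by
    rw [show J + 1 + 1 - (J + 1) = 0 + 1 by omega, show J + 1 + 1 - 1 - (J + 1) = 0 by omega,
      tT_zero, tT_succ (by omega)]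
    unfold vT
    rw [if_neg (show ¬ (J + 1 ≤ J) by omega)]
    simp
  rw [e1, e2]
  unfold gaussOp
  rw [if_pos rfl]
  simp

/-! ### Lipschitz bound in the levels -/

variable {J : ℕ} {T T' : ℕ → ℝ} {C C' L : ℝ} {f : ℝ → ℝ}

theorem sum_stepT (hTT : T (J + 1) = T' (J + 1)) (c : ℝ) :
    ∑ l ∈ Finset.Ico 0 (J + 2), (mJ J (l + 1) * c - mJ J l * c) *
      |tT J T (l + 1) - tT J T' (l + 1)| =
    c / ((J : ℝ) + 1) * ∑ l ∈ Finset.range (J + 1), |T l - T' l| := by
  rw [Finset.sum_Ico_succ_top (by omega), tT_top, tT_top, hTT, sub_self, abs_zero, mul_zero,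
    add_zero, Finset.mul_sum, Finset.range_eq_Ico]
  refine Finset.sum_congr rfl fun l hl => ?_
  rw [Finset.mem_Ico] at hl
  rw [mJ_step, tT_succ (by omega), tT_succ (by omega)]

theorem ThT_lip_aux (hT : LevT J C T) (hT' : LevT J C' T') (hTT : T (J + 1) = T' (J + 1))
    (hf : LipL L f) {M : ℝ} (hMp : 0 < M) (hLM : L ≤ M) :
    ThT J f T - M ^ 2 / (2 * ((J : ℝ) + 1)) *
      ∑ j ∈ Finset.range (J + 1), |T j - T' j| ≤ ThT J f T' := by
  have hu := (hf.mono hLM).unit hMp
  have hmm : Monotone fun i => mJ J i * M :=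
    fun a b hab => mul_le_mul_of_nonneg_right (mJ_mono J hab) hMp.le
  have hm0 : 0 ≤ mJ J 0 * M := mul_nonneg (mJ_zero J) hMp.le
  have key := ch_lip_lip (t := tT J T) (t' := tT J T') (m := fun i => mJ J i * M) (k := J + 2)
    ⟨tT_mono hT, hmm, hm0⟩ ⟨tT_mono hT', hmm, hm0⟩ (by rw [tT_zero, tT_zero])
    (by rw [tT_top, tT_top, hTT]) hu 0
  have hs := sum_stepT hTT M
  rw [hs] at key
  rw [ThT_eq_recV, ThT_eq_recV, recV_unit hMp f, recV_unit hMp f, recV_eq _ _ _ _ _ le_rfl,
    recV_eq _ _ _ _ _ le_rfl, Nat.sub_self]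
  have := mul_le_mul_of_nonneg_left key hMp.le
  refine le_trans (le_of_eq ?_) this
  field_simp

/-- Lipschitz bound of the nested recursion in the levels, equal leaf norms. -/
theorem ThT_lip (hT : LevT J C T) (hT' : LevT J C' T') (hTT : T (J + 1) = T' (J + 1))
    (hf : LipL L f) :
    |ThT J f T - ThT J f T'| ≤ L ^ 2 / (2 * ((J : ℝ) + 1)) *
      ∑ j ∈ Finset.range (J + 1), |T j - T' j| := by
  have hL := hf.nonneg
  have key : ∀ M, L < M → |ThT J f T - ThT J f T'| ≤ M ^ 2 / (2 * ((J : ℝ) + 1)) *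
      ∑ j ∈ Finset.range (J + 1), |T j - T' j| := by
    intro M hLM
    have hMp : 0 < M := lt_of_le_of_lt hL hLM
    have h1 := ThT_lip_aux hT hT' hTT hf hMp hLM.le
    have h2 := ThT_lip_aux hT' hT hTT.symm hf hMp hLM.le
    have e : ∑ j ∈ Finset.range (J + 1), |T' j - T j| = ∑ j ∈ Finset.range (J + 1), |T j - T' j| :=
      Finset.sum_congr rfl fun j _ => abs_sub_comm _ _
    rw [e] at h2
    rw [abs_le]
    constructor <;> linarith
  have hc : Continuous fun M : ℝ => M ^ 2 / (2 * ((J : ℝ) + 1)) *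
      ∑ j ∈ Finset.range (J + 1), |T j - T' j| := by fun_prop
  have ht : Tendsto (fun M : ℝ => M ^ 2 / (2 * ((J : ℝ) + 1)) *
      ∑ j ∈ Finset.range (J + 1), |T j - T' j|) (𝓝[>] L) (𝓝 (L ^ 2 / (2 * ((J : ℝ) + 1)) *
      ∑ j ∈ Finset.range (J + 1), |T j - T' j|)) := (hc.tendsto L).mono_left nhdsWithin_le_nhds
  exact ge_of_tendsto ht (eventually_nhdsWithin_of_forall fun M hM => key M hM)

/-! ### The coarse recursion as a fine recursion -/

theorem gaussOp_zero_var (a : ℝ) (F : ℝ → ℝ) : gaussOp a 0 F = F := by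
  funext z
  unfold gaussOp
  split_ifs with h
  · simp
  · simp only [Real.sqrt_zero, zero_mul, add_zero, integral_const, probReal_univ,
      one_smul, Real.log_exp]
    field_simp

/-- trivial steps -/
theorem rc_trivial {y v : ℕ → ℝ} {F : ℝ → ℝ} {n : ℕ} : ∀ i : ℕ, (∀ j, j < i → v (n + j) = 0) →
    rc y v F (n + i) = rc y v F n
  | 0, _ => rfl
  | i + 1, h => by
      show gaussOp (y (n + i)) (v (n + i)) (rc y v F (n + i)) = rc y v F n
      rw [h i (Nat.lt_succ_self i), gaussOp_zero_var,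
        rc_trivial i fun j hj => h j (Nat.lt_succ_of_lt hj)]

/-- recursion by blocks -/
theorem rc_block {y v y' v' : ℕ → ℝ} {F : ℝ → ℝ} {r : ℕ} (hr : 0 < r) : ∀ c : ℕ,
    (∀ i, i < c → y' (i * r) = y i) → (∀ i, i < c → v' (i * r) = v i) →
    (∀ i j, i < c → 0 < j → j < r → v' (i * r + j) = 0) →
    rc y' v' F (c * r) = rc y v F c
  | 0, _, _, _ => by rw [zero_mul]; rfl
  | c + 1, h1, h2, h3 => by
      have ih := rc_block (F := F) hr c (fun i hi => h1 i (by omega)) (fun i hi => h2 i (by omega))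
        (fun i j hi => h3 i j (by omega))
      have e : (c + 1) * r = (c * r + 1) + (r - 1) := by
        rw [add_mul, one_mul]
        omega
      rw [e, rc_trivial (r - 1) fun j hj => by
        have := h3 c (j + 1) (by omega) (by omega) (by omega)
        rwa [show c * r + (j + 1) = c * r + 1 + j by ring] at this]
      show gaussOp (y' (c * r)) (v' (c * r)) (rc y' v' F (c * r)) = gaussOp (y c) (v c) (rc y v F c)
      rw [h1 c (by omega), h2 c (by omega), ih]

/-- coarse levels -/
def Tc (J r J' : ℕ) (T : ℕ → ℝ) (b : ℕ) : ℝ := if b ≤ J then T (b * r) else T (J' + 1)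

/-- repeated levels -/
def Tr (r J' : ℕ) (T : ℕ → ℝ) (j : ℕ) : ℝ := if j ≤ J' then T (j / r * r) else T (J' + 1)

theorem ThT_coarse {J r J' : ℕ} (hr : 0 < r) (hJ : J' + 1 = (J + 1) * r) (h : ℝ → ℝ)
    (T : ℕ → ℝ) : ThT J h (Tc J r J' T) = ThT J' h (Tr r J' T) := by
  have hrR : (r : ℝ) ≠ 0 := by exact_mod_cast hr.ne'
  have hJR : ((J' : ℝ) + 1) = ((J : ℝ) + 1) * r := by exact_mod_cast hJ
  have key : rc (ySk J') (vT J' (Tr r J' T)) h (J' + 1) =
      rc (ySk J) (vT J (Tc J r J' T)) h (J + 1) := by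
    rw [hJ]
    refine rc_block hr (J + 1) (fun i hi => ?_) (fun i hi => ?_) (fun i j hi hj hjr => ?_)
    · -- exponents
      unfold ySk
      rw [hJR]
      push_cast
      rw [show ((J : ℝ) + 1) * r - (i : ℝ) * r = ((J : ℝ) + 1 - i) * r by ring]
      exact mul_div_mul_right _ _ hrR
    · -- variances
      have hir : i * r ≤ J * r := Nat.mul_le_mul_right r (by omega)
      have hJ' : J' = J * r + r - 1 := by
        have : (J + 1) * r = J * r + r := by ring
        omega
      unfold vT
      rw [if_pos (show i * r ≤ J' by omega), if_pos (show i ≤ J by omega)]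
      have ea : J' + 1 - i * r = (J + 1 - i) * r := by
        rw [hJ, Nat.sub_mul]
      have eb : (J' + 1 - (i * r + 1)) / r = J - i := by
        have : J' + 1 - (i * r + 1) = (J - i) * r + (r - 1) := by
          rw [Nat.sub_mul]
          omega
        rw [this, mul_comm, Nat.mul_add_div hr, Nat.div_eq_of_lt (by omega), add_zero]
      have e1 : Tr r J' T (J' + 1 - i * r) = Tc J r J' T (J + 1 - i) := by
        unfold Tr Tc
        rcases Nat.eq_zero_or_pos i with rfl | hi0
        · rw [if_neg (by omega), if_neg (by omega)]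
        · have h1 : 1 * r ≤ i * r := Nat.mul_le_mul_right r hi0
          rw [if_pos (by omega), if_pos (by omega), ea, Nat.mul_div_cancel _ hr]
      have e2 : Tr r J' T (J' + 1 - (i * r + 1)) = Tc J r J' T (J + 1 - (i + 1)) := by
        unfold Tr Tc
        rw [if_pos (by omega), if_pos (by omega), eb, show J + 1 - (i + 1) = J - i by omega]
      rw [e1, e2]
    · -- trivial steps
      have hir : i * r ≤ J * r := Nat.mul_le_mul_right r (by omega)
      have hJ' : J' = J * r + r - 1 := by
        have : (J + 1) * r = J * r + r := by ring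
        omega
      unfold vT
      rw [if_pos (show i * r + j ≤ J' by omega)]
      unfold Tr
      rw [if_pos (by omega), if_pos (by omega)]
      have ea : (J' + 1 - (i * r + j)) / r = J - i := by
        have : J' + 1 - (i * r + j) = (J - i) * r + (r - j) := by
          rw [Nat.sub_mul]
          omega
        rw [this, mul_comm, Nat.mul_add_div hr, Nat.div_eq_of_lt (by omega), add_zero]
      have eb : (J' + 1 - (i * r + j + 1)) / r = J - i := by
        have : J' + 1 - (i * r + j + 1) = (J - i) * r + (r - j - 1) := by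
          rw [Nat.sub_mul]
          omega
        rw [this, mul_comm, Nat.mul_add_div hr, Nat.div_eq_of_lt (by omega), add_zero]
      rw [ea, eb, sub_self]
  have ev : vT J' (Tr r J' T) (J' + 1) = vT J (Tc J r J' T) (J + 1) := by
    unfold vT
    rw [if_neg (by omega), if_neg (by omega), Nat.sub_self, Nat.sub_self]
    unfold Tr Tc
    rw [if_pos (Nat.zero_le _), if_pos (Nat.zero_le _), Nat.zero_div]
  unfold ThT
  rw [key, ev]

/-! ### The Prop -/

theorem sum_blocks (J r : ℕ) (F : ℕ → ℝ) :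
    ∑ j ∈ Finset.range ((J + 1) * r), F j =
      ∑ b ∈ Finset.range (J + 1), ∑ i ∈ Finset.range r, F (b * r + i) := by
  induction J with
  | zero => simp
  | succ J ih =>
    rw [Finset.sum_range_succ, ← ih, show (J + 1 + 1) * r = (J + 1) * r + r by ring,
      Finset.sum_range_add]

theorem thc : S6L_988.THC := by
  intro c L Tm h hh J r J' T hr hJ hT
  have hLip : LipL L h := hh.lip
  have e0 : (fun b => if b ≤ J then T (b * r) else T (J' + 1)) = Tc J r J' T := rfl
  rw [e0, ThT_coarse hr hJ]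
  have hdiv : ∀ j, j ≤ J' → j / r * r ≤ j := fun j _ => Nat.div_mul_le_self j r
  -- the repeated levels are admissible
  have hTr : LevT J' Tm (Tr r J' T) := by
    refine ⟨?_, ?_, ?_⟩
    · unfold Tr
      rw [if_pos (Nat.zero_le _)]
      exact hT.nonneg' (by have := hdiv 0 (Nat.zero_le _); omega)
    · intro i j hij hj
      unfold Tr
      split_ifs with h1 h2
      · refine hT.mono _ _ (Nat.mul_le_mul_right r (Nat.div_le_div_right hij)) ?_
        have := hdiv j h2
        omega
      · refine hT.mono _ _ ?_ le_rfl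
        have := hdiv i h1
        omega
      · omega
      · exact le_rfl
    · unfold Tr
      rw [if_neg (by omega)]
      exact hT.le
  have htop : Tr r J' T (J' + 1) = T (J' + 1) := by
    unfold Tr
    rw [if_neg (by omega)]
  have key := ThT_lip (L := L) hTr hT htop hLip
  refine key.trans ?_
  -- the sum
  have hsum : ∑ j ∈ Finset.range (J' + 1), |Tr r J' T j - T j| ≤ r * Tm := by
    rw [hJ, sum_blocks]
    have hb : ∀ b ∈ Finset.range (J + 1), ∑ i ∈ Finset.range r,
        |Tr r J' T (b * r + i) - T (b * r + i)| ≤ r * (T ((b + 1) * r) - T (b * r)) := by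
      intro b hb
      rw [Finset.mem_range] at hb
      have hbr : (b + 1) * r ≤ (J + 1) * r := Nat.mul_le_mul_right r (by omega)
      have hb1 : (b + 1) * r = b * r + r := by ring
      refine (Finset.sum_le_card_nsmul _ _ (T ((b + 1) * r) - T (b * r)) fun i hi => ?_).trans
        (le_of_eq (by rw [Finset.card_range, nsmul_eq_mul]))
      rw [Finset.mem_range] at hi
      have e1 : Tr r J' T (b * r + i) = T (b * r) := by
        unfold Tr
        rw [if_pos (by omega)]
        congr 2
        rw [mul_comm b r, Nat.mul_add_div hr, Nat.div_eq_of_lt hi, add_zero]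
      have h1 : T (b * r) ≤ T (b * r + i) := hT.mono _ _ (by omega) (by omega)
      have h2 : T (b * r + i) ≤ T ((b + 1) * r) := hT.mono _ _ (by omega) (by omega)
      rw [e1, abs_sub_comm, abs_of_nonneg (by linarith)]
      linarith
    refine (Finset.sum_le_sum hb).trans ?_
    rw [← Finset.mul_sum, Finset.sum_range_sub (fun b => T (b * r)) (J + 1)]
    refine mul_le_mul_of_nonneg_left ?_ (Nat.cast_nonneg r)
    rw [← hJ, zero_mul]
    have := hT.nonneg
    have := hT.le
    linarith
  have hJR : ((J' : ℝ) + 1) = ((J : ℝ) + 1) * r := by exact_mod_cast hJ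
  have hrR : (0 : ℝ) < r := by exact_mod_cast hr
  have hTm : 0 ≤ Tm := (hT.nonneg' le_rfl).trans hT.le
  calc L ^ 2 / (2 * ((J' : ℝ) + 1)) * ∑ j ∈ Finset.range (J' + 1), |Tr r J' T j - T j|
      ≤ L ^ 2 / (2 * ((J' : ℝ) + 1)) * (r * Tm) :=
        mul_le_mul_of_nonneg_left hsum (by positivity)
    _ = L ^ 2 * Tm / ((J : ℝ) + 1) / 2 := by
        rw [hJR]
        field_simp
    _ ≤ L ^ 2 * Tm / ((J : ℝ) + 1) := half_le_self (by positivity)

end

end Crest.Agent.R146.S6Thc_451
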