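import Crest.Agent.R146.L2Alg_36
import Crest.Agent.R164.GCalc2

/-!
Row 146, S0206, lower bound, node (L3), value of the nested Gaussian recursion on a truncated
quadratic (helper36).

`value_ge`: the recursion `S6Def.recV` with positions `0, T_0, ..., T_{J+1}` and exponents
`j/(J+1)`, applied to a bounded function `f ≥ min (z²/(2B) - log B/2) L - ε`,
`B = 1 - Q + T_{J+1}`, is at least `Theta J P T - 3 (1+Tm)² Tm²/(16 L) - ε`, uniformly in `J`.
-/

set_option autoImplicit false

namespace Crest.Agent.R146.L3Val_36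

open MeasureTheory ProbabilityTheory Filter Topology
open Crest.ProbabilityR.InvariantGlass Crest.Agent.R164.GC Crest.Agent.R146.S6Def_988
open Crest.Agent.R146.L2Alg_36

noncomputable section

/-! ### Gaussian moments -/

theorem EG_id : EG (fun x : ℝ => x) :=
  ⟨continuous_id, 1, 1, zero_le_one, zero_le_one, fun x => by
    have := Real.add_one_le_exp |x|
    simp only [one_mul]
    linarith⟩

theorem int_pow (n : ℕ) : Integrable (fun g : ℝ => g ^ n) (gaussianReal 0 1) := by
  have h := (EG_id.pow n).int 1 0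
  have e : (fun g : ℝ => g ^ n) = fun g => (0 + 1 * g) ^ n := by funext g; ring_nf
  rw [e]
  exact h

theorem mom1 : ∫ g : ℝ, g ∂gaussianReal 0 1 = 0 := by
  have h := stein (φ := fun _ => (1 : ℝ)) (φ1 := fun _ => 0) (EG.const 1) (EG.const 0)
    (fun x => hasDerivAt_const x 1) 1 0
  simpa [H] using h

theorem mom2 : ∫ g : ℝ, g ^ 2 ∂gaussianReal 0 1 = 1 := by
  have h := stein (φ := fun x => x) (φ1 := fun _ => 1) EG_id (EG.const 1)
    (fun x => hasDerivAt_id' x) 1 0
  have e : (fun g : ℝ => g ^ 2) = fun g => g * (0 + 1 * g) := by funext g; ring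
  rw [e, h]
  simp [H]

theorem mom3 : ∫ g : ℝ, g ^ 3 ∂gaussianReal 0 1 = 0 := by
  have h := stein (φ := fun x => x ^ 2) (φ1 := fun x => 2 * x) (EG_id.pow 2) (EG_id.const_mul 2)
    (fun x => by simpa using hasDerivAt_pow 2 x) 1 0
  have e : (fun g : ℝ => g ^ 3) = fun g => g * (0 + 1 * g) ^ 2 := by funext g; ring
  rw [e, h]
  unfold H
  have e2 : (fun g : ℝ => 2 * (0 + 1 * g)) = fun g => 2 * g := by funext g; ring
  rw [e2, integral_const_mul, mom1]
  ring

theorem mom4 : ∫ g : ℝ, g ^ 4 ∂gaussianReal 0 1 = 3 := by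
  have h := stein (φ := fun x => x ^ 3) (φ1 := fun x => 3 * x ^ 2) (EG_id.pow 3)
    ((EG_id.pow 2).const_mul 3) (fun x => by simpa using hasDerivAt_pow 3 x) 1 0
  have e : (fun g : ℝ => g ^ 4) = fun g => g * (0 + 1 * g) ^ 3 := by funext g; ring
  rw [e, h]
  unfold H
  have e2 : (fun g : ℝ => 3 * (0 + 1 * g) ^ 2) = fun g => 3 * g ^ 2 := by funext g; ring
  rw [e2, integral_const_mul, mom2]
  ring

theorem avg_sq (u s : ℝ) : ∫ g : ℝ, (u + s * g) ^ 2 ∂gaussianReal 0 1 = u ^ 2 + s ^ 2 := by
  have e : (fun g : ℝ => (u + s * g) ^ 2) =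
      fun g => (u ^ 2 + (2 * u * s) * g ^ 1) + s ^ 2 * g ^ 2 := by funext g; ring
  have i0 : Integrable (fun _ : ℝ => u ^ 2) (gaussianReal 0 1) := integrable_const _
  have i1 : Integrable (fun g : ℝ => (2 * u * s) * g ^ 1) (gaussianReal 0 1) :=
    (int_pow 1).const_mul (2 * u * s)
  have i2 : Integrable (fun g : ℝ => s ^ 2 * g ^ 2) (gaussianReal 0 1) := (int_pow 2).const_mul _
  have j1 : Integrable (fun g : ℝ => u ^ 2 + (2 * u * s) * g ^ 1) (gaussianReal 0 1) := i0.add i1
  rw [e, integral_add j1 i2, integral_add i0 i1, integral_const_mul, integral_const_mul, mom2]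
  simp only [pow_one, mom1, integral_const, probReal_univ, smul_eq_mul]
  ring

theorem avg_quart (u s : ℝ) : ∫ g : ℝ, (u + s * g) ^ 4 ∂gaussianReal 0 1 =
    u ^ 4 + 6 * u ^ 2 * s ^ 2 + 3 * s ^ 4 := by
  have e : (fun g : ℝ => (u + s * g) ^ 4) =
      fun g => ((((u ^ 4 + (4 * u ^ 3 * s) * g ^ 1) + (6 * u ^ 2 * s ^ 2) * g ^ 2) +
        (4 * u * s ^ 3) * g ^ 3) + s ^ 4 * g ^ 4) := by funext g; ring
  have i0 : Integrable (fun _ : ℝ => u ^ 4) (gaussianReal 0 1) := integrable_const _
  have i1 := (int_pow 1).const_mul (4 * u ^ 3 * s)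
  have i2 := (int_pow 2).const_mul (6 * u ^ 2 * s ^ 2)
  have i3 := (int_pow 3).const_mul (4 * u * s ^ 3)
  have i4 := (int_pow 4).const_mul (s ^ 4)
  have j1 : Integrable (fun g : ℝ => u ^ 4 + (4 * u ^ 3 * s) * g ^ 1) (gaussianReal 0 1) := i0.add i1
  have j2 : Integrable (fun g : ℝ => u ^ 4 + (4 * u ^ 3 * s) * g ^ 1 + (6 * u ^ 2 * s ^ 2) * g ^ 2)
    (gaussianReal 0 1) := j1.add i2
  have j3 : Integrable (fun g : ℝ => u ^ 4 + (4 * u ^ 3 * s) * g ^ 1 + (6 * u ^ 2 * s ^ 2) * g ^ 2 +
    (4 * u * s ^ 3) * g ^ 3) (gaussianReal 0 1) := j2.add i3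
  rw [e, integral_add j3 i4, integral_add j2 i3, integral_add j1 i2, integral_add i0 i1,
    integral_const_mul, integral_const_mul, integral_const_mul, integral_const_mul,
    mom2, mom3, mom4]
  simp only [pow_one, mom1, integral_const, probReal_univ, smul_eq_mul]
  ring

/-! ### The error function -/

/-- error function at a time where the exact value is `y²/(2β) + c`. -/
def err (κ S β y : ℝ) : ℝ := κ * ((y / β) ^ 4 + 6 * S * (y / β) ^ 2 + 3 * S ^ 2)

theorem err_nonneg {κ S : ℝ} (hκ : 0 ≤ κ) (hS : 0 ≤ S) (β y : ℝ) : 0 ≤ err κ S β y := by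
  unfold err; positivity

theorem err_EG (κ S β : ℝ) : EG (err κ S β) := by
  have h : (fun y => err κ S β y) = fun y => κ * ((((1 / β) * y) ^ 4 + (6 * S) * ((1 / β) * y) ^ 2) +
      3 * S ^ 2) := by
    funext y; unfold err
    have : y / β = 1 / β * y := by ring
    rw [this]
  have h2 : err κ S β = fun y => κ * ((((1 / β) * y) ^ 4 + (6 * S) * ((1 / β) * y) ^ 2) +
      3 * S ^ 2) := h
  rw [h2]
  exact ((((EG_id.const_mul (1 / β)).pow 4).add (((EG_id.const_mul (1 / β)).pow 2).const_mul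
    (6 * S))).add (EG.const (3 * S ^ 2))).const_mul κ

/-- average of the error function after one Gaussian step -/
theorem err_avg {κ S β β' v : ℝ} (hβ : 0 < β) (hβ' : 0 < β') (hv : 0 ≤ v) (y : ℝ) :
    ∫ g : ℝ, err κ S β' (y * β' / β + Real.sqrt (v * β' / β) * g) ∂gaussianReal 0 1 =
      err κ (S + v / (β * β')) β y := by
  set s := Real.sqrt (v * β' / β) / β' with hs
  have hs2 : s ^ 2 = v / (β * β') := by
    rw [hs, div_pow, Real.sq_sqrt (by positivity)]
    field_simp
  have e : (fun g : ℝ => err κ S β' (y * β' / β + Real.sqrt (v * β' / β) * g)) =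
      fun g => κ * (((y / β + s * g) ^ 4 + (6 * S) * (y / β + s * g) ^ 2) + 3 * S ^ 2) := by
    funext g
    unfold err
    have : (y * β' / β + Real.sqrt (v * β' / β) * g) / β' = y / β + s * g := by
      rw [hs]; field_simp
    rw [this]
  have i4 : Integrable (fun g : ℝ => (y / β + s * g) ^ 4) (gaussianReal 0 1) :=
    (EG_id.pow 4).int s (y / β)
  have i2 : Integrable (fun g : ℝ => (6 * S) * (y / β + s * g) ^ 2) (gaussianReal 0 1) :=
    ((EG_id.pow 2).int s (y / β)).const_mul _
  have j1 : Integrable (fun g : ℝ => (y / β + s * g) ^ 4 + (6 * S) * (y / β + s * g) ^ 2)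
    (gaussianReal 0 1) := i4.add i2
  rw [e, integral_const_mul, integral_add j1 (integrable_const _), integral_add i4 i2,
    integral_const_mul, avg_quart, avg_sq]
  simp only [integral_const, probReal_univ, smul_eq_mul]
  have e4 : s ^ 4 = (v / (β * β')) ^ 2 := by rw [← hs2]; ring
  unfold err
  rw [e4, hs2]
  ring

/-! ### Gaussian tilt by a quadratic -/

theorem pdf_tilt {a v c2 : ℝ} (hv : 0 ≤ v) (hc : 0 < c2) (hc2 : c2 = 1 - a * v) (y g : ℝ) :
    gaussianPDFReal 0 1 g * Real.exp (a * (y + Real.sqrt v * g) ^ 2 / 2) =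
      ((Real.sqrt c2)⁻¹ * Real.exp (a * y ^ 2 / (2 * c2))) *
        gaussianPDFReal (a * Real.sqrt v * y / c2) (Real.toNNReal c2⁻¹) g := by
  have hv2 : Real.sqrt v ^ 2 = v := Real.sq_sqrt hv
  set w := Real.sqrt v with hw
  have hcoe : ((Real.toNNReal c2⁻¹ : NNReal) : ℝ) = c2⁻¹ := Real.coe_toNNReal _ (by positivity)
  unfold gaussianPDFReal
  rw [hcoe]
  have e1 : (Real.sqrt c2)⁻¹ * (Real.sqrt (2 * Real.pi * c2⁻¹))⁻¹ =
      (Real.sqrt (2 * Real.pi * ((1 : NNReal) : ℝ)))⁻¹ := by
    rw [← mul_inv, ← Real.sqrt_mul hc.le]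
    congr 2
    push_cast
    field_simp
  have e2 : -(g - 0) ^ 2 / (2 * ((1 : NNReal) : ℝ)) + a * (y + w * g) ^ 2 / 2 =
      a * y ^ 2 / (2 * c2) + -(g - a * w * y / c2) ^ 2 / (2 * c2⁻¹) := by
    push_cast
    have h1 : a * v = 1 - c2 := by linarith
    have h2 : a * w ^ 2 = 1 - c2 := by rw [hv2]; exact h1
    field_simp
    linear_combination (c2 * g ^ 2 + a * y ^ 2) * h2
  calc (Real.sqrt (2 * Real.pi * ((1 : NNReal) : ℝ)))⁻¹ * Real.exp (-(g - 0) ^ 2 / (2 * ((1 : NNReal) : ℝ))) *
        Real.exp (a * (y + w * g) ^ 2 / 2)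
      = (Real.sqrt (2 * Real.pi * ((1 : NNReal) : ℝ)))⁻¹ *
        Real.exp (-(g - 0) ^ 2 / (2 * ((1 : NNReal) : ℝ)) + a * (y + w * g) ^ 2 / 2) := by
        rw [Real.exp_add]; ring
    _ = ((Real.sqrt c2)⁻¹ * (Real.sqrt (2 * Real.pi * c2⁻¹))⁻¹) *
        Real.exp (a * y ^ 2 / (2 * c2) + -(g - a * w * y / c2) ^ 2 / (2 * c2⁻¹)) := by
        rw [e2, e1]
    _ = _ := by rw [Real.exp_add]; ring

theorem tilt {a v c2 : ℝ} (hv : 0 ≤ v) (hc : 0 < c2) (hc2 : c2 = 1 - a * v) (y : ℝ)
    {h : ℝ → ℝ} (hm : Measurable h) :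
    ∫ g : ℝ, Real.exp (a * (y + Real.sqrt v * g) ^ 2 / 2) * h (y + Real.sqrt v * g)
      ∂gaussianReal 0 1 =
      ((Real.sqrt c2)⁻¹ * Real.exp (a * y ^ 2 / (2 * c2))) *
        ∫ g : ℝ, h (y / c2 + Real.sqrt (v / c2) * g) ∂gaussianReal 0 1 := by
  have hne : (Real.toNNReal c2⁻¹) ≠ 0 := by
    intro h0
    have : ((Real.toNNReal c2⁻¹ : NNReal) : ℝ) = c2⁻¹ := Real.coe_toNNReal _ (by positivity)
    rw [h0] at this
    have h1 : 0 < c2⁻¹ := by positivity
    rw [← this] at h1
    exact absurd h1 (by simp)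
  have h1 : ∫ g : ℝ, Real.exp (a * (y + Real.sqrt v * g) ^ 2 / 2) * h (y + Real.sqrt v * g)
      ∂gaussianReal 0 1 = ((Real.sqrt c2)⁻¹ * Real.exp (a * y ^ 2 / (2 * c2))) *
      ∫ g : ℝ, h (y + Real.sqrt v * g) ∂gaussianReal (a * Real.sqrt v * y / c2) (Real.toNNReal c2⁻¹) := by
    rw [integral_gaussianReal_eq_integral_smul one_ne_zero,
      integral_gaussianReal_eq_integral_smul hne, ← integral_const_mul]
    apply integral_congr_ae
    filter_upwards with g
    simp only [smul_eq_mul]
    have := pdf_tilt hv hc hc2 y g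
    calc gaussianPDFReal 0 1 g * (Real.exp (a * (y + Real.sqrt v * g) ^ 2 / 2) * h (y + Real.sqrt v * g))
        = (gaussianPDFReal 0 1 g * Real.exp (a * (y + Real.sqrt v * g) ^ 2 / 2)) *
          h (y + Real.sqrt v * g) := by ring
      _ = _ := by rw [this]; ring
  have h2 : gaussianReal (a * Real.sqrt v * y / c2) (Real.toNNReal c2⁻¹) =
      (gaussianReal 0 1).map (fun g => a * Real.sqrt v * y / c2 + Real.sqrt c2⁻¹ * g) := by
    have e1 : (gaussianReal 0 1).map (fun g => Real.sqrt c2⁻¹ * g) =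
        gaussianReal 0 (Real.toNNReal c2⁻¹) := by
      rw [gaussianReal_map_const_mul]
      congr 1
      · ring
      · rw [mul_one]
        ext
        rw [NNReal.coe_mk, Real.sq_sqrt (by positivity), Real.coe_toNNReal _ (by positivity)]
    have e2 : (fun g : ℝ => a * Real.sqrt v * y / c2 + Real.sqrt c2⁻¹ * g) =
        (fun g => a * Real.sqrt v * y / c2 + g) ∘ (fun g => Real.sqrt c2⁻¹ * g) := rfl
    rw [e2, ← Measure.map_map (by fun_prop) (by fun_prop), e1, gaussianReal_map_const_add]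
    congr 1
    ring
  rw [h1, h2, integral_map (by fun_prop) (by
    exact (hm.comp (by fun_prop : Measurable fun g : ℝ => y + Real.sqrt v * g)).aestronglyMeasurable)]
  congr 1
  apply integral_congr_ae
  filter_upwards with g
  congr 1
  have hv2 : Real.sqrt v ^ 2 = v := Real.sq_sqrt hv
  have hs : Real.sqrt v * Real.sqrt c2⁻¹ = Real.sqrt (v / c2) := by
    rw [← Real.sqrt_mul hv, div_eq_mul_inv]
  have h3 : y + Real.sqrt v * (a * Real.sqrt v * y / c2) = y / c2 := by
    have h4 : a * Real.sqrt v ^ 2 = 1 - c2 := by rw [hv2]; linarith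
    field_simp
    linear_combination y * h4
  rw [← hs]
  linear_combination h3

/-! ### Bounded continuous functions under the recursion -/

theorem gaussOp_cb {W : ℝ → ℝ} (hW : Continuous W) {K : ℝ} (hK : ∀ z, |W z| ≤ K) {x : ℝ}
    (hx : 0 ≤ x) (v : ℝ) :
    Continuous (gaussOp x v W) ∧ ∀ z, |gaussOp x v W z| ≤ K := by
  have hEW : EG W := EG.of_bdd hW hK
  rcases hx.eq_or_lt with rfl | hx
  · have e : gaussOp 0 v W = fun z => H (Real.sqrt v) W z := by
      funext z; exact gaussOp_zero v W z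
    rw [e]
    refine ⟨(H_continuous hEW).comp (continuous_const.prodMk continuous_id), fun z => ?_⟩
    have h1 := H_mono hEW (EG.const K) (fun y => (abs_le.1 (hK y)).2) (Real.sqrt v) z
    have h2 := H_mono (EG.const (-K)) hEW (fun y => (abs_le.1 (hK y)).1) (Real.sqrt v) z
    rw [H_const] at h1 h2
    exact abs_le.2 ⟨h2, h1⟩
  · have hE : EG (fun y => Real.exp (x * W y)) := by
      refine EG.of_bdd (by fun_prop) (K := Real.exp (x * K)) fun y => ?_
      rw [abs_of_pos (Real.exp_pos _)]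
      exact Real.exp_le_exp.2 (mul_le_mul_of_nonneg_left (abs_le.1 (hK y)).2 hx.le)
    have hpos : ∀ z, 0 < H (Real.sqrt v) (fun y => Real.exp (x * W y)) z :=
      fun z => H_pos hE (fun _ => Real.exp_pos _) _ z
    have e : gaussOp x v W = fun z => x⁻¹ * Real.log (H (Real.sqrt v) (fun y => Real.exp (x * W y)) z) := by
      funext z; exact gaussOp_ne hx.ne' v W z
    rw [e]
    refine ⟨continuous_const.mul (Continuous.log
      ((H_continuous hE).comp (continuous_const.prodMk continuous_id)) fun z => (hpos z).ne'),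
      fun z => ?_⟩
    have h1 := H_mono hE (EG.const (Real.exp (x * K)))
      (fun y => Real.exp_le_exp.2 (mul_le_mul_of_nonneg_left (abs_le.1 (hK y)).2 hx.le))
      (Real.sqrt v) z
    have h2 := H_mono (EG.const (Real.exp (x * (-K)))) hE
      (fun y => Real.exp_le_exp.2 (mul_le_mul_of_nonneg_left (abs_le.1 (hK y)).1 hx.le))
      (Real.sqrt v) z
    rw [H_const] at h1 h2
    have h3 := Real.log_le_log (hpos z) h1
    have h4 := Real.log_le_log (Real.exp_pos _) h2
    rw [Real.log_exp] at h3 h4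
    have hxi : x⁻¹ * (x * K) = K := by field_simp
    have hxi' : x⁻¹ * (x * (-K)) = -K := by field_simp
    rw [abs_le]
    constructor
    · calc -K = x⁻¹ * (x * (-K)) := hxi'.symm
        _ ≤ _ := mul_le_mul_of_nonneg_left h4 (by positivity)
    · calc x⁻¹ * Real.log (H (Real.sqrt v) (fun y => Real.exp (x * W y)) z) ≤ x⁻¹ * (x * K) :=
            mul_le_mul_of_nonneg_left h3 (by positivity)
        _ = K := hxi

/-! ### One step -/

theorem step_pos {x v β β' κ S c' K : ℝ} (hx : 0 < x) (hv : 0 ≤ v) (hβ : 0 < β)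
    (hβ' : β = β' - x * v) {W : ℝ → ℝ} (hW : Continuous W) (hK : ∀ z, |W z| ≤ K)
    (hlow : ∀ z, z ^ 2 / (2 * β') + c' - err κ S β' z ≤ W z) (y : ℝ) :
    y ^ 2 / (2 * β) + (c' + 1 / (2 * x) * Real.log (β' / β)) - err κ (S + v / (β * β')) β y ≤
      gaussOp x v W y := by
  have hb : 0 < β' := by nlinarith [mul_nonneg hx.le hv]
  set a := x / β' with ha
  set c2 := β / β' with hc2
  have hc2p : 0 < c2 := by positivity
  have hc2e : c2 = 1 - a * v := by rw [hc2, ha, hβ']; field_simp
  have hE : EG (fun y => Real.exp (x * W y)) := by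
    refine EG.of_bdd (by fun_prop) (K := Real.exp (x * K)) fun y => ?_
    rw [abs_of_pos (Real.exp_pos _)]
    exact Real.exp_le_exp.2 (mul_le_mul_of_nonneg_left (abs_le.1 (hK y)).2 hx.le)
  set h : ℝ → ℝ := fun z => Real.exp (-(x * err κ S β' z)) with hh
  have hcont : Continuous h := by
    have := (err_EG κ S β').cont
    fun_prop
  have hpt : ∀ z, Real.exp (x * c') * (Real.exp (a * z ^ 2 / 2) * h z) ≤ Real.exp (x * W z) := by
    intro z
    simp only [hh]
    rw [← Real.exp_add, ← Real.exp_add]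
    apply Real.exp_le_exp.2
    have h1 := mul_le_mul_of_nonneg_left (hlow z) hx.le
    have h2 : x * (z ^ 2 / (2 * β') + c' - err κ S β' z) =
        x * c' + (a * z ^ 2 / 2 + -(x * err κ S β' z)) := by
      rw [ha]; field_simp; ring
    linarith
  have hint : Integrable (fun g : ℝ => Real.exp (a * (y + Real.sqrt v * g) ^ 2 / 2) *
      h (y + Real.sqrt v * g)) (gaussianReal 0 1) := by
    refine Integrable.mono' ((hE.int (Real.sqrt v) y).const_mul (Real.exp (-(x * c'))))
      (by fun_prop) (Eventually.of_forall fun g => ?_)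
    have h1 := hpt (y + Real.sqrt v * g)
    have h0 : 0 ≤ Real.exp (a * (y + Real.sqrt v * g) ^ 2 / 2) * h (y + Real.sqrt v * g) := by
      simp only [hh]; positivity
    rw [Real.norm_eq_abs, abs_of_nonneg h0]
    have h2 := mul_le_mul_of_nonneg_left h1 (Real.exp_pos (-(x * c'))).le
    rw [← mul_assoc, ← Real.exp_add] at h2
    simpa using h2
  have hstep : Real.exp (x * c') * (((Real.sqrt c2)⁻¹ * Real.exp (a * y ^ 2 / (2 * c2))) *
      ∫ g : ℝ, h (y / c2 + Real.sqrt (v / c2) * g) ∂gaussianReal 0 1) ≤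
      H (Real.sqrt v) (fun y => Real.exp (x * W y)) y := by
    rw [← tilt hv hc2p hc2e y hcont.measurable, ← integral_const_mul]
    exact integral_mono (hint.const_mul _) (hE.int _ _) fun g => hpt _
  have hr : y / c2 = y * β' / β := by rw [hc2]; field_simp
  have hs : v / c2 = v * β' / β := by rw [hc2]; field_simp
  have havg : ∫ g : ℝ, err κ S β' (y / c2 + Real.sqrt (v / c2) * g) ∂gaussianReal 0 1 =
      err κ (S + v / (β * β')) β y := by
    rw [hr, hs]; exact err_avg hβ hb hv y
  set E := err κ (S + v / (β * β')) β y with hEdef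
  have hi1 : Integrable (fun g : ℝ => err κ S β' (y / c2 + Real.sqrt (v / c2) * g))
      (gaussianReal 0 1) := (err_EG κ S β').int _ _
  -- Jensen
  have hJ : Real.exp (-(x * E)) ≤ ∫ g : ℝ, h (y / c2 + Real.sqrt (v / c2) * g) ∂gaussianReal 0 1 := by
    by_cases hi2 : Integrable (fun g : ℝ => h (y / c2 + Real.sqrt (v / c2) * g)) (gaussianReal 0 1)
    · have hle : ∀ g : ℝ, Real.exp (-(x * E)) * (1 + (-(x * err κ S β' (y / c2 + Real.sqrt (v / c2) * g)) +
          x * E)) ≤ h (y / c2 + Real.sqrt (v / c2) * g) := by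
        intro g
        simp only [hh]
        have h1 := Real.add_one_le_exp (-(x * err κ S β' (y / c2 + Real.sqrt (v / c2) * g)) + x * E)
        have h2 := mul_le_mul_of_nonneg_left h1 (Real.exp_pos (-(x * E))).le
        rw [← Real.exp_add] at h2
        have h3 : -(x * E) + (-(x * err κ S β' (y / c2 + Real.sqrt (v / c2) * g)) + x * E) =
            -(x * err κ S β' (y / c2 + Real.sqrt (v / c2) * g)) := by ring
        rw [h3] at h2
        linarith
      have hint2 : Integrable (fun g : ℝ => Real.exp (-(x * E)) *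
          (1 + (-(x * err κ S β' (y / c2 + Real.sqrt (v / c2) * g)) + x * E))) (gaussianReal 0 1) := by
        refine Integrable.const_mul ?_ _
        exact (integrable_const _).add (((hi1.const_mul x).neg).add (integrable_const _))
      have h4 := integral_mono hint2 hi2 hle
      have h5 : ∫ g : ℝ, Real.exp (-(x * E)) *
          (1 + (-(x * err κ S β' (y / c2 + Real.sqrt (v / c2) * g)) + x * E)) ∂gaussianReal 0 1 =
          Real.exp (-(x * E)) := by
        rw [integral_const_mul]
        have i1 : Integrable (fun _ : ℝ => (1 : ℝ)) (gaussianReal 0 1) := integrable_const _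
        have i2 : Integrable (fun g : ℝ => -(x * err κ S β' (y / c2 + Real.sqrt (v / c2) * g)))
            (gaussianReal 0 1) := (hi1.const_mul x).neg
        have i3 : Integrable (fun _ : ℝ => x * E) (gaussianReal 0 1) := integrable_const _
        have j1 : Integrable (fun g : ℝ => -(x * err κ S β' (y / c2 + Real.sqrt (v / c2) * g)) + x * E)
            (gaussianReal 0 1) := i2.add i3
        rw [integral_add i1 j1, integral_add i2 i3, integral_neg, integral_const_mul, havg]
        simp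
      rw [h5] at h4
      exact h4
    · exfalso
      apply hi2
      -- h is bounded above by exp of a constant only if err ≥ ... ; use hint and tilt: instead
      -- use that the integrand is dominated: exp(-x err) ≤ exp(-x c') * exp(x W) * exp(-a z²/2)
      refine Integrable.mono' ((hE.int (Real.sqrt (v / c2)) (y / c2)).const_mul
        (Real.exp (-(x * c')))) (by fun_prop) (Eventually.of_forall fun g => ?_)
      have h1 := hpt (y / c2 + Real.sqrt (v / c2) * g)
      have h0 : 0 ≤ h (y / c2 + Real.sqrt (v / c2) * g) := by simp only [hh]; positivity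
      rw [Real.norm_eq_abs, abs_of_nonneg h0]
      have ha0 : 0 < a := by rw [ha]; positivity
      have h3 : 1 ≤ Real.exp (a * (y / c2 + Real.sqrt (v / c2) * g) ^ 2 / 2) :=
        Real.one_le_exp (by positivity)
      have h4 : h (y / c2 + Real.sqrt (v / c2) * g) ≤
          Real.exp (a * (y / c2 + Real.sqrt (v / c2) * g) ^ 2 / 2) *
            h (y / c2 + Real.sqrt (v / c2) * g) := le_mul_of_one_le_left h0 h3
      have h2 := mul_le_mul_of_nonneg_left h1 (Real.exp_pos (-(x * c'))).le
      rw [← mul_assoc, ← Real.exp_add] at h2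
      have h5 : -(x * c') + x * c' = 0 := by ring
      rw [h5, Real.exp_zero, one_mul] at h2
      exact h4.trans h2
  have hZ : Real.exp (x * c' + a * y ^ 2 / (2 * c2) - x * E) * (Real.sqrt c2)⁻¹ ≤
      H (Real.sqrt v) (fun y => Real.exp (x * W y)) y := by
    refine le_trans ?_ hstep
    have h1 : Real.exp (x * c' + a * y ^ 2 / (2 * c2) - x * E) * (Real.sqrt c2)⁻¹ =
        Real.exp (x * c') * (((Real.sqrt c2)⁻¹ * Real.exp (a * y ^ 2 / (2 * c2))) *
          Real.exp (-(x * E))) := by
      rw [sub_eq_add_neg, Real.exp_add, Real.exp_add]; ring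
    rw [h1]
    gcongr
  have hpos : 0 < Real.exp (x * c' + a * y ^ 2 / (2 * c2) - x * E) * (Real.sqrt c2)⁻¹ := by
    have := Real.sqrt_pos.2 hc2p
    positivity
  have hlog := Real.log_le_log hpos hZ
  rw [Real.log_mul (Real.exp_pos _).ne' (inv_ne_zero (Real.sqrt_pos.2 hc2p).ne'), Real.log_exp,
    Real.log_inv, Real.log_sqrt hc2p.le] at hlog
  rw [gaussOp_ne hx.ne']
  have hfin := mul_le_mul_of_nonneg_left hlog (by positivity : (0 : ℝ) ≤ x⁻¹)
  refine le_trans (le_of_eq ?_) hfin
  have hlc : Real.log c2 = -Real.log (β' / β) := by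
    rw [hc2, ← Real.log_inv, inv_div]
  rw [hlc]
  have h6 : a * y ^ 2 / (2 * c2) = x * (y ^ 2 / (2 * β)) := by
    rw [ha, hc2]; field_simp
  rw [h6]
  field_simp
  ring

theorem step_zero {v β' κ S c' K : ℝ} (hv : 0 ≤ v) (hb : 0 < β') {W : ℝ → ℝ}
    (hW : Continuous W) (hK : ∀ z, |W z| ≤ K)
    (hlow : ∀ z, z ^ 2 / (2 * β') + c' - err κ S β' z ≤ W z) (y : ℝ) :
    y ^ 2 / (2 * β') + (c' + v / (2 * β')) - err κ (S + v / (β' * β')) β' y ≤ gaussOp 0 v W y := by
  rw [gaussOp_zero]
  have hEW : EG W := EG.of_bdd hW hK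
  have hsq : Real.sqrt v ^ 2 = v := Real.sq_sqrt hv
  have havg := err_avg (κ := κ) (S := S) hb hb hv y
  have e1 : y * β' / β' = y := by field_simp
  have e2 : v * β' / β' = v := by field_simp
  rw [e1, e2] at havg
  have i1 : Integrable (fun g : ℝ => (y + Real.sqrt v * g) ^ 2 / (2 * β') + c') (gaussianReal 0 1) :=
    (((EG_id.pow 2).int _ _).div_const _).add (integrable_const _)
  have i2 : Integrable (fun g : ℝ => err κ S β' (y + Real.sqrt v * g)) (gaussianReal 0 1) :=
    (err_EG κ S β').int _ _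
  have i3 : Integrable (fun g : ℝ => (y + Real.sqrt v * g) ^ 2 / (2 * β') + c' -
      err κ S β' (y + Real.sqrt v * g)) (gaussianReal 0 1) := i1.sub i2
  have h := integral_mono i3 (hEW.int (Real.sqrt v) y) fun g => hlow (y + Real.sqrt v * g)
  have h2 : ∫ g : ℝ, ((y + Real.sqrt v * g) ^ 2 / (2 * β') + c' -
      err κ S β' (y + Real.sqrt v * g)) ∂gaussianReal 0 1 =
      y ^ 2 / (2 * β') + (c' + v / (2 * β')) - err κ (S + v / (β' * β')) β' y := by
    rw [integral_sub i1 i2, havg, integral_add (((EG_id.pow 2).int _ _).div_const _)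
      (integrable_const _), integral_div, avg_sq, hsq]
    simp only [integral_const, probReal_univ, smul_eq_mul]
    ring
  rw [h2] at h
  exact h

/-! ### The recursion -/

theorem recV_cb {f : ℝ → ℝ} (hf : Continuous f) {K : ℝ} (hK : ∀ z, |f z| ≤ K) (t m : ℕ → ℝ) (k : ℕ)
    (hm : ∀ i, 0 ≤ m i) (j : ℕ) :
    Continuous (recV f t m k j) ∧ ∀ z, |recV f t m k j z| ≤ K := by
  induction j with
  | zero => exact ⟨hf, hK⟩
  | succ j ih => exact gaussOp_cb ih.1 ih.2 (hm _) _

/-- the increment of the constant over the step `(t_i, t_{i+1})`. -/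
def ell (t m β : ℕ → ℝ) (i : ℕ) : ℝ :=
  if m i = 0 then (t (i + 1) - t i) / (2 * β (i + 1)) else 1 / (2 * m i) * Real.log (β (i + 1) / β i)

theorem recV_ge {f : ℝ → ℝ} (hf : Continuous f) {K : ℝ} (hK : ∀ z, |f z| ≤ K) {t m β : ℕ → ℝ}
    {k : ℕ} {κ c0 : ℝ} (hm : ∀ i, 0 ≤ m i) (ht : ∀ i < k, t i ≤ t (i + 1))
    (hβ : ∀ i ≤ k, 0 < β i) (hβs : ∀ i < k, β i = β (i + 1) - m i * (t (i + 1) - t i))
    (hlow : ∀ z, z ^ 2 / (2 * β k) + c0 - err κ 0 (β k) z ≤ f z) {j : ℕ} (hj : j ≤ k) (y : ℝ) :
    y ^ 2 / (2 * β (k - j)) + (c0 + ∑ i ∈ Finset.Ico (k - j) k, ell t m β i) -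
      err κ (∑ i ∈ Finset.Ico (k - j) k, (t (i + 1) - t i) / (β i * β (i + 1))) (β (k - j)) y ≤
      recV f t m k j y := by
  induction j generalizing y with
  | zero =>
    have h := hlow y
    simp only [Nat.sub_zero, Finset.Ico_self, Finset.sum_empty, add_zero]
    exact h
  | succ j ih =>
    have ih' := fun z => ih (by omega) z
    have hcb := recV_cb hf hK t m k hm j
    have hi : k - (j + 1) < k := by omega
    set i := k - (j + 1) with hidef
    have hi1 : k - j = i + 1 := by omega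
    have hi2 : k - 1 - j = i := by omega
    rw [hi1] at ih'
    rw [Finset.sum_eq_sum_Ico_succ_bot hi, Finset.sum_eq_sum_Ico_succ_bot hi]
    have hrec : recV f t m k (j + 1) = gaussOp (m i) (t (i + 1) - t i) (recV f t m k j) := by
      show gaussOp (m (k - 1 - j)) (t (k - j) - t (k - 1 - j)) (recV f t m k j) = _
      rw [hi1, hi2]
    rw [hrec]
    have hv : 0 ≤ t (i + 1) - t i := by have := ht i hi; linarith
    have hb' := hβ (i + 1) (by omega)
    have hb := hβ i (by omega)
    by_cases h0 : m i = 0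
    · have hbe : β i = β (i + 1) := by rw [hβs i hi, h0]; ring
      have h := step_zero hv hb' hcb.1 hcb.2 ih' y
      have hell : ell t m β i = (t (i + 1) - t i) / (2 * β (i + 1)) := by
        unfold ell; rw [if_pos h0]
      rw [h0, hell, hbe]
      refine le_trans (le_of_eq ?_) h
      have e1 : c0 + ((t (i + 1) - t i) / (2 * β (i + 1)) + ∑ k ∈ Finset.Ico (i + 1) k, ell t m β k) =
        c0 + ∑ i ∈ Finset.Ico (i + 1) k, ell t m β i + (t (i + 1) - t i) / (2 * β (i + 1)) := by ring
      have e2 : (t (i + 1) - t i) / (β (i + 1) * β (i + 1)) +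
          ∑ k ∈ Finset.Ico (i + 1) k, (t (k + 1) - t k) / (β k * β (k + 1)) =
          ∑ k ∈ Finset.Ico (i + 1) k, (t (k + 1) - t k) / (β k * β (k + 1)) +
          (t (i + 1) - t i) / (β (i + 1) * β (i + 1)) := by ring
      rw [e1, e2]
    · have hmi : 0 < m i := lt_of_le_of_ne (hm i) (Ne.symm h0)
      have h := step_pos hmi hv hb (hβs i hi) hcb.1 hcb.2 ih' y
      have hell : ell t m β i = 1 / (2 * m i) * Real.log (β (i + 1) / β i) := by
        unfold ell; rw [if_neg h0]
      rw [hell]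
      refine le_trans (le_of_eq ?_) h
      have e1 : c0 + (1 / (2 * m i) * Real.log (β (i + 1) / β i) +
          ∑ k ∈ Finset.Ico (i + 1) k, ell t m β k) =
        c0 + ∑ i ∈ Finset.Ico (i + 1) k, ell t m β i + 1 / (2 * m i) * Real.log (β (i + 1) / β i) := by
        ring
      have e2 : (t (i + 1) - t i) / (β i * β (i + 1)) +
          ∑ k ∈ Finset.Ico (i + 1) k, (t (k + 1) - t k) / (β k * β (k + 1)) =
          ∑ k ∈ Finset.Ico (i + 1) k, (t (k + 1) - t k) / (β k * β (k + 1)) +
          (t (i + 1) - t i) / (β i * β (i + 1)) := by ring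
      rw [e1, e2]

/-! ### The statement for the lower bound -/

/-- positions `0, T_0, ..., T_{J+1}` -/
def tT (T : ℕ → ℝ) (i : ℕ) : ℝ := if i = 0 then 0 else T (i - 1)

/-- the coefficients -/
def bB (J : ℕ) (P T : ℕ → ℝ) (i : ℕ) : ℝ :=
  if i = 0 then bT J P T 0 else if i ≤ J + 1 then bT J P T (i - 1) else 1 - QT J P T + T (J + 1)

/-- the truncation inequality -/
theorem trunc_le {B L : ℝ} (hB : 1 ≤ B) (hL : 0 < L) (z : ℝ) :
    z ^ 2 / (2 * B) + (-(1 / 2 * Real.log B)) - err (B ^ 2 / (16 * L)) 0 B z ≤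
      min (z ^ 2 / (2 * B) - 1 / 2 * Real.log B) L := by
  have hlog : 0 ≤ Real.log B := Real.log_nonneg hB
  have hB0 : 0 < B := by linarith
  have herr : err (B ^ 2 / (16 * L)) 0 B z = (z ^ 2 / (2 * B)) ^ 2 / (4 * L) := by
    unfold err; field_simp; ring
  rw [herr]
  set w := z ^ 2 / (2 * B) with hw
  have h1 : 0 ≤ w ^ 2 / (4 * L) := by positivity
  have h2 : w - L ≤ w ^ 2 / (4 * L) := by
    rw [le_div_iff₀ (by positivity)]
    nlinarith [sq_nonneg (w - 2 * L)]
  apply le_min
  · linarith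
  · linarith

/-- **(L3), value.** -/
theorem value_ge {J : ℕ} {P T : ℕ → ℝ} {Tm L ε K : ℝ} (h : PT J P T Tm) (h1 : T J ≤ T (J + 1))
    (h2 : T (J + 1) ≤ Tm) (hL : 0 < L) {f : ℝ → ℝ} (hf : Continuous f) (hK : ∀ z, |f z| ≤ K)
    (hlow : ∀ z, min (z ^ 2 / (2 * (1 - QT J P T + T (J + 1))) -
      1 / 2 * Real.log (1 - QT J P T + T (J + 1))) L - ε ≤ f z) :
    Theta J P T - 3 * (1 + Tm) ^ 2 * Tm ^ 2 / (16 * L) - ε ≤
      recV f (tT T) (fun j => (j : ℝ) / ((J : ℝ) + 1)) (J + 2) (J + 2) 0 := by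
  have hJ : (0 : ℝ) < (J : ℝ) + 1 := by positivity
  have hTm := h.Tm_nonneg
  set B := 1 - QT J P T + T (J + 1) with hB
  have hbJ := bT_J (J := J) (P := P) (T := T)
  have hB1 : 1 ≤ B := by
    have := h.one_le_bT (le_refl J)
    rw [hbJ] at this
    linarith
  have hB2 : B ≤ 1 + Tm := by
    have := h.QT_nonneg
    rw [hB]; linarith
  set m : ℕ → ℝ := fun j => (j : ℝ) / ((J : ℝ) + 1) with hm
  have hm0 : ∀ i, 0 ≤ m i := fun i => by simp only [hm]; positivity
  have ht : ∀ i < J + 2, tT T i ≤ tT T (i + 1) := by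
    intro i hi
    unfold tT
    rcases Nat.eq_zero_or_pos i with rfl | hi0
    · simp [h.T0]
    · rw [if_neg (by omega), if_neg (by omega)]
      simp only [Nat.add_sub_cancel]
      rcases Nat.lt_or_ge i (J + 1) with h3 | h3
      · exact h.Tmono (i - 1) i (by omega) (by omega)
      · have : i = J + 1 := by omega
        subst this
        simpa using h1
  have hβ1 : ∀ i ≤ J + 2, 1 ≤ bB J P T i := by
    intro i hi
    unfold bB
    split_ifs with h3 h4
    · exact h.one_le_bT (by omega)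
    · exact h.one_le_bT (by omega)
    · exact hB1
  have hβ : ∀ i ≤ J + 2, 0 < bB J P T i := fun i hi => by have := hβ1 i hi; linarith
  have hβs : ∀ i < J + 2, bB J P T i = bB J P T (i + 1) - m i * (tT T (i + 1) - tT T i) := by
    intro i hi
    rcases Nat.eq_zero_or_pos i with rfl | hi0
    · simp [bB, hm]
    · have e1 : tT T (i + 1) = T i := by simp [tT]
      have e2 : tT T i = T (i - 1) := by unfold tT; rw [if_neg (by omega)]
      rw [e1, e2]
      rcases Nat.lt_or_ge i (J + 1) with h3 | h3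
      · have e3 : bB J P T i = bT J P T (i - 1) := by
          unfold bB; rw [if_neg (by omega), if_pos (by omega)]
        have e4 : bB J P T (i + 1) = bT J P T i := by
          unfold bB; rw [if_neg (by omega), if_pos (by omega)]; simp
        rw [e3, e4]
        exact bT_step hi0 (by omega)
      · have : i = J + 1 := by omega
        subst this
        have e3 : bB J P T (J + 1) = bT J P T J := by
          unfold bB; rw [if_neg (by omega), if_pos (by omega)]; simp
        have e4 : bB J P T (J + 1 + 1) = B := by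
          unfold bB; rw [if_neg (by omega), if_neg (by omega)]
        rw [e3, e4, hbJ]
        simp only [hm, Nat.add_sub_cancel]
        push_cast
        rw [div_self hJ.ne', hB]
        ring
  have hlow' : ∀ z, z ^ 2 / (2 * bB J P T (J + 2)) + (-(1 / 2 * Real.log B) - ε) -
      err (B ^ 2 / (16 * L)) 0 (bB J P T (J + 2)) z ≤ f z := by
    intro z
    have e4 : bB J P T (J + 2) = B := by
      unfold bB; rw [if_neg (by omega), if_neg (by omega)]
    rw [e4]
    have h3 := trunc_le hB1 hL z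
    have h4 := hlow z
    linarith
  have key := recV_ge (k := J + 2) hf hK hm0 ht hβ hβs hlow' (le_refl (J + 2)) 0
  rw [Nat.sub_self] at key
  -- the constant
  have hc : -(1 / 2 * Real.log B) + ∑ i ∈ Finset.Ico 0 (J + 2), ell (tT T) m (bB J P T) i =
      Theta J P T := by
    rw [Finset.sum_Ico_succ_top (show 0 ≤ J + 1 by omega),
      Finset.sum_eq_sum_Ico_succ_bot (show 0 < J + 1 by omega)]
    have l0 : ell (tT T) m (bB J P T) 0 = T 0 / (2 * bT J P T 0) := by
      unfold ell
      rw [if_pos (by simp [hm])]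
      simp [tT, bB]
    have lJ : ell (tT T) m (bB J P T) (J + 1) = 1 / 2 * (Real.log B - Real.log (bT J P T J)) := by
      unfold ell
      have hm1 : m (J + 1) = 1 := by
        simp only [hm]; push_cast; exact div_self hJ.ne'
      rw [hm1, if_neg one_ne_zero]
      have e3 : bB J P T (J + 1) = bT J P T J := by
        unfold bB; rw [if_neg (by omega), if_pos (by omega)]; simp
      have e4 : bB J P T (J + 1 + 1) = B := by
        unfold bB; rw [if_neg (by omega), if_neg (by omega)]
      have hb0 : 0 < bT J P T J := by have := h.one_le_bT (le_refl J); linarith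
      rw [e3, e4, Real.log_div (by linarith) hb0.ne']
      ring
    have lm : ∑ i ∈ Finset.Ico (0 + 1) (J + 1), ell (tT T) m (bB J P T) i =
        1 / 2 * ∑ j ∈ Finset.Ico 1 (J + 1), (((J : ℝ) + 1) / j) *
          Real.log (bT J P T j / bT J P T (j - 1)) := by
      rw [Finset.mul_sum]
      apply Finset.sum_congr rfl
      intro j hj
      rw [Finset.mem_Ico] at hj
      have hj0 : (0 : ℝ) < j := by exact_mod_cast (show 0 < j by omega)
      unfold ell
      have hmj : m j ≠ 0 := by simp only [hm]; positivity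
      rw [if_neg hmj]
      have e3 : bB J P T j = bT J P T (j - 1) := by
        unfold bB; rw [if_neg (by omega), if_pos (by omega)]
      have e4 : bB J P T (j + 1) = bT J P T j := by
        unfold bB; rw [if_neg (by omega), if_pos (by omega)]; simp
      rw [e3, e4]
      simp only [hm]
      field_simp
    rw [l0, lJ, lm]
    unfold Theta
    have hb0 : 0 < bT J P T 0 := by have := h.one_le_bT (Nat.zero_le J); linarith
    field_simp
    ring
  -- the error
  have hS : ∑ i ∈ Finset.Ico 0 (J + 2), (tT T (i + 1) - tT T i) / (bB J P T i * bB J P T (i + 1)) ≤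
      Tm := by
    calc ∑ i ∈ Finset.Ico 0 (J + 2), (tT T (i + 1) - tT T i) / (bB J P T i * bB J P T (i + 1))
        ≤ ∑ i ∈ Finset.Ico 0 (J + 2), (tT T (i + 1) - tT T i) := by
          apply Finset.sum_le_sum
          intro i hi
          rw [Finset.mem_Ico] at hi
          have a1 := hβ1 i (by omega)
          have a2 := hβ1 (i + 1) (by omega)
          have a3 := ht i (by omega)
          apply div_le_self (by linarith)
          nlinarith
      _ = tT T (J + 2) - tT T 0 := by
          rw [← Finset.range_eq_Ico]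
          exact Finset.sum_range_sub (tT T) (J + 2)
      _ ≤ Tm := by simp [tT, h2]
  have hS0 : 0 ≤ ∑ i ∈ Finset.Ico 0 (J + 2),
      (tT T (i + 1) - tT T i) / (bB J P T i * bB J P T (i + 1)) := by
    apply Finset.sum_nonneg
    intro i hi
    rw [Finset.mem_Ico] at hi
    have a1 := hβ i (by omega)
    have a2 := hβ (i + 1) (by omega)
    have a3 := ht i (by omega)
    exact div_nonneg (by linarith) (by positivity)
  set S := ∑ i ∈ Finset.Ico 0 (J + 2),
      (tT T (i + 1) - tT T i) / (bB J P T i * bB J P T (i + 1)) with hSdef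
  have herr : err (B ^ 2 / (16 * L)) S (bB J P T 0) 0 ≤ 3 * (1 + Tm) ^ 2 * Tm ^ 2 / (16 * L) := by
    unfold err
    have e1 : B ^ 2 / (16 * L) * ((0 / bB J P T 0) ^ 4 + 6 * S * (0 / bB J P T 0) ^ 2 + 3 * S ^ 2) =
        3 * B ^ 2 * S ^ 2 / (16 * L) := by
      rw [zero_div]; ring
    rw [e1]
    apply div_le_div_of_nonneg_right _ (by positivity)
    have a1 : B ^ 2 ≤ (1 + Tm) ^ 2 := by nlinarith
    have a2 : S ^ 2 ≤ Tm ^ 2 := by nlinarith
    have a3 : B ^ 2 * S ^ 2 ≤ (1 + Tm) ^ 2 * Tm ^ 2 :=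
      mul_le_mul a1 a2 (sq_nonneg _) (sq_nonneg _)
    nlinarith
  have hfin : (0 : ℝ) ^ 2 / (2 * bB J P T 0) = 0 := by simp
  rw [hfin] at key
  linarith

end

end Crest.Agent.R146.L3Val_36
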