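import Crest.Agent.R146.S6L_988
import Crest.Agent.R146.L3Val_36

/-!
Row 146, S0206, lower bound, node VTRUNC (helper762), from helper36's `value_ge`.

* `ThT_eq_recV`  : `ThT J h T` as the recursion `recV` with positions `tT T`;
* `lam_unif`     : `Lam k d y ≥ y²/(2(1-d)) - log(1-d)/2 - ε` for `|y| ≤ Y`, `-D ≤ d ≤ 0`, `k ≥ k0`;
* `result`       : `S6L_988.VTRUNC`.
-/

set_option autoImplicit false

namespace Crest.Agent.R146.VTrunc_762

open Finset MeasureTheory ProbabilityTheory
open Crest.Agent.R141.Fact (ySk)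
open Crest.ProbabilityR.InvariantGlass (gaussOp)
open Crest.Agent.R146.S6Def_988 Crest.Agent.R146.S6L_988 Crest.Agent.R146.CavW_47
open Crest.Agent.R146.L2Alg_36 Crest.Agent.R146.L3Val_36 Crest.Agent.R146.Cav5_47

noncomputable section

/-! ### `ThT` as a recursion from the left -/

theorem recV_eq_rcT (J : ℕ) (h : ℝ → ℝ) (T : ℕ → ℝ) : ∀ n ≤ J + 1,
    recV h (tT T) (fun j => (j : ℝ) / ((J : ℝ) + 1)) (J + 2) n = rc (ySk J) (vT J T) h n := by
  intro n
  induction n with
  | zero => intro _; rfl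
  | succ n ih =>
    intro hn
    have hJn : n ≤ J := by omega
    unfold recV rc
    rw [ih (by omega)]
    have e1 : ((J + 2 - 1 - n : ℕ) : ℝ) / ((J : ℝ) + 1) = ySk J n := by
      unfold ySk
      rw [show J + 2 - 1 - n = J + 1 - n by omega, Nat.cast_sub (by omega)]
      push_cast
      rfl
    have e2 : tT T (J + 2 - n) - tT T (J + 2 - 1 - n) = vT J T n := by
      unfold tT vT
      rw [if_pos hJn, if_neg (show ¬ (J + 2 - n = 0) by omega),
        if_neg (show ¬ (J + 2 - 1 - n = 0) by omega)]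
      congr 2
      omega
    rw [e1, e2]

theorem ThT_eq_recV (J : ℕ) (h : ℝ → ℝ) (T : ℕ → ℝ) :
    ThT J h T = recV h (tT T) (fun j => (j : ℝ) / ((J : ℝ) + 1)) (J + 2) (J + 2) 0 := by
  unfold ThT
  rw [show J + 2 = (J + 1) + 1 from rfl]
  conv_rhs => unfold recV
  rw [recV_eq_rcT J h T (J + 1) le_rfl]
  have e1 : ((J + 1 + 1 - 1 - (J + 1) : ℕ) : ℝ) / ((J : ℝ) + 1) = 0 := by
    rw [show J + 1 + 1 - 1 - (J + 1) = 0 by omega]
    simp
  have e2 : tT T (J + 1 + 1 - (J + 1)) - tT T (J + 1 + 1 - 1 - (J + 1)) = vT J T (J + 1) := by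
    rw [show J + 1 + 1 - (J + 1) = 1 by omega, show J + 1 + 1 - 1 - (J + 1) = 0 by omega]
    unfold tT vT
    rw [if_neg (show ¬ (J + 1 ≤ J) by omega), if_neg one_ne_zero, if_pos rfl]
    simp
  rw [e1, e2]
  unfold gaussOp
  rw [if_pos rfl]
  simp

/-! ### The truncated Gaussian integral -/

/-- the integral inside `Lam` -/
def Ik (k d y : ℝ) : ℝ := ∫ t in (-k)..k, gaussianPDFReal 0 1 t * Real.exp (t * y + d * t ^ 2 / 2)

theorem cont_int (d y : ℝ) :
    Continuous (fun t : ℝ => gaussianPDFReal 0 1 t * Real.exp (t * y + d * t ^ 2 / 2)) := by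
  have : Continuous (gaussianPDFReal 0 1) := by
    unfold gaussianPDFReal
    fun_prop
  fun_prop

theorem Ik_pos {k : ℝ} (hk : 0 < k) (d y : ℝ) : 0 < Ik k d y := by
  unfold Ik
  apply intervalIntegral.intervalIntegral_pos_of_pos
  · exact (cont_int d y).intervalIntegrable _ _
  · intro t
    exact mul_pos (gaussianPDFReal_pos 0 1 t one_ne_zero) (Real.exp_pos _)
  · linarith

theorem Ik_cont (k d : ℝ) : Continuous (Ik k d) := by
  unfold Ik
  apply intervalIntegral.continuous_parametric_intervalIntegral_of_continuous'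
  have : Continuous (gaussianPDFReal 0 1) := by
    unfold gaussianPDFReal
    fun_prop
  fun_prop

theorem pdf_neg (t : ℝ) : gaussianPDFReal 0 1 (-t) = gaussianPDFReal 0 1 t := by
  unfold gaussianPDFReal
  simp

/-- symmetric form -/
theorem Ik_cosh (k d y : ℝ) : Ik k d y =
    ∫ t in (-k)..k, gaussianPDFReal 0 1 t * Real.exp (d * t ^ 2 / 2) * Real.cosh (t * y) := by
  have h1 : Ik k d y =
      ∫ t in (-k)..k, gaussianPDFReal 0 1 t * Real.exp (-(t * y) + d * t ^ 2 / 2) := by
    unfold Ik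
    have h := intervalIntegral.integral_comp_neg (a := -k) (b := k)
      (fun t : ℝ => gaussianPDFReal 0 1 t * Real.exp (t * y + d * t ^ 2 / 2))
    rw [neg_neg] at h
    rw [← h]
    apply intervalIntegral.integral_congr
    intro t _
    simp only [pdf_neg]
    congr 2
    ring
  have hc1 := (cont_int d y).intervalIntegrable (μ := volume) (-k) k
  have hc2 : IntervalIntegrable (fun t : ℝ => gaussianPDFReal 0 1 t *
      Real.exp (-(t * y) + d * t ^ 2 / 2)) volume (-k) k := by
    have := (cont_int d (-y)).intervalIntegrable (μ := volume) (-k) k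
    refine this.congr ?_
    intro t _
    simp only
    congr 2
    ring
  have h2 : Ik k d y + Ik k d y = 2 *
      ∫ t in (-k)..k, gaussianPDFReal 0 1 t * Real.exp (d * t ^ 2 / 2) * Real.cosh (t * y) := by
    nth_rewrite 2 [h1]
    unfold Ik
    rw [← intervalIntegral.integral_add hc1 hc2, ← intervalIntegral.integral_const_mul]
    apply intervalIntegral.integral_congr
    intro t _
    simp only
    rw [Real.exp_add, Real.exp_add, Real.cosh_eq]
    ring
  linarith

/-- monotonicity in `|y|` -/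
theorem Ik_mono {k : ℝ} (hk : 0 < k) (d : ℝ) {y z : ℝ} (h : |y| ≤ |z|) : Ik k d y ≤ Ik k d z := by
  rw [Ik_cosh, Ik_cosh]
  have hpdf : Continuous (gaussianPDFReal 0 1) := by
    unfold gaussianPDFReal
    fun_prop
  apply intervalIntegral.integral_mono_on (by linarith)
  · apply Continuous.intervalIntegrable
    fun_prop
  · apply Continuous.intervalIntegrable
    fun_prop
  · intro t _
    apply mul_le_mul_of_nonneg_left
    · rw [Real.cosh_le_cosh, abs_mul, abs_mul]
      exact mul_le_mul_of_nonneg_left h (abs_nonneg t)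
    · exact mul_nonneg (gaussianPDFReal_nonneg 0 1 t) (Real.exp_pos _).le

/-- as a Gaussian integral -/
theorem Ik_gauss {k : ℝ} (hk : 0 < k) (d y : ℝ) : Ik k d y =
    ∫ t in Set.Ioc (-k) k, Real.exp (t * y + d * t ^ 2 / 2) ∂(gaussianReal 0 1) := by
  unfold Ik
  rw [intervalIntegral.integral_of_le (by linarith), gaussianReal_of_var_ne_zero 0 one_ne_zero]
  rw [restrict_withDensity measurableSet_Ioc]
  unfold gaussianPDF
  rw [integral_withDensity_eq_integral_toReal_smul]
  · apply integral_congr_ae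
    filter_upwards with t
    simp only [smul_eq_mul]
    rw [ENNReal.toReal_ofReal (gaussianPDFReal_nonneg 0 1 t)]
  · exact (measurable_gaussianPDFReal 0 1).ennreal_ofReal
  · filter_upwards with t
    exact ENNReal.ofReal_lt_top

theorem exp_int (u : ℝ) : Integrable (fun t : ℝ => Real.exp (t * u)) (gaussianReal 0 1) := by
  have := integrable_exp_mul_gaussianReal (μ := 0) (v := 1) u
  refine this.congr ?_
  filter_upwards with t
  rw [mul_comm]

theorem exp_val (u : ℝ) : ∫ t, Real.exp (t * u) ∂(gaussianReal 0 1) = Real.exp (u ^ 2 / 2) := by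
  have h := congrFun (mgf_id_gaussianReal (μ := 0) (v := 1)) u
  unfold mgf at h
  simp only [id, NNReal.coe_one, zero_mul, one_mul, zero_add] at h
  rw [← h]
  congr 1
  funext t
  rw [mul_comm]

theorem full_int {d : ℝ} (hd : d ≤ 0) (y : ℝ) :
    Integrable (fun t : ℝ => Real.exp (t * y + d * t ^ 2 / 2)) (gaussianReal 0 1) := by
  refine Integrable.mono' (exp_int y) (by fun_prop) (Filter.Eventually.of_forall fun t => ?_)
  rw [Real.norm_eq_abs, abs_of_pos (Real.exp_pos _)]
  apply Real.exp_le_exp.mpr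
  nlinarith [sq_nonneg t]

theorem full_val {d : ℝ} (hd : d ≤ 0) (y : ℝ) :
    ∫ t, Real.exp (t * y + d * t ^ 2 / 2) ∂(gaussianReal 0 1) =
      (Real.sqrt (1 - d))⁻¹ * Real.exp (y ^ 2 / (2 * (1 - d))) := by
  have hc : 0 < 1 - d := by linarith
  have h := tilt (a := d) (v := 1) (c2 := 1 - d) zero_le_one hc (by ring) 0
    (h := fun z => Real.exp (z * y)) (by fun_prop)
  simp only [Real.sqrt_one, zero_add, one_mul, zero_div] at h
  have e0 : d * (0:ℝ) ^ 2 / (2 * (1 - d)) = 0 := by simp
  rw [e0, Real.exp_zero, mul_one] at h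
  have e1 : ∫ g : ℝ, Real.exp (Real.sqrt (1 / (1 - d)) * g * y) ∂gaussianReal 0 1 =
      Real.exp (y ^ 2 / (2 * (1 - d))) := by
    have h2 := exp_val (Real.sqrt (1 / (1 - d)) * y)
    have e2 : (Real.sqrt (1 / (1 - d)) * y) ^ 2 / 2 = y ^ 2 / (2 * (1 - d)) := by
      rw [mul_pow, Real.sq_sqrt (by positivity)]
      field_simp
    rw [e2] at h2
    rw [← h2]
    congr 1
    funext t
    congr 1
    ring
  rw [e1] at h
  rw [← h]
  congr 1
  funext t
  rw [← Real.exp_add]
  congr 1
  ring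

/-- tail bound -/
theorem tail_le {k : ℝ} (hk : 0 < k) {d Y y : ℝ} (hd : d ≤ 0) (hy : |y| ≤ Y) :
    (Real.sqrt (1 - d))⁻¹ * Real.exp (y ^ 2 / (2 * (1 - d))) -
      2 * Real.exp (-k) * Real.exp ((Y + 1) ^ 2 / 2) ≤ Ik k d y := by
  rw [← full_val hd, Ik_gauss hk]
  have hi := full_int hd y
  have hsplit := integral_add_compl (s := Set.Ioc (-k) k) measurableSet_Ioc hi
  have htail : ∫ t in (Set.Ioc (-k) k)ᶜ, Real.exp (t * y + d * t ^ 2 / 2) ∂(gaussianReal 0 1) ≤
      2 * Real.exp (-k) * Real.exp ((Y + 1) ^ 2 / 2) := by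
    have i1 := exp_int (y + 1)
    have i2 := exp_int (y - 1)
    have hG : Integrable (fun t : ℝ => Real.exp (-k) * (Real.exp (t * (y + 1)) + Real.exp (t * (y - 1))))
        (gaussianReal 0 1) := (i1.add i2).const_mul _
    calc ∫ t in (Set.Ioc (-k) k)ᶜ, Real.exp (t * y + d * t ^ 2 / 2) ∂(gaussianReal 0 1)
        ≤ ∫ t in (Set.Ioc (-k) k)ᶜ, Real.exp (-k) * (Real.exp (t * (y + 1)) + Real.exp (t * (y - 1)))
            ∂(gaussianReal 0 1) := by
          apply setIntegral_mono_on hi.integrableOn hG.integrableOn measurableSet_Ioc.compl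
          intro t ht
          have h1 : Real.exp (t * y + d * t ^ 2 / 2) ≤ Real.exp (t * y) := by
            apply Real.exp_le_exp.mpr
            nlinarith [sq_nonneg t]
          refine h1.trans ?_
          rw [mul_add, ← Real.exp_add, ← Real.exp_add]
          rcases le_or_gt t (-k) with h | h
          · have : Real.exp (t * y) ≤ Real.exp (-k + t * (y - 1)) :=
              Real.exp_le_exp.mpr (by linarith)
            have := Real.exp_pos (-k + t * (y + 1))
            linarith
          · have h' : k < t := by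
              by_contra hcon
              exact ht ⟨h, not_lt.mp hcon⟩
            have : Real.exp (t * y) ≤ Real.exp (-k + t * (y + 1)) :=
              Real.exp_le_exp.mpr (by linarith)
            have := Real.exp_pos (-k + t * (y - 1))
            linarith
      _ ≤ ∫ t, Real.exp (-k) * (Real.exp (t * (y + 1)) + Real.exp (t * (y - 1)))
            ∂(gaussianReal 0 1) := by
          apply setIntegral_le_integral hG
          filter_upwards with t
          positivity
      _ = Real.exp (-k) * (Real.exp ((y + 1) ^ 2 / 2) + Real.exp ((y - 1) ^ 2 / 2)) := by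
          rw [integral_const_mul, integral_add i1 i2, exp_val, exp_val]
      _ ≤ Real.exp (-k) * (Real.exp ((Y + 1) ^ 2 / 2) + Real.exp ((Y + 1) ^ 2 / 2)) := by
          apply mul_le_mul_of_nonneg_left _ (Real.exp_pos _).le
          have a1 := abs_le.mp hy
          apply add_le_add
          · apply Real.exp_le_exp.mpr
            nlinarith
          · apply Real.exp_le_exp.mpr
            nlinarith
      _ = _ := by ring
  linarith

/-- **uniform lower bound of `Lam`.** -/
theorem lam_unif (D Y ε : ℝ) (hD : 0 ≤ D) (hY : 0 ≤ Y) (hε : 0 < ε) : ∃ k0 : ℝ, 0 < k0 ∧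
    ∀ d : ℝ, -D ≤ d → d ≤ 0 → ∀ y : ℝ, |y| ≤ Y →
    y ^ 2 / (2 * (1 - d)) - 1 / 2 * Real.log (1 - d) - ε ≤ Lam k0 d y := by
  -- choose k
  set m0 : ℝ := (Real.sqrt (1 + D))⁻¹ with hm0
  have hm0p : 0 < m0 := by positivity
  have he1 : 0 < 1 - Real.exp (-ε) := by
    have : Real.exp (-ε) < 1 := by rw [Real.exp_lt_one_iff]; linarith
    linarith
  set q : ℝ := (1 - Real.exp (-ε)) * m0 / (2 * Real.exp ((Y + 1) ^ 2 / 2)) with hq
  have hqp : 0 < q := by positivity
  refine ⟨max 1 (-Real.log q), by positivity, fun d hd1 hd2 y hy => ?_⟩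
  set k := max 1 (-Real.log q) with hk
  have hkp : 0 < k := lt_of_lt_of_le one_pos (le_max_left _ _)
  have hkq : Real.exp (-k) ≤ q := by
    have h1 : -k ≤ Real.log q := by
      have := le_max_right 1 (-Real.log q)
      linarith
    calc Real.exp (-k) ≤ Real.exp (Real.log q) := Real.exp_le_exp.mpr h1
      _ = q := Real.exp_log hqp
  have hc : 0 < 1 - d := by linarith
  set V := (Real.sqrt (1 - d))⁻¹ * Real.exp (y ^ 2 / (2 * (1 - d))) with hV
  have hVp : 0 < V := by
    have := Real.sqrt_pos.mpr hc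
    positivity
  have hVm : m0 ≤ V := by
    have h1 : m0 ≤ (Real.sqrt (1 - d))⁻¹ := by
      rw [hm0]
      apply inv_anti₀ (Real.sqrt_pos.mpr hc)
      exact Real.sqrt_le_sqrt (by linarith)
    have h2 : 1 ≤ Real.exp (y ^ 2 / (2 * (1 - d))) := Real.one_le_exp (by positivity)
    have h3 : 0 ≤ (Real.sqrt (1 - d))⁻¹ := by positivity
    calc m0 ≤ (Real.sqrt (1 - d))⁻¹ := h1
      _ ≤ V := le_mul_of_one_le_right h3 h2
  have htail := tail_le hkp hd2 hy
  have h4 : 2 * Real.exp (-k) * Real.exp ((Y + 1) ^ 2 / 2) ≤ (1 - Real.exp (-ε)) * V := by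
    calc 2 * Real.exp (-k) * Real.exp ((Y + 1) ^ 2 / 2)
        ≤ 2 * q * Real.exp ((Y + 1) ^ 2 / 2) := by gcongr
      _ = (1 - Real.exp (-ε)) * m0 := by rw [hq]; field_simp
      _ ≤ (1 - Real.exp (-ε)) * V := mul_le_mul_of_nonneg_left hVm he1.le
  have h5 : Real.exp (-ε) * V ≤ Ik k d y := by
    have : V - (1 - Real.exp (-ε)) * V = Real.exp (-ε) * V := by ring
    linarith
  have h6 := Real.log_le_log (by positivity) h5
  rw [Real.log_mul (Real.exp_pos _).ne' hVp.ne', Real.log_exp, hV,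
    Real.log_mul (inv_ne_zero (Real.sqrt_pos.mpr hc).ne') (Real.exp_pos _).ne', Real.log_exp,
    Real.log_inv, Real.log_sqrt hc.le] at h6
  show _ ≤ Real.log (Ik k d y)
  linarith

/-! ### The truncated function -/

theorem Lam_cont {k : ℝ} (hk : 0 < k) (d : ℝ) : Continuous (Lam k d) := by
  have h : Lam k d = fun y => Real.log (Ik k d y) := rfl
  rw [h]
  exact (Ik_cont k d).log fun y => (Ik_pos hk d y).ne'

theorem Lam_mono {k : ℝ} (hk : 0 < k) (d : ℝ) {y z : ℝ} (h : |y| ≤ |z|) : Lam k d y ≤ Lam k d z :=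
  Real.log_le_log (Ik_pos hk d y) (Ik_mono hk d h)

theorem LamT_cont {k : ℝ} (hk : 0 < k) (d L : ℝ) : Continuous (LamT k d L) := by
  have h : LamT k d L = fun y => min (Lam k d y) L := rfl
  rw [h]
  exact (Lam_cont hk d).min continuous_const

theorem LamT_bd {k : ℝ} (hk : 0 < k) (d : ℝ) {L : ℝ} (hL : 0 ≤ L) (y : ℝ) :
    |LamT k d L y| ≤ |Lam k d 0| + L := by
  have h1 : Lam k d 0 ≤ Lam k d y := Lam_mono hk d (by simp)
  have h2 : LamT k d L y ≤ L := min_le_right _ _
  have h3 : min (Lam k d 0) L ≤ LamT k d L y := min_le_min_right L h1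
  have h4 : -(|Lam k d 0| + L) ≤ min (Lam k d 0) L := by
    apply le_min
    · have := neg_abs_le (Lam k d 0); linarith
    · have := abs_nonneg (Lam k d 0); linarith
  rw [abs_le]
  have := abs_nonneg (Lam k d 0)
  constructor <;> linarith

/-- **VTRUNC** -/
theorem result : VTRUNC := by
  intro Tm ε hTm hε
  set L : ℝ := 3 * (1 + Tm) ^ 2 * Tm ^ 2 / (8 * ε) + 1 with hL
  have hL1 : 1 ≤ L := by
    have : 0 ≤ 3 * (1 + Tm) ^ 2 * Tm ^ 2 / (8 * ε) := by positivity
    linarith
  have hLp : 0 < L := by linarith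
  set Y : ℝ := Real.sqrt (2 * (1 + Tm) * (L + 1 / 2 * Real.log (1 + Tm))) with hY
  have hlogT : 0 ≤ Real.log (1 + Tm) := Real.log_nonneg (by linarith)
  have hYsq : Y ^ 2 = 2 * (1 + Tm) * (L + 1 / 2 * Real.log (1 + Tm)) :=
    Real.sq_sqrt (by positivity)
  have hY0 : 0 ≤ Y := Real.sqrt_nonneg _
  obtain ⟨k, hk, hlam⟩ := lam_unif Tm Y (ε / 2) hTm hY0 (by linarith)
  refine ⟨k, L, hk, hLp.le, fun J P T hP hT => ?_⟩
  have hPT : PT J P T Tm := ⟨hP, hT.nonneg, fun i j hij hj => hT.mono i j hij (by omega),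
    (hT.mono J (J + 1) (by omega) le_rfl).trans hT.le⟩
  set d := QT J P T - T (J + 1) with hd
  have hbJ := bT_J (J := J) (P := P) (T := T)
  have hTJ : T J ≤ T (J + 1) := hT.mono J (J + 1) (by omega) le_rfl
  have hd0 : d ≤ 0 := by
    have := hPT.one_le_bT (le_refl J)
    rw [hbJ] at this
    linarith
  have hd1 : -Tm ≤ d := by
    have := hPT.QT_nonneg
    have := hT.le
    linarith
  have hB : 1 - QT J P T + T (J + 1) = 1 - d := by rw [hd]; ring
  have key := value_ge (J := J) (P := P) (T := T) (Tm := Tm) (L := L) (ε := ε / 2)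
    (K := |Lam k d 0| + L) hPT hTJ hT.le hLp (f := LamT k d L) (LamT_cont hk d L)
    (LamT_bd hk d hLp.le) ?_
  · rw [ThT_eq_recV]
    have h1 : 3 * (1 + Tm) ^ 2 * Tm ^ 2 / (16 * L) ≤ ε / 2 := by
      rw [div_le_iff₀ (by positivity)]
      have h2 : 3 * (1 + Tm) ^ 2 * Tm ^ 2 = (L - 1) * (8 * ε) := by
        rw [hL]; field_simp; ring
      rw [h2]
      nlinarith
    linarith
  · intro z
    rw [hB]
    show _ ≤ min (Lam k d z) L
    rcases le_or_gt |z| Y with h | h
    · have h1 := hlam d hd1 hd0 z h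
      apply le_min
      · have := min_le_left (z ^ 2 / (2 * (1 - d)) - 1 / 2 * Real.log (1 - d)) L
        linarith
      · have := min_le_right (z ^ 2 / (2 * (1 - d)) - 1 / 2 * Real.log (1 - d)) L
        linarith
    · have h1 := hlam d hd1 hd0 Y (by rw [abs_of_nonneg hY0])
      have h2 : Lam k d Y ≤ Lam k d z := Lam_mono hk d (by rw [abs_of_nonneg hY0]; exact h.le)
      have h3 : L ≤ Y ^ 2 / (2 * (1 - d)) - 1 / 2 * Real.log (1 - d) := by
        have h4 : Real.log (1 - d) ≤ Real.log (1 + Tm) :=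
          Real.log_le_log (by linarith) (by linarith)
        have h5 : L + 1 / 2 * Real.log (1 + Tm) ≤ Y ^ 2 / (2 * (1 - d)) := by
          rw [le_div_iff₀ (by linarith), hYsq]
          have h6 : 0 ≤ L + 1 / 2 * Real.log (1 + Tm) := by positivity
          nlinarith
        linarith
      have h7 := min_le_right (z ^ 2 / (2 * (1 - d)) - 1 / 2 * Real.log (1 - d)) L
      apply le_min
      · linarith
      · linarith

end

end Crest.Agent.R146.VTrunc_762
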