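import Crest.Agent.R146.S6Col_674
import Crest.Agent.R146.S6Rel_290
import Crest.Agent.R146.RowFin_874
import Crest.Agent.R146.S6Fld_857
import Crest.Agent.R146.S6Thc_451
import Crest.Agent.R146.VTrunc_762
import Crest.Agent.R146.NewcE_857
import Crest.Agent.R146.CrudeF_663
import Crest.Agent.R146.S6Incl_53
import Crest.Agent.R146.S6Spc_311
import Crest.Agent.R146.S6Skadd_495
import Crest.Agent.R146.Fobs_998
import Crest.Agent.R146.S6Fcont_627

/-!
Row 146, S0206, lower bound: the nodes `COL`, `INCL`, `CRUDE` of `S6L_988` as unconditional theorems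
(helper988; glue only, proofs by helpers 674, 290, 874, 130, 143, 857, 451, 762, 36, 663, 649, 53,
311, 495).
-/

set_option autoImplicit false

namespace Crest.Agent.R146.S6LAll_988

open Crest.Agent.R146

theorem rel : S6L_988.REL := S6Rel_290.rel_of RowFin_874.ro S6Fld_857.fld

theorem tayc : S6L_988.TAYC := CrudeF_663.tayc_of_fld S6Fld_857.fld

theorem crude : S6L_988.CRUDE := CrudeF_663.crude_of_fld S6Fld_857.fld

theorem col : S6L_988.COL :=
  S6Col_674.col_of RowFin_874.ro rel VTrunc_762.result S6Thc_451.thc Newc857.newc tayc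

theorem incl : S6L_988.INCL := S6Incl_53.incl_open col S6Skadd_495.skadd S6Spc_311.spc

end Crest.Agent.R146.S6LAll_988
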