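import Crest.Agent.R146.Wrap_947
import Crest.Agent.R146.S6Lit_663
import Crest.Agent.R146.CtlG_130
import Crest.Agent.R146.MonB_911
import Crest.Agent.R146.S6UBF_167
import Crest.Agent.R146.LbBr_679
import Crest.Agent.R146.Inc1_947
import Crest.Agent.R146.S6LAll_988
import Crest.Agent.R146.Fin34_734
import Crest.Agent.R146.LocFinal_508

/-!
Row 146 (helper734): **S0206, S0204, S0203, unconditionally** (glue only; the nodes are theorems of
helpers 988, 674, 290, 874, 130, 143, 857, 451, 762, 36, 663, 649, 53, 311, 495, 947, 679, 47, 167,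
911, 422, 559, 52, 769, 382, 944, 409, 237, 508, 840, 878, 393, 468, 435, 323, ...).
-/

set_option autoImplicit false

namespace Crest.Agent.R146.S6Fin_734

open MeasureTheory ProbabilityTheory Filter Topology
open Crest.ProbabilityR.Perceptron
open Crest.Agent.R146

theorem lb : S6U_988.LB := LbBr_679.lb_of (Inc1_947.inc1_of S6LAll_988.incl S6LAll_988.crude)

theorem s0206 : Fin34_734.S0206Stmt :=
  Wrap_947.s0206_of S6Lit_663.LIT_holds S6Lit_663.CHG_holds S6Lit_663.SMOOTH_holds CtlG_130.vid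
    CtlG_130.vl CtlG_130.vc MonB_911.ent MonB_911.apx S6UBF_167.ub lb

theorem s0204 :
    ∃ αc : ℝ, 0 < αc ∧ ∃ ε₀ : ℝ, 0 < ε₀ ∧ ε₀ < 1 ∧
      ∀ ε : ℝ, 0 ≤ ε → ε < ε₀ → IsSharpThreshold ε αc :=
  Fin34_734.s0204 s0206 LocAsm_508.loccore

theorem s0203 :
    ∃ αc : ℝ, 0 < αc ∧
      (∀ α : ℝ, 0 < α → α < αc →
        Filter.Tendsto (fun N : ℕ => satProb N α) Filter.atTop (nhds 1)) ∧
      (∀ α : ℝ, αc < α →
        Filter.Tendsto (fun N : ℕ => satProb N α) Filter.atTop (nhds 0)) :=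
  Fin34_734.s0203 s0206 LocAsm_508.loccore

end Crest.Agent.R146.S6Fin_734
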