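import Crest.Agent.R146.Chk6_288
import Crest.Agent.R146.Expo_288
import Crest.Agent.R146.S6Fin_734
import Crest.Agent.R146.Bsw_649

/-!
Row 146 (helper288, PM-B): EDGE CHECK 3 (19:25Z). `S6` (S0206), `LOCCORE`, `EXPO` are theorems;
**S0205 needs only the tip theorem `TIPW W` (package PT)**, at one Brownian space `W`
(for example `Bsw_649.bsw`, whose paths are all continuous and start at `0`).
-/

set_option autoImplicit false

namespace Crest.Agent.R146.Chk7_288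

open MeasureTheory ProbabilityTheory Filter Crest.ProbabilityR.Perceptron
open Crest.Agent.R146.P34_734 Crest.Agent.R146.P5Def_12 Crest.Agent.R146.S0205Asm_12
open scoped Topology

theorem s6 (W : BS) : S6 W := Fin34_734.s6_of S6Fin_734.s0206 W

theorem eps (W : BS) : EPS W := Chk6_288.eps_s6 W (s6 W)

/-- S0205 (conclusion part) from `TIPW W` only -/
theorem s0205_tip (W : BS) (hTIP : TIPW W) (αc : ℝ) (hαc : 0 < αc)
    (hlow : ∀ α : ℝ, 0 < α → α < αc →
      Filter.Tendsto (fun N : ℕ => satProb N α) Filter.atTop (nhds 1))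
    (hhigh : ∀ α : ℝ, αc < α →
      Filter.Tendsto (fun N : ℕ => satProb N α) Filter.atTop (nhds 0)) :
    ∃ ε₀ : ℝ, 0 < ε₀ ∧ ε₀ < 1 ∧ ∃ G F : ℝ → ℝ,
      (∀ ε : ℝ, 0 ≤ ε → ε < ε₀ →
        (∀ u : ℝ, 0 < u → ∃ g : ℝ → ℝ,
          (∀ δ : ℝ, 0 < δ → δ < u →
            HasOrderedLimit (fun N β α => gapMean N β α ε δ u) αc (g δ)) ∧
          Filter.Tendsto g (nhdsWithin 0 (Set.Ioi 0)) (nhds (G u))) ∧
        (∀ s : ℝ, 0 < s → HasOrderedLimit (fun N β α => forceMean N β α ε s) αc (F s))) ∧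
      (∃ P : MeasureTheory.Measure ℝ, MeasureTheory.IsProbabilityMeasure P ∧
        P (Set.Iic 0) = 0 ∧ ∫ x, x ∂P = 1 ∧
        ∀ s : ℝ, 0 < s → F s = (P (Set.Iic s)).toReal) ∧
      ∃ γ θ : ℝ, γ = 1 / (2 + θ) ∧ 0.4126930 < γ ∧ γ < 0.4126934 ∧
        0.4231063 < θ ∧ θ < 0.4231088 ∧
        Filter.Tendsto (fun u : ℝ => Real.log (G u) / Real.log u)
          (nhdsWithin 0 (Set.Ioi 0)) (nhds (1 - γ)) ∧
        Filter.Tendsto (fun s : ℝ => Real.log (F s) / Real.log s)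
          (nhdsWithin 0 (Set.Ioi 0)) (nhds (1 + θ)) :=
  Chk6_288.s0205_s6 W (s6 W) hTIP (Expo_288.expo W) αc hαc hlow hhigh

end Crest.Agent.R146.Chk7_288
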