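import Crest.Agent.R146.LimRel_290
import Crest.Agent.R146.S6L_988

/-!
Row 146, node (L2IBP) of `S6L_988` (helper18): Gaussian integration by parts in the limit model,
glue of `LimIbp_290` / `LimRel_290` (helper290).
-/

set_option autoImplicit false

namespace Crest.Agent.R146.L2Ibp_18

open Finset MeasureTheory ProbabilityTheory
open Crest.Agent.R146.S6Def_988 Crest.Agent.R146.S6U_988 Crest.Agent.R146.RowDef_874
open Crest.Agent.R146.CavW_47 Crest.Agent.R146.L2Alg_36 Crest.Agent.R146.S6L_988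
open Crest.Agent.R146.LimIbp_290 Crest.Agent.R146.LimRel_290

noncomputable section

/-- a function with `|g x - g y| ≤ K |x - y|` is continuous. -/
theorem cont_of_lip {K : ℝ} {g : ℝ → ℝ} (h : ∀ x y, |g x - g y| ≤ K * |x - y|) :
    Continuous g := by
  have hK : ∀ x y, dist (g x) (g y) ≤ (Real.toNNReal K) * dist x y := by
    intro x y
    rw [Real.dist_eq, Real.dist_eq]
    refine (h x y).trans ?_
    exact mul_le_mul_of_nonneg_right (Real.le_coe_toNNReal K) (abs_nonneg _)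
  exact (LipschitzWith.of_dist_le_mul hK).continuous

theorem toS2 {K : ℝ} {f f1 f2 : ℝ → ℝ} (h : S3 K f f1 f2) : S2 f f1 f2 K :=
  ⟨h.d1, h.d2, cont_of_lip h.l2, h.b0, h.b1, h.b2⟩

variable {J : ℕ} {f f1 f2 : ℝ → ℝ} {P : ℕ → ℝ}

theorem kapX_mono' {C : ℝ} (h : S2 f f1 f2 C) {i j : ℕ} (hij : i ≤ j) (hj : j ≤ J + 1) :
    kapX J f P i f1 f1 ≤ kapX J f P j f1 f1 := by
  rw [kapX_tau, kapX_tau]
  induction j, hij using Nat.le_induction with
  | base => exact le_rfl
  | succ j _ ih => exact (ih (by omega)).trans (tau_succ h (by omega))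

theorem kapX_top (φ ψ : ℝ → ℝ) :
    kapX J f P (J + 1) φ ψ = EX J f P (J + 2) (fun x => φ x * ψ x) := by
  rw [kapX_eq, cX_self, cX_self]

theorem SX_top {C : ℝ} (h : S2 f f1 f2 C) :
    SX J f f1 f2 P = kapX J f P (J + 1) f2 (fun _ => 1) + kapX J f P (J + 1) f1 f1 := by
  rw [kapX_top, kapX_top]
  have e : (fun x => f2 x * (1 : ℝ)) = f2 := by funext x; ring
  rw [e, ← EX_add h le_rfl h.B2.eg (h.B1.eg.mul h.B1.eg)]
  show EX J f P (J + 2) (fun x => f2 x + f1 x ^ 2) = _
  congr 1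
  funext x
  ring

/-- **node (L2IBP)**. -/
theorem l2ibp : L2IBP := by
  intro K f f1 f2 h3 J P hP
  have h := toS2 h3
  refine ⟨⟨kapX_nonneg h (Nat.zero_le J), fun i j hij hj => kapX_mono' h hij hj, ?_⟩, ?_, ?_⟩
  · show kapX J f P (J + 1) f1 f1 ≤ K ^ 2
    rw [kapX_tau]
    exact tau_le h le_rfl
  · rw [kapX_top f1 (fun x => x)]
    have := kap_star (J := J) (P := P) h hP
    have e : EX J f P (J + 2) (fun x => f1 x * x) = cX J f P (J + 2) (fun x => f1 x * x) 0 0 := rfl
    rw [e, this, SX_top h, one_div]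
  · intro b hb
    rw [kapX_id h hP hb, sum_swap_b _ hb, SX_top h, one_div]
    ring

end

end Crest.Agent.R146.L2Ibp_18
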