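import Crest.Agent.R146.L3TayC_663

/-!
Row 146, S0206, lower bound, node TAYC of `S6L_988` (helper663):
`tayc_of : MOM → FLD → TAYC`.
-/

set_option autoImplicit false

namespace Crest.Agent.R146.L3Tay_663

open Finset MeasureTheory ProbabilityTheory Crest.Agent.R141
open Crest.Agent.R146.S6Def_988 Crest.Agent.R146.S6U_988 Crest.Agent.R146.S6L_988
open Crest.Agent.R146.FobL_998

noncomputable section

variable {N : ℕ} {C : Cfg N} {nc n M : ℕ}

theorem eE_integral {Ω : Type} [Fintype Ω] (P : Ω → ℝ) {Θ : Type*} [MeasurableSpace Θ]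
    (μ : Measure Θ) {e : Θ → Ω → ℝ} (he : ∀ ω, Integrable (fun θ => e θ ω) μ) :
    Integrable (fun θ => eE P (e θ)) μ ∧
    ∫ θ, eE P (e θ) ∂μ = eE P (fun ω => ∫ θ, e θ ω ∂μ) := by
  unfold eE
  refine ⟨integrable_finsetSum _ fun ω _ => (he ω).const_mul _, ?_⟩
  rw [integral_finsetSum _ fun ω _ => (he ω).const_mul _]
  exact Finset.sum_congr rfl fun ω _ => integral_const_mul _ _

/-- integration over the new column at fixed rows -/
theorem col_ge {K k L D d : ℝ} (hk : 0 < k) (hL : 0 ≤ L) (hD : 0 ≤ D) (hd : -D ≤ d)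
    {f f1 f2 : ℝ → ℝ} (h : S6L_988.S3 K f f1 f2) (hN : 0 < N) (hkN : k ^ 2 ≤ N)
    (G : Fin M → Fin N → ℝ) (s : Fin nc → ℝ) :
    (∫ g0, eE (QQ C nc n (fun _ => f) G s) (A (QQ C nc n (fun _ => f) G s) (fil C nc n) (xs nc n)
        (fun ω => LamT k d L (∑ a, Wv C nc n f1 G ω a * g0 a)) 0) ∂(gv M)) -
      Real.exp (2 * cV k L D) * eE (QQ C nc n (fun _ => f) G s) (RG k K f1 f2 d G s) ≤
    ∫ g0, eE (QQ C nc n (fun _ => f) G s) (A (QQ C nc n (fun _ => f) G s) (fil C nc n) (xs nc n)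
        (dV C nc n k f G g0 s) 0) ∂(gv M) := by
  have hK : 0 ≤ K := (abs_nonneg _).trans (h.b0 0)
  have hfc : Continuous f := continuous_iff_continuousAt.2 fun x => (h.d1 x).continuousAt
  have hf1c : Continuous f1 := continuous_iff_continuousAt.2 fun x => (h.d2 x).continuousAt
  have hQ := QQ_isProb (C := C) (nc := nc) (n := n) (fun _ => f) G s
  have hfm : ∀ _ : ℕ, Measurable f := fun _ => hfc.measurable
  have iV := (integrable_F (C := C) (nc := nc) (n := n) (M := M) (f := fun _ => f) hfm s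
    (V := fun G g0 ω => dV C nc n k f G g0 s ω) (meas_dV hk hfc s)
    (B := (2 * M * K + (1 + k ^ 2) / N * fB C nc n s) - Real.log (kap k))
    (fun G g0 ω => dV_abs hk h hN hkN G g0 s ω)).1 G
  have iL := (integrable_F (C := C) (nc := nc) (n := n) (M := M) (f := fun _ => f) hfm s
    (V := fun G g0 ω => LamT k d L (∑ a, Wv C nc n f1 G ω a * g0 a)) (meas_LamT hk d L hf1c)
    (B := cV k L D) (fun G g0 ω => LamT_abs hk hd hD hL _)).1 G
  obtain ⟨iE, eE1⟩ := eE_integral (QQ C nc n (fun _ => f) G s) (gv M)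
    (e := fun g0 ω => err k K f1 f2 d G g0 s ω)
    (fun ω => (int_err hK h.b2 hN d G s ω).1)
  have hpt : ∀ g0, eE (QQ C nc n (fun _ => f) G s) (A (QQ C nc n (fun _ => f) G s) (fil C nc n)
      (xs nc n) (fun ω => LamT k d L (∑ a, Wv C nc n f1 G ω a * g0 a)) 0) -
      Real.exp (2 * cV k L D) * eE (QQ C nc n (fun _ => f) G s) (err k K f1 f2 d G g0 s) ≤
      eE (QQ C nc n (fun _ => f) G s) (A (QQ C nc n (fun _ => f) G s) (fil C nc n) (xs nc n)
        (dV C nc n k f G g0 s) 0) := by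
    intro g0
    apply eE_A_ge hQ (fil_zero C nc n) (xs_isExpo nc n) (xs_isExpo nc n).pos
    · intro ω; exact LamT_abs hk hd hD hL _
    · intro ω; exact err_nonneg hK f1 f2 d G g0 s ω
    · intro ω
      have h1 := dV_ge hk h hN hkN d G g0 s ω
      have h2 : LamT k d L (∑ a, Wv C nc n f1 G ω a * g0 a) ≤
          Lam k d (∑ a, Wv C nc n f1 G ω a * g0 a) := min_le_left _ _
      linarith
  have iS : Integrable (fun g0 => eE (QQ C nc n (fun _ => f) G s)
      (A (QQ C nc n (fun _ => f) G s) (fil C nc n)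
      (xs nc n) (fun ω => LamT k d L (∑ a, Wv C nc n f1 G ω a * g0 a)) 0) -
      Real.exp (2 * cV k L D) * eE (QQ C nc n (fun _ => f) G s) (err k K f1 f2 d G g0 s))
      (gv M) := iL.sub (iE.const_mul (Real.exp (2 * cV k L D)))
  have h1 := integral_mono (μ := gv M) iS iV hpt
  rw [integral_sub iL (iE.const_mul _), integral_const_mul] at h1
  have h2 : ∫ g0, eE (QQ C nc n (fun _ => f) G s) (err k K f1 f2 d G g0 s) ∂(gv M) ≤
      eE (QQ C nc n (fun _ => f) G s) (RG k K f1 f2 d G s) := by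
    refine (le_of_eq eE1).trans (eE_mono hQ fun ω => ?_)
    exact (int_err hK h.b2 hN d G s ω).2
  have h3 := mul_le_mul_of_nonneg_left h2 (Real.exp_pos (2 * cV k L D)).le
  linarith

/-- the field part -/
theorem eE_field_le {f : ℕ → ℝ → ℝ} (G : Fin M → Fin N → ℝ) {s : Fin nc → ℝ} {A CF : ℝ}
    (hs : ∀ g, |s g| ≤ A)
    (hF : ∀ g : Fin nc, eE (QQ C nc n f G s) (fun ω => ∑ i, zf ω.2 g i ^ 2) ≤ CF * N) :
    eE (QQ C nc n f G s) (fun ω => |fieldE s ω|) ≤ (nc : ℝ) * A * ((CF + 1) / 2) * N := by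
  have hQ := QQ_isProb (C := C) (nc := nc) (n := n) f G s
  have h1 : ∀ ω : Om C nc n, |fieldE s ω| ≤
      ∑ g : Fin nc, A * ((1 / 2) * (∑ i, zf ω.2 g i ^ 2) + N / 2) := by
    intro ω
    unfold fieldE
    refine (Finset.abs_sum_le_sum_abs _ _).trans (Finset.sum_le_sum fun g _ => ?_)
    rw [abs_mul]
    have hA : 0 ≤ A := (abs_nonneg _).trans (hs g)
    refine mul_le_mul (hs g) ?_ (abs_nonneg _) hA
    have hx := C.hx ω.1
    calc |∑ i, zf ω.2 g i * C.x ω.1 i| ≤ ∑ i, |zf ω.2 g i * C.x ω.1 i| :=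
          Finset.abs_sum_le_sum_abs _ _
      _ ≤ ∑ i, (1 / 2 * zf ω.2 g i ^ 2 + 1 / 2 * C.x ω.1 i ^ 2) := by
          refine Finset.sum_le_sum fun i _ => ?_
          rw [abs_mul, ← sq_abs (zf ω.2 g i), ← sq_abs (C.x ω.1 i)]
          nlinarith [sq_nonneg (|zf ω.2 g i| - |C.x ω.1 i|)]
      _ = (1 / 2) * (∑ i, zf ω.2 g i ^ 2) + N / 2 := by
          rw [Finset.sum_add_distrib, ← Finset.mul_sum, ← Finset.mul_sum, hx]; ring
  refine (eE_mono hQ h1).trans ?_
  rw [eE_sum]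
  calc ∑ g : Fin nc, eE (QQ C nc n f G s)
        (fun ω => A * ((1 / 2) * (∑ i, zf ω.2 g i ^ 2) + N / 2))
      ≤ ∑ _g : Fin nc, A * ((CF + 1) / 2) * N := by
        refine Finset.sum_le_sum fun g _ => ?_
        have hA : 0 ≤ A := (abs_nonneg _).trans (hs g)
        rw [eE_smul, eE_add, eE_smul, eE_const hQ]
        have := hF g
        have h3 : (1 / 2) * eE (QQ C nc n f G s) (fun ω => ∑ i, zf ω.2 g i ^ 2) + N / 2 ≤
            ((CF + 1) / 2) * N := by linarith
        calc A * ((1 / 2) * eE (QQ C nc n f G s) (fun ω => ∑ i, zf ω.2 g i ^ 2) + N / 2)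
            ≤ A * (((CF + 1) / 2) * N) := mul_le_mul_of_nonneg_left h3 hA
          _ = _ := by ring
    _ = _ := by rw [Finset.sum_const, card_univ, Fintype.card_fin, nsmul_eq_mul]; ring

theorem meas_QQ {f : ℕ → ℝ → ℝ} (hf : ∀ a, Measurable (f a)) (s : Fin nc → ℝ) (ω : Om C nc n) :
    Measurable fun G : Fin M → Fin N → ℝ => QQ C nc n f G s ω := by
  unfold QQ
  apply meas_tl (prior_isProb C nc n) (xs_isExpo nc n).pos
  intro ω
  have := measurable_UU (C := C) (nc := nc) (n := n) (M := M) hf ω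
  exact this.comp (measurable_const.prodMk measurable_id)

/-- integrability of the deviation of the quadratic coefficient -/
theorem integrable_E2 (hMOM : MOM) {K : ℝ} {f f1 f2 : ℝ → ℝ} (h : S6L_988.S3 K f f1 f2)
    (hN : 0 < N) (hn : 0 < n) (s : Fin nc → ℝ) (d : ℝ) :
    Integrable (fun G : Fin M → Fin N → ℝ => eE (QQ C nc n (fun _ => f) G s)
      (fun ω => |E2 f1 f2 d G ω|)) (gam M N) := by
  have hK : 0 ≤ K := (abs_nonneg _).trans (h.b0 0)
  have hfc : Continuous f := continuous_iff_continuousAt.2 fun x => (h.d1 x).continuousAt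
  have hf1c : Continuous f1 := continuous_iff_continuousAt.2 fun x => (h.d2 x).continuousAt
  have hf2c : Continuous f2 := by
    have : LipschitzWith (Real.toNNReal K) f2 := by
      apply LipschitzWith.of_dist_le_mul
      intro a b
      rw [Real.dist_eq, Real.dist_eq, Real.coe_toNNReal _ hK]
      exact h.l2 a b
    exact this.continuous
  have hn0 : (0:ℝ) < N := by exact_mod_cast hN
  have hi : ∀ a : Fin M, Integrable (fun G : Fin M → Fin N → ℝ =>
      eE (QQ C nc n (fun _ => f) G s) (fun ω => |hh G a (C.x ω.1)|)) (gam M N) := fun a =>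
    (hMOM K N nc n hN hn C (fun _ => f) M s (fun _ => hfc.measurable) (fun _ => h.b0) a
      (fun x => |x|) (by fun_prop) (fun x => abs_nonneg x) (by
        have := integrable_pow_gauss 1
        simpa using this)).1
  have hbig : Integrable (fun G : Fin M → Fin N → ℝ =>
      (N:ℝ)⁻¹ * (∑ a : Fin M, (K + K * eE (QQ C nc n (fun _ => f) G s)
        (fun ω => |hh G a (C.x ω.1)|))) + |d|) (gam M N) :=
    ((integrable_finsetSum _ fun a _ => (integrable_const _).add
      ((hi a).const_mul _)).const_mul _).add (integrable_const _)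
  refine hbig.mono' ?_ ?_
  · apply Measurable.aestronglyMeasurable
    apply meas_eE (fun ω => meas_QQ (fun _ => hfc.measurable) s ω)
    intro ω
    unfold E2 RS
    have m1 : ∀ a : Fin M, Measurable fun G : Fin M → Fin N → ℝ => hh G a (C.x ω.1) :=
      fun a => meas_hh a _
    apply Measurable.comp measurable_abs
    refine Measurable.sub (Measurable.sub ?_ ?_) measurable_const
    · refine Measurable.const_mul (Finset.measurable_sum _ fun a _ => ?_) _
      exact (hf2c.measurable.comp (m1 a)).mul measurable_const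
    · refine Measurable.const_mul (Finset.measurable_sum _ fun a _ => ?_) _
      exact (hf1c.measurable.comp (m1 a)).mul (m1 a)
  · refine Filter.Eventually.of_forall fun G => ?_
    have hQ := QQ_isProb (C := C) (nc := nc) (n := n) (fun _ => f) G s
    rw [Real.norm_eq_abs, abs_of_nonneg (eE_nonneg hQ fun ω => abs_nonneg _)]
    have h1 : ∀ ω : Om C nc n, |E2 f1 f2 d G ω| ≤
        (N:ℝ)⁻¹ * (∑ a : Fin M, (K + K * |hh G a (C.x ω.1)|)) + |d| := by
      intro ω
      unfold E2 RS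
      refine (abs_sub _ _).trans (add_le_add ?_ le_rfl)
      rw [← mul_sub, ← Finset.sum_sub_distrib, abs_mul, abs_of_pos (inv_pos.2 hn0)]
      refine mul_le_mul_of_nonneg_left ?_ (inv_pos.2 hn0).le
      refine (Finset.abs_sum_le_sum_abs _ _).trans (Finset.sum_le_sum fun a _ => ?_)
      refine (abs_sub _ _).trans ?_
      rw [mul_one, abs_mul]
      exact add_le_add (h.b2 _) (mul_le_mul_of_nonneg_right (h.b1 _) (abs_nonneg _))
    refine (eE_mono hQ h1).trans (le_of_eq ?_)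
    rw [eE_add, eE_smul, eE_sum, eE_const hQ]
    congr 2
    refine Finset.sum_congr rfl fun a _ => ?_
    rw [eE_add, eE_const hQ, eE_smul]

/-- the integrated error -/
theorem int_RG (hMOM : MOM) {k K αp A CF : ℝ} {f f1 f2 : ℝ → ℝ} (h : S6L_988.S3 K f f1 f2)
    (hN : 0 < N) (hn : 0 < n) {s : Fin nc → ℝ} (d : ℝ) (hαp : (M : ℝ) ≤ αp * N)
    (hF : ∀ G : Fin M → Fin N → ℝ, eE (QQ C nc n (fun _ => f) G s) (fun ω => |fieldE s ω|) ≤
      (nc : ℝ) * A * ((CF + 1) / 2) * N) :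
    ∃ R' : (Fin M → Fin N → ℝ) → ℝ, Integrable R' (gam M N) ∧
      (∀ G, eE (QQ C nc n (fun _ => f) G s) (RG k K f1 f2 d G s) ≤ R' G) ∧
      ∫ G, R' G ∂(gam M N) ≤
        k ^ 2 / 2 * ∫ G, eE (QQ C nc n (M := M) (fun _ => f) G s) (fun ω => |E2 f1 f2 d G ω|)
          ∂(gam M N) + (1 + k ^ 2) * ((CF + 1) / 2) * ((nc : ℝ) * A) +
        (k ^ 2 / 2 * ((αp * K ^ 2 * c4 + 1) / 2) +
          12 * K * (max k 1) ^ 6 * (αp * (1 + Real.exp (4 * K) * c3 + c3))) / Real.sqrt N := by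
  have hK : 0 ≤ K := (abs_nonneg _).trans (h.b0 0)
  have hfc : Continuous f := continuous_iff_continuousAt.2 fun x => (h.d1 x).continuousAt
  have hn0 : (0:ℝ) < N := by exact_mod_cast hN
  have hsn : 0 < Real.sqrt N := Real.sqrt_pos.2 hn0
  have hs2 : Real.sqrt N ^ 2 = N := Real.sq_sqrt hn0.le
  have hM3 : ∀ a : Fin M, _ := fun a =>
    hMOM K N nc n hN hn C (fun _ => f) M s (fun _ => hfc.measurable) (fun _ => h.b0) a
      (fun x => |x| ^ 3) (by fun_prop) (fun x => by positivity) (integrable_pow_gauss 3)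
  have hE2 := integrable_E2 (C := C) (M := M) hMOM h hN hn s d
  set q3 : ℝ := 12 * K * (max k 1) ^ 6 * ((Real.sqrt N)⁻¹) ^ 3 with hq3
  have hT : (0:ℝ) ≤ max k 1 := le_trans zero_le_one (le_max_right _ _)
  have hq30 : 0 ≤ q3 := by rw [hq3]; positivity
  refine ⟨fun G => k ^ 2 / 2 * (((M : ℝ) * (K ^ 2) * c4 / N + 1) / (2 * Real.sqrt N)) +
    k ^ 2 / 2 * eE (QQ C nc n (fun _ => f) G s) (fun ω => |E2 f1 f2 d G ω|) +
    q3 * (∑ a : Fin M, (1 + eE (QQ C nc n (fun _ => f) G s) (fun ω => |hh G a (C.x ω.1)| ^ 3)) +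
      M * c3) + (1 + k ^ 2) * ((CF + 1) / 2) * ((nc : ℝ) * A), ?_, ?_, ?_⟩
  · refine Integrable.add (Integrable.add ((integrable_const _).add (hE2.const_mul _)) ?_)
      (integrable_const _)
    exact ((integrable_finsetSum _ fun a _ => (integrable_const _).add (hM3 a).1).add
      (integrable_const _)).const_mul _
  · intro G
    have hQ := QQ_isProb (C := C) (nc := nc) (n := n) (fun _ => f) G s
    unfold RG
    rw [eE_add, eE_add, eE_add, eE_const hQ, eE_smul, eE_smul, eE_smul, eE_add, eE_const hQ,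
      eE_sum]
    have e1 : ∑ a : Fin M, eE (QQ C nc n (fun _ => f) G s)
        (fun ω => 1 + |hh G a (C.x ω.1)| ^ 3) =
        ∑ a : Fin M, (1 + eE (QQ C nc n (fun _ => f) G s) (fun ω => |hh G a (C.x ω.1)| ^ 3)) :=
      Finset.sum_congr rfl fun a _ => by rw [eE_add, eE_const hQ]
    rw [e1]
    have h1 := mul_le_mul_of_nonneg_left (hF G) (by positivity : (0:ℝ) ≤ (1 + k ^ 2) / N)
    have h2 : (1 + k ^ 2) / N * ((nc : ℝ) * A * ((CF + 1) / 2) * N) =
        (1 + k ^ 2) * ((CF + 1) / 2) * ((nc : ℝ) * A) := by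
      field_simp
    rw [h2] at h1
    linarith
  · have i0 : Integrable (fun G : Fin M → Fin N → ℝ =>
        k ^ 2 / 2 * (((M : ℝ) * (K ^ 2) * c4 / N + 1) / (2 * Real.sqrt N)) +
        k ^ 2 / 2 * eE (QQ C nc n (fun _ => f) G s) (fun ω => |E2 f1 f2 d G ω|)) (gam M N) :=
      (integrable_const _).add (hE2.const_mul _)
    have i1a : ∀ a : Fin M, Integrable (fun G : Fin M → Fin N → ℝ =>
        1 + eE (QQ C nc n (fun _ => f) G s)
          (fun ω => |hh G a (C.x ω.1)| ^ 3)) (gam M N) :=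
      fun a => (integrable_const _).add (hM3 a).1
    have i1 : Integrable (fun G : Fin M → Fin N → ℝ =>
        ∑ a : Fin M, (1 + eE (QQ C nc n (fun _ => f) G s)
          (fun ω => |hh G a (C.x ω.1)| ^ 3))) (gam M N) :=
      integrable_finsetSum _ fun a _ => i1a a
    have i2 : Integrable (fun G : Fin M → Fin N → ℝ => q3 *
        (∑ a : Fin M, (1 + eE (QQ C nc n (fun _ => f) G s)
          (fun ω => |hh G a (C.x ω.1)| ^ 3)) + M * c3)) (gam M N) :=
      (i1.add (integrable_const _)).const_mul _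
    have i3 : Integrable (fun G : Fin M → Fin N → ℝ =>
        k ^ 2 / 2 * (((M : ℝ) * (K ^ 2) * c4 / N + 1) / (2 * Real.sqrt N)) +
        k ^ 2 / 2 * eE (QQ C nc n (fun _ => f) G s) (fun ω => |E2 f1 f2 d G ω|) + q3 *
        (∑ a : Fin M, (1 + eE (QQ C nc n (fun _ => f) G s)
          (fun ω => |hh G a (C.x ω.1)| ^ 3)) + M * c3)) (gam M N) := i0.add i2
    have t2 : ∫ G : Fin M → Fin N → ℝ, q3 *
        (∑ a : Fin M, (1 + eE (QQ C nc n (fun _ => f) G s)
          (fun ω => |hh G a (C.x ω.1)| ^ 3)) + M * c3) ∂(gam M N) =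
        q3 * (∑ a : Fin M, ∫ G : Fin M → Fin N → ℝ, (1 + eE (QQ C nc n (fun _ => f) G s)
        (fun ω => |hh G a (C.x ω.1)| ^ 3)) ∂(gam M N) + M * c3) := by
      rw [integral_const_mul, integral_add i1 (integrable_const _),
        integral_finsetSum _ fun a _ => i1a a]
      simp only [integral_const, probReal_univ, smul_eq_mul, one_mul]
    have t0 : ∫ G : Fin M → Fin N → ℝ,
        (k ^ 2 / 2 * (((M : ℝ) * (K ^ 2) * c4 / N + 1) / (2 * Real.sqrt N)) +
        k ^ 2 / 2 * eE (QQ C nc n (fun _ => f) G s) (fun ω => |E2 f1 f2 d G ω|)) ∂(gam M N) =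
        k ^ 2 / 2 * (((M : ℝ) * (K ^ 2) * c4 / N + 1) / (2 * Real.sqrt N)) +
        k ^ 2 / 2 * ∫ G, eE (QQ C nc n (M := M) (fun _ => f) G s) (fun ω => |E2 f1 f2 d G ω|)
          ∂(gam M N) := by
      rw [integral_add (integrable_const _) (hE2.const_mul _), integral_const_mul (k ^ 2 / 2)
        (fun G => eE (QQ C nc n (M := M) (fun _ => f) G s) (fun ω => |E2 f1 f2 d G ω|)),
        integral_const]
      simp only [probReal_univ, smul_eq_mul, one_mul]
    rw [integral_add i3 (integrable_const _), integral_add i0 i2, t0, t2, integral_const]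
    simp only [probReal_univ, smul_eq_mul, one_mul]
    have e2 : ∀ a : Fin M, ∫ G : Fin M → Fin N → ℝ, (1 + eE (QQ C nc n (fun _ => f) G s)
        (fun ω => |hh G a (C.x ω.1)| ^ 3)) ∂(gam M N) ≤ 1 + Real.exp (4 * K) * c3 := by
      intro a
      rw [integral_add (integrable_const _) (hM3 a).1]
      have := (hM3 a).2
      simp only [integral_const, probReal_univ, smul_eq_mul, one_mul]
      unfold c3
      linarith
    have e3 : ∑ a : Fin M, ∫ G : Fin M → Fin N → ℝ, (1 + eE (QQ C nc n (fun _ => f) G s)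
        (fun ω => |hh G a (C.x ω.1)| ^ 3)) ∂(gam M N) ≤ M * (1 + Real.exp (4 * K) * c3) := by
      refine (Finset.sum_le_sum fun a _ => e2 a).trans (le_of_eq ?_)
      rw [Finset.sum_const, card_univ, Fintype.card_fin, nsmul_eq_mul]
    have hc3 := c3_nonneg
    have hc4 := c4_nonneg
    -- row part
    have e4 : q3 * (∑ a : Fin M, ∫ G : Fin M → Fin N → ℝ, (1 + eE (QQ C nc n (fun _ => f) G s)
        (fun ω => |hh G a (C.x ω.1)| ^ 3)) ∂(gam M N) + M * c3) ≤
        12 * K * (max k 1) ^ 6 * (αp * (1 + Real.exp (4 * K) * c3 + c3)) / Real.sqrt N := by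
      calc q3 * (∑ a : Fin M, ∫ G : Fin M → Fin N → ℝ, (1 + eE (QQ C nc n (fun _ => f) G s)
            (fun ω => |hh G a (C.x ω.1)| ^ 3)) ∂(gam M N) + M * c3)
          ≤ q3 * (M * (1 + Real.exp (4 * K) * c3) + M * c3) := by gcongr
        _ = q3 * (M * (1 + Real.exp (4 * K) * c3 + c3)) := by ring
        _ ≤ q3 * ((αp * N) * (1 + Real.exp (4 * K) * c3 + c3)) := by
            apply mul_le_mul_of_nonneg_left _ hq30
            apply mul_le_mul_of_nonneg_right hαp
            positivity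
        _ = _ := by
            rw [hq3]
            have : ((Real.sqrt N)⁻¹) ^ 3 * (N:ℝ) = (Real.sqrt N)⁻¹ := by
              calc ((Real.sqrt N)⁻¹) ^ 3 * (N:ℝ) = ((Real.sqrt N)⁻¹) ^ 3 * (Real.sqrt N ^ 2) := by
                    rw [hs2]
                _ = (Real.sqrt N)⁻¹ := by field_simp
            calc 12 * K * max k 1 ^ 6 * ((Real.sqrt N)⁻¹) ^ 3 *
                  (αp * N * (1 + Real.exp (4 * K) * c3 + c3))
                = 12 * K * max k 1 ^ 6 * (αp * (1 + Real.exp (4 * K) * c3 + c3)) *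
                  (((Real.sqrt N)⁻¹) ^ 3 * (N:ℝ)) := by ring
              _ = _ := by rw [this]; ring
    have e5 : k ^ 2 / 2 * (((M : ℝ) * (K ^ 2) * c4 / N + 1) / (2 * Real.sqrt N)) ≤
        k ^ 2 / 2 * ((αp * K ^ 2 * c4 + 1) / 2) / Real.sqrt N := by
      have h1 : (M : ℝ) * (K ^ 2) * c4 / N ≤ αp * K ^ 2 * c4 := by
        rw [div_le_iff₀ hn0]
        have : 0 ≤ K ^ 2 * c4 := by positivity
        nlinarith
      have h2 : ((M : ℝ) * (K ^ 2) * c4 / N + 1) / (2 * Real.sqrt N) ≤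
          (αp * K ^ 2 * c4 + 1) / (2 * Real.sqrt N) := by gcongr
      calc k ^ 2 / 2 * (((M : ℝ) * (K ^ 2) * c4 / N + 1) / (2 * Real.sqrt N))
          ≤ k ^ 2 / 2 * ((αp * K ^ 2 * c4 + 1) / (2 * Real.sqrt N)) := by gcongr
        _ = _ := by field_simp
    have e6 := add_div (k ^ 2 / 2 * ((αp * K ^ 2 * c4 + 1) / 2))
      (12 * K * (max k 1) ^ 6 * (αp * (1 + Real.exp (4 * K) * c3 + c3))) (Real.sqrt N)
    rw [e6]
    linarith

/-- **(TAYC)** from (MOM) and (FLD). -/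
theorem tayc_of (hMOM : MOM) (hFLD : FLD) : TAYC := by
  intro αm K k L D hk hL hD
  obtain ⟨CF, hCF0, hCF⟩ := hFLD αm K
  set E : ℝ := Real.exp (2 * cV k L D) with hE
  have hE0 : 0 < E := Real.exp_pos _
  refine ⟨E * (k ^ 2 / 2 + (1 + k ^ 2) * ((CF + 1) / 2)), by positivity, ?_⟩
  intro ε hε
  set αp : ℝ := max αm 0 with hαp
  have hαp0 : 0 ≤ αp := le_max_right _ _
  set Q : ℝ := E * (k ^ 2 / 2 * ((αp * K ^ 2 * c4 + 1) / 2) +
    12 * |K| * (max k 1) ^ 6 * (αp * (1 + Real.exp (4 * |K|) * c3 + c3))) with hQdef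
  have hc3 := c3_nonneg
  have hc4 := c4_nonneg
  have hT : (0:ℝ) ≤ max k 1 := le_trans zero_le_one (le_max_right _ _)
  have hQ0 : 0 ≤ Q := by rw [hQdef]; positivity
  refine ⟨⌈k ^ 2⌉₊ + ⌈(Q / ε) ^ 2⌉₊ + 1, ?_⟩
  intro N hNN hN nc n hn C f f1 f2 h M A' s hM hs hA d hd1 hd2
  have hK : 0 ≤ K := (abs_nonneg _).trans (h.b0 0)
  have hKa : |K| = K := abs_of_nonneg hK
  have hfc : Continuous f := continuous_iff_continuousAt.2 fun x => (h.d1 x).continuousAt
  have hf1c : Continuous f1 := continuous_iff_continuousAt.2 fun x => (h.d2 x).continuousAt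
  have hn0 : (0:ℝ) < N := by exact_mod_cast hN
  have hsn : 0 < Real.sqrt N := Real.sqrt_pos.2 hn0
  have hcast : ((⌈k ^ 2⌉₊ + ⌈(Q / ε) ^ 2⌉₊ + 1 : ℕ) : ℝ) ≤ N := by exact_mod_cast hNN
  push_cast at hcast
  have hkN : k ^ 2 ≤ N := by
    have h1 := Nat.le_ceil (k ^ 2)
    have h2 : (0:ℝ) ≤ ⌈(Q / ε) ^ 2⌉₊ := by positivity
    linarith
  have hQN : Q / Real.sqrt N ≤ ε := by
    have h1 := Nat.le_ceil ((Q / ε) ^ 2)
    have h2 : (0:ℝ) ≤ ⌈k ^ 2⌉₊ := by positivity
    have h3 : (Q / ε) ^ 2 ≤ N := by linarith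
    have h4 : Q / ε ≤ Real.sqrt N := Real.le_sqrt_of_sq_le h3
    rw [div_le_iff₀ hsn]
    rw [div_le_iff₀ hε] at h4
    linarith
  have hMp : (M : ℝ) ≤ αp * N := hM.trans (by rw [hαp]; gcongr; exact le_max_left _ _)
  have hncA : 0 ≤ (nc : ℝ) * A' := by
    rcases Nat.eq_zero_or_pos nc with h0 | h0
    · rw [h0]; simp
    · have : 0 ≤ A' := (abs_nonneg _).trans (hs ⟨0, h0⟩)
      positivity
  have hF : ∀ G : Fin M → Fin N → ℝ, eE (QQ C nc n (fun _ => f) G s) (fun ω => |fieldE s ω|) ≤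
      (nc : ℝ) * A' * ((CF + 1) / 2) * N := fun G =>
    eE_field_le (f := fun _ => f) G hs fun g =>
      hCF N nc n hN hn C (fun _ => f) M G A' s hM (fun _ => h.b0) hs hA g
  obtain ⟨R', hR'i, hR'le, hR'int⟩ := int_RG (C := C) (M := M) (k := k) hMOM h hN hn d hMp hF
  have hcol : ∀ G : Fin M → Fin N → ℝ, _ := fun G =>
    col_ge (C := C) (nc := nc) (n := n) hk hL hD hd1 h hN hkN G s
  have iV := (integrable_F (C := C) (nc := nc) (n := n) (M := M) (f := fun _ => f)
    (fun _ => hfc.measurable) s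
    (V := fun G g0 ω => dV C nc n k f G g0 s ω) (meas_dV hk hfc s)
    (B := (2 * M * K + (1 + k ^ 2) / N * fB C nc n s) - Real.log (kap k))
    (fun G g0 ω => dV_abs hk h hN hkN G g0 s ω)).2
  have iL := (integrable_F (C := C) (nc := nc) (n := n) (M := M) (f := fun _ => f)
    (fun _ => hfc.measurable) s
    (V := fun G g0 ω => LamT k d L (∑ a, Wv C nc n f1 G ω a * g0 a)) (meas_LamT hk d L hf1c)
    (B := cV k L D) (fun G g0 ω => LamT_abs hk hd1 hD hL _)).2
  have hpt : ∀ G : Fin M → Fin N → ℝ, (∫ g0, eE (QQ C nc n (fun _ => f) G s)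
      (A (QQ C nc n (fun _ => f) G s) (fil C nc n) (xs nc n)
        (fun ω => LamT k d L (∑ a, Wv C nc n f1 G ω a * g0 a)) 0) ∂(gv M)) - E * R' G ≤
      ∫ g0, eE (QQ C nc n (fun _ => f) G s) (A (QQ C nc n (fun _ => f) G s) (fil C nc n)
        (xs nc n) (dV C nc n k f G g0 s) 0) ∂(gv M) := by
    intro G
    have h1 := hcol G
    have h2 := mul_le_mul_of_nonneg_left (hR'le G) hE0.le
    linarith
  have iS : Integrable (fun G : Fin M → Fin N → ℝ => (∫ g0, eE (QQ C nc n (fun _ => f) G s)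
      (A (QQ C nc n (fun _ => f) G s) (fil C nc n) (xs nc n)
        (fun ω => LamT k d L (∑ a, Wv C nc n f1 G ω a * g0 a)) 0) ∂(gv M)) - E * R' G)
      (gam M N) := iL.sub (hR'i.const_mul E)
  have hint := integral_mono (μ := gam M N) iS iV hpt
  rw [integral_sub iL (hR'i.const_mul E), integral_const_mul] at hint
  have h5 := mul_le_mul_of_nonneg_left hR'int hE0.le
  set X : ℝ := ∫ G, eE (QQ C nc n (M := M) (fun _ => f) G s) (fun ω => |E2 f1 f2 d G ω|)
    ∂(gam M N) with hX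
  have hX0 : 0 ≤ X := integral_nonneg fun G =>
    eE_nonneg (QQ_isProb (fun _ => f) G s) fun ω => abs_nonneg _
  have h6 : E * ((k ^ 2 / 2 * ((αp * K ^ 2 * c4 + 1) / 2) +
      12 * K * (max k 1) ^ 6 * (αp * (1 + Real.exp (4 * K) * c3 + c3))) / Real.sqrt N) ≤ ε := by
    have : E * ((k ^ 2 / 2 * ((αp * K ^ 2 * c4 + 1) / 2) +
      12 * K * (max k 1) ^ 6 * (αp * (1 + Real.exp (4 * K) * c3 + c3))) / Real.sqrt N) =
      Q / Real.sqrt N := by
      rw [hQdef, hKa]; ring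
    rw [this]; exact hQN
  have h7 : E * (k ^ 2 / 2 * X + (1 + k ^ 2) * ((CF + 1) / 2) * ((nc : ℝ) * A')) ≤
      E * (k ^ 2 / 2 + (1 + k ^ 2) * ((CF + 1) / 2)) * X +
      E * (k ^ 2 / 2 + (1 + k ^ 2) * ((CF + 1) / 2)) * ((nc : ℝ) * A') := by
    have a1 : 0 ≤ E * ((1 + k ^ 2) * ((CF + 1) / 2)) * X := by positivity
    have a2 : 0 ≤ E * (k ^ 2 / 2) * ((nc : ℝ) * A') := by positivity
    nlinarith
  have hXe : X = ∫ G, eE (QQ C nc n (M := M) (fun _ => f) G s)
      (fun ω => |RS C nc n f2 (fun _ => 1) G ω ω - RS C nc n f1 (fun x => x) G ω ω - d|)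
        ∂(gam M N) := rfl
  rw [← hXe]
  rw [mul_add, mul_add] at h5
  rw [mul_add] at h7
  linarith

end

end Crest.Agent.R146.L3Tay_663
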