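import Crest.Agent.R146.S6L_988
import Crest.Agent.R146.VTrunc_762
import Crest.Agent.R146.L2Ibp_18
import Crest.Agent.R146.CavAsm_769
import Crest.Agent.R146.Cav5_47
import Crest.Agent.R146.PLim_857

/-!
Row 146, S0206, lower bound, node COL (helper674): the new coordinate gives at least the entropy of
the levels, from `RO`, `REL`, `VTRUNC`, `THC`, `NEWC`, `TAYC` (and `L2IBP`, `L2Alg_36.main`,
`CavW_47.cav_W_one` from main).

The cavity limit is applied with a COARSE skeleton (`J1 + 1` steps, fixed), the row observables and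
the relations with the FINE skeleton (`J + 1 = (J1 + 1) r` steps, `r` large).
-/

set_option autoImplicit false

namespace Crest.Agent.R146.S6Col_674

open Finset MeasureTheory ProbabilityTheory Crest.Agent.R141
open Crest.Agent.R146.S6Def_988 Crest.Agent.R146.S6U_988 Crest.Agent.R146.S6L_988
open Crest.Agent.R146.RowDef_874 Crest.Agent.R146.CavW_47 Crest.Agent.R146.L2Alg_36

noncomputable section

/-! ### the truncated potential -/

theorem Lam_lip {k : ℝ} (hk : 0 < k) (d y z : ℝ) : |Lam k d y - Lam k d z| ≤ k * |y - z| := by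
  have key : ∀ y z : ℝ, Lam k d y ≤ Lam k d z + k * |y - z| := by
    intro y z
    have hy : 0 < ∫ t in (-k)..k, gaussianPDFReal 0 1 t * Real.exp (t * y + d * t ^ 2 / 2) :=
      VTrunc_762.Ik_pos hk d y
    have hz : 0 < ∫ t in (-k)..k, gaussianPDFReal 0 1 t * Real.exp (t * z + d * t ^ 2 / 2) :=
      VTrunc_762.Ik_pos hk d z
    have h1 : (∫ t in (-k)..k, gaussianPDFReal 0 1 t * Real.exp (t * y + d * t ^ 2 / 2)) ≤
        (∫ t in (-k)..k, gaussianPDFReal 0 1 t * Real.exp (t * z + d * t ^ 2 / 2)) *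
          Real.exp (k * |y - z|) := by
      rw [← intervalIntegral.integral_mul_const]
      refine intervalIntegral.integral_mono_on (by linarith)
        ((VTrunc_762.cont_int d y).intervalIntegrable _ _)
        (((VTrunc_762.cont_int d z).mul_const _).intervalIntegrable _ _) fun t ht => ?_
      rw [mul_assoc, ← Real.exp_add]
      refine mul_le_mul_of_nonneg_left (Real.exp_le_exp.2 ?_) (gaussianPDFReal_nonneg _ _ _)
      have ht' : |t| ≤ k := abs_le.2 ht
      have h2 : t * (y - z) ≤ k * |y - z| :=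
        (le_abs_self _).trans (by rw [abs_mul]; exact mul_le_mul_of_nonneg_right ht' (abs_nonneg _))
      linarith
    unfold Lam
    have h3 := Real.log_le_log hy h1
    rwa [Real.log_mul hz.ne' (Real.exp_pos _).ne', Real.log_exp] at h3
  rw [abs_le]
  constructor
  · have := key z y
    rw [abs_sub_comm z y] at this
    linarith
  · have := key y z
    linarith

theorem Lam0_bd {k : ℝ} (hk : 0 < k) {d D : ℝ} (hd : d ≤ 0) (hD : -D ≤ d) :
    |Lam k d 0| ≤ |Lam k 0 0| + D * k ^ 2 / 2 := by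
  have h0 : 0 < ∫ t in (-k)..k, gaussianPDFReal 0 1 t * Real.exp (t * 0 + 0 * t ^ 2 / 2) :=
    VTrunc_762.Ik_pos hk 0 0
  have hd0 : 0 < ∫ t in (-k)..k, gaussianPDFReal 0 1 t * Real.exp (t * 0 + d * t ^ 2 / 2) :=
    VTrunc_762.Ik_pos hk d 0
  have h1 : Lam k d 0 ≤ Lam k 0 0 := by
    unfold Lam
    refine Real.log_le_log hd0 (intervalIntegral.integral_mono_on (by linarith)
        ((VTrunc_762.cont_int d 0).intervalIntegrable _ _)
        ((VTrunc_762.cont_int 0 0).intervalIntegrable _ _) fun t _ => ?_)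
    refine mul_le_mul_of_nonneg_left (Real.exp_le_exp.2 ?_) (gaussianPDFReal_nonneg _ _ _)
    have := mul_nonneg (neg_nonneg.2 hd) (sq_nonneg t)
    linarith
  have h2 : Lam k 0 0 ≤ Lam k d 0 + D * k ^ 2 / 2 := by
    unfold Lam
    have h3 : (∫ t in (-k)..k, gaussianPDFReal 0 1 t * Real.exp (t * 0 + 0 * t ^ 2 / 2)) ≤
        (∫ t in (-k)..k, gaussianPDFReal 0 1 t * Real.exp (t * 0 + d * t ^ 2 / 2)) *
          Real.exp (D * k ^ 2 / 2) := by
      rw [← intervalIntegral.integral_mul_const]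
      refine intervalIntegral.integral_mono_on (by linarith)
        ((VTrunc_762.cont_int 0 0).intervalIntegrable _ _)
        (((VTrunc_762.cont_int d 0).mul_const _).intervalIntegrable _ _) fun t ht => ?_
      rw [mul_assoc, ← Real.exp_add]
      refine mul_le_mul_of_nonneg_left (Real.exp_le_exp.2 ?_) (gaussianPDFReal_nonneg _ _ _)
      have ht2 : t ^ 2 ≤ k ^ 2 := sq_le_sq' ht.1 ht.2
      have h4 : 0 ≤ (d + D) * t ^ 2 := mul_nonneg (by linarith) (sq_nonneg t)
      have h5 : D * t ^ 2 ≤ D * k ^ 2 := mul_le_mul_of_nonneg_left ht2 (by linarith)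
      nlinarith
    have h6 := Real.log_le_log h0 h3
    rwa [Real.log_mul hd0.ne' (Real.exp_pos _).ne', Real.log_exp] at h6
  have h3 : 0 ≤ D * k ^ 2 / 2 := by
    have : 0 ≤ D := by linarith
    positivity
  rw [abs_le]
  constructor
  · have := neg_abs_le (Lam k 0 0)
    linarith
  · have := le_abs_self (Lam k 0 0)
    linarith

theorem LamT_lip {k : ℝ} (hk : 0 < k) (d L y z : ℝ) :
    |LamT k d L y - LamT k d L z| ≤ k * |y - z| := by
  refine le_trans ?_ (Lam_lip hk d y z)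
  unfold LamT
  have h := abs_min_sub_min_le_max (Lam k d y) L (Lam k d z) L
  rw [sub_self, abs_zero, max_eq_left (abs_nonneg _)] at h
  exact h

theorem LamT_bl {k : ℝ} (hk : 0 < k) {d D L : ℝ} (hd : d ≤ 0) (hD : -D ≤ d) (hL : 0 ≤ L) :
    BL (|Lam k 0 0| + D * k ^ 2 / 2 + L) k (LamT k d L) :=
  ⟨fun y => (VTrunc_762.LamT_bd hk d hL y).trans (by linarith [Lam0_bd hk hd hD]),
    LamT_lip hk d L⟩

/-! ### regular functions -/

theorem lip_of_deriv {K : ℝ} {g g1 : ℝ → ℝ} (hd : ∀ x, HasDerivAt g (g1 x) x)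
    (hb : ∀ x, |g1 x| ≤ K) (x y : ℝ) : |g x - g y| ≤ K * |x - y| := by
  have h1 := Convex.norm_image_sub_le_of_norm_hasDerivWithin_le (f := g) (f' := g1) (C := K)
    (s := Set.univ) (x := y) (y := x) (fun z _ => (hd z).hasDerivWithinAt)
    (fun z _ => by rw [Real.norm_eq_abs]; exact hb z) convex_univ (Set.mem_univ _)
    (Set.mem_univ _)
  rwa [Real.norm_eq_abs, Real.norm_eq_abs] at h1

theorem meas_of_lip {K : ℝ} {g : ℝ → ℝ} (h : ∀ x y, |g x - g y| ≤ K * |x - y|) : Measurable g := by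
  have hc : Continuous g := by
    have hK : LipschitzWith (Real.toNNReal K) g := by
      refine LipschitzWith.of_dist_le_mul fun x y => ?_
      rw [Real.dist_eq, Real.dist_eq, Real.coe_toNNReal']
      exact (h x y).trans (mul_le_mul_of_nonneg_right (le_max_left _ _) (abs_nonneg _))
    exact hK.continuous
  exact hc.measurable

theorem eE_abs_le' {Ω : Type} [Fintype Ω] {P : Ω → ℝ} (hP : IsProb P) {f : Ω → ℝ} {c : ℝ}
    (h : ∀ a, |f a| ≤ c) : |eE P f| ≤ c := by
  have h1 : eE P f ≤ c := eE_le_of_le hP fun a => (abs_le.mp (h a)).2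
  have h2 : eE P (fun a => - f a) ≤ c := eE_le_of_le hP fun a => by
    have := (abs_le.mp (h a)).1; linarith
  have h3 : eE P (fun a => - f a) = - eE P f := by unfold eE; simp
  rw [h3] at h2
  exact abs_le.mpr ⟨by linarith, h1⟩

theorem int_lin {α : Type*} [MeasurableSpace α] {μ : Measure α} [IsProbabilityMeasure μ]
    {X : α → ℝ} (hX : Integrable X μ) (a D c : ℝ) :
    ∫ G, (a - D * X G - c) ∂μ = a - D * ∫ G, X G ∂μ - c := by
  have h : (fun G => a - D * X G - c) = fun G => (a - c) - D * X G := by funext G; ring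
  rw [h, integral_sub (integrable_const _) (hX.const_mul D), integral_const, integral_const_mul]
  simp only [probReal_univ, smul_eq_mul, one_mul]
  ring

/-! ### measurability and integrability in the rows -/

section rows

variable {N : ℕ} (C : Cfg N) (nc n : ℕ) {M : ℕ}

instance gam_prob (M N : ℕ) : IsProbabilityMeasure (gam M N) := by unfold gam; infer_instance

theorem meas_hh (a : Fin M) (x : Fin N → ℝ) :
    Measurable fun G : Fin M → Fin N → ℝ => hh G a x := by
  unfold hh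
  refine Finset.measurable_sum _ fun i _ => Measurable.mul_const ?_ _
  exact (measurable_pi_apply i).comp (measurable_pi_apply a)

theorem int_hh (a : Fin M) (x : Fin N → ℝ) :
    Integrable (fun G : Fin M → Fin N → ℝ => hh G a x) (gam M N) := by
  unfold hh
  refine integrable_finsetSum _ fun i _ => Integrable.mul_const ?_ _
  have h := (PLim857.integrable_abs_entry M N a i).1
  have hm : Measurable fun G : Fin M → Fin N → ℝ => G a i :=
    (measurable_pi_apply i).comp (measurable_pi_apply a)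
  exact (integrable_norm_iff hm.aestronglyMeasurable).1 h

theorem meas_RS {φ ψ : ℝ → ℝ} (hφ : Measurable φ) (hψ : Measurable ψ) (u v : Om C nc n) :
    Measurable fun G : Fin M → Fin N → ℝ => RS C nc n φ ψ G u v := by
  unfold RS
  refine Measurable.const_mul (Finset.measurable_sum _ fun a _ => ?_) _
  exact (hφ.comp (meas_hh a _)).mul (hψ.comp (meas_hh a _))

theorem int_RS {φ ψ : ℝ → ℝ} {B : ℝ} (hφ : Measurable φ) (hφB : ∀ x, |φ x| ≤ B)
    (hψ : Measurable ψ) (hψB : ∀ x, |ψ x| ≤ B + B * |x|) (u v : Om C nc n) :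
    Integrable (fun G : Fin M → Fin N → ℝ => RS C nc n φ ψ G u v) (gam M N) := by
  unfold RS
  refine Integrable.const_mul (integrable_finsetSum _ fun a _ => ?_) _
  have hψi : Integrable (fun G : Fin M → Fin N → ℝ => ψ (hh G a (C.x v.1))) (gam M N) := by
    have h1 : Integrable (fun G : Fin M → Fin N → ℝ => B + B * |hh G a (C.x v.1)|) (gam M N) :=
      (integrable_const B).add ((int_hh a (C.x v.1)).abs.const_mul B)
    refine h1.mono (hψ.comp (meas_hh a _)).aestronglyMeasurable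
      (Filter.Eventually.of_forall fun G => ?_)
    rw [Real.norm_eq_abs, Real.norm_eq_abs]
    exact (hψB _).trans (le_abs_self _)
  exact hψi.bdd_mul (hφ.comp (meas_hh a _)).aestronglyMeasurable
    (Filter.Eventually.of_forall fun G => by rw [Real.norm_eq_abs]; exact hφB _)

theorem QQ_le_one {f : ℕ → ℝ → ℝ} (G : Fin M → Fin N → ℝ) (s : Fin nc → ℝ) (ω : Om C nc n) :
    |QQ C nc n f G s ω| ≤ 1 := by
  have h := CavInc_769.QQ_isProb (C := C) (nc := nc) (n := n) f G s
  rw [abs_of_pos (h.pos ω), ← h.sum]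
  exact Finset.single_le_sum (f := QQ C nc n f G s) (fun w _ => (h.pos w).le) (Finset.mem_univ ω)

/-- the tilted mean of an integrable family is integrable. -/
theorem int_eE {f : ℕ → ℝ → ℝ} (hf : ∀ a, Measurable (f a)) (s : Fin nc → ℝ)
    {h : (Fin M → Fin N → ℝ) → Om C nc n → ℝ} (hi : ∀ ω, Integrable (fun G => h G ω) (gam M N)) :
    Integrable (fun G : Fin M → Fin N → ℝ => eE (QQ C nc n f G s) (h G)) (gam M N) := by
  unfold eE
  refine integrable_finsetSum _ fun ω _ => ?_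
  exact (hi ω).bdd_mul (CavInc_769.meas_QQ hf s ω).aestronglyMeasurable
    (Filter.Eventually.of_forall fun G => by rw [Real.norm_eq_abs]; exact QQ_le_one C nc n G s ω)

/-- the tilted pair mean of a bounded measurable family is integrable. -/
theorem int_pE {f : ℕ → ℝ → ℝ} (hf : ∀ a, Measurable (f a)) (s : Fin nc → ℝ)
    (r : Setoid (Om C nc n)) {h : (Fin M → Fin N → ℝ) → Om C nc n → Om C nc n → ℝ} {B : ℝ}
    (hm : ∀ u v, Measurable fun G => h G u v) (hB : ∀ G u v, |h G u v| ≤ B) :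
    Integrable (fun G : Fin M → Fin N → ℝ => pE (QQ C nc n f G s) r (h G)) (gam M N) := by
  have hmeas : Measurable fun G : Fin M → Fin N → ℝ => pE (QQ C nc n f G s) r (h G) := by
    unfold pE
    refine CavInc_769.meas_eE (fun ω => CavInc_769.meas_QQ hf s ω) fun u => ?_
    exact CavInc_769.meas_cE (fun ω => CavInc_769.meas_QQ hf s ω) (fun v => hm u v) r u
  refine Integrable.of_bound hmeas.aestronglyMeasurable B (Filter.Eventually.of_forall fun G => ?_)
  rw [Real.norm_eq_abs]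
  have hp := CavInc_769.QQ_isProb (C := C) (nc := nc) (n := n) f G s
  unfold pE
  exact eE_abs_le' hp fun u => abs_cE_le_of_le hp (fun v => hB G u v) u

/-! ### the cavity average -/

theorem RS_eq_Wv {f1 : ℝ → ℝ} (G : Fin M → Fin N → ℝ) (u v : Om C nc n) :
    ∑ a, Wv C nc n f1 G u a * Wv C nc n f1 G v a = RS C nc n f1 f1 G u v := by
  unfold Wv RS
  rw [Finset.mul_sum]
  refine Finset.sum_congr rfl fun a _ => ?_
  have h : (N : ℝ)⁻¹ = (Real.sqrt N)⁻¹ * (Real.sqrt N)⁻¹ := by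
    rw [← mul_inv, Real.mul_self_sqrt (Nat.cast_nonneg N)]
  rw [h, div_eq_mul_inv, div_eq_mul_inv]
  ring

theorem RS_abs_le (hN : 0 < N) {αm K : ℝ} {f1 : ℝ → ℝ} (hM : (M : ℝ) ≤ αm * N)
    (h1 : ∀ x, |f1 x| ≤ K) (G : Fin M → Fin N → ℝ) (u v : Om C nc n) :
    |RS C nc n f1 f1 G u v| ≤ αm * K ^ 2 := by
  have hN' : (0 : ℝ) < N := by exact_mod_cast hN
  have hK : 0 ≤ K := (abs_nonneg _).trans (h1 0)
  unfold RS
  rw [abs_mul, abs_of_nonneg (by positivity : (0 : ℝ) ≤ (N : ℝ)⁻¹), inv_mul_le_iff₀ hN']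
  have h2 : ∀ a ∈ (Finset.univ : Finset (Fin M)),
      |f1 (hh G a (C.x u.1)) * f1 (hh G a (C.x v.1))| ≤ K ^ 2 := fun a _ => by
    rw [abs_mul, sq]
    exact mul_le_mul (h1 _) (h1 _) (abs_nonneg _) hK
  refine (Finset.abs_sum_le_sum_abs _ _).trans ((Finset.sum_le_sum h2).trans ?_)
  rw [Finset.sum_const, Finset.card_univ, Fintype.card_fin, nsmul_eq_mul]
  have := mul_le_mul_of_nonneg_right hM (sq_nonneg K)
  linarith

theorem Wv_sq_le (hN : 0 < N) {αm K : ℝ} {f1 : ℝ → ℝ} (hM : (M : ℝ) ≤ αm * N)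
    (h1 : ∀ x, |f1 x| ≤ K) (G : Fin M → Fin N → ℝ) (u : Om C nc n) :
    ∑ a, Wv C nc n f1 G u a ^ 2 ≤ αm * K ^ 2 := by
  have h := RS_eq_Wv C nc n (f1 := f1) G u u
  have h2 : ∑ a, Wv C nc n f1 G u a ^ 2 = ∑ a, Wv C nc n f1 G u a * Wv C nc n f1 G u a :=
    Finset.sum_congr rfl fun a _ => sq _
  rw [h2, h]
  exact (le_abs_self _).trans (RS_abs_le C nc n hN hM h1 G u u)

/-- the cavity average at fixed rows -/
def XA (f : ℕ → ℝ → ℝ) (f1 h : ℝ → ℝ) (s : Fin nc → ℝ) (G : Fin M → Fin N → ℝ) : ℝ :=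
  ∫ g0, eE (QQ C nc n (M := M) f G s)
      (Crest.Agent.R141.A (QQ C nc n (M := M) f G s) (fil C nc n) (xs nc n)
        (fun ω => h (∑ a, Wv C nc n f1 G ω a * g0 a)) 0) ∂(gv M)

instance gv_prob (M : ℕ) : IsProbabilityMeasure (gv M) := by unfold gv; infer_instance

theorem int_XA {f : ℕ → ℝ → ℝ} (hf : ∀ a, Measurable (f a)) {f1 h : ℝ → ℝ} {c : ℝ}
    (hf1 : Measurable f1) (hh' : Measurable h) (hc : ∀ x, |h x| ≤ c) (s : Fin nc → ℝ) :
    Integrable (fun G : Fin M → Fin N → ℝ => XA C nc n f f1 h s G) (gam M N) := by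
  have hm : Measurable fun p : (Fin M → Fin N → ℝ) × (Fin M → ℝ) =>
      eE (QQ C nc n (M := M) f p.1 s)
      (Crest.Agent.R141.A (QQ C nc n (M := M) f p.1 s) (fil C nc n) (xs nc n)
        (fun ω => h (∑ a, Wv C nc n f1 p.1 ω a * p.2 a)) 0) := by
    have hQm : ∀ ω, Measurable fun p : (Fin M → Fin N → ℝ) × (Fin M → ℝ) =>
        QQ C nc n (M := M) f p.1 s ω := fun ω => (CavInc_769.meas_QQ hf s ω).comp measurable_fst
    have hU : ∀ ω : Om C nc n, Measurable fun p : (Fin M → Fin N → ℝ) × (Fin M → ℝ) =>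
        h (∑ a, Wv C nc n f1 p.1 ω a * p.2 a) := by
      intro ω
      refine hh'.comp (Finset.measurable_sum _ fun a _ => Measurable.mul ?_ ?_)
      · unfold Wv
        exact (hf1.comp ((meas_hh a _).comp measurable_fst)).div_const _
      · exact (measurable_pi_apply a).comp measurable_snd
    have hp : ∀ p : (Fin M → Fin N → ℝ) × (Fin M → ℝ), IsProb (QQ C nc n (M := M) f p.1 s) :=
      fun p => CavInc_769.QQ_isProb f p.1 s
    have hA := CavInc_769.meas_A (𝓕 := fil C nc n) hp (CavInc_769.xs_pos (nc := nc) (n := n))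
      hQm hU 0
    exact CavInc_769.meas_eE hQm hA
  have hb : ∀ (G : Fin M → Fin N → ℝ) (g0 : Fin M → ℝ), |eE (QQ C nc n (M := M) f G s)
      (Crest.Agent.R141.A (QQ C nc n (M := M) f G s) (fil C nc n) (xs nc n)
        (fun ω => h (∑ a, Wv C nc n f1 G ω a * g0 a)) 0)| ≤ c := fun G g0 =>
    eE_abs_le' (CavInc_769.QQ_isProb f G s) fun ω =>
      A_abs_le (CavInc_769.QQ_isProb f G s) (CavInc_769.xs_pos (nc := nc) (n := n))
        (fun ω => hc _) 0 ω
  refine Integrable.of_bound (C := c) ?_ (Filter.Eventually.of_forall fun G => ?_)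
  · exact (hm.stronglyMeasurable.integral_prod_right' (ν := gv M)).aestronglyMeasurable
  · unfold XA
    have h1 := norm_integral_le_of_norm_le_const (μ := gv M) (C := c)
      (Filter.Eventually.of_forall fun g0 => by
        rw [Real.norm_eq_abs]; exact hb G g0)
    simpa using h1

end rows

/-- **the coarse cavity average** along a fine skeleton. -/
theorem cav_avg (J1 : ℕ) {Tm c k ε : ℝ} (hTm : 0 ≤ Tm) (hc : 0 ≤ c) (hk : 0 ≤ k) (hε : 0 < ε) :
    ∃ D : ℝ, 0 ≤ D ∧ ∀ (N : ℕ), 0 < N → ∀ (C : Cfg N) (nc n : ℕ), 0 < n → ∀ (M : ℕ)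
      (f : ℕ → ℝ → ℝ), (∀ a, Measurable (f a)) → ∀ (f1 h : ℝ → ℝ) (αm K : ℝ), (M : ℝ) ≤ αm * N →
      Measurable f1 → (∀ x, |f1 x| ≤ K) → αm * K ^ 2 ≤ Tm → BL c k h → ∀ (s : Fin nc → ℝ)
      (r wc J : ℕ), 0 < r → 2 ≤ wc → nc + 1 = (J + 1) * wc → J + 1 = (J1 + 1) * r →
      ∀ τ : ℕ → ℕ, (∀ b ≤ J, st n (b * wc) ≤ τ b ∧ τ b < st n (b * wc + wc - 1)) →
      ∀ T : ℕ → ℝ, LevT J Tm T → ∀ e : ℝ,
      (∀ b ≤ J, ∫ G, pE (QQ C nc n (M := M) f G s) ((fil C nc n).F (τ b))
        (fun u v => |RS C nc n f1 f1 G u v - T b|) ∂(gam M N) ≤ e) →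
      (∫ G, eE (QQ C nc n (M := M) f G s) (fun u => |RS C nc n f1 f1 G u u - T (J + 1)|)
        ∂(gam M N) ≤ e) →
      ThT J1 h (fun b => if b ≤ J1 then T (b * r) else T (J + 1)) - ε -
        D * (((J1 : ℝ) + 2) * e) - 15 * c ^ 2 * Real.exp (4 * c) * (1 / ((J1 : ℝ) + 1)) ≤
        ∫ G, XA C nc n (M := M) f f1 h s G ∂(gam M N) := by
  obtain ⟨D, hD, hmain⟩ := cav_W_one J1 hTm hc (fun _ => k) (fun _ _ => hk) hε
  refine ⟨D, hD, ?_⟩
  intro N hN C nc n hn M f hf f1 h αm K hM hf1 hf1K hTm' hh s r wc J hr hwc hnc hJ τ hτ T hT e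
    hpair hleaf
  have hhm : Measurable h := meas_of_lip hh.lip
  set T' : ℕ → ℝ := fun b => if b ≤ J1 then T (b * r) else T (J + 1) with hT'
  have hbr : ∀ b ≤ J1, b * r ≤ J := by
    intro b hb
    have h1 : (b + 1) * r ≤ (J1 + 1) * r := Nat.mul_le_mul_right r (by omega)
    rw [add_mul, one_mul] at h1
    omega
  have hT'0 : ∀ b ≤ J1, T' b = T (b * r) := fun b hb => if_pos hb
  have hT'1 : T' (J1 + 1) = T (J + 1) := if_neg (by omega)
  have hLT : LevT J1 Tm T' := by
    refine ⟨?_, ?_, ?_⟩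
    · rw [hT'0 0 (Nat.zero_le _), Nat.zero_mul]
      exact hT.nonneg
    · intro i j hij hj
      rcases Nat.lt_or_ge J1 j with h1 | h1
      · obtain rfl : j = J1 + 1 := by omega
        rw [hT'1]
        rcases Nat.lt_or_ge J1 i with h2 | h2
        · obtain rfl : i = J1 + 1 := by omega
          rw [hT'1]
        · rw [hT'0 i h2]
          exact hT.mono _ _ ((hbr i h2).trans (Nat.le_succ J)) le_rfl
      · rw [hT'0 i (hij.trans h1), hT'0 j h1]
        exact hT.mono _ _ (Nat.mul_le_mul_right r hij) ((hbr j h1).trans (Nat.le_succ J))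
    · rw [hT'1]; exact hT.le
  have hrwc : wc ≤ r * wc := Nat.le_mul_of_pos_left wc hr
  have hlev := Cav5_47.levels_xs nc n (J := J1) (wc := r * wc) hn (hwc.trans hrwc)
    (by rw [hnc, hJ, mul_assoc]) (τ := fun b => τ (b * r)) (fun b hb => by
      have h1 := hτ (b * r) (hbr b hb)
      rw [← mul_assoc]
      refine ⟨h1.1, h1.2.trans_le (CavAsm_769.st_mono ?_)⟩
      omega)
  -- the deviation
  set DV : (Fin M → Fin N → ℝ) → ℝ := fun G =>
    DevW (QQ C nc n (M := M) f G s) (fil C nc n) J1 (fun j => τ (min j J1 * r))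
      (Wv C nc n f1 G) T' with hDV
  have hDVeq : ∀ G, DV G = eE (QQ C nc n (M := M) f G s)
      (fun u => |RS C nc n f1 f1 G u u - T (J + 1)|) +
      ∑ b ∈ range (J1 + 1), pE (QQ C nc n (M := M) f G s) ((fil C nc n).F (τ (b * r)))
        (fun u v => |RS C nc n f1 f1 G u v - T (b * r)|) := by
    intro G
    rw [hDV]
    unfold DevW
    beta_reduce
    congr 1
    · congr 1
      funext u
      rw [hT'1, ← RS_eq_Wv]
      congr 2
      exact Finset.sum_congr rfl fun a _ => sq _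
    · refine Finset.sum_congr rfl fun b hb => ?_
      rw [Finset.mem_range] at hb
      rw [min_eq_left (show b ≤ J1 by omega), hT'0 b (by omega)]
      simp_rw [RS_eq_Wv]
  have hBd : ∀ (T0 : ℝ), |T0| ≤ Tm → ∀ (G : Fin M → Fin N → ℝ) (u v : Om C nc n),
      |(|RS C nc n f1 f1 G u v - T0|)| ≤ 2 * Tm := by
    intro T0 hT0 G u v
    rw [abs_abs]
    refine (abs_sub _ _).trans ?_
    have := RS_abs_le C nc n hN hM hf1K G u v
    linarith
  have hTb : ∀ b ≤ J + 1, |T b| ≤ Tm := by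
    intro b hb
    rw [abs_of_nonneg (hT.nonneg' hb)]
    exact (hT.mono b (J + 1) hb le_rfl).trans hT.le
  have hmeasA : ∀ (T0 : ℝ) (u v : Om C nc n), Measurable fun G : Fin M → Fin N → ℝ =>
      |RS C nc n f1 f1 G u v - T0| := fun T0 u v =>
    ((meas_RS C nc n hf1 hf1 u v).sub_const T0).abs
  have hi1 : Integrable (fun G : Fin M → Fin N → ℝ => eE (QQ C nc n (M := M) f G s)
      (fun u => |RS C nc n f1 f1 G u u - T (J + 1)|)) (gam M N) := by
    refine int_eE C nc n hf s fun u => ?_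
    exact Integrable.of_bound (hmeasA _ u u).aestronglyMeasurable (2 * Tm)
      (Filter.Eventually.of_forall fun G => by
        rw [Real.norm_eq_abs]; exact hBd _ (hTb _ le_rfl) G u u)
  have hi2 : ∀ b ∈ range (J1 + 1), Integrable (fun G : Fin M → Fin N → ℝ =>
      pE (QQ C nc n (M := M) f G s) ((fil C nc n).F (τ (b * r)))
        (fun u v => |RS C nc n f1 f1 G u v - T (b * r)|)) (gam M N) := by
    intro b hb
    rw [Finset.mem_range] at hb
    exact int_pE C nc n hf s _ (hmeasA _) (hBd _ (hTb _ ((hbr b (by omega)).trans (Nat.le_succ J))))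
  have hDVi : Integrable DV (gam M N) := by
    have h1 := hi1.add (integrable_finsetSum _ hi2)
    refine h1.congr (Filter.Eventually.of_forall fun G => ?_)
    rw [hDVeq G]
    rfl
  have hDVle : ∫ G, DV G ∂(gam M N) ≤ ((J1 : ℝ) + 2) * e := by
    have h1 : ∫ G, DV G ∂(gam M N) = ∫ G, eE (QQ C nc n (M := M) f G s)
        (fun u => |RS C nc n f1 f1 G u u - T (J + 1)|) ∂(gam M N) +
        ∑ b ∈ range (J1 + 1), ∫ G, pE (QQ C nc n (M := M) f G s) ((fil C nc n).F (τ (b * r)))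
        (fun u v => |RS C nc n f1 f1 G u v - T (b * r)|) ∂(gam M N) := by
      rw [← integral_finsetSum _ hi2, ← integral_add hi1 (integrable_finsetSum _ hi2)]
      exact integral_congr_ae (Filter.Eventually.of_forall hDVeq)
    rw [h1]
    have h2 : ∑ b ∈ range (J1 + 1), ∫ G, pE (QQ C nc n (M := M) f G s)
        ((fil C nc n).F (τ (b * r))) (fun u v => |RS C nc n f1 f1 G u v - T (b * r)|) ∂(gam M N) ≤
        ∑ _b ∈ range (J1 + 1), e := Finset.sum_le_sum fun b hb => by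
      rw [Finset.mem_range] at hb
      exact hpair _ (hbr b (by omega))
    rw [Finset.sum_const, Finset.card_range, nsmul_eq_mul] at h2
    push_cast at h2
    linarith
  have hXi := int_XA C nc n hf hf1 hhm hh.bd s (M := M)
  have hpt : ∀ G : Fin M → Fin N → ℝ, ThT J1 h T' - ε - D * DV G -
      15 * c ^ 2 * Real.exp (4 * c) * (1 / ((J1 : ℝ) + 1)) ≤ XA C nc n (M := M) f f1 h s G := by
    intro G
    have h1 := hmain (κ := Fin M) (QQ C nc n (M := M) f G s) (fil C nc n) (xs nc n)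
      (fun j => τ (min j J1 * r)) (1 / ((J1 : ℝ) + 1)) (Wv C nc n f1 G) T' h
      (CavInc_769.QQ_isProb f G s) (CavInc_769.fil_zero C nc n) hlev
      (fun ω => (Wv_sq_le C nc n hN hM hf1K G ω).trans hTm') hLT hh.bd (fun _ _ a b _ _ => hh.lip a b)
    have h2 := (abs_le.1 h1).1
    have h3 : XA C nc n (M := M) f f1 h s G = ∫ g, eE (QQ C nc n (M := M) f G s)
        (Crest.Agent.R141.A (QQ C nc n (M := M) f G s) (fil C nc n) (xs nc n)
          (fun ω => h (∑ i, Wv C nc n f1 G ω i * g i)) 0) ∂(Crest.Agent.R164.CavG.gm (Fin M)) := rfl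
    rw [h3]
    have h4 : DV G = DevW (QQ C nc n (M := M) f G s) (fil C nc n) J1
      (fun j => τ (min j J1 * r)) (Wv C nc n f1 G) T' := rfl
    rw [h4]
    linarith
  have h5 : Integrable (fun G => ThT J1 h T' - ε - D * DV G -
      15 * c ^ 2 * Real.exp (4 * c) * (1 / ((J1 : ℝ) + 1))) (gam M N) :=
    ((integrable_const _).sub (hDVi.const_mul D)).sub (integrable_const _)
  have h6 := integral_mono h5 hXi hpt
  have h7 : ∫ G, (ThT J1 h T' - ε - D * DV G -
      15 * c ^ 2 * Real.exp (4 * c) * (1 / ((J1 : ℝ) + 1))) ∂(gam M N) =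
      ThT J1 h T' - ε - D * ∫ G, DV G ∂(gam M N) -
        15 * c ^ 2 * Real.exp (4 * c) * (1 / ((J1 : ℝ) + 1)) := int_lin hDVi _ _ _
  rw [h7] at h6
  have h8 := mul_le_mul_of_nonneg_left hDVle hD
  linarith

/-- error of the Taylor step. -/
theorem tay_err {N : ℕ} (C : Cfg N) (nc n M : ℕ) {f f1 f2 : ℝ → ℝ} {K : ℝ}
    (hS : S3 K f f1 f2) (s : Fin nc → ℝ) {a b d e : ℝ} (hd : d = a - b)
    (h1 : ∫ G, eE (QQ C nc n (M := M) (fun _ => f) G s)
      (fun u => |RS C nc n f2 (fun _ => 1) G u u - a|) ∂(gam M N) ≤ e)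
    (h2 : ∫ G, eE (QQ C nc n (M := M) (fun _ => f) G s)
      (fun u => |RS C nc n f1 (fun x => x) G u u - b|) ∂(gam M N) ≤ e) :
    ∫ G, eE (QQ C nc n (M := M) (fun _ => f) G s)
      (fun u => |RS C nc n f2 (fun _ => 1) G u u - RS C nc n f1 (fun x => x) G u u - d|)
        ∂(gam M N) ≤ 2 * e := by
  have hK : 0 ≤ K := (abs_nonneg _).trans (hS.b0 0)
  have hfm : ∀ a : ℕ, Measurable ((fun _ => f : ℕ → ℝ → ℝ) a) := fun _ =>
    meas_of_lip (lip_of_deriv hS.d1 hS.b1)
  have hf1m : Measurable f1 := meas_of_lip (lip_of_deriv hS.d2 hS.b2)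
  have hf2m : Measurable f2 := meas_of_lip hS.l2
  set B : ℝ := max K 1 with hB
  have hB1 : 1 ≤ B := le_max_right _ _
  have hBK : K ≤ B := le_max_left _ _
  have hA : ∀ u : Om C nc n, Integrable (fun G : Fin M → Fin N → ℝ =>
      |RS C nc n f2 (fun _ => 1) G u u - a|) (gam M N) := fun u =>
    ((int_RS C nc n (B := B) hf2m (fun x => (hS.b2 x).trans hBK) measurable_const (fun x => by
      rw [abs_one]
      have := mul_nonneg (zero_le_one.trans hB1) (abs_nonneg x)
      linarith) u u).sub (integrable_const a)).abs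
  have hA2 : ∀ u : Om C nc n, Integrable (fun G : Fin M → Fin N → ℝ =>
      |RS C nc n f1 (fun x => x) G u u - b|) (gam M N) := fun u =>
    ((int_RS C nc n (B := B) hf1m (fun x => (hS.b1 x).trans hBK) measurable_id (fun x => by
      have := mul_le_mul_of_nonneg_right hB1 (abs_nonneg x)
      show |x| ≤ _
      linarith) u u).sub (integrable_const b)).abs
  have hi1 := int_eE C nc n hfm s hA
  have hi2 := int_eE C nc n hfm s hA2
  refine (integral_mono_of_nonneg (Filter.Eventually.of_forall fun G =>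
    eE_nonneg (CavInc_769.QQ_isProb _ G s) fun _ => abs_nonneg _) (hi1.add hi2)
    (Filter.Eventually.of_forall fun G => ?_)).trans ?_
  · show eE _ _ ≤ eE _ _ + eE _ _
    rw [← eE_add]
    refine eE_mono (CavInc_769.QQ_isProb _ G s) fun u => ?_
    have h3 : RS C nc n f2 (fun _ => 1) G u u - RS C nc n f1 (fun x => x) G u u - d =
        (RS C nc n f2 (fun _ => 1) G u u - a) - (RS C nc n f1 (fun x => x) G u u - b) := by
      rw [hd]; ring
    rw [h3]
    exact abs_sub _ _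
  · have h4 : ∫ G, ((fun G => eE (QQ C nc n (M := M) (fun _ => f) G s)
        (fun u => |RS C nc n f2 (fun _ => 1) G u u - a|)) +
        (fun G => eE (QQ C nc n (M := M) (fun _ => f) G s)
        (fun u => |RS C nc n f1 (fun x => x) G u u - b|))) G ∂(gam M N) =
        ∫ G, eE (QQ C nc n (M := M) (fun _ => f) G s)
      (fun u => |RS C nc n f2 (fun _ => 1) G u u - a|) ∂(gam M N) +
        ∫ G, eE (QQ C nc n (M := M) (fun _ => f) G s)
      (fun u => |RS C nc n f1 (fun x => x) G u u - b|) ∂(gam M N) := integral_add hi1 hi2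
    rw [h4]
    linarith

theorem near_mono {N : ℕ} {C : Cfg N} {δ δ' : ℝ} (h : Near C δ) (hδ : δ ≤ δ') : Near C δ' :=
  fun F hF => (h F hF).trans hδ

theorem skel_mono {N : ℕ} {C : Cfg N} {nc n : ℕ} {f : ℕ → ℝ → ℝ} {M : ℕ} {s : Fin nc → ℝ}
    {J wc : ℕ} {τ : ℕ → ℕ} {ε ε' : ℝ} (h : Skel C nc n f M s J wc τ ε) (hε : ε ≤ ε') :
    Skel C nc n f M s J wc τ ε' :=
  ⟨h.blk, fun b hb => (h.pair b hb).trans hε⟩

set_option maxHeartbeats 1600000 in
/-- **node COL** from the open nodes. -/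
theorem col_of (hRO : RO) (hREL : REL) (hVT : VTRUNC) (hTHC : THC) (hNEWC : NEWC) (hTAYC : TAYC) :
    COL := by
  intro αm K ε f f1 f2 J0 hαm hε hS
  have hK0 : 0 ≤ K := (abs_nonneg _).trans (hS.b0 0)
  have hlipf := lip_of_deriv hS.d1 hS.b1
  have hlipf1 := lip_of_deriv hS.d2 hS.b2
  have hfm : ∀ a : ℕ, Measurable ((fun _ => f : ℕ → ℝ → ℝ) a) := fun _ => meas_of_lip hlipf
  have hf1m : Measurable f1 := meas_of_lip hlipf1
  set Tm : ℝ := αm * K ^ 2 with hTmdef
  have hTm : 0 ≤ Tm := by positivity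
  set e8 : ℝ := ε / 8 with he8def
  have he8 : 0 < e8 := by positivity
  obtain ⟨k, L, hk, hL, hvt⟩ := hVT Tm e8 hTm he8
  set c : ℝ := |Lam k 0 0| + Tm * k ^ 2 / 2 + L with hcdef
  have hc : 0 ≤ c := by positivity
  obtain ⟨CT, hCT, htay⟩ := hTAYC αm K k L Tm hk hL hTm
  -- the coarse skeleton
  obtain ⟨J1, hJ1⟩ := exists_nat_ge ((k ^ 2 * Tm + 15 * c ^ 2 * Real.exp (4 * c)) / e8)
  have hJ1' : k ^ 2 * Tm + 15 * c ^ 2 * Real.exp (4 * c) ≤ e8 * ((J1 : ℝ) + 1) := by
    rw [div_le_iff₀ he8] at hJ1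
    nlinarith
  have hq1 : 0 ≤ k ^ 2 * Tm := by positivity
  have hq2 : 0 ≤ 15 * c ^ 2 * Real.exp (4 * c) := by positivity
  have hJ1a : k ^ 2 * Tm / ((J1 : ℝ) + 1) ≤ e8 := by
    rw [div_le_iff₀ (by positivity)]; linarith
  have hJ1b : 15 * c ^ 2 * Real.exp (4 * c) * (1 / ((J1 : ℝ) + 1)) ≤ e8 := by
    rw [mul_one_div, div_le_iff₀ (by positivity)]; linarith
  obtain ⟨D, hD, hcav⟩ := cav_avg J1 hTm hc hk.le he8
  set eO : ℝ := e8 / (2 * CT + D * ((J1 : ℝ) + 2) + 1) with heOdef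
  have heO : 0 < eO := by positivity
  have heO1 : CT * (2 * eO) + D * (((J1 : ℝ) + 2) * eO) ≤ e8 := by
    have h1 : eO * (2 * CT + D * ((J1 : ℝ) + 2) + 1) = e8 := div_mul_cancel₀ _ (by positivity)
    linarith
  set B : ℝ := max K 1 with hBdef
  have hB1 : 1 ≤ B := le_max_right _ _
  have hBK : K ≤ B := le_max_left _ _
  obtain ⟨Ja, hro⟩ := hRO αm K K B eO heO
  obtain ⟨CR, hCR, hrel⟩ := hREL αm K
  set eR : ℝ := min (1 / 16) (e8 / (2 * (8 + 10 * Tm))) with heRdef
  have heR : 0 < eR := lt_min (by norm_num) (by positivity)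
  have heR1 : eR ≤ 1 / 16 := min_le_left _ _
  have heR2 : (8 + 10 * Tm) * (2 * eR) ≤ e8 := by
    have h1 : eR ≤ e8 / (2 * (8 + 10 * Tm)) := min_le_right _ _
    rw [le_div_iff₀ (by positivity)] at h1
    linarith
  obtain ⟨Jb, hrel⟩ := hrel eR heR
  -- the fine skeleton
  set r : ℕ := max (max J0 Ja) Jb + 1 with hrdef
  have hr : 0 < r := Nat.succ_pos _
  set J : ℕ := (J1 + 1) * r - 1 with hJdef
  have hJpos : 1 ≤ (J1 + 1) * r := Nat.mul_pos (Nat.succ_pos _) hr
  have hJ : J + 1 = (J1 + 1) * r := by omega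
  have hrJ : r ≤ J + 1 := by
    rw [hJ]; exact Nat.le_mul_of_pos_left r (Nat.succ_pos _)
  have hJ0 : J0 ≤ J := by
    have : J0 ≤ max (max J0 Ja) Jb := (le_max_left _ _).trans (le_max_left _ _)
    omega
  have hJa : Ja ≤ J := by
    have : Ja ≤ max (max J0 Ja) Jb := (le_max_right _ _).trans (le_max_left _ _)
    omega
  have hJb : Jb ≤ J := by
    have : Jb ≤ max (max J0 Ja) Jb := le_max_right _ _
    omega
  obtain ⟨ε1a, hε1a, Na, hro⟩ := hro J hJa
  obtain ⟨ε1b, hε1b, Nb, hrel⟩ := hrel J hJb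
  refine ⟨J, hJ0, min ε1a ε1b, lt_min hε1a hε1b, ?_⟩
  intro wc nc hwc hnc
  -- the strengths
  have hnc0 : (0 : ℝ) < (nc : ℝ) + 1 := by positivity
  set A0 : ℝ := min (1 / ((nc : ℝ) + 1)) (min (eR / (((nc : ℝ) + 1) * (CR + 1)))
    (e8 / (((nc : ℝ) + 1) * (CT + 1)))) with hA0def
  have hA0 : 0 < A0 := by
    rw [hA0def]
    refine lt_min (by positivity) (lt_min ?_ ?_) <;> positivity
  have hA1 : ((nc : ℝ) + 1) * A0 ≤ 1 := by
    have h1 : A0 ≤ 1 / ((nc : ℝ) + 1) := min_le_left _ _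
    rw [le_div_iff₀ hnc0] at h1
    linarith
  have hA2 : ((nc : ℝ) + 1) * A0 * (CR + 1) ≤ eR := by
    have h1 : A0 ≤ eR / (((nc : ℝ) + 1) * (CR + 1)) := (min_le_right _ _).trans (min_le_left _ _)
    rw [le_div_iff₀ (by positivity)] at h1
    linarith
  have hA3 : ((nc : ℝ) + 1) * A0 * (CT + 1) ≤ e8 := by
    have h1 : A0 ≤ e8 / (((nc : ℝ) + 1) * (CT + 1)) := (min_le_right _ _).trans (min_le_right _ _)
    rw [le_div_iff₀ (by positivity)] at h1
    linarith
  have hncA : (nc : ℝ) * A0 ≤ 1 := by linarith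
  have hncA0 : 0 ≤ (nc : ℝ) * A0 := by positivity
  have hCRA : CR * ((nc : ℝ) * A0) ≤ eR := by
    have h1 : CR * ((nc : ℝ) * A0) ≤ (CR + 1) * (((nc : ℝ) + 1) * A0) :=
      mul_le_mul (by linarith) (by linarith) hncA0 (by linarith)
    linarith
  have hCTA : CT * ((nc : ℝ) * A0) ≤ e8 := by
    have h1 : CT * ((nc : ℝ) * A0) ≤ (CT + 1) * (((nc : ℝ) + 1) * A0) :=
      mul_le_mul (by linarith) (by linarith) hncA0 (by linarith)
    linarith
  obtain ⟨Nc, hnew⟩ := hNEWC k K K A0 (ε / 16) hk (by positivity)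
  obtain ⟨Nd, htay⟩ := htay (ε / 16) (by positivity)
  refine ⟨A0, hA0, max (max Na Nb) (max Nc Nd), ?_⟩
  intro N hNN hN n hn M hM
  have hNa : Na ≤ N := (le_max_left _ _).trans ((le_max_left _ _).trans hNN)
  have hNb : Nb ≤ N := (le_max_right _ _).trans ((le_max_left _ _).trans hNN)
  have hNc : Nc ≤ N := (le_max_left _ _).trans ((le_max_right _ _).trans hNN)
  have hNd : Nd ≤ N := (le_max_right _ _).trans ((le_max_right _ _).trans hNN)
  obtain ⟨δa, hδa, hrel⟩ := hrel wc nc hwc hnc N hNb hN n hn M hM A0 hncA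
  obtain ⟨δb, hδb, hnew⟩ := hnew N hNc hN nc n M hn
  refine ⟨min δa δb, lt_min hδa hδb, ?_⟩
  intro C C1 hC hC1 s hs τ hτ
  have hN' : (0 : ℝ) < N := by exact_mod_cast hN
  set P : ℕ → ℝ := PR C nc n f M s τ with hP
  set α : ℝ := (M : ℝ) / N with hα
  have hα0 : 0 ≤ α := by positivity
  have hααm : α ≤ αm := by rw [hα, div_le_iff₀ hN']; exact hM
  set T : ℕ → ℝ := TR J f f1 P α with hT
  have hLev : Lev J P := CavAsm_769.lev_Rk hN hfm M s (CavAsm_769.tau_mono (by omega) hτ.blk)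
  obtain ⟨hLT0, hibp, -⟩ := L2Ibp_18.l2ibp K f f1 f2 hS J P hLev
  have hTb : ∀ b, T b = α * kapX J f P b f1 f1 := fun b => rfl
  have hLT : LevT J Tm T := by
    refine ⟨?_, ?_, ?_⟩
    · rw [hTb]; exact mul_nonneg hα0 hLT0.nonneg
    · intro i j hij hj
      rw [hTb, hTb]
      exact mul_le_mul_of_nonneg_left (hLT0.mono i j hij hj) hα0
    · rw [hTb]
      exact mul_le_mul hααm hLT0.le (hLT0.nonneg' le_rfl) hαm.le
  -- the relations
  have hrelb : ∀ b ≤ J, |rel J P T b| ≤ 2 * eR := by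
    intro b hb
    have h1 := hrel C (near_mono hC (min_le_left _ _)) f f1 f2 hS s hs τ
      (skel_mono hτ (min_le_right _ _)) b hb
    linarith
  have hPT : PT J P T Tm := ⟨hLev, hLT.nonneg, fun i j hij hj => hLT.mono i j hij (by omega),
    (hLT.mono J (J + 1) (Nat.le_succ J) le_rfl).trans hLT.le⟩
  obtain ⟨hPJ, hTS⟩ := L2Alg_36.main hPT (by linarith) hrelb
  refine ⟨?_, ?_⟩
  · refine le_trans ?_ hPJ
    rw [div_le_div_iff₀ (by positivity) (by positivity)]
    nlinarith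
  -- the row observables
  have hBLf : BL K K f := ⟨hS.b0, hlipf⟩
  have hBLf1 : BL B B f1 := ⟨fun x => (hS.b1 x).trans hBK, fun x y =>
    (hlipf1 x y).trans (mul_le_mul_of_nonneg_right hBK (abs_nonneg _))⟩
  have hBLf2 : BL B B f2 := ⟨fun x => (hS.b2 x).trans hBK, fun x y =>
    (hS.l2 x y).trans (mul_le_mul_of_nonneg_right hBK (abs_nonneg _))⟩
  have hτa : Skel C nc n (fun _ => f) M s J wc τ ε1a := skel_mono hτ (min_le_left _ _)
  have hro1 := hro wc nc hwc hnc N hNa hN n hn C f f1 f1 hBLf hBLf1 hBLf1.lip (hBLf1.bd 0) M s τ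
    hM hτa
  have hro2 := (hro wc nc hwc hnc N hNa hN n hn C f f2 (fun _ => 1) hBLf hBLf2
    (fun x y => by
      rw [sub_self, abs_zero]
      exact mul_nonneg (zero_le_one.trans hB1) (abs_nonneg _))
    (by rw [abs_one]; exact hB1) M s τ hM hτa).2
  have hro3 := (hro wc nc hwc hnc N hNa hN n hn C f f1 (fun x => x) hBLf hBLf1
    (fun x y => by
      have := mul_le_mul_of_nonneg_right hB1 (abs_nonneg (x - y))
      linarith)
    (by rw [abs_zero]; linarith) M s τ hM hτa).2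
  -- the quadratic coefficient
  set d : ℝ := QT J P T - T (J + 1) with hd
  have hd0 : d ≤ 0 := by
    have h1 : QT J P T ≤ T (J + 1) := by
      unfold QT
      have h2 : ∑ l ∈ range (J + 1), P l * T l ≤ ∑ _l ∈ range (J + 1), T (J + 1) := by
        refine Finset.sum_le_sum fun l hl => ?_
        rw [Finset.mem_range] at hl
        have h3 := hLT.nonneg' (show l ≤ J + 1 by omega)
        have h4 := hPT.P_le (show l ≤ J by omega)
        have h5 := hLT.mono l (J + 1) (by omega) le_rfl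
        have h6 := mul_le_mul_of_nonneg_right h4 h3
        linarith
      rw [Finset.sum_const, Finset.card_range, nsmul_eq_mul] at h2
      push_cast at h2
      rw [one_div, inv_mul_le_iff₀ (by positivity)]
      exact h2
    linarith
  have hdD : -Tm ≤ d := by
    have h1 := hPT.QT_nonneg
    have h2 := hLT.le
    linarith
  have hdab : d = α * kapX J f P (J + 1) f2 (fun _ => 1) -
      α * kapX J f P (J + 1) f1 (fun x => x) := by
    have h1 : QT J P T = α * (1 / ((J : ℝ) + 1) *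
        ∑ l ∈ range (J + 1), P l * kapX J f P l f1 f1) := by
      unfold QT
      have h2 : ∑ l ∈ range (J + 1), P l * T l =
          α * ∑ l ∈ range (J + 1), P l * kapX J f P l f1 f1 := by
        rw [Finset.mul_sum]
        refine Finset.sum_congr rfl fun l _ => ?_
        rw [hTb]; ring
      rw [h2]; ring
    rw [hd, h1, hTb, hibp]
    ring
  have herr := tay_err C nc n M hS s hdab hro2 hro3
  -- the chain of inequalities
  have hBLh : BL c k (LamT k d L) := LamT_bl hk hd0 hdD hL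
  have h1 := hnew C C1 (near_mono hC (min_le_right _ _)) (near_mono hC1 (min_le_right _ _)) f hBLf
    s hs
  have h2 := htay N hNd hN nc n hn C f f1 f2 hS M A0 s hM hs hncA d hdD hd0
  have h3 := hcav N hN C nc n hn M (fun _ => f) hfm f1 (LamT k d L) αm K hM hf1m hS.b1 le_rfl hBLh
    s r wc J hr hwc hnc hJ τ hτ.blk T hLT eO hro1.1 hro1.2
  have h3' : ∫ G, XA C nc n (M := M) (fun _ => f) f1 (LamT k d L) s G ∂(gam M N) =
      ∫ G, (∫ g0, eE (QQ C nc n (M := M) (fun _ => f) G s)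
      (Crest.Agent.R141.A (QQ C nc n (M := M) (fun _ => f) G s) (fil C nc n) (xs nc n)
        (fun ω => LamT k d L (∑ a, Wv C nc n f1 G ω a * g0 a)) 0) ∂(gv M)) ∂(gam M N) := rfl
  rw [h3'] at h3
  have h4 := hTHC c k Tm (LamT k d L) hBLh J1 r J T hr hJ hLT
  have h5 := hvt J P T hLev hLT
  have h6 := (abs_le.1 h4).1
  have h7 := (abs_le.1 hTS).1
  have h8 := mul_le_mul_of_nonneg_left herr hCT
  have h9 : ε = e8 + e8 + e8 + e8 + e8 + e8 + e8 + (ε / 16 + ε / 16) := by
    rw [he8def]; ring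
  rw [← hd] at h5
  linarith

end

end Crest.Agent.R146.S6Col_674
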