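import Crest.Agent.R146.S6L_988
import Crest.Agent.R146.CavInc_769

/-!
Row 146, statement S0206, lower bound, node CRUDE (helper468): the crude lower bound of the
increment for all strengths, from NEWC (`k = 1`), MOM and FLD.

For `|t| ≤ 1`: `dE t ≥ t ℓ - B0`, `B0 = K ∑_a (1 + 3 h_a² + 2 g_a²)/(N+1) + |fieldE|/N`, hence
`dV ≥ log Z - B0` with `Z = ∫_{-1}^1 φ` (`e^x ≥ 1 + x`, the linear term vanishes by symmetry), and
`A_0 ≥ E`.
-/

set_option autoImplicit false
set_option linter.unusedVariables false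

namespace Crest.Agent.R146.S6Crude_468

open Finset MeasureTheory ProbabilityTheory Crest.Agent.R141
open Crest.Agent.R146.S6Def_988 Crest.Agent.R146.S6U_988 Crest.Agent.R146.S6L_988
open Crest.Agent.R146.CavInc_769 (xs_pos fil_zero QQ_isProb)

noncomputable section

/-! ### Analysis of one row -/

theorem s3_lip0 {K : ℝ} {f f1 f2 : ℝ → ℝ} (h : S3 K f f1 f2) (x y : ℝ) :
    |f x - f y| ≤ K * |x - y| := by
  have := Convex.norm_image_sub_le_of_norm_hasDerivWithin_le (f := f) (f' := f1) (C := K)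
    (s := Set.univ) (x := y) (y := x) (fun z _ => (h.d1 z).hasDerivWithinAt)
    (fun z _ => by rw [Real.norm_eq_abs]; exact h.b1 z) convex_univ trivial trivial
  simpa [Real.norm_eq_abs] using this

theorem s3_lip1 {K : ℝ} {f f1 f2 : ℝ → ℝ} (h : S3 K f f1 f2) (x y : ℝ) :
    |f1 x - f1 y| ≤ K * |x - y| := by
  have := Convex.norm_image_sub_le_of_norm_hasDerivWithin_le (f := f1) (f' := f2) (C := K)
    (s := Set.univ) (x := y) (y := x) (fun z _ => (h.d2 z).hasDerivWithinAt)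
    (fun z _ => by rw [Real.norm_eq_abs]; exact h.b2 z) convex_univ trivial trivial
  simpa [Real.norm_eq_abs] using this

theorem s3_K {K : ℝ} {f f1 f2 : ℝ → ℝ} (h : S3 K f f1 f2) : 0 ≤ K :=
  (abs_nonneg _).trans (h.b0 0)

/-- second order lower bound -/
theorem s3_taylor {K : ℝ} {f f1 f2 : ℝ → ℝ} (h : S3 K f f1 f2) (x y : ℝ) :
    f1 x * (y - x) - K * (y - x) ^ 2 ≤ f y - f x := by
  have hK := s3_K h
  have := Convex.norm_image_sub_le_of_norm_hasDerivWithin_le (f := fun z => f z - f1 x * z)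
    (f' := fun z => f1 z - f1 x) (C := K * |y - x|)
    (s := Set.uIcc x y) (x := x) (y := y)
    (fun z _ => ((h.d1 z).sub (by simpa using (hasDerivAt_id z).const_mul (f1 x))).hasDerivWithinAt)
    (fun z hz => by
      rw [Real.norm_eq_abs]
      refine (s3_lip1 h z x).trans (mul_le_mul_of_nonneg_left ?_ hK)
      rw [abs_sub_comm y x]
      have := Set.abs_sub_left_of_mem_uIcc hz
      rw [abs_sub_comm x y]
      exact this) (convex_uIcc x y) Set.left_mem_uIcc Set.right_mem_uIcc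
  simp only [Real.norm_eq_abs] at this
  have h2 := (abs_le.1 this).1
  have h3 : K * |y - x| * |y - x| = K * (y - x) ^ 2 := by
    rw [mul_assoc, ← sq, sq_abs]
  rw [h3] at h2
  linarith

/-- one row: `|c - 1| ≤ δ`, `|t| ≤ 1`, `w² ≤ δ` -/
theorem row_low {K : ℝ} {f f1 f2 : ℝ → ℝ} (h : S3 K f f1 f2) {c δ t w : ℝ} (hc : |c - 1| ≤ δ)
    (hδ0 : 0 ≤ δ) (hδ : δ ≤ 1) (ht : |t| ≤ 1) (hw : w ^ 2 ≤ δ) (y g : ℝ) :
    t * (f1 y * (w * g)) - K * ((1 + 3 * y ^ 2 + 2 * g ^ 2) * δ) ≤ f (c * y + t * w * g) - f y := by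
  have hK := s3_K h
  have h1 := s3_taylor h y (c * y + t * w * g)
  have e1 : c * y + t * w * g - y = (c - 1) * y + t * w * g := by ring
  rw [e1] at h1
  -- the square
  have h2 : ((c - 1) * y + t * w * g) ^ 2 ≤ 2 * (y ^ 2 * δ) + 2 * (g ^ 2 * δ) := by
    have a1 : ((c - 1) * y + t * w * g) ^ 2 ≤ 2 * ((c - 1) * y) ^ 2 + 2 * (t * w * g) ^ 2 := by
      nlinarith [sq_nonneg ((c - 1) * y - t * w * g)]
    have a2 : (c - 1) ^ 2 ≤ δ := by
      rw [← sq_abs]
      have : |c - 1| ^ 2 ≤ δ ^ 2 := pow_le_pow_left₀ (abs_nonneg _) hc 2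
      nlinarith
    have a3 : t ^ 2 ≤ 1 := by
      rw [← sq_abs]; nlinarith [abs_nonneg t]
    have a4 : ((c - 1) * y) ^ 2 ≤ y ^ 2 * δ := by
      rw [mul_pow, mul_comm]
      exact mul_le_mul_of_nonneg_left a2 (sq_nonneg y)
    have a5 : (t * w * g) ^ 2 ≤ g ^ 2 * δ := by
      have : (t * w * g) ^ 2 = g ^ 2 * (t ^ 2 * w ^ 2) := by ring
      rw [this]
      refine mul_le_mul_of_nonneg_left ?_ (sq_nonneg g)
      nlinarith [sq_nonneg w, sq_nonneg t]
    linarith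
  -- the linear term
  have h3 : f1 y * ((c - 1) * y) ≥ -(K * ((1 + y ^ 2) * δ)) := by
    have b1 : |f1 y * ((c - 1) * y)| ≤ K * (δ * |y|) := by
      rw [abs_mul, abs_mul]
      exact mul_le_mul (h.b1 y) (mul_le_mul_of_nonneg_right hc (abs_nonneg y))
        (by positivity) hK
    have b2 : |y| ≤ 1 + y ^ 2 := by
      rw [← sq_abs]; nlinarith [sq_nonneg (|y| - 1), abs_nonneg y]
    have b3 : δ * |y| ≤ (1 + y ^ 2) * δ := by
      rw [mul_comm]; exact mul_le_mul_of_nonneg_right b2 hδ0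
    have b4 := (abs_le.1 b1).1
    have b5 : K * (δ * |y|) ≤ K * ((1 + y ^ 2) * δ) := mul_le_mul_of_nonneg_left b3 hK
    linarith
  have h4 := mul_le_mul_of_nonneg_left h2 hK
  nlinarith

/-! ### The potential -/

theorem sqrt_quot {N : ℕ} {t : ℝ} (ht : |t| ≤ 1) :
    |Real.sqrt (((N : ℝ) + 1 - t ^ 2) / ((N : ℝ) + 1)) - 1| ≤ 1 / ((N : ℝ) + 1) := by
  have hN : (0 : ℝ) < (N : ℝ) + 1 := by positivity
  have ht2 : t ^ 2 ≤ 1 := by rw [← sq_abs]; nlinarith [abs_nonneg t]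
  set q := ((N : ℝ) + 1 - t ^ 2) / ((N : ℝ) + 1) with hq
  have hq1 : q ≤ 1 := by rw [hq, div_le_one hN]; nlinarith [sq_nonneg t]
  have hq0 : 1 - 1 / ((N : ℝ) + 1) ≤ q := by
    rw [hq, le_div_iff₀ hN]
    have : (1 - 1 / ((N : ℝ) + 1)) * ((N : ℝ) + 1) = N := by field_simp; ring
    rw [this]; linarith
  have hqn : 0 ≤ q := by
    rw [hq]; apply div_nonneg _ hN.le
    have : (0 : ℝ) ≤ N := Nat.cast_nonneg N
    linarith
  have h1 : Real.sqrt q ≤ 1 := Real.sqrt_le_one.2 hq1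
  have h2 : q ≤ Real.sqrt q := by
    have := Real.sq_sqrt hqn
    nlinarith [Real.sqrt_nonneg q]
  rw [abs_sub_comm, abs_of_nonneg (by linarith)]
  linarith

theorem sqrt_quot2 {N : ℕ} (hN : 0 < N) {t : ℝ} (ht : |t| ≤ 1) :
    |Real.sqrt (((N : ℝ) + 1 - t ^ 2) / N) - 1| ≤ 1 / (N : ℝ) := by
  have hN : (0 : ℝ) < (N : ℝ) := by exact_mod_cast hN
  have ht2 : t ^ 2 ≤ 1 := by rw [← sq_abs]; nlinarith [abs_nonneg t]
  set q := ((N : ℝ) + 1 - t ^ 2) / (N : ℝ) with hq
  have hq1 : 1 ≤ q := by rw [hq, le_div_iff₀ hN]; linarith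
  have hq0 : q ≤ 1 + 1 / (N : ℝ) := by
    rw [hq, div_le_iff₀ hN]
    have : (1 + 1 / (N : ℝ)) * (N : ℝ) = N + 1 := by field_simp
    rw [this]; nlinarith [sq_nonneg t]
  have h1 : 1 ≤ Real.sqrt q := by rw [Real.one_le_sqrt]; exact hq1
  have h2 : Real.sqrt q ≤ q := by
    have := Real.sq_sqrt (show 0 ≤ q by linarith)
    nlinarith [Real.sqrt_nonneg q]
  rw [abs_of_nonneg (by linarith)]
  linarith

variable {N : ℕ} {C : Cfg N} {nc n M : ℕ}

/-- the error -/
def B0 (C : Cfg N) (nc n : ℕ) {M : ℕ} (K : ℝ) (G : Fin M → Fin N → ℝ) (g0 : Fin M → ℝ)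
    (s : Fin nc → ℝ) (ω : Om C nc n) : ℝ :=
  K * ∑ a : Fin M, ((1 + 3 * hh G a (C.x ω.1) ^ 2 + 2 * g0 a ^ 2) * (1 / ((N : ℝ) + 1))) +
    1 / (N : ℝ) * |fieldE s ω|

theorem dE_low (hN : 0 < N) {K : ℝ} {f f1 f2 : ℝ → ℝ} (h : S3 K f f1 f2)
    (G : Fin M → Fin N → ℝ) (g0 : Fin M → ℝ) (s : Fin nc → ℝ) (ω : Om C nc n) {t : ℝ}
    (ht : |t| ≤ 1) :
    t * (∑ a : Fin M, f1 (hh G a (C.x ω.1)) * (1 / Real.sqrt ((N : ℝ) + 1) * g0 a)) -
      B0 C nc n K G g0 s ω ≤ dE C nc n f G g0 s ω t := by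
  have hN1 : (0 : ℝ) < (N : ℝ) + 1 := by positivity
  have hδ0 : (0 : ℝ) ≤ 1 / ((N : ℝ) + 1) := by positivity
  have hδ1 : 1 / ((N : ℝ) + 1) ≤ 1 := by
    rw [div_le_one hN1]
    have : (0 : ℝ) ≤ N := Nat.cast_nonneg N
    linarith
  have hw : (1 / Real.sqrt ((N : ℝ) + 1)) ^ 2 ≤ 1 / ((N : ℝ) + 1) := by
    rw [div_pow, one_pow, Real.sq_sqrt hN1.le]
  unfold dE B0
  rw [Finset.mul_sum, Finset.mul_sum]
  have h1 : ∀ a : Fin M, t * (f1 (hh G a (C.x ω.1)) * (1 / Real.sqrt ((N : ℝ) + 1) * g0 a)) -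
      K * ((1 + 3 * hh G a (C.x ω.1) ^ 2 + 2 * g0 a ^ 2) * (1 / ((N : ℝ) + 1))) ≤
      f (Real.sqrt (((N : ℝ) + 1 - t ^ 2) / ((N : ℝ) + 1)) * hh G a (C.x ω.1) +
        t / Real.sqrt ((N : ℝ) + 1) * g0 a) - f (hh G a (C.x ω.1)) := by
    intro a
    have := row_low h (sqrt_quot (N := N) ht) hδ0 hδ1 ht hw (hh G a (C.x ω.1)) (g0 a)
    have e : t * (1 / Real.sqrt ((N : ℝ) + 1)) * g0 a = t / Real.sqrt ((N : ℝ) + 1) * g0 a := by
      ring
    rw [e] at this
    exact this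
  have h2 := Finset.sum_le_sum fun (a : Fin M) (_ : a ∈ Finset.univ) => h1 a
  rw [Finset.sum_sub_distrib] at h2
  have h3 : -(1 / (N : ℝ) * |fieldE s ω|) ≤
      (Real.sqrt (((N : ℝ) + 1 - t ^ 2) / N) - 1) * fieldE s ω := by
    have a1 : |(Real.sqrt (((N : ℝ) + 1 - t ^ 2) / N) - 1) * fieldE s ω| ≤
        1 / (N : ℝ) * |fieldE s ω| := by
      rw [abs_mul]
      exact mul_le_mul_of_nonneg_right (sqrt_quot2 hN ht) (abs_nonneg _)
    exact (abs_le.1 a1).1
  linarith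

/-- `Z = ∫_{-1}^1 φ` -/
def ZZ : ℝ := ∫ t in (-1 : ℝ)..1, gaussianPDFReal 0 1 t

theorem cont_pdf : Continuous (gaussianPDFReal 0 1) := by
  unfold gaussianPDFReal
  fun_prop

theorem ZZ_pos : 0 < ZZ := by
  unfold ZZ
  exact intervalIntegral.intervalIntegral_pos_of_pos
    (cont_pdf.intervalIntegrable _ _) (fun x => gaussianPDFReal_pos _ _ _ one_ne_zero) (by norm_num)

theorem ZZ_le_one : ZZ ≤ 1 := by
  unfold ZZ
  rw [intervalIntegral.integral_of_le (by norm_num)]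
  calc ∫ t in Set.Ioc (-1 : ℝ) 1, gaussianPDFReal 0 1 t ≤ ∫ t, gaussianPDFReal 0 1 t :=
        setIntegral_le_integral (integrable_gaussianPDFReal 0 1)
          (ae_of_all _ fun x => gaussianPDFReal_nonneg _ _ _)
    _ = 1 := integral_gaussianPDFReal_eq_one 0 one_ne_zero

theorem odd_zero : ∫ t in (-1 : ℝ)..1, gaussianPDFReal 0 1 t * t = 0 := by
  have h1 : ∫ t in (-1 : ℝ)..1, gaussianPDFReal 0 1 (-t) * (-t) =
      ∫ t in (-1 : ℝ)..1, gaussianPDFReal 0 1 t * t := by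
    rw [intervalIntegral.integral_comp_neg (fun t => gaussianPDFReal 0 1 t * t)]
    simp
  have h2 : ∀ t : ℝ, gaussianPDFReal 0 1 (-t) * (-t) = -(gaussianPDFReal 0 1 t * t) := by
    intro t
    have : gaussianPDFReal 0 1 (-t) = gaussianPDFReal 0 1 t := by
      unfold gaussianPDFReal
      simp
    rw [this]; ring
  simp_rw [h2] at h1
  rw [intervalIntegral.integral_neg] at h1
  linarith

theorem cont_dE {f : ℝ → ℝ} (hf : Continuous f) (G : Fin M → Fin N → ℝ) (g0 : Fin M → ℝ)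
    (s : Fin nc → ℝ) (ω : Om C nc n) : Continuous (dE C nc n f G g0 s ω) := by
  unfold dE
  refine Continuous.add (continuous_finsetSum _ fun a _ => Continuous.sub (hf.comp ?_)
    continuous_const) ?_ <;> fun_prop

theorem dV_low (hN : 0 < N) {K : ℝ} {f f1 f2 : ℝ → ℝ} (h : S3 K f f1 f2)
    (G : Fin M → Fin N → ℝ) (g0 : Fin M → ℝ) (s : Fin nc → ℝ) (ω : Om C nc n) :
    Real.log ZZ - B0 C nc n K G g0 s ω ≤ dV C nc n 1 f G g0 s ω := by
  set ℓ := ∑ a : Fin M, f1 (hh G a (C.x ω.1)) * (1 / Real.sqrt ((N : ℝ) + 1) * g0 a) with hℓ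
  set b := B0 C nc n K G g0 s ω with hb
  have hfc : Continuous f := by
    rw [continuous_iff_continuousAt]; exact fun x => (h.d1 x).continuousAt
  have hcE := cont_dE (C := C) (nc := nc) (n := n) hfc G g0 s ω
  have h1 : Real.exp (-b) * ZZ ≤
      ∫ t in (-1 : ℝ)..1, gaussianPDFReal 0 1 t * Real.exp (dE C nc n f G g0 s ω t) := by
    have e1 : Real.exp (-b) * ZZ = ∫ t in (-1 : ℝ)..1,
        (Real.exp (-b) * gaussianPDFReal 0 1 t +
          Real.exp (-b) * ℓ * (gaussianPDFReal 0 1 t * t)) := by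
      rw [intervalIntegral.integral_add, intervalIntegral.integral_const_mul,
        intervalIntegral.integral_const_mul, odd_zero, mul_zero, add_zero]
      · rfl
      · exact (continuous_const.mul cont_pdf).intervalIntegrable _ _
      · exact (continuous_const.mul (cont_pdf.mul continuous_id)).intervalIntegrable _ _
    rw [e1]
    refine intervalIntegral.integral_mono_on (by norm_num)
      (((continuous_const.mul cont_pdf).add
        (continuous_const.mul (cont_pdf.mul continuous_id))).intervalIntegrable _ _)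
      ((cont_pdf.mul (Real.continuous_exp.comp hcE)).intervalIntegrable _ _) ?_
    intro t ht
    have ht1 : |t| ≤ 1 := abs_le.2 ht
    have h2 := dE_low hN h G g0 s ω ht1
    rw [← hℓ, ← hb] at h2
    have h3 : Real.exp (-b) * (1 + ℓ * t) ≤ Real.exp (dE C nc n f G g0 s ω t) := by
      calc Real.exp (-b) * (1 + ℓ * t) ≤ Real.exp (-b) * Real.exp (ℓ * t) := by
            gcongr
            have := Real.add_one_le_exp (ℓ * t)
            linarith
        _ = Real.exp (t * ℓ - b) := by rw [← Real.exp_add]; congr 1; ring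
        _ ≤ _ := Real.exp_le_exp.2 h2
    have h4 := mul_le_mul_of_nonneg_left h3 (gaussianPDFReal_nonneg 0 1 t)
    calc Real.exp (-b) * gaussianPDFReal 0 1 t + Real.exp (-b) * ℓ * (gaussianPDFReal 0 1 t * t)
        = gaussianPDFReal 0 1 t * (Real.exp (-b) * (1 + ℓ * t)) := by ring
      _ ≤ _ := h4
  unfold dV
  calc Real.log ZZ - b = Real.log (Real.exp (-b) * ZZ) := by
        rw [Real.log_mul (Real.exp_pos _).ne' ZZ_pos.ne', Real.log_exp]; ring
    _ ≤ _ := Real.log_le_log (mul_pos (Real.exp_pos _) ZZ_pos) h1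

/-! ### Expectations -/

theorem int_ge {X : Type*} [MeasurableSpace X] {μ : Measure X} {f g : X → ℝ} (hg : Integrable g μ)
    (hfg : ∀ x, g x ≤ f x) (hg0 : ∫ x, g x ∂μ ≤ 0) : ∫ x, g x ∂μ ≤ ∫ x, f x ∂μ := by
  by_cases hf : Integrable f μ
  · exact integral_mono hg hf hfg
  · rw [integral_undef hf]; exact hg0

theorem eE_fieldE_le {c A : ℝ} (hN : 0 < N) {f : ℕ → ℝ → ℝ} (G : Fin M → Fin N → ℝ)
    (s : Fin nc → ℝ) (hs : ∀ g, |s g| ≤ A) (hA : (nc : ℝ) * A ≤ 1) (hc : 0 ≤ c)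
    (h : ∀ g : Fin nc, eE (QQ C nc n (M := M) f G s) (fun ω => ∑ i, zf ω.2 g i ^ 2) ≤ c * N) :
    eE (QQ C nc n (M := M) f G s) (fun ω => |fieldE s ω|) ≤ (c + 1) / 2 * N := by
  have hQ : IsProb (QQ C nc n (M := M) f G s) := QQ_isProb f G s
  have h1 : ∀ ω : Om C nc n, |fieldE s ω| ≤
      ∑ g : Fin nc, |s g| / 2 * (∑ i, zf ω.2 g i ^ 2 + (N : ℝ)) := by
    intro ω
    unfold fieldE
    refine (Finset.abs_sum_le_sum_abs _ _).trans (Finset.sum_le_sum fun g _ => ?_)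
    rw [abs_mul]
    have h2 : |∑ i, zf ω.2 g i * C.x ω.1 i| ≤ 1 / 2 * (∑ i, zf ω.2 g i ^ 2 + (N : ℝ)) := by
      refine (Finset.abs_sum_le_sum_abs _ _).trans ?_
      rw [← C.hx ω.1, ← Finset.sum_add_distrib, Finset.mul_sum]
      refine Finset.sum_le_sum fun i _ => ?_
      rw [abs_mul, ← sq_abs (zf ω.2 g i), ← sq_abs (C.x ω.1 i)]
      nlinarith [sq_nonneg (|zf ω.2 g i| - |C.x ω.1 i|)]
    have := mul_le_mul_of_nonneg_left h2 (abs_nonneg (s g))
    linarith
  have h3 := eE_mono hQ h1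
  refine h3.trans ?_
  rw [eE_sum (t := Finset.univ) (P := QQ C nc n (M := M) f G s)
    (f := fun (g : Fin nc) ω => |s g| / 2 * (∑ i, zf ω.2 g i ^ 2 + (N : ℝ)))]
  have hNr : (0 : ℝ) < N := by exact_mod_cast hN
  have h4 : ∀ g : Fin nc, eE (QQ C nc n (M := M) f G s)
      (fun ω => |s g| / 2 * (∑ i, zf ω.2 g i ^ 2 + (N : ℝ))) ≤ A * ((c + 1) / 2 * N) := by
    intro g
    rw [eE_smul, eE_add, eE_const hQ]
    have h5 : eE (QQ C nc n (M := M) f G s) (fun ω => ∑ i, zf ω.2 g i ^ 2) + (N : ℝ) ≤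
        (c + 1) * N := by have := h g; linarith
    calc |s g| / 2 * (eE (QQ C nc n (M := M) f G s) (fun ω => ∑ i, zf ω.2 g i ^ 2) + (N : ℝ))
        ≤ |s g| / 2 * ((c + 1) * N) := by gcongr
      _ = |s g| * ((c + 1) / 2 * N) := by ring
      _ ≤ A * ((c + 1) / 2 * N) := by gcongr; exact hs g
  calc ∑ g : Fin nc, eE (QQ C nc n (M := M) f G s)
        (fun ω => |s g| / 2 * (∑ i, zf ω.2 g i ^ 2 + (N : ℝ)))
      ≤ ∑ g : Fin nc, A * ((c + 1) / 2 * N) := Finset.sum_le_sum fun g _ => h4 g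
    _ = ((nc : ℝ) * A) * ((c + 1) / 2 * N) := by
        rw [Finset.sum_const, Finset.card_univ, Fintype.card_fin, nsmul_eq_mul]; ring
    _ ≤ 1 * ((c + 1) / 2 * N) := by gcongr
    _ = _ := one_mul _

/-- second moment of the row field under the tilted law -/
def m2 (C : Cfg N) (nc n : ℕ) (f : ℝ → ℝ) (s : Fin nc → ℝ) (G : Fin M → Fin N → ℝ)
    (a : Fin M) : ℝ :=
  eE (QQ C nc n (M := M) (fun _ => f) G s) (fun ω => hh G a (C.x ω.1) ^ 2)

theorem A_low (hN : 0 < N) {K c : ℝ} {f f1 f2 : ℝ → ℝ} (h : S3 K f f1 f2)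
    (G : Fin M → Fin N → ℝ) (g0 : Fin M → ℝ) (s : Fin nc → ℝ)
    (hfe : eE (QQ C nc n (M := M) (fun _ => f) G s) (fun ω => |fieldE s ω|) ≤ c * N) :
    Real.log ZZ - (K * ∑ a : Fin M, ((1 + 3 * m2 C nc n f s G a + 2 * g0 a ^ 2) *
      (1 / ((N : ℝ) + 1))) + c) ≤
    eE (QQ C nc n (M := M) (fun _ => f) G s)
      (Crest.Agent.R141.A (QQ C nc n (M := M) (fun _ => f) G s) (fil C nc n) (xs nc n)
        (dV C nc n 1 f G g0 s) 0) := by
  have hQ : IsProb (QQ C nc n (M := M) (fun _ => f) G s) := QQ_isProb _ G s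
  have hNr : (0 : ℝ) < N := by exact_mod_cast hN
  have h1 : eE (QQ C nc n (M := M) (fun _ => f) G s) (dV C nc n 1 f G g0 s) ≤
      eE (QQ C nc n (M := M) (fun _ => f) G s)
      (Crest.Agent.R141.A (QQ C nc n (M := M) (fun _ => f) G s) (fil C nc n) (xs nc n)
        (dV C nc n 1 f G g0 s) 0) := by
    rw [← eE_cE hQ ((fil C nc n).F 0) (dV C nc n 1 f G g0 s)]
    exact eE_mono hQ fun ω => cE_le_A hQ (xs_pos nc n) _ 0 ω
  refine le_trans ?_ h1
  have h2 : eE (QQ C nc n (M := M) (fun _ => f) G s)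
      (fun ω => Real.log ZZ - B0 C nc n K G g0 s ω) ≤
      eE (QQ C nc n (M := M) (fun _ => f) G s) (dV C nc n 1 f G g0 s) :=
    eE_mono hQ fun ω => dV_low hN h G g0 s ω
  refine le_trans ?_ h2
  rw [eE_sub, eE_const hQ]
  have h3 : eE (QQ C nc n (M := M) (fun _ => f) G s) (fun ω => B0 C nc n K G g0 s ω) =
      K * ∑ a : Fin M, ((1 + 3 * m2 C nc n f s G a + 2 * g0 a ^ 2) * (1 / ((N : ℝ) + 1))) +
      1 / (N : ℝ) * eE (QQ C nc n (M := M) (fun _ => f) G s) (fun ω => |fieldE s ω|) := by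
    unfold B0
    rw [eE_add, eE_smul, eE_smul]
    congr 2
    rw [eE_sum (t := Finset.univ) (P := QQ C nc n (M := M) (fun _ => f) G s)
      (f := fun (a : Fin M) ω => (1 + 3 * hh G a (C.x ω.1) ^ 2 + 2 * g0 a ^ 2) *
        (1 / ((N : ℝ) + 1)))]
    refine Finset.sum_congr rfl fun a _ => ?_
    have e1 : (fun ω : Om C nc n => (1 + 3 * hh G a (C.x ω.1) ^ 2 + 2 * g0 a ^ 2) *
        (1 / ((N : ℝ) + 1))) = fun ω : Om C nc n => (1 / ((N : ℝ) + 1)) *
        ((3 * hh G a (C.x ω.1) ^ 2) + (1 + 2 * g0 a ^ 2)) := by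
      funext ω; ring
    rw [e1, eE_smul, eE_add, eE_smul, eE_const hQ]
    unfold m2
    ring
  rw [h3]
  have h4 : 1 / (N : ℝ) * eE (QQ C nc n (M := M) (fun _ => f) G s) (fun ω => |fieldE s ω|) ≤ c := by
    rw [one_div, inv_mul_le_iff₀ hNr]
    linarith
  linarith

theorem int_sq_gauss : Integrable (fun x : ℝ => x ^ 2) (gaussianReal 0 1) ∧
    ∫ x, x ^ 2 ∂(gaussianReal 0 1) = 1 := by
  have h1 : MemLp (id : ℝ → ℝ) 2 (gaussianReal 0 1) := memLp_id_gaussianReal 2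
  refine ⟨by simpa using h1.integrable_sq, ?_⟩
  have h2 := variance_id_gaussianReal (μ := 0) (v := 1)
  rw [variance_eq_sub h1] at h2
  simp at h2
  simpa using h2

theorem int_sq_gv (a : Fin M) : Integrable (fun g0 : Fin M → ℝ => g0 a ^ 2) (gv M) ∧
    ∫ g0, g0 a ^ 2 ∂(gv M) = 1 := by
  have hmp : MeasurePreserving (fun g0 : Fin M → ℝ => g0 a) (gv M) (gaussianReal 0 1) :=
    measurePreserving_eval (fun _ : Fin M => gaussianReal 0 1) a
  refine ⟨(hmp.integrable_comp_of_integrable int_sq_gauss.1 :), ?_⟩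
  rw [← int_sq_gauss.2, ← hmp.map_eq, integral_map hmp.measurable.aemeasurable]
  exact (measurable_id.pow_const 2).aestronglyMeasurable

theorem aff_int {X : Type*} [MeasurableSpace X] {μ : Measure X} [IsProbabilityMeasure μ]
    {F : Fin M → X → ℝ} (hF : ∀ a, Integrable (F a) μ) (L K c : ℝ) :
    Integrable (fun x => L - (K * ∑ a, F a x + c)) μ ∧
    ∫ x, (L - (K * ∑ a, F a x + c)) ∂μ = L - (K * ∑ a, ∫ x, F a x ∂μ + c) := by
  have h1 : Integrable (fun x => ∑ a, F a x) μ := integrable_finsetSum _ fun a _ => hF a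
  have h2 : Integrable (fun x => K * ∑ a, F a x) μ := h1.const_mul K
  have h3 : Integrable (fun x => K * ∑ a, F a x + c) μ := h2.add (integrable_const c)
  refine ⟨(integrable_const L).sub h3, ?_⟩
  rw [integral_sub (integrable_const L) h3, integral_add h2 (integrable_const c),
    integral_const_mul, integral_finsetSum _ fun a _ => hF a]
  simp

/-- **CRUDE** from NEWC, MOM and FLD. -/
theorem crude_of (hNEWC : NEWC) (hMOM : MOM) (hFLD : FLD) : CRUDE := by
  intro αm K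
  obtain ⟨c, hc0, hc⟩ := hFLD αm K
  obtain ⟨N0, hN0⟩ := hNEWC 1 K K 1 1 one_pos one_pos
  set E4 := Real.exp (4 * K) with hE4
  set c1 : ℝ := (c + 1) / 2 with hc1
  set D : ℝ := |K| * (|αm| * (3 + 3 * E4)) + c1 - Real.log ZZ with hD
  have hlog : Real.log ZZ ≤ 0 := Real.log_nonpos ZZ_pos.le ZZ_le_one
  have hE40 : 0 < E4 := Real.exp_pos _
  have hD0 : 0 ≤ D := by
    have : 0 ≤ |K| * (|αm| * (3 + 3 * E4)) := by positivity
    have : 0 ≤ c1 := by positivity
    linarith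
  refine ⟨D + 1, by positivity, N0, fun N hN hNpos nc n M hn hM A hA => ?_⟩
  obtain ⟨δ, hδ, hnew⟩ := hN0 N hN hNpos nc n M hn
  refine ⟨δ, hδ, fun C C1 hC hC1 f f1 f2 h s hs => ?_⟩
  have hK : 0 ≤ K := s3_K h
  have hNr : (0 : ℝ) < N := by exact_mod_cast hNpos
  have hs1 : ∀ g, |s g| ≤ 1 := by
    intro g
    refine (hs g).trans ?_
    have h1 : (1 : ℝ) ≤ nc := by
      have : 0 < nc := lt_of_le_of_lt (Nat.zero_le _) g.2
      exact_mod_cast this
    have h2 : 0 ≤ A := (abs_nonneg _).trans (hs g)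
    nlinarith
  have h1 := hnew C C1 hC hC1 f ⟨h.b0, s3_lip0 h⟩ s hs1
  refine le_trans ?_ h1
  have hfm : Measurable f := by
    have : Continuous f := by
      rw [continuous_iff_continuousAt]; exact fun x => (h.d1 x).continuousAt
    exact this.measurable
  -- field energy
  have hfe : ∀ G : Fin M → Fin N → ℝ,
      eE (QQ C nc n (M := M) (fun _ => f) G s) (fun ω => |fieldE s ω|) ≤ c1 * N := fun G =>
    eE_fieldE_le hNpos G s hs hA hc0
      (fun g => hc N nc n hNpos hn C (fun _ => f) M G A s hM (fun _ => h.b0) hs hA g)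
  -- moments
  have hmom : ∀ a : Fin M, Integrable (fun G => m2 C nc n f s G a) (gam M N) ∧
      ∫ G, m2 C nc n f s G a ∂(gam M N) ≤ E4 := by
    intro a
    have := hMOM K N nc n hNpos hn C (fun _ => f) M s (fun _ => hfm) (fun _ => h.b0) a
      (fun x => x ^ 2) (measurable_id.pow_const 2) (fun x => sq_nonneg x) int_sq_gauss.1
    rw [int_sq_gauss.2, mul_one] at this
    exact this
  have hm2 : ∀ (G : Fin M → Fin N → ℝ) (a : Fin M), 0 ≤ m2 C nc n f s G a := fun G a =>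
    eE_nonneg (QQ_isProb _ G s) fun ω => sq_nonneg _
  have hN1 : (0 : ℝ) < (N : ℝ) + 1 := by positivity
  -- inner integral
  have hinner : ∀ G : Fin M → Fin N → ℝ,
      Real.log ZZ - (K * ∑ a : Fin M, ((3 + 3 * m2 C nc n f s G a) * (1 / ((N : ℝ) + 1))) + c1) ≤
      ∫ g0, eE (QQ C nc n (M := M) (fun _ => f) G s)
        (Crest.Agent.R141.A (QQ C nc n (M := M) (fun _ => f) G s) (fil C nc n) (xs nc n)
          (dV C nc n 1 f G g0 s) 0) ∂(gv M) := by
    intro G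
    have hprob : IsProbabilityMeasure (gv M) := by unfold gv; infer_instance
    have hint : ∀ a : Fin M, Integrable (fun g0 : Fin M → ℝ =>
        (1 + 3 * m2 C nc n f s G a + 2 * g0 a ^ 2) * (1 / ((N : ℝ) + 1))) (gv M) := fun a =>
      ((integrable_const _).add ((int_sq_gv a).1.const_mul 2)).mul_const _
    have hi : ∀ a : Fin M, ∫ g0 : Fin M → ℝ,
        (1 + 3 * m2 C nc n f s G a + 2 * g0 a ^ 2) * (1 / ((N : ℝ) + 1)) ∂(gv M) =
        (3 + 3 * m2 C nc n f s G a) * (1 / ((N : ℝ) + 1)) := by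
      intro a
      rw [integral_mul_const, integral_add (integrable_const _) ((int_sq_gv a).1.const_mul 2),
        integral_const_mul, (int_sq_gv a).2]
      simp only [integral_const, probReal_univ, one_smul]
      ring
    obtain ⟨k1, k2⟩ := aff_int hint (Real.log ZZ) K c1
    simp_rw [hi] at k2
    rw [← k2]
    refine int_ge k1 (fun g0 => A_low hNpos h G g0 s (hfe G)) ?_
    rw [k2]
    have : 0 ≤ K * ∑ a : Fin M, ((3 + 3 * m2 C nc n f s G a) * (1 / ((N : ℝ) + 1))) :=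
      mul_nonneg hK (Finset.sum_nonneg fun a _ => mul_nonneg (by have := hm2 G a; positivity)
        (by positivity))
    have : 0 ≤ c1 := by positivity
    linarith
  -- outer integral
  have hprob : IsProbabilityMeasure (gam M N) := by unfold gam; infer_instance
  have hint : ∀ a : Fin M, Integrable (fun G : Fin M → Fin N → ℝ =>
      (3 + 3 * m2 C nc n f s G a) * (1 / ((N : ℝ) + 1))) (gam M N) := fun a =>
    ((integrable_const _).add ((hmom a).1.const_mul 3)).mul_const _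
  have hi : ∀ a : Fin M, ∫ G : Fin M → Fin N → ℝ,
      (3 + 3 * m2 C nc n f s G a) * (1 / ((N : ℝ) + 1)) ∂(gam M N) =
      (3 + 3 * ∫ G, m2 C nc n f s G a ∂(gam M N)) * (1 / ((N : ℝ) + 1)) := by
    intro a
    rw [integral_mul_const, integral_add (integrable_const _) ((hmom a).1.const_mul 3),
      integral_const_mul]
    simp only [integral_const, probReal_univ, one_smul]
  obtain ⟨k1, k2⟩ := aff_int hint (Real.log ZZ) K c1
  simp_rw [hi] at k2
  have hsum : K * ∑ a : Fin M, ((3 + 3 * ∫ G, m2 C nc n f s G a ∂(gam M N)) *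
      (1 / ((N : ℝ) + 1))) ≤ |K| * (|αm| * (3 + 3 * E4)) := by
    rw [abs_of_nonneg hK]
    refine mul_le_mul_of_nonneg_left ?_ hK
    calc ∑ a : Fin M, ((3 + 3 * ∫ G, m2 C nc n f s G a ∂(gam M N)) * (1 / ((N : ℝ) + 1)))
        ≤ ∑ a : Fin M, ((3 + 3 * E4) * (1 / ((N : ℝ) + 1))) := by
          refine Finset.sum_le_sum fun a _ => mul_le_mul_of_nonneg_right ?_ (by positivity)
          have := (hmom a).2
          linarith
      _ = (M : ℝ) / ((N : ℝ) + 1) * (3 + 3 * E4) := by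
          rw [Finset.sum_const, Finset.card_univ, Fintype.card_fin, nsmul_eq_mul]; ring
      _ ≤ |αm| * (3 + 3 * E4) := by
          refine mul_le_mul_of_nonneg_right ?_ (by positivity)
          rw [div_le_iff₀ hN1]
          have h2 : αm ≤ |αm| := le_abs_self _
          have h3 := abs_nonneg αm
          nlinarith
  have hge := int_ge k1 hinner (by
      rw [k2]
      have : 0 ≤ K * ∑ a : Fin M, ((3 + 3 * ∫ G, m2 C nc n f s G a ∂(gam M N)) *
          (1 / ((N : ℝ) + 1))) :=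
        mul_nonneg hK (Finset.sum_nonneg fun a _ => mul_nonneg (by
          have : 0 ≤ ∫ G, m2 C nc n f s G a ∂(gam M N) := integral_nonneg fun G => hm2 G a
          positivity) (by positivity))
      have : 0 ≤ c1 := by positivity
      linarith)
  rw [k2] at hge
  have : 0 ≤ c1 := by positivity
  linarith

end

end Crest.Agent.R146.S6Crude_468
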