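import Crest.Agent.R146.ChkS6_47
import Crest.Agent.R146.Brid_47
import Crest.Agent.R146.S6Spc_311
import Crest.Agent.R146.L2Ibp_18
import Crest.Agent.R146.S6Skadd_495
import Crest.Agent.R146.S6Fcont_627
import Crest.Agent.R146.VTrunc_762
import Crest.Agent.R146.Fobs_998
import Crest.Agent.R146.S6Incl_53
import Crest.Agent.R146.S6Rel_290
import Crest.Agent.R146.RoTwo_143
import Crest.Agent.R146.RoTrunc_130
import Crest.Agent.R146.S6Mom_649
import Crest.Agent.R146.NewcE_857
import Crest.Agent.R146.S6Fld_857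
import Crest.Agent.R146.RowFin_874
import Crest.Agent.R146.S6Crude_468
import Crest.Agent.R146.S6Col_674
import Crest.Agent.R146.L3Tay_663

/-!
# R146 (helper47): interface check of the nodes of the lower bound of S0206
-/

set_option autoImplicit false

open MeasureTheory ProbabilityTheory Filter Topology
open Crest.ProbabilityR.Perceptron
open Crest.Agent.R146.S6Def_988 Crest.Agent.R146.S6U_988
open Crest.Agent.R146.ChkS6_47

namespace Crest.Agent.R146.ChkL_47

theorem l_SPC : S6L_988.SPC := S6Spc_311.spc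
theorem l_L2IBP : S6L_988.L2IBP := L2Ibp_18.l2ibp
theorem l_SKADD : S6L_988.SKADD := S6Skadd_495.skadd
theorem l_FCONT : S6L_988.FCONT := S6Fcont_627.fcont
theorem l_VTRUNC : S6L_988.VTRUNC := VTrunc_762.result
theorem l_FOBSL : S6L_988.FOBSL := Fobs_998.fobsl
theorem l_MOM : S6L_988.MOM := S6Mom_649.mom
theorem l_NEWC : S6L_988.NEWC := Newc857.newc
theorem l_RO : S6L_988.RO := RowFin_874.ro
theorem l_FLD : S6L_988.FLD := S6Fld_857.fld
theorem l_REL : S6L_988.REL := S6Rel_290.rel_of l_RO l_FLD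
theorem l_TAYC : S6L_988.TAYC := L3Tay_663.tayc_of l_MOM l_FLD
theorem l_CRUDE : S6L_988.CRUDE := S6Crude_468.crude_of l_NEWC l_MOM l_FLD
theorem l_COL (hTHC : S6L_988.THC) : S6L_988.COL :=
  S6Col_674.col_of l_RO l_REL l_VTRUNC hTHC l_NEWC l_TAYC
theorem l_INCL (hCOL : S6L_988.COL) : S6L_988.INCL := S6Incl_53.incl_open hCOL l_SKADD l_SPC

/-- S0206 from the increment node. -/
theorem s0206_of_inc1 (hI : S6L_988.INC1)
    (Ω : Type) [MeasurableSpace Ω] (P : Measure Ω) [IsProbabilityMeasure P]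
    (B : NNReal → Ω → ℝ) (hBm : ∀ t, Measurable (B t)) (hB : IsBrownianReal B P)
    (α β : ℝ) (hα : 0 < α) (hβ : 0 < β)
    (φ : ℝ → ℝ) (hφc : Continuous φ) (hφb : ∃ K : ℝ, ∀ x, abs (φ x) ≤ K) :
    ∃ p : ℝ,
      ⨅ m : OverlapProfile, variationalFunctional P B hBm α β φ m = (p : EReal) ∧
      Filter.Tendsto (fun N : ℕ => expectedPressure N α β φ) Filter.atTop (nhds p) ∧
      ∀ ε : ℝ, 0 < ε →
        Filter.Tendsto (fun N : ℕ => pressureTailProb N α β φ p ε) Filter.atTop (nhds 0) :=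
  s0206_open (lb_of hI) Ω P B hBm hB α β hα hβ φ hφc hφb

#print axioms s0206_of_inc1
#print axioms l_SPC
#print axioms l_L2IBP
#print axioms l_SKADD
#print axioms l_FCONT
#print axioms l_VTRUNC
#print axioms l_FOBSL
#print axioms l_INCL
#print axioms l_REL
#print axioms l_FLD
#print axioms l_CRUDE
#print axioms l_COL
#print axioms l_TAYC
#print axioms l_MOM
#print axioms l_NEWC
#print axioms l_RO

end Crest.Agent.R146.ChkL_47
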