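import Mathlib.Analysis.SpecialFunctions.ImproperIntegrals
import Mathlib.Analysis.SpecialFunctions.Pow.Deriv
import Mathlib.MeasureTheory.Integral.Bochner.Set
import Mathlib.Analysis.Calculus.MeanValue
import Mathlib.Analysis.Calculus.Deriv.MeanValue

/-!
Row 146, PT-CLODUAL part (ABS) (helper121): one fixed time `t`, `s = √chi`.
`V` the level function, `P = V_x`, `p` the density of the law, `Y = -(log p)_x`.

* `OneT.one_sub_le`, `OneT.le_left`, `OneT.lo_lin` : positions;
* `OneT.abs_main` : `∫ p H ≤ C K ∫ p V (1-V)²` for `0 ≤ H ≤ C V` on the left of the median point and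
  `H ≤ C (1 + (x-x₀)/s) (1-V)^e` on the right;
* `OneT.abs_le`, `OneT.abs_wle` : functions of `V`, without and with the weight `1 + |x-x₀|/s`.
-/

set_option autoImplicit false

namespace Crest.Agent.R146.ClAbs_121

open Set Filter Topology MeasureTheory

/-- One time of the tip system. `V x0 = 1/2`; `s P ≥ (c0/2) (1-V)` on `V ≥ 1/2`,
`s P ≥ kl V^{3/2}` on `V ≤ 1/2`, `s P ≤ C1`. -/
structure OneT (s : ℝ) (V P p Y : ℝ → ℝ) (x0 c0 kl C1 : ℝ) : Prop where
  s_pos : 0 < s
  hV : ∀ x, HasDerivAt V (P x) x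
  V_pos : ∀ x, 0 < V x
  V_lt : ∀ x, V x < 1
  p_pos : ∀ x, 0 < p x
  hp : ∀ x, HasDerivAt p (-Y x * p x) x
  V0 : V x0 = 1 / 2
  c0_pos : 0 < c0
  kl_pos : 0 < kl
  right : ∀ x, 1 / 2 ≤ V x → c0 / 2 * (1 - V x) ≤ s * P x
  left : ∀ x, V x ≤ 1 / 2 → kl * (V x * √(V x)) ≤ s * P x
  hi : ∀ x, s * P x ≤ C1
  int_p : Integrable p

namespace OneT

variable {s : ℝ} {V P p Y : ℝ → ℝ} {x0 c0 kl C1 : ℝ}

lemma P_pos (h : OneT s V P p Y x0 c0 kl C1) (x : ℝ) : 0 < P x := by
  have h3 : 0 < s * P x := by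
    rcases le_total (V x) (1 / 2) with h1 | h1
    · exact (mul_pos h.kl_pos (mul_pos (h.V_pos x) (Real.sqrt_pos.2 (h.V_pos x)))).trans_le
        (h.left x h1)
    · exact (mul_pos (half_pos h.c0_pos) (sub_pos.2 (h.V_lt x))).trans_le (h.right x h1)
  exact pos_of_mul_pos_right h3 h.s_pos.le

lemma C1_pos (h : OneT s V P p Y x0 c0 kl C1) : 0 < C1 :=
  (mul_pos h.s_pos (h.P_pos x0)).trans_le (h.hi x0)

lemma mono (h : OneT s V P p Y x0 c0 kl C1) : Monotone V :=
  monotone_of_hasDerivAt_nonneg h.hV fun x => (h.P_pos x).le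

lemma cont_V (h : OneT s V P p Y x0 c0 kl C1) : Continuous V :=
  continuous_iff_continuousAt.2 fun x => (h.hV x).continuousAt

lemma cont_p (h : OneT s V P p Y x0 c0 kl C1) : Continuous p :=
  continuous_iff_continuousAt.2 fun x => (h.hp x).continuousAt

/-- right tail of `1 - V` -/
lemma one_sub_le (h : OneT s V P p Y x0 c0 kl C1) {x : ℝ} (hx : x0 ≤ x) :
    1 - V x ≤ 1 / 2 * Real.exp (-(c0 * (x - x0) / (2 * s))) := by
  have hs := h.s_pos
  have hanti : AntitoneOn (fun y => (1 - V y) * Real.exp (c0 * (y - x0) / (2 * s))) (Ici x0) := by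
    refine antitoneOn_of_deriv_nonpos (convex_Ici x0) ?_ ?_ ?_
    · exact (((continuous_const.sub h.cont_V)).mul (by fun_prop)).continuousOn
    · intro y _
      exact (((h.hV y).const_sub 1).mul
        (((((hasDerivAt_id y).sub_const x0).const_mul c0).div_const (2 * s)).exp)).differentiableAt.differentiableWithinAt
    · intro y hy
      rw [interior_Ici] at hy
      have hd := ((h.hV y).const_sub 1).mul
        (((((hasDerivAt_id y).sub_const x0).const_mul c0).div_const (2 * s)).exp)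
      have hd' : HasDerivAt (fun y => (1 - V y) * Real.exp (c0 * (y - x0) / (2 * s))) _ y := hd
      rw [hd'.deriv]
      have h1 : 1 / 2 ≤ V y := by rw [← h.V0]; exact h.mono (le_of_lt hy)
      have h2 := h.right y h1
      have h3 := h.V_lt y
      have h4 : (1 - V y) * (c0 / (2 * s)) ≤ P y := by
        rw [mul_div_assoc', div_le_iff₀ (by positivity)]
        nlinarith
      have h6 : 0 < Real.exp (c0 * (y - x0) / (2 * s)) := Real.exp_pos _
      simp only [id, mul_one]
      nlinarith [mul_nonneg (sub_nonneg.2 h4) h6.le]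
  have h1 := hanti (mem_Ici.2 le_rfl) (mem_Ici.2 hx) hx
  simp only [sub_self, mul_zero, zero_div, Real.exp_zero, mul_one, h.V0] at h1
  have h6 : 0 < Real.exp (c0 * (x - x0) / (2 * s)) := Real.exp_pos _
  rw [Real.exp_neg, ← div_eq_mul_inv, le_div_iff₀ h6]
  linarith

/-- left tail of `V`: `1/√V` grows at least linearly -/
lemma le_left (h : OneT s V P p Y x0 c0 kl C1) {x : ℝ} (hx : x ≤ x0) :
    kl * (x0 - x) / (2 * s) * √(V x) ≤ 1 := by
  have hs := h.s_pos
  have hanti : AntitoneOn (fun y => (√(V y))⁻¹ + kl * y / (2 * s)) (Iic x0) := by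
    refine antitoneOn_of_deriv_nonpos (convex_Iic x0) ?_ ?_ ?_
    · refine ContinuousOn.add ?_ (by fun_prop)
      exact (h.cont_V.sqrt.inv₀ fun y => (Real.sqrt_pos.2 (h.V_pos y)).ne').continuousOn
    · intro y _
      have h1 := ((h.hV y).sqrt (h.V_pos y).ne').inv (Real.sqrt_pos.2 (h.V_pos y)).ne'
      have h2 := ((hasDerivAt_id y).const_mul kl).div_const (2 * s)
      exact (h1.add h2).differentiableAt.differentiableWithinAt
    · intro y hy
      rw [interior_Iic] at hy
      have h1 := ((h.hV y).sqrt (h.V_pos y).ne').inv (Real.sqrt_pos.2 (h.V_pos y)).ne'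
      have h2 := ((hasDerivAt_id y).const_mul kl).div_const (2 * s)
      have h3 : HasDerivAt (fun y => (√(V y))⁻¹ + kl * y / (2 * s))
        (-(P y / (2 * √(V y))) / √(V y) ^ 2 + kl * 1 / (2 * s)) y := h1.add h2
      rw [h3.deriv]
      have hVy := h.V_pos y
      have hr : 0 < √(V y) := Real.sqrt_pos.2 hVy
      have hr2 : √(V y) ^ 2 = V y := Real.sq_sqrt hVy.le
      have h4 : V y ≤ 1 / 2 := by rw [← h.V0]; exact h.mono (le_of_lt hy)
      have h5 := h.left y h4
      have h6 : kl / s ≤ P y / (V y * √(V y)) := by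
        rw [div_le_div_iff₀ hs (mul_pos hVy hr)]; linarith
      have e1 : -(P y / (2 * √(V y))) / √(V y) ^ 2 + kl * 1 / (2 * s) =
          -(1 / 2) * (P y / (V y * √(V y)) - kl / s) := by
        rw [hr2]; field_simp; ring
      rw [e1]
      have : 0 ≤ P y / (V y * √(V y)) - kl / s := by linarith
      linarith
  have h1 := hanti (mem_Iic.2 hx) (mem_Iic.2 le_rfl) hx
  simp only at h1
  have hr0 : 0 < (√(V x0))⁻¹ := inv_pos.2 (Real.sqrt_pos.2 (h.V_pos x0))
  have hr : 0 < √(V x) := Real.sqrt_pos.2 (h.V_pos x)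
  have h2 : kl * (x0 - x) / (2 * s) ≤ (√(V x))⁻¹ := by
    have e : kl * (x0 - x) / (2 * s) = kl * x0 / (2 * s) - kl * x / (2 * s) := by ring
    rw [e]; linarith
  calc kl * (x0 - x) / (2 * s) * √(V x) ≤ (√(V x))⁻¹ * √(V x) :=
        mul_le_mul_of_nonneg_right h2 hr.le
    _ = 1 := inv_mul_cancel₀ hr.ne'

/-- weight times `√V` on the left -/
lemma weight_left (h : OneT s V P p Y x0 c0 kl C1) {x : ℝ} (hx : x ≤ x0) :
    (1 + (x0 - x) / s) * √(V x) ≤ 1 + 2 / kl := by
  have hs := h.s_pos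
  have hkl := h.kl_pos
  have h1 := h.le_left hx
  have h2 : √(V x) ≤ 1 := by
    exact Real.sqrt_le_one.2 (h.V_lt x).le
  have h3 : (x0 - x) / s * √(V x) = 2 / kl * (kl * (x0 - x) / (2 * s) * √(V x)) := by
    field_simp
  have h4 : 2 / kl * (kl * (x0 - x) / (2 * s) * √(V x)) ≤ 2 / kl * 1 :=
    mul_le_mul_of_nonneg_left h1 (by positivity)
  calc (1 + (x0 - x) / s) * √(V x) = √(V x) + (x0 - x) / s * √(V x) := by ring
    _ ≤ 1 + 2 / kl := by rw [h3]; linarith

/-- `V` does not drop too fast on the left of the median point -/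
lemma lo_lin (h : OneT s V P p Y x0 c0 kl C1) {x : ℝ} (hx : x ≤ x0) :
    1 / 2 - C1 * (x0 - x) / s ≤ V x := by
  have hs := h.s_pos
  have hm : Monotone (fun y => C1 * y / s - V y) := by
    refine monotone_of_hasDerivAt_nonneg (f' := fun y => C1 / s - P y) ?_ ?_
    · intro y
      have h1 := (((hasDerivAt_id y).const_mul C1).div_const s).sub (h.hV y)
      have h2 : HasDerivAt (fun y => C1 * y / s - V y) (C1 * 1 / s - P y) y := h1
      rw [mul_one] at h2
      exact h2
    · intro y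
      have := h.hi y
      simp only [Pi.zero_apply, sub_nonneg]
      rw [le_div_iff₀ hs]; linarith
  have h1 := hm hx
  simp only [h.V0] at h1
  have h2 : C1 * (x0 - x) / s = C1 * x0 / s - C1 * x / s := by ring
  rw [h2]; linarith

/-- the width of the window on the left of the median point -/
noncomputable def dl (C1 : ℝ) : ℝ := 3 / (10 * C1)

lemma dl_pos (h : OneT s V P p Y x0 c0 kl C1) : 0 < dl C1 := by
  have := h.C1_pos
  unfold dl; positivity

lemma V_win (h : OneT s V P p Y x0 c0 kl C1) {x : ℝ} (hx : x0 - dl C1 * s ≤ x) : 1 / 5 ≤ V x := by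
  have hs := h.s_pos
  have hC := h.C1_pos
  have h1 : V (x0 - dl C1 * s) ≤ V x := h.mono hx
  have h2 := h.lo_lin (x := x0 - dl C1 * s) (by nlinarith [h.dl_pos])
  have h3 : C1 * (x0 - (x0 - dl C1 * s)) / s = 3 / 10 := by
    unfold dl; field_simp; ring
  rw [h3] at h2
  linarith

lemma p_compare (h : OneT s V P p Y x0 c0 kl C1) {lam : ℝ}
    (hY : ∀ x, 1 / 5 ≤ V x → -lam ≤ s * Y x) :
    AntitoneOn (fun z => p z * Real.exp (-(lam * z / s))) (Ici (x0 - dl C1 * s)) := by
  have hs := h.s_pos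
  refine antitoneOn_of_deriv_nonpos (convex_Ici _) ?_ ?_ ?_
  · exact (h.cont_p.mul (by fun_prop)).continuousOn
  · intro y _
    exact ((h.hp y).mul
      ((((hasDerivAt_id y).const_mul lam).div_const s).neg.exp)).differentiableAt.differentiableWithinAt
  · intro y hy
    rw [interior_Ici] at hy
    have hg : HasDerivAt (fun z => -(lam * z / s)) (-(lam / s)) y := by
      have h1 := (((hasDerivAt_id y).const_mul lam).div_const s).neg
      have h2 : HasDerivAt (fun z => -(lam * z / s)) (-(lam * 1 / s)) y := h1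
      rwa [mul_one] at h2
    have hd' : HasDerivAt (fun z => p z * Real.exp (-(lam * z / s)))
      (-Y y * p y * Real.exp (-(lam * y / s)) +
        p y * (Real.exp (-(lam * y / s)) * (-(lam / s)))) y := (h.hp y).mul hg.exp
    rw [hd'.deriv]
    have h1 := hY y (h.V_win (le_of_lt hy))
    have h2 : -lam / s ≤ Y y := by rw [div_le_iff₀ hs]; linarith
    have h3 := h.p_pos y
    have h6 : 0 < Real.exp (-(lam * y / s)) := Real.exp_pos _
    have h7 : 0 ≤ (Y y + lam / s) * (p y * Real.exp (-(lam * y / s))) :=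
      mul_nonneg (by rw [neg_div] at h2; linarith) (mul_pos h3 h6).le
    have e1 : -Y y * p y * Real.exp (-(lam * y / s)) +
        p y * (Real.exp (-(lam * y / s)) * (-(lam / s))) =
        -((Y y + lam / s) * (p y * Real.exp (-(lam * y / s)))) := by ring
    rw [e1]; linarith

lemma int_Z (h : OneT s V P p Y x0 c0 kl C1) : Integrable (fun x => p x * (V x * (1 - V x) ^ 2)) := by
  refine h.int_p.mono ((h.cont_p.mul (h.cont_V.mul
    ((continuous_const.sub h.cont_V).pow 2))).aestronglyMeasurable) (Eventually.of_forall fun x => ?_)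
  have h1 := h.V_pos x
  have h2 := h.V_lt x
  have h3 := h.p_pos x
  have h4 : 0 ≤ (1 - V x) := by linarith
  rw [Real.norm_of_nonneg (by positivity), Real.norm_of_nonneg h3.le]
  have h5 : V x * (1 - V x) ^ 2 ≤ 1 := by nlinarith [pow_le_one₀ h4 (by linarith : 1 - V x ≤ 1) (n := 2)]
  nlinarith

lemma Z_nonneg (h : OneT s V P p Y x0 c0 kl C1) (x : ℝ) : 0 ≤ p x * (V x * (1 - V x) ^ 2) :=
  mul_nonneg (h.p_pos x).le (mul_nonneg (h.V_pos x).le (sq_nonneg _))

/-- pointwise bound of `p` on the right of the median point by the total `∫ p V (1-V)²` -/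
lemma p_right (h : OneT s V P p Y x0 c0 kl C1) {lam : ℝ} (hlam : 0 ≤ lam)
    (hY : ∀ x, 1 / 5 ≤ V x → -lam ≤ s * Y x) {x : ℝ} (hx : x0 ≤ x) :
    p x ≤ 20 / (dl C1 * s) * Real.exp (lam * dl C1) * Real.exp (lam * (x - x0) / s) *
      ∫ x, p x * (V x * (1 - V x) ^ 2) := by
  have hs := h.s_pos
  have hd := h.dl_pos
  set a := x0 - dl C1 * s with ha
  have hax : a ≤ x0 := by rw [ha]; nlinarith
  have hcmp := h.p_compare hY
  -- lower bound of the total
  have hI : ∫ y in Icc a x0, p y * (V y * (1 - V y) ^ 2) ≤ ∫ x, p x * (V x * (1 - V x) ^ 2) :=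
    setIntegral_le_integral h.int_Z (Eventually.of_forall h.Z_nonneg)
  set c := p x * Real.exp (-(lam * (x - a) / s)) with hc
  have hlow : ∀ y ∈ Icc a x0, c / 20 ≤ p y * (V y * (1 - V y) ^ 2) := by
    intro y hy
    have h1 : 1 / 5 ≤ V y := h.V_win hy.1
    have h2 : V y ≤ 1 / 2 := by rw [← h.V0]; exact h.mono hy.2
    have h3 : 1 / 20 ≤ V y * (1 - V y) ^ 2 := by nlinarith [sq_nonneg (1 / 2 - V y)]
    have h4 := hcmp (mem_Ici.2 hy.1) (mem_Ici.2 (hax.trans hx)) (hy.2.trans hx)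
    simp only at h4
    have h5 : c ≤ p y := by
      have e1 : c = (p x * Real.exp (-(lam * x / s))) * Real.exp (lam * a / s) := by
        rw [hc, mul_assoc, ← Real.exp_add]; congr 2; ring
      have e2 : p y = (p y * Real.exp (-(lam * y / s))) * Real.exp (lam * y / s) := by
        rw [mul_assoc, ← Real.exp_add]; simp
      rw [e1, e2]
      refine mul_le_mul h4 ?_ (Real.exp_pos _).le (mul_pos (h.p_pos y) (Real.exp_pos _)).le
      refine Real.exp_le_exp.2 ?_
      gcongr
      exact hy.1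
    have h6 : 0 ≤ c := (mul_pos (h.p_pos x) (Real.exp_pos _)).le
    calc c / 20 = c * (1 / 20) := by ring
      _ ≤ p y * (V y * (1 - V y) ^ 2) := mul_le_mul h5 h3 (by norm_num) (h.p_pos y).le
  have hJ : (c / 20) * (dl C1 * s) ≤ ∫ y in Icc a x0, p y * (V y * (1 - V y) ^ 2) := by
    have := setIntegral_mono_on (μ := volume) (f := fun _ => c / 20)
      (g := fun y => p y * (V y * (1 - V y) ^ 2)) (s := Icc a x0)
      (by simp [integrableOn_const_iff]) h.int_Z.integrableOn measurableSet_Icc hlow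
    refine le_trans (le_of_eq ?_) this
    rw [setIntegral_const, Real.volume_real_Icc_of_le hax, smul_eq_mul, ha]
    ring
  have hK : (c / 20) * (dl C1 * s) ≤ ∫ x, p x * (V x * (1 - V x) ^ 2) := hJ.trans hI
  have e3 : p x = c * Real.exp (lam * (x - a) / s) := by
    rw [hc, mul_assoc, ← Real.exp_add]; simp
  have e4 : Real.exp (lam * (x - a) / s) =
      Real.exp (lam * dl C1) * Real.exp (lam * (x - x0) / s) := by
    rw [← Real.exp_add]; congr 1; rw [ha]; field_simp; ring
  have h7 : c ≤ 20 / (dl C1 * s) * ∫ x, p x * (V x * (1 - V x) ^ 2) := by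
    rw [div_mul_eq_mul_div, le_div_iff₀ (by positivity)]; linarith
  rw [e3, e4]
  calc c * (Real.exp (lam * dl C1) * Real.exp (lam * (x - x0) / s))
      ≤ (20 / (dl C1 * s) * ∫ x, p x * (V x * (1 - V x) ^ 2)) *
        (Real.exp (lam * dl C1) * Real.exp (lam * (x - x0) / s)) :=
        mul_le_mul_of_nonneg_right h7 (by positivity)
    _ = _ := by ring

/-- the constant of the absorb lemma -/
noncomputable def Kc (c0 C1 e : ℝ) : ℝ :=
  4 + 20 / dl C1 * Real.exp (e * c0 / 4 * dl C1) * ((1 + 2 / (e * c0 / 4)) * (2 / (e * c0 / 4)))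

lemma Kc_pos (h : OneT s V P p Y x0 c0 kl C1) {e : ℝ} (he : 0 < e) : 0 < Kc c0 C1 e := by
  have h1 := h.dl_pos
  have h2 := h.c0_pos
  unfold Kc; positivity

lemma one_add_le {κ y : ℝ} (hκ : 0 < κ) (hy : 0 ≤ y) :
    1 + y ≤ (1 + 2 / κ) * Real.exp (κ * y / 2) := by
  have h1 : 1 + κ * y / 2 ≤ Real.exp (κ * y / 2) := by
    have := Real.add_one_le_exp (κ * y / 2); linarith
  have h2 : (1 + 2 / κ) * (1 + κ * y / 2) ≤ (1 + 2 / κ) * Real.exp (κ * y / 2) :=
    mul_le_mul_of_nonneg_left h1 (by positivity)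
  have h3 : (1 + 2 / κ) * (1 + κ * y / 2) = 1 + y + 2 / κ + κ * y / 2 := by
    field_simp; ring
  have h4 : 0 ≤ 2 / κ := by positivity
  have h5 : 0 ≤ κ * y / 2 := by positivity
  linarith

/-- **(ABS), main form.** -/
theorem abs_main (h : OneT s V P p Y x0 c0 kl C1) {lam e C : ℝ} {H : ℝ → ℝ} (he : 0 < e)
    (hlam0 : 0 ≤ lam) (hlam : lam ≤ e * c0 / 4) (hC : 0 ≤ C)
    (hY : ∀ x, 1 / 5 ≤ V x → -lam ≤ s * Y x)
    (hHm : AEStronglyMeasurable H volume) (hH0 : ∀ x, 0 ≤ H x)
    (hl : ∀ x ≤ x0, H x ≤ C * V x)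
    (hr : ∀ x, x0 ≤ x → H x ≤ C * (1 + (x - x0) / s) * (1 - V x) ^ e) :
    Integrable (fun x => p x * H x) ∧
      ∫ x, p x * H x ≤ C * Kc c0 C1 e * ∫ x, p x * (V x * (1 - V x) ^ 2) := by
  have hs := h.s_pos
  have hd := h.dl_pos
  have hc0 := h.c0_pos
  set Z := ∫ x, p x * (V x * (1 - V x) ^ 2) with hZ
  have hZ0 : 0 ≤ Z := integral_nonneg h.Z_nonneg
  set κ := e * c0 / 4 with hκ
  have hκ0 : 0 < κ := by rw [hκ]; positivity
  have hpm : AEStronglyMeasurable (fun x => p x * H x) volume :=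
    h.cont_p.aestronglyMeasurable.mul hHm
  have hpH0 : ∀ x, 0 ≤ p x * H x := fun x => mul_nonneg (h.p_pos x).le (hH0 x)
  -- left part
  have hL : ∀ x ∈ Iic x0, p x * H x ≤ 4 * C * (p x * (V x * (1 - V x) ^ 2)) := by
    intro x hx
    have h1 := hl x hx
    have h2 : V x ≤ 1 / 2 := by rw [← h.V0]; exact h.mono hx
    have h3 := h.V_pos x
    have h4 := h.p_pos x
    have h5 : 1 / 4 ≤ (1 - V x) ^ 2 := by nlinarith
    have h6 : V x ≤ 4 * (V x * (1 - V x) ^ 2) := by nlinarith
    calc p x * H x ≤ p x * (C * V x) := mul_le_mul_of_nonneg_left h1 h4.le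
      _ ≤ p x * (C * (4 * (V x * (1 - V x) ^ 2))) := by gcongr
      _ = _ := by ring
  have hLi : IntegrableOn (fun x => p x * H x) (Iic x0) := by
    refine Integrable.mono ((h.int_Z.const_mul (4 * C)).integrableOn (s := Iic x0)) hpm.restrict ?_
    refine (ae_restrict_iff' measurableSet_Iic).2 (Eventually.of_forall fun x hx => ?_)
    rw [Real.norm_of_nonneg (hpH0 x), Real.norm_of_nonneg
      (mul_nonneg (by positivity) (h.Z_nonneg x))]
    exact hL x hx
  have hLv : ∫ x in Iic x0, p x * H x ≤ 4 * C * Z := by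
    calc ∫ x in Iic x0, p x * H x
        ≤ ∫ x in Iic x0, 4 * C * (p x * (V x * (1 - V x) ^ 2)) :=
          setIntegral_mono_on hLi (h.int_Z.const_mul (4 * C)).integrableOn measurableSet_Iic hL
      _ ≤ ∫ x, 4 * C * (p x * (V x * (1 - V x) ^ 2)) :=
          setIntegral_le_integral (h.int_Z.const_mul (4 * C))
            (Eventually.of_forall fun x => mul_nonneg (by positivity) (h.Z_nonneg x))
      _ = 4 * C * Z := by rw [integral_const_mul]
  -- right part
  set M := 20 / (dl C1 * s) * Real.exp (κ * dl C1) * Z with hM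
  have hM0 : 0 ≤ M := by rw [hM]; positivity
  set a := -(κ / (2 * s)) with ha
  have ha0 : a < 0 := by rw [ha]; exact neg_lt_zero.2 (by positivity)
  set B := M * C * (1 + 2 / κ) * Real.exp (κ * x0 / (2 * s)) with hB
  have hR : ∀ x ∈ Ioi x0, p x * H x ≤ B * Real.exp (a * x) := by
    intro x hx
    have hx' : x0 ≤ x := le_of_lt hx
    have hy0 : 0 ≤ (x - x0) / s := div_nonneg (by linarith) hs.le
    have h1 := h.p_right hlam0 hY hx'
    rw [← hZ] at h1
    have h2 : p x ≤ M * Real.exp (lam * (x - x0) / s) := by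
      refine h1.trans ?_
      have : Real.exp (lam * dl C1) ≤ Real.exp (κ * dl C1) :=
        Real.exp_le_exp.2 (mul_le_mul_of_nonneg_right hlam hd.le)
      calc 20 / (dl C1 * s) * Real.exp (lam * dl C1) * Real.exp (lam * (x - x0) / s) * Z
          ≤ 20 / (dl C1 * s) * Real.exp (κ * dl C1) * Real.exp (lam * (x - x0) / s) * Z := by
            gcongr
        _ = _ := by rw [hM]; ring
    have h3 := h.one_sub_le hx'
    have h4 : 0 < 1 - V x := sub_pos.2 (h.V_lt x)
    have h5 : (1 - V x) ^ e ≤ Real.exp (-(2 * κ * ((x - x0) / s))) := by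
      have h6 : 1 - V x ≤ Real.exp (-(c0 * (x - x0) / (2 * s))) := by
        have : 0 < Real.exp (-(c0 * (x - x0) / (2 * s))) := Real.exp_pos _
        linarith
      calc (1 - V x) ^ e ≤ (Real.exp (-(c0 * (x - x0) / (2 * s)))) ^ e :=
            Real.rpow_le_rpow h4.le h6 he.le
        _ = Real.exp (-(2 * κ * ((x - x0) / s))) := by
            rw [← Real.exp_mul]; congr 1; rw [hκ]; field_simp; ring
    have h7 := one_add_le hκ0 hy0
    have h8 := hr x hx'
    have h9 : H x ≤ C * ((1 + 2 / κ) * Real.exp (κ * ((x - x0) / s) / 2)) *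
        Real.exp (-(2 * κ * ((x - x0) / s))) := by
      refine h8.trans ?_
      refine mul_le_mul (mul_le_mul_of_nonneg_left h7 hC) h5 (Real.rpow_nonneg h4.le _) ?_
      positivity
    have h10 : Real.exp (lam * (x - x0) / s) ≤ Real.exp (κ * ((x - x0) / s)) := by
      refine Real.exp_le_exp.2 ?_
      rw [mul_div_assoc]
      exact mul_le_mul_of_nonneg_right hlam hy0
    calc p x * H x ≤ (M * Real.exp (κ * ((x - x0) / s))) *
          (C * ((1 + 2 / κ) * Real.exp (κ * ((x - x0) / s) / 2)) *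
        Real.exp (-(2 * κ * ((x - x0) / s)))) := by
          refine mul_le_mul (h2.trans (mul_le_mul_of_nonneg_left h10 hM0)) h9 (hH0 x) (by positivity)
      _ = B * Real.exp (a * x) := by
          have e1 : B * Real.exp (a * x) =
            M * C * (1 + 2 / κ) * (Real.exp (κ * x0 / (2 * s)) * Real.exp (a * x)) := by
              rw [hB]; ring
          rw [e1, ← Real.exp_add]
          have e2 : (M * Real.exp (κ * ((x - x0) / s))) *
              (C * ((1 + 2 / κ) * Real.exp (κ * ((x - x0) / s) / 2)) *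
                Real.exp (-(2 * κ * ((x - x0) / s)))) =
              M * C * (1 + 2 / κ) * ((Real.exp (κ * ((x - x0) / s)) *
                Real.exp (κ * ((x - x0) / s) / 2)) * Real.exp (-(2 * κ * ((x - x0) / s)))) := by
              ring
          rw [e2, ← Real.exp_add, ← Real.exp_add]
          congr 2
          rw [ha]; field_simp; ring
  have hexpi : IntegrableOn (fun x => B * Real.exp (a * x)) (Ioi x0) :=
    (integrableOn_exp_mul_Ioi ha0 x0).const_mul B
  have hRi : IntegrableOn (fun x => p x * H x) (Ioi x0) := by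
    refine Integrable.mono hexpi hpm.restrict ?_
    refine (ae_restrict_iff' measurableSet_Ioi).2 (Eventually.of_forall fun x hx => ?_)
    have hB0 : 0 ≤ B := by rw [hB]; positivity
    rw [Real.norm_of_nonneg (hpH0 x), Real.norm_of_nonneg
      (mul_nonneg hB0 (Real.exp_pos _).le)]
    exact hR x hx
  have hRv : ∫ x in Ioi x0, p x * H x ≤
      C * (20 / dl C1 * Real.exp (κ * dl C1) * ((1 + 2 / κ) * (2 / κ))) * Z := by
    calc ∫ x in Ioi x0, p x * H x ≤ ∫ x in Ioi x0, B * Real.exp (a * x) :=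
          setIntegral_mono_on hRi hexpi measurableSet_Ioi hR
      _ = B * (-Real.exp (a * x0) / a) := by
          rw [integral_const_mul, integral_exp_mul_Ioi ha0]
      _ = _ := by
          have e1 : B * (-Real.exp (a * x0) / a) = M * C * (1 + 2 / κ) *
            (Real.exp (κ * x0 / (2 * s)) * Real.exp (a * x0)) * (-1 / a) := by
              rw [hB]; ring
          rw [e1, ← Real.exp_add]
          have e2 : κ * x0 / (2 * s) + a * x0 = 0 := by rw [ha]; field_simp; ring
          rw [e2, Real.exp_zero, hM, ha]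
          field_simp
  have hunion : (Iic x0 ∪ Ioi x0 : Set ℝ) = univ := Iic_union_Ioi
  have hint : Integrable (fun x => p x * H x) := by
    rw [← integrableOn_univ, ← hunion]
    exact hLi.union hRi
  refine ⟨hint, ?_⟩
  have hsplit : ∫ x, p x * H x = (∫ x in Iic x0, p x * H x) + ∫ x in Ioi x0, p x * H x := by
    rw [← setIntegral_univ, ← hunion, setIntegral_union (Iic_disjoint_Ioi le_rfl) measurableSet_Ioi hLi hRi]
  rw [hsplit]
  have : C * Kc c0 C1 e * Z = 4 * C * Z +
      C * (20 / dl C1 * Real.exp (κ * dl C1) * ((1 + 2 / κ) * (2 / κ))) * Z := by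
    unfold Kc; rw [← hκ]; ring
  rw [this]
  linarith

/-- **(ABS), functions of the level, no weight.** -/
theorem abs_le (h : OneT s V P p Y x0 c0 kl C1) {lam e C : ℝ} {F : ℝ → ℝ} (he : 0 < e)
    (hlam0 : 0 ≤ lam) (hlam : lam ≤ e * c0 / 4) (hC : 0 ≤ C)
    (hY : ∀ x, 1 / 5 ≤ V x → -lam ≤ s * Y x)
    (hF : Measurable F) (hF0 : ∀ v ∈ Ioo (0 : ℝ) 1, 0 ≤ F v)
    (hFl : ∀ v ∈ Ioc (0 : ℝ) (1 / 2), F v ≤ C * v)
    (hFr : ∀ v ∈ Ico (1 / 2 : ℝ) 1, F v ≤ C * (1 - v) ^ e) :
    Integrable (fun x => p x * F (V x)) ∧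
      ∫ x, p x * F (V x) ≤ C * Kc c0 C1 e * ∫ x, p x * (V x * (1 - V x) ^ 2) := by
  refine h.abs_main he hlam0 hlam hC hY (hF.comp h.cont_V.measurable).aestronglyMeasurable
    (fun x => hF0 _ ⟨h.V_pos x, h.V_lt x⟩) ?_ ?_
  · intro x hx
    exact hFl _ ⟨h.V_pos x, by rw [← h.V0]; exact h.mono hx⟩
  · intro x hx
    have h1 := hFr _ ⟨by rw [← h.V0]; exact h.mono hx, h.V_lt x⟩
    have h2 : 0 ≤ (x - x0) / s := div_nonneg (by linarith) h.s_pos.le
    have h3 : 0 ≤ C * (1 - V x) ^ e :=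
      mul_nonneg hC (Real.rpow_nonneg (sub_nonneg.2 (h.V_lt x).le) _)
    calc F (V x) ≤ C * (1 - V x) ^ e := h1
      _ ≤ C * (1 - V x) ^ e + (x - x0) / s * (C * (1 - V x) ^ e) := by
          have := mul_nonneg h2 h3; linarith
      _ = _ := by ring

/-- **(ABS), functions of the level with the weight `1 + |x - x₀|/s`.** -/
theorem abs_wle (h : OneT s V P p Y x0 c0 kl C1) {lam e C : ℝ} {F : ℝ → ℝ} (he : 0 < e)
    (hlam0 : 0 ≤ lam) (hlam : lam ≤ e * c0 / 4) (hC : 0 ≤ C)
    (hY : ∀ x, 1 / 5 ≤ V x → -lam ≤ s * Y x)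
    (hF : Measurable F) (hF0 : ∀ v ∈ Ioo (0 : ℝ) 1, 0 ≤ F v)
    (hFl : ∀ v ∈ Ioc (0 : ℝ) (1 / 2), F v ≤ C * (v * √v))
    (hFr : ∀ v ∈ Ico (1 / 2 : ℝ) 1, F v ≤ C * (1 - v) ^ e) :
    Integrable (fun x => p x * ((1 + |x - x0| / s) * F (V x))) ∧
      ∫ x, p x * ((1 + |x - x0| / s) * F (V x)) ≤
        C * (1 + 2 / kl) * Kc c0 C1 e * ∫ x, p x * (V x * (1 - V x) ^ 2) := by
  have hs := h.s_pos
  have hc0 := h.c0_pos
  have hkl := h.kl_pos
  have hC' : 0 ≤ C * (1 + 2 / kl) := by positivity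
  refine h.abs_main he hlam0 hlam hC' hY ?_ ?_ ?_ ?_
  · refine AEStronglyMeasurable.mul ?_ (hF.comp h.cont_V.measurable).aestronglyMeasurable
    exact (by fun_prop : Continuous fun x : ℝ => 1 + |x - x0| / s).aestronglyMeasurable
  · intro x
    exact mul_nonneg (by positivity) (hF0 _ ⟨h.V_pos x, h.V_lt x⟩)
  · intro x hx
    have h1 := hFl _ ⟨h.V_pos x, by rw [← h.V0]; exact h.mono hx⟩
    have h2 := h.V_pos x
    have habs : |x - x0| = x0 - x := by rw [abs_sub_comm, abs_of_nonneg (by linarith)]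
    have hy0 : 0 ≤ (x0 - x) / s := div_nonneg (by linarith) hs.le
    rw [habs]
    have h5 := h.weight_left hx
    calc (1 + (x0 - x) / s) * F (V x) ≤ (1 + (x0 - x) / s) * (C * (V x * √(V x))) :=
          mul_le_mul_of_nonneg_left h1 (by positivity)
      _ = C * V x * ((1 + (x0 - x) / s) * √(V x)) := by ring
      _ ≤ C * V x * (1 + 2 / kl) := mul_le_mul_of_nonneg_left h5 (by positivity)
      _ = C * (1 + 2 / kl) * V x := by ring
  · intro x hx
    have h1 := hFr _ ⟨by rw [← h.V0]; exact h.mono hx, h.V_lt x⟩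
    have hy0 : 0 ≤ (x - x0) / s := div_nonneg (by linarith) hs.le
    rw [abs_of_nonneg (by linarith : 0 ≤ x - x0)]
    have h3 : 0 ≤ C * (1 - V x) ^ e :=
      mul_nonneg hC (Real.rpow_nonneg (sub_nonneg.2 (h.V_lt x).le) _)
    calc (1 + (x - x0) / s) * F (V x) ≤ (1 + (x - x0) / s) * (C * (1 - V x) ^ e) :=
          mul_le_mul_of_nonneg_left h1 (by positivity)
      _ = (C * (1 + (x - x0) / s) * (1 - V x) ^ e) * 1 := by ring
      _ ≤ (C * (1 + (x - x0) / s) * (1 - V x) ^ e) * (1 + 2 / kl) := by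
          refine mul_le_mul_of_nonneg_left ?_ ?_
          · have : 0 ≤ 2 / kl := by positivity
            linarith
          · have : 0 ≤ (1 + (x - x0) / s) * (C * (1 - V x) ^ e) := mul_nonneg (by positivity) h3
            linarith [this, (by ring : (1 + (x - x0) / s) * (C * (1 - V x) ^ e) =
              C * (1 + (x - x0) / s) * (1 - V x) ^ e)]
      _ = _ := by ring

/-- constructor from the universal band `s P ≥ k V^{3/2} (1-V)` -/
theorem of_band {k : ℝ} (hs : 0 < s) (hV : ∀ x, HasDerivAt V (P x) x) (V_pos : ∀ x, 0 < V x)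
    (V_lt : ∀ x, V x < 1) (p_pos : ∀ x, 0 < p x) (hp : ∀ x, HasDerivAt p (-Y x * p x) x)
    (V0 : V x0 = 1 / 2) (hk : 0 < k) (hlo : ∀ x, k * (V x * √(V x) * (1 - V x)) ≤ s * P x)
    (hi : ∀ x, s * P x ≤ C1) (int_p : Integrable p) :
    OneT s V P p Y x0 (7 / 10 * k) (k / 2) C1 where
  s_pos := hs
  hV := hV
  V_pos := V_pos
  V_lt := V_lt
  p_pos := p_pos
  hp := hp
  V0 := V0
  c0_pos := by positivity
  kl_pos := by positivity
  right := by
    intro x hx
    have h1 := hlo x
    have h2 := V_lt x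
    have h3 : 7 / 10 ≤ √(V x) := Real.le_sqrt_of_sq_le (by norm_num; linarith)
    have h4 : 7 / 20 ≤ V x * √(V x) := by nlinarith
    have h5 : 7 / 20 * (1 - V x) ≤ V x * √(V x) * (1 - V x) :=
      mul_le_mul_of_nonneg_right h4 (by linarith)
    have h6 := mul_le_mul_of_nonneg_left h5 hk.le
    linarith
  left := by
    intro x hx
    have h1 := hlo x
    have h2 := V_pos x
    have h4 : 0 ≤ V x * √(V x) := by positivity
    have h5 : V x * √(V x) * (1 / 2) ≤ V x * √(V x) * (1 - V x) :=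
      mul_le_mul_of_nonneg_left (by linarith) h4
    have h6 := mul_le_mul_of_nonneg_left h5 hk.le
    linarith
  hi := hi
  int_p := int_p

end OneT

end Crest.Agent.R146.ClAbs_121
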