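import Crest.Agent.R146.ClDef_42

/-!
Row 146, S0205, PT-CLODUAL (task 158), interface, version 2 (helper42): the absorb lemmas for the
two explicit functions `Fs`, `Fss` only.  `ABSR` has the linear weight on the right side only and
`F ~ v` at `0` (needed for the lower closure inequality, where `S ~ a v`, `G ~ -g v`); `ABSL` has the
weight on both sides and `F ~ v^(1+e)` at `0` (upper closure inequality).
-/

set_option autoImplicit false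

namespace Crest.Agent.R146.ClDef2_42

open MeasureTheory Crest.Agent.R146.ClDef_42

noncomputable section

/-- `v` on `(0,1/2]`, `(1-v)^e` on `(1/2,1)`. -/
def Fs (e v : ℝ) : ℝ := if v ≤ 1 / 2 then v else (1 - v) ^ e

/-- `v^(1+e)` on `(0,1/2]`, `(1-v)^e` on `(1/2,1)`. -/
def Fss (e v : ℝ) : ℝ := if v ≤ 1 / 2 then v ^ (1 + e) else (1 - v) ^ e

/-- (A1), (A3) linear weight on the right side. -/
def ABSR : Prop := ∀ (c0 C1 e : ℝ), 0 < c0 → 0 < C1 → 0 < e → ∃ K : ℝ, 0 ≤ K ∧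
  ∀ (s x0 lam : ℝ) (V P p Y : ℝ → ℝ), OneT s x0 c0 C1 V P p Y → 0 ≤ lam → lam ≤ e * c0 / 4 →
  (∀ x, 1 / 5 ≤ V x → -lam ≤ s * Y x) →
  ∫ x, p x * ((1 + max (x - x0) 0 / s) * Fs e (V x)) ≤ K * ∫ x, p x * (V x * (1 - V x) ^ 2)

/-- (A2) linear weight on both sides. -/
def ABSL : Prop := ∀ (c0 C1 e : ℝ), 0 < c0 → 0 < C1 → 0 < e → ∃ K : ℝ, 0 ≤ K ∧
  ∀ (s x0 lam : ℝ) (V P p Y : ℝ → ℝ), OneT s x0 c0 C1 V P p Y → 0 ≤ lam → lam ≤ e * c0 / 4 →
  (∀ x, 1 / 5 ≤ V x → -lam ≤ s * Y x) →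
  ∫ x, p x * ((1 + |x - x0| / s) * Fss e (V x)) ≤ K * ∫ x, p x * (V x * (1 - V x) ^ 2)

end

end Crest.Agent.R146.ClDef2_42
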