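import Mathlib.MeasureTheory.Integral.Bochner.Basic
import Mathlib.MeasureTheory.Measure.Lebesgue.Basic
import Mathlib.Analysis.SpecialFunctions.Pow.Real
import Mathlib.Analysis.Calculus.Deriv.Basic

/-!
Row 146, S0205, PT-CLODUAL (task 158): one fixed time (helper42, text of helper121's post 1131).

`OneT s x0 c0 C1 V P p Y` : the profile `V`, `P = V'`, the density `p`, `Y = -(log p)'` at one time,
`s = √χ`, `V x0 = 1/2`, `c0 V(1-V) ≤ s P ≤ C1`.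
`ABS1, ABS2` : the absorb lemmas (A1), (A2) as exact Props (proved by helper121).
-/

set_option autoImplicit false

namespace Crest.Agent.R146.ClDef_42

open MeasureTheory

/-- one-time data -/
structure OneT (s x0 c0 C1 : ℝ) (V P p Y : ℝ → ℝ) : Prop where
  s_pos : 0 < s
  c0_pos : 0 < c0
  V_x : ∀ x, HasDerivAt V (P x) x
  V_pos : ∀ x, 0 < V x
  V_lt : ∀ x, V x < 1
  x0_half : V x0 = 1 / 2
  P_lo : ∀ x, c0 * (V x * (1 - V x)) ≤ s * P x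
  P_hi : ∀ x, s * P x ≤ C1
  P_meas : Measurable P
  p_pos : ∀ x, 0 < p x
  p_x : ∀ x, HasDerivAt p (-Y x * p x) x
  Y_meas : Measurable Y
  mom : ∀ n : ℕ, Integrable (fun x => p x * (1 + |x|) ^ n)
  tail : ∀ n : ℕ, Filter.Tendsto (fun x => p x * (1 + |x|) ^ n) (Filter.cocompact ℝ) (nhds 0)
  Y_lin : ∃ M, ∀ x, |Y x| ≤ M * (1 + |x|)

/-- (A1) -/
def ABS1 : Prop := ∀ (c0 C1 e : ℝ), 0 < c0 → 0 < C1 → 0 < e → ∃ K : ℝ, 0 ≤ K ∧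
  ∀ (s x0 lam : ℝ) (V P p Y : ℝ → ℝ), OneT s x0 c0 C1 V P p Y → 0 ≤ lam → lam ≤ e * c0 / 4 →
  (∀ x, 1 / 5 ≤ V x → -lam ≤ s * Y x) → ∀ (F : ℝ → ℝ) (C : ℝ), 0 ≤ C →
  (Measurable fun x => F (V x)) → (∀ v, 0 < v → v < 1 → 0 ≤ F v) →
  (∀ v, 0 < v → v ≤ 1 / 2 → F v ≤ C * v) → (∀ v, 1 / 2 ≤ v → v < 1 → F v ≤ C * (1 - v) ^ e) →
  Integrable (fun x => p x * F (V x)) ∧
    ∫ x, p x * F (V x) ≤ C * K * ∫ x, p x * (V x * (1 - V x) ^ 2)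

/-- (A2) -/
def ABS2 : Prop := ∀ (c0 C1 e : ℝ), 0 < c0 → 0 < C1 → 0 < e → ∃ K : ℝ, 0 ≤ K ∧
  ∀ (s x0 lam : ℝ) (V P p Y : ℝ → ℝ), OneT s x0 c0 C1 V P p Y → 0 ≤ lam → lam ≤ e * c0 / 4 →
  (∀ x, 1 / 5 ≤ V x → -lam ≤ s * Y x) → ∀ (F : ℝ → ℝ) (C : ℝ), 0 ≤ C →
  (Measurable fun x => F (V x)) → (∀ v, 0 < v → v < 1 → 0 ≤ F v) →
  (∀ v, 0 < v → v ≤ 1 / 2 → F v ≤ C * v ^ (1 + e)) →
  (∀ v, 1 / 2 ≤ v → v < 1 → F v ≤ C * (1 - v) ^ e) →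
  Integrable (fun x => p x * ((1 + |x - x0| / s) * F (V x))) ∧
    ∫ x, p x * ((1 + |x - x0| / s) * F (V x)) ≤ C * K * ∫ x, p x * (V x * (1 - V x) ^ 2)

end Crest.Agent.R146.ClDef_42
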