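import Crest.Agent.R146.Clo_42
import Crest.Agent.R146.Abs_423

/-!
Row 146, S0205, PT-CMP (helper42): CLOSURE + ABSORB at one fixed time (`Clo_42` + `Abs_423`).
`σ = χ^{-1/2}`.

* `up_abs` : band `P ≤ σ (1+ε) S(V)`, law `Y ≥ σ (ℓ - θ (B + σ u))`, dual inequality
  `S² - S G' + ℓ G ≤ 2 h v (1-v)²`, `G ≤ 0`  ⟹
  `∫ p P² ≤ σ² (2 h + (3 ε CF + θ CG) K) ∫ p V (1-V)²`;
* `lo_abs` : band `P ≥ σ (1-ε) S(V)`, law `Y ≤ σ (ℓ + θ (B + σ w))`, `G' ≤ 2 S`,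
  `2 h v (1-v)² ≤ S² - S G' + ℓ G`  ⟹  `σ² (2 h - (2 ε CF + θ CG) K) ∫ p V (1-V)² ≤ ∫ p P²`.
`K = KA CK e` depends only on the bound `P ≤ CK σ` and on the exponent `0 < e ≤ 1`.
-/

set_option autoImplicit false

namespace Crest.Agent.R146.CloAbs_42

open MeasureTheory Set Filter Topology Crest.Agent.R146.Clo_42 Crest.Agent.R146.Abs_423
  Crest.Agent.R146.Abs_423.Fix

noncomputable section

/-- `C v` on the left, `C (1-v)^e` on the right -/
def FF (C e v : ℝ) : ℝ := if v ≤ 1 / 2 then C * v else C * (1 - v) ^ e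

theorem FF_meas (C e : ℝ) : Measurable (FF C e) := by
  unfold FF
  refine Measurable.ite measurableSet_Iic (measurable_id.const_mul C) ?_
  exact ((measurable_const.sub measurable_id).pow_const e).const_mul C

theorem FF_nonneg {C e v : ℝ} (hC : 0 ≤ C) (hv : v ∈ Ioo (0 : ℝ) 1) : 0 ≤ FF C e v := by
  unfold FF
  split_ifs
  · exact mul_nonneg hC hv.1.le
  · exact mul_nonneg hC (Real.rpow_nonneg (sub_nonneg.2 hv.2.le) _)

theorem FF_le {C e v : ℝ} (hC : 0 ≤ C) (he : 0 < e) (hv : v ∈ Ioo (0 : ℝ) 1) : FF C e v ≤ C := by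
  unfold FF
  split_ifs
  · exact mul_le_of_le_one_right hC hv.2.le
  · exact mul_le_of_le_one_right hC
      (Real.rpow_le_one (sub_nonneg.2 hv.2.le) (by linarith [hv.1]) he.le)

theorem FF_right {C e v : ℝ} (hC : 0 ≤ C) (he1 : e ≤ 1) (hv : v ∈ Ioo (0 : ℝ) 1)
    (h : 1 / 2 ≤ v) : FF C e v ≤ C * (1 - v) ^ e := by
  unfold FF
  split_ifs with h1
  · have h2 : v = 1 / 2 := le_antisymm h1 h
    subst h2
    refine mul_le_mul_of_nonneg_left ?_ hC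
    have h3 : ((1 : ℝ) - 1 / 2) = 1 / 2 := by norm_num
    rw [h3]
    have := Real.rpow_le_rpow_of_exponent_ge (x := (1 / 2 : ℝ)) (by norm_num) (by norm_num) he1
    rwa [Real.rpow_one] at this
  · exact le_rfl

section abs

variable {σ : ℝ} {V P u p Y : ℝ → ℝ}

theorem int_p (L : Lw V P p Y) : Integrable p := by
  have := L.mom 0
  simpa using this

/-- absorb for `FF` -/
theorem abs_FF (h : Fix σ V P u) (L : Lw V P p Y) {CK e lam CF : ℝ} (hCK0 : 0 ≤ CK)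
    (hCK : ∀ x, P x ≤ CK * σ) (he : 0 < e) (he1 : e ≤ 1) (hCF : 0 ≤ CF) (hlam0 : 0 ≤ lam)
    (hlam : 72 * lam ≤ e) (hY : ∀ x, -(lam * σ * (1 + σ * max (-x) 0)) ≤ Y x) :
    Integrable (fun x => p x * FF CF e (V x)) ∧
      ∫ x, p x * FF CF e (V x) ≤ CF * KA CK e * ∫ x, p x * (V x * (1 - V x) ^ 2) := by
  have i1 : Integrable (fun x => p x * FF CF e (V x)) := by
    refine int_bdd L ((FF_meas CF e).comp (V_cont L).measurable).aestronglyMeasurable (M := CF)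
      fun x => ?_
    show |FF CF e (V x)| ≤ CF
    rw [abs_of_nonneg (FF_nonneg hCF (memV L x))]
    exact FF_le hCF he (memV L x)
  refine ⟨i1, h.absorb hCK0 hCK he hCF hlam0 hlam L.p_pos L.p_x hY (int_p L) i1 (fun x hx => ?_)
    fun x hx => ?_⟩
  · unfold FF; rw [if_pos hx]
  · refine (FF_right hCF he1 (memV L x) hx).trans ?_
    have h2 : 0 ≤ σ * max x 0 := mul_nonneg h.s_pos.le (le_max_right _ _)
    have h3 : 0 ≤ (1 - V x) ^ e := Real.rpow_nonneg (sub_nonneg.2 (L.V_lt x).le) _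
    nlinarith [mul_nonneg (mul_nonneg hCF h2) h3]

theorem su_cont (h : Fix σ V P u) : Continuous fun x => σ * u x := continuous_const.mul h.cu

/-- crude bound `0 ≤ u ≤ C (1+|x|)` -/
theorem u_growth (h : Fix σ V P u) (x : ℝ) : |σ * u x| ≤ (8 + σ) * (1 + |x|) := by
  have hs := h.s_pos
  rw [abs_of_pos (mul_pos hs (h.u_pos x))]
  have h0 : 0 ≤ |x| := abs_nonneg x
  rcases le_total (1 / 4) (V x) with h1 | h1
  · have := h.u_le h1
    nlinarith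
  · have h2 : V x ≤ 1 / 2 := by linarith
    have h3 := h.w_le h2
    have h4 : -x ≤ |x| := neg_le_abs x
    have h5 : σ * (-x) ≤ σ * |x| := mul_le_mul_of_nonneg_left h4 hs.le
    nlinarith

theorem w_growth (h : Fix σ V P u) (x : ℝ) : |σ * (x + u x)| ≤ (8 + σ) * (1 + |x|) := by
  have hs := h.s_pos
  rw [abs_of_pos (mul_pos hs (h.w_pos x))]
  have h0 : 0 ≤ |x| := abs_nonneg x
  rcases le_total (1 / 4) (V x) with h1 | h1
  · have := h.u_le h1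
    have h4 : x ≤ |x| := le_abs_self x
    have h5 : σ * x ≤ σ * |x| := mul_le_mul_of_nonneg_left h4 hs.le
    nlinarith
  · have h2 : V x ≤ 1 / 2 := by linarith
    have h3 := h.w_le h2
    nlinarith

/-- **closure, upper form, with absorb**. -/
theorem up_abs (h : Fix σ V P u) (L : Lw V P p Y) {CK e lam : ℝ} (hCK0 : 0 ≤ CK)
    (hCK : ∀ x, P x ≤ CK * σ) (he : 0 < e) (he1 : e ≤ 1) (hlam0 : 0 ≤ lam) (hlam : 72 * lam ≤ e)
    (hY : ∀ x, -(lam * σ * (1 + σ * max (-x) 0)) ≤ Y x)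
    {G G' : ℝ → ℝ} {Z : Set ℝ} (hG : GD G G' Z) (hG0 : ∀ v ∈ Ioo (0 : ℝ) 1, G v ≤ 0)
    {hh ε θ B CF CG : ℝ} {S ℓ : ℝ → ℝ} (hh0 : 0 ≤ hh) (hε : 0 ≤ ε) (hε1 : ε ≤ 1)
    (hθ : 0 ≤ θ) (hB : 0 ≤ B) (hCF : 0 ≤ CF) (hCG : 0 ≤ CG)
    (hS : ∀ x, 0 ≤ S (V x)) (hℓ : ∀ x, 0 ≤ ℓ x)
    (hP : ∀ x, P x ≤ σ * ((1 + ε) * S (V x)))
    (hlaw : ∀ x, σ * (ℓ x - θ * (B + σ * u x)) ≤ Y x)
    (hQ : ∀ x, V x ∉ Z → S (V x) ^ 2 - S (V x) * G' (V x) + ℓ x * G (V x) ≤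
      2 * hh * (V x * (1 - V x) ^ 2))
    (hF : ∀ x, V x ∉ Z → S (V x) ^ 2 + |S (V x) * G' (V x)| ≤ FF CF e (V x))
    (hGl : ∀ x, V x ≤ 1 / 2 → (B + σ * u x) * |G (V x)| ≤ CG * V x)
    (hGr : ∀ x, 1 / 2 ≤ V x → (B + 8) * |G (V x)| ≤ CG * (1 - V x) ^ e) :
    ∫ x, p x * P x ^ 2 ≤ σ ^ 2 * ((2 * hh + (3 * ε * CF + θ * CG) * KA CK e) *
      ∫ x, p x * (V x * (1 - V x) ^ 2)) := by
  have hs := h.s_pos
  have hsi : 0 < σ⁻¹ := inv_pos.2 hs
  obtain ⟨j1, j2⟩ := abs_FF h L hCK0 hCK he he1 hCF hlam0 hlam hY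
  obtain ⟨BG, hBG⟩ := hG.bd
  have iw : Integrable (fun x => p x * ((B + σ * u x) * |G (V x)|)) := by
    refine int_of L (M := (B + (8 + σ)) * BG) (n := 1)
      ((continuous_const.add (su_cont h)).mul
        (hG.cont.comp_continuous (V_cont L) (memV L)).abs).aestronglyMeasurable fun x => ?_
    rw [abs_mul, abs_abs, pow_one]
    have h1 : |B + σ * u x| ≤ (B + (8 + σ)) * (1 + |x|) := by
      refine (abs_add_le _ _).trans ?_
      have := u_growth h x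
      rw [abs_of_nonneg hB]
      have h0 : 0 ≤ |x| := abs_nonneg x
      nlinarith
    have h2 := mul_le_mul h1 (hBG _ (memV L x)) (abs_nonneg _) ((abs_nonneg _).trans h1)
    linarith
  have m1 := up L hG hG0 (s := σ⁻¹) (hh := hh) (ε := ε) (lam := θ) (S := S) (F := FF CF e)
    (ℓ := ℓ) (w := fun x => B + σ * u x) hsi hh0 hε hε1 hS
    (fun x => mul_nonpos_of_nonneg_of_nonpos (hℓ x) (hG0 _ (memV L x)))
    (fun x => by rw [inv_mul_le_iff₀ hs]; exact hP x)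
    (fun x => by rw [le_inv_mul_iff₀ hs]; exact hlaw x) hQ hF j1 iw
  have m2 := h.absorb hCK0 hCK he hCG hlam0 hlam L.p_pos L.p_x hY (int_p L) iw hGl
    (fun x hx => by
      have h1 := hGr x hx
      have h2 : (B + σ * u x) * |G (V x)| ≤ (B + 8) * |G (V x)| :=
        mul_le_mul_of_nonneg_right (by linarith [h.u_le (show 1 / 4 ≤ V x by linarith)])
          (abs_nonneg _)
      have h3 : 0 ≤ (1 - V x) ^ e := Real.rpow_nonneg (sub_nonneg.2 (L.V_lt x).le) _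
      have h4 : 0 ≤ σ * max x 0 := mul_nonneg hs.le (le_max_right _ _)
      nlinarith [mul_nonneg (mul_nonneg hCG h4) h3])
  set Zz := ∫ x, p x * (V x * (1 - V x) ^ 2) with hZz
  have hN : ∫ x, p x * P x ^ 2 = σ ^ 2 * (σ⁻¹ ^ 2 * ∫ x, p x * P x ^ 2) := by
    field_simp
  rw [hN]
  refine mul_le_mul_of_nonneg_left ?_ (sq_nonneg _)
  have n1 : 3 * ε * (∫ x, p x * FF CF e (V x)) ≤ 3 * ε * (CF * KA CK e * Zz) :=
    mul_le_mul_of_nonneg_left j2 (by positivity)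
  have n2 : θ * (∫ x, p x * ((B + σ * u x) * |G (V x)|)) ≤ θ * (CG * KA CK e * Zz) :=
    mul_le_mul_of_nonneg_left m2 hθ
  have e2 : (2 * hh + (3 * ε * CF + θ * CG) * KA CK e) * Zz = 2 * hh * Zz +
      3 * ε * (CF * KA CK e * Zz) + θ * (CG * KA CK e * Zz) := by ring
  rw [e2]
  linarith

/-- **closure, lower form, with absorb**. -/
theorem lo_abs (h : Fix σ V P u) (L : Lw V P p Y) {CK e lam : ℝ} (hCK0 : 0 ≤ CK)
    (hCK : ∀ x, P x ≤ CK * σ) (he : 0 < e) (he1 : e ≤ 1) (hlam0 : 0 ≤ lam) (hlam : 72 * lam ≤ e)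
    (hY : ∀ x, -(lam * σ * (1 + σ * max (-x) 0)) ≤ Y x)
    {G G' : ℝ → ℝ} {Z : Set ℝ} (hG : GD G G' Z) (hG0 : ∀ v ∈ Ioo (0 : ℝ) 1, G v ≤ 0)
    {hh ε θ B CF CG : ℝ} {S ℓ : ℝ → ℝ} (hε : 0 ≤ ε)
    (hθ : 0 ≤ θ) (hB : 0 ≤ B) (hCF : 0 ≤ CF) (hCG : 0 ≤ CG)
    (hP : ∀ x, σ * ((1 - ε) * S (V x)) ≤ P x)
    (hlaw : ∀ x, Y x ≤ σ * (ℓ x + θ * (B + σ * (x + u x))))
    (hGS : ∀ x, V x ∉ Z → G' (V x) ≤ 2 * S (V x))
    (hQ : ∀ x, V x ∉ Z → 2 * hh * (V x * (1 - V x) ^ 2) ≤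
      S (V x) ^ 2 - S (V x) * G' (V x) + ℓ x * G (V x))
    (hF : ∀ x, V x ∉ Z → S (V x) ^ 2 + |S (V x) * G' (V x)| ≤ FF CF e (V x))
    (hGl : ∀ x, V x ≤ 1 / 2 → (B + 4) * |G (V x)| ≤ CG * V x)
    (hGr : ∀ x, 1 / 2 ≤ V x → (B + 8) * |G (V x)| ≤ CG * (1 - V x) ^ e) :
    σ ^ 2 * ((2 * hh - (2 * ε * CF + θ * CG) * KA CK e) * ∫ x, p x * (V x * (1 - V x) ^ 2)) ≤
      ∫ x, p x * P x ^ 2 := by
  have hs := h.s_pos
  have hsi : 0 < σ⁻¹ := inv_pos.2 hs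
  obtain ⟨j1, j2⟩ := abs_FF h L hCK0 hCK he he1 hCF hlam0 hlam hY
  obtain ⟨BG, hBG⟩ := hG.bd
  have iw : Integrable (fun x => p x * ((B + σ * (x + u x)) * |G (V x)|)) := by
    refine int_of L (M := (B + (8 + σ)) * BG) (n := 1)
      ((continuous_const.add (continuous_const.mul (continuous_id.add h.cu))).mul
        (hG.cont.comp_continuous (V_cont L) (memV L)).abs).aestronglyMeasurable fun x => ?_
    rw [abs_mul, abs_abs, pow_one]
    have h1 : |B + σ * (x + u x)| ≤ (B + (8 + σ)) * (1 + |x|) := by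
      refine (abs_add_le _ _).trans ?_
      have := w_growth h x
      rw [abs_of_nonneg hB]
      have h0 : 0 ≤ |x| := abs_nonneg x
      nlinarith
    have h2 := mul_le_mul h1 (hBG _ (memV L x)) (abs_nonneg _) ((abs_nonneg _).trans h1)
    linarith
  have m1 := lo L hG hG0 (s := σ⁻¹) (hh := hh) (ε := ε) (lam := θ) (S := S) (F := FF CF e)
    (ℓ := ℓ) (w := fun x => B + σ * (x + u x)) hε
    (fun x => by rw [le_inv_mul_iff₀ hs]; exact hP x)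
    (fun x => by rw [inv_mul_le_iff₀ hs]; exact hlaw x) hGS hQ hF j1 iw
  have m2 := h.absorb hCK0 hCK he hCG hlam0 hlam L.p_pos L.p_x hY (int_p L) iw
    (fun x hx => by
      have h1 := hGl x hx
      have h2 : (B + σ * (x + u x)) * |G (V x)| ≤ (B + 4) * |G (V x)| :=
        mul_le_mul_of_nonneg_right (by linarith [h.w_le hx]) (abs_nonneg _)
      linarith)
    (fun x hx => by
      have h1 := hGr x hx
      have h4 : 0 ≤ σ * max x 0 := mul_nonneg hs.le (le_max_right _ _)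
      have h5 : σ * x ≤ σ * max x 0 := mul_le_mul_of_nonneg_left (le_max_left _ _) hs.le
      have h6 := h.u_le (show 1 / 4 ≤ V x by linarith)
      have h7 : B + σ * (x + u x) ≤ (B + 8) * (1 + σ * max x 0) := by nlinarith
      have h8 : (B + σ * (x + u x)) * |G (V x)| ≤ (B + 8) * (1 + σ * max x 0) * |G (V x)| :=
        mul_le_mul_of_nonneg_right h7 (abs_nonneg _)
      have h9 : (1 + σ * max x 0) * ((B + 8) * |G (V x)|) ≤
          (1 + σ * max x 0) * (CG * (1 - V x) ^ e) :=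
        mul_le_mul_of_nonneg_left h1 (by linarith)
      linarith)
  set Zz := ∫ x, p x * (V x * (1 - V x) ^ 2) with hZz
  have hN : ∫ x, p x * P x ^ 2 = σ ^ 2 * (σ⁻¹ ^ 2 * ∫ x, p x * P x ^ 2) := by
    field_simp
  rw [hN]
  refine mul_le_mul_of_nonneg_left ?_ (sq_nonneg _)
  have n1 : 2 * ε * (∫ x, p x * FF CF e (V x)) ≤ 2 * ε * (CF * KA CK e * Zz) :=
    mul_le_mul_of_nonneg_left j2 (by positivity)
  have n2 : θ * (∫ x, p x * ((B + σ * (x + u x)) * |G (V x)|)) ≤ θ * (CG * KA CK e * Zz) :=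
    mul_le_mul_of_nonneg_left m2 hθ
  have e2 : (2 * hh - (2 * ε * CF + θ * CG) * KA CK e) * Zz = 2 * hh * Zz -
      2 * ε * (CF * KA CK e * Zz) - θ * (CG * KA CK e * Zz) := by ring
  rw [e2]
  linarith

/-- sufficient for `hGl` of `up_abs`: `|G v| ≤ C v^{3/2}`. -/
theorem hGl_of (h : Fix σ V P u) {G : ℝ → ℝ} {C B : ℝ} (hC : 0 ≤ C) (hB : 0 ≤ B)
    (hG : ∀ v, 0 < v → v ≤ 1 / 2 → |G v| ≤ C * (v * Real.sqrt v)) :
    ∀ x, V x ≤ 1 / 2 → (B + σ * u x) * |G (V x)| ≤ C * (B + 19) * V x := by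
  intro x hx
  have hs := h.s_pos
  have h1 := hG _ (h.V_pos x) hx
  have h2 := h.left_decay hx
  have h3 := h.w_le hx
  have h4 : 0 ≤ σ * max (-x) 0 := mul_nonneg hs.le (le_max_right _ _)
  have h5 : σ * (-x) ≤ σ * max (-x) 0 := mul_le_mul_of_nonneg_left (le_max_left _ _) hs.le
  have h6 : B + σ * u x ≤ (B + 4) + (1 + σ * max (-x) 0) := by nlinarith
  have hu : 0 ≤ B + σ * u x := add_nonneg hB (mul_nonneg hs.le (h.u_pos x).le)
  have hV := h.V_pos x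
  have hr : 0 ≤ Real.sqrt (V x) := Real.sqrt_nonneg _
  have hr1 : Real.sqrt (V x) ≤ 1 := Real.sqrt_le_one.2 (h.V_lt x).le
  have h7 : (B + σ * u x) * Real.sqrt (V x) ≤ B + 19 := by
    have h8 : (B + σ * u x) * Real.sqrt (V x) ≤
        ((B + 4) + (1 + σ * max (-x) 0)) * Real.sqrt (V x) := mul_le_mul_of_nonneg_right h6 hr
    have h9 : (B + 4) * Real.sqrt (V x) ≤ B + 4 := mul_le_of_le_one_right (by linarith) hr1
    linarith
  calc (B + σ * u x) * |G (V x)| ≤ (B + σ * u x) * (C * (V x * Real.sqrt (V x))) :=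
        mul_le_mul_of_nonneg_left h1 hu
    _ = C * V x * ((B + σ * u x) * Real.sqrt (V x)) := by ring
    _ ≤ C * V x * (B + 19) := mul_le_mul_of_nonneg_left h7 (mul_nonneg hC hV.le)
    _ = C * (B + 19) * V x := by ring

end abs

end

end Crest.Agent.R146.CloAbs_42
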