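import Crest.Agent.R146.Enc1_848
import Crest.Agent.R146.TailK_445

/-!
# Row 146, helper865: enclosure of `q = V (1-V) / I` for the stationary pair, `c` near `.4157355`

For `c ∈ [435929/2^20, 435931/2^20]`, `SPair c W V I k lam`, `N = 2^20`, `q̂ = F 2` (`Enc1_848`):

* `encQ  : |q - q̂| ≤ 570/N` on `[-6, 6]`;
* `encQl : |q - q̂| ≤ 360/N` on `[-6, -1/8]`;  `encQr : |q - q̂| ≤ 380/N` on `[9/8, 6]`;
* `encQ8 : |q - q̂| ≤ 1/50` on `[-8, -6]`, `≤ 1/96` on `[6, 8]`.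
-/

set_option autoImplicit false
set_option linter.unusedSimpArgs false

namespace Crest.Agent.R146.QEnc_865

open Set Filter Topology
open Crest.Agent.R146.PP865 Crest.Agent.R146.EncData_848 Crest.Agent.R146.EncR_848
open Crest.Agent.R146.Enc0_848 Crest.Agent.R146.Enc1_848 Crest.Agent.R146.SPair_307

noncomputable section

/-- `q = V (1-V) / I` -/
def qv (V I : ℝ → ℝ) (x : ℝ) : ℝ := V x * (1 - V x) / I x

/-! ### checks -/

/-- residual of the `q` equation -/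
def eQ : Ex := 1 - 2 * .var 2 + eA * .var 7 - 2 * .var 19 * (.var 7 * .var 7) - .var 8

/-- `4 c q̂ - 2 Â` -/
def eM : Ex := 4 * .var 19 * .var 7 - eA

theorem cQ1 : chkBoxR 36 4 18 (-64) 64 pc (.cst 42 20 - eQ) p0 ps = true := by decide +kernel
theorem cQ2 : chkBoxR 36 4 18 (-64) 64 pc (.cst 42 20 + eQ) p0 ps = true := by decide +kernel
theorem cQ3 : chkBoxR 36 4 18 (-1) 9 pc (.cst 8 20 - eQ) p0 ps = true := by decide +kernel
theorem cQ4 : chkBoxR 36 4 18 (-1) 9 pc (.cst 8 20 + eQ) p0 ps = true := by decide +kernel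

theorem cU : chkBoxR 36 4 18 (-64) 64 [] (.cst 41 6 - .var 7) p0 ps = true := by decide +kernel
theorem cU0 : chkBoxR 36 4 18 (-64) 64 [] (.var 7 - .cst 5 6) p0 ps = true := by decide +kernel
theorem cUl : chkBoxR 36 4 18 (-64) (-63) [] (.cst 213 10 - .var 7) p0 ps = true := by
  decide +kernel
theorem cUl0 : chkBoxR 36 4 18 (-64) (-63) [] (.var 7 - .cst 205 10) p0 ps = true := by
  decide +kernel
theorem cUr : chkBoxR 36 4 18 63 64 [] (.cst 93 10 - .var 7) p0 ps = true := by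
  decide +kernel
theorem cUr0 : chkBoxR 36 4 18 63 64 [] (.var 7 - .cst 89 10) p0 ps = true := by
  decide +kernel

theorem cVl : chkBoxR 36 4 18 (-64) (-63) [] (.cst 1 12 - .var 2) p0 ps = true := by
  decide +kernel
theorem cVr : chkBoxR 36 4 18 63 64 [] (.var 2 - .cst 4095 12) p0 ps = true := by
  decide +kernel

/-- barriers -/
def uL : Ex := .cst (-1) 1 * (.var 0 + 6)
def uR : Ex := .cst 1 1 * (.var 0 - 6)
def bL8 : Ex := .cst 360 20 + .cst 5 8 * ((uL * uL) * (uL * uL))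
def bR8 : Ex := .cst 380 20 + .cst 5 9 * ((uR * uR) * (uR * uR))
def bL : Ex := .cst 360 20
def bR : Ex := .cst 380 20
def b1 : Ex := .cst 360 20 + .cst 220 20 * (.var 0 + .cst 1 3)
def b2 : Ex := .cst 470 20 + .cst 390 20 * (.var 0 - .cst 3 3)
def b3 : Ex := .cst 380 20 - .cst 260 20 * (.var 0 - .cst 9 3)

/-- forward fence expression -/
def fw (S : ℤ) (B dB : Ex) : Ex := dB - .cst S 20 + eM * B - 2 * .var 19 * (B * B)
/-- backward fence expression -/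
def bw (S : ℤ) (B dB : Ex) : Ex := -(eM * B) - .cst S 20 - 2 * .var 19 * (B * B) - dB

theorem f1 : chkBoxR 36 5 18 (-64) (-48) pc (fw 247 bL8 (.cst (-5) 7 * (uL * (uL * uL)))) p0 ps
    = true := by decide +kernel
theorem f2 : chkBoxR 36 5 18 (-48) (-1) pc (fw 247 bL (.cst 0 0)) p0 ps = true := by
  decide +kernel
theorem f3 : chkBoxR 36 5 18 (-1) 3 pc (fw 213 b1 (.cst 220 20)) p0 ps = true := by
  decide +kernel
theorem f4 : chkBoxR 36 5 18 3 5 pc (fw 213 b2 (.cst 390 20)) p0 ps = true := by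
  decide +kernel
theorem g1 : chkBoxR 36 5 18 48 64 pc (bw 247 bR8 (.cst 5 8 * (uR * (uR * uR)))) p0 ps
    = true := by decide +kernel
theorem g2 : chkBoxR 36 5 18 9 48 pc (bw 247 bR (.cst 0 0)) p0 ps = true := by
  decide +kernel
theorem g3 : chkBoxR 36 5 18 5 9 pc (bw 213 b3 (.cst (-260) 20)) p0 ps = true := by
  decide +kernel

theorem evR_four (v : ℕ → ℝ) : (4 : Ex).evR v = 4 := by simpa using Ex.evR_ofNat v 4
theorem evR_six (v : ℕ → ℝ) : (6 : Ex).evR v = 6 := by simpa using Ex.evR_ofNat v 6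

section main

variable {c lam : ℝ} {W V I k : ℝ → ℝ}

theorem dqv (h : SPair c W V I k lam) (x : ℝ) :
    HasDerivAt (qv V I) (1 - 2 * V x + 2 * Ad c W x * qv V I x - 2 * c * qv V I x ^ 2) x := by
  have hI := (h.I_pos x).ne'
  have h1 := ((h.dV x).mul ((h.dV x).const_sub 1)).div (h.dI x) hI
  refine h1.congr_deriv ?_
  simp only [Pi.mul_apply]
  unfold qv
  field_simp
  ring

/-- `d' ` of the difference -/
theorem dd (h : SPair c W V I k lam) (x : ℝ) :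
    HasDerivAt (fun x => qv V I x - F 2 x)
      (1 - 2 * V x + 2 * Ad c W x * qv V I x - 2 * c * qv V I x ^ 2 - F1 2 x) x :=
  (dqv h x).sub (dF (by norm_num) x)

/-- `4 c q̂ - 2 Â` -/
def Mh (c x : ℝ) : ℝ := 4 * c * F 2 x - ((1 - c) * x + 2 * c * F 0 x)

/-- residual -/
def rq (c x : ℝ) : ℝ :=
  1 - 2 * F1 0 x + ((1 - c) * x + 2 * c * F 0 x) * F 2 x - 2 * c * F 2 x ^ 2 - F1 2 x

theorem rq_le (hc1 : 435929 / 2 ^ 20 ≤ c) (hc2 : c ≤ 435931 / 2 ^ 20) {x : ℝ} (h1 : -8 ≤ x)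
    (h2 : x ≤ 8) : |rq c x| ≤ 42 / 2 ^ 20 := by
  have k1 := chkc (t := 0) cQ1 hc1 hc2 h1 h2 (by norm_num; linarith) (by norm_num; linarith)
  have k2 := chkc (t := 0) cQ2 hc1 hc2 h1 h2 (by norm_num; linarith) (by norm_num; linarith)
  simp only [eQ, eA, Ex.evR_sub, Ex.evR_add, Ex.evR_mul, Ex.evR_cst, Ex.evR_var, evR_one, evR_two,
    env0, env1, env2, env3, env7, env8, env19] at k1 k2
  push_cast at k1 k2
  unfold rq
  rw [abs_le]
  constructor <;> linarith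

theorem rq_le' (hc1 : 435929 / 2 ^ 20 ≤ c) (hc2 : c ≤ 435931 / 2 ^ 20) {x : ℝ}
    (h1 : -(1 / 8) ≤ x) (h2 : x ≤ 9 / 8) : |rq c x| ≤ 8 / 2 ^ 20 := by
  have k1 := chkc (t := 0) cQ3 hc1 hc2 (z := x) (by linarith) (by linarith)
    (by norm_num at h1 ⊢; linarith) (by norm_num at h2 ⊢; linarith)
  have k2 := chkc (t := 0) cQ4 hc1 hc2 (z := x) (by linarith) (by linarith)
    (by norm_num at h1 ⊢; linarith) (by norm_num at h2 ⊢; linarith)
  simp only [eQ, eA, Ex.evR_sub, Ex.evR_add, Ex.evR_mul, Ex.evR_cst, Ex.evR_var, evR_one, evR_two,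
    env0, env1, env2, env3, env7, env8, env19] at k1 k2
  push_cast at k1 k2
  unfold rq
  rw [abs_le]
  constructor <;> linarith

theorem qh_le {x : ℝ} (h1 : -8 ≤ x) (h2 : x ≤ 8) : 5 / 2 ^ 6 < F 2 x ∧ F 2 x < 41 / 2 ^ 6 := by
  have k1 := chk (s := 0) (t := 0) cU h1 h2 (by norm_num; linarith) (by norm_num; linarith)
    (by simp)
  have k2 := chk (s := 0) (t := 0) cU0 h1 h2 (by norm_num; linarith) (by norm_num; linarith)
    (by simp)
  simp only [Ex.evR_sub, Ex.evR_cst, Ex.evR_var, env7] at k1 k2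
  push_cast at k1 k2
  constructor <;> linarith

/-- the algebra at a touching point -/
theorem touch {c A2 Ah W0 V0 V1 q qh qh1 B σ r S : ℝ} (hσ : σ = 1 ∨ σ = -1)
    (hq : q = qh + σ * B) (hB0 : 0 ≤ B) (hB : B ≤ 1 / 32) (hqh0 : 5 / 2 ^ 6 < qh)
    (hqh : qh < 41 / 2 ^ 6) (hA : |A2 - Ah| ≤ 13 / 2 ^ 20) (hV : |V0 - V1| ≤ 98 / 2 ^ 20)
    (hr : |1 - 2 * V1 + Ah * qh - 2 * c * qh ^ 2 - qh1| ≤ r / 2 ^ 20) (hc : 0 < c)
    (hS : r + 205 ≤ S) (_ : W0 = W0) :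
    |(1 - 2 * V0 + A2 * q - 2 * c * q ^ 2 - qh1) - (-(4 * c * qh - Ah) * (σ * B))|
      ≤ S / 2 ^ 20 + 2 * c * B ^ 2 := by
  have hσ2 : σ ^ 2 = 1 := by rcases hσ with h | h <;> rw [h] <;> norm_num
  have e1 : (1 - 2 * V0 + A2 * q - 2 * c * q ^ 2 - qh1) - (-(4 * c * qh - Ah) * (σ * B))
      = (1 - 2 * V1 + Ah * qh - 2 * c * qh ^ 2 - qh1) + -2 * (V0 - V1) + (A2 - Ah) * q
        - 2 * c * B ^ 2 := by
    rw [hq]
    have : 2 * c * B ^ 2 = 2 * c * (σ ^ 2 * B ^ 2) := by rw [hσ2, one_mul]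
    rw [this]
    ring
  rw [e1]
  have hq1 : |q| ≤ 43 / 2 ^ 6 := by
    rw [hq, abs_le]
    rcases hσ with h | h <;> rw [h] <;> constructor <;> norm_num at * <;> linarith
  have h1 : |(A2 - Ah) * q| ≤ 13 / 2 ^ 20 * (43 / 2 ^ 6) := by
    rw [abs_mul]
    exact mul_le_mul hA hq1 (abs_nonneg _) (by norm_num)
  have h2 : |-2 * (V0 - V1)| ≤ 2 * (98 / 2 ^ 20) := by
    rw [abs_mul]
    have : |(-2 : ℝ)| = 2 := by norm_num
    rw [this]
    exact mul_le_mul_of_nonneg_left hV (by norm_num)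
  have h3 : 0 ≤ 2 * c * B ^ 2 := by positivity
  calc |(1 - 2 * V1 + Ah * qh - 2 * c * qh ^ 2 - qh1) + -2 * (V0 - V1) + (A2 - Ah) * q
        - 2 * c * B ^ 2|
      ≤ |(1 - 2 * V1 + Ah * qh - 2 * c * qh ^ 2 - qh1) + -2 * (V0 - V1) + (A2 - Ah) * q|
        + |2 * c * B ^ 2| := abs_sub _ _
    _ ≤ (|1 - 2 * V1 + Ah * qh - 2 * c * qh ^ 2 - qh1| + |-2 * (V0 - V1)|
        + |(A2 - Ah) * q|) + |2 * c * B ^ 2| := by
      gcongr
      exact (abs_add_le _ _).trans (add_le_add (abs_add_le _ _) le_rfl)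
    _ ≤ (r / 2 ^ 20 + 2 * (98 / 2 ^ 20) + 13 / 2 ^ 20 * (43 / 2 ^ 6)) + 2 * c * B ^ 2 := by
      rw [abs_of_nonneg h3]
      gcongr
    _ ≤ S / 2 ^ 20 + 2 * c * B ^ 2 := by
      have : r / 2 ^ 20 + 2 * (98 / 2 ^ 20) + 13 / 2 ^ 20 * (43 / 2 ^ 6) ≤ S / 2 ^ 20 := by
        have h5 : (r + 205) / 2 ^ 20 ≤ S / 2 ^ 20 := by gcongr
        refine le_trans ?_ h5
        rw [add_div]
        norm_num
        linarith
      linarith

/-- touching inequality for the difference, general -/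
theorem touch_at (h : SPair c W V I k lam) (hc1 : 435929 / 2 ^ 20 ≤ c)
    (hc2 : c ≤ 435931 / 2 ^ 20) {x B σ r S : ℝ} (h1 : -8 ≤ x) (h2 : x ≤ 8)
    (hσ : σ = 1 ∨ σ = -1) (hd : qv V I x - F 2 x = σ * B) (hB0 : 0 ≤ B) (hB : B ≤ 1 / 32)
    (hr : |rq c x| ≤ r / 2 ^ 20) (hS : r + 205 ≤ S) :
    |(1 - 2 * V x + 2 * Ad c W x * qv V I x - 2 * c * qv V I x ^ 2 - F1 2 x)
      - (-(Mh c x) * (σ * B))| ≤ S / 2 ^ 20 + 2 * c * B ^ 2 := by
  have hq := qh_le h1 h2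
  have := touch (c := c) (A2 := 2 * Ad c W x) (Ah := (1 - c) * x + 2 * c * F 0 x) (W0 := 0)
    (V0 := V x) (V1 := F1 0 x) (q := qv V I x) (qh := F 2 x) (qh1 := F1 2 x) (B := B) (σ := σ)
    (r := r) (S := S) hσ (by linarith) hB0 hB hq.1 hq.2 (A_ge h hc1 hc2 h1 h2)
    (encV h hc1 hc2 x ⟨h1, h2⟩) hr h.c_pos hS rfl
  exact this

/-- forward stage -/
theorem stage_fwd (h : SPair c W V I k lam) (hc1 : 435929 / 2 ^ 20 ≤ c)
    (hc2 : c ≤ 435931 / 2 ^ 20) {u v r S : ℝ} {B B' : ℝ → ℝ} (hu : -8 ≤ u) (hv : v ≤ 8)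
    (hB : ∀ x ∈ Icc u v, HasDerivAt B (B' x) x)
    (hB0 : ∀ x ∈ Icc u v, 0 ≤ B x) (hB1 : ∀ x ∈ Icc u v, B x ≤ 1 / 32)
    (hr : ∀ x ∈ Icc u v, |rq c x| ≤ r / 2 ^ 20) (hS : r + 205 ≤ S)
    (hf : ∀ x ∈ Icc u v, 0 < B' x - S / 2 ^ 20 + Mh c x * B x - 2 * c * (B x * B x))
    (h0 : |qv V I u - F 2 u| ≤ B u) : ∀ x ∈ Icc u v, |qv V I x - F 2 x| ≤ B x := by
  refine fwd_abs (fun x => dd h x) hB h0 ?_ ?_
  · intro x hx he
    have hx' : x ∈ Icc u v := ⟨hx.1, hx.2.le⟩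
    have t := touch_at h hc1 hc2 (x := x) (B := B x) (σ := 1) (by linarith [hx.1])
      (by linarith [hx.2]) (Or.inl rfl) (by linarith) (hB0 x hx') (hB1 x hx') (hr x hx') hS
    have t2 := (abs_le.1 t).2
    have t3 := hf x hx'
    nlinarith
  · intro x hx he
    have hx' : x ∈ Icc u v := ⟨hx.1, hx.2.le⟩
    have t := touch_at h hc1 hc2 (x := x) (B := B x) (σ := -1) (by linarith [hx.1])
      (by linarith [hx.2]) (Or.inr rfl) (by linarith) (hB0 x hx') (hB1 x hx') (hr x hx') hS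
    have t2 := (abs_le.1 t).1
    have t3 := hf x hx'
    nlinarith

/-- backward stage -/
theorem stage_bwd (h : SPair c W V I k lam) (hc1 : 435929 / 2 ^ 20 ≤ c)
    (hc2 : c ≤ 435931 / 2 ^ 20) {u v r S : ℝ} {B B' : ℝ → ℝ} (hu : -8 ≤ u) (hv : v ≤ 8)
    (hB : ∀ x ∈ Icc u v, HasDerivAt B (B' x) x)
    (hB0 : ∀ x ∈ Icc u v, 0 ≤ B x) (hB1 : ∀ x ∈ Icc u v, B x ≤ 1 / 32)
    (hr : ∀ x ∈ Icc u v, |rq c x| ≤ r / 2 ^ 20) (hS : r + 205 ≤ S)
    (hf : ∀ x ∈ Icc u v, 0 < -(Mh c x * B x) - S / 2 ^ 20 - 2 * c * (B x * B x) - B' x)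
    (h0 : |qv V I v - F 2 v| ≤ B v) : ∀ x ∈ Icc u v, |qv V I x - F 2 x| ≤ B x := by
  refine bwd_abs (fun x => dd h x) hB h0 ?_ ?_
  · intro x hx he
    have hx' : x ∈ Icc u v := ⟨hx.1.le, hx.2⟩
    have t := touch_at h hc1 hc2 (x := x) (B := B x) (σ := 1) (by linarith [hx.1])
      (by linarith [hx.2]) (Or.inl rfl) (by linarith) (hB0 x hx') (hB1 x hx') (hr x hx') hS
    have t2 := (abs_le.1 t).1
    have t3 := hf x hx'
    nlinarith
  · intro x hx he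
    have hx' : x ∈ Icc u v := ⟨hx.1.le, hx.2⟩
    have t := touch_at h hc1 hc2 (x := x) (B := B x) (σ := -1) (by linarith [hx.1])
      (by linarith [hx.2]) (Or.inr rfl) (by linarith) (hB0 x hx') (hB1 x hx') (hr x hx') hS
    have t2 := (abs_le.1 t).2
    have t3 := hf x hx'
    nlinarith

/-! ### end points -/

theorem end_l (h : SPair c W V I k lam) (hc1 : 435929 / 2 ^ 20 ≤ c) (hc2 : c ≤ 435931 / 2 ^ 20) :
    |qv V I (-8) - F 2 (-8)| ≤ 360 / 2 ^ 20 + 5 / 2 ^ 8 := by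
  have k1 := chk (z := -8) (s := 0) (t := 0) cUl (by norm_num) (by norm_num) (by norm_num)
    (by norm_num) (by simp)
  have k2 := chk (z := -8) (s := 0) (t := 0) cUl0 (by norm_num) (by norm_num) (by norm_num)
    (by norm_num) (by simp)
  simp only [Ex.evR_sub, Ex.evR_cst, Ex.evR_var, env7] at k1 k2
  push_cast at k1 k2
  have hW0 := h.W_pos (-8)
  have hW1 := W_gauss h (show (-8:ℝ) ≤ 0 by norm_num)
  have hexp : Real.exp (-((1 - c) / 2 * (-8) ^ 2)) ≤ Real.exp (-18) := by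
    apply Real.exp_le_exp.2
    norm_num at hc2 ⊢
    linarith
  have h18 := exp18
  have hWs : W (-8) ≤ 1 / 2 ^ 20 := by linarith
  have hA : -2 * Ad c W (-8) = (1 - c) * 8 - 2 * c * W (-8) := by unfold Ad; ring
  set a := -2 * Ad c W (-8) with ha
  have hcW : 0 ≤ c * W (-8) ∧ c * W (-8) ≤ 1 / 2 ^ 20 := by
    constructor
    · exact mul_nonneg h.c_pos.le hW0.le
    · nlinarith [h.c_lt, h.c_pos]
  have ha1 : 4.67 ≤ a := by rw [hA]; norm_num at hc2 hcW ⊢; linarith [hcW.2]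
  have ha2 : a ≤ 4.675 := by rw [hA]; norm_num at hc1 hcW ⊢; linarith [hcW.1]
  have hAd : Ad c W (-8) < 0 := by linarith
  have hI1 := TailK_445.aV_le_I h (-8)
  have hI2 := TailK_445.I_le_aV h hAd
  rw [← ha] at hI1 hI2
  have hV0 := h.V_pos (-8)
  have hV1 := h.V_lt (-8)
  have hIp := h.I_pos (-8)
  have hV2 := (abs_le.1 (encV h hc1 hc2 (-8) ⟨le_rfl, by norm_num⟩)).2
  have k3 := chk (z := -8) (s := 0) (t := 0) cVl (by norm_num) (by norm_num) (by norm_num)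
    (by norm_num) (by simp)
  simp only [Ex.evR_sub, Ex.evR_cst, Ex.evR_var, env2] at k3
  push_cast at k3
  have hVs : V (-8) ≤ 1 / 2 ^ 10 := by norm_num at hV2 k3 ⊢; linarith
  have hq1 : qv V I (-8) ≤ 1 / 4.67 := by
    unfold qv
    rw [div_le_div_iff₀ hIp (by norm_num)]
    nlinarith
  have h6 : (1 + c) / a ≤ 1.416 / 4.67 := by
    apply div_le_div₀ (by norm_num) _ (by norm_num) ha1
    norm_num at hc2 ⊢; linarith
  have hq2 : (1 - 1 / 2 ^ 10) / 4.98 ≤ qv V I (-8) := by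
    unfold qv
    rw [div_le_div_iff₀ (by norm_num) hIp]
    have h7 : a + (1 + c) / a ≤ 4.98 := by
      norm_num at h6 ⊢; linarith
    have h8 : I (-8) ≤ 4.98 * V (-8) := by
      refine hI2.trans ?_
      exact mul_le_mul_of_nonneg_right h7 hV0.le
    have h9 : (1 - 1 / 2 ^ 10) * I (-8) ≤ (1 - 1 / 2 ^ 10) * (4.98 * V (-8)) :=
      mul_le_mul_of_nonneg_left h8 (by norm_num)
    have h10 : (1 - 1 / 2 ^ 10) * V (-8) ≤ (1 - V (-8)) * V (-8) :=
      mul_le_mul_of_nonneg_right (by linarith) hV0.le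
    nlinarith
  rw [abs_le]
  norm_num at hq1 hq2 k1 k2 ⊢
  constructor <;> linarith

theorem end_r (h : SPair c W V I k lam) (hc1 : 435929 / 2 ^ 20 ≤ c) (hc2 : c ≤ 435931 / 2 ^ 20) :
    |qv V I 8 - F 2 8| ≤ 380 / 2 ^ 20 + 5 / 2 ^ 9 := by
  have k1 := chk (z := 8) (s := 0) (t := 0) cUr (by norm_num) (by norm_num) (by norm_num)
    (by norm_num) (by simp)
  have k2 := chk (z := 8) (s := 0) (t := 0) cUr0 (by norm_num) (by norm_num) (by norm_num)
    (by norm_num) (by simp)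
  simp only [Ex.evR_sub, Ex.evR_cst, Ex.evR_var, env7] at k1 k2
  push_cast at k1 k2
  have hW0 := h.U_pos 8
  have hW1 := Stat8_307.U_le h (show (0:ℝ) ≤ 8 by norm_num)
  have hexp : Real.exp (-(8 ^ 2 / 2)) ≤ Real.exp (-18) := by
    apply Real.exp_le_exp.2
    norm_num
  have h18 := exp18
  have hWs : W 8 - 8 ≤ 1 / 2 ^ 20 := by linarith
  have hA : 2 * Ad c W 8 = (1 + c) * 8 + 2 * c * (W 8 - 8) := by unfold Ad; ring
  set a := 2 * Ad c W 8 with ha
  have hcW : 0 ≤ c * (W 8 - 8) ∧ c * (W 8 - 8) ≤ 1 / 2 ^ 20 := by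
    constructor
    · exact mul_nonneg h.c_pos.le (by linarith)
    · nlinarith [h.c_lt, h.c_pos]
  have ha1 : 11.32 ≤ a := by rw [hA]; norm_num at hc1 hcW ⊢; linarith [hcW.1]
  have ha2 : a ≤ 11.33 := by rw [hA]; norm_num at hc2 hcW ⊢; linarith [hcW.2]
  have hIeq := TailK_445.I_eq h 8
  have hU := TailK_445.aU_le_R h 8
  rw [← ha] at hU
  have hV0 := h.V_pos 8
  have hV1 := h.V_lt 8
  have hIp := h.I_pos 8
  have hV2 := (abs_le.1 (encV h hc1 hc2 8 ⟨by norm_num, le_rfl⟩)).1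
  have k3 := chk (z := 8) (s := 0) (t := 0) cVr (by norm_num) (by norm_num) (by norm_num)
    (by norm_num) (by simp)
  simp only [Ex.evR_sub, Ex.evR_cst, Ex.evR_var, env2] at k3
  push_cast at k3
  have hVs : 1 - 1 / 2 ^ 10 ≤ V 8 := by norm_num at hV2 k3 ⊢; linarith
  have hR : 0 < 1 - V 8 := by linarith
  have hI1 : a * (1 - V 8) ≤ I 8 := by
    rw [hIeq, ha]
    have : 0 ≤ (1 - c) * (W 8 - 8) := mul_nonneg (by linarith [h.c_lt]) (by linarith)
    linarith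
  have hI2 : I 8 ≤ 11.39 * (1 - V 8) := by
    have h5 : (W 8 - 8) * 11.32 ≤ 1 - V 8 := by
      have : (W 8 - 8) * 11.32 ≤ (W 8 - 8) * a := mul_le_mul_of_nonneg_left ha1 (by linarith)
      linarith
    have h6 : (1 - c) * (W 8 - 8) ≤ 0.585 * (W 8 - 8) := by
      apply mul_le_mul_of_nonneg_right _ (by linarith)
      norm_num at hc1 ⊢; linarith
    have h7 : a * (1 - V 8) ≤ 11.33 * (1 - V 8) := mul_le_mul_of_nonneg_right ha2 hR.le
    have h8 : I 8 = (1 - c) * (W 8 - 8) + a * (1 - V 8) := by rw [hIeq, ha]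
    rw [h8]
    nlinarith
  have hq1 : qv V I 8 ≤ 1 / 11.32 := by
    unfold qv
    rw [div_le_div_iff₀ hIp (by norm_num)]
    nlinarith
  have hq2 : (1 - 1 / 2 ^ 10) / 11.39 ≤ qv V I 8 := by
    unfold qv
    rw [div_le_div_iff₀ (by norm_num) hIp]
    have h9 : (1 - 1 / 2 ^ 10) * I 8 ≤ (1 - 1 / 2 ^ 10) * (11.39 * (1 - V 8)) :=
      mul_le_mul_of_nonneg_left hI2 (by norm_num)
    have h10 : (1 - 1 / 2 ^ 10) * (1 - V 8) ≤ V 8 * (1 - V 8) :=
      mul_le_mul_of_nonneg_right hVs hR.le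
    nlinarith
  rw [abs_le]
  norm_num at hq1 hq2 k1 k2 ⊢
  constructor <;> linarith

/-! ### the stages -/

theorem encQ8l (h : SPair c W V I k lam) (hc1 : 435929 / 2 ^ 20 ≤ c)
    (hc2 : c ≤ 435931 / 2 ^ 20) : ∀ x ∈ Icc (-8 : ℝ) (-6),
    |qv V I x - F 2 x| ≤ 360 / 2 ^ 20 + 5 / 2 ^ 8 * ((-x - 6) / 2) ^ 4 := by
  have hu : ∀ x ∈ Icc (-8 : ℝ) (-6), 0 ≤ (-x - 6) / 2 ∧ (-x - 6) / 2 ≤ 1 := by
    intro x hx
    constructor <;> linarith [hx.1, hx.2]
  refine stage_fwd h hc1 hc2 (B' := fun x => 5 / 2 ^ 8 * (4 * ((-x - 6) / 2) ^ 3 * (-1 / 2)))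
    (r := 42) (S := 247) le_rfl (by norm_num) ?_ ?_ ?_ ?_ (by norm_num) ?_ ?_
  · intro x _
    have h1 : HasDerivAt (fun x : ℝ => (-x - 6) / 2) (-1 / 2) x :=
      (((hasDerivAt_id x).neg.sub_const 6).div_const 2)
    refine (((h1.pow 4).const_mul (5 / 2 ^ 8)).const_add (360 / 2 ^ 20)).congr_deriv ?_
    simp
  · intro x hx; positivity
  · intro x hx
    have := hu x hx
    have h1 : ((-x - 6) / 2) ^ 4 ≤ 1 := pow_le_one₀ this.1 this.2
    norm_num at h1 ⊢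
    linarith
  · intro x hx; exact rq_le hc1 hc2 hx.1 (by linarith [hx.2])
  · intro x hx
    have k1 := chkc (t := 0) f1 hc1 hc2 (z := x) hx.1 (by linarith [hx.2])
      (by norm_num; linarith [hx.1]) (by norm_num; linarith [hx.2])
    simp only [fw, bL8, uL, eM, eA, Ex.evR_sub, Ex.evR_add, Ex.evR_mul, Ex.evR_cst, Ex.evR_var,
      evR_one, evR_two, evR_four, evR_six, env0, env1, env2, env3, env7, env8, env19] at k1
    push_cast at k1
    unfold Mh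
    nlinarith [k1]
  · have := end_l h hc1 hc2
    norm_num at this ⊢
    linarith

theorem encQl (h : SPair c W V I k lam) (hc1 : 435929 / 2 ^ 20 ≤ c)
    (hc2 : c ≤ 435931 / 2 ^ 20) : ∀ x ∈ Icc (-6 : ℝ) (-(1 / 8)),
    |qv V I x - F 2 x| ≤ 360 / 2 ^ 20 := by
  refine stage_fwd h hc1 hc2 (B := fun _ => 360 / 2 ^ 20) (B' := fun _ => 0)
    (r := 42) (S := 247) (by norm_num) (by norm_num) ?_ ?_ ?_ ?_ (by norm_num) ?_ ?_
  · intro x _; exact hasDerivAt_const x _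
  · intro x hx; positivity
  · intro x hx; norm_num
  · intro x hx; exact rq_le hc1 hc2 (by linarith [hx.1]) (by linarith [hx.2])
  · intro x hx
    have k1 := chkc (t := 0) f2 hc1 hc2 (z := x) (by linarith [hx.1]) (by linarith [hx.2])
      (by norm_num; linarith [hx.1]) (by norm_num; linarith [hx.2])
    simp only [fw, bL, eM, eA, Ex.evR_sub, Ex.evR_add, Ex.evR_mul, Ex.evR_cst, Ex.evR_var,
      evR_one, evR_two, evR_four, evR_six, env0, env1, env2, env3, env7, env8, env19] at k1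
    push_cast at k1
    unfold Mh
    nlinarith [k1]
  · have := encQ8l h hc1 hc2 (-6) ⟨by norm_num, le_rfl⟩
    norm_num at this ⊢
    exact this

theorem encQ3 (h : SPair c W V I k lam) (hc1 : 435929 / 2 ^ 20 ≤ c)
    (hc2 : c ≤ 435931 / 2 ^ 20) : ∀ x ∈ Icc (-(1 / 8) : ℝ) (3 / 8),
    |qv V I x - F 2 x| ≤ 360 / 2 ^ 20 + 220 / 2 ^ 20 * (x + 1 / 8) := by
  refine stage_fwd h hc1 hc2 (B' := fun _ => 220 / 2 ^ 20)
    (r := 8) (S := 213) (by norm_num) (by norm_num) ?_ ?_ ?_ ?_ (by norm_num) ?_ ?_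
  · intro x _
    refine ((((hasDerivAt_id x).add_const (1 / 8)).const_mul (220 / 2 ^ 20)).const_add
      (360 / 2 ^ 20)).congr_deriv ?_
    simp
  · intro x hx
    have : 0 ≤ x + 1 / 8 := by linarith [hx.1]
    positivity
  · intro x hx; norm_num; linarith [hx.2]
  · intro x hx; exact rq_le' hc1 hc2 (by linarith [hx.1]) (by linarith [hx.2])
  · intro x hx
    have k1 := chkc (t := 0) f3 hc1 hc2 (z := x) (by linarith [hx.1]) (by linarith [hx.2])
      (by norm_num; linarith [hx.1]) (by norm_num; linarith [hx.2])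
    simp only [fw, b1, eM, eA, Ex.evR_sub, Ex.evR_add, Ex.evR_mul, Ex.evR_cst, Ex.evR_var,
      evR_one, evR_two, evR_four, evR_six, env0, env1, env2, env3, env7, env8, env19] at k1
    push_cast at k1
    unfold Mh
    norm_num at k1 ⊢
    nlinarith [k1]
  · have := encQl h hc1 hc2 (-(1 / 8)) ⟨by norm_num, le_rfl⟩
    norm_num at this ⊢
    exact this

theorem encQ4 (h : SPair c W V I k lam) (hc1 : 435929 / 2 ^ 20 ≤ c)
    (hc2 : c ≤ 435931 / 2 ^ 20) : ∀ x ∈ Icc (3 / 8 : ℝ) (5 / 8),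
    |qv V I x - F 2 x| ≤ 470 / 2 ^ 20 + 390 / 2 ^ 20 * (x - 3 / 8) := by
  refine stage_fwd h hc1 hc2 (B' := fun _ => 390 / 2 ^ 20)
    (r := 8) (S := 213) (by norm_num) (by norm_num) ?_ ?_ ?_ ?_ (by norm_num) ?_ ?_
  · intro x _
    refine ((((hasDerivAt_id x).sub_const (3 / 8)).const_mul (390 / 2 ^ 20)).const_add
      (470 / 2 ^ 20)).congr_deriv ?_
    simp
  · intro x hx
    have : 0 ≤ x - 3 / 8 := by linarith [hx.1]
    positivity
  · intro x hx; norm_num; linarith [hx.2]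
  · intro x hx; exact rq_le' hc1 hc2 (by linarith [hx.1]) (by linarith [hx.2])
  · intro x hx
    have k1 := chkc (t := 0) f4 hc1 hc2 (z := x) (by linarith [hx.1]) (by linarith [hx.2])
      (by norm_num; linarith [hx.1]) (by norm_num; linarith [hx.2])
    simp only [fw, b2, eM, eA, Ex.evR_sub, Ex.evR_add, Ex.evR_mul, Ex.evR_cst, Ex.evR_var,
      evR_one, evR_two, evR_four, evR_six, env0, env1, env2, env3, env7, env8, env19] at k1
    push_cast at k1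
    unfold Mh
    norm_num at k1 ⊢
    nlinarith [k1]
  · have := encQ3 h hc1 hc2 (3 / 8) ⟨by norm_num, le_rfl⟩
    norm_num at this ⊢
    exact this

theorem encQ8r (h : SPair c W V I k lam) (hc1 : 435929 / 2 ^ 20 ≤ c)
    (hc2 : c ≤ 435931 / 2 ^ 20) : ∀ x ∈ Icc (6 : ℝ) 8,
    |qv V I x - F 2 x| ≤ 380 / 2 ^ 20 + 5 / 2 ^ 9 * ((x - 6) / 2) ^ 4 := by
  have hu : ∀ x ∈ Icc (6 : ℝ) 8, 0 ≤ (x - 6) / 2 ∧ (x - 6) / 2 ≤ 1 := by
    intro x hx
    constructor <;> linarith [hx.1, hx.2]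
  refine stage_bwd h hc1 hc2 (B' := fun x => 5 / 2 ^ 9 * (4 * ((x - 6) / 2) ^ 3 * (1 / 2)))
    (r := 42) (S := 247) (by norm_num) le_rfl ?_ ?_ ?_ ?_ (by norm_num) ?_ ?_
  · intro x _
    have h1 : HasDerivAt (fun x : ℝ => (x - 6) / 2) (1 / 2) x :=
      (((hasDerivAt_id x).sub_const 6).div_const 2)
    refine (((h1.pow 4).const_mul (5 / 2 ^ 9)).const_add (380 / 2 ^ 20)).congr_deriv ?_
    simp
  · intro x hx; positivity
  · intro x hx
    have := hu x hx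
    have h1 : ((x - 6) / 2) ^ 4 ≤ 1 := pow_le_one₀ this.1 this.2
    norm_num at h1 ⊢
    linarith
  · intro x hx; exact rq_le hc1 hc2 (by linarith [hx.1]) hx.2
  · intro x hx
    have k1 := chkc (t := 0) g1 hc1 hc2 (z := x) (by linarith [hx.1]) hx.2
      (by norm_num; linarith [hx.1]) (by norm_num; linarith [hx.2])
    simp only [bw, bR8, uR, eM, eA, Ex.evR_sub, Ex.evR_add, Ex.evR_mul, Ex.evR_neg, Ex.evR_cst,
      Ex.evR_var, evR_one, evR_two, evR_four, evR_six, env0, env1, env2, env3, env7, env8,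
      env19] at k1
    push_cast at k1
    unfold Mh
    nlinarith [k1]
  · have := end_r h hc1 hc2
    norm_num at this ⊢
    linarith

theorem encQr (h : SPair c W V I k lam) (hc1 : 435929 / 2 ^ 20 ≤ c)
    (hc2 : c ≤ 435931 / 2 ^ 20) : ∀ x ∈ Icc (9 / 8 : ℝ) 6,
    |qv V I x - F 2 x| ≤ 380 / 2 ^ 20 := by
  refine stage_bwd h hc1 hc2 (B := fun _ => 380 / 2 ^ 20) (B' := fun _ => 0)
    (r := 42) (S := 247) (by norm_num) (by norm_num) ?_ ?_ ?_ ?_ (by norm_num) ?_ ?_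
  · intro x _; exact hasDerivAt_const x _
  · intro x hx; positivity
  · intro x hx; norm_num
  · intro x hx; exact rq_le hc1 hc2 (by linarith [hx.1]) (by linarith [hx.2])
  · intro x hx
    have k1 := chkc (t := 0) g2 hc1 hc2 (z := x) (by linarith [hx.1]) (by linarith [hx.2])
      (by norm_num; linarith [hx.1]) (by norm_num; linarith [hx.2])
    simp only [bw, bR, eM, eA, Ex.evR_sub, Ex.evR_add, Ex.evR_mul, Ex.evR_neg, Ex.evR_cst,
      Ex.evR_var, evR_one, evR_two, evR_four, evR_six, env0, env1, env2, env3, env7, env8,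
      env19] at k1
    push_cast at k1
    unfold Mh
    nlinarith [k1]
  · have := encQ8r h hc1 hc2 6 ⟨le_rfl, by norm_num⟩
    norm_num at this ⊢
    exact this

theorem encQ5 (h : SPair c W V I k lam) (hc1 : 435929 / 2 ^ 20 ≤ c)
    (hc2 : c ≤ 435931 / 2 ^ 20) : ∀ x ∈ Icc (5 / 8 : ℝ) (9 / 8),
    |qv V I x - F 2 x| ≤ 380 / 2 ^ 20 - 260 / 2 ^ 20 * (x - 9 / 8) := by
  refine stage_bwd h hc1 hc2 (B' := fun _ => -260 / 2 ^ 20)
    (r := 8) (S := 213) (by norm_num) (by norm_num) ?_ ?_ ?_ ?_ (by norm_num) ?_ ?_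
  · intro x _
    refine ((((hasDerivAt_id x).sub_const (9 / 8)).const_mul (260 / 2 ^ 20)).const_sub
      (380 / 2 ^ 20)).congr_deriv ?_
    norm_num
  · intro x hx; norm_num; linarith [hx.2]
  · intro x hx; norm_num; linarith [hx.1]
  · intro x hx; exact rq_le' hc1 hc2 (by linarith [hx.1]) (by linarith [hx.2])
  · intro x hx
    have k1 := chkc (t := 0) g3 hc1 hc2 (z := x) (by linarith [hx.1]) (by linarith [hx.2])
      (by norm_num; linarith [hx.1]) (by norm_num; linarith [hx.2])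
    simp only [bw, b3, eM, eA, Ex.evR_sub, Ex.evR_add, Ex.evR_mul, Ex.evR_neg, Ex.evR_cst,
      Ex.evR_var, evR_one, evR_two, evR_four, evR_six, env0, env1, env2, env3, env7, env8,
      env19] at k1
    push_cast at k1
    unfold Mh
    norm_num at k1 ⊢
    nlinarith [k1]
  · have := encQr h hc1 hc2 (9 / 8) ⟨le_rfl, by norm_num⟩
    norm_num at this ⊢
    exact this

/-- **enclosure of `q` on `[-6, 6]`** -/
theorem encQ (h : SPair c W V I k lam) (hc1 : 435929 / 2 ^ 20 ≤ c)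
    (hc2 : c ≤ 435931 / 2 ^ 20) : ∀ x ∈ Icc (-6 : ℝ) 6,
    |qv V I x - F 2 x| ≤ 570 / 2 ^ 20 := by
  intro x hx
  rcases le_total x (-(1 / 8)) with h1 | h1
  · exact (encQl h hc1 hc2 x ⟨hx.1, h1⟩).trans (by norm_num)
  rcases le_total x (3 / 8) with h2 | h2
  · refine (encQ3 h hc1 hc2 x ⟨h1, h2⟩).trans ?_
    norm_num
    linarith
  rcases le_total x (5 / 8) with h3 | h3
  · refine (encQ4 h hc1 hc2 x ⟨h2, h3⟩).trans ?_
    norm_num
    linarith
  rcases le_total x (9 / 8) with h4 | h4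
  · refine (encQ5 h hc1 hc2 x ⟨h3, h4⟩).trans ?_
    norm_num
    linarith
  · exact (encQr h hc1 hc2 x ⟨h4, hx.2⟩).trans (by norm_num)

end main

end

end Crest.Agent.R146.QEnc_865
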