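import Crest.Agent.R146.C3_924
import Crest.Agent.R146.QEnc_865
import Crest.Agent.R146.PP3_865

/-!
# Row 146, NUMREF, node C3: the cells of the closure certificate on `[-5, 3]` (helper924)

`a = 9/10`, `G = 19/20`; `F = 3/2` for `σ ∈ [0, c]`, `F = 161/100` for `σ ∈ [-c, 0]`.
-/

set_option autoImplicit false

namespace Crest.Agent.R146.CloC_924

open Crest.Agent.R146.PP865

/-- error radii in units `2^-36` -/
def er : ℕ → ℕ
  | 1 => 13 * 65536
  | 2 => 98 * 65536
  | 3 => 460 * 65536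
  | 4 => 336 * 65536
  | 7 => 570 * 65536
  | _ => 0

/-- boxes of `c` and `σ ∈ [0, c]` -/
def bp : List Prm := [(22, .cst 435929 20, .cst 435931 20), (23, .cst 0 0, .cst 435931 20)]
/-- boxes of `c` and `σ ∈ [-c, 0]` -/
def bm : List Prm := [(22, .cst 435929 20, .cst 435931 20), (23, .cst (-435931) 20, .cst 0 0)]

def xR : Ex := 1 - .var 2
def xB : Ex := .var 19 + .cst 1 9
/-- `hq = (R k q + R² - (1-c) u q)/2` -/
def xh : Ex := .cst 1 1 * (xR * (.var 4 * .var 7 + xR) - (1 - .var 22) * ((.var 1 - .var 0) * .var 7))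
/-- `q R²` -/
def xw : Ex := .var 7 * (xR * xR)

/-- `100 gaL` -/
def eL (nF : ℤ) : Ex :=
  190 * xw - 100 * (xB * (.var 3 * (xR * (1 + .var 23 * xB)) + 2 * (.var 22 * xw) + .var 4 * xh))
    - .cst nF 0 * xh
    - 90 * ((1 + .var 23 * xB) * (.var 2 * (.var 4 * xh - .var 3 * xR + 2 * (.var 22 * xw))
      + .var 3 * xh))

/-- `100 gaR` -/
def eR (nF : ℤ) : Ex :=
  190 * (.var 7 * .var 7)
    - 100 * (xB * (.var 2 * (1 + .var 23 * xB) + 2 * (.var 22 * (.var 7 * .var 7))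
        + .cst 1 1 * (.var 4 * .var 7)))
    - .cst nF 1 * .var 7
    - 90 * ((1 + .var 23 * xB) * (.var 2 * (.cst 1 1 * (.var 4 * .var 7) - .var 2
        + 2 * (.var 22 * (.var 7 * .var 7))) + .cst 1 1 * (.var 3 * .var 7)))

theorem L1 : checkBoxT 36 4 8 30 21 er (-40) 7 bp (eL 150) C1D_445.P0 C1D_445.PS = true := by
  decide +kernel
theorem L2 : checkBoxT 36 4 8 30 21 er (-40) 7 bm (eL 161) C1D_445.P0 C1D_445.PS = true := by
  decide +kernel
theorem R1 : checkBoxT 36 4 8 30 21 er 7 24 bp (eR 150) C1D_445.P0 C1D_445.PS = true := by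
  decide +kernel
theorem R2 : checkBoxT 36 4 8 30 21 er 7 24 bm (eR 161) C1D_445.P0 C1D_445.PS = true := by
  decide +kernel

end Crest.Agent.R146.CloC_924
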