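import Crest.Agent.R146.VRatio_371

/-!
# Row 146, helper39: closure difference lemma and dual certificate lemma (item C3 of PT-NUM)

States `(π, I)` on the level interval (law and slope as functions of the level `v`), weight `w`,
`R(π,I) = ∫ π I / ∫ π (w/I)`.

* `ratio_le` / `le_ratio` : `R` is increasing in `I` and in right MLR tilts of `π`
  (needs `I²/w` nondecreasing for the comparison slope only).
* `tilt_le` : `R(π e^{δQ}, I e^{δe}) ≤ e^{δ(x+z)} R(π,I)`, `x ≥` mean of `Q+e` under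
  `π e^{δQ} I e^{δe}`, `z ≥` mean of `e-Q` under `π w/I` (no linearisation).
* `closure_diff` : `R(π1,I1) ≤ e^{δ(x+z)} R(π2,I2)` if `I1 ≤ I2 e^{δe}`, `π1/(π2 e^{δQ})` antitone.
* `closure_diff_low` : `R(π2,I2) ≤ e^{δ(x+z)} R(π1,I1)` if `I1 ≥ I2 e^{-δe}`,
  `π1/(π2 e^{-δQ})` monotone; means of `Q+e` under `π2 I2`, of `e-Q` under `π2 e^{-δQ} w/(I2 e^{-δe})`.
* `dual_le` : `∫ π F ≤ 0` from a function `G` with `F + G' - κ G ≤ 0`, `π' = -κ π`, `π G → 0` at the
  ends (right derivatives only).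
-/

set_option autoImplicit false

open Set Filter Topology MeasureTheory

namespace Crest.Agent.R146.CloDiff_39

/-- Jensen in the trivial form: `∫ A e^{-δX} ≥ e^{-δ x} ∫ A` if `∫ A (X - x) ≤ 0`, `A ≥ 0`. -/
theorem exp_mean_le {ν : Measure ℝ} {A X : ℝ → ℝ} {δ x : ℝ} (hδ : 0 ≤ δ)
    (hA0 : 0 ≤ᵐ[ν] A) (hA : Integrable A ν)
    (hAX : Integrable (fun v => A v * X v) ν)
    (hAe : Integrable (fun v => A v * Real.exp (-(δ * X v))) ν)
    (hx : ∫ v, A v * X v ∂ν ≤ x * ∫ v, A v ∂ν) :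
    Real.exp (-(δ * x)) * ∫ v, A v ∂ν ≤ ∫ v, A v * Real.exp (-(δ * X v)) ∂ν := by
  have h1 : ∀ᵐ v ∂ν, Real.exp (-(δ * x)) * A v + Real.exp (-(δ * x)) * (δ * x) * A v -
      Real.exp (-(δ * x)) * δ * (A v * X v) ≤ A v * Real.exp (-(δ * X v)) := by
    filter_upwards [hA0] with v hv
    have hv' : 0 ≤ A v := hv
    have e1 : Real.exp (-(δ * X v)) = Real.exp (-(δ * x)) * Real.exp (δ * x - δ * X v) := by
      rw [← Real.exp_add]; congr 1; ring
    have e2 : δ * x - δ * X v + 1 ≤ Real.exp (δ * x - δ * X v) := Real.add_one_le_exp _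
    rw [e1]
    have e3 : Real.exp (-(δ * x)) * A v * (δ * x - δ * X v + 1) ≤
        Real.exp (-(δ * x)) * A v * Real.exp (δ * x - δ * X v) :=
      mul_le_mul_of_nonneg_left e2 (mul_nonneg (Real.exp_pos _).le hv')
    nlinarith
  have h2 := integral_mono_ae (((hA.const_mul (Real.exp (-(δ * x)))).add
    (hA.const_mul (Real.exp (-(δ * x)) * (δ * x)))).sub
      (hAX.const_mul (Real.exp (-(δ * x)) * δ))) hAe h1
  have h3 : ∫ v, (Real.exp (-(δ * x)) * A v + Real.exp (-(δ * x)) * (δ * x) * A v -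
      Real.exp (-(δ * x)) * δ * (A v * X v)) ∂ν =
      Real.exp (-(δ * x)) * ∫ v, A v ∂ν + Real.exp (-(δ * x)) * (δ * x) * ∫ v, A v ∂ν -
      Real.exp (-(δ * x)) * δ * ∫ v, A v * X v ∂ν := by
    rw [integral_sub, integral_add, integral_const_mul, integral_const_mul, integral_const_mul]
    · exact hA.const_mul _
    · exact hA.const_mul _
    · exact (hA.const_mul _).add (hA.const_mul _)
    · exact hAX.const_mul _
  have h4 : Real.exp (-(δ * x)) * ∫ v, A v ∂ν + Real.exp (-(δ * x)) * (δ * x) * ∫ v, A v ∂ν -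
      Real.exp (-(δ * x)) * δ * ∫ v, A v * X v ∂ν ≤ ∫ v, A v * Real.exp (-(δ * X v)) ∂ν := by
    rw [← h3]; exact h2
  have h5 : 0 ≤ Real.exp (-(δ * x)) * δ := mul_nonneg (Real.exp_pos _).le hδ
  nlinarith [mul_le_mul_of_nonneg_left hx h5]

/-- Chebyshev-type inequality on a set: if `A/B` is nondecreasing and `θ` nonincreasing on `s` then
`(∫ A θ)(∫ B) ≤ (∫ A)(∫ B θ)`. -/
theorem cheb_on {ν : Measure ℝ} [SFinite ν] {s : Set ℝ} (hs : MeasurableSet s) {A B θ : ℝ → ℝ}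
    (hA : IntegrableOn A s ν) (hB : IntegrableOn B s ν)
    (hAθ : IntegrableOn (fun x => A x * θ x) s ν) (hBθ : IntegrableOn (fun x => B x * θ x) s ν)
    (hAB : ∀ x ∈ s, ∀ y ∈ s, x ≤ y → A x * B y ≤ A y * B x) (hθ : AntitoneOn θ s) :
    (∫ x in s, A x * θ x ∂ν) * (∫ x in s, B x ∂ν) ≤
      (∫ x in s, A x ∂ν) * (∫ x in s, B x * θ x ∂ν) := by
  have hpt : ∀ᵐ z : ℝ × ℝ ∂((ν.restrict s).prod (ν.restrict s)),
      0 ≤ (A z.2 * B z.1 - A z.1 * B z.2) * (θ z.1 - θ z.2) := by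
    rw [Measure.prod_restrict]
    filter_upwards [ae_restrict_mem (hs.prod hs)] with z hz
    obtain ⟨h1, h2⟩ := hz
    rcases le_total z.1 z.2 with h | h
    · exact mul_nonneg (by linarith [hAB _ h1 _ h2 h]) (by linarith [hθ h1 h2 h])
    · exact mul_nonneg_of_nonpos_of_nonpos (by linarith [hAB _ h2 _ h1 h])
        (by linarith [hθ h2 h1 h])
  set ρ := ν.restrict s with hρ
  have i1 : Integrable (fun z : ℝ × ℝ => (B z.1 * θ z.1) * A z.2) (ρ.prod ρ) := hBθ.mul_prod hA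
  have i2 : Integrable (fun z : ℝ × ℝ => B z.1 * (A z.2 * θ z.2)) (ρ.prod ρ) := hB.mul_prod hAθ
  have i3 : Integrable (fun z : ℝ × ℝ => (A z.1 * θ z.1) * B z.2) (ρ.prod ρ) := hAθ.mul_prod hB
  have i4 : Integrable (fun z : ℝ × ℝ => A z.1 * (B z.2 * θ z.2)) (ρ.prod ρ) := hA.mul_prod hBθ
  have h0 : 0 ≤ ∫ z : ℝ × ℝ, (((B z.1 * θ z.1) * A z.2 - B z.1 * (A z.2 * θ z.2)) -
      ((A z.1 * θ z.1) * B z.2 - A z.1 * (B z.2 * θ z.2))) ∂(ρ.prod ρ) := by
    apply integral_nonneg_of_ae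
    filter_upwards [hpt] with z hz
    simp only [Pi.zero_apply]
    nlinarith
  have i12 : Integrable (fun z : ℝ × ℝ => (B z.1 * θ z.1) * A z.2 - B z.1 * (A z.2 * θ z.2))
    (ρ.prod ρ) := i1.sub i2
  have i34 : Integrable (fun z : ℝ × ℝ => (A z.1 * θ z.1) * B z.2 - A z.1 * (B z.2 * θ z.2))
    (ρ.prod ρ) := i3.sub i4
  rw [integral_sub i12 i34, integral_sub i1 i2, integral_sub i3 i4,
    integral_prod_mul (fun x => B x * θ x) A, integral_prod_mul B (fun x => A x * θ x),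
    integral_prod_mul (fun x => A x * θ x) B, integral_prod_mul A (fun x => B x * θ x)] at h0
  nlinarith

/-- **Tilt lemma.** The ratio `R(π,I) = ∫ π I / ∫ π (w/I)` changes by a factor at most
`exp(δ (x+z))` when `(π, I)` is replaced by `(π e^{δQ}, I e^{δe})`; `x` bounds the mean of `Q+e` in
the tilted numerator, `z` the mean of `e-Q` in the untilted denominator. -/
theorem tilt_le {ν : Measure ℝ} [SFinite ν] {s : Set ℝ} (hs : MeasurableSet s)
    {π I w e Q : ℝ → ℝ} {δ x z : ℝ} (hδ : 0 ≤ δ)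
    (hπ : ∀ v ∈ s, 0 < π v) (hI0 : ∀ v ∈ s, 0 < I v) (hw : ∀ v ∈ s, 0 ≤ w v)
    (i2 : IntegrableOn (fun v => π v * I v) s ν)
    (i2w : IntegrableOn (fun v => π v * (w v / I v)) s ν)
    (i2e : IntegrableOn (fun v => π v * I v * Real.exp (δ * (Q v + e v))) s ν)
    (i2eX : IntegrableOn
      (fun v => π v * I v * Real.exp (δ * (Q v + e v)) * (Q v + e v)) s ν)
    (i2we : IntegrableOn (fun v => π v * (w v / I v) * Real.exp (-(δ * (e v - Q v)))) s ν)
    (i2wZ : IntegrableOn (fun v => π v * (w v / I v) * (e v - Q v)) s ν)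
    (hx : ∫ v in s, π v * I v * Real.exp (δ * (Q v + e v)) * (Q v + e v) ∂ν ≤
      x * ∫ v in s, π v * I v * Real.exp (δ * (Q v + e v)) ∂ν)
    (hz : ∫ v in s, π v * (w v / I v) * (e v - Q v) ∂ν ≤
      z * ∫ v in s, π v * (w v / I v) ∂ν) :
    (∫ v in s, (π v * Real.exp (δ * Q v)) * (I v * Real.exp (δ * e v)) ∂ν) *
        (∫ v in s, π v * (w v / I v) ∂ν) ≤
      Real.exp (δ * (x + z)) *
        ((∫ v in s, (π v * Real.exp (δ * Q v)) * (w v / (I v * Real.exp (δ * e v))) ∂ν) *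
        (∫ v in s, π v * I v ∂ν)) := by
  have ae_s : ∀ᵐ v ∂(ν.restrict s), v ∈ s := ae_restrict_mem hs
  have hAeq : ∀ v, (π v * Real.exp (δ * Q v)) * (I v * Real.exp (δ * e v)) =
      π v * I v * Real.exp (δ * (Q v + e v)) := by
    intro v
    rw [mul_add, Real.exp_add]; ring
  have hBeq : ∀ v ∈ s, (π v * Real.exp (δ * Q v)) * (w v / (I v * Real.exp (δ * e v))) =
      π v * (w v / I v) * Real.exp (-(δ * (e v - Q v))) := by
    intro v hv
    have h2 := (hI0 v hv).ne'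
    have h3 := (Real.exp_pos (δ * e v)).ne'
    rw [show -(δ * (e v - Q v)) = δ * Q v - δ * e v by ring, Real.exp_sub]
    field_simp
  have hAe : ∀ v, π v * I v * Real.exp (δ * (Q v + e v)) * Real.exp (-(δ * (Q v + e v))) =
      π v * I v := by
    intro v
    rw [mul_assoc, ← Real.exp_add]
    simp
  have hR1 := exp_mean_le (ν := ν.restrict s)
    (A := fun v => π v * I v * Real.exp (δ * (Q v + e v))) (X := fun v => Q v + e v) hδ
    (by
      filter_upwards [ae_s] with v hv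
      exact (mul_pos (mul_pos (hπ v hv) (hI0 v hv)) (Real.exp_pos _)).le) i2e i2eX
    (by simp only [hAe]; exact i2) hx
  simp only [hAe] at hR1
  have hR2 := exp_mean_le (ν := ν.restrict s) (A := fun v => π v * (w v / I v))
    (X := fun v => e v - Q v) hδ
    (by
      filter_upwards [ae_s] with v hv
      exact mul_nonneg (hπ v hv).le (div_nonneg (hw v hv) (hI0 v hv).le)) i2w i2wZ i2we hz
  have eA : ∫ v in s, (π v * Real.exp (δ * Q v)) * (I v * Real.exp (δ * e v)) ∂ν =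
      ∫ v in s, π v * I v * Real.exp (δ * (Q v + e v)) ∂ν := by
    simp only [hAeq]
  have eB : ∫ v in s, (π v * Real.exp (δ * Q v)) * (w v / (I v * Real.exp (δ * e v))) ∂ν =
      ∫ v in s, π v * (w v / I v) * Real.exp (-(δ * (e v - Q v))) ∂ν :=
    setIntegral_congr_fun hs hBeq
  rw [eA, eB]
  set SA := ∫ v in s, π v * I v * Real.exp (δ * (Q v + e v)) ∂ν
  set SB := ∫ v in s, π v * (w v / I v) * Real.exp (-(δ * (e v - Q v))) ∂ν
  set N2 := ∫ v in s, π v * I v ∂ν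
  set D2 := ∫ v in s, π v * (w v / I v) ∂ν
  have hSA : 0 ≤ SA := setIntegral_nonneg hs fun v hv =>
    (mul_pos (mul_pos (hπ v hv) (hI0 v hv)) (Real.exp_pos _)).le
  have hSB : 0 ≤ SB := setIntegral_nonneg hs fun v hv =>
    mul_nonneg (mul_nonneg (hπ v hv).le (div_nonneg (hw v hv) (hI0 v hv).le)) (Real.exp_pos _).le
  have hSA2 : SA ≤ Real.exp (δ * x) * N2 := by
    have := mul_le_mul_of_nonneg_left hR1 (Real.exp_pos (δ * x)).le
    rw [← mul_assoc, ← Real.exp_add] at this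
    simpa using this
  have hD2 : D2 ≤ Real.exp (δ * z) * SB := by
    have := mul_le_mul_of_nonneg_left hR2 (Real.exp_pos (δ * z)).le
    rw [← mul_assoc, ← Real.exp_add] at this
    simpa using this
  calc SA * D2 ≤ SA * (Real.exp (δ * z) * SB) := mul_le_mul_of_nonneg_left hD2 hSA
    _ = Real.exp (δ * z) * SB * SA := by ring
    _ ≤ Real.exp (δ * z) * SB * (Real.exp (δ * x) * N2) :=
        mul_le_mul_of_nonneg_left hSA2 (mul_nonneg (Real.exp_pos _).le hSB)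
    _ = Real.exp (δ * (x + z)) * (SB * N2) := by
        rw [mul_add, Real.exp_add]; ring

/-- Upper comparison of the closure ratio at level `v` (version of 371's `closure_le` with both
states on the level interval). -/
theorem ratio_le {ν : Measure ℝ} [SFinite ν] {s : Set ℝ} (hs : MeasurableSet s)
    {π1 πp I1 Ip w : ℝ → ℝ}
    (hπ1 : ∀ v ∈ s, 0 < π1 v) (hπp : ∀ v ∈ s, 0 < πp v)
    (hI1 : ∀ v ∈ s, 0 < I1 v) (hIp : ∀ v ∈ s, 0 < Ip v) (hw : ∀ v ∈ s, 0 ≤ w v)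
    (hI : ∀ v ∈ s, I1 v ≤ Ip v) (hθ : AntitoneOn (fun v => π1 v / πp v) s)
    (hmono : ∀ v ∈ s, ∀ u ∈ s, v ≤ u → Ip v ^ 2 * w u ≤ Ip u ^ 2 * w v)
    (i1 : IntegrableOn (fun v => π1 v * I1 v) s ν)
    (i1p : IntegrableOn (fun v => π1 v * Ip v) s ν)
    (i1w : IntegrableOn (fun v => π1 v * (w v / I1 v)) s ν)
    (i1wp : IntegrableOn (fun v => π1 v * (w v / Ip v)) s ν)
    (ip : IntegrableOn (fun v => πp v * Ip v) s ν)
    (ipw : IntegrableOn (fun v => πp v * (w v / Ip v)) s ν) :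
    (∫ v in s, π1 v * I1 v ∂ν) * (∫ v in s, πp v * (w v / Ip v) ∂ν) ≤
      (∫ v in s, π1 v * (w v / I1 v) ∂ν) * (∫ v in s, πp v * Ip v ∂ν) := by
  have hAθ : ∀ v ∈ s, πp v * Ip v * (π1 v / πp v) = π1 v * Ip v := by
    intro v hv
    have h2 := (hπp v hv).ne'
    field_simp
  have hBθ : ∀ v ∈ s, πp v * (w v / Ip v) * (π1 v / πp v) = π1 v * (w v / Ip v) := by
    intro v hv
    have h2 := (hπp v hv).ne'
    field_simp
  have iAθ : IntegrableOn (fun v => πp v * Ip v * (π1 v / πp v)) s ν :=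
    i1p.congr_fun (fun v hv => (hAθ v hv).symm) hs
  have iBθ : IntegrableOn (fun v => πp v * (w v / Ip v) * (π1 v / πp v)) s ν :=
    i1wp.congr_fun (fun v hv => (hBθ v hv).symm) hs
  have hcheb := cheb_on hs ip ipw iAθ iBθ (by
    intro v hv u hu hvu
    have hm := hmono v hv u hu hvu
    have h1 : 0 < Ip v := hIp v hv
    have h2 : 0 < Ip u := hIp u hu
    have h3 : Ip v * (w u / Ip u) ≤ Ip u * (w v / Ip v) := by
      rw [← mul_div_assoc, ← mul_div_assoc, div_le_div_iff₀ h2 h1]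
      nlinarith
    have h6 := mul_le_mul_of_nonneg_left h3 (mul_pos (hπp v hv) (hπp u hu)).le
    nlinarith) hθ
  have hN1 : ∫ v in s, π1 v * I1 v ∂ν ≤ ∫ v in s, πp v * Ip v * (π1 v / πp v) ∂ν := by
    refine setIntegral_mono_on i1 iAθ hs fun v hv => ?_
    rw [hAθ v hv]
    exact mul_le_mul_of_nonneg_left (hI v hv) (hπ1 v hv).le
  have hD1 : ∫ v in s, πp v * (w v / Ip v) * (π1 v / πp v) ∂ν ≤
      ∫ v in s, π1 v * (w v / I1 v) ∂ν := by
    refine setIntegral_mono_on iBθ i1w hs fun v hv => ?_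
    rw [hBθ v hv]
    exact mul_le_mul_of_nonneg_left
      (div_le_div_of_nonneg_left (hw v hv) (hI1 v hv) (hI v hv)) (hπ1 v hv).le
  have hSA : 0 ≤ ∫ v in s, πp v * Ip v ∂ν := setIntegral_nonneg hs fun v hv =>
    (mul_pos (hπp v hv) (hIp v hv)).le
  have hSB : 0 ≤ ∫ v in s, πp v * (w v / Ip v) ∂ν := setIntegral_nonneg hs fun v hv =>
    mul_nonneg (hπp v hv).le (div_nonneg (hw v hv) (hIp v hv).le)
  calc _ ≤ (∫ v in s, πp v * Ip v * (π1 v / πp v) ∂ν) *
        (∫ v in s, πp v * (w v / Ip v) ∂ν) := mul_le_mul_of_nonneg_right hN1 hSB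
    _ ≤ (∫ v in s, πp v * Ip v ∂ν) *
        ∫ v in s, πp v * (w v / Ip v) * (π1 v / πp v) ∂ν := hcheb
    _ ≤ (∫ v in s, πp v * Ip v ∂ν) * ∫ v in s, π1 v * (w v / I1 v) ∂ν :=
        mul_le_mul_of_nonneg_left hD1 hSA
    _ = _ := by ring

/-- **Closure difference lemma** (no linearisation, one-sided). -/
theorem closure_diff {ν : Measure ℝ} [SFinite ν] {s : Set ℝ} (hs : MeasurableSet s)
    {π1 π2 I1 I2 w e Q : ℝ → ℝ} {δ x z : ℝ} (hδ : 0 ≤ δ)
    (hπ1 : ∀ v ∈ s, 0 < π1 v) (hπ2 : ∀ v ∈ s, 0 < π2 v)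
    (hI1 : ∀ v ∈ s, 0 < I1 v) (hI2 : ∀ v ∈ s, 0 < I2 v) (hw : ∀ v ∈ s, 0 ≤ w v)
    (hI : ∀ v ∈ s, I1 v ≤ I2 v * Real.exp (δ * e v))
    (hθ : AntitoneOn (fun v => π1 v / (π2 v * Real.exp (δ * Q v))) s)
    (hmono : ∀ v ∈ s, ∀ u ∈ s, v ≤ u →
      (I2 v * Real.exp (δ * e v)) ^ 2 * w u ≤ (I2 u * Real.exp (δ * e u)) ^ 2 * w v)
    (i1 : IntegrableOn (fun v => π1 v * I1 v) s ν)
    (i1e : IntegrableOn (fun v => π1 v * (I2 v * Real.exp (δ * e v))) s ν)
    (i1w : IntegrableOn (fun v => π1 v * (w v / I1 v)) s ν)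
    (i1we : IntegrableOn (fun v => π1 v * (w v / (I2 v * Real.exp (δ * e v)))) s ν)
    (i2 : IntegrableOn (fun v => π2 v * I2 v) s ν)
    (i2w : IntegrableOn (fun v => π2 v * (w v / I2 v)) s ν)
    (i2e : IntegrableOn (fun v => π2 v * I2 v * Real.exp (δ * (Q v + e v))) s ν)
    (i2eX : IntegrableOn
      (fun v => π2 v * I2 v * Real.exp (δ * (Q v + e v)) * (Q v + e v)) s ν)
    (i2we : IntegrableOn (fun v => π2 v * (w v / I2 v) * Real.exp (-(δ * (e v - Q v)))) s ν)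
    (i2wZ : IntegrableOn (fun v => π2 v * (w v / I2 v) * (e v - Q v)) s ν)
    (hpos : 0 < ∫ v in s, π2 v * (w v / I2 v) * Real.exp (-(δ * (e v - Q v))) ∂ν)
    (hx : ∫ v in s, π2 v * I2 v * Real.exp (δ * (Q v + e v)) * (Q v + e v) ∂ν ≤
      x * ∫ v in s, π2 v * I2 v * Real.exp (δ * (Q v + e v)) ∂ν)
    (hz : ∫ v in s, π2 v * (w v / I2 v) * (e v - Q v) ∂ν ≤
      z * ∫ v in s, π2 v * (w v / I2 v) ∂ν) :
    (∫ v in s, π1 v * I1 v ∂ν) * (∫ v in s, π2 v * (w v / I2 v) ∂ν) ≤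
      Real.exp (δ * (x + z)) * ((∫ v in s, π1 v * (w v / I1 v) ∂ν) *
        (∫ v in s, π2 v * I2 v ∂ν)) := by
  have hAeq : ∀ v, (π2 v * Real.exp (δ * Q v)) * (I2 v * Real.exp (δ * e v)) =
      π2 v * I2 v * Real.exp (δ * (Q v + e v)) := by
    intro v
    rw [mul_add, Real.exp_add]; ring
  have hBeq : ∀ v ∈ s, (π2 v * Real.exp (δ * Q v)) * (w v / (I2 v * Real.exp (δ * e v))) =
      π2 v * (w v / I2 v) * Real.exp (-(δ * (e v - Q v))) := by
    intro v hv
    have h2 := (hI2 v hv).ne'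
    have h3 := (Real.exp_pos (δ * e v)).ne'
    rw [show -(δ * (e v - Q v)) = δ * Q v - δ * e v by ring, Real.exp_sub]
    field_simp
  have c1 := ratio_le hs (π1 := π1) (πp := fun v => π2 v * Real.exp (δ * Q v)) (I1 := I1)
    (Ip := fun v => I2 v * Real.exp (δ * e v)) (w := w) hπ1
    (fun v hv => mul_pos (hπ2 v hv) (Real.exp_pos _)) hI1
    (fun v hv => mul_pos (hI2 v hv) (Real.exp_pos _)) hw hI hθ hmono i1 i1e i1w i1we
    (by simp only [hAeq]; exact i2e)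
    (i2we.congr_fun (fun v hv => (hBeq v hv).symm) hs)
  have c2 := tilt_le hs hδ hπ2 hI2 hw i2 i2w i2e i2eX i2we i2wZ hx hz
  have eB : ∫ v in s, (π2 v * Real.exp (δ * Q v)) * (w v / (I2 v * Real.exp (δ * e v))) ∂ν =
      ∫ v in s, π2 v * (w v / I2 v) * Real.exp (-(δ * (e v - Q v))) ∂ν :=
    setIntegral_congr_fun hs hBeq
  rw [← eB] at hpos
  have hD1n : 0 ≤ ∫ v in s, π1 v * (w v / I1 v) ∂ν := setIntegral_nonneg hs fun v hv =>
    mul_nonneg (hπ1 v hv).le (div_nonneg (hw v hv) (hI1 v hv).le)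
  have hD2n : 0 ≤ ∫ v in s, π2 v * (w v / I2 v) ∂ν := setIntegral_nonneg hs fun v hv =>
    mul_nonneg (hπ2 v hv).le (div_nonneg (hw v hv) (hI2 v hv).le)
  set N1 := ∫ v in s, π1 v * I1 v ∂ν
  set D1 := ∫ v in s, π1 v * (w v / I1 v) ∂ν
  set N2 := ∫ v in s, π2 v * I2 v ∂ν
  set D2 := ∫ v in s, π2 v * (w v / I2 v) ∂ν
  set SA := ∫ v in s, (π2 v * Real.exp (δ * Q v)) * (I2 v * Real.exp (δ * e v)) ∂ν
  set SB := ∫ v in s, (π2 v * Real.exp (δ * Q v)) * (w v / (I2 v * Real.exp (δ * e v))) ∂ν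
  have h3 : SB * (N1 * D2) ≤ SB * (Real.exp (δ * (x + z)) * (D1 * N2)) := by
    calc SB * (N1 * D2) = (N1 * SB) * D2 := by ring
      _ ≤ (D1 * SA) * D2 := mul_le_mul_of_nonneg_right c1 hD2n
      _ = D1 * (SA * D2) := by ring
      _ ≤ D1 * (Real.exp (δ * (x + z)) * (SB * N2)) := mul_le_mul_of_nonneg_left c2 hD1n
      _ = SB * (Real.exp (δ * (x + z)) * (D1 * N2)) := by ring
  exact le_of_mul_le_mul_left h3 hpos

/-- Lower comparison of the closure ratio at level `v`. -/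
theorem le_ratio {ν : Measure ℝ} [SFinite ν] {s : Set ℝ} (hs : MeasurableSet s)
    {π1 πm I1 Im w : ℝ → ℝ}
    (hπ1 : ∀ v ∈ s, 0 < π1 v) (hπm : ∀ v ∈ s, 0 < πm v)
    (_hI1 : ∀ v ∈ s, 0 < I1 v) (hIm : ∀ v ∈ s, 0 < Im v) (hw : ∀ v ∈ s, 0 ≤ w v)
    (hI : ∀ v ∈ s, Im v ≤ I1 v) (hθ : MonotoneOn (fun v => π1 v / πm v) s)
    (hmono : ∀ v ∈ s, ∀ u ∈ s, v ≤ u → Im v ^ 2 * w u ≤ Im u ^ 2 * w v)
    (i1 : IntegrableOn (fun v => π1 v * I1 v) s ν)
    (i1m : IntegrableOn (fun v => π1 v * Im v) s ν)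
    (i1w : IntegrableOn (fun v => π1 v * (w v / I1 v)) s ν)
    (i1wm : IntegrableOn (fun v => π1 v * (w v / Im v)) s ν)
    (im : IntegrableOn (fun v => πm v * Im v) s ν)
    (imw : IntegrableOn (fun v => πm v * (w v / Im v)) s ν) :
    (∫ v in s, πm v * Im v ∂ν) * (∫ v in s, π1 v * (w v / I1 v) ∂ν) ≤
      (∫ v in s, πm v * (w v / Im v) ∂ν) * (∫ v in s, π1 v * I1 v ∂ν) := by
  have hAθ : ∀ v ∈ s, πm v * Im v * (π1 v / πm v) = π1 v * Im v := by
    intro v hv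
    have h2 := (hπm v hv).ne'
    field_simp
  have hBθ : ∀ v ∈ s, πm v * (w v / Im v) * (π1 v / πm v) = π1 v * (w v / Im v) := by
    intro v hv
    have h2 := (hπm v hv).ne'
    field_simp
  have iAθ : IntegrableOn (fun v => πm v * Im v * (π1 v / πm v)) s ν :=
    i1m.congr_fun (fun v hv => (hAθ v hv).symm) hs
  have iBθ : IntegrableOn (fun v => πm v * (w v / Im v) * (π1 v / πm v)) s ν :=
    i1wm.congr_fun (fun v hv => (hBθ v hv).symm) hs
  have hcheb0 := cheb_on hs (θ := fun v => -(π1 v / πm v)) im imw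
    (by simp only [mul_neg]; exact iAθ.neg) (by simp only [mul_neg]; exact iBθ.neg) (by
    intro v hv u hu hvu
    have hm := hmono v hv u hu hvu
    have h1 : 0 < Im v := hIm v hv
    have h2 : 0 < Im u := hIm u hu
    have h3 : Im v * (w u / Im u) ≤ Im u * (w v / Im v) := by
      rw [← mul_div_assoc, ← mul_div_assoc, div_le_div_iff₀ h2 h1]
      nlinarith
    have h6 := mul_le_mul_of_nonneg_left h3 (mul_pos (hπm v hv) (hπm u hu)).le
    nlinarith) (fun v hv u hu hvu => neg_le_neg (hθ hv hu hvu))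
  simp only [mul_neg, integral_neg, neg_mul] at hcheb0
  have hN1 : ∫ v in s, πm v * Im v * (π1 v / πm v) ∂ν ≤ ∫ v in s, π1 v * I1 v ∂ν := by
    refine setIntegral_mono_on iAθ i1 hs fun v hv => ?_
    rw [hAθ v hv]
    exact mul_le_mul_of_nonneg_left (hI v hv) (hπ1 v hv).le
  have hD1 : ∫ v in s, π1 v * (w v / I1 v) ∂ν ≤
      ∫ v in s, πm v * (w v / Im v) * (π1 v / πm v) ∂ν := by
    refine setIntegral_mono_on i1w iBθ hs fun v hv => ?_
    rw [hBθ v hv]
    exact mul_le_mul_of_nonneg_left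
      (div_le_div_of_nonneg_left (hw v hv) (hIm v hv) (hI v hv)) (hπ1 v hv).le
  have hSA : 0 ≤ ∫ v in s, πm v * Im v ∂ν := setIntegral_nonneg hs fun v hv =>
    (mul_pos (hπm v hv) (hIm v hv)).le
  have hSB : 0 ≤ ∫ v in s, πm v * (w v / Im v) ∂ν := setIntegral_nonneg hs fun v hv =>
    mul_nonneg (hπm v hv).le (div_nonneg (hw v hv) (hIm v hv).le)
  calc _ ≤ (∫ v in s, πm v * Im v ∂ν) *
        (∫ v in s, πm v * (w v / Im v) * (π1 v / πm v) ∂ν) := mul_le_mul_of_nonneg_left hD1 hSA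
    _ ≤ (∫ v in s, πm v * (w v / Im v) ∂ν) *
        ∫ v in s, πm v * Im v * (π1 v / πm v) ∂ν := by linarith
    _ ≤ (∫ v in s, πm v * (w v / Im v) ∂ν) * ∫ v in s, π1 v * I1 v ∂ν :=
        mul_le_mul_of_nonneg_left hN1 hSB

/-- **Closure difference lemma, lower form**: state 1 above the down-tilted state 2; the means are
those of the (untilted) numerator measure of state 2 and of the down-tilted denominator measure. -/
theorem closure_diff_low {ν : Measure ℝ} [SFinite ν] {s : Set ℝ} (hs : MeasurableSet s)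
    {π1 π2 I1 I2 w e Q : ℝ → ℝ} {δ x z : ℝ} (hδ : 0 ≤ δ)
    (hπ1 : ∀ v ∈ s, 0 < π1 v) (hπ2 : ∀ v ∈ s, 0 < π2 v)
    (hI1 : ∀ v ∈ s, 0 < I1 v) (hI2 : ∀ v ∈ s, 0 < I2 v) (hw : ∀ v ∈ s, 0 ≤ w v)
    (hI : ∀ v ∈ s, I2 v * Real.exp (-(δ * e v)) ≤ I1 v)
    (hθ : MonotoneOn (fun v => π1 v / (π2 v * Real.exp (-(δ * Q v)))) s)
    (hmono : ∀ v ∈ s, ∀ u ∈ s, v ≤ u →
      (I2 v * Real.exp (-(δ * e v))) ^ 2 * w u ≤ (I2 u * Real.exp (-(δ * e u))) ^ 2 * w v)
    (i1 : IntegrableOn (fun v => π1 v * I1 v) s ν)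
    (i1e : IntegrableOn (fun v => π1 v * (I2 v * Real.exp (-(δ * e v)))) s ν)
    (i1w : IntegrableOn (fun v => π1 v * (w v / I1 v)) s ν)
    (i1we : IntegrableOn (fun v => π1 v * (w v / (I2 v * Real.exp (-(δ * e v))))) s ν)
    (i2 : IntegrableOn (fun v => π2 v * I2 v) s ν)
    (i2X : IntegrableOn (fun v => π2 v * I2 v * (Q v + e v)) s ν)
    (i2w : IntegrableOn (fun v => π2 v * (w v / I2 v)) s ν)
    (i2e : IntegrableOn (fun v => π2 v * I2 v * Real.exp (-(δ * (Q v + e v)))) s ν)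
    (i2we : IntegrableOn (fun v => π2 v * (w v / I2 v) * Real.exp (δ * (e v - Q v))) s ν)
    (i2wZ : IntegrableOn
      (fun v => π2 v * (w v / I2 v) * Real.exp (δ * (e v - Q v)) * (e v - Q v)) s ν)
    (hpos : 0 < ∫ v in s, π2 v * (w v / I2 v) * Real.exp (δ * (e v - Q v)) ∂ν)
    (hx : ∫ v in s, π2 v * I2 v * (Q v + e v) ∂ν ≤ x * ∫ v in s, π2 v * I2 v ∂ν)
    (hz : ∫ v in s, π2 v * (w v / I2 v) * Real.exp (δ * (e v - Q v)) * (e v - Q v) ∂ν ≤
      z * ∫ v in s, π2 v * (w v / I2 v) * Real.exp (δ * (e v - Q v)) ∂ν) :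
    (∫ v in s, π2 v * I2 v ∂ν) * (∫ v in s, π1 v * (w v / I1 v) ∂ν) ≤
      Real.exp (δ * (x + z)) * ((∫ v in s, π2 v * (w v / I2 v) ∂ν) *
        (∫ v in s, π1 v * I1 v ∂ν)) := by
  set πm : ℝ → ℝ := fun v => π2 v * Real.exp (-(δ * Q v)) with hπm
  set Im : ℝ → ℝ := fun v => I2 v * Real.exp (-(δ * e v)) with hIm
  have hπmp : ∀ v ∈ s, 0 < πm v := fun v hv => mul_pos (hπ2 v hv) (Real.exp_pos _)
  have hImp : ∀ v ∈ s, 0 < Im v := fun v hv => mul_pos (hI2 v hv) (Real.exp_pos _)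
  have e1 : ∀ v, πm v * Real.exp (δ * Q v) = π2 v := by
    intro v; simp only [hπm]; rw [mul_assoc, ← Real.exp_add]; simp
  have e2 : ∀ v, Im v * Real.exp (δ * e v) = I2 v := by
    intro v; simp only [hIm]; rw [mul_assoc, ← Real.exp_add]; simp
  have e3 : ∀ v, πm v * Im v = π2 v * I2 v * Real.exp (-(δ * (Q v + e v))) := by
    intro v; simp only [hπm, hIm]
    rw [show -(δ * (Q v + e v)) = -(δ * Q v) + -(δ * e v) by ring, Real.exp_add]; ring
  have e4 : ∀ v ∈ s, πm v * (w v / Im v) =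
      π2 v * (w v / I2 v) * Real.exp (δ * (e v - Q v)) := by
    intro v hv
    have h2 := (hI2 v hv).ne'
    simp only [hπm, hIm]
    rw [show δ * (e v - Q v) = -(δ * Q v) - -(δ * e v) by ring, Real.exp_sub]
    field_simp
  have e5 : ∀ v, πm v * Im v * Real.exp (δ * (Q v + e v)) = π2 v * I2 v := by
    intro v; rw [e3, mul_assoc, ← Real.exp_add]; simp
  have e6 : ∀ v ∈ s, πm v * (w v / Im v) * Real.exp (-(δ * (e v - Q v))) =
      π2 v * (w v / I2 v) := by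
    intro v hv; rw [e4 v hv, mul_assoc, ← Real.exp_add]; simp
  have iA : IntegrableOn (fun v => πm v * Im v) s ν := by simp only [e3]; exact i2e
  have iB : IntegrableOn (fun v => πm v * (w v / Im v)) s ν :=
    i2we.congr_fun (fun v hv => (e4 v hv).symm) hs
  have eSB : ∫ v in s, πm v * (w v / Im v) ∂ν =
      ∫ v in s, π2 v * (w v / I2 v) * Real.exp (δ * (e v - Q v)) ∂ν :=
    setIntegral_congr_fun hs e4
  have c2 := tilt_le hs (π := πm) (I := Im) (w := w) (e := e) (Q := Q) (x := x) (z := z)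
    hδ hπmp hImp hw iA iB
    (by simp only [e5]; exact i2) (by simp only [e5]; exact i2X)
    (i2w.congr_fun (fun v hv => (e6 v hv).symm) hs)
    (i2wZ.congr_fun (fun v hv => by simp only [e4 v hv]) hs)
    (by simp only [e5]; exact hx)
    (by
      rw [eSB]
      rwa [setIntegral_congr_fun hs (fun v hv => by simp only [e4 v hv] :
        EqOn (fun v => πm v * (w v / Im v) * (e v - Q v))
          (fun v => π2 v * (w v / I2 v) * Real.exp (δ * (e v - Q v)) * (e v - Q v)) s)])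
  simp only [e1, e2] at c2
  have c1 := le_ratio hs (π1 := π1) (πm := πm) (I1 := I1) (Im := Im) (w := w) hπ1 hπmp hI1
    hImp hw hI hθ hmono i1 i1e i1w i1we iA iB
  rw [← eSB] at hpos
  have hD1n : 0 ≤ ∫ v in s, π1 v * (w v / I1 v) ∂ν := setIntegral_nonneg hs fun v hv =>
    mul_nonneg (hπ1 v hv).le (div_nonneg (hw v hv) (hI1 v hv).le)
  have hD2n : 0 ≤ ∫ v in s, π2 v * (w v / I2 v) ∂ν := setIntegral_nonneg hs fun v hv =>
    mul_nonneg (hπ2 v hv).le (div_nonneg (hw v hv) (hI2 v hv).le)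
  set N1 := ∫ v in s, π1 v * I1 v ∂ν
  set D1 := ∫ v in s, π1 v * (w v / I1 v) ∂ν
  set N2 := ∫ v in s, π2 v * I2 v ∂ν
  set D2 := ∫ v in s, π2 v * (w v / I2 v) ∂ν
  set SA := ∫ v in s, πm v * Im v ∂ν
  set SB := ∫ v in s, πm v * (w v / Im v) ∂ν
  have h3 : SB * (N2 * D1) ≤ SB * (Real.exp (δ * (x + z)) * (D2 * N1)) := by
    calc SB * (N2 * D1) = (N2 * SB) * D1 := by ring
      _ ≤ (Real.exp (δ * (x + z)) * (D2 * SA)) * D1 := mul_le_mul_of_nonneg_right c2 hD1n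
      _ = Real.exp (δ * (x + z)) * D2 * (SA * D1) := by ring
      _ ≤ Real.exp (δ * (x + z)) * D2 * (SB * N1) :=
          mul_le_mul_of_nonneg_left c1 (mul_nonneg (Real.exp_pos _).le hD2n)
      _ = SB * (Real.exp (δ * (x + z)) * (D2 * N1)) := by ring
  exact le_of_mul_le_mul_left h3 hpos

/-- A measurable function bounded on `Ioo a b` is integrable there. -/
theorem integrableOn_of_bdd {a b C : ℝ} {F : ℝ → ℝ}
    (hm : AEStronglyMeasurable F (volume.restrict (Ioo a b)))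
    (hb : ∀ v ∈ Ioo a b, |F v| ≤ C) : IntegrableOn F (Ioo a b) := by
  refine Integrable.of_bound hm C ?_
  filter_upwards [ae_restrict_mem measurableSet_Ioo] with v hv
  simpa using hb v hv

/-- **Dual certificate.** `π' = -κ π` on `(a,b)`, `F + G' - κ G ≤ 0` (right derivatives), and
`π G → 0` at both ends: then `∫ π F ≤ 0`. -/
theorem dual_le {a b : ℝ} (hab : a ≤ b) {π κ F G G' : ℝ → ℝ}
    (hπ0 : ∀ v ∈ Ioo a b, 0 ≤ π v)
    (hπ : ∀ v ∈ Ioo a b, HasDerivWithinAt π (-κ v * π v) (Ioi v) v)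
    (hG : ∀ v ∈ Ioo a b, HasDerivWithinAt G (G' v) (Ioi v) v)
    (hc : ContinuousOn (fun v => π v * G v) (Ioo a b))
    (ha : Tendsto (fun v => π v * G v) (𝓝[>] a) (𝓝 0))
    (hb : Tendsto (fun v => π v * G v) (𝓝[<] b) (𝓝 0))
    (hF : ∀ v ∈ Ioo a b, F v + G' v - κ v * G v ≤ 0)
    (hint : IntegrableOn (fun v => π v * F v) (Ioo a b)) :
    ∫ v in Ioo a b, π v * F v ≤ 0 := by
  rcases hab.eq_or_lt with rfl | hab'
  · simp
  set g : ℝ → ℝ := (Ioo a b).indicator (fun v => π v * G v) with hg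
  have hga : g a = 0 := by simp [hg]
  have hgb : g b = 0 := by simp [hg]
  have hev : ∀ v ∈ Ioo a b, g =ᶠ[𝓝 v] fun v => π v * G v := by
    intro v hv
    filter_upwards [Ioo_mem_nhds hv.1 hv.2] with y hy
    simp [hg, hy]
  have hcont : ContinuousOn g (Icc a b) := by
    intro v hv
    rcases eq_or_ne v a with rfl | hva
    · have h1 : Tendsto g (𝓝[>] v) (𝓝 0) := by
        refine ha.congr' ?_
        filter_upwards [Ioo_mem_nhdsGT hab'] with y hy
        simp [hg, hy]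
      have h2 : Tendsto g (𝓝[≥] v) (𝓝 (g v)) := by
        rw [hga]
        rw [← Ioi_insert, nhdsWithin_insert]
        refine Tendsto.sup ?_ h1
        rw [tendsto_pure_left]
        intro s hs
        rw [hga]; exact mem_of_mem_nhds hs
      exact h2.mono_left (nhdsWithin_mono _ Icc_subset_Ici_self)
    · rcases eq_or_ne v b with rfl | hvb
      · have h1 : Tendsto g (𝓝[<] v) (𝓝 0) := by
          refine hb.congr' ?_
          filter_upwards [Ioo_mem_nhdsLT hab'] with y hy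
          simp [hg, hy]
        have h2 : Tendsto g (𝓝[≤] v) (𝓝 (g v)) := by
          rw [hgb]
          rw [← Iio_insert, nhdsWithin_insert]
          refine Tendsto.sup ?_ h1
          rw [tendsto_pure_left]
          intro s hs
          rw [hgb]; exact mem_of_mem_nhds hs
        exact h2.mono_left (nhdsWithin_mono _ Icc_subset_Iic_self)
      · have hv' : v ∈ Ioo a b := ⟨lt_of_le_of_ne hv.1 (Ne.symm hva), lt_of_le_of_ne hv.2 hvb⟩
        have h1 : ContinuousAt (fun v => π v * G v) v :=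
          (hc v hv').continuousAt (Ioo_mem_nhds hv'.1 hv'.2)
        exact (h1.congr (hev v hv').symm).continuousWithinAt
  have key := intervalIntegral.sub_le_integral_of_hasDeriv_right_of_le (g := g)
    (g' := fun v => π v * (G' v - κ v * G v)) (φ := fun v => -(π v * F v)) hab hcont
    (by
      intro v hv
      have h1 := (hπ v hv).mul (hG v hv)
      have h2 : HasDerivWithinAt (fun v => π v * G v) (π v * (G' v - κ v * G v)) (Ioi v) v := by
        exact h1.congr_deriv (by ring)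
      exact h2.congr_of_eventuallyEq ((hev v hv).filter_mono nhdsWithin_le_nhds)
        (hev v hv).eq_of_nhds)
    (by
      have h3 : IntegrableOn (fun v => -(π v * F v)) (Ioo a b) := hint.neg
      rwa [integrableOn_Icc_iff_integrableOn_Ioo])
    (by
      intro v hv
      have h1 := hF v hv
      have h2 := hπ0 v hv
      nlinarith)
  rw [hga, hgb, intervalIntegral.integral_of_le hab, integral_Ioc_eq_integral_Ioo,
    integral_neg] at key
  linarith

end Crest.Agent.R146.CloDiff_39
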