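import Crest.Agent.R146.TailK_445
import Crest.Agent.R146.Dual_924

/-!
# Row 146, NUMREF, closure (N6): the tails of the one-point inequalities `(U')`, `(L')` of `Dual_924`
(helper649)

For a closed pair `SPair c W V I k c`, `.4157 ≤ c ≤ .4158`, `H = (V R k + I R - (1-c) U V)/2`:
* `kR_le : k R ≤ (1-c) U` (all `x`), `Hf_le_right : H ≤ I R / 2` (all `x`);
* `x ≤ -5`, `b ≤ 5/4` and `x ≥ 3`, `b ≤ 1/2`: `(U')`, `(L')` and the monotonicity condition `hmon`
  of `Dual_924.lo_of_corner`, for `a ∈ [4/5,1]`, `F ≤ 3/2`, `G = 9/10`, `0 ≤ δ ≤ c`.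
No enclosures are used.
-/

set_option autoImplicit false

namespace Crest.Agent.R146.CloTail_649

open Set Filter Topology
open SPair_307 Stat7_307 Stat8_307 Stat9_307 TailK_445

variable {c : ℝ} {W V I k : ℝ → ℝ}

/-- `H = -G₀` -/
noncomputable def Hf (c : ℝ) (W V I k : ℝ → ℝ) (x : ℝ) : ℝ :=
  (V x * (1 - V x) * k x + I x * (1 - V x) - (1 - c) * (W x - x) * V x) / 2

/-- the derivative of `k - (1-c) U/R` -/
lemma dD (h : SPair c W V I k c) (y : ℝ) :
    HasDerivAt (fun y => k y - (1 - c) * ((W y - y) / (1 - V y)))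
      ((I y / (1 - V y) + k y) * (k y - (1 - c) * ((W y - y) / (1 - V y))) +
        2 * c * (1 - V y)) y := by
  have hR : 1 - V y ≠ 0 := by linarith [h.V_lt y]
  have h1 : HasDerivAt (fun y => W y - y) (V y - 1) y := (h.dW y).sub (hasDerivAt_id y)
  have h2 : HasDerivAt (fun y => 1 - V y) (-I y) y := (h.dV y).const_sub 1
  have h3 := (h.dk y).sub ((h1.div h2 hR).const_mul (1 - c))
  refine h3.congr_deriv ?_
  have e := I_eq h y
  rw [e]
  unfold Ad1
  generalize Ad c W y = A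
  generalize k y = kk
  generalize hr : 1 - V y = R at *
  have hv : V y = 1 - R := by linarith
  rw [hv]
  generalize W y - y = U
  field_simp
  ring

/-- **`k R ≤ (1-c) U`** for the closed pair -/
theorem kR_le (h : SPair c W V I k c) (x : ℝ) : k x * (1 - V x) ≤ (1 - c) * (W x - x) := by
  have hR : ∀ y, 0 < 1 - V y := fun y => by linarith [h.V_lt y]
  obtain ⟨B, hB⟩ := h.k_bdd
  have hc := h.c_pos
  have hc1 : 0 < 1 - c := by linarith [h.c_lt]
  have hg : Continuous fun y => I y / (1 - V y) + k y :=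
    (h.cI.div (continuous_const.sub h.cV) fun y => (hR y).ne').add h.ck
  have key := blowR (g := fun y => I y / (1 - V y) + k y) (r := fun y => 2 * c * (1 - V y))
    (D := fun y => k y - (1 - c) * ((W y - y) / (1 - V y))) (x1 := x) (x2 := max x 1) (B := B)
    hg (fun y _ => dD h y) (fun y _ => by have := hR y; positivity) (le_max_left _ _)
    (fun y hy => by
      have hy1 : 1 ≤ y := (le_max_right _ _).trans hy
      have hU : 0 < W y - y := by linarith [h.U_pos y]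
      have h1 : 1 * (1 - V y) ≤ I y := by
        rw [I_eq h]
        have h2 : 1 ≤ 2 * Ad c W y := by
          unfold Ad
          nlinarith [mul_pos hc hU]
        have h3 := mul_le_mul_of_nonneg_right h2 (hR y).le
        have h4 := mul_pos hc1 hU
        linarith
      have h2 : 1 ≤ I y / (1 - V y) := by rw [le_div_iff₀ (hR y)]; exact h1
      linarith [h.k_pos y])
    (fun y _ => by
      have hU : 0 < W y - y := by linarith [h.U_pos y]
      have h1 : 0 ≤ (1 - c) * ((W y - y) / (1 - V y)) :=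
        mul_nonneg hc1.le (div_pos hU (hR y)).le
      linarith [hB y])
  have h1 : k x ≤ (1 - c) * ((W x - x) / (1 - V x)) := by simpa using key
  have h2 := mul_le_mul_of_nonneg_right h1 (hR x).le
  have h3 : (1 - c) * ((W x - x) / (1 - V x)) * (1 - V x) = (1 - c) * (W x - x) := by
    have := (hR x).ne'
    field_simp
  rw [h3] at h2
  exact h2

/-- `H ≤ I R / 2` -/
theorem Hf_le_right (h : SPair c W V I k c) (x : ℝ) :
    Hf c W V I k x ≤ I x * (1 - V x) / 2 := by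
  have h1 := kR_le h x
  have h2 := mul_le_mul_of_nonneg_left h1 (h.V_pos x).le
  unfold Hf
  nlinarith

/-- `H = ((1+c) R² W + V R k - (1-c) V² U)/2` -/
theorem Hf_eq (h : SPair c W V I k c) (x : ℝ) :
    Hf c W V I k x = ((1 + c) * (1 - V x) ^ 2 * W x + V x * (1 - V x) * k x -
      (1 - c) * V x ^ 2 * (W x - x)) / 2 := by
  unfold Hf
  rw [h.eqI]
  unfold Ad
  ring

/-- `H ≤ ((1+c) W + V k)/2` -/
theorem Hf_le_left (h : SPair c W V I k c) (x : ℝ) :
    Hf c W V I k x ≤ ((1 + c) * W x + V x * k x) / 2 := by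
  rw [Hf_eq h]
  have hc := h.c_pos
  have hc1 : 0 < 1 - c := by linarith [h.c_lt]
  have hV := h.V_pos x
  have hV1 := h.V_lt x
  have hW := h.W_pos x
  have hU : 0 < W x - x := by linarith [h.U_pos x]
  have hk := h.k_pos x
  have h1 : (1 - V x) ^ 2 ≤ 1 := by nlinarith
  have h2 : (1 + c) * (1 - V x) ^ 2 * W x ≤ (1 + c) * W x := by
    have : 0 ≤ (1 + c) * W x := by positivity
    nlinarith
  have h3 : V x * (1 - V x) * k x ≤ V x * k x := by
    have : 0 ≤ V x * k x := by positivity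
    nlinarith
  have h4 : 0 ≤ (1 - c) * V x ^ 2 * (W x - x) := by positivity
  linarith

/-- `W ≤ 1/(4|x|)` on the left -/
lemma W_quarter (h : SPair c W V I k c) {x : ℝ} (hx : x < 0) : W x * (-x) ≤ 1 / 4 := by
  have h1 := h.W_le x
  obtain ⟨y, hy⟩ : ∃ y, y = -x := ⟨_, rfl⟩
  have hy0 : 0 < y := by linarith
  have hxy : x = -y := by linarith
  have h2 : Real.sqrt (x ^ 2 + 1) ≤ y + 1 / (2 * y) := by
    apply Real.sqrt_le_iff.2
    refine ⟨by positivity, ?_⟩
    have e : (y + 1 / (2 * y)) ^ 2 = x ^ 2 + 1 + (1 / (2 * y)) ^ 2 := by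
      rw [hxy]
      field_simp
      ring
    rw [e]
    have : 0 ≤ (1 / (2 * y)) ^ 2 := sq_nonneg _
    linarith
  have h3 : W x ≤ 1 / (4 * y) := by
    have e : 1 / (4 * y) = (x + (y + 1 / (2 * y))) / 2 := by
      rw [hxy]
      field_simp
      ring
    rw [e]
    linarith
  have h4 := mul_le_mul_of_nonneg_right h3 hy0.le
  have e : 1 / (4 * y) * y = 1 / 4 := by field_simp
  rw [e] at h4
  rw [← hy]
  exact h4

lemma exp6 : Real.exp (-6) ≤ 1 / 400 := by
  have h1 := Real.exp_one_gt_d9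
  have h2 : Real.exp 6 = Real.exp 1 ^ 6 := by rw [← Real.exp_nat_mul]; norm_num
  have h3 : (400 : ℝ) ≤ Real.exp 6 := by
    rw [h2]
    calc (400 : ℝ) ≤ 2.718 ^ 6 := by norm_num
      _ ≤ Real.exp 1 ^ 6 := by
          apply pow_le_pow_left₀ (by norm_num)
          linarith
  rw [Real.exp_neg, inv_eq_one_div]
  exact one_div_le_one_div_of_le (by norm_num) h3

/-! ### the left tail -/

lemma a_ge_left (h : SPair c W V I k c) {x : ℝ} (hx : x ≤ -1) :
    (1 - c) * (-x) - c / 2 ≤ -2 * Ad c W x := by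
  have h1 := W_quarter h (show x < 0 by linarith)
  have hc := h.c_pos
  have hW := h.W_pos x
  have h2 : W x ≤ 1 / 4 := by nlinarith
  have h3 := mul_le_mul_of_nonneg_left h2 hc.le
  unfold Ad
  nlinarith

lemma a_ge5 (h : SPair c W V I k c) (hc2 : c ≤ 0.4158) {x : ℝ} (hx : x ≤ -5) :
    2.87 ≤ -2 * Ad c W x := by
  have h1 := W_quarter h (show x < 0 by linarith)
  have hc := h.c_pos
  have hW := h.W_pos x
  have h2 : W x ≤ 1 / 20 := by nlinarith
  have h3 : c * W x ≤ 0.4158 * (1 / 20) := mul_le_mul hc2 h2 hW.le (by norm_num)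
  unfold Ad
  nlinarith [mul_nonneg (show 0 ≤ 1 - c - 0.5842 by linarith) (show 0 ≤ -x - 5 by linarith)]

/-- `V ≤ 1/400` for `x ≤ -5` -/
lemma V_left (h : SPair c W V I k c) (hc2 : c ≤ 0.4158) {x : ℝ} (hx : x ≤ -5) :
    V x ≤ 1 / 400 := by
  set q : ℝ → ℝ := fun y => (1 - c) / 2 * y ^ 2 + c / 2 * y with hq
  have hqd : ∀ y, HasDerivAt q ((1 - c) * y + c / 2) y := fun y => by
    have h1 := (((hasDerivAt_id y).pow 2).const_mul ((1 - c) / 2)).add
      ((hasDerivAt_id y).const_mul (c / 2))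
    refine h1.congr_deriv ?_
    simp only [id]
    push_cast
    ring
  have hd : ∀ y, HasDerivAt (fun y => V y * Real.exp (q y))
      (I y * Real.exp (q y) + V y * (Real.exp (q y) * ((1 - c) * y + c / 2))) y := fun y =>
    (h.dV y).mul (hqd y).exp
  have hmono : MonotoneOn (fun y => V y * Real.exp (q y)) (Iic (-1)) := by
    apply monotoneOn_of_deriv_nonneg (convex_Iic _)
    · exact fun y _ => (hd y).continuousAt.continuousWithinAt
    · exact fun y _ => (hd y).differentiableAt.differentiableWithinAt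
    · intro y hy
      rw [interior_Iic] at hy
      rw [(hd y).deriv]
      have h1 := aV_le_I h y
      have h2 := a_ge_left h (le_of_lt hy)
      have h3 := mul_le_mul_of_nonneg_right h2 (h.V_pos y).le
      have h4 : 0 ≤ I y + V y * ((1 - c) * y + c / 2) := by nlinarith
      have h5 := mul_nonneg h4 (Real.exp_pos (q y)).le
      nlinarith
  have h1 : V (-5) * Real.exp (q (-5)) ≤ V (-1) * Real.exp (q (-1)) :=
    hmono (by norm_num) (by norm_num) (by norm_num)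
  have h2 : V (-5) ≤ Real.exp (-6) := by
    have e1 : V (-5) = V (-5) * Real.exp (q (-5)) * Real.exp (-q (-5)) := by
      rw [mul_assoc, ← Real.exp_add]; simp
    rw [e1]
    calc V (-5) * Real.exp (q (-5)) * Real.exp (-q (-5))
        ≤ V (-1) * Real.exp (q (-1)) * Real.exp (-q (-5)) :=
          mul_le_mul_of_nonneg_right h1 (Real.exp_pos _).le
      _ ≤ 1 * Real.exp (q (-1)) * Real.exp (-q (-5)) := by
          have := h.V_lt (-1)
          gcongr
      _ = Real.exp (q (-1) - q (-5)) := by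
          rw [one_mul, ← Real.exp_add]; ring_nf
      _ ≤ Real.exp (-6) := by
          apply Real.exp_le_exp.2
          simp only [hq]
          nlinarith
  exact ((h.V_strictMono.monotone hx).trans h2).trans exp6

/-- `a² V ≤ .0214` for `x ≤ -5` -/
lemma a2V (h : SPair c W V I k c) (hc1 : 0.4157 ≤ c) (hc2 : c ≤ 0.4158) {x : ℝ} (hx : x ≤ -5) :
    (-2 * Ad c W x) ^ 2 * V x ≤ 0.0214 := by
  have hd : ∀ y, HasDerivAt (fun y => (-2 * Ad c W y) ^ 2 * V y)
      ((2 * (-2 * Ad c W y) * (-2 * Ad1 c V y)) * V y + (-2 * Ad c W y) ^ 2 * I y) y := fun y => by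
    refine ((((h.dA y).const_mul (-2)).pow 2).mul (h.dV y)).congr_deriv ?_
    simp only [Pi.pow_apply]
    push_cast
    ring
  have hmono : MonotoneOn (fun y => (-2 * Ad c W y) ^ 2 * V y) (Iic (-5)) := by
    apply monotoneOn_of_deriv_nonneg (convex_Iic _)
    · exact fun y _ => (hd y).continuousAt.continuousWithinAt
    · exact fun y _ => (hd y).differentiableAt.differentiableWithinAt
    · intro y hy
      rw [interior_Iic] at hy
      rw [(hd y).deriv]
      have h1 := aV_le_I h y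
      have h2 := a_ge5 h hc2 (le_of_lt hy)
      have h3 := Ad1_lt h y
      have hV := h.V_pos y
      set a := -2 * Ad c W y with ha
      have ha0 : 0 < a := by linarith
      have h4 : a ^ 2 * (a * V y) ≤ a ^ 2 * I y := mul_le_mul_of_nonneg_left h1 (by positivity)
      have h5 : 0 ≤ a ^ 2 - 4 * Ad1 c V y := by nlinarith
      have h6 := mul_nonneg (mul_nonneg ha0.le hV.le) h5
      nlinarith
  have h1 : (-2 * Ad c W x) ^ 2 * V x ≤ (-2 * Ad c W (-5)) ^ 2 * V (-5) :=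
    hmono hx (by simp) hx
  have h2 := V_left h hc2 (le_refl (-5 : ℝ))
  have h3 := a_ge5 h hc2 (le_refl (-5 : ℝ))
  have h4 : -2 * Ad c W (-5) ≤ 2.9215 := by
    unfold Ad
    have := mul_pos h.c_pos (h.W_pos (-5))
    nlinarith
  have h5 : (-2 * Ad c W (-5)) ^ 2 ≤ 2.9215 ^ 2 := by
    apply pow_le_pow_left₀ (by linarith) h4
  have h6 := mul_le_mul h5 h2 (h.V_pos (-5)).le (by positivity)
  calc _ ≤ _ := h1
    _ ≤ _ := h6
    _ ≤ 0.0214 := by norm_num

/-- the numbers of the left tail -/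
structure Lnum (c v I H k : ℝ) : Prop where
  v0 : 0 < v
  v1 : v ≤ 1 / 400
  I0 : 0 < I
  Isq : I ^ 2 ≤ 3 / 100 * v
  I1 : I ≤ 1 / 100
  k0 : 0 < k
  k1 : k ≤ 9 / 100
  H1 : H ≤ 29 / 100 * v

theorem lnum (h : SPair c W V I k c) (hc1 : 0.4157 ≤ c) (hc2 : c ≤ 0.4158) {x : ℝ} (hx : x ≤ -5) :
    Lnum c (V x) (I x) (Hf c W V I k x) (k x) := by
  have ha := a_ge5 h hc2 hx
  have hA : Ad c W x < 0 := by linarith
  have hv := h.V_pos x
  have hv1 := V_left h hc2 hx
  have hk0 := h.k_pos x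
  have hI0 := h.I_pos x
  have hW := h.W_pos x
  have h2 := a2V h hc1 hc2 hx
  have h3 := aW_le_V h x
  have h4 := I_le_aV h hA
  have h5 := k_le_left h (by linarith) hA
  have h6 := Hf_le_left h x
  set a := -2 * Ad c W x with had
  have ha0 : 0 < a := by linarith
  rw [le_div_iff₀ ha0] at h5
  have hk1 : k x ≤ 9 / 100 := by nlinarith
  -- `a v ≤ .0075`
  have h7 : a * V x ≤ 0.0075 := by
    have : 2.87 * (a * V x) ≤ a ^ 2 * V x := by nlinarith [mul_pos ha0 hv]
    linarith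
  have h8 : (1 + c) / a ≤ 0.494 := by
    rw [div_le_iff₀ ha0]; nlinarith
  have h9 : I x ≤ (a + 0.494) * V x := h4.trans (mul_le_mul_of_nonneg_right (by linarith) hv.le)
  have hH : Hf c W V I k x ≤ 29 / 100 * V x := by
    have e1 : a * ((1 + c) * W x + V x * k x) ≤ 4 * c * V x := by
      have e2 := mul_le_mul_of_nonneg_left h3 (show 0 ≤ 1 + c by linarith)
      have e3 := mul_le_mul_of_nonneg_left h5 hv.le
      nlinarith
    have e4 : 2.87 * ((1 + c) * W x + V x * k x) ≤ a * ((1 + c) * W x + V x * k x) := by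
      apply mul_le_mul_of_nonneg_right ha
      have : 0 < c := h.c_pos
      positivity
    nlinarith
  refine ⟨hv, hv1, hI0, ?_, ?_, hk0, hk1, hH⟩
  · have h10 : I x ^ 2 ≤ ((a + 0.494) * V x) ^ 2 := by
      apply pow_le_pow_left₀ hI0.le h9
    have h11 : ((a + 0.494) * V x) ^ 2 = (a ^ 2 * V x + 0.988 * (a * V x) + 0.494 ^ 2 * V x) * V x := by
      ring
    rw [h11] at h10
    refine h10.trans (mul_le_mul_of_nonneg_right ?_ hv.le)
    nlinarith
  · nlinarith

/-- `(U')`, `(L')` in the left tail; `s = ±δ b` -/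
lemma left_alg {c v I H k w b s F a : ℝ} (hc1 : 0.4157 ≤ c) (hc2 : c ≤ 0.4158)
    (hn : Lnum c v I H k) (hw : w = v * (1 - v) ^ 2) (hb0 : 0 ≤ b) (hb : b ≤ 5 / 4)
    (hs : -1 ≤ s) (hs1 : s ≤ 0.52) (hF0 : 0 ≤ F) (hF : F ≤ 3 / 2) (ha0 : 0 ≤ a) (ha : a ≤ 1) :
    b * (I ^ 2 * (1 + s) + 2 * c * w + k * H) + F * H
      + a * ((1 + s) * (v * (k * H - I ^ 2 + 2 * c * w) + I * H)) ≤ 2 * (9 / 10) * w := by
  obtain ⟨hv0, hv1, hI0, hI2, hI1, hk0, hk1, hH⟩ := hn
  have hw0 : 0 ≤ w := by rw [hw]; positivity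
  have hwv : w ≤ v := by
    rw [hw]
    have : (1 - v) ^ 2 ≤ 1 := by nlinarith
    nlinarith
  have hwl : (1 - 1 / 200) * v ≤ w := by
    rw [hw]
    have : 1 - 1 / 200 ≤ (1 - v) ^ 2 := by nlinarith
    nlinarith
  -- the pieces
  have h1 : I ^ 2 * (1 + s) ≤ 0.0456 * v := by
    calc I ^ 2 * (1 + s) ≤ (3 / 100 * v) * 1.52 :=
          mul_le_mul hI2 (by linarith) (by linarith) (by positivity)
      _ = 0.0456 * v := by ring
  have h2 : 2 * c * w ≤ 0.8316 * v := by nlinarith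
  have h3 : k * H ≤ 0.0261 * v := by
    calc k * H ≤ k * (29 / 100 * v) := mul_le_mul_of_nonneg_left hH hk0.le
      _ ≤ 9 / 100 * (29 / 100 * v) := mul_le_mul_of_nonneg_right hk1 (by positivity)
      _ = 0.0261 * v := by ring
  have h4 : b * (I ^ 2 * (1 + s) + 2 * c * w + k * H) ≤ 5 / 4 * (0.9033 * v) := by
    calc b * (I ^ 2 * (1 + s) + 2 * c * w + k * H) ≤ b * (0.9033 * v) :=
          mul_le_mul_of_nonneg_left (by linarith) hb0
      _ ≤ 5 / 4 * (0.9033 * v) := mul_le_mul_of_nonneg_right hb (by positivity)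
  have h5 : F * H ≤ 3 / 2 * (29 / 100 * v) := by
    calc F * H ≤ F * (29 / 100 * v) := mul_le_mul_of_nonneg_left hH hF0
      _ ≤ 3 / 2 * (29 / 100 * v) := mul_le_mul_of_nonneg_right hF (by positivity)
  have h6 : I * H ≤ 0.0029 * v := by
    calc I * H ≤ I * (29 / 100 * v) := mul_le_mul_of_nonneg_left hH hI0.le
      _ ≤ 1 / 100 * (29 / 100 * v) := mul_le_mul_of_nonneg_right hI1 (by positivity)
      _ = 0.0029 * v := by ring
  have h7 : v * (k * H - I ^ 2 + 2 * c * w) + I * H ≤ 0.0051 * v := by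
    have h8 : v * (k * H - I ^ 2 + 2 * c * w) ≤ v * (0.8577 * v) :=
      mul_le_mul_of_nonneg_left (by nlinarith [sq_nonneg I]) hv0.le
    have h9 : v * (0.8577 * v) ≤ 0.0022 * v := by nlinarith
    linarith
  have h8 : a * ((1 + s) * (v * (k * H - I ^ 2 + 2 * c * w) + I * H)) ≤ 0.0078 * v := by
    calc a * ((1 + s) * (v * (k * H - I ^ 2 + 2 * c * w) + I * H))
        = (a * (1 + s)) * (v * (k * H - I ^ 2 + 2 * c * w) + I * H) := by ring
      _ ≤ (a * (1 + s)) * (0.0051 * v) :=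
          mul_le_mul_of_nonneg_left h7 (mul_nonneg ha0 (by linarith))
      _ ≤ 1.52 * (0.0051 * v) := by
          apply mul_le_mul_of_nonneg_right _ (by positivity)
          nlinarith
      _ ≤ 0.0078 * v := by nlinarith
  linarith

/-! ### the right tail -/

lemma al_ge (h : SPair c W V I k c) (x : ℝ) : (1 + c) * x ≤ 2 * Ad c W x := by
  have hU : 0 < W x - x := by linarith [h.U_pos x]
  have := mul_pos h.c_pos hU
  unfold Ad
  linarith

/-- `R ≤ 1/400` for `x ≥ 3` -/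
lemma R_right (h : SPair c W V I k c) (hc1 : 0.4157 ≤ c) {x : ℝ} (hx : 3 ≤ x) :
    1 - V x ≤ 1 / 400 := by
  set q : ℝ → ℝ := fun y => (1 + c) / 2 * y ^ 2 with hq
  have hc3 : 0 < 1 - c := by linarith [h.c_lt]
  have hqd : ∀ y, HasDerivAt q ((1 + c) * y) y := fun y => by
    have h1 := ((hasDerivAt_id y).pow 2).const_mul ((1 + c) / 2)
    refine h1.congr_deriv ?_
    simp only [id]
    push_cast
    ring
  have hd : ∀ y, HasDerivAt (fun y => (1 - V y) * Real.exp (q y))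
      (-I y * Real.exp (q y) + (1 - V y) * (Real.exp (q y) * ((1 + c) * y))) y := fun y =>
    ((h.dV y).const_sub 1).mul (hqd y).exp
  have hmono : AntitoneOn (fun y => (1 - V y) * Real.exp (q y)) (Ici 0) := by
    apply antitoneOn_of_deriv_nonpos (convex_Ici _)
    · exact fun y _ => (hd y).continuousAt.continuousWithinAt
    · exact fun y _ => (hd y).differentiableAt.differentiableWithinAt
    · intro y hy
      rw [interior_Ici] at hy
      rw [(hd y).deriv]
      have hR : 0 < 1 - V y := by linarith [h.V_lt y]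
      have hU : 0 < W y - y := by linarith [h.U_pos y]
      have h1 := I_eq h y
      have h2 := mul_le_mul_of_nonneg_right (al_ge h y) hR.le
      have h4 : 0 ≤ I y - (1 - V y) * ((1 + c) * y) := by
        have := mul_pos hc3 hU
        nlinarith
      have h5 := mul_nonneg h4 (Real.exp_pos (q y)).le
      nlinarith
  have h1 : (1 - V 3) * Real.exp (q 3) ≤ (1 - V 0) * Real.exp (q 0) :=
    hmono (by simp) (by norm_num) (by norm_num)
  have h2 : 1 - V 3 ≤ Real.exp (-6) := by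
    have e1 : 1 - V 3 = (1 - V 3) * Real.exp (q 3) * Real.exp (-q 3) := by
      rw [mul_assoc, ← Real.exp_add]; simp
    rw [e1]
    calc (1 - V 3) * Real.exp (q 3) * Real.exp (-q 3)
        ≤ (1 - V 0) * Real.exp (q 0) * Real.exp (-q 3) :=
          mul_le_mul_of_nonneg_right h1 (Real.exp_pos _).le
      _ ≤ 1 * Real.exp (q 0) * Real.exp (-q 3) := by
          have := h.V_pos 0
          gcongr
          linarith
      _ = Real.exp (q 0 - q 3) := by
          rw [one_mul, ← Real.exp_add]; ring_nf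
      _ ≤ Real.exp (-6) := by
          apply Real.exp_le_exp.2
          simp only [hq]
          nlinarith
  have h3 := h.V_strictMono.monotone hx
  linarith [exp6]

/-- the numbers of the right tail, `r = I/R` -/
structure Rnum (v I H k r : ℝ) : Prop where
  R0 : 0 < 1 - v
  R1 : 1 - v ≤ 1 / 400
  I1 : I = r * (1 - v)
  r0 : 4.24 ≤ r
  k0 : 0 < k
  k1 : k ≤ 0.138
  H1 : H ≤ r * (1 - v) ^ 2 / 2

theorem rnum (h : SPair c W V I k c) (hc1 : 0.4157 ≤ c) (hc2 : c ≤ 0.4158) {x : ℝ} (hx : 3 ≤ x) :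
    Rnum (V x) (I x) (Hf c W V I k x) (k x) (I x / (1 - V x)) := by
  have hR : 0 < 1 - V x := by linarith [h.V_lt x]
  have hU : 0 < W x - x := by linarith [h.U_pos x]
  have h1 := al_ge h x
  have h2 : 4.24 ≤ 2 * Ad c W x := by nlinarith
  have h3 := k_le_right h (show 0 < Ad c W x by linarith)
  have h4 := I_eq h x
  have hc3 : 0 < 1 - c := by linarith
  have ha : 0 < 2 * Ad c W x := by linarith
  rw [le_div_iff₀ ha] at h3
  refine ⟨hR, R_right h hc1 hx, ?_, ?_, h.k_pos x, ?_, ?_⟩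
  · field_simp
  · rw [le_div_iff₀ hR, h4]
    have := mul_pos hc3 hU
    nlinarith [mul_le_mul_of_nonneg_right h2 hR.le]
  · have hk := h.k_pos x
    nlinarith
  · have h5 := Hf_le_right h x
    have e : I x / (1 - V x) * (1 - V x) ^ 2 / 2 = I x * (1 - V x) / 2 := by
      field_simp
    rw [e]; exact h5

/-- the numerical core of the right tail -/
lemma right_num {c v R k r b s F a : ℝ} (hc1 : 0.4157 ≤ c) (hc2 : c ≤ 0.4158)
    (hR0 : 0 < R) (hR1 : R ≤ 1 / 400) (hv : v = 1 - R) (hr : 4.24 ≤ r) (hk0 : 0 < k)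
    (hk1 : k ≤ 0.138) (hb0 : 0 ≤ b) (hb : b ≤ 1 / 2)
    (hs : -0.21 ≤ s) (hs1 : s ≤ 0.21) (hF : F ≤ 3 / 2) (ha0 : 4 / 5 ≤ a) (ha : a ≤ 1) :
    (1 + s) * (b - a * (v - R / 2)) * r ^ 2 +
        (b * k + F + a * ((1 + s) * (v * k))) / 2 * r + 2 * c * v * (b + a * (1 + s) * v) ≤
      9 / 5 * v := by
  have hv0 : 0 < v := by linarith
  have hr0 : 0 < r := by linarith
  have hv1 : v ≤ 1 := by linarith
  have hvl : 399 / 400 ≤ v := by linarith
  have h4 : b - a * (v - R / 2) ≤ -0.29 := by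
    have e1 : 0.99 ≤ v - R / 2 := by linarith
    have e2 : 4 / 5 * 0.99 ≤ a * (v - R / 2) := mul_le_mul ha0 e1 (by norm_num) (by linarith)
    linarith
  have h5 : (1 + s) * (b - a * (v - R / 2)) ≤ -0.229 := by
    have e1 : (1 + s) * (b - a * (v - R / 2)) ≤ (1 + s) * (-0.29) :=
      mul_le_mul_of_nonneg_left h4 (by linarith)
    linarith
  have h6 : (1 + s) * (b - a * (v - R / 2)) * r ^ 2 ≤ -0.229 * r ^ 2 :=
    mul_le_mul_of_nonneg_right h5 (by positivity)
  have h7 : b * k ≤ 0.069 := by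
    have := mul_le_mul hb hk1 hk0.le (by norm_num)
    linarith
  have hs2 : 0 ≤ 1 + s := by linarith
  have has : a * (1 + s) ≤ 1.21 := by
    have := mul_le_mul ha (show 1 + s ≤ 1.21 by linarith) hs2 (by norm_num)
    linarith
  have has0 : 0 ≤ a * (1 + s) := mul_nonneg (by linarith) hs2
  have h8 : a * ((1 + s) * (v * k)) ≤ 0.167 := by
    have e1 : v * k ≤ 1 * 0.138 := mul_le_mul hv1 hk1 hk0.le (by norm_num)
    have e2 : a * ((1 + s) * (v * k)) = a * (1 + s) * (v * k) := by ring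
    rw [e2]
    calc a * (1 + s) * (v * k) ≤ 1.21 * (1 * 0.138) :=
          mul_le_mul has e1 (mul_pos hv0 hk0).le (by norm_num)
      _ ≤ 0.167 := by norm_num
  have h9 : (b * k + F + a * ((1 + s) * (v * k))) / 2 * r ≤ 0.868 * r :=
    mul_le_mul_of_nonneg_right (by linarith) hr0.le
  have h10 : 2 * c * v * (b + a * (1 + s) * v) ≤ 1.43 := by
    have e1 : a * (1 + s) * v ≤ 1.21 * 1 := mul_le_mul has hv1 hv0.le (by norm_num)
    have e2 : 2 * c * v ≤ 0.8316 * 1 := mul_le_mul (by linarith) hv1 hv0.le (by norm_num)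
    calc 2 * c * v * (b + a * (1 + s) * v) ≤ 0.8316 * 1 * 1.71 := by
          apply mul_le_mul e2 (by linarith) _ (by norm_num)
          have : 0 ≤ a * (1 + s) * v := mul_nonneg has0 hv0.le
          linarith
      _ ≤ 1.43 := by norm_num
  have h11 : -0.229 * r ^ 2 + 0.868 * r + 1.43 ≤ 1.1 := by
    have e1 : 4.24 * r ≤ r ^ 2 := by
      rw [sq]; exact mul_le_mul_of_nonneg_right hr hr0.le
    linarith
  linarith

/-- `(U')`, `(L')` in the right tail; `s = ±δ b` -/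
lemma right_alg {c v I H k r w b s F a : ℝ} (hc1 : 0.4157 ≤ c) (hc2 : c ≤ 0.4158)
    (hn : Rnum v I H k r) (hw : w = v * (1 - v) ^ 2) (hb0 : 0 ≤ b) (hb : b ≤ 1 / 2)
    (hs : -0.21 ≤ s) (hs1 : s ≤ 0.21) (hF0 : 0 ≤ F) (hF : F ≤ 3 / 2) (ha0 : 4 / 5 ≤ a)
    (ha : a ≤ 1) :
    b * (I ^ 2 * (1 + s) + 2 * c * w + k * H) + F * H
      + a * ((1 + s) * (v * (k * H - I ^ 2 + 2 * c * w) + I * H)) ≤ 2 * (9 / 10) * w := by
  obtain ⟨hR0, hR1, hI, hr, hk0, hk1, hH⟩ := hn
  set R := 1 - v with hR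
  have hv : v = 1 - R := by rw [hR]; ring
  have hv0 : 0 < v := by linarith
  have hr0 : 0 < r := by linarith
  have hR2 : 0 < R ^ 2 := by positivity
  have hI0 : 0 < I := by rw [hI]; positivity
  -- replace `H` by its upper bound
  have hcoef : 0 ≤ b * k + F + a * ((1 + s) * (v * k + I)) := by
    have h1 : 0 ≤ 1 + s := by linarith
    have : 0 ≤ a := by linarith
    positivity
  have h1 : b * (I ^ 2 * (1 + s) + 2 * c * w + k * H) + F * H
      + a * ((1 + s) * (v * (k * H - I ^ 2 + 2 * c * w) + I * H)) ≤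
      b * (I ^ 2 * (1 + s) + 2 * c * w + k * (r * R ^ 2 / 2)) + F * (r * R ^ 2 / 2)
      + a * ((1 + s) * (v * (k * (r * R ^ 2 / 2) - I ^ 2 + 2 * c * w) + I * (r * R ^ 2 / 2))) := by
    have h2 := mul_le_mul_of_nonneg_left hH hcoef
    nlinarith
  refine h1.trans ?_
  have h2 : b * (I ^ 2 * (1 + s) + 2 * c * w + k * (r * R ^ 2 / 2)) + F * (r * R ^ 2 / 2)
      + a * ((1 + s) * (v * (k * (r * R ^ 2 / 2) - I ^ 2 + 2 * c * w) + I * (r * R ^ 2 / 2))) =
      R ^ 2 * ((1 + s) * (b - a * (v - R / 2)) * r ^ 2 +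
        (b * k + F + a * ((1 + s) * (v * k))) / 2 * r + 2 * c * v * (b + a * (1 + s) * v)) := by
    rw [hI, hw]; ring
  have h3 : (2 : ℝ) * (9 / 10) * w = R ^ 2 * (9 / 5 * v) := by rw [hw]; ring
  rw [h2, h3]
  refine mul_le_mul_of_nonneg_left ?_ hR2.le
  exact right_num hc1 hc2 hR0 hR1 hv hr hk0 hk1 hb0 hb hs hs1 hF ha0 ha

/-! ### the closure fields in the tails -/

/-- the tail region and the size of `b` there -/
def Tail (x b : ℝ) : Prop := (x ≤ -5 ∧ b ≤ 5 / 4) ∨ (3 ≤ x ∧ b ≤ 1 / 2)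

/-- **`(U')` in the tails** (exact form of `Dual_924.up_corner`) -/
theorem up_tail (h : SPair c W V I k c) (hc1 : 0.4157 ≤ c) (hc2 : c ≤ 0.4158) {x b F a δ : ℝ}
    (hx : Tail x b) (hb0 : 0 ≤ b) (hF0 : 0 ≤ F) (hF : F ≤ 3 / 2) (ha0 : 4 / 5 ≤ a) (ha : a ≤ 1)
    (hδ0 : 0 ≤ δ) (hδ : δ ≤ c) :
    b * (I x ^ 2 * (1 + δ * b) + 2 * c * (V x * (1 - V x) ^ 2) + k x * Hf c W V I k x)
      + F * Hf c W V I k x
      + a * ((1 + δ * b) * (V x * (k x * Hf c W V I k x - I x ^ 2 + 2 * c * (V x * (1 - V x) ^ 2))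
        + I x * Hf c W V I k x)) ≤ 2 * (9 / 10) * (V x * (1 - V x) ^ 2) := by
  have hδb : 0 ≤ δ * b := mul_nonneg hδ0 hb0
  rcases hx with ⟨hx, hb⟩ | ⟨hx, hb⟩
  · refine left_alg hc1 hc2 (lnum h hc1 hc2 hx) rfl hb0 hb (by linarith) ?_ hF0 hF (by linarith) ha
    have := mul_le_mul (hδ.trans hc2) hb hb0 (by norm_num)
    linarith
  · refine right_alg hc1 hc2 (rnum h hc1 hc2 hx) rfl hb0 hb (by linarith) ?_ hF0 hF ha0 ha
    have := mul_le_mul (hδ.trans hc2) hb hb0 (by norm_num)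
    linarith

/-- **`(L')` in the tails** (exact form of `Dual_924.lo_corner`) -/
theorem lo_tail (h : SPair c W V I k c) (hc1 : 0.4157 ≤ c) (hc2 : c ≤ 0.4158) {x b F a δ : ℝ}
    (hx : Tail x b) (hb0 : 0 ≤ b) (hF0 : 0 ≤ F) (hF : F ≤ 3 / 2) (ha0 : 4 / 5 ≤ a) (ha : a ≤ 1)
    (hδ0 : 0 ≤ δ) (hδ : δ ≤ c) :
    b * (I x ^ 2 * (1 - δ * b) + 2 * c * (V x * (1 - V x) ^ 2) + k x * Hf c W V I k x)
      + F * Hf c W V I k x
      + a * ((1 - δ * b) * (V x * (k x * Hf c W V I k x - I x ^ 2 + 2 * c * (V x * (1 - V x) ^ 2))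
        + I x * Hf c W V I k x)) ≤ 2 * (9 / 10) * (V x * (1 - V x) ^ 2) := by
  have hδb : 0 ≤ δ * b := mul_nonneg hδ0 hb0
  simp only [sub_eq_add_neg (1 : ℝ) (δ * b)]
  rcases hx with ⟨hx, hb⟩ | ⟨hx, hb⟩
  · refine left_alg hc1 hc2 (lnum h hc1 hc2 hx) rfl hb0 hb ?_ (by linarith) hF0 hF (by linarith) ha
    have := mul_le_mul (hδ.trans hc2) hb hb0 (by norm_num)
    linarith
  · refine right_alg hc1 hc2 (rnum h hc1 hc2 hx) rfl hb0 hb ?_ (by linarith) hF0 hF ha0 ha
    have := mul_le_mul (hδ.trans hc2) hb hb0 (by norm_num)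
    linarith

/-- the monotonicity condition of `Dual_924.lo_of_corner` in the tails -/
theorem mon_tail (h : SPair c W V I k c) (hc1 : 0.4157 ≤ c) (hc2 : c ≤ 0.4158) {x b a δ : ℝ}
    (hx : Tail x b) (hb0 : 0 ≤ b) (ha0 : 0 ≤ a) (ha : a ≤ 1)
    (hδ0 : 0 ≤ δ) (hδ : δ ≤ c) (hH : 0 ≤ Hf c W V I k x) :
    0 ≤ I x ^ 2 * (2 * (1 - δ * b) - (1 - a * δ * V x)) +
      (2 * c * (V x * (1 - V x) ^ 2) + k x * Hf c W V I k x) * (1 - a * δ * V x) +
      -(a * δ * I x) * Hf c W V I k x := by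
  have hδb : 0 ≤ δ * b := mul_nonneg hδ0 hb0
  have hV := h.V_pos x
  have hV1 := h.V_lt x
  have hk := h.k_pos x
  have hI := h.I_pos x
  have haδ : 0 ≤ a * δ := mul_nonneg ha0 hδ0
  have haδ1 : a * δ ≤ 1 * 0.4158 := mul_le_mul ha (hδ.trans hc2) hδ0 (by norm_num)
  have haδV0 : 0 ≤ a * δ * V x := mul_nonneg haδ hV.le
  have haδV : a * δ * V x ≤ 0.4158 * 1 := mul_le_mul (by linarith) hV1.le hV.le (by norm_num)
  have hg : 0.5842 ≤ 1 - a * δ * V x := by linarith
  have hkH : 0 ≤ k x * Hf c W V I k x * (1 - a * δ * V x) :=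
    mul_nonneg (mul_nonneg hk.le hH) (by linarith)
  rcases hx with ⟨hx, hb⟩ | ⟨hx, hb⟩
  · obtain ⟨v0, v1, I0, Isq, I1, k0, k1, H1⟩ := lnum h hc1 hc2 hx
    have h1 : δ * b ≤ 0.4158 * (5 / 4) := mul_le_mul (hδ.trans hc2) hb hb0 (by norm_num)
    have h2 : -0.04 ≤ 2 * (1 - δ * b) - (1 - a * δ * V x) := by linarith
    have h3 : -0.04 * (3 / 100 * V x) ≤ I x ^ 2 * (2 * (1 - δ * b) - (1 - a * δ * V x)) := by
      have e1 : I x ^ 2 * (-0.04) ≤ I x ^ 2 * (2 * (1 - δ * b) - (1 - a * δ * V x)) :=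
        mul_le_mul_of_nonneg_left h2 (sq_nonneg _)
      linarith
    have h4 : 0.8 * V x ≤ 2 * c * (V x * (1 - V x) ^ 2) := by
      have e1 : 0.995 ≤ (1 - V x) ^ 2 := by nlinarith
      have e2 : 0.995 * V x ≤ V x * (1 - V x) ^ 2 := by
        rw [mul_comm (0.995 : ℝ)]; exact mul_le_mul_of_nonneg_left e1 hV.le
      have e3 : 2 * 0.4157 * (0.995 * V x) ≤ 2 * c * (V x * (1 - V x) ^ 2) :=
        mul_le_mul (by linarith) e2 (by positivity) (by linarith)
      linarith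
    have h5 : 0.46 * V x ≤ 2 * c * (V x * (1 - V x) ^ 2) * (1 - a * δ * V x) := by
      have e1 : 0.8 * V x * 0.5842 ≤ 2 * c * (V x * (1 - V x) ^ 2) * (1 - a * δ * V x) :=
        mul_le_mul h4 hg (by norm_num) ((mul_nonneg (by norm_num) hV.le).trans h4)
      linarith
    have h6 : a * δ * I x * Hf c W V I k x ≤ 0.0013 * V x := by
      have e1 : a * δ * I x ≤ 0.4158 * (1 / 100) :=
        mul_le_mul (by linarith) I1 hI.le (by norm_num)
      have e2 : a * δ * I x * Hf c W V I k x ≤ 0.4158 * (1 / 100) * (29 / 100 * V x) :=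
        mul_le_mul e1 H1 hH (by norm_num)
      linarith
    nlinarith
  · obtain ⟨R0, R1, I1, r0, k0, k1, H1⟩ := rnum h hc1 hc2 hx
    have h1 : δ * b ≤ 0.4158 * (1 / 2) := mul_le_mul (hδ.trans hc2) hb hb0 (by norm_num)
    have h2 : 0.5 ≤ 2 * (1 - δ * b) - (1 - a * δ * V x) := by linarith
    have h3 : I x ^ 2 * 0.5 ≤ I x ^ 2 * (2 * (1 - δ * b) - (1 - a * δ * V x)) :=
      mul_le_mul_of_nonneg_left h2 (sq_nonneg _)
    have h4 : 0 ≤ 2 * c * (V x * (1 - V x) ^ 2) * (1 - a * δ * V x) := by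
      have : 0 < c := by linarith
      have : 0 ≤ 1 - a * δ * V x := by linarith
      positivity
    have h5 := Hf_le_right h x
    have h6 : a * δ * I x * Hf c W V I k x ≤ 0.4158 * I x * (I x / 800) := by
      have e1 : a * δ * I x ≤ 0.4158 * I x := mul_le_mul_of_nonneg_right (by linarith) hI.le
      have e2 : Hf c W V I k x ≤ I x / 800 := by
        have := mul_le_mul_of_nonneg_left R1 hI.le
        linarith
      exact mul_le_mul e1 e2 hH (by positivity)
    nlinarith [sq_nonneg (I x)]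

/-- **(CLO), upper side, in the tails**: every `j ≤ 1 + δ b`, `L ≥ max(0, k - δ F)`. -/
theorem clo_up_tail (h : SPair c W V I k c) (hc1 : 0.4157 ≤ c) (hc2 : c ≤ 0.4158)
    {x b F a δ j L : ℝ}
    (hx : Tail x b) (hb0 : 0 ≤ b) (hF0 : 0 ≤ F) (hF : F ≤ 3 / 2) (ha0 : 4 / 5 ≤ a) (ha : a ≤ 1)
    (hδ0 : 0 ≤ δ) (hδ : δ ≤ c) (hH : 0 ≤ Hf c W V I k x) (hj : 0 ≤ j) (hj1 : j ≤ 1 + δ * b)
    (hL0 : 0 ≤ L) (hL : k x - δ * F ≤ L) :
    Dual_924.EE (I x) (V x * (1 - V x) ^ 2) (Hf c W V I k x) (k x) c (1 + a * δ * V x)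
      (a * δ * I x) (c + 9 / 10 * δ) j L ≤ 0 := by
  have hV := h.V_pos x
  have hc := h.c_pos
  have ha0' : 0 ≤ a := by linarith
  have hδb : 0 ≤ δ * b := mul_nonneg hδ0 hb0
  refine Dual_924.up_of_corner (j1 := 1 + δ * b) (L1 := max 0 (k x - δ * F)) (by positivity) hH
    (by positivity) (by positivity) hj (by linarith) hj1 (le_max_left _ _) (max_le hL0 hL) ?_
  exact Dual_924.up_corner hδ0 ha0' hV.le hH (le_max_left _ _) (le_max_right _ _)
    (up_tail h hc1 hc2 hx hb0 hF0 hF ha0 ha hδ0 hδ)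

/-- **(CLO), lower side, in the tails**: every `j ≥ 1 - δ b`, `0 ≤ L ≤ k + δ F`. -/
theorem clo_lo_tail (h : SPair c W V I k c) (hc1 : 0.4157 ≤ c) (hc2 : c ≤ 0.4158)
    {x b F a δ j L : ℝ}
    (hx : Tail x b) (hb0 : 0 ≤ b) (hF0 : 0 ≤ F) (hF : F ≤ 3 / 2) (ha0 : 4 / 5 ≤ a) (ha : a ≤ 1)
    (hδ0 : 0 ≤ δ) (hδ : δ ≤ c) (hH : 0 ≤ Hf c W V I k x) (hj1 : 1 - δ * b ≤ j)
    (hL : L ≤ k x + δ * F) :
    0 ≤ Dual_924.EE (I x) (V x * (1 - V x) ^ 2) (Hf c W V I k x) (k x) c (1 - a * δ * V x)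
      (-(a * δ * I x)) (c - 9 / 10 * δ) j L := by
  have hV := h.V_pos x
  have hV1 := h.V_lt x
  have hk := h.k_pos x
  have ha0' : 0 ≤ a := by linarith
  have haδ : 0 ≤ a * δ := mul_nonneg ha0' hδ0
  have haδ1 : a * δ ≤ 1 * 0.4158 := mul_le_mul ha (hδ.trans hc2) hδ0 (by norm_num)
  have haδV : a * δ * V x ≤ 0.4158 * 1 := mul_le_mul (by linarith) hV1.le hV.le (by norm_num)
  have hkF : 0 ≤ k x + δ * F := by positivity
  refine Dual_924.lo_of_corner (j1 := 1 - δ * b) (L1 := k x + δ * F)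
    (mul_nonneg (by linarith) hH) hj1 hL (mon_tail h hc1 hc2 hx hb0 ha0' ha hδ0 hδ hH) ?_
  exact Dual_924.lo_corner hδ0 ha0' hV.le hH hkF le_rfl
    (lo_tail h hc1 hc2 hx hb0 hF0 hF ha0 ha hδ0 hδ)

end Crest.Agent.R146.CloTail_649
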