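import Mathlib

/-!
Sliding comparison of two profiles in the phase plane (row 146, numerics certificate).

A `Jet` is a `C²` function whose second derivative has a right derivative.  `slide` compares two
increasing profiles `S` (sub) and `U` (super): if every touching with nonnegative offset is
impossible and crossings live in a bounded box, then the slope of `S` at height `y` is smaller than
the slope of `U` at every height `≥ y`.
-/

set_option autoImplicit false

namespace Crest.Agent.R146.Slide_109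

open Filter Topology Set

lemma pos_right {E : ℝ → ℝ} {x e : ℝ} (h0 : E x = 0)
    (h : HasDerivWithinAt E e (Ici x) x) (he : 0 < e) :
    ∃ ε > 0, ∀ z, x < z → z < x + ε → 0 < E z := by
  have h1 : HasDerivWithinAt E e (Ioi x) x := h.mono Ioi_subset_Ici_self
  rw [hasDerivWithinAt_iff_tendsto_slope' (by simp)] at h1
  have h2 : ∀ᶠ z in 𝓝[>] x, 0 < slope E x z := h1.eventually (lt_mem_nhds he)
  obtain ⟨u, hu, hsub⟩ := mem_nhdsGT_iff_exists_Ioo_subset.1 h2
  refine ⟨u - x, sub_pos.2 hu, fun z hz1 hz2 => ?_⟩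
  have h3 : 0 < slope E x z := hsub ⟨hz1, by linarith⟩
  rw [slope_def_field, h0, sub_zero] at h3
  have h4 : 0 < z - x := sub_pos.2 hz1
  have h5 : E z = E z / (z - x) * (z - x) := by field_simp
  rw [h5]
  exact mul_pos h3 h4

/-- `h` differentiable, `h' > 0` just right of `x`: then `h > h x` just right of `x`. -/
lemma incr_right {h h' : ℝ → ℝ} {x ε : ℝ}
    (hd : ∀ z, HasDerivAt h (h' z) z) (hpos : ∀ z, x < z → z < x + ε → 0 < h' z) :
    ∀ z, x < z → z < x + ε → h x < h z := by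
  intro z hz1 hz2
  have hmono : StrictMonoOn h (Icc x z) := by
    apply strictMonoOn_of_deriv_pos (convex_Icc x z)
    · intro w _
      exact (hd w).continuousAt.continuousWithinAt
    · intro w hw
      rw [interior_Icc] at hw
      rw [(hd w).deriv]
      exact hpos w hw.1 (lt_trans hw.2 hz2)
  exact hmono (left_mem_Icc.2 hz1.le) (right_mem_Icc.2 hz1.le) hz1

/-- A `C²` function with right-differentiable second derivative. -/
structure Jet (F0 F1 F2 F3 : ℝ → ℝ) : Prop where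
  d0 : ∀ z, HasDerivAt F0 (F1 z) z
  d1 : ∀ z, HasDerivAt F1 (F2 z) z
  d2 : ∀ z, HasDerivWithinAt F2 (F3 z) (Ici z) z

section inv
variable {U0 U1 : ℝ → ℝ}

/-- inverse function of an increasing bijection with positive derivative -/
lemma exists_inverse (hU : ∀ z, HasDerivAt U0 (U1 z) z) (hU1 : ∀ z, 0 < U1 z)
    (hs : Function.Surjective U0) :
    ∃ G : ℝ → ℝ, (∀ y, U0 (G y) = y) ∧ (∀ z, G (U0 z) = z) ∧ StrictMono G ∧
      ∀ y, HasDerivAt G (U1 (G y))⁻¹ y := by
  have hm : StrictMono U0 := strictMono_of_hasDerivAt_pos hU hU1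
  let e := hm.orderIsoOfSurjective U0 hs
  have he : ∀ z, e z = U0 z := fun z => rfl
  have h1 : ∀ y, U0 (e.symm y) = y := fun y => by rw [← he]; exact e.apply_symm_apply y
  refine ⟨e.symm, h1, fun z => ?_, e.symm.strictMono, fun y => ?_⟩
  · rw [← he]; exact e.symm_apply_apply z
  · exact HasDerivAt.of_local_left_inverse (e.symm.continuous.continuousAt) (hU _)
      (hU1 _).ne' (Eventually.of_forall h1)

end inv

/-- Two increasing profiles cannot touch from the right side when the third derivatives are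
strictly ordered the wrong way. -/
theorem touch_false {S0 S1 S2 S3 U0 U1 U2 U3 : ℝ → ℝ} (hS : Jet S0 S1 S2 S3)
    (hU : Jet U0 U1 U2 U3) (hS1 : ∀ z, 0 < S1 z) (hU1 : ∀ z, 0 < U1 z)
    (hUs : Function.Surjective U0)
    (hconv : (∀ z, 0 ≤ S2 z) ∨ (∀ z, 0 ≤ U2 z)) {F a b : ℝ}
    (hF : U0 a = S0 b + F) (heq : U1 a = S1 b)
    (hle : ∀ z1 z2, U0 z1 = S0 z2 + F → S1 z2 ≤ U1 z1)
    (hlt : U2 a = S2 b → U3 a < S3 b) : False := by
  obtain ⟨G, hG1, hG2, hGm, hGd⟩ := exists_inverse hU.d0 hU1 hUs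
  set T : ℝ → ℝ := fun z => G (S0 z + F) with hTdef
  have hT : ∀ z, U0 (T z) = S0 z + F := fun z => hG1 _
  have hTb : T b = a := by
    have : T b = G (U0 a) := by simp only [hTdef]; rw [hF]
    rw [this, hG2]
  have hTd : ∀ z, HasDerivAt T ((U1 (T z))⁻¹ * S1 z) z := by
    intro z
    have h1 : HasDerivAt (fun w => S0 w + F) (S1 z) z := (hS.d0 z).add_const F
    exact (hGd (S0 z + F)).comp z h1
  have hTmono : StrictMono T :=
    strictMono_of_hasDerivAt_pos hTd (fun z => mul_pos (inv_pos.2 (hU1 _)) (hS1 z))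
  set h : ℝ → ℝ := fun z => U1 (T z) - S1 z with hhdef
  set h' : ℝ → ℝ := fun z => U2 (T z) * ((U1 (T z))⁻¹ * S1 z) - S2 z with hh'def
  have hhd : ∀ z, HasDerivAt h (h' z) z := by
    intro z
    exact ((hU.d1 (T z)).comp z (hTd z)).sub (hS.d1 z)
  have hh0 : ∀ z, 0 ≤ h z := fun z => sub_nonneg.2 (hle _ _ (hT z))
  have hhb : h b = 0 := by simp only [hhdef]; rw [hTb, heq, sub_self]
  have hmin : IsLocalMin h b := by
    refine Eventually.of_forall fun z => ?_
    rw [hhb]; exact hh0 z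
  have hd0 : h' b = 0 := hmin.hasDerivAt_eq_zero (hhd b)
  have hone : (U1 a)⁻¹ * S1 b = 1 := by
    rw [heq]; exact inv_mul_cancel₀ (hS1 b).ne'
  have hE2 : U2 a = S2 b := by
    have : U2 (T b) * ((U1 (T b))⁻¹ * S1 b) - S2 b = 0 := hd0
    rw [hTb, hone, mul_one] at this
    linarith
  have h3 := hlt hE2
  -- right derivative of -E
  have hEd : HasDerivWithinAt (fun z => S2 z - U2 (T z)) (S3 b - U3 a) (Ici b) b := by
    have h1 : HasDerivWithinAt U2 (U3 a) (Ici (T b)) (T b) := by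
      have := hU.d2 (T b)
      rw [hTb] at this ⊢
      exact this
    have h2 : HasDerivWithinAt T ((U1 (T b))⁻¹ * S1 b) (Ici b) b := (hTd b).hasDerivWithinAt
    have h4 := h1.comp b h2 (fun z hz => hTmono.monotone hz)
    rw [hTb, hone, mul_one] at h4
    exact (hS.d2 b).sub h4
  have hE0 : (fun z => S2 z - U2 (T z)) b = 0 := by
    simp only [hTb, hE2, sub_self]
  obtain ⟨ε, hε, hpos⟩ :=
    pos_right (E := fun z => S2 z - U2 (T z)) hE0 hEd (sub_pos.2 h3)
  have hneg : ∀ z, b < z → z < b + ε → 0 < -h' z := by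
    intro z hz1 hz2
    have hE : U2 (T z) < S2 z := by
      have := hpos z hz1 hz2
      linarith
    have hu := hU1 (T z)
    have hs := hS1 z
    have hh := hh0 z
    have hhz : S1 z ≤ U1 (T z) := by
      have : 0 ≤ U1 (T z) - S1 z := hh
      linarith
    have key : -h' z * U1 (T z) = S2 z * U1 (T z) - U2 (T z) * S1 z := by
      simp only [hh'def]
      field_simp
      ring
    have : 0 < -h' z * U1 (T z) := by
      rw [key]
      rcases hconv with hc | hc
      · have h5 := hc z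
        nlinarith [mul_nonneg h5 (sub_nonneg.2 hhz), mul_pos (sub_pos.2 hE) hs]
      · have h5 := hc (T z)
        nlinarith [mul_nonneg h5 (sub_nonneg.2 hhz), mul_pos (sub_pos.2 hE) hu]
    by_contra hcon
    push Not at hcon
    nlinarith [mul_nonneg (sub_nonneg.2 hcon) hu.le]
  have hinc := incr_right (h := fun z => -h z) (h' := fun z => -h' z) (ε := ε)
    (fun z => (hhd z).neg) hneg (b + ε / 2) (by linarith) (by linarith)
  have h6 := hh0 (b + ε / 2)
  simp only [hhb] at hinc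
  linarith

/-- Sliding theorem. -/
theorem slide {S0 S1 S2 S3 U0 U1 U2 U3 : ℝ → ℝ} (hS : Jet S0 S1 S2 S3)
    (hU : Jet U0 U1 U2 U3) (hS1 : ∀ z, 0 < S1 z) (hU1 : ∀ z, 0 < U1 z)
    (hUs : Function.Surjective U0)
    (hconv : (∀ z, 0 ≤ S2 z) ∨ (∀ z, 0 ≤ U2 z))
    (htouch : ∀ z1 z2, S0 z2 ≤ U0 z1 → U1 z1 = S1 z2 → U2 z1 = S2 z2 → U3 z1 < S3 z2)
    (hbdd : ∃ B, ∀ z1 z2, S0 z2 ≤ U0 z1 → U1 z1 ≤ S1 z2 → |z1| ≤ B ∧ |z2| ≤ B) :
    ∀ z1 z2, S0 z2 ≤ U0 z1 → S1 z2 < U1 z1 := by
  have cS0 : Continuous S0 := continuous_iff_continuousAt.2 fun z => (hS.d0 z).continuousAt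
  have cS1 : Continuous S1 := continuous_iff_continuousAt.2 fun z => (hS.d1 z).continuousAt
  have cU0 : Continuous U0 := continuous_iff_continuousAt.2 fun z => (hU.d0 z).continuousAt
  have cU1 : Continuous U1 := continuous_iff_continuousAt.2 fun z => (hU.d1 z).continuousAt
  have hm : StrictMono U0 := strictMono_of_hasDerivAt_pos hU.d0 hU1
  by_contra hcon
  push Not at hcon
  obtain ⟨x1, x2, hx1, hx2⟩ := hcon
  obtain ⟨B, hB⟩ := hbdd
  set K : Set (ℝ × ℝ) := {p | S0 p.2 ≤ U0 p.1 ∧ U1 p.1 ≤ S1 p.2} with hK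
  have hKc : IsClosed K := by
    apply IsClosed.inter
    · exact isClosed_le (cS0.comp continuous_snd) (cU0.comp continuous_fst)
    · exact isClosed_le (cU1.comp continuous_fst) (cS1.comp continuous_snd)
  have hKsub : K ⊆ (Icc (-B) B) ×ˢ (Icc (-B) B) := by
    rintro ⟨p1, p2⟩ ⟨hp1, hp2⟩
    obtain ⟨h1, h2⟩ := hB p1 p2 hp1 hp2
    exact ⟨abs_le.1 h1, abs_le.1 h2⟩
  have hKcomp : IsCompact K :=
    (isCompact_Icc.prod isCompact_Icc).of_isClosed_subset hKc hKsub
  have hKne : K.Nonempty := ⟨(x1, x2), hx1, hx2⟩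
  obtain ⟨⟨a, b⟩, ⟨hab1, hab2⟩, hmax⟩ := hKcomp.exists_isMaxOn hKne
    (f := fun p : ℝ × ℝ => U0 p.1 - S0 p.2)
    ((cU0.comp continuous_fst).sub (cS0.comp continuous_snd)).continuousOn
  simp only at hab1 hab2
  set F := U0 a - S0 b with hFdef
  have hF0 : 0 ≤ F := sub_nonneg.2 hab1
  have hle : ∀ z1 z2, U0 z1 = S0 z2 + F → S1 z2 ≤ U1 z1 := by
    intro z1 z2 hz
    by_contra hlt
    push Not at hlt
    -- increase z1 slightly
    have hev : ∀ᶠ w in 𝓝[>] z1, U1 w < S1 z2 :=
      (cU1.continuousAt.eventually (gt_mem_nhds hlt)).filter_mono nhdsWithin_le_nhds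
    obtain ⟨w, hw1, hw2⟩ := (hev.and (self_mem_nhdsWithin)).exists
    have hw3 : U0 z1 < U0 w := hm hw2
    have hwK : (w, z2) ∈ K := by
      refine ⟨?_, hw1.le⟩
      simp only
      linarith
    have h7 : U0 w - S0 z2 ≤ U0 a - S0 b := hmax hwK
    linarith
  have hUeq : U1 a = S1 b := le_antisymm hab2 (hle a b (by rw [hFdef]; ring))
  exact touch_false hS hU hS1 hU1 hUs hconv (F := F) (a := a) (b := b)
    (by rw [hFdef]; ring) hUeq hle (fun h2 => htouch a b hab1 hUeq h2)

end Crest.Agent.R146.Slide_109
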