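import Mathlib
import Crest.Agent.R146.Slide_109

/-!
The self-similar profile `W'' + A W' - W = 0`, `A = z + 2 ν (W - z)` (row 146, numerics
certificate): sign and decay properties obtained from maximum principles and integrating factors.
-/

set_option autoImplicit false

namespace Crest.Agent.R146.Prof_109

open Filter Topology Set
open Crest.Agent.R146.Slide_109

/-- the drift -/
noncomputable def A (ν : ℝ) (W : ℝ → ℝ) (z : ℝ) : ℝ := z + 2 * ν * (W z - z)

/-- profile with named first derivative -/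
structure ProfD (ν : ℝ) (W V : ℝ → ℝ) : Prop where
  d0 : ∀ z, HasDerivAt W (V z) z
  d1 : ∀ z, HasDerivAt V (W z - A ν W z * V z) z
  left : Tendsto W atBot (𝓝 0)
  right : Tendsto (fun z => W z - z) atTop (𝓝 0)
  pos : 0 < ν
  lt : ν < 1 / 2

/-- second derivative test with a one-sided derivative -/
lemma localMin_second {f f1 : ℝ → ℝ} {x w : ℝ} (hf : ∀ z, HasDerivAt f (f1 z) z)
    (h1 : HasDerivAt f1 w x) (hmin : IsLocalMin f x) : 0 ≤ w := by
  by_contra hw
  push Not at hw
  have h0 : f1 x = 0 := hmin.hasDerivAt_eq_zero (hf x)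
  obtain ⟨ε, hε, hpos⟩ := pos_right (E := fun z => -f1 z) (by simp [h0])
    (h1.neg.hasDerivWithinAt) (neg_pos.2 hw)
  have hinc := incr_right (h := fun z => -f z) (h' := fun z => -f1 z) (ε := ε)
    (fun z => (hf z).neg) hpos
  have hev : ∀ᶠ z in 𝓝[>] x, f x ≤ f z := hmin.filter_mono nhdsWithin_le_nhds
  have hev2 : ∀ᶠ z in 𝓝[>] x, z < x + ε :=
    (eventually_lt_nhds (by linarith : x < x + ε)).filter_mono nhdsWithin_le_nhds
  obtain ⟨z, ⟨hz1, hz2⟩, hz3⟩ := ((hev.and hev2).and self_mem_nhdsWithin).exists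
  have := hinc z hz3 hz2
  linarith

lemma exists_global_min {f : ℝ → ℝ} (hc : Continuous f) {x0 : ℝ}
    (hl : ∀ᶠ z in atBot, f x0 ≤ f z) (hr : ∀ᶠ z in atTop, f x0 ≤ f z) :
    ∃ x, ∀ z, f x ≤ f z := by
  apply hc.exists_forall_le' x0
  rw [cocompact_eq_atBot_atTop]
  exact eventually_sup.2 ⟨hl, hr⟩

section mfun
variable {B : ℝ → ℝ}

/-- integrating factor -/
noncomputable def mf (B : ℝ → ℝ) (z : ℝ) : ℝ := Real.exp (∫ t in (0 : ℝ)..z, B t)

lemma mf_pos (z : ℝ) : 0 < mf B z := Real.exp_pos _

lemma mf_zero : mf B 0 = 1 := by simp [mf]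

lemma hasDerivAt_prim (hB : Continuous B) (z : ℝ) :
    HasDerivAt (fun z => ∫ t in (0 : ℝ)..z, B t) (B z) z :=
  intervalIntegral.integral_hasDerivAt_right (hB.intervalIntegrable _ _)
    (hB.stronglyMeasurableAtFilter _ _) hB.continuousAt

lemma mf_deriv (hB : Continuous B) (z : ℝ) : HasDerivAt (mf B) (mf B z * B z) z :=
  (hasDerivAt_prim hB z).exp

/-- `(m f)' = m (f' + B f)` -/
lemma mf_mul_deriv (hB : Continuous B) {f : ℝ → ℝ} {f' z : ℝ} (hf : HasDerivAt f f' z) :
    HasDerivAt (fun z => mf B z * f z) (mf B z * (f' + B z * f z)) z := by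
  exact ((mf_deriv hB z).mul hf).congr_deriv (by ring)

lemma mf_mono_of (hB : Continuous B) {f f' : ℝ → ℝ} (hf : ∀ z, HasDerivAt f (f' z) z)
    (h : ∀ z, 0 ≤ f' z + B z * f z) : Monotone (fun z => mf B z * f z) :=
  monotone_of_hasDerivAt_nonneg (fun z => mf_mul_deriv hB (hf z))
    (fun z => mul_nonneg (mf_pos z).le (h z))

end mfun

namespace ProfD
variable {ν : ℝ} {W V : ℝ → ℝ}

lemma contW (h : ProfD ν W V) : Continuous W :=
  continuous_iff_continuousAt.2 fun z => (h.d0 z).continuousAt

lemma contV (h : ProfD ν W V) : Continuous V :=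
  continuous_iff_continuousAt.2 fun z => (h.d1 z).continuousAt

lemma contA (h : ProfD ν W V) : Continuous (A ν W) := by
  unfold A
  exact continuous_id.add (continuous_const.mul (h.contW.sub continuous_id))

lemma tendsto_top (h : ProfD ν W V) : Tendsto W atTop atTop := by
  have := h.right.add_atTop tendsto_id
  simpa using this

lemma W_nonneg (h : ProfD ν W V) (z : ℝ) : 0 ≤ W z := by
  by_contra hz
  push Not at hz
  obtain ⟨x, hx⟩ := exists_global_min h.contW (x0 := z)
    ((h.left.eventually (lt_mem_nhds hz)).mono fun w hw => hw.le)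
    ((h.tendsto_top.eventually (eventually_gt_atTop 0)).mono fun w hw => by linarith)
  have hmin : IsLocalMin W x := Eventually.of_forall hx
  have hVx : V x = 0 := hmin.hasDerivAt_eq_zero (h.d0 x)
  have h2 := localMin_second h.d0 (h.d1 x) hmin
  rw [hVx] at h2
  have := hx z
  linarith

lemma V_nonneg (h : ProfD ν W V) (z : ℝ) : 0 ≤ V z := by
  by_contra hz
  push Not at hz
  have hmono := mf_mono_of h.contA h.d1 (fun w => by
    have := h.W_nonneg w
    linarith)
  have hneg : ∀ w ≤ z, V w < 0 := by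
    intro w hw
    have h1 : mf (A ν W) w * V w ≤ mf (A ν W) z * V z := hmono hw
    have h2 : mf (A ν W) z * V z < 0 := mul_neg_of_pos_of_neg (mf_pos z) hz
    by_contra hc
    push Not at hc
    have := mul_nonneg (mf_pos (B := A ν W) w).le hc
    linarith
  have hanti : StrictAntiOn W (Iic z) := by
    apply strictAntiOn_of_deriv_neg (convex_Iic z) h.contW.continuousOn
    intro w hw
    rw [interior_Iic] at hw
    rw [(h.d0 w).deriv]
    exact hneg w hw.le
  have h1 : W z < W (z - 1) := hanti (by simp) (by simp) (by linarith)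
  have h2 := h.W_nonneg z
  -- W (z-1) > 0, and W w ≥ W (z-1) for w ≤ z-1
  have h3 : ∀ᶠ w in atBot, W w < W (z - 1) := h.left.eventually (gt_mem_nhds (by linarith))
  obtain ⟨w, hw1, hw2⟩ := (h3.and (eventually_le_atBot (z - 1))).exists
  have : W (z - 1) ≤ W w := hanti.antitoneOn (show w ∈ Iic z by simp; linarith)
    (show z - 1 ∈ Iic z by simp) hw2
  linarith

/-- `u = W - z` -/
lemma u_nonneg (h : ProfD ν W V) (z : ℝ) : 0 ≤ W z - z := by
  by_contra hz
  push Not at hz
  have hd0 : ∀ z, HasDerivAt (fun z => W z - z) (V z - 1) z := fun z =>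
    (h.d0 z).sub (hasDerivAt_id z)
  have hbot : Tendsto (fun z => W z - z) atBot atTop := by
    have : Tendsto (fun z : ℝ => -z) atBot atTop := tendsto_neg_atBot_atTop
    have := h.left.add_atTop this
    simpa [sub_eq_add_neg] using this
  obtain ⟨x, hx⟩ := exists_global_min (f := fun z => W z - z) (h.contW.sub continuous_id) (x0 := z)
    ((hbot.eventually (eventually_gt_atTop 0)).mono fun w hw => by linarith)
    ((h.right.eventually (lt_mem_nhds hz)).mono fun w hw => hw.le)
  have hmin : IsLocalMin (fun z => W z - z) x := Eventually.of_forall hx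
  have hVx : V x - 1 = 0 := hmin.hasDerivAt_eq_zero (hd0 x)
  have h2 := localMin_second hd0 ((h.d1 x).sub_const 1) hmin
  have hV : V x = 1 := by linarith
  rw [hV, A] at h2
  have h3 : W x - x ≤ W z - z := hx z
  have h4 := h.pos
  have h5 := h.lt
  nlinarith

lemma V_le_one (h : ProfD ν W V) (z : ℝ) : V z ≤ 1 := by
  by_contra hz
  push Not at hz
  have hd0 : ∀ z, HasDerivAt (fun z => W z - z) (V z - 1) z := fun z =>
    (h.d0 z).sub (hasDerivAt_id z)
  have hmono := mf_mono_of h.contA (f := fun z => V z - 1) (fun z => (h.d1 z).sub_const 1)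
    (fun w => by
      have h1 := h.u_nonneg w
      have h2 := h.lt
      have h3 : W w - A ν W w * V w + A ν W w * (V w - 1) = (1 - 2 * ν) * (W w - w) := by
        unfold A; ring
      rw [h3]
      exact mul_nonneg (by linarith) h1)
  have hpos : ∀ w, z ≤ w → 0 < V w - 1 := by
    intro w hw
    have h1 : mf (A ν W) z * (V z - 1) ≤ mf (A ν W) w * (V w - 1) := hmono hw
    have h2 : 0 < mf (A ν W) z * (V z - 1) := mul_pos (mf_pos z) (by linarith)
    by_contra hc
    push Not at hc
    have := mul_nonneg (mf_pos (B := A ν W) w).le (neg_nonneg.2 hc)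
    linarith
  have hm : StrictMonoOn (fun z => W z - z) (Ici z) := by
    apply strictMonoOn_of_deriv_pos (f := fun z => W z - z) (convex_Ici z)
      (h.contW.sub continuous_id).continuousOn
    intro w hw
    rw [interior_Ici] at hw
    rw [(hd0 w).deriv]
    exact hpos w (le_of_lt hw)
  have h1 : W z - z < W (z + 1) - (z + 1) := hm (by simp) (by simp) (by linarith)
  have h2 := h.u_nonneg z
  have h3 : ∀ᶠ w in atTop, W w - w < W (z + 1) - (z + 1) :=
    h.right.eventually (gt_mem_nhds (by linarith))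
  obtain ⟨w, hw1, hw2⟩ := (h3.and (eventually_ge_atTop (z + 1))).exists
  have : W (z + 1) - (z + 1) ≤ W w - w := hm.monotoneOn (show z + 1 ∈ Ici z by simp)
    (show w ∈ Ici z by simp only [mem_Ici]; linarith) hw2
  linarith

/-- `X = W''` -/
lemma hasDerivX (h : ProfD ν W V) (z : ℝ) :
    HasDerivAt (fun z => W z - A ν W z * V z)
      (2 * ν * V z * (1 - V z) - A ν W z * (W z - A ν W z * V z)) z := by
  have hA : HasDerivAt (A ν W) (1 + 2 * ν * (V z - 1)) z := by
    unfold A
    exact (hasDerivAt_id z).add (((h.d0 z).sub (hasDerivAt_id z)).const_mul (2 * ν))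
  exact ((h.d0 z).sub (hA.mul (h.d1 z))).congr_deriv (by ring)

lemma mX_mono (h : ProfD ν W V) :
    Monotone (fun z => mf (A ν W) z * (W z - A ν W z * V z)) :=
  mf_mono_of h.contA (fun z => h.hasDerivX z) (fun z => by
    have h1 := h.V_nonneg z
    have h2 := h.V_le_one z
    have h3 := h.pos
    have h4 : 0 ≤ V z * (1 - V z) := mul_nonneg h1 (by linarith)
    nlinarith [mul_nonneg h3.le h4])

lemma X_nonneg (h : ProfD ν W V) (z : ℝ) : 0 ≤ W z - A ν W z * V z := by
  by_contra hz
  push Not at hz
  have hneg : ∀ w ≤ z, W w - A ν W w * V w < 0 := by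
    intro w hw
    have h1 := h.mX_mono hw
    simp only at h1
    have h2 : mf (A ν W) z * (W z - A ν W z * V z) < 0 := mul_neg_of_pos_of_neg (mf_pos z) hz
    by_contra hc
    push Not at hc
    have := mul_nonneg (mf_pos (B := A ν W) w).le hc
    linarith
  have hanti : StrictAntiOn V (Iic z) := by
    apply strictAntiOn_of_deriv_neg (convex_Iic z) h.contV.continuousOn
    intro w hw
    rw [interior_Iic] at hw
    rw [(h.d1 w).deriv]
    exact hneg w hw.le
  have h1 : V z < V (z - 1) := hanti (by simp) (by simp) (by linarith)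
  have h2 := h.V_nonneg z
  set c := V (z - 1) with hc
  have hcpos : 0 < c := by linarith
  have hge : ∀ w ≤ z - 1, c ≤ V w := fun w hw =>
    hanti.antitoneOn (show w ∈ Iic z by simp only [mem_Iic]; linarith)
      (show z - 1 ∈ Iic z by simp) hw
  -- W w ≤ W (z-1) - c (z-1-w)
  have hmono : MonotoneOn (fun w => W w - c * w) (Iic (z - 1)) := by
    apply monotoneOn_of_deriv_nonneg (f := fun w => W w - c * w) (convex_Iic _)
      (h.contW.sub (continuous_const.mul continuous_id)).continuousOn
    · intro w _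
      exact ((h.d0 w).sub ((hasDerivAt_id w).const_mul c)).differentiableAt.differentiableWithinAt
    · intro w hw
      rw [interior_Iic] at hw
      have hdw : HasDerivAt (fun w => W w - c * w) (V w - c * 1) w :=
        (h.d0 w).sub ((hasDerivAt_id w).const_mul c)
      rw [hdw.deriv]
      have := hge w (le_of_lt hw)
      linarith
  set w := z - 1 - (W (z - 1) + 1) / c with hw
  have hWz := h.W_nonneg (z - 1)
  have hwle : w ≤ z - 1 := by
    rw [hw]
    have : 0 ≤ (W (z - 1) + 1) / c := div_nonneg (by linarith) hcpos.le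
    linarith
  have h3 := hmono (show w ∈ Iic (z - 1) from hwle) (show z - 1 ∈ Iic (z - 1) by simp) hwle
  simp only at h3
  have h4 : c * w = c * (z - 1) - (W (z - 1) + 1) := by
    rw [hw, mul_sub, mul_div_cancel₀ _ hcpos.ne']
  have h5 := h.W_nonneg w
  linarith

lemma V_mono (h : ProfD ν W V) : Monotone V :=
  monotone_of_hasDerivAt_nonneg (fun z => h.d1 z) (fun z => h.X_nonneg z)

lemma V_small (h : ProfD ν W V) {c : ℝ} (hc : 0 < c) : ∃ z, ∀ w ≤ z, V w < c := by
  by_contra hcon
  push Not at hcon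
  have hge : ∀ z, c ≤ V z := by
    intro z
    obtain ⟨w, hw1, hw2⟩ := hcon z
    exact hw2.trans (h.V_mono hw1)
  have hmono : Monotone (fun w => W w - c * w) :=
    monotone_of_hasDerivAt_nonneg (f' := fun w => V w - c * 1)
      (fun w => (h.d0 w).sub ((hasDerivAt_id w).const_mul c))
      (fun w => by have := hge w; simp only [Pi.zero_apply]; linarith)
  have hWz := h.W_nonneg 0
  have h3 := hmono (show -((W 0 + 1) / c) ≤ 0 by
    have : 0 ≤ (W 0 + 1) / c := div_nonneg (by linarith) hc.le
    linarith)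
  simp only at h3
  have h4 : c * (-((W 0 + 1) / c)) = -(W 0 + 1) := by
    rw [mul_neg, mul_div_cancel₀ _ hc.ne']
  have h5 := h.W_nonneg (-((W 0 + 1) / c))
  linarith

lemma V_lt_one (h : ProfD ν W V) (z : ℝ) : V z < 1 := by
  by_contra hz
  push Not at hz
  have hV1 : V z = 1 := le_antisymm (h.V_le_one z) hz
  have hmax : IsLocalMax V z := Eventually.of_forall fun w => by rw [hV1]; exact h.V_le_one w
  have hX0 : W z - A ν W z * V z = 0 := hmax.hasDerivAt_eq_zero (h.d1 z)
  have hX : ∀ w ≤ z, W w - A ν W w * V w = 0 := by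
    intro w hw
    have h1 := h.mX_mono hw
    simp only [hX0, mul_zero] at h1
    have h2 := h.X_nonneg w
    have h3 := mf_pos (B := A ν W) w
    by_contra hne
    have h4 : 0 < W w - A ν W w * V w := lt_of_le_of_ne h2 (Ne.symm hne)
    have := mul_pos h3 h4
    linarith
  -- V constant on (-∞, z]
  have hanti : AntitoneOn V (Iic z) := by
    apply antitoneOn_of_deriv_nonpos (convex_Iic z) h.contV.continuousOn
    · intro w _
      exact (h.d1 w).differentiableAt.differentiableWithinAt
    · intro w hw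
      rw [interior_Iic] at hw
      rw [(h.d1 w).deriv, hX w hw.le]
  obtain ⟨x, hx⟩ := h.V_small (c := 1) one_pos
  have h1 := hx (min x z) (min_le_left _ _)
  have h2 := hanti (show min x z ∈ Iic z from mem_Iic.2 (min_le_right _ _)) (show z ∈ Iic z by simp)
    (min_le_right _ _)
  linarith

lemma W_mono (h : ProfD ν W V) : Monotone W :=
  monotone_of_hasDerivAt_nonneg (fun z => h.d0 z) (fun z => h.V_nonneg z)

lemma u_anti (h : ProfD ν W V) : Antitone (fun z => W z - z) :=
  antitone_of_hasDerivAt_nonpos (f' := fun z => V z - 1)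
    (fun z => (h.d0 z).sub (hasDerivAt_id z))
    (fun z => by have := h.V_le_one z; simp only [Pi.zero_apply]; linarith)

lemma A_ge (h : ProfD ν W V) (z : ℝ) : z ≤ A ν W z := by
  have h1 := h.u_nonneg z
  have h2 := h.pos
  unfold A
  nlinarith [mul_nonneg h2.le h1]

lemma A_le (h : ProfD ν W V) {z : ℝ} (hz : 0 ≤ z) : A ν W z ≤ z + 2 * ν * W 0 := by
  have h1 := h.u_anti hz
  simp only [sub_zero] at h1
  have h2 := h.pos
  unfold A
  nlinarith [mul_nonneg h2.le (sub_nonneg.2 h1)]

lemma A_le_neg (h : ProfD ν W V) {z : ℝ} (hz : z ≤ 0) :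
    A ν W z ≤ (1 - 2 * ν) * z + 2 * ν * W 0 := by
  have h1 := h.W_mono hz
  have h2 := h.pos
  unfold A
  nlinarith [mul_nonneg h2.le (sub_nonneg.2 h1)]

/-- lower bound of the integrating factor on the right -/
lemma m_ge (h : ProfD ν W V) {z : ℝ} (hz : 0 ≤ z) : Real.exp (z ^ 2 / 2) ≤ mf (A ν W) z := by
  unfold mf
  apply Real.exp_le_exp.2
  have hmono : Monotone (fun z => (∫ t in (0 : ℝ)..z, A ν W t) - z ^ 2 / 2) := by
    apply monotone_of_hasDerivAt_nonneg (f' := fun z => A ν W z - z)
    · intro w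
      have h1 := hasDerivAt_prim h.contA w
      have h2 : HasDerivAt (fun z : ℝ => z ^ 2 / 2) w w := by
        have := (hasDerivAt_pow 2 w).div_const 2
        exact this.congr_deriv (by simp)
      exact h1.sub h2
    · intro w
      have := h.A_ge w
      simp only [Pi.zero_apply]
      linarith
  have := hmono hz
  simp only [intervalIntegral.integral_same] at this
  norm_num at this
  linarith

/-- lower bound of the integrating factor on the left -/
lemma m_ge_left (h : ProfD ν W V) {z : ℝ} (hz : z ≤ 0) :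
    Real.exp ((1 - 2 * ν) * (z ^ 2 / 2) + 2 * ν * W 0 * z) ≤ mf (A ν W) z := by
  unfold mf
  apply Real.exp_le_exp.2
  set f : ℝ → ℝ := fun z => (∫ t in (0 : ℝ)..z, A ν W t) -
      ((1 - 2 * ν) * (z ^ 2 / 2) + 2 * ν * W 0 * z) with hf
  have hd : ∀ w, HasDerivAt f (A ν W w - ((1 - 2 * ν) * w + 2 * ν * W 0)) w := by
    intro w
    have h1 := hasDerivAt_prim h.contA w
    have h2 : HasDerivAt (fun z : ℝ => z ^ 2 / 2) w w := by
      have := (hasDerivAt_pow 2 w).div_const 2
      exact this.congr_deriv (by simp)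
    have h3 : HasDerivAt (fun z : ℝ => (1 - 2 * ν) * (z ^ 2 / 2) + 2 * ν * W 0 * z)
        ((1 - 2 * ν) * w + 2 * ν * W 0 * 1) w :=
      (h2.const_mul _).add ((hasDerivAt_id w).const_mul _)
    rw [mul_one] at h3
    exact h1.sub h3
  have hanti : AntitoneOn f (Iic 0) := by
    apply antitoneOn_of_deriv_nonpos (convex_Iic 0)
    · exact fun w _ => (hd w).continuousAt.continuousWithinAt
    · exact fun w _ => (hd w).differentiableAt.differentiableWithinAt
    · intro w hw
      rw [interior_Iic] at hw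
      rw [(hd w).deriv]
      have := h.A_le_neg (le_of_lt hw)
      linarith
  have h0 : f 0 = 0 := by simp [hf]
  have := hanti (show z ∈ Iic 0 from hz) (show (0 : ℝ) ∈ Iic 0 by simp) hz
  rw [h0] at this
  simp only [hf] at this
  linarith

/-- Gaussian decay of `R = 1 - V` -/
lemma R_le (h : ProfD ν W V) {z : ℝ} (hz : 0 ≤ z) : 1 - V z ≤ Real.exp (-(z ^ 2 / 2)) := by
  have hmono := mf_mono_of h.contA (f := fun z => V z - 1) (fun z => (h.d1 z).sub_const 1)
    (fun w => by
      have h1 := h.u_nonneg w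
      have h2 := h.lt
      have h3 : W w - A ν W w * V w + A ν W w * (V w - 1) = (1 - 2 * ν) * (W w - w) := by
        unfold A; ring
      rw [h3]
      exact mul_nonneg (by linarith) h1)
  have h1 := hmono hz
  simp only [mf_zero, one_mul] at h1
  have h2 := h.V_nonneg 0
  have h3 : mf (A ν W) z * (1 - V z) ≤ 1 := by nlinarith
  have h4 := h.m_ge hz
  have h5 := h.V_le_one z
  have h6 : Real.exp (z ^ 2 / 2) * (1 - V z) ≤ 1 :=
    (mul_le_mul_of_nonneg_right h4 (by linarith)).trans h3
  rw [Real.exp_neg, ← one_div, le_div_iff₀ (Real.exp_pos _)]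
  linarith

/-- the jet of the drift -/
lemma jet (h : ProfD ν W V) : Jet (A ν W) (fun z => 1 - 2 * ν + 2 * ν * V z)
    (fun z => 2 * ν * (W z - A ν W z * V z))
    (fun z => 2 * ν * (2 * ν * V z * (1 - V z) - A ν W z * (W z - A ν W z * V z))) where
  d0 z := by
    have : HasDerivAt (A ν W) (1 + 2 * ν * (V z - 1)) z := by
      unfold A
      exact (hasDerivAt_id z).add (((h.d0 z).sub (hasDerivAt_id z)).const_mul (2 * ν))
    convert this using 1
    ring
  d1 z := ((h.d1 z).const_mul (2 * ν)).const_add (1 - 2 * ν)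
  d2 z := ((h.hasDerivX z).const_mul (2 * ν)).hasDerivWithinAt

lemma A_surj (h : ProfD ν W V) : Function.Surjective (A ν W) := by
  apply h.contA.surjective
  · exact tendsto_atTop_mono h.A_ge tendsto_id
  · have h1 : Tendsto (fun z : ℝ => (1 - 2 * ν) * z + 2 * ν * W 0) atBot atBot := by
      apply tendsto_atBot_add_const_right
      have := h.lt
      exact tendsto_id.const_mul_atBot (by linarith)
    refine tendsto_atBot_mono' _ ?_ h1
    filter_upwards [eventually_le_atBot 0] with z hz using h.A_le_neg hz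

end ProfD

end Crest.Agent.R146.Prof_109
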