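import Mathlib
import Crest.Agent.R146.Prof_109

/-!
Eigenfunctions of the self-similar problem and their comparison with explicit test functions
(row 146, numerics certificate).
-/

set_option autoImplicit false

namespace Crest.Agent.R146.Trans_109

open Filter Topology Set
open Crest.Agent.R146.Slide_109 Crest.Agent.R146.Prof_109

/-- adjoint eigenfunction (`q'' - (A q)' + lam q = 0`) with named derivative, at most
exponentially growing -/
structure ChargeD (ν lam : ℝ) (W q q1 : ℝ → ℝ) : Prop where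
  pos : ∀ z, 0 < q z
  d0 : ∀ z, HasDerivAt q (q1 z) z
  d1 : ∀ z, HasDerivAt (fun z => q1 z - A ν W z * q z) (-(lam * q z)) z
  growth : ∃ C c : ℝ, ∀ z, q z ≤ C * Real.exp (c * |z|)

section ratio
variable {f f1 f2 g g1 g2 : ℝ → ℝ}

lemma ratio_max_false {f f1 g g1 : ℝ → ℝ} {x f2 g2 : ℝ}
    (hf : ∀ z, HasDerivAt f (f1 z) z) (hf2 : HasDerivWithinAt f1 f2 (Ici x) x)
    (hg : ∀ z, HasDerivAt g (g1 z) z) (hg2 : HasDerivWithinAt g1 g2 (Ici x) x)
    (hgpos : ∀ z, 0 < g z) (hmax : IsLocalMax (fun z => f z / g z) x)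
    (hE : 0 < f2 * g x - f x * g2) : False := by
  have hd : ∀ z, HasDerivAt (fun z => f z / g z) ((f1 z * g z - f z * g1 z) / g z ^ 2) z :=
    fun z => (hf z).div (hg z) (hgpos z).ne'
  have h0 : (f1 x * g x - f x * g1 x) / g x ^ 2 = 0 := hmax.hasDerivAt_eq_zero (hd x)
  have h1 : f1 x * g x - f x * g1 x = 0 := by
    rcases div_eq_zero_iff.1 h0 with h | h
    · exact h
    · exact absurd (pow_eq_zero_iff (two_ne_zero) |>.1 h) (hgpos x).ne'
  have hEd : HasDerivWithinAt (fun z => f1 z * g z - f z * g1 z) (f2 * g x - f x * g2)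
      (Ici x) x := by
    have := (hf2.mul (hg x).hasDerivWithinAt).sub ((hf x).hasDerivWithinAt.mul hg2)
    exact this.congr_deriv (by ring)
  obtain ⟨ε, hε, hpos⟩ := pos_right (E := fun z => f1 z * g z - f z * g1 z) h1 hEd hE
  have hinc := incr_right (ε := ε) hd (fun z hz1 hz2 =>
    div_pos (hpos z hz1 hz2) (pow_pos (hgpos z) 2))
  have hev : ∀ᶠ z in 𝓝[>] x, f z / g z ≤ f x / g x := hmax.filter_mono nhdsWithin_le_nhds
  have hev2 : ∀ᶠ z in 𝓝[>] x, z < x + ε :=
    (eventually_lt_nhds (by linarith : x < x + ε)).filter_mono nhdsWithin_le_nhds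
  obtain ⟨z, ⟨hz1, hz2⟩, hz3⟩ := ((hev.and hev2).and self_mem_nhdsWithin).exists
  have := hinc z hz3 hz2
  linarith

/-- compactly supported strict subsolution against a positive supersolution -/
theorem barta_sub {B f f1 f2 g g1 g2 : ℝ → ℝ} {lam α β : ℝ}
    (hf : ∀ z, HasDerivAt f (f1 z) z) (hf2 : ∀ z, HasDerivWithinAt f1 (f2 z) (Ici z) z)
    (hg : ∀ z, HasDerivAt g (g1 z) z) (hg2 : ∀ z, HasDerivWithinAt g1 (g2 z) (Ici z) z)
    (hgpos : ∀ z, 0 < g z) (hsup : ∀ z, g2 z + B z * g1 z + lam * g z ≤ 0)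
    (hsub : ∀ z, α ≤ z → z < β → 0 < f2 z + B z * f1 z + lam * f z)
    (hα : f α ≤ 0) (hβ : f β ≤ 0) (hex : ∃ z, α ≤ z ∧ z ≤ β ∧ 0 < f z) : False := by
  obtain ⟨w, hw1, hw2, hw3⟩ := hex
  have hcf : Continuous f := continuous_iff_continuousAt.2 fun z => (hf z).continuousAt
  have hcg : Continuous g := continuous_iff_continuousAt.2 fun z => (hg z).continuousAt
  have hc : Continuous (fun z => f z / g z) := hcf.div hcg fun z => (hgpos z).ne'
  obtain ⟨x, hx, hmax⟩ := isCompact_Icc.exists_isMaxOn (⟨w, hw1, hw2⟩ : (Icc α β).Nonempty)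
    hc.continuousOn
  have hgx : 0 < f x / g x := by
    have h1 : f w / g w ≤ f x / g x := hmax ⟨hw1, hw2⟩
    exact lt_of_lt_of_le (div_pos hw3 (hgpos w)) h1
  have hfx : 0 < f x := by
    have := mul_pos hgx (hgpos x)
    rwa [div_mul_cancel₀ _ (hgpos x).ne'] at this
  have hxα : α < x := by
    rcases eq_or_lt_of_le hx.1 with h | h
    · rw [← h] at hfx; linarith
    · exact h
  have hxβ : x < β := by
    rcases eq_or_lt_of_le hx.2 with h | h
    · rw [h] at hfx; linarith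
    · exact h
  have hloc : IsLocalMax (fun z => f z / g z) x :=
    hmax.isLocalMax (Icc_mem_nhds hxα hxβ)
  refine ratio_max_false hf (hf2 x) hg (hg2 x) hgpos hloc ?_
  -- E(x) = 0 at the maximum
  have hd : HasDerivAt (fun z => f z / g z) ((f1 x * g x - f x * g1 x) / g x ^ 2) x :=
    (hf x).div (hg x) (hgpos x).ne'
  have h0 : (f1 x * g x - f x * g1 x) / g x ^ 2 = 0 := hloc.hasDerivAt_eq_zero hd
  have h1 : f1 x * g x - f x * g1 x = 0 := by
    rcases div_eq_zero_iff.1 h0 with h | h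
    · exact h
    · exact absurd (pow_eq_zero_iff (two_ne_zero) |>.1 h) (hgpos x).ne'
  have h2 := hsub x hxα.le hxβ
  have h3 := hsup x
  have h4 := mul_pos h2 (hgpos x)
  have h5 := mul_nonneg hfx.le (neg_nonneg.2 h3)
  nlinarith [congrArg (fun t => B x * t) h1]

/-- positive strict supersolution against a decaying positive subsolution -/
theorem barta_super {B f f1 f2 g g1 g2 : ℝ → ℝ} {lam : ℝ}
    (hf : ∀ z, HasDerivAt f (f1 z) z) (hf2 : ∀ z, HasDerivWithinAt f1 (f2 z) (Ici z) z)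
    (hg : ∀ z, HasDerivAt g (g1 z) z) (hg2 : ∀ z, HasDerivWithinAt g1 (g2 z) (Ici z) z)
    (hfpos : ∀ z, 0 < f z) (hgpos : ∀ z, 0 < g z)
    (hsub : ∀ z, 0 ≤ f2 z + B z * f1 z + lam * f z)
    (hsup : ∀ z, g2 z + B z * g1 z + lam * g z < 0)
    (hlim : Tendsto (fun z => f z / g z) (cocompact ℝ) (𝓝 0)) : False := by
  have hcf : Continuous f := continuous_iff_continuousAt.2 fun z => (hf z).continuousAt
  have hcg : Continuous g := continuous_iff_continuousAt.2 fun z => (hg z).continuousAt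
  have hc : Continuous (fun z => f z / g z) := hcf.div hcg fun z => (hgpos z).ne'
  obtain ⟨x, hx⟩ := hc.exists_forall_ge' (x₀ := (0 : ℝ))
    ((hlim.eventually (gt_mem_nhds (div_pos (hfpos 0) (hgpos 0)))).mono fun w hw => hw.le)
  have hloc : IsLocalMax (fun z => f z / g z) x := Eventually.of_forall hx
  refine ratio_max_false hf (hf2 x) hg (hg2 x) hgpos hloc ?_
  have hd : HasDerivAt (fun z => f z / g z) ((f1 x * g x - f x * g1 x) / g x ^ 2) x :=
    (hf x).div (hg x) (hgpos x).ne'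
  have h0 : (f1 x * g x - f x * g1 x) / g x ^ 2 = 0 := hloc.hasDerivAt_eq_zero hd
  have h1 : f1 x * g x - f x * g1 x = 0 := by
    rcases div_eq_zero_iff.1 h0 with h | h
    · exact h
    · exact absurd (pow_eq_zero_iff (two_ne_zero) |>.1 h) (hgpos x).ne'
  have h2 := hsub x
  have h3 := hsup x
  have h4 := mul_nonneg h2 (hgpos x).le
  have h5 := mul_pos (hfpos x) (neg_pos.2 h3)
  nlinarith [congrArg (fun t => B x * t) h1]

end ratio

section order

/-- if `S` is flatter than `U` at equal heights, then after matching at `z0` the graph of `S` is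
above on the left and below on the right -/
lemma order_super {S0 S1 U0 U1 : ℝ → ℝ} (hS : ∀ z, HasDerivAt S0 (S1 z) z)
    (hU : ∀ z, HasDerivAt U0 (U1 z) z) (hU1 : ∀ z, 0 < U1 z)
    (hUs : Function.Surjective U0)
    (hlt : ∀ z1 z2, U0 z1 = S0 z2 → S1 z2 < U1 z1) (z0 : ℝ) :
    ∃ s, (∀ z, z ≤ z0 → U0 (z + s) ≤ S0 z) ∧ (∀ z, z0 ≤ z → S0 z ≤ U0 (z + s)) := by
  have hm : StrictMono U0 := strictMono_of_hasDerivAt_pos hU hU1
  obtain ⟨G, hG1, hG2, hGm, hGd⟩ := exists_inverse hU hU1 hUs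
  have hTd : ∀ z, HasDerivAt (fun z => G (S0 z) - z) ((U1 (G (S0 z)))⁻¹ * S1 z - 1) z := fun z =>
    ((hGd (S0 z)).comp z (hS z)).sub (hasDerivAt_id z)
  have hanti : Antitone (fun z => G (S0 z) - z) := by
    apply antitone_of_hasDerivAt_nonpos hTd
    intro z
    simp only [Pi.zero_apply, sub_nonpos]
    rw [inv_mul_le_iff₀ (hU1 _), mul_one]
    exact (hlt _ _ (hG1 _)).le
  refine ⟨G (S0 z0) - z0, fun z hz => ?_, fun z hz => ?_⟩
  · have h1 := hanti hz
    simp only at h1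
    have h2 : U0 (z + (G (S0 z0) - z0)) ≤ U0 (G (S0 z)) := hm.monotone (by linarith)
    rwa [hG1] at h2
  · have h1 := hanti hz
    simp only at h1
    have h2 : U0 (G (S0 z)) ≤ U0 (z + (G (S0 z0) - z0)) := hm.monotone (by linarith)
    rwa [hG1] at h2

lemma order_sub {S0 S1 U0 U1 : ℝ → ℝ} (hS : ∀ z, HasDerivAt S0 (S1 z) z)
    (hU : ∀ z, HasDerivAt U0 (U1 z) z) (hS1 : ∀ z, 0 < S1 z)
    (hSs : Function.Surjective S0)
    (hlt : ∀ z1 z2, U0 z1 = S0 z2 → S1 z2 < U1 z1) (z0 : ℝ) :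
    ∃ s, (∀ z, z ≤ z0 → U0 z ≤ S0 (z + s)) ∧ (∀ z, z0 ≤ z → S0 (z + s) ≤ U0 z) := by
  have hm : StrictMono S0 := strictMono_of_hasDerivAt_pos hS hS1
  obtain ⟨G, hG1, hG2, hGm, hGd⟩ := exists_inverse hS hS1 hSs
  have hTd : ∀ z, HasDerivAt (fun z => G (U0 z) - z) ((S1 (G (U0 z)))⁻¹ * U1 z - 1) z := fun z =>
    ((hGd (U0 z)).comp z (hU z)).sub (hasDerivAt_id z)
  have hmono : Monotone (fun z => G (U0 z) - z) := by
    apply monotone_of_hasDerivAt_nonneg hTd
    intro z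
    simp only [Pi.zero_apply, sub_nonneg]
    rw [le_inv_mul_iff₀ (hS1 _), mul_one]
    exact (hlt _ _ (hG1 _).symm).le
  refine ⟨G (U0 z0) - z0, fun z hz => ?_, fun z hz => ?_⟩
  · have h1 := hmono hz
    simp only at h1
    have h2 : S0 (G (U0 z)) ≤ S0 (z + (G (U0 z0) - z0)) := hm.monotone (by linarith)
    rwa [hG1] at h2
  · have h1 := hmono hz
    simp only at h1
    have h2 : S0 (z + (G (U0 z0) - z0)) ≤ S0 (G (U0 z)) := hm.monotone (by linarith)
    rwa [hG1] at h2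

end order

section phi
variable {ν lam : ℝ} {W V q q1 : ℝ → ℝ}

/-- the decaying eigenfunction -/
noncomputable def phi (ν : ℝ) (W q : ℝ → ℝ) (z : ℝ) : ℝ := q z / mf (A ν W) z

noncomputable def phi1 (ν : ℝ) (W q q1 : ℝ → ℝ) (z : ℝ) : ℝ :=
  (q1 z - A ν W z * q z) / mf (A ν W) z

lemma phi_pos (hq : ChargeD ν lam W q q1) (z : ℝ) : 0 < phi ν W q z :=
  div_pos (hq.pos z) (mf_pos z)

lemma phi_d0 (h : ProfD ν W V) (hq : ChargeD ν lam W q q1) (z : ℝ) :
    HasDerivAt (phi ν W q) (phi1 ν W q q1 z) z := by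
  have := (hq.d0 z).div (mf_deriv h.contA z) (mf_pos z).ne'
  refine this.congr_deriv ?_
  unfold phi1
  have := (mf_pos (B := A ν W) z).ne'
  field_simp

lemma phi_d1 (h : ProfD ν W V) (hq : ChargeD ν lam W q q1) (z : ℝ) :
    HasDerivAt (phi1 ν W q q1) (-(lam * phi ν W q z) - A ν W z * phi1 ν W q q1 z) z := by
  have := (hq.d1 z).div (mf_deriv h.contA z) (mf_pos z).ne'
  refine this.congr_deriv ?_
  unfold phi phi1
  have := (mf_pos (B := A ν W) z).ne'
  field_simp

/-- Gaussian bound -/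
lemma phi_le (h : ProfD ν W V) (hq : ChargeD ν lam W q q1) :
    ∃ C c : ℝ, 0 < C ∧ ∀ z, phi ν W q z ≤ C * Real.exp (c * |z| - (1 - 2 * ν) / 2 * z ^ 2) := by
  obtain ⟨C, c, hC⟩ := hq.growth
  have hCpos : 0 < C := by
    have h1 := hC 0
    have h2 := hq.pos 0
    by_contra hcon
    push Not at hcon
    have := mul_nonneg (neg_nonneg.2 hcon) (Real.exp_pos (c * |(0 : ℝ)|)).le
    linarith
  refine ⟨C, c + 2 * ν * W 0, hCpos, fun z => ?_⟩
  have hW0 := h.W_nonneg 0
  have hν := h.pos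
  have hνW : 0 ≤ 2 * ν * W 0 := by positivity
  have hm : Real.exp ((1 - 2 * ν) / 2 * z ^ 2 - 2 * ν * W 0 * |z|) ≤ mf (A ν W) z := by
    rcases le_total 0 z with hz | hz
    · refine le_trans (Real.exp_le_exp.2 ?_) (h.m_ge hz)
      have h1 : 0 ≤ 2 * ν * W 0 * |z| := mul_nonneg hνW (abs_nonneg z)
      have h2 : 0 ≤ ν * z ^ 2 := by positivity
      linarith
    · refine le_trans (Real.exp_le_exp.2 ?_) (h.m_ge_left hz)
      rw [abs_of_nonpos hz]
      linarith
  unfold phi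
  rw [div_le_iff₀ (mf_pos z)]
  refine (hC z).trans ?_
  have h3 : C * Real.exp (c * |z|) = C * Real.exp ((c + 2 * ν * W 0) * |z| -
      (1 - 2 * ν) / 2 * z ^ 2) * Real.exp ((1 - 2 * ν) / 2 * z ^ 2 - 2 * ν * W 0 * |z|) := by
    rw [mul_assoc, ← Real.exp_add]
    congr 2
    ring
  rw [h3]
  exact mul_le_mul_of_nonneg_left hm (mul_nonneg hCpos.le (Real.exp_pos _).le)

lemma gauss_tendsto {b : ℝ} (hb : 0 < b) (C c : ℝ) :
    Tendsto (fun z : ℝ => C * Real.exp (c * |z| - b * z ^ 2)) (cocompact ℝ) (𝓝 0) := by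
  have h1 : Tendsto (fun x : ℝ => x * (c - b * x)) atTop atBot := by
    apply Tendsto.atTop_mul_atBot₀ tendsto_id
    have : Tendsto (fun x : ℝ => b * x) atTop atTop := tendsto_id.const_mul_atTop hb
    have h2 := tendsto_neg_atTop_atBot.comp this
    have h3 := tendsto_atBot_add_const_left _ c h2
    refine h3.congr fun x => ?_
    simp [sub_eq_add_neg]
  have h2 : Tendsto (fun z : ℝ => |z|) (cocompact ℝ) atTop := by
    exact (tendsto_norm_cocompact_atTop (E := ℝ)).congr fun z => Real.norm_eq_abs z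
  have h3 := (Real.tendsto_exp_atBot.comp (h1.comp h2)).const_mul C
  rw [mul_zero] at h3
  refine h3.congr fun z => ?_
  simp only [Function.comp]
  congr 2
  rw [← sq_abs z]
  ring

lemma phi_exp_tendsto (h : ProfD ν W V) (hq : ChargeD ν lam W q q1) (K : ℝ) :
    Tendsto (fun z => phi ν W q z * Real.exp (K * |z|)) (cocompact ℝ) (𝓝 0) := by
  obtain ⟨C, c, hC, hle⟩ := phi_le h hq
  have hb : 0 < (1 - 2 * ν) / 2 := by have := h.lt; linarith
  refine squeeze_zero (fun z => mul_nonneg (phi_pos hq z).le (Real.exp_pos _).le)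
    (fun z => ?_) (gauss_tendsto hb C (c + K))
  have h1 := mul_le_mul_of_nonneg_right (hle z) (Real.exp_pos (K * |z|)).le
  refine h1.trans (le_of_eq ?_)
  rw [mul_assoc, ← Real.exp_add]
  congr 2
  ring

/-- unimodality -/
lemma phi_mode (h : ProfD ν W V) (hq : ChargeD ν lam W q q1) (hlam : 0 < lam) :
    ∃ z0, (∀ z, z ≤ z0 → 0 ≤ phi1 ν W q q1 z) ∧ (∀ z, z0 ≤ z → phi1 ν W q q1 z ≤ 0) := by
  have hc : Continuous (phi ν W q) :=
    continuous_iff_continuousAt.2 fun z => (phi_d0 h hq z).continuousAt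
  have hlim : Tendsto (phi ν W q) (cocompact ℝ) (𝓝 0) := by
    have := phi_exp_tendsto h hq 0
    simpa using this
  obtain ⟨x, hx⟩ := hc.exists_forall_ge' (x₀ := (0 : ℝ))
    ((hlim.eventually (gt_mem_nhds (phi_pos hq 0))).mono fun w hw => hw.le)
  have hloc : IsLocalMax (phi ν W q) x := Eventually.of_forall hx
  have h0 : phi1 ν W q q1 x = 0 := hloc.hasDerivAt_eq_zero (phi_d0 h hq x)
  have hj0 : q1 x - A ν W x * q x = 0 := by
    unfold phi1 at h0
    rcases div_eq_zero_iff.1 h0 with h | h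
    · exact h
    · exact absurd h (mf_pos x).ne'
  have hanti : Antitone (fun z => q1 z - A ν W z * q z) :=
    antitone_of_hasDerivAt_nonpos hq.d1 (fun z => by
      have := mul_pos hlam (hq.pos z)
      simp only [Pi.zero_apply]
      linarith)
  refine ⟨x, fun z hz => ?_, fun z hz => ?_⟩
  · have h1 := hanti hz
    simp only [hj0] at h1
    exact div_nonneg h1 (mf_pos z).le
  · have h1 := hanti hz
    simp only [hj0] at h1
    exact div_nonpos_of_nonpos_of_nonneg h1 (mf_pos z).le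

end phi

end Crest.Agent.R146.Trans_109
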