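import Mathlib
import Crest.Agent.R146.Trans_109

/-!
Closure identity of the self-similar tip problem (row 146): for a profile `W` at exponent `ν` and a
charge `q` with eigenvalue `lam` the closure integral `∫ q (W''² - 2 ν (1-W')² W')` is
`(lam - 2 ν)/2 · ∫ q (1-W') W'`; hence the closure holds iff `lam = 2 ν`, and then `ν` is known to
7 digits.
-/

set_option autoImplicit false

namespace Crest.Agent.R146.T3_109

open Filter Topology Set MeasureTheory Asymptotics
open Crest.Agent.R146.Slide_109 Crest.Agent.R146.Prof_109 Crest.Agent.R146.Trans_109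

/-- decay faster than every exponential -/
def Dec (g : ℝ → ℝ) : Prop := ∀ c : ℝ, g =O[cocompact ℝ] (fun z => Real.exp (-(c * |z|)))

/-- at most exponential growth -/
def Gro (g : ℝ → ℝ) : Prop := ∃ c : ℝ, g =O[cocompact ℝ] (fun z => Real.exp (c * |z|))

lemma Dec.mul_gro {g h : ℝ → ℝ} (hg : Dec g) (hh : Gro h) : Dec (fun z => h z * g z) := by
  intro c
  obtain ⟨c', hc'⟩ := hh
  have := hc'.mul (hg (c + c'))
  refine this.congr_right (fun z => ?_)
  rw [← Real.exp_add]
  congr 1
  ring

lemma Dec.add {g h : ℝ → ℝ} (hg : Dec g) (hh : Dec h) : Dec (fun z => g z + h z) :=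
  fun c => (hg c).add (hh c)

lemma Dec.sub {g h : ℝ → ℝ} (hg : Dec g) (hh : Dec h) : Dec (fun z => g z - h z) :=
  fun c => (hg c).sub (hh c)

lemma Dec.const_mul {g : ℝ → ℝ} (hg : Dec g) (k : ℝ) : Dec (fun z => k * g z) :=
  fun c => (hg c).const_mul_left k

lemma Dec.mono {g h : ℝ → ℝ} (hg : Dec g) (hle : ∀ z, |h z| ≤ |g z|) : Dec h := by
  intro c
  refine IsBigO.trans (IsBigO.of_bound 1 (Eventually.of_forall fun z => ?_)) (hg c)
  rw [one_mul]
  exact hle z

lemma Dec.gro {g : ℝ → ℝ} (hg : Dec g) : Gro g := by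
  refine ⟨0, (hg 0).congr_right (fun z => ?_)⟩
  simp

lemma gro_const (k : ℝ) : Gro (fun _ => k) := by
  refine ⟨0, ?_⟩
  simp only [zero_mul, Real.exp_zero]
  exact isBigO_const_const _ one_ne_zero _

lemma Gro.mul {g h : ℝ → ℝ} (hg : Gro g) (hh : Gro h) : Gro (fun z => g z * h z) := by
  obtain ⟨c, hc⟩ := hg
  obtain ⟨c', hc'⟩ := hh
  refine ⟨c + c', (hc.mul hc').congr_right (fun z => ?_)⟩
  rw [← Real.exp_add]
  congr 1
  ring

lemma gro_of_le {g : ℝ → ℝ} {C c : ℝ} (h : ∀ z, |g z| ≤ C * Real.exp (c * |z|)) : Gro g := by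
  refine ⟨c, IsBigO.of_bound C (Eventually.of_forall fun z => ?_)⟩
  rw [Real.norm_eq_abs, Real.norm_eq_abs, abs_of_pos (Real.exp_pos _)]
  exact h z

lemma gro_id : Gro (fun z => z) := by
  refine gro_of_le (C := 1) (c := 1) (fun z => ?_)
  have := Real.add_one_le_exp |z|
  rw [one_mul, one_mul]
  linarith

lemma exp_neg_abs_integrable : Integrable (fun z : ℝ => Real.exp (-(1 * |z|))) := by
  have h1 : IntegrableOn (fun z : ℝ => Real.exp (-(1 * |z|))) (Ioi 0) := by
    refine (integrableOn_exp_neg_Ioi 0).congr_fun (fun z hz => ?_) measurableSet_Ioi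
    simp only [one_mul, abs_of_pos (mem_Ioi.1 hz)]
  have h2 : IntegrableOn (fun z : ℝ => Real.exp (-(1 * |z|))) (Iic 0) := by
    refine (integrableOn_exp_Iic 0).congr_fun (fun z hz => ?_) measurableSet_Iic
    simp only [one_mul, abs_of_nonpos (mem_Iic.1 hz), neg_neg]
  have := h2.union h1
  rwa [Iic_union_Ioi, integrableOn_univ] at this

lemma Dec.integrable {g : ℝ → ℝ} (hg : Dec g) (hc : Continuous g) : Integrable g :=
  hc.locallyIntegrable.integrable_of_isBigO_cocompact (hg 1)
    (exp_neg_abs_integrable.integrableAtFilter _)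

lemma Dec.tendsto {g : ℝ → ℝ} (hg : Dec g) : Tendsto g (cocompact ℝ) (𝓝 0) := by
  refine (hg 1).trans_tendsto ?_
  have h1 : Tendsto (fun z : ℝ => 1 * |z|) (cocompact ℝ) atTop := by
    simp only [one_mul]
    exact tendsto_norm_cocompact_atTop (E := ℝ)
  exact Real.tendsto_exp_atBot.comp (tendsto_neg_atTop_atBot.comp h1)

lemma Dec.top {g : ℝ → ℝ} (hg : Dec g) : Tendsto g atTop (𝓝 0) :=
  hg.tendsto.mono_left (by rw [cocompact_eq_atBot_atTop]; exact le_sup_right)

lemma Dec.bot {g : ℝ → ℝ} (hg : Dec g) : Tendsto g atBot (𝓝 0) :=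
  hg.tendsto.mono_left (by rw [cocompact_eq_atBot_atTop]; exact le_sup_left)

lemma dec_of_halves {g : ℝ → ℝ} (hb : ∀ c : ℝ, g =O[atBot] (fun z => Real.exp (-(c * |z|))))
    (ht : ∀ c : ℝ, g =O[atTop] (fun z => Real.exp (-(c * |z|)))) : Dec g := by
  intro c
  rw [cocompact_eq_atBot_atTop, isBigO_sup]
  exact ⟨hb c, ht c⟩

/-- Gaussian beats exponentials, right half line -/
lemma gauss_top {a : ℝ} (ha : 0 < a) (b c : ℝ) :
    (fun z : ℝ => Real.exp (-(a * z ^ 2 + b * z))) =O[atTop] (fun z => Real.exp (-(c * |z|))) := by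
  refine IsBigO.of_bound 1 ?_
  filter_upwards [eventually_ge_atTop (max 0 ((c - b) / a))] with z hz
  have h0 : 0 ≤ z := le_trans (le_max_left _ _) hz
  have h1 : (c - b) / a ≤ z := le_trans (le_max_right _ _) hz
  rw [one_mul, Real.norm_eq_abs, Real.norm_eq_abs, abs_of_pos (Real.exp_pos _),
    abs_of_pos (Real.exp_pos _), abs_of_nonneg h0]
  apply Real.exp_le_exp.2
  rw [div_le_iff₀ ha] at h1
  nlinarith

/-- Gaussian beats exponentials, left half line -/
lemma gauss_bot {a : ℝ} (ha : 0 < a) (b c : ℝ) :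
    (fun z : ℝ => Real.exp (-(a * z ^ 2 + b * z))) =O[atBot] (fun z => Real.exp (-(c * |z|))) := by
  refine IsBigO.of_bound 1 ?_
  filter_upwards [eventually_le_atBot (min 0 (-((c + b) / a)))] with z hz
  have h0 : z ≤ 0 := le_trans hz (min_le_left _ _)
  have h1 : z ≤ -((c + b) / a) := le_trans hz (min_le_right _ _)
  rw [one_mul, Real.norm_eq_abs, Real.norm_eq_abs, abs_of_pos (Real.exp_pos _),
    abs_of_pos (Real.exp_pos _), abs_of_nonpos h0]
  apply Real.exp_le_exp.2
  have h2 : (c + b) / a ≤ -z := by linarith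
  rw [div_le_iff₀ ha] at h2
  nlinarith

section prof
variable {ν : ℝ} {W V : ℝ → ℝ}

lemma U_le (h : ProfD ν W V) {z : ℝ} (hz : 1 ≤ z) : W z - z ≤ Real.exp (-(z ^ 2 / 2)) := by
  have hg : ∀ w : ℝ, HasDerivAt (fun w : ℝ => Real.exp (-(w ^ 2 / 2)))
      (Real.exp (-(w ^ 2 / 2)) * (-w)) w := by
    intro w
    have h2 : HasDerivAt (fun z : ℝ => z ^ 2 / 2) w w := by
      have := (hasDerivAt_pow 2 w).div_const 2
      exact this.congr_deriv (by simp)
    exact h2.neg.exp
  have hmono : MonotoneOn (fun w => W w - w - Real.exp (-(w ^ 2 / 2))) (Ici 1) := by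
    have hd : ∀ w, HasDerivAt (fun w => W w - w - Real.exp (-(w ^ 2 / 2)))
        (V w - 1 - Real.exp (-(w ^ 2 / 2)) * (-w)) w :=
      fun w => ((h.d0 w).sub (hasDerivAt_id w)).sub (hg w)
    apply monotoneOn_of_deriv_nonneg (convex_Ici 1)
    · exact fun w _ => (hd w).continuousAt.continuousWithinAt
    · exact fun w _ => (hd w).differentiableAt.differentiableWithinAt
    · intro w hw
      rw [interior_Ici] at hw
      rw [(hd w).deriv]
      have hw1 : 1 < w := hw
      have h1 := h.R_le (z := w) (by linarith)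
      have h2 := Real.exp_pos (-(w ^ 2 / 2))
      nlinarith
  have hlim : Tendsto (fun w => W w - w - Real.exp (-(w ^ 2 / 2))) atTop (𝓝 0) := by
    have h1 : Tendsto (fun w : ℝ => Real.exp (-(w ^ 2 / 2))) atTop (𝓝 0) := by
      have h2 : Tendsto (fun w : ℝ => w ^ 2 / 2) atTop atTop :=
        (tendsto_pow_atTop (two_ne_zero)).atTop_div_const (by norm_num)
      exact Real.tendsto_exp_atBot.comp (tendsto_neg_atTop_atBot.comp h2)
    simpa using h.right.sub h1
  have := ge_of_tendsto hlim (eventually_atTop.2 ⟨z, fun w hw =>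
    hmono (mem_Ici.2 hz) (mem_Ici.2 (hz.trans hw)) hw⟩)
  linarith

/-- Gaussian decay of `V = W'` on the left -/
lemma V_le (h : ProfD ν W V) {z : ℝ} (hz : z ≤ 0) :
    V z ≤ Real.exp (-((1 - 2 * ν) * (z ^ 2 / 2) + 2 * ν * W 0 * z)) := by
  have hmono := mf_mono_of h.contA h.d1 (fun w => by
    have := h.W_nonneg w
    linarith)
  have h1 := hmono hz
  simp only [mf_zero, one_mul] at h1
  have h2 := h.V_le_one 0
  have h3 := h.m_ge_left hz
  have h4 := h.V_nonneg z
  have h5 : Real.exp ((1 - 2 * ν) * (z ^ 2 / 2) + 2 * ν * W 0 * z) * V z ≤ 1 :=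
    (mul_le_mul_of_nonneg_right h3 h4).trans (h1.trans h2)
  rw [Real.exp_neg, ← one_div, le_div_iff₀ (Real.exp_pos _)]
  linarith

lemma W_le (h : ProfD ν W V) {z : ℝ} (hz0 : z ≤ 0) (hz : 1 ≤ -((1 - 2 * ν) * z + 2 * ν * W 0)) :
    W z ≤ Real.exp (-((1 - 2 * ν) * (z ^ 2 / 2) + 2 * ν * W 0 * z)) := by
  have hν := h.lt
  have hg : ∀ w : ℝ, HasDerivAt
      (fun w : ℝ => Real.exp (-((1 - 2 * ν) * (w ^ 2 / 2) + 2 * ν * W 0 * w)))
      (Real.exp (-((1 - 2 * ν) * (w ^ 2 / 2) + 2 * ν * W 0 * w)) *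
        (-((1 - 2 * ν) * w + 2 * ν * W 0))) w := by
    intro w
    have h2 : HasDerivAt (fun z : ℝ => z ^ 2 / 2) w w := by
      have := (hasDerivAt_pow 2 w).div_const 2
      exact this.congr_deriv (by simp)
    have h3 : HasDerivAt (fun z : ℝ => (1 - 2 * ν) * (z ^ 2 / 2) + 2 * ν * W 0 * z)
        ((1 - 2 * ν) * w + 2 * ν * W 0 * 1) w :=
      (h2.const_mul _).add ((hasDerivAt_id w).const_mul _)
    rw [mul_one] at h3
    exact h3.neg.exp
  have hmono : MonotoneOn (fun w =>
      Real.exp (-((1 - 2 * ν) * (w ^ 2 / 2) + 2 * ν * W 0 * w)) - W w) (Iic z) := by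
    have hd : ∀ w, HasDerivAt (fun w =>
        Real.exp (-((1 - 2 * ν) * (w ^ 2 / 2) + 2 * ν * W 0 * w)) - W w)
        (Real.exp (-((1 - 2 * ν) * (w ^ 2 / 2) + 2 * ν * W 0 * w)) *
        (-((1 - 2 * ν) * w + 2 * ν * W 0)) - V w) w :=
      fun w => (hg w).sub (h.d0 w)
    apply monotoneOn_of_deriv_nonneg (convex_Iic z)
    · exact fun w _ => (hd w).continuousAt.continuousWithinAt
    · exact fun w _ => (hd w).differentiableAt.differentiableWithinAt
    · intro w hw
      rw [interior_Iic] at hw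
      rw [(hd w).deriv]
      have hw1 : w < z := hw
      have h1 := V_le h (z := w) (by linarith)
      have h2 := Real.exp_pos (-((1 - 2 * ν) * (w ^ 2 / 2) + 2 * ν * W 0 * w))
      have h3 : 1 ≤ -((1 - 2 * ν) * w + 2 * ν * W 0) := by nlinarith
      nlinarith
  have hlim : Tendsto (fun w => - W w) atBot (𝓝 0) := by simpa using h.left.neg
  have := le_of_tendsto hlim (eventually_atBot.2 ⟨z, fun w hw => by
    have h1 := hmono (mem_Iic.2 hw) (mem_Iic.2 le_rfl) hw
    have h2 := Real.exp_pos (-((1 - 2 * ν) * (w ^ 2 / 2) + 2 * ν * W 0 * w))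
    have h3 : - W w ≤ Real.exp (-((1 - 2 * ν) * (w ^ 2 / 2) + 2 * ν * W 0 * w)) - W w := by
      linarith
    exact h3.trans h1⟩)
  linarith

lemma dec_U (h : ProfD ν W V) : (fun z => W z - z) =O[atTop] (fun z => Real.exp (-(z ^ 2 / 2))) := by
  refine IsBigO.of_bound 1 ?_
  filter_upwards [eventually_ge_atTop 1] with z hz
  rw [one_mul, Real.norm_eq_abs, Real.norm_eq_abs, abs_of_pos (Real.exp_pos _),
    abs_of_nonneg (h.u_nonneg z)]
  exact U_le h hz

lemma gauss_top' (c : ℝ) :
    (fun z : ℝ => Real.exp (-(z ^ 2 / 2))) =O[atTop] (fun z => Real.exp (-(c * |z|))) := by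
  refine (gauss_top (a := 1 / 2) (by norm_num) 0 c).congr_left (fun z => ?_)
  congr 1
  ring

lemma gauss_bot' (h : ProfD ν W V) (c : ℝ) :
    (fun z : ℝ => Real.exp (-((1 - 2 * ν) * (z ^ 2 / 2) + 2 * ν * W 0 * z))) =O[atBot]
      (fun z => Real.exp (-(c * |z|))) := by
  have := h.lt
  refine (gauss_bot (a := (1 - 2 * ν) / 2) (by linarith) (2 * ν * W 0) c).congr_left (fun z => ?_)
  congr 1
  ring

lemma R_top (h : ProfD ν W V) (c : ℝ) :
    (fun z => 1 - V z) =O[atTop] (fun z => Real.exp (-(c * |z|))) := by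
  refine IsBigO.trans (IsBigO.of_bound 1 ?_) (gauss_top' c)
  filter_upwards [eventually_ge_atTop 0] with z hz
  have h1 := h.V_le_one z
  rw [one_mul, Real.norm_eq_abs, Real.norm_eq_abs, abs_of_pos (Real.exp_pos _),
    abs_of_nonneg (by linarith)]
  exact h.R_le hz

lemma V_bot (h : ProfD ν W V) (c : ℝ) :
    V =O[atBot] (fun z => Real.exp (-(c * |z|))) := by
  refine IsBigO.trans (IsBigO.of_bound 1 ?_) (gauss_bot' h c)
  filter_upwards [eventually_le_atBot 0] with z hz
  rw [one_mul, Real.norm_eq_abs, Real.norm_eq_abs, abs_of_pos (Real.exp_pos _),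
    abs_of_nonneg (h.V_nonneg z)]
  exact V_le h hz

lemma W_bot (h : ProfD ν W V) (c : ℝ) :
    W =O[atBot] (fun z => Real.exp (-(c * |z|))) := by
  have hν := h.lt
  refine IsBigO.trans (IsBigO.of_bound 1 ?_) (gauss_bot' h c)
  filter_upwards [eventually_le_atBot 0,
    eventually_le_atBot (-((1 + 2 * ν * W 0) / (1 - 2 * ν)))] with z hz hz2
  rw [one_mul, Real.norm_eq_abs, Real.norm_eq_abs, abs_of_pos (Real.exp_pos _),
    abs_of_nonneg (h.W_nonneg z)]
  refine W_le h hz ?_
  have h2 : (1 + 2 * ν * W 0) / (1 - 2 * ν) ≤ -z := by linarith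
  rw [div_le_iff₀ (by linarith)] at h2
  linarith

lemma id_top : (fun z : ℝ => z) =O[atTop] (fun z => Real.exp (1 * |z|)) := by
  refine IsBigO.of_bound 1 (Eventually.of_forall fun z => ?_)
  have := Real.add_one_le_exp |z|
  rw [one_mul, one_mul, Real.norm_eq_abs, Real.norm_eq_abs, abs_of_pos (Real.exp_pos _)]
  linarith

/-- the second derivative `X = W''` decays -/
lemma dec_X (h : ProfD ν W V) : Dec (fun z => W z - A ν W z * V z) := by
  apply dec_of_halves
  · intro c
    have h1 : (fun z => A ν W z) =O[atBot] (fun z => Real.exp (1 * |z|)) := by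
      have e1 : (fun z : ℝ => (1 - 2 * ν) * z) =O[atBot] (fun z => Real.exp (1 * |z|)) := by
        apply IsBigO.const_mul_left
        refine IsBigO.of_bound 1 (Eventually.of_forall fun z => ?_)
        have := Real.add_one_le_exp |z|
        rw [one_mul, one_mul, Real.norm_eq_abs, Real.norm_eq_abs, abs_of_pos (Real.exp_pos _)]
        linarith
      have e2 : (fun z : ℝ => 2 * ν * W z) =O[atBot] (fun z => Real.exp (1 * |z|)) := by
        apply IsBigO.const_mul_left
        exact (W_bot h (-1)).congr_right (fun z => by ring_nf)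
      refine (e1.add e2).congr_left (fun z => ?_)
      unfold A; ring
    have h2 := h1.mul (V_bot h (c + 1))
    refine (W_bot h c).sub (h2.congr_right (fun z => ?_))
    rw [← Real.exp_add]; congr 1; ring
  · intro c
    have e0 : (fun z => W z - z) =O[atTop] (fun z => Real.exp (-(c * |z|))) :=
      (dec_U h).trans (gauss_top' c)
    have e1 : (fun z => (1 : ℝ) - 2 * ν * V z) =O[atTop] (fun _ => (1 : ℝ)) := by
      refine IsBigO.of_bound 1 (Eventually.of_forall fun z => ?_)
      have a1 := h.V_nonneg z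
      have a2 := h.V_le_one z
      have a3 := h.pos
      have a4 := h.lt
      have a5 : 0 ≤ 2 * ν * V z := by positivity
      have a6 : 2 * ν * V z ≤ 1 := by nlinarith
      rw [one_mul, Real.norm_eq_abs, norm_one, abs_le]
      constructor <;> linarith
    have e2 := id_top.mul (R_top h (c + 1))
    have e3 := (e0.mul e1).add (e2.congr_right (g₂ := fun z => Real.exp (-(c * |z|)) * 1)
      (fun z => by rw [← Real.exp_add, mul_one]; congr 1; ring))
    refine (e3.congr_left (f₂ := fun z => W z - A ν W z * V z) (fun z => ?_)).congr_right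
      (fun z => mul_one _)
    unfold A; ring

/-- `R V` decays -/
lemma dec_RV (h : ProfD ν W V) : Dec (fun z => (1 - V z) * V z) := by
  apply dec_of_halves
  · intro c
    refine IsBigO.trans (IsBigO.of_bound 1 (Eventually.of_forall fun z => ?_)) (V_bot h c)
    have a1 := h.V_nonneg z
    have a2 := h.V_le_one z
    rw [one_mul, norm_mul, Real.norm_eq_abs, Real.norm_eq_abs, abs_of_nonneg a1,
      abs_of_nonneg (by linarith : (0 : ℝ) ≤ 1 - V z)]
    nlinarith
  · intro c
    refine IsBigO.trans (IsBigO.of_bound 1 (Eventually.of_forall fun z => ?_)) (R_top h c)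
    have a1 := h.V_nonneg z
    have a2 := h.V_le_one z
    rw [one_mul, norm_mul, Real.norm_eq_abs, Real.norm_eq_abs, abs_of_nonneg a1,
      abs_of_nonneg (by linarith : (0 : ℝ) ≤ 1 - V z)]
    nlinarith

end prof

section charge
variable {ν lam : ℝ} {W V q q1 : ℝ → ℝ}

lemma gro_q (hq : ChargeD ν lam W q q1) : Gro q := by
  obtain ⟨C, c, h⟩ := hq.growth
  exact gro_of_le (C := C) (c := c) (fun z => by rw [abs_of_pos (hq.pos z)]; exact h z)

lemma cont_q (hq : ChargeD ν lam W q q1) : Continuous q :=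
  continuous_iff_continuousAt.2 fun z => (hq.d0 z).continuousAt

/-- the flux grows at most exponentially -/
lemma gro_J (hq : ChargeD ν lam W q q1) : Gro (fun z => q1 z - A ν W z * q z) := by
  obtain ⟨C, c, h⟩ := hq.growth
  set J : ℝ → ℝ := fun z => q1 z - A ν W z * q z with hJ
  have hC : 0 ≤ C := by
    have h1 := h 0
    have h2 := hq.pos 0
    simp only [abs_zero, mul_zero, Real.exp_zero, mul_one] at h1
    linarith
  refine gro_of_le (C := |J 0| + |lam| * C) (c := |c| + 1) (fun z => ?_)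
  have h1 : ∀ w ∈ uIcc 0 z, ‖-(lam * q w)‖ ≤ |lam| * C * Real.exp (|c| * |z|) := by
    intro w hw
    have hwz : |w| ≤ |z| := by
      rcases le_total 0 z with hz | hz
      · rw [uIcc_of_le hz] at hw
        rw [abs_of_nonneg hw.1, abs_of_nonneg hz]; exact hw.2
      · rw [uIcc_of_ge hz] at hw
        rw [abs_of_nonpos hw.2, abs_of_nonpos hz]; linarith [hw.1]
    rw [norm_neg, norm_mul, Real.norm_eq_abs, Real.norm_eq_abs, abs_of_pos (hq.pos w), mul_assoc]
    apply mul_le_mul_of_nonneg_left _ (abs_nonneg _)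
    refine (h w).trans (mul_le_mul_of_nonneg_left (Real.exp_le_exp.2 ?_) hC)
    calc c * |w| ≤ |c| * |w| := mul_le_mul_of_nonneg_right (le_abs_self c) (abs_nonneg _)
      _ ≤ |c| * |z| := mul_le_mul_of_nonneg_left hwz (abs_nonneg _)
  have h2 := (convex_uIcc 0 z).norm_image_sub_le_of_norm_hasDerivWithin_le
    (f := J) (f' := fun w => -(lam * q w)) (fun w _ => (hq.d1 w).hasDerivWithinAt) h1
    left_mem_uIcc right_mem_uIcc
  rw [Real.norm_eq_abs, Real.norm_eq_abs, sub_zero] at h2
  have h3 : |J z| ≤ |J 0| + |lam| * C * Real.exp (|c| * |z|) * |z| := by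
    have := abs_sub_abs_le_abs_sub (J z) (J 0)
    linarith
  have h4 : Real.exp (|c| * |z|) * |z| ≤ Real.exp ((|c| + 1) * |z|) := by
    have h5 : |z| ≤ Real.exp |z| := by
      have := Real.add_one_le_exp |z|
      linarith
    calc Real.exp (|c| * |z|) * |z| ≤ Real.exp (|c| * |z|) * Real.exp |z| :=
          mul_le_mul_of_nonneg_left h5 (Real.exp_pos _).le
      _ = Real.exp ((|c| + 1) * |z|) := by rw [← Real.exp_add]; congr 1; ring
  have h6 : 1 ≤ Real.exp ((|c| + 1) * |z|) := by
    rw [← Real.exp_zero]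
    apply Real.exp_le_exp.2
    positivity
  have h7 : 0 ≤ |lam| * C := mul_nonneg (abs_nonneg _) hC
  have h8 := mul_le_mul_of_nonneg_left h4 h7
  have h9 := mul_le_mul_of_nonneg_left h6 (abs_nonneg (J 0))
  rw [add_mul]
  calc |J z| ≤ |J 0| + |lam| * C * Real.exp (|c| * |z|) * |z| := h3
    _ = |J 0| * 1 + |lam| * C * (Real.exp (|c| * |z|) * |z|) := by ring
    _ ≤ _ := add_le_add h9 h8

lemma int3 {f g k : ℝ → ℝ} (hf : Integrable f) (hg : Integrable g) (hk : Integrable k)
    (a b c : ℝ) : ∫ z, (a * f z + b * g z - c * k z) = a * (∫ z, f z) + b * (∫ z, g z) -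
      c * ∫ z, k z := by
  have h1 : Integrable (fun z => a * f z + b * g z) := (hf.const_mul a).add (hg.const_mul b)
  rw [integral_sub h1 (hk.const_mul c), integral_add (hf.const_mul a) (hg.const_mul b),
    integral_const_mul, integral_const_mul, integral_const_mul]

/-- integration by parts against the charge -/
theorem ibp (hq : ChargeD ν lam W q q1) {f f1 f2 : ℝ → ℝ}
    (hf : ∀ z, HasDerivAt f (f1 z) z) (hf1 : ∀ z, HasDerivAt f1 (f2 z) z)
    (hd : Dec f) (hd1 : Dec f1)
    (hint : Integrable (fun z => q z * (f2 z + A ν W z * f1 z + lam * f z))) :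
    ∫ z, q z * (f2 z + A ν W z * f1 z + lam * f z) = 0 := by
  have hG : ∀ z, HasDerivAt (fun z => q z * f1 z - (q1 z - A ν W z * q z) * f z)
      (q z * (f2 z + A ν W z * f1 z + lam * f z)) z := by
    intro z
    refine (((hq.d0 z).mul (hf1 z)).sub ((hq.d1 z).mul (hf z))).congr_deriv ?_
    ring
  have hdec : Dec (fun z => q z * f1 z - (q1 z - A ν W z * q z) * f z) :=
    (hd1.mul_gro (gro_q hq)).sub (hd.mul_gro (gro_J hq))
  have := integral_of_hasDerivAt_of_tendsto hG hint hdec.bot hdec.top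
  simpa using this

theorem closure_id (h : ProfD ν W V) (hq : ChargeD ν lam W q q1) :
    Integrable (fun z => q z * (W z - A ν W z * V z) ^ 2) ∧
    Integrable (fun z => q z * ((1 - V z) ^ 2 * V z)) ∧
    Integrable (fun z => q z * ((1 - V z) * V z)) ∧
    (0 < ∫ z, q z * ((1 - V z) * V z)) ∧
    (∫ z, q z * (W z - A ν W z * V z) ^ 2) - 2 * ν * ∫ z, q z * ((1 - V z) ^ 2 * V z) =
      (lam - 2 * ν) / 2 * ∫ z, q z * ((1 - V z) * V z) := by
  have hcW := h.contW
  have hcV := h.contV
  have hcA := h.contA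
  have hcq := cont_q hq
  have dX := dec_X h
  have dRV := dec_RV h
  have i1 : Integrable (fun z => q z * (W z - A ν W z * V z) ^ 2) := by
    refine (((dX.mul_gro dX.gro).mul_gro (gro_q hq)).integrable ?_).congr ?_
    · fun_prop
    · exact Eventually.of_forall fun z => by simp only; ring
  have gR : Gro (fun z => 1 - V z) := by
    refine gro_of_le (C := 1) (c := 0) (fun z => ?_)
    have a1 := h.V_nonneg z
    have a2 := h.V_le_one z
    simp only [zero_mul, Real.exp_zero, mul_one]
    rw [abs_le]; constructor <;> linarith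
  have i2 : Integrable (fun z => q z * ((1 - V z) ^ 2 * V z)) := by
    refine (((dRV.mul_gro gR).mul_gro (gro_q hq)).integrable ?_).congr ?_
    · fun_prop
    · exact Eventually.of_forall fun z => by simp only; ring
  have i3 : Integrable (fun z => q z * ((1 - V z) * V z)) :=
    (dRV.mul_gro (gro_q hq)).integrable (by fun_prop)
  have hpos : 0 < ∫ z, q z * ((1 - V z) * V z) := by
    rw [integral_pos_iff_support_of_nonneg]
    · have hV0 : ∃ z0, 0 < V z0 := by
        by_contra hcon
        push Not at hcon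
        have h1 : ∀ z, V z = 0 := fun z => le_antisymm (hcon z) (h.V_nonneg z)
        have h2 : ∀ z, W z = W 0 := by
          intro z
          have : ∀ w, HasDerivAt W 0 w := fun w => by have := h.d0 w; rwa [h1] at this
          exact is_const_of_deriv_eq_zero (fun w => (this w).differentiableAt)
            (fun w => (this w).deriv) z 0
        have h3 := h.tendsto_top
        rw [show W = fun _ => W 0 from funext h2] at h3
        exact not_tendsto_const_atTop _ _ h3
      obtain ⟨z0, hz0⟩ := hV0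
      have : Ioi z0 ⊆ Function.support (fun z => q z * ((1 - V z) * V z)) := by
        intro z hz
        have a1 : 0 < V z := lt_of_lt_of_le hz0 (h.V_mono (le_of_lt hz))
        have a2 := h.V_lt_one z
        have : 0 < q z * ((1 - V z) * V z) :=
          mul_pos (hq.pos z) (mul_pos (by linarith) a1)
        exact this.ne'
      refine lt_of_lt_of_le ?_ (measure_mono this)
      simp
    · intro z
      have a1 := h.V_nonneg z
      have a2 := h.V_le_one z
      exact mul_nonneg (hq.pos z).le (mul_nonneg (by linarith) a1)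
    · exact i3
  refine ⟨i1, i2, i3, hpos, ?_⟩
  -- test function `f = (1 - V) V`
  set X : ℝ → ℝ := fun z => W z - A ν W z * V z with hX
  have hV : ∀ z, HasDerivAt V (X z) z := h.d1
  have hXd : ∀ z, HasDerivAt X (2 * ν * V z * (1 - V z) - A ν W z * X z) z := h.hasDerivX
  have hf : ∀ z, HasDerivAt (fun z => (1 - V z) * V z) (X z * (1 - 2 * V z)) z := by
    intro z
    refine (((hV z).const_sub 1).mul (hV z)).congr_deriv ?_
    ring
  have hf1 : ∀ z, HasDerivAt (fun z => X z * (1 - 2 * V z))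
      ((2 * ν * V z * (1 - V z) - A ν W z * X z) * (1 - 2 * V z) - 2 * X z ^ 2) z := by
    intro z
    refine ((hXd z).mul (((hV z).const_mul 2).const_sub 1)).congr_deriv ?_
    ring
  have dX' : Dec (fun z => X z * (1 - 2 * V z)) := by
    refine dX.mono (fun z => ?_)
    have a1 := h.V_nonneg z
    have a2 := h.V_le_one z
    rw [abs_mul]
    have : |1 - 2 * V z| ≤ 1 := by rw [abs_le]; constructor <;> linarith
    calc |X z| * |1 - 2 * V z| ≤ |X z| * 1 := mul_le_mul_of_nonneg_left this (abs_nonneg _)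
      _ = |X z| := mul_one _
  have key : ∀ z, q z * ((2 * ν * V z * (1 - V z) - A ν W z * X z) * (1 - 2 * V z)
      - 2 * X z ^ 2 + A ν W z * (X z * (1 - 2 * V z)) + lam * ((1 - V z) * V z)) =
      (lam - 2 * ν) * (q z * ((1 - V z) * V z)) +
        4 * ν * (q z * ((1 - V z) ^ 2 * V z)) - 2 * (q z * X z ^ 2) := by
    intro z
    ring
  have hI : Integrable (fun z => (lam - 2 * ν) * (q z * ((1 - V z) * V z)) +
        4 * ν * (q z * ((1 - V z) ^ 2 * V z)) - 2 * (q z * X z ^ 2)) :=
    ((i3.const_mul _).add (i2.const_mul _)).sub (i1.const_mul _)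
  have h0 := ibp hq hf hf1 dRV dX' (hI.congr (Eventually.of_forall fun z => (key z).symm))
  simp only [key] at h0
  have h3 := int3 i3 i2 i1 (lam - 2 * ν) (4 * ν) 2
  simp only [hX] at h0
  rw [h3] at h0
  linarith

/-- **T3.** closure holds iff `lam = 2 ν` -/
theorem closure_iff (h : ProfD ν W V) (hq : ChargeD ν lam W q q1) :
    (∫ z, q z * (W z - A ν W z * V z) ^ 2) = 2 * ν * ∫ z, q z * ((1 - V z) ^ 2 * V z) ↔
      lam = 2 * ν := by
  obtain ⟨_, _, _, hpos, hid⟩ := closure_id h hq
  constructor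
  · intro he
    rw [he, sub_self] at hid
    have := (mul_eq_zero.1 hid.symm).resolve_right hpos.ne'
    linarith
  · intro he
    rw [he, sub_self, zero_div, zero_mul] at hid
    linarith

end charge

end Crest.Agent.R146.T3_109
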