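import Mathlib
import Crest.Agent.R146.T3_109
import Crest.Agent.R146.Cert_109

/-!
Closure of the self-similar tip problem (row 146) in integral form: for a stationary pair `(W, q)`
(any eigenvalue `lam`) the closure `∫ q W''² = 2 ν ∫ q (1 - W')² W'` holds iff `lam = 2 ν`, and then
`0.2936533 < ν < 0.2936535`.
-/

set_option autoImplicit false

namespace Crest.Agent.R146.Clo_109

open Filter Topology Set MeasureTheory
open Crest.Agent.R146.Prof_109 Crest.Agent.R146.Trans_109
open Crest.Agent.R146.Cert_109 Crest.Agent.R146.T3_109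

variable {ν lam : ℝ} {W q : ℝ → ℝ}

lemma X_eq (hW : Profile ν W) (z : ℝ) : deriv (deriv W) z = W z - A ν W z * deriv W z := by
  have := hW.ode z
  unfold A
  linarith

/-- closure identity in the language of `Cert_109` -/
theorem closure_id (h0 : 0 < ν) (h1 : ν < 1 / 2) (hW : Profile ν W) (hq : Charge ν lam W q) :
    Integrable (fun z => q z * (deriv (deriv W) z) ^ 2) ∧
    Integrable (fun z => q z * ((1 - deriv W z) ^ 2 * deriv W z)) ∧
    Integrable (fun z => q z * ((1 - deriv W z) * deriv W z)) ∧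
    (0 < ∫ z, q z * ((1 - deriv W z) * deriv W z)) ∧
    (∫ z, q z * (deriv (deriv W) z) ^ 2) - 2 * ν * ∫ z, q z * ((1 - deriv W z) ^ 2 * deriv W z) =
      (lam - 2 * ν) / 2 * ∫ z, q z * ((1 - deriv W z) * deriv W z) := by
  have := T3_109.closure_id (hW.toD h0 h1) (hq.toD hW)
  simp only [← X_eq hW] at this
  exact this

/-- **T3.** closure holds iff `lam = 2 ν` -/
theorem closure_iff (h0 : 0 < ν) (h1 : ν < 1 / 2) (hW : Profile ν W) (hq : Charge ν lam W q) :
    (∫ z, q z * (deriv (deriv W) z) ^ 2) =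
      2 * ν * (∫ z, q z * ((1 - deriv W z) ^ 2 * deriv W z)) ↔ lam = 2 * ν := by
  have := T3_109.closure_iff (hW.toD h0 h1) (hq.toD hW)
  simp only [← X_eq hW] at this
  exact this

/-- the closure determines `ν` to 7 digits -/
theorem enclosure_of_closure (h0 : 0 < ν) (h1 : ν < 1 / 2) (hW : Profile ν W)
    (hq : Charge ν lam W q) (hc : (∫ z, q z * (deriv (deriv W) z) ^ 2) =
      2 * ν * ∫ z, q z * ((1 - deriv W z) ^ 2 * deriv W z)) :
    0.2936533 < ν ∧ ν < 0.2936535 := by
  have h2 := (closure_iff h0 h1 hW hq).1 hc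
  subst h2
  exact enclosure h0 h1 hW hq

end Crest.Agent.R146.Clo_109
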