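import Crest.Agent.R146.StepDef_791
import Mathlib.MeasureTheory.Integral.DivergenceTheorem
import Mathlib.MeasureTheory.Integral.IntegralEqImproper
import Mathlib.MeasureTheory.Function.SpecialFunctions.Basic

/-!
Row 146, S0205, PT-CMP (helper42): INTEGRATION BY PARTS and the CLOSURE INEQUALITY at one fixed time.

* `Lw V P p Y`   : profile `V`, `P = V'`, density `p`, `Y = -(log p)'` at one time; `lw_of` from
                   `Back`, `Law`;
* `ibp`          : `∫ p g' = ∫ p Y g` (countably many kinks, polynomial growth);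
* `ibpV`         : the case `g = G ∘ V`;
* `clo_le`, `le_clo` : from the pointwise inequality
  `(sP)² - s g' + sY g ≤ 2h V(1-V)² + E` (resp. `≥ 2h V(1-V)² - E`) a.e. to
  `s² ∫ p P² ≤ 2h ∫ p V(1-V)² + ∫ p E` (resp. `≥`);
* `up, lo`       : the (Q+), (Q-) forms with the law bounds `ℓ - λ w ≤ sY`, `sY ≤ ℓ + λ w`,
  the bands `sP ≤ (1+ε) S(V)`, `sP ≥ (1-ε) S(V)` and explicit errors.
-/

set_option autoImplicit false

namespace Crest.Agent.R146.Clo_42

open MeasureTheory Set Filter Topology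

noncomputable section

/-- one time of the tip system -/
structure Lw (V P p Y : ℝ → ℝ) : Prop where
  V_x : ∀ x, HasDerivAt V (P x) x
  V_pos : ∀ x, 0 < V x
  V_lt : ∀ x, V x < 1
  P_pos : ∀ x, 0 < P x
  P_cont : Continuous P
  P_bdd : ∃ M, ∀ x, P x ≤ M
  p_pos : ∀ x, 0 < p x
  p_x : ∀ x, HasDerivAt p (-Y x * p x) x
  Y_cont : Continuous Y
  Y_lin : ∃ M, ∀ x, |Y x| ≤ M * (1 + |x|)
  mom : ∀ n : ℕ, Integrable (fun x => p x * (1 + |x|) ^ n)
  tail : ∀ n : ℕ, Tendsto (fun x => p x * (1 + |x|) ^ n) (cocompact ℝ) (𝓝 0)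

section basic

variable {V P p Y : ℝ → ℝ}

theorem memV (h : Lw V P p Y) (x : ℝ) : V x ∈ Ioo (0 : ℝ) 1 := ⟨h.V_pos x, h.V_lt x⟩

theorem V_cont (h : Lw V P p Y) : Continuous V :=
  continuous_iff_continuousAt.2 fun x => (h.V_x x).continuousAt

theorem p_cont (h : Lw V P p Y) : Continuous p :=
  continuous_iff_continuousAt.2 fun x => (h.p_x x).continuousAt

theorem V_mono (h : Lw V P p Y) : StrictMono V :=
  strictMono_of_deriv_pos fun x => by rw [(h.V_x x).deriv]; exact h.P_pos x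

/-- integrability against `p` of functions of polynomial growth -/
theorem int_of (h : Lw V P p Y) {g : ℝ → ℝ} (hg : AEStronglyMeasurable g volume)
    {M : ℝ} {n : ℕ} (hM : ∀ x, |g x| ≤ M * (1 + |x|) ^ n) : Integrable (fun x => p x * g x) := by
  refine ((h.mom n).const_mul M).mono' ((p_cont h).aestronglyMeasurable.mul hg)
    (Eventually.of_forall fun x => ?_)
  rw [Real.norm_eq_abs, abs_mul, abs_of_pos (h.p_pos x)]
  have := mul_le_mul_of_nonneg_left (hM x) (h.p_pos x).le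
  linarith

theorem int_bdd (h : Lw V P p Y) {g : ℝ → ℝ} (hg : AEStronglyMeasurable g volume)
    {M : ℝ} (hM : ∀ x, |g x| ≤ M) : Integrable (fun x => p x * g x) :=
  int_of h hg (M := M) (n := 0) (by simpa using hM)

theorem preZ (h : Lw V P p Y) {Z : Set ℝ} (hZ : Z.Countable) : (V ⁻¹' Z).Countable :=
  hZ.preimage (V_mono h).injective

theorem int_Z (h : Lw V P p Y) : Integrable (fun x => p x * (V x * (1 - V x) ^ 2)) := by
  have hV := V_cont h
  refine int_bdd h (M := 1) (hV.mul ((continuous_const.sub hV).pow 2)).aestronglyMeasurable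
    fun x => ?_
  have h1 := h.V_pos x
  have h2 := h.V_lt x
  rw [abs_of_nonneg (mul_nonneg h1.le (sq_nonneg _))]
  have h3 : (1 - V x) ^ 2 ≤ 1 := pow_le_one₀ (by linarith) (by linarith)
  exact mul_le_one₀ h2.le (sq_nonneg _) h3

theorem Z_nonneg (h : Lw V P p Y) : 0 ≤ ∫ x, p x * (V x * (1 - V x) ^ 2) :=
  integral_nonneg fun x => mul_nonneg (h.p_pos x).le (mul_nonneg (h.V_pos x).le (sq_nonneg _))

theorem int_P2 (h : Lw V P p Y) : Integrable (fun x => p x * P x ^ 2) := by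
  obtain ⟨M, hM⟩ := h.P_bdd
  refine int_bdd h (M := M ^ 2) (h.P_cont.pow 2).aestronglyMeasurable fun x => ?_
  rw [abs_pow, abs_of_pos (h.P_pos x)]
  exact pow_le_pow_left₀ (h.P_pos x).le (hM x) 2

/-! ### Integration by parts -/

/-- functions to be integrated by parts: `g` continuous of polynomial growth, derivative `g'` off a
countable set -/
structure TF (g g' : ℝ → ℝ) (Zx : Set ℝ) : Prop where
  cnt : Zx.Countable
  cont : Continuous g
  d : ∀ x, x ∉ Zx → HasDerivAt g (g' x) x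
  growth : ∃ M : ℝ, ∃ n : ℕ, ∀ x, |g x| ≤ M * (1 + |x|) ^ n ∧ |g' x| ≤ M * (1 + |x|) ^ n

theorem TF.meas' {g g' : ℝ → ℝ} {Zx : Set ℝ} (hg : TF g g' Zx) :
    AEStronglyMeasurable g' volume := by
  refine (measurable_deriv g).aestronglyMeasurable.congr ?_
  filter_upwards [hg.cnt.ae_notMem volume] with x hx
  exact (hg.d x hx).deriv

/-- **integration by parts**. -/
theorem ibp (h : Lw V P p Y) {g g' : ℝ → ℝ} {Zx : Set ℝ} (hg : TF g g' Zx) :
    Integrable (fun x => p x * g' x) ∧ Integrable (fun x => p x * (Y x * g x)) ∧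
      ∫ x, p x * g' x = ∫ x, p x * (Y x * g x) := by
  obtain ⟨M, n, hM⟩ := hg.growth
  obtain ⟨MY, hMY⟩ := h.Y_lin
  have i1 : Integrable (fun x => p x * g' x) := int_of h hg.meas' fun x => (hM x).2
  have i2 : Integrable (fun x => p x * (Y x * g x)) := by
    refine int_of h (h.Y_cont.mul hg.cont).aestronglyMeasurable (M := MY * M) (n := n + 1)
      fun x => ?_
    rw [abs_mul]
    have h1 := mul_le_mul (hMY x) (hM x).1 (abs_nonneg _) ((abs_nonneg _).trans (hMY x))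
    have h2 : MY * (1 + |x|) * (M * (1 + |x|) ^ n) = MY * M * (1 + |x|) ^ (n + 1) := by ring
    linarith
  refine ⟨i1, i2, ?_⟩
  have i3 : Integrable (fun x => p x * g' x - p x * (Y x * g x)) := i1.sub i2
  have hc : Continuous fun x => p x * g x := (p_cont h).mul hg.cont
  have hd : ∀ x, x ∉ Zx → HasDerivAt (fun x => p x * g x)
      (p x * g' x - p x * (Y x * g x)) x := by
    intro x hx
    have h2 := (h.p_x x).mul (hg.d x hx)
    refine h2.congr_deriv ?_
    ring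
  have key : ∀ a b : ℝ, ∫ x in a..b, (p x * g' x - p x * (Y x * g x)) =
      p b * g b - p a * g a := by
    intro a b
    exact integral_eq_of_hasDerivAt_off_countable (fun x => p x * g x) _ hg.cnt
      hc.continuousOn (fun x hx => hd x hx.2) i3.intervalIntegrable
  have t1 : Tendsto (fun i : ℕ => ∫ x in (-(i : ℝ))..(i : ℝ),
      (p x * g' x - p x * (Y x * g x))) atTop
      (𝓝 (∫ x, (p x * g' x - p x * (Y x * g x)))) :=
    intervalIntegral_tendsto_integral i3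
      (tendsto_neg_atTop_atBot.comp tendsto_natCast_atTop_atTop) tendsto_natCast_atTop_atTop
  have t2 : Tendsto (fun i : ℕ => p (i : ℝ) * g (i : ℝ) - p (-(i : ℝ)) * g (-(i : ℝ)))
      atTop (𝓝 0) := by
    have hp := (h.tail n).const_mul M
    rw [mul_zero, cocompact_eq_atBot_atTop, tendsto_sup] at hp
    have a1 : Tendsto (fun i : ℕ => M * (p (i : ℝ) * (1 + |(i : ℝ)|) ^ n)) atTop (𝓝 0) :=
      hp.2.comp tendsto_natCast_atTop_atTop
    have a2 : Tendsto (fun i : ℕ => M * (p (-(i : ℝ)) * (1 + |(-(i : ℝ))|) ^ n)) atTop (𝓝 0) :=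
      hp.1.comp (tendsto_neg_atTop_atBot.comp tendsto_natCast_atTop_atTop)
    have b1 := a1.add a2
    rw [add_zero] at b1
    refine squeeze_zero_norm (fun i => ?_) b1
    rw [Real.norm_eq_abs]
    refine (abs_sub _ _).trans (add_le_add ?_ ?_)
    · rw [abs_mul, abs_of_pos (h.p_pos _)]
      have := mul_le_mul_of_nonneg_left (hM (i : ℝ)).1 (h.p_pos (i : ℝ)).le
      linarith
    · rw [abs_mul, abs_of_pos (h.p_pos _)]
      have := mul_le_mul_of_nonneg_left (hM (-(i : ℝ))).1 (h.p_pos (-(i : ℝ))).le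
      linarith
  have e1 : (fun i : ℕ => ∫ x in (-(i : ℝ))..(i : ℝ), (p x * g' x - p x * (Y x * g x))) =
      fun i : ℕ => p (i : ℝ) * g (i : ℝ) - p (-(i : ℝ)) * g (-(i : ℝ)) := by
    funext i; exact key _ _
  rw [e1] at t1
  have h0 := tendsto_nhds_unique t1 t2
  rw [integral_sub i1 i2] at h0
  linarith

/-! ### The closure inequality, general form -/

/-- **closure, upper form**: pointwise `(sP)² - s g' + s Y g ≤ 2h V(1-V)² + E`. -/
theorem clo_le (h : Lw V P p Y) {g g' : ℝ → ℝ} {Zx : Set ℝ} (hg : TF g g' Zx) {s hh : ℝ}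
    {E : ℝ → ℝ} (hE : Integrable (fun x => p x * E x))
    (hpt : ∀ᵐ x : ℝ, (s * P x) ^ 2 - s * g' x + s * Y x * g x ≤
      2 * hh * (V x * (1 - V x) ^ 2) + E x) :
    s ^ 2 * ∫ x, p x * P x ^ 2 ≤ 2 * hh * (∫ x, p x * (V x * (1 - V x) ^ 2)) + ∫ x, p x * E x := by
  obtain ⟨j1, j2, j3⟩ := ibp h hg
  have k1 : Integrable (fun x => s ^ 2 * (p x * P x ^ 2)) := (int_P2 h).const_mul _
  have k2 : Integrable (fun x => s * (p x * g' x)) := j1.const_mul _
  have k3 : Integrable (fun x => s * (p x * (Y x * g x))) := j2.const_mul _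
  have k4 : Integrable (fun x => 2 * hh * (p x * (V x * (1 - V x) ^ 2))) := (int_Z h).const_mul _
  have k12 : Integrable (fun x => s ^ 2 * (p x * P x ^ 2) - s * (p x * g' x)) := k1.sub k2
  have m1 : ∫ x, (s ^ 2 * (p x * P x ^ 2) - s * (p x * g' x) + s * (p x * (Y x * g x))) ≤
      ∫ x, (2 * hh * (p x * (V x * (1 - V x) ^ 2)) + p x * E x) := by
    refine integral_mono_ae (k12.add k3) (k4.add hE) ?_
    filter_upwards [hpt] with x hx
    have := mul_le_mul_of_nonneg_left hx (h.p_pos x).le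
    have e : p x * ((s * P x) ^ 2 - s * g' x + s * Y x * g x) =
      s ^ 2 * (p x * P x ^ 2) - s * (p x * g' x) + s * (p x * (Y x * g x)) := by ring
    have e' : p x * (2 * hh * (V x * (1 - V x) ^ 2) + E x) =
      2 * hh * (p x * (V x * (1 - V x) ^ 2)) + p x * E x := by ring
    rw [e, e'] at this
    exact this
  rw [integral_add k12 k3, integral_sub k1 k2, integral_add k4 hE, integral_const_mul,
    integral_const_mul, integral_const_mul, integral_const_mul, j3] at m1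
  linarith

/-- **closure, lower form**: pointwise `(sP)² - s g' + s Y g ≥ 2h V(1-V)² - E`. -/
theorem le_clo (h : Lw V P p Y) {g g' : ℝ → ℝ} {Zx : Set ℝ} (hg : TF g g' Zx) {s hh : ℝ}
    {E : ℝ → ℝ} (hE : Integrable (fun x => p x * E x))
    (hpt : ∀ᵐ x : ℝ, 2 * hh * (V x * (1 - V x) ^ 2) - E x ≤
      (s * P x) ^ 2 - s * g' x + s * Y x * g x) :
    2 * hh * (∫ x, p x * (V x * (1 - V x) ^ 2)) - ∫ x, p x * E x ≤ s ^ 2 * ∫ x, p x * P x ^ 2 := by
  obtain ⟨j1, j2, j3⟩ := ibp h hg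
  have k1 : Integrable (fun x => s ^ 2 * (p x * P x ^ 2)) := (int_P2 h).const_mul _
  have k2 : Integrable (fun x => s * (p x * g' x)) := j1.const_mul _
  have k3 : Integrable (fun x => s * (p x * (Y x * g x))) := j2.const_mul _
  have k4 : Integrable (fun x => 2 * hh * (p x * (V x * (1 - V x) ^ 2))) := (int_Z h).const_mul _
  have k12 : Integrable (fun x => s ^ 2 * (p x * P x ^ 2) - s * (p x * g' x)) := k1.sub k2
  have m1 : ∫ x, (2 * hh * (p x * (V x * (1 - V x) ^ 2)) - p x * E x) ≤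
      ∫ x, (s ^ 2 * (p x * P x ^ 2) - s * (p x * g' x) + s * (p x * (Y x * g x))) := by
    refine integral_mono_ae (k4.sub hE) (k12.add k3) ?_
    filter_upwards [hpt] with x hx
    have := mul_le_mul_of_nonneg_left hx (h.p_pos x).le
    have e : p x * ((s * P x) ^ 2 - s * g' x + s * Y x * g x) =
      s ^ 2 * (p x * P x ^ 2) - s * (p x * g' x) + s * (p x * (Y x * g x)) := by ring
    have e' : p x * (2 * hh * (V x * (1 - V x) ^ 2) - E x) =
      2 * hh * (p x * (V x * (1 - V x) ^ 2)) - p x * E x := by ring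
    rw [e, e'] at this
    exact this
  rw [integral_add k12 k3, integral_sub k1 k2, integral_sub k4 hE, integral_const_mul,
    integral_const_mul, integral_const_mul, integral_const_mul, j3] at m1
  linarith

/-! ### Functions of the level -/

/-- functions of the level `v ∈ (0,1)` -/
structure GD (G G' : ℝ → ℝ) (Z : Set ℝ) : Prop where
  cnt : Z.Countable
  cont : ContinuousOn G (Ioo 0 1)
  dG : ∀ v ∈ Ioo (0 : ℝ) 1, v ∉ Z → HasDerivAt G (G' v) v
  bd : ∃ B, ∀ v ∈ Ioo (0 : ℝ) 1, |G v| ≤ B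
  bd' : ∃ B, ∀ v ∈ Ioo (0 : ℝ) 1, |G' v| ≤ B

/-- `x ↦ G (V x)` may be integrated by parts. -/
theorem GD.tf (h : Lw V P p Y) {G G' : ℝ → ℝ} {Z : Set ℝ} (hG : GD G G' Z) :
    TF (fun x => G (V x)) (fun x => P x * G' (V x)) (V ⁻¹' Z) where
  cnt := preZ h hG.cnt
  cont := hG.cont.comp_continuous (V_cont h) (memV h)
  d x hx := by
    have h1 := (hG.dG _ (memV h x) hx).comp x (h.V_x x)
    refine h1.congr_deriv ?_
    ring
  growth := by
    obtain ⟨B, hB⟩ := hG.bd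
    obtain ⟨B', hB'⟩ := hG.bd'
    obtain ⟨M, hM⟩ := h.P_bdd
    refine ⟨max B (M * B'), 0, fun x => ?_⟩
    rw [pow_zero, mul_one]
    refine ⟨(hB _ (memV h x)).trans (le_max_left _ _), ?_⟩
    rw [abs_mul, abs_of_pos (h.P_pos x)]
    exact (mul_le_mul (hM x) (hB' _ (memV h x)) (abs_nonneg _)
      ((h.P_pos x).le.trans (hM x))).trans (le_max_right _ _)

/-! ### Algebra of one point -/

/-- upper side: `0 ≤ J ≤ (1+ε) S`. -/
theorem alg_up {J S g q ε F : ℝ} (hJ : 0 ≤ J) (hε : 0 ≤ ε) (hε1 : ε ≤ 1)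
    (hJS : J ≤ (1 + ε) * S) (hS : 0 ≤ S) (hq : 0 ≤ q) (h : S ^ 2 - S * g ≤ q)
    (hF : S ^ 2 + |S * g| ≤ F) : J ^ 2 - J * g ≤ q + 3 * ε * F := by
  have hF0 : 0 ≤ F := (add_nonneg (sq_nonneg _) (abs_nonneg _)).trans hF
  rcases le_total (J - g) 0 with h1 | h1
  · have h2 : J * (J - g) ≤ 0 := mul_nonpos_of_nonneg_of_nonpos hJ h1
    have h3 : 0 ≤ 3 * ε * F := by positivity
    nlinarith
  · have h2 : J * (J - g) ≤ (1 + ε) * S * ((1 + ε) * S - g) :=
      mul_le_mul hJS (by linarith) h1 (by positivity)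
    have h3 : (1 + ε) * S * ((1 + ε) * S - g) = (S ^ 2 - S * g) + ε * (S ^ 2 - S * g) +
        ε * (1 + ε) * S ^ 2 := by ring
    have h4 : S ^ 2 - S * g ≤ F := by
      have := neg_abs_le (S * g)
      linarith
    have h5 : S ^ 2 ≤ F := by linarith [abs_nonneg (S * g)]
    have h6 : ε * (S ^ 2 - S * g) ≤ ε * F := mul_le_mul_of_nonneg_left h4 hε
    have h7 : ε * (1 + ε) * S ^ 2 ≤ ε * 2 * F := by
      refine mul_le_mul ?_ h5 (sq_nonneg _) (by positivity)
      exact mul_le_mul_of_nonneg_left (by linarith) hε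
    nlinarith

/-- lower side: `(1-ε) S ≤ J`, `g ≤ 2 S`. -/
theorem alg_lo {J S g q ε F : ℝ} (hε : 0 ≤ ε) (hJS : (1 - ε) * S ≤ J)
    (hg : g ≤ 2 * S) (h : q ≤ S ^ 2 - S * g) (hF : S ^ 2 + |S * g| ≤ F) :
    q - 2 * ε * F ≤ J ^ 2 - J * g := by
  have h1 : (J - (1 - ε) * S) * ((J - (1 - ε) * S) - 2 * ε * S) ≤
      (J - (1 - ε) * S) * (J + (1 - ε) * S - g) :=
    mul_le_mul_of_nonneg_left (by linarith) (by linarith)
  have h2 : -(ε * S) ^ 2 ≤ (J - (1 - ε) * S) * ((J - (1 - ε) * S) - 2 * ε * S) := by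
    nlinarith [sq_nonneg (J - (1 - ε) * S - ε * S)]
  have h3 : ε * (-|S * g|) ≤ ε * (S * g) := mul_le_mul_of_nonneg_left (neg_abs_le _) hε
  have h4 : ε * (S ^ 2 + |S * g|) ≤ ε * F := mul_le_mul_of_nonneg_left hF hε
  have h5 : 0 ≤ ε * |S * g| := mul_nonneg hε (abs_nonneg _)
  have h6 : J ^ 2 - J * g = ((1 - ε) * S) ^ 2 - (1 - ε) * S * g +
      (J - (1 - ε) * S) * (J + (1 - ε) * S - g) := by ring
  nlinarith

/-! ### (Q+), (Q-) -/

/-- **(Q+)** with the law bound `ℓ - λ w ≤ s Y`: the dual function `G ≤ 0` satisfies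
`S² - S G' + ℓ G ≤ 2h v(1-v)²` at the level `v = V x`. -/
theorem up (h : Lw V P p Y) {G G' : ℝ → ℝ} {Z : Set ℝ} (hG : GD G G' Z)
    (hG0 : ∀ v ∈ Ioo (0 : ℝ) 1, G v ≤ 0) {s hh ε lam : ℝ} {S F : ℝ → ℝ} {ℓ w : ℝ → ℝ}
    (hs : 0 < s) (hh0 : 0 ≤ hh) (hε : 0 ≤ ε) (hε1 : ε ≤ 1)
    (hS : ∀ x, 0 ≤ S (V x)) (hℓ : ∀ x, ℓ x * G (V x) ≤ 0)
    (hP : ∀ x, s * P x ≤ (1 + ε) * S (V x))
    (hlaw : ∀ x, ℓ x - lam * w x ≤ s * Y x)
    (hQ : ∀ x, V x ∉ Z → S (V x) ^ 2 - S (V x) * G' (V x) + ℓ x * G (V x) ≤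
      2 * hh * (V x * (1 - V x) ^ 2))
    (hF : ∀ x, V x ∉ Z → S (V x) ^ 2 + |S (V x) * G' (V x)| ≤ F (V x))
    (i1 : Integrable (fun x => p x * F (V x)))
    (i2 : Integrable (fun x => p x * (w x * |G (V x)|))) :
    s ^ 2 * ∫ x, p x * P x ^ 2 ≤ 2 * hh * (∫ x, p x * (V x * (1 - V x) ^ 2)) +
      3 * ε * (∫ x, p x * F (V x)) + lam * ∫ x, p x * (w x * |G (V x)|) := by
  have k1 : Integrable (fun x => 3 * ε * (p x * F (V x))) := i1.const_mul _
  have k2 : Integrable (fun x => lam * (p x * (w x * |G (V x)|))) := i2.const_mul _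
  have k3 : Integrable (fun x => p x * (3 * ε * F (V x) + lam * (w x * |G (V x)|))) := by
    refine (k1.add k2).congr (Eventually.of_forall fun x => ?_)
    simp only [Pi.add_apply]
    ring
  have e1 : ∫ x, p x * (3 * ε * F (V x) + lam * (w x * |G (V x)|)) =
      3 * ε * (∫ x, p x * F (V x)) + lam * ∫ x, p x * (w x * |G (V x)|) := by
    rw [← integral_const_mul, ← integral_const_mul, ← integral_add k1 k2]
    refine integral_congr_ae (Eventually.of_forall fun x => ?_)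
    simp only
    ring
  have := clo_le h (hG.tf h) (s := s) (hh := hh) k3 ?_
  · rw [e1] at this
    linarith
  · filter_upwards [(preZ h hG.cnt).ae_notMem volume] with x hx
    have hx' : V x ∉ Z := hx
    have hv := memV h x
    have hG1 := hG0 _ hv
    have a1 := alg_up (J := s * P x) (S := S (V x)) (g := G' (V x))
      (q := 2 * hh * (V x * (1 - V x) ^ 2) - ℓ x * G (V x)) (ε := ε) (F := F (V x))
      (mul_nonneg hs.le (h.P_pos x).le) hε hε1 (hP x) (hS x)
      (by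
        have h1 : 0 ≤ 2 * hh * (V x * (1 - V x) ^ 2) :=
          mul_nonneg (by linarith) (mul_nonneg hv.1.le (sq_nonneg _))
        linarith [hℓ x])
      (by linarith [hQ x hx']) (hF x hx')
    have b4 : s * Y x * G (V x) ≤ (ℓ x - lam * w x) * G (V x) :=
      mul_le_mul_of_nonpos_right (hlaw x) hG1
    have b5 : |G (V x)| = -G (V x) := abs_of_nonpos hG1
    rw [b5]
    linarith

/-- **(Q-)** with the law bound `s Y ≤ ℓ + λ w`. -/
theorem lo (h : Lw V P p Y) {G G' : ℝ → ℝ} {Z : Set ℝ} (hG : GD G G' Z)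
    (hG0 : ∀ v ∈ Ioo (0 : ℝ) 1, G v ≤ 0) {s hh ε lam : ℝ} {S F : ℝ → ℝ} {ℓ w : ℝ → ℝ}
    (hε : 0 ≤ ε) (hP : ∀ x, (1 - ε) * S (V x) ≤ s * P x)
    (hlaw : ∀ x, s * Y x ≤ ℓ x + lam * w x)
    (hGS : ∀ x, V x ∉ Z → G' (V x) ≤ 2 * S (V x))
    (hQ : ∀ x, V x ∉ Z → 2 * hh * (V x * (1 - V x) ^ 2) ≤
      S (V x) ^ 2 - S (V x) * G' (V x) + ℓ x * G (V x))
    (hF : ∀ x, V x ∉ Z → S (V x) ^ 2 + |S (V x) * G' (V x)| ≤ F (V x))
    (i1 : Integrable (fun x => p x * F (V x)))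
    (i2 : Integrable (fun x => p x * (w x * |G (V x)|))) :
    2 * hh * (∫ x, p x * (V x * (1 - V x) ^ 2)) - (2 * ε * (∫ x, p x * F (V x)) +
      lam * ∫ x, p x * (w x * |G (V x)|)) ≤ s ^ 2 * ∫ x, p x * P x ^ 2 := by
  have k1 : Integrable (fun x => 2 * ε * (p x * F (V x))) := i1.const_mul _
  have k2 : Integrable (fun x => lam * (p x * (w x * |G (V x)|))) := i2.const_mul _
  have k3 : Integrable (fun x => p x * (2 * ε * F (V x) + lam * (w x * |G (V x)|))) := by
    refine (k1.add k2).congr (Eventually.of_forall fun x => ?_)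
    simp only [Pi.add_apply]
    ring
  have e1 : ∫ x, p x * (2 * ε * F (V x) + lam * (w x * |G (V x)|)) =
      2 * ε * (∫ x, p x * F (V x)) + lam * ∫ x, p x * (w x * |G (V x)|) := by
    rw [← integral_const_mul, ← integral_const_mul, ← integral_add k1 k2]
    refine integral_congr_ae (Eventually.of_forall fun x => ?_)
    simp only
    ring
  have := le_clo h (hG.tf h) (s := s) (hh := hh) k3 ?_
  · rw [e1] at this
    linarith
  · filter_upwards [(preZ h hG.cnt).ae_notMem volume] with x hx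
    have hx' : V x ∉ Z := hx
    have hv := memV h x
    have hG1 := hG0 _ hv
    have a1 := alg_lo (J := s * P x) (S := S (V x)) (g := G' (V x))
      (q := 2 * hh * (V x * (1 - V x) ^ 2) - ℓ x * G (V x)) (ε := ε) (F := F (V x))
      hε (hP x) (hGS x hx') (by linarith [hQ x hx']) (hF x hx')
    have b4 : (ℓ x + lam * w x) * G (V x) ≤ s * Y x * G (V x) :=
      mul_le_mul_of_nonpos_right (hlaw x) hG1
    have b5 : |G (V x)| = -G (V x) := abs_of_nonpos hG1
    rw [b5]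
    linarith

end basic

/-! ### The step system -/

section step

open Crest.Agent.R146.StepDef_791

variable {A : SD} {xx : ℝ} {p Y Yx Yxx : ℝ → ℝ → ℝ}

/-- the fields and the law at one time -/
theorem lw_of (hB : Back A) (hL : Law A xx p Y Yx Yxx) {t : ℝ} (ht : t ∈ Ioc 0 A.T) :
    Lw (A.V t) (A.P t) (p t) (Y t) := by
  obtain ⟨M, hM⟩ := hB.bsys
  have ht0 : t ∈ Icc 0 A.T := ⟨ht.1.le, ht.2⟩
  obtain ⟨M', hM'⟩ := hL.ysys (t / 2) ⟨by linarith [ht.1], by linarith [ht.1, ht.2]⟩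
  have ht1 : t ∈ Ioc (t / 2) A.T := ⟨by linarith [ht.1], ht.2⟩
  refine ⟨hB.V_x t ht0, hM.V_pos t ht0, hM.V_lt t ht0, hB.P_pos t ht0, ?_,
    ⟨M, hM.P_le t ht0⟩, hL.p_pos t ht, hL.p_x t ht, ?_,
    ⟨M', hM'.Y_le t ⟨ht1.1.le, ht1.2⟩⟩, fun n => ?_, hL.tail t ht⟩
  · exact continuous_iff_continuousAt.2 fun x => (hB.P_x t ht0 x).continuousAt
  · exact continuous_iff_continuousAt.2 fun x => (hM'.hYx t ht1 x).continuousAt
  · obtain ⟨C, hC⟩ := hL.mom n
    exact (hC t ht).1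

theorem ex_pos {x0 t : ℝ} (ht : 0 < t) (f : ℝ → ℝ) : ex x0 p t f = ∫ x, p t x * f x := by
  unfold ex
  rw [if_neg (not_le.2 ht)]

theorem Ns_eq {x0 t : ℝ} (ht : 0 < t) : Ns A x0 p t = ∫ x, p t x * A.P t x ^ 2 := ex_pos ht _

theorem Zs_eq {x0 t : ℝ} (ht : 0 < t) :
    Zs A x0 p t = ∫ x, p t x * (A.V t x * (1 - A.V t x) ^ 2) := by
  unfold Zs
  rw [ex_pos ht]
  refine integral_congr_ae (Eventually.of_forall fun x => ?_)
  simp only
  ring

end step

end

end Crest.Agent.R146.Clo_42
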