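import Crest.Agent.R146.FixA_423
import Crest.Agent.R146.StepTest_168

/-!
Row 146, PT-CMP (helper423): the CLOSURE STEP at a fixed time.

* `ibp`       : `∫ p (F' - Y F) = 0` (`Y = -(log p)_x`), `F` continuous, differentiable off a countable set;
* `ibp_law`   : the same for the law of the step system;  `ibp_G` : `F = G(V)`; `ibp_GW` : `F = G(V, s (x+u))`;
* `clo_up`, `clo_lo` : a pointwise inequality
  `I² - (F' - Y F)/s ≤ 2 c V (1-V)² + ρ H`  (`I = P/s`)  gives  `N ≤ (2 c + ρ C') s² Z`.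
-/

set_option autoImplicit false

open Set Filter Topology MeasureTheory

namespace Crest.Agent.R146.Clo_423

open MaxPCmp_371 MaxPCmp2_371 StepDef_791 Abs_423 FixA_423

/-- integration by parts against a positive density -/
theorem ibp {p Y F F' : ℝ → ℝ} (hpx : ∀ x, HasDerivAt p (-Y x * p x) x) (cF : Continuous F)
    {S : Set ℝ} (hS : S.Countable) (hF : ∀ x ∉ S, HasDerivAt F (F' x) x)
    (int : Integrable (fun x => p x * (F' x - Y x * F x)))
    (hbot : Tendsto (fun x => p x * F x) atBot (𝓝 0))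
    (htop : Tendsto (fun x => p x * F x) atTop (𝓝 0)) :
    ∫ x, p x * (F' x - Y x * F x) = 0 := by
  have cp : Continuous p := continuous_iff_continuousAt.2 fun x => (hpx x).continuousAt
  have hftc : ∀ a b : ℝ, ∫ x in a..b, p x * (F' x - Y x * F x) = p b * F b - p a * F a := by
    intro a b
    refine MeasureTheory.integral_eq_of_hasDerivAt_off_countable (fun x => p x * F x) _ hS
      (cp.mul cF).continuousOn ?_ int.intervalIntegrable
    intro x hx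
    have h1 := (hpx x).mul (hF x hx.2)
    refine h1.congr_deriv ?_
    ring
  have hlim : Tendsto (fun n : ℝ => ∫ x in (-n)..n, p x * (F' x - Y x * F x)) atTop
      (𝓝 (∫ x, p x * (F' x - Y x * F x))) :=
    intervalIntegral_tendsto_integral int tendsto_neg_atTop_atBot tendsto_id
  have hlim2 : Tendsto (fun n : ℝ => ∫ x in (-n)..n, p x * (F' x - Y x * F x)) atTop
      (𝓝 (0 - 0)) := by
    simp only [hftc]
    exact htop.sub (hbot.comp tendsto_neg_atTop_atBot)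
  rw [sub_zero] at hlim2
  exact tendsto_nhds_unique hlim hlim2

section law

variable {A : SD} {x0 : ℝ} {p Y Yx Yxx : ℝ → ℝ → ℝ}

/-- growth and continuity of `Y` at a fixed time -/
lemma Y_data (hL : Law A x0 p Y Yx Yxx) {t : ℝ} (ht : t ∈ Ioc 0 A.T) :
    Continuous (Y t) ∧ ∃ M, 0 ≤ M ∧ ∀ x, |Y t x| ≤ M * (1 + |x|) := by
  have ht0 : t / 2 ∈ Ioo 0 A.T := ⟨by linarith [ht.1], by linarith [ht.1, ht.2]⟩
  obtain ⟨M, h⟩ := hL.ysys (t / 2) ht0
  have htI : t ∈ Icc (t / 2) A.T := ⟨by linarith [ht.1], ht.2⟩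
  have htI' : t ∈ Ioc (t / 2) A.T := ⟨by linarith [ht.1], ht.2⟩
  refine ⟨continuous_iff_continuousAt.2 fun x => (h.hYx t htI' x).continuousAt, |M|,
    abs_nonneg _, fun x => (h.Y_le t htI x).trans ?_⟩
  have : 0 ≤ 1 + |x| := by positivity
  exact mul_le_mul_of_nonneg_right (le_abs_self M) this

/-- `p` at a fixed time is continuous -/
lemma p_cont (hL : Law A x0 p Y Yx Yxx) {t : ℝ} (ht : t ∈ Ioc 0 A.T) : Continuous (p t) :=
  continuous_iff_continuousAt.2 fun x => (hL.p_x t ht x).continuousAt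

lemma p_int (hL : Law A x0 p Y Yx Yxx) {t : ℝ} (ht : t ∈ Ioc 0 A.T) : Integrable (p t) := by
  obtain ⟨C, h⟩ := hL.mom 0
  simpa using (h t ht).1

/-- integrability against `p` of functions with polynomial growth -/
lemma int_of_growth (hL : Law A x0 p Y Yx Yxx) {t : ℝ} (ht : t ∈ Ioc 0 A.T) {f : ℝ → ℝ}
    (hf : AEStronglyMeasurable f) {C : ℝ} {n : ℕ} (hfC : ∀ x, |f x| ≤ C * (1 + |x|) ^ n) :
    Integrable (fun x => p t x * f x) := by
  obtain ⟨C', h⟩ := hL.mom n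
  refine ((h t ht).1.const_mul C).mono ((p_cont hL ht).aestronglyMeasurable.mul hf)
    (Eventually.of_forall fun x => ?_)
  have hp := (hL.p_pos t ht x).le
  have h1 : 0 ≤ (1 + |x|) ^ n := by positivity
  have h2 : 0 ≤ C * (1 + |x|) ^ n := (abs_nonneg _).trans (hfC x)
  have h3 : C * (p t x * (1 + |x|) ^ n) = p t x * (C * (1 + |x|) ^ n) := by ring
  rw [h3, norm_mul, norm_mul, Real.norm_of_nonneg hp, Real.norm_eq_abs, Real.norm_of_nonneg h2]
  exact mul_le_mul_of_nonneg_left (hfC x) hp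

/-- a.e. measurability of a derivative off a countable set -/
lemma meas_of_deriv {F F' : ℝ → ℝ} {S : Set ℝ} (hS : S.Countable)
    (hF : ∀ x ∉ S, HasDerivAt F (F' x) x) : AEStronglyMeasurable F' := by
  have h1 : deriv F =ᵐ[volume] F' := by
    have h2 : ∀ᵐ x ∂(volume : Measure ℝ), x ∉ S := by
      rw [ae_iff]
      simpa using hS.measure_zero volume
    filter_upwards [h2] with x hx
    exact (hF x hx).deriv
  exact (measurable_deriv F).aestronglyMeasurable.congr h1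

/-- boundary terms vanish -/
lemma tail_growth (hL : Law A x0 p Y Yx Yxx) {t : ℝ} (ht : t ∈ Ioc 0 A.T) {F : ℝ → ℝ}
    {C : ℝ} {n : ℕ} (hF : ∀ x, |F x| ≤ C * (1 + |x|) ^ n) :
    Tendsto (fun x => p t x * F x) (cocompact ℝ) (𝓝 0) := by
  have h1 := (hL.tail t ht n).const_mul C
  rw [mul_zero] at h1
  refine squeeze_zero_norm (fun x => ?_) h1
  have hp := (hL.p_pos t ht x).le
  rw [norm_mul, Real.norm_of_nonneg hp, Real.norm_eq_abs]
  calc p t x * |F x| ≤ p t x * (C * (1 + |x|) ^ n) := mul_le_mul_of_nonneg_left (hF x) hp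
    _ = C * (p t x * (1 + |x|) ^ n) := by ring

/-- **IBP for the law**: `F`, `F'` of polynomial growth. -/
theorem ibp_law (hL : Law A x0 p Y Yx Yxx) {t : ℝ} (ht : t ∈ Ioc 0 A.T) {F F' : ℝ → ℝ}
    (cF : Continuous F) {S : Set ℝ} (hS : S.Countable) (hF : ∀ x ∉ S, HasDerivAt F (F' x) x)
    {C : ℝ} {n : ℕ} (hFC : ∀ x, |F x| ≤ C * (1 + |x|) ^ n)
    (hF'C : ∀ x, |F' x| ≤ C * (1 + |x|) ^ n) :
    Integrable (fun x => p t x * (F' x - Y t x * F x)) ∧
      ∫ x, p t x * (F' x - Y t x * F x) = 0 := by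
  obtain ⟨cY, M, hM, hY⟩ := Y_data hL ht
  have hC : 0 ≤ C := by
    have := (abs_nonneg _).trans (hFC 0)
    simpa using this
  have int : Integrable (fun x => p t x * (F' x - Y t x * F x)) := by
    refine int_of_growth hL ht ((meas_of_deriv hS hF).sub (cY.mul cF).aestronglyMeasurable)
      (C := C + M * C) (n := n + 1) fun x => ?_
    have h1 : 1 ≤ 1 + |x| := by linarith [abs_nonneg x]
    have h2 : 0 ≤ (1 + |x|) ^ n := by positivity
    calc |F' x - Y t x * F x| ≤ |F' x| + |Y t x * F x| := abs_sub _ _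
      _ ≤ C * (1 + |x|) ^ n + (M * (1 + |x|)) * (C * (1 + |x|) ^ n) := by
          rw [abs_mul]
          exact add_le_add (hF'C x) (mul_le_mul (hY x) (hFC x) (abs_nonneg _)
            ((abs_nonneg _).trans (hY x)))
      _ ≤ C * (1 + |x|) ^ (n + 1) + M * C * (1 + |x|) ^ (n + 1) := by
          have h3 : (1 + |x|) ^ n ≤ (1 + |x|) ^ (n + 1) := pow_le_pow_right₀ h1 (Nat.le_succ n)
          have h4 := mul_le_mul_of_nonneg_left h3 hC
          have h5 : M * (1 + |x|) * (C * (1 + |x|) ^ n) = M * C * (1 + |x|) ^ (n + 1) := by ring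
          linarith
      _ = (C + M * C) * (1 + |x|) ^ (n + 1) := by ring
  have htail := tail_growth hL ht hFC
  refine ⟨int, ibp (hL.p_x t ht) cF hS hF int ?_ ?_⟩
  · exact htail.mono_left (by rw [cocompact_eq_atBot_atTop]; exact le_sup_left)
  · exact htail.mono_left (by rw [cocompact_eq_atBot_atTop]; exact le_sup_right)

end law

/-! ### the closure inequality -/

section closure

variable {A : SD} {x0 : ℝ} {p Y Yx Yxx : ℝ → ℝ → ℝ} {t s : ℝ}

/-- data of the closure step at one time -/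
structure Clo (A : SD) (t s : ℝ) (p Y : ℝ → ℝ → ℝ) (CK e C lam : ℝ) (H : ℝ → ℝ) : Prop where
  hCK0 : 0 ≤ CK
  hCK : ∀ x, A.P t x ≤ CK * s
  he : 0 < e
  hC : 0 ≤ C
  hlam0 : 0 ≤ lam
  hlam : 72 * lam ≤ e
  hY : ∀ x, -(lam * s * (1 + s * max (-x) 0)) ≤ Y t x
  mH : AEStronglyMeasurable H
  H0 : ∀ x, 0 ≤ H x
  left : ∀ x, A.V t x ≤ 1 / 2 → H x ≤ C * A.V t x
  right : ∀ x, 1 / 2 ≤ A.V t x → H x ≤ C * (1 + s * max x 0) * (1 - A.V t x) ^ e

/-- `ABS` for the law of the step system -/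
theorem absorb_law (hL : Law A x0 p Y Yx Yxx) (ht : t ∈ Ioc 0 A.T)
    (hF : Fix s (A.V t) (A.P t) (A.u t)) {CK e C lam : ℝ} {H : ℝ → ℝ}
    (h : Clo A t s p Y CK e C lam H) :
    Integrable (fun x => p t x * H x) ∧
      ∫ x, p t x * H x ≤ C * Fix.KA CK e * ∫ x, p t x * (A.V t x * (1 - A.V t x) ^ 2) := by
  have hs := hF.s_pos
  have intH : Integrable (fun x => p t x * H x) := by
    refine int_of_growth hL ht h.mH (C := C * (1 + s)) (n := 1) fun x => ?_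
    rw [abs_of_nonneg (h.H0 x), pow_one]
    have h0 : 0 ≤ |x| := abs_nonneg x
    have hm : max x 0 ≤ |x| := max_le (le_abs_self x) h0
    have hm0 : 0 ≤ max x 0 := le_max_right _ _
    have hV0 := (hF.V_pos x).le
    have hV1 := (hF.V_lt x).le
    rcases le_total (A.V t x) (1 / 2) with h1 | h1
    · refine (h.left x h1).trans ?_
      have h2 : C * A.V t x ≤ C * 1 := mul_le_mul_of_nonneg_left hV1 h.hC
      have h3 : 1 ≤ (1 + s) * (1 + |x|) := by nlinarith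
      have h4 := mul_le_mul_of_nonneg_left h3 h.hC
      linarith
    · refine (h.right x h1).trans ?_
      have h2 : (1 - A.V t x) ^ e ≤ 1 :=
        Real.rpow_le_one (by linarith) (by linarith) h.he.le
      have h3 : 0 ≤ C * (1 + s * max x 0) := mul_nonneg h.hC (by positivity)
      have h4 : C * (1 + s * max x 0) * (1 - A.V t x) ^ e ≤ C * (1 + s * max x 0) * 1 :=
        mul_le_mul_of_nonneg_left h2 h3
      have h5 : 1 + s * max x 0 ≤ (1 + s) * (1 + |x|) := by nlinarith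
      have h6 := mul_le_mul_of_nonneg_left h5 h.hC
      linarith
  exact ⟨intH, hF.absorb h.hCK0 h.hCK h.he h.hC h.hlam0 h.hlam (hL.p_pos t ht) (hL.p_x t ht) h.hY
    (p_int hL ht) intH h.left h.right⟩

lemma Zs_eq (ht : 0 < t) : Zs A x0 p t = ∫ x, p t x * (A.V t x * (1 - A.V t x) ^ 2) := by
  unfold Zs ex
  rw [if_neg (not_le.2 ht)]
  congr 1; funext x; ring

lemma Ns_eq (ht : 0 < t) : Ns A x0 p t = ∫ x, p t x * A.P t x ^ 2 := by
  unfold Ns ex
  rw [if_neg (not_le.2 ht)]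

/-- **upper closure**: `Ns ≤ (2 c + ρ C') s² Zs`. -/
theorem clo_up (hL : Law A x0 p Y Yx Yxx) (ht : t ∈ Ioc 0 A.T)
    (hF : Fix s (A.V t) (A.P t) (A.u t)) {CK e C lam : ℝ} {H : ℝ → ℝ}
    (h : Clo A t s p Y CK e C lam H) {c ρ : ℝ} (hρ : 0 ≤ ρ) {F F' : ℝ → ℝ} (cF : Continuous F)
    {S : Set ℝ} (hS : S.Countable) (hFd : ∀ x ∉ S, HasDerivAt F (F' x) x)
    {C1 : ℝ} {n : ℕ} (hFC : ∀ x, |F x| ≤ C1 * (1 + |x|) ^ n)
    (hF'C : ∀ x, |F' x| ≤ C1 * (1 + |x|) ^ n)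
    (hpt : ∀ x ∉ S, (A.P t x / s) ^ 2 - (F' x - Y t x * F x) / s ≤
      2 * c * (A.V t x * (1 - A.V t x) ^ 2) + ρ * H x) :
    Ns A x0 p t ≤ (2 * c + ρ * (C * Fix.KA CK e)) * s ^ 2 * Zs A x0 p t := by
  have hs := hF.s_pos
  obtain ⟨int, hz⟩ := ibp_law hL ht cF hS hFd hFC hF'C
  obtain ⟨intH, hH⟩ := absorb_law hL ht hF h
  rw [Zs_eq ht.1, Ns_eq ht.1]
  set Z := ∫ x, p t x * (A.V t x * (1 - A.V t x) ^ 2) with hZ
  have hP0 : ∀ x, 0 < A.P t x := hF.P_pos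
  have intP : Integrable (fun x => p t x * A.P t x ^ 2) := by
    refine int_of_growth hL ht (hF.cP.pow 2).aestronglyMeasurable (C := (CK * s) ^ 2) (n := 0)
      fun x => ?_
    rw [pow_zero, mul_one, abs_of_nonneg (sq_nonneg _)]
    exact pow_le_pow_left₀ (hP0 x).le (h.hCK x) 2
  have intG : Integrable (fun x => p t x * (A.V t x * (1 - A.V t x) ^ 2)) := by
    refine int_of_growth hL ht
      (hF.cV.mul ((continuous_const.sub hF.cV).pow 2)).aestronglyMeasurable (C := 1) (n := 0)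
      fun x => ?_
    have h1 := (hF.V_pos x).le
    have h2 := (hF.V_lt x).le
    rw [pow_zero, mul_one, abs_of_nonneg (mul_nonneg h1 (sq_nonneg _))]
    have : (1 - A.V t x) ^ 2 ≤ 1 := by nlinarith
    nlinarith [sq_nonneg (1 - A.V t x)]
  have hae : ∀ᵐ x ∂(volume : Measure ℝ), x ∉ S := by
    rw [ae_iff]; simpa using hS.measure_zero volume
  have key : ∫ x, p t x * A.P t x ^ 2 ≤
      ∫ x, (s * (p t x * (F' x - Y t x * F x)) +
        (s ^ 2 * (2 * c)) * (p t x * (A.V t x * (1 - A.V t x) ^ 2)) +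
        (s ^ 2 * ρ) * (p t x * H x)) := by
    refine integral_mono_ae intP (((int.const_mul s).add (intG.const_mul _)).add
      (intH.const_mul _)) ?_
    filter_upwards [hae] with x hx
    have h1 := hpt x hx
    have hp := (hL.p_pos t ht x).le
    have h2 : A.P t x ^ 2 ≤ s * (F' x - Y t x * F x) +
        s ^ 2 * (2 * c * (A.V t x * (1 - A.V t x) ^ 2) + ρ * H x) := by
      have h3 : s ^ 2 * ((A.P t x / s) ^ 2 - (F' x - Y t x * F x) / s) ≤
          s ^ 2 * (2 * c * (A.V t x * (1 - A.V t x) ^ 2) + ρ * H x) :=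
        mul_le_mul_of_nonneg_left h1 (sq_nonneg s)
      have h4 : s ^ 2 * ((A.P t x / s) ^ 2 - (F' x - Y t x * F x) / s) =
          A.P t x ^ 2 - s * (F' x - Y t x * F x) := by field_simp
      linarith
    have h3 := mul_le_mul_of_nonneg_left h2 hp
    linarith
  have e1 : ∫ x, (s * (p t x * (F' x - Y t x * F x)) +
        (s ^ 2 * (2 * c)) * (p t x * (A.V t x * (1 - A.V t x) ^ 2)) +
        (s ^ 2 * ρ) * (p t x * H x)) =
      s * (∫ x, p t x * (F' x - Y t x * F x)) + (s ^ 2 * (2 * c)) * Z +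
        (s ^ 2 * ρ) * ∫ x, p t x * H x := by
    rw [integral_add (f := fun x => s * (p t x * (F' x - Y t x * F x)) +
        (s ^ 2 * (2 * c)) * (p t x * (A.V t x * (1 - A.V t x) ^ 2)))
        ((int.const_mul s).add (intG.const_mul _)) (intH.const_mul _),
      integral_add (int.const_mul s) (intG.const_mul _), integral_const_mul, integral_const_mul,
      integral_const_mul]
  rw [e1, hz] at key
  have h5 : s ^ 2 * ρ * ∫ x, p t x * H x ≤ s ^ 2 * ρ * (C * Fix.KA CK e * Z) :=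
    mul_le_mul_of_nonneg_left hH (by positivity)
  have h6 : (2 * c + ρ * (C * Fix.KA CK e)) * s ^ 2 * Z =
      s ^ 2 * (2 * c) * Z + s ^ 2 * ρ * (C * Fix.KA CK e * Z) := by ring
  rw [h6]
  linarith

/-- **lower closure**: `(2 c - ρ C') s² Zs ≤ Ns`. -/
theorem clo_lo (hL : Law A x0 p Y Yx Yxx) (ht : t ∈ Ioc 0 A.T)
    (hF : Fix s (A.V t) (A.P t) (A.u t)) {CK e C lam : ℝ} {H : ℝ → ℝ}
    (h : Clo A t s p Y CK e C lam H) {c ρ : ℝ} (hρ : 0 ≤ ρ) {F F' : ℝ → ℝ} (cF : Continuous F)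
    {S : Set ℝ} (hS : S.Countable) (hFd : ∀ x ∉ S, HasDerivAt F (F' x) x)
    {C1 : ℝ} {n : ℕ} (hFC : ∀ x, |F x| ≤ C1 * (1 + |x|) ^ n)
    (hF'C : ∀ x, |F' x| ≤ C1 * (1 + |x|) ^ n)
    (hpt : ∀ x ∉ S, 2 * c * (A.V t x * (1 - A.V t x) ^ 2) - ρ * H x ≤
      (A.P t x / s) ^ 2 - (F' x - Y t x * F x) / s) :
    (2 * c - ρ * (C * Fix.KA CK e)) * s ^ 2 * Zs A x0 p t ≤ Ns A x0 p t := by
  have hs := hF.s_pos
  obtain ⟨int, hz⟩ := ibp_law hL ht cF hS hFd hFC hF'C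
  obtain ⟨intH, hH⟩ := absorb_law hL ht hF h
  rw [Zs_eq ht.1, Ns_eq ht.1]
  set Z := ∫ x, p t x * (A.V t x * (1 - A.V t x) ^ 2) with hZ
  have hP0 : ∀ x, 0 < A.P t x := hF.P_pos
  have intP : Integrable (fun x => p t x * A.P t x ^ 2) := by
    refine int_of_growth hL ht (hF.cP.pow 2).aestronglyMeasurable (C := (CK * s) ^ 2) (n := 0)
      fun x => ?_
    rw [pow_zero, mul_one, abs_of_nonneg (sq_nonneg _)]
    exact pow_le_pow_left₀ (hP0 x).le (h.hCK x) 2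
  have intG : Integrable (fun x => p t x * (A.V t x * (1 - A.V t x) ^ 2)) := by
    refine int_of_growth hL ht
      (hF.cV.mul ((continuous_const.sub hF.cV).pow 2)).aestronglyMeasurable (C := 1) (n := 0)
      fun x => ?_
    have h1 := (hF.V_pos x).le
    have h2 := (hF.V_lt x).le
    rw [pow_zero, mul_one, abs_of_nonneg (mul_nonneg h1 (sq_nonneg _))]
    have : (1 - A.V t x) ^ 2 ≤ 1 := by nlinarith
    nlinarith [sq_nonneg (1 - A.V t x)]
  have hae : ∀ᵐ x ∂(volume : Measure ℝ), x ∉ S := by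
    rw [ae_iff]; simpa using hS.measure_zero volume
  have key : ∫ x, (s * (p t x * (F' x - Y t x * F x)) +
        (s ^ 2 * (2 * c)) * (p t x * (A.V t x * (1 - A.V t x) ^ 2)) -
        (s ^ 2 * ρ) * (p t x * H x)) ≤ ∫ x, p t x * A.P t x ^ 2 := by
    refine integral_mono_ae (((int.const_mul s).add (intG.const_mul _)).sub
      (intH.const_mul _)) intP ?_
    filter_upwards [hae] with x hx
    have h1 := hpt x hx
    have hp := (hL.p_pos t ht x).le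
    have h2 : s * (F' x - Y t x * F x) +
        s ^ 2 * (2 * c * (A.V t x * (1 - A.V t x) ^ 2) - ρ * H x) ≤ A.P t x ^ 2 := by
      have h3 : s ^ 2 * (2 * c * (A.V t x * (1 - A.V t x) ^ 2) - ρ * H x) ≤
          s ^ 2 * ((A.P t x / s) ^ 2 - (F' x - Y t x * F x) / s) :=
        mul_le_mul_of_nonneg_left h1 (sq_nonneg s)
      have h4 : s ^ 2 * ((A.P t x / s) ^ 2 - (F' x - Y t x * F x) / s) =
          A.P t x ^ 2 - s * (F' x - Y t x * F x) := by field_simp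
      linarith
    have h3 := mul_le_mul_of_nonneg_left h2 hp
    linarith
  have e1 : ∫ x, (s * (p t x * (F' x - Y t x * F x)) +
        (s ^ 2 * (2 * c)) * (p t x * (A.V t x * (1 - A.V t x) ^ 2)) -
        (s ^ 2 * ρ) * (p t x * H x)) =
      s * (∫ x, p t x * (F' x - Y t x * F x)) + (s ^ 2 * (2 * c)) * Z -
        (s ^ 2 * ρ) * ∫ x, p t x * H x := by
    rw [integral_sub (f := fun x => s * (p t x * (F' x - Y t x * F x)) +
        (s ^ 2 * (2 * c)) * (p t x * (A.V t x * (1 - A.V t x) ^ 2)))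
        ((int.const_mul s).add (intG.const_mul _)) (intH.const_mul _),
      integral_add (int.const_mul s) (intG.const_mul _), integral_const_mul, integral_const_mul,
      integral_const_mul]
  rw [e1, hz] at key
  have h5 : s ^ 2 * ρ * ∫ x, p t x * H x ≤ s ^ 2 * ρ * (C * Fix.KA CK e * Z) :=
    mul_le_mul_of_nonneg_left hH (by positivity)
  have h6 : (2 * c - ρ * (C * Fix.KA CK e)) * s ^ 2 * Z =
      s ^ 2 * (2 * c) * Z - s ^ 2 * ρ * (C * Fix.KA CK e * Z) := by ring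
  rw [h6]
  linarith

/-! ### test functions `G(V)` -/

/-- static data of a closure dual function on `(0,1)` -/
structure Dual (G G' : ℝ → ℝ) (S0 : Set ℝ) (CG : ℝ) : Prop where
  cG : ContinuousOn G (Ioo 0 1)
  cS : S0.Countable
  hG : ∀ v ∈ Ioo (0:ℝ) 1, v ∉ S0 → HasDerivAt G (G' v) v
  G_le : ∀ v ∈ Ioo (0:ℝ) 1, |G v| ≤ CG
  G'_le : ∀ v ∈ Ioo (0:ℝ) 1, |G' v| ≤ CG

lemma Dual.comp {G G' : ℝ → ℝ} {S0 : Set ℝ} {CG : ℝ} (hG : Dual G G' S0 CG)
    (hF : Fix s (A.V t) (A.P t) (A.u t)) :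
    Continuous (fun x => G (A.V t x)) ∧ (A.V t ⁻¹' S0).Countable ∧
      ∀ x ∉ A.V t ⁻¹' S0, HasDerivAt (fun x => G (A.V t x)) (A.P t x * G' (A.V t x)) x := by
  refine ⟨?_, hG.cS.preimage hF.strictMono.injective, ?_⟩
  · rw [continuous_iff_continuousAt]
    intro x
    have hv : A.V t x ∈ Ioo (0:ℝ) 1 := ⟨hF.V_pos x, hF.V_lt x⟩
    exact ContinuousAt.comp (f := A.V t) (hG.cG.continuousAt (isOpen_Ioo.mem_nhds hv))
      hF.cV.continuousAt
  · intro x hx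
    have hv : A.V t x ∈ Ioo (0:ℝ) 1 := ⟨hF.V_pos x, hF.V_lt x⟩
    refine ((hG.hG _ hv hx).comp x (hF.hV x)).congr_deriv ?_
    ring

/-- **IBP for `G(V)`**: `∫ p (P G'(V) - Y G(V)) = 0`. -/
theorem ibp_G (hL : Law A x0 p Y Yx Yxx) (ht : t ∈ Ioc 0 A.T)
    (hF : Fix s (A.V t) (A.P t) (A.u t)) {CK : ℝ} (hCK : ∀ x, A.P t x ≤ CK)
    {G G' : ℝ → ℝ} {S0 : Set ℝ} {CG : ℝ} (hG : Dual G G' S0 CG) :
    Integrable (fun x => p t x * (A.P t x * G' (A.V t x) - Y t x * G (A.V t x))) ∧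
      ∫ x, p t x * (A.P t x * G' (A.V t x) - Y t x * G (A.V t x)) = 0 := by
  obtain ⟨h1, h2, h3⟩ := hG.comp hF
  have hCG : 0 ≤ CG := (abs_nonneg _).trans (hG.G_le (1 / 2) ⟨by norm_num, by norm_num⟩)
  have hCK0 : 0 ≤ CK := (hF.P_pos 0).le.trans (hCK 0)
  refine ibp_law hL ht h1 h2 h3 (C := CG + CK * CG) (n := 0) (fun x => ?_) fun x => ?_
  · have hv : A.V t x ∈ Ioo (0:ℝ) 1 := ⟨hF.V_pos x, hF.V_lt x⟩
    have := hG.G_le _ hv
    have := mul_nonneg hCK0 hCG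
    rw [pow_zero, mul_one]; linarith
  · have hv : A.V t x ∈ Ioo (0:ℝ) 1 := ⟨hF.V_pos x, hF.V_lt x⟩
    rw [pow_zero, mul_one, abs_mul, abs_of_pos (hF.P_pos x)]
    have := mul_le_mul (hCK x) (hG.G'_le _ hv) (abs_nonneg _) hCK0
    linarith

/-- **upper closure with `G(V)`** -/
theorem clo_up_G (hL : Law A x0 p Y Yx Yxx) (ht : t ∈ Ioc 0 A.T)
    (hF : Fix s (A.V t) (A.P t) (A.u t)) {CK e C lam : ℝ} {H : ℝ → ℝ}
    (h : Clo A t s p Y CK e C lam H) {c ρ : ℝ} (hρ : 0 ≤ ρ)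
    {G G' : ℝ → ℝ} {S0 : Set ℝ} {CG : ℝ} (hG : Dual G G' S0 CG)
    (hpt : ∀ x, A.V t x ∉ S0 → (A.P t x / s) ^ 2 - (A.P t x / s) * G' (A.V t x) +
      (Y t x / s) * G (A.V t x) ≤ 2 * c * (A.V t x * (1 - A.V t x) ^ 2) + ρ * H x) :
    Ns A x0 p t ≤ (2 * c + ρ * (C * Fix.KA CK e)) * s ^ 2 * Zs A x0 p t := by
  obtain ⟨h1, h2, h3⟩ := hG.comp hF
  have hCG : 0 ≤ CG := (abs_nonneg _).trans (hG.G_le (1 / 2) ⟨by norm_num, by norm_num⟩)
  have hCK0 : 0 ≤ CK * s := mul_nonneg h.hCK0 hF.s_pos.le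
  refine clo_up hL ht hF h hρ h1 h2 h3 (C1 := CG + CK * s * CG) (n := 0) (fun x => ?_)
    (fun x => ?_) fun x hx => ?_
  · have hv : A.V t x ∈ Ioo (0:ℝ) 1 := ⟨hF.V_pos x, hF.V_lt x⟩
    have := hG.G_le _ hv
    have := mul_nonneg hCK0 hCG
    rw [pow_zero, mul_one]; linarith
  · have hv : A.V t x ∈ Ioo (0:ℝ) 1 := ⟨hF.V_pos x, hF.V_lt x⟩
    rw [pow_zero, mul_one, abs_mul, abs_of_pos (hF.P_pos x)]
    have := mul_le_mul (h.hCK x) (hG.G'_le _ hv) (abs_nonneg _) hCK0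
    linarith
  · have := hpt x hx
    have e : (A.P t x / s) ^ 2 - (A.P t x * G' (A.V t x) - Y t x * G (A.V t x)) / s =
        (A.P t x / s) ^ 2 - (A.P t x / s) * G' (A.V t x) + (Y t x / s) * G (A.V t x) := by ring
    rw [e]; exact this

/-- **lower closure with `G(V)`** -/
theorem clo_lo_G (hL : Law A x0 p Y Yx Yxx) (ht : t ∈ Ioc 0 A.T)
    (hF : Fix s (A.V t) (A.P t) (A.u t)) {CK e C lam : ℝ} {H : ℝ → ℝ}
    (h : Clo A t s p Y CK e C lam H) {c ρ : ℝ} (hρ : 0 ≤ ρ)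
    {G G' : ℝ → ℝ} {S0 : Set ℝ} {CG : ℝ} (hG : Dual G G' S0 CG)
    (hpt : ∀ x, A.V t x ∉ S0 → 2 * c * (A.V t x * (1 - A.V t x) ^ 2) - ρ * H x ≤
      (A.P t x / s) ^ 2 - (A.P t x / s) * G' (A.V t x) + (Y t x / s) * G (A.V t x)) :
    (2 * c - ρ * (C * Fix.KA CK e)) * s ^ 2 * Zs A x0 p t ≤ Ns A x0 p t := by
  obtain ⟨h1, h2, h3⟩ := hG.comp hF
  have hCG : 0 ≤ CG := (abs_nonneg _).trans (hG.G_le (1 / 2) ⟨by norm_num, by norm_num⟩)
  have hCK0 : 0 ≤ CK * s := mul_nonneg h.hCK0 hF.s_pos.le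
  refine clo_lo hL ht hF h hρ h1 h2 h3 (C1 := CG + CK * s * CG) (n := 0) (fun x => ?_)
    (fun x => ?_) fun x hx => ?_
  · have hv : A.V t x ∈ Ioo (0:ℝ) 1 := ⟨hF.V_pos x, hF.V_lt x⟩
    have := hG.G_le _ hv
    have := mul_nonneg hCK0 hCG
    rw [pow_zero, mul_one]; linarith
  · have hv : A.V t x ∈ Ioo (0:ℝ) 1 := ⟨hF.V_pos x, hF.V_lt x⟩
    rw [pow_zero, mul_one, abs_mul, abs_of_pos (hF.P_pos x)]
    have := mul_le_mul (h.hCK x) (hG.G'_le _ hv) (abs_nonneg _) hCK0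
    linarith
  · have := hpt x hx
    have e : (A.P t x / s) ^ 2 - (A.P t x * G' (A.V t x) - Y t x * G (A.V t x)) / s =
        (A.P t x / s) ^ 2 - (A.P t x / s) * G' (A.V t x) + (Y t x / s) * G (A.V t x) := by ring
    rw [e]; exact this

end closure

/-! ### the two pointwise lemmas with transients -/

/-- upper pointwise lemma: certificate at `I = K₊`, `κ = κ₋ ≥ 0`, `G ≤ 0`; perturbation `ε`. -/
lemma up_pt {I Kp G G' κ κm cw ε h : ℝ} (hI0 : 0 ≤ I) (hG : G ≤ 0) (hκm : 0 ≤ κm)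
    (hcw : 0 ≤ cw) (hε : 0 ≤ ε) (hε1 : ε ≤ 1)
    (cert : Kp ^ 2 - Kp * G' + κm * G ≤ cw) (hKp : 0 < Kp)
    (hI : I ≤ (1 + ε) * Kp) (hκ : κm - ε * h ≤ κ) :
    I ^ 2 - I * G' + κ * G ≤ cw + ε * (3 * Kp ^ 2 + Kp * |G'| + h * |G|) := by
  have hGa : |G| = -G := abs_of_nonpos hG
  have h1 : κ * G ≤ κm * G + ε * (h * |G|) := by
    rw [hGa]; nlinarith
  have h0 : κm * G ≤ 0 := mul_nonpos_of_nonneg_of_nonpos hκm hG
  have h2 : I ^ 2 - I * G' + κm * G ≤ cw + ε * (3 * Kp ^ 2 + Kp * |G'|) := by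
    have hG'1 := neg_abs_le G'
    have hG'2 := abs_nonneg G'
    rcases le_total I Kp with h3 | h3
    · -- convexity on `[0, Kp]`
      have h4 : Kp * (I ^ 2 - I * G' + κm * G - cw) ≤ 0 := by
        have h5 : Kp * (I ^ 2 - I * G' + κm * G - cw) =
            I * (Kp ^ 2 - Kp * G' + κm * G - cw) + (Kp - I) * (κm * G - cw) -
              I * Kp * (Kp - I) := by ring
        rw [h5]
        have h6 : I * (Kp ^ 2 - Kp * G' + κm * G - cw) ≤ 0 :=
          mul_nonpos_of_nonneg_of_nonpos hI0 (by linarith)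
        have h7 : (Kp - I) * (κm * G - cw) ≤ 0 :=
          mul_nonpos_of_nonneg_of_nonpos (by linarith) (by linarith)
        have h8 : 0 ≤ I * Kp * (Kp - I) :=
          mul_nonneg (mul_nonneg hI0 hKp.le) (by linarith)
        linarith
      have h5 : I ^ 2 - I * G' + κm * G - cw ≤ 0 := by
        by_contra hcon
        push Not at hcon
        have := mul_pos hKp hcon
        linarith
      have h6 : 0 ≤ ε * (3 * Kp ^ 2 + Kp * |G'|) := by positivity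
      linarith
    · have h4 : I ^ 2 - I * G' = Kp ^ 2 - Kp * G' + (I - Kp) * (I + Kp - G') := by ring
      have h5 : I - Kp ≤ ε * Kp := by linarith
      have h6 : I + Kp - G' ≤ 3 * Kp + |G'| := by nlinarith
      have h7 : (I - Kp) * (I + Kp - G') ≤ (I - Kp) * (3 * Kp + |G'|) :=
        mul_le_mul_of_nonneg_left h6 (by linarith)
      have h8 : (I - Kp) * (3 * Kp + |G'|) ≤ ε * Kp * (3 * Kp + |G'|) :=
        mul_le_mul_of_nonneg_right h5 (by positivity)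
      nlinarith
  nlinarith

/-- lower pointwise lemma: certificate at `I = K₋`, `κ = κ₊`, `G ≤ 0`, `G' ≤ 2 K₋`. -/
lemma lo_pt {I Km G G' κ κp cw ε h : ℝ} (hG : G ≤ 0) (hε : 0 ≤ ε)
    (hKm : 0 ≤ Km) (h2K : G' ≤ 2 * Km)
    (cert : cw ≤ Km ^ 2 - Km * G' + κp * G)
    (hI : (1 - ε) * Km ≤ I) (hκ : κ ≤ κp + ε * h) :
    cw - ε * (2 * Km ^ 2 + Km * |G'| + h * |G|) ≤ I ^ 2 - I * G' + κ * G := by
  have hGa : |G| = -G := abs_of_nonpos hG
  have h1 : κp * G - ε * (h * |G|) ≤ κ * G := by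
    rw [hGa]; nlinarith
  have h2 : cw - κp * G - ε * (2 * Km ^ 2 + Km * |G'|) ≤ I ^ 2 - I * G' := by
    have hG'1 := neg_abs_le G'
    have hG'3 := le_abs_self G'
    have hG'2 := abs_nonneg G'
    have h4 : I ^ 2 - I * G' = Km ^ 2 - Km * G' + (I - Km) * (I + Km - G') := by ring
    rcases le_total Km I with h3 | h3
    · have h5 : 0 ≤ (I - Km) * (I + Km - G') := mul_nonneg (by linarith) (by linarith)
      have h6 : 0 ≤ ε * (2 * Km ^ 2 + Km * |G'|) := by positivity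
      linarith
    · have h5 : Km - I ≤ ε * Km := by linarith
      have h5' : 0 ≤ Km - I := by linarith
      have h6 : I + Km - G' ≤ 2 * Km + |G'| := by linarith
      have h7 : (Km - I) * (I + Km - G') ≤ (Km - I) * (2 * Km + |G'|) :=
        mul_le_mul_of_nonneg_left h6 h5'
      have h8 : (Km - I) * (2 * Km + |G'|) ≤ ε * Km * (2 * Km + |G'|) :=
        mul_le_mul_of_nonneg_right h5 (by positivity)
      nlinarith
  nlinarith

section ready

variable {A : SD} {x0 : ℝ} {p Y Yx Yxx : ℝ → ℝ → ℝ} {t s : ℝ}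

/-- **(Q+) ready form.** `√χ V_x ≤ (1+ε) K₊(V)`, `κ ≥ κ₋(x) - ε h(x)`, `κ₋ ≥ 0`, certificate at `K₊, κ₋`. -/
theorem clo_up_Q (hL : Law A x0 p Y Yx Yxx) (ht : t ∈ Ioc 0 A.T)
    (hF : Fix s (A.V t) (A.P t) (A.u t)) {CK e C lam ε c : ℝ} (hc : 0 ≤ c) (hε : 0 ≤ ε)
    (hε1 : ε ≤ 1) {G G' Kp km h : ℝ → ℝ} {S0 : Set ℝ} {CG : ℝ} (hG : Dual G G' S0 CG)
    (hG0 : ∀ v ∈ Ioo (0:ℝ) 1, G v ≤ 0) (hKp : ∀ v ∈ Ioo (0:ℝ) 1, 0 < Kp v)
    (hkm : ∀ x, 0 ≤ km x)
    (cert : ∀ x, A.V t x ∉ S0 → Kp (A.V t x) ^ 2 - Kp (A.V t x) * G' (A.V t x) +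
      km x * G (A.V t x) ≤ 2 * c * (A.V t x * (1 - A.V t x) ^ 2))
    (hI : ∀ x, A.P t x ≤ (1 + ε) * (s * Kp (A.V t x)))
    (hκ : ∀ x, s * (km x - ε * h x) ≤ Y t x)
    (hH : Clo A t s p Y CK e C lam (fun x => 3 * Kp (A.V t x) ^ 2 +
      Kp (A.V t x) * |G' (A.V t x)| + h x * |G (A.V t x)|)) :
    Ns A x0 p t ≤ (2 * c + ε * (C * Fix.KA CK e)) * s ^ 2 * Zs A x0 p t := by
  have hs := hF.s_pos
  refine clo_up_G hL ht hF hH hε hG fun x hx => ?_
  have hv : A.V t x ∈ Ioo (0:ℝ) 1 := ⟨hF.V_pos x, hF.V_lt x⟩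
  have hw : 0 ≤ 2 * c * (A.V t x * (1 - A.V t x) ^ 2) :=
    mul_nonneg (by linarith) (mul_nonneg hv.1.le (sq_nonneg _))
  refine up_pt (div_nonneg (hF.P_pos x).le hs.le) (hG0 _ hv) (hkm x) hw hε hε1
    (cert x hx) (hKp _ hv) ?_ ?_
  · rw [div_le_iff₀ hs]
    have := hI x
    linarith
  · rw [le_div_iff₀ hs]
    have := hκ x
    linarith

/-- **(Q-) ready form.** `(1-ε) K₋(V) ≤ √χ V_x`, `κ ≤ κ₊(x) + ε h(x)`, certificate at `K₋, κ₊`,
`G' ≤ 2 K₋`. -/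
theorem clo_lo_Q (hL : Law A x0 p Y Yx Yxx) (ht : t ∈ Ioc 0 A.T)
    (hF : Fix s (A.V t) (A.P t) (A.u t)) {CK e C lam ε c : ℝ} (hε : 0 ≤ ε)
    {G G' Km kp h : ℝ → ℝ} {S0 : Set ℝ} {CG : ℝ} (hG : Dual G G' S0 CG)
    (hG0 : ∀ v ∈ Ioo (0:ℝ) 1, G v ≤ 0) (hKm : ∀ v ∈ Ioo (0:ℝ) 1, 0 ≤ Km v)
    (h2K : ∀ v ∈ Ioo (0:ℝ) 1, v ∉ S0 → G' v ≤ 2 * Km v)
    (cert : ∀ x, A.V t x ∉ S0 → 2 * c * (A.V t x * (1 - A.V t x) ^ 2) ≤
      Km (A.V t x) ^ 2 - Km (A.V t x) * G' (A.V t x) + kp x * G (A.V t x))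
    (hI : ∀ x, (1 - ε) * (s * Km (A.V t x)) ≤ A.P t x)
    (hκ : ∀ x, Y t x ≤ s * (kp x + ε * h x))
    (hH : Clo A t s p Y CK e C lam (fun x => 2 * Km (A.V t x) ^ 2 +
      Km (A.V t x) * |G' (A.V t x)| + h x * |G (A.V t x)|)) :
    (2 * c - ε * (C * Fix.KA CK e)) * s ^ 2 * Zs A x0 p t ≤ Ns A x0 p t := by
  have hs := hF.s_pos
  refine clo_lo_G hL ht hF hH hε hG fun x hx => ?_
  have hv : A.V t x ∈ Ioo (0:ℝ) 1 := ⟨hF.V_pos x, hF.V_lt x⟩
  refine lo_pt (hG0 _ hv) hε (hKm _ hv) (h2K _ hv hx) (cert x hx) ?_ ?_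
  · rw [le_div_iff₀ hs]
    have := hI x
    linarith
  · rw [div_le_iff₀ hs]
    have := hκ x
    linarith

end ready

end Crest.Agent.R146.Clo_423
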