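import Crest.Agent.R146.HFact_924
import Crest.Agent.R146.Enc1_848

/-!
# Row 146, NUMREF, field (CLO) from ONE polynomial inequality (helper924)

`G± = gp G₀, gm G₀`, `gp = 1 + a δ V`, `gm = 1 - a δ V`, `H = -G₀` (`HFact_924.HH`), `w = V (1-V)²`.

* `PHI c a F B σ V I k H = B (I² (1+σB) + 2cw + kH) + F H + a (1+σB) (V (kH - I² + 2cw) + I H)`
* certificate: `PHI ... σ ... ≤ 2 G w` for `σ = c` and `σ = -c`, all `x`;
* result: both closure inequalities for every `δ ∈ (0, c]`, all `j ∈ [1-δB, 1+δB]`, all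
  `L ≥ 0`, `|L - k| ≤ δ F`.
-/

set_option autoImplicit false

namespace Crest.Agent.R146.Clo_924

open Set Filter Topology
open Crest.Agent.R146.SPair_307 Crest.Agent.R146.HFact_924

noncomputable section

/-- the one-point expression of the closure certificate -/
def PHI (c a F B σ v I k H : ℝ) : ℝ :=
  B * (I ^ 2 * (1 + σ * B) + 2 * c * (v * (1 - v) ^ 2) + k * H) + F * H
    + a * (1 + σ * B) * (v * (k * H - I ^ 2 + 2 * c * (v * (1 - v) ^ 2)) + I * H)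

/-- affine in `σ` -/
theorem PHI_le {c a F B v I k H M : ℝ} (hc : 0 < c) (h1 : PHI c a F B c v I k H ≤ M)
    (h2 : PHI c a F B (-c) v I k H ≤ M) {σ : ℝ} (hs1 : -c ≤ σ) (hs2 : σ ≤ c) :
    PHI c a F B σ v I k H ≤ M := by
  have e : 2 * c * PHI c a F B σ v I k H
      = (c + σ) * PHI c a F B c v I k H + (c - σ) * PHI c a F B (-c) v I k H := by
    unfold PHI; ring
  have h3 : (c + σ) * PHI c a F B c v I k H ≤ (c + σ) * M :=
    mul_le_mul_of_nonneg_left h1 (by linarith)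
  have h4 : (c - σ) * PHI c a F B (-c) v I k H ≤ (c - σ) * M :=
    mul_le_mul_of_nonneg_left h2 (by linarith)
  have h5 : 2 * c * PHI c a F B σ v I k H ≤ 2 * c * M := by rw [e]; nlinarith
  exact le_of_mul_le_mul_left h5 (by linarith)

/-- **upper closure inequality** from `PHI` at `σ = δ` -/
theorem clo_up {c a F B G dl v I k H j L : ℝ} (hc : 0 < c) (hd : 0 < dl) (ha : 0 ≤ a)
    (hv : 0 ≤ v) (hadv : a * dl * v ≤ 1) (hI : 0 ≤ I) (hk : 0 ≤ k) (hH : 0 ≤ H)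
    (hP : PHI c a F B dl v I k H ≤ 2 * G * (v * (1 - v) ^ 2))
    (hj1 : 1 - dl * B ≤ j) (hj2 : j ≤ 1 + dl * B) (hL0 : 0 ≤ L) (hL : k - dl * F ≤ L) :
    I ^ 2 * j * (j - (1 + a * dl * v)) + 2 * (v * (1 - v) ^ 2) * (c * j * (1 + a * dl * v)
      - (c + G * dl)) + (1 + a * dl * v) * H * (j * k - L) + j * (a * dl * I) * H ≤ 0 := by
  have hadv0 : 0 ≤ a * dl * v := by positivity
  have hw : 0 ≤ v * (1 - v) ^ 2 := by positivity
  -- monotone in `j`
  have m1 : 0 ≤ (1 + dl * B - j) * (I ^ 2 * (j + (1 + dl * B) - (1 + a * dl * v))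
      + 2 * (v * (1 - v) ^ 2) * (c * (1 + a * dl * v)) + (1 + a * dl * v) * H * k
      + (a * dl * I) * H) := by
    apply mul_nonneg (by linarith)
    have : 0 ≤ j + (1 + dl * B) - (1 + a * dl * v) := by linarith
    positivity
  -- value at the top
  have m2 : 0 ≤ H * (dl * F - (k - L)) := mul_nonneg hH (by linarith)
  have m3 : 0 ≤ (a * dl * v) * H * L := by positivity
  have m4 : dl * PHI c a F B dl v I k H ≤ dl * (2 * G * (v * (1 - v) ^ 2)) :=
    mul_le_mul_of_nonneg_left hP hd.le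
  unfold PHI at m4
  linarith

/-- **lower closure inequality** from `PHI` at `σ = -δ`; `hM` = monotonicity in `j` -/
theorem clo_lo {c a F B G dl v I k H j L : ℝ} (hd : 0 < dl) (ha : 0 ≤ a)
    (hv : 0 ≤ v) (hadv : a * dl * v ≤ 1) (hk : 0 ≤ k) (hH : 0 ≤ H) (hB : 0 ≤ B) (hF : 0 ≤ F)
    (hdB : dl * B ≤ 1)
    (hP : PHI c a F B (-dl) v I k H ≤ 2 * G * (v * (1 - v) ^ 2))
    (hM : a * dl * I * H ≤ I ^ 2 * (1 - 2 * (dl * B) + a * dl * v)
      + 2 * (v * (1 - v) ^ 2) * (c * (1 - a * dl * v)) + (1 - a * dl * v) * H * k)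
    (hj1 : 1 - dl * B ≤ j) (hL : L ≤ k + dl * F) :
    0 ≤ I ^ 2 * j * (j - (1 - a * dl * v)) + 2 * (v * (1 - v) ^ 2) * (c * j * (1 - a * dl * v)
      - (c - G * dl)) + (1 - a * dl * v) * H * (j * k - L) + j * (-(a * dl * I)) * H := by
  have hadv0 : 0 ≤ a * dl * v := by positivity
  have m1 : 0 ≤ (j - (1 - dl * B)) * (I ^ 2 * (j + (1 - dl * B) - (1 - a * dl * v))
      + 2 * (v * (1 - v) ^ 2) * (c * (1 - a * dl * v)) + (1 - a * dl * v) * H * k
      - (a * dl * I) * H) := by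
    apply mul_nonneg (by linarith)
    have : 0 ≤ I ^ 2 * (j - (1 - dl * B)) := mul_nonneg (sq_nonneg _) (by linarith)
    nlinarith
  have m2 : 0 ≤ (1 - a * dl * v) * H * (k + dl * F - L) :=
    mul_nonneg (mul_nonneg (by linarith) hH) (by linarith)
  have m3 : 0 ≤ dl * ((a * dl * v) * H * (B * k + F)) := by positivity
  have m4 : 0 ≤ dl * (a * (1 - dl * B) * (v * k * H)) := by
    have : 0 ≤ 1 - dl * B := by linarith
    positivity
  have m5 : dl * PHI c a F B (-dl) v I k H ≤ dl * (2 * G * (v * (1 - v) ^ 2)) :=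
    mul_le_mul_of_nonneg_left hP hd.le
  unfold PHI at m5
  nlinarith

/-- monotonicity in `j` for the lower inequality -/
theorem hM_of {c a B dl v I k H : ℝ} (hc : 0 < c) (hc2 : c ≤ 41574 / 100000) (hd : 0 < dl) (hdc : dl ≤ c)
    (ha : 0 ≤ a) (ha1 : a ≤ 1) (hv : 0 < v) (hv1 : v < 1) (hI : 0 < I) (hk : 0 ≤ k)
    (hH : 0 ≤ H) (hH2 : H ≤ I * (1 - v) / 2) (hB : B ≤ 12026 / 10000)
    (hor : 1 / 3 ≤ v ∨ I ^ 2 ≤ 3 * (v * (1 - v) ^ 2)) :
    a * dl * I * H ≤ I ^ 2 * (1 - 2 * (dl * B) + a * dl * v)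
      + 2 * (v * (1 - v) ^ 2) * (c * (1 - a * dl * v)) + (1 - a * dl * v) * H * k := by
  have hw : 0 < v * (1 - v) ^ 2 := by
    have : 0 < 1 - v := by linarith
    positivity
  have hadl : a * dl ≤ c := by nlinarith
  have hadl0 : 0 ≤ a * dl := by positivity
  have h0 : 0 ≤ 1 - a * dl * v := by nlinarith
  have h1 : a * dl * I * H ≤ a * dl * (I ^ 2 * ((1 - v) / 2)) := by
    have := mul_le_mul_of_nonneg_left hH2 (mul_nonneg hadl0 hI.le)
    nlinarith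
  have h2 : 0 ≤ 1 - 2 * (dl * B) := by nlinarith
  have h3 : 0 ≤ I ^ 2 * (1 - 2 * (dl * B)) := mul_nonneg (sq_nonneg _) h2
  have h4 : 0 ≤ (1 - a * dl * v) * H * k := by positivity
  rcases hor with hor | hor
  · have h5 : 0 ≤ 2 * (v * (1 - v) ^ 2) * (c * (1 - a * dl * v)) := by positivity
    have h6 : 0 ≤ a * dl * (I ^ 2 * (v - (1 - v) / 2)) :=
      mul_nonneg hadl0 (mul_nonneg (sq_nonneg _) (by linarith))
    nlinarith
  · rcases le_total (1 / 3) v with hv3 | hv3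
    · have h5 : 0 ≤ 2 * (v * (1 - v) ^ 2) * (c * (1 - a * dl * v)) := by positivity
      have h6 : 0 ≤ a * dl * (I ^ 2 * (v - (1 - v) / 2)) :=
        mul_nonneg hadl0 (mul_nonneg (sq_nonneg _) (by linarith))
      nlinarith
    · have h5 : a * dl * (I ^ 2 * (1 / 2 - 3 / 2 * v))
          ≤ a * dl * (3 * (v * (1 - v) ^ 2) * (1 / 2 - 3 / 2 * v)) :=
        mul_le_mul_of_nonneg_left (mul_le_mul_of_nonneg_right hor (by linarith)) hadl0
      have h6 : a * dl * (3 * (v * (1 - v) ^ 2) * (1 / 2 - 3 / 2 * v))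
          ≤ c * (3 * (v * (1 - v) ^ 2) * (1 / 2 - 3 / 2 * v)) :=
        mul_le_mul_of_nonneg_right hadl
          (mul_nonneg (by positivity) (by linarith))
      have h7 : a * dl * v ≤ 5 / 12 * v := mul_le_mul_of_nonneg_right (hadl.trans (hc2.trans (by norm_num))) hv.le
      have h8 : 0 ≤ c * (v * (1 - v) ^ 2) * (2 * (1 - a * dl * v) - 3 * (1 / 2 - 3 / 2 * v)) :=
        mul_nonneg (by positivity) (by linarith)
      nlinarith

/-! ### one point -/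

open Crest.Agent.R146.PP865 Crest.Agent.R146.EncData_848 Crest.Agent.R146.EncR_848
open Crest.Agent.R146.Enc1_848

theorem cV0 : chkBoxR 36 3 18 (-1) (-1) [] (.var 2 - .cst 23 6) p0 ps = true := by decide +kernel
theorem cV1 : chkBoxR 36 3 18 (-1) (-1) [] (.cst 1 1 - .var 2) p0 ps = true := by decide +kernel
theorem cW0 : chkBoxR 36 3 18 (-1) (-1) [] (.cst 7 4 - .var 1) p0 ps = true := by decide +kernel

section main

variable {c lam : ℝ} {W V I k : ℝ → ℝ}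

theorem V0_ge (h : SPair c W V I k lam) (hc1 : 435929 / 2 ^ 20 ≤ c) (hc2 : c ≤ 435931 / 2 ^ 20) :
    1 / 3 ≤ V (-(1 / 8)) := by
  have h1 := encV h hc1 hc2 (-(1 / 8)) ⟨by norm_num, by norm_num⟩
  have h2 := chk (z := -(1 / 8)) (s := 0) (t := 0) cV0 (by norm_num) (by norm_num) (by norm_num)
    (by norm_num) (by simp)
  simp only [Ex.evR_sub, Ex.evR_var, Ex.evR_cst, env2] at h2
  have h3 := (abs_le.1 h1).1
  norm_num at h2 h3 ⊢
  linarith

theorem V0_le (h : SPair c W V I k lam) (hc1 : 435929 / 2 ^ 20 ≤ c) (hc2 : c ≤ 435931 / 2 ^ 20) :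
    V (-(1 / 8)) ≤ 4 / 7 := by
  have h1 := encV h hc1 hc2 (-(1 / 8)) ⟨by norm_num, by norm_num⟩
  have h2 := chk (z := -(1 / 8)) (s := 0) (t := 0) cV1 (by norm_num) (by norm_num) (by norm_num)
    (by norm_num) (by simp)
  simp only [Ex.evR_sub, Ex.evR_var, Ex.evR_cst, env2] at h2
  have h3 := (abs_le.1 h1).2
  norm_num at h2 h3 ⊢
  linarith

theorem W0_le (h : SPair c W V I k lam) (hc1 : 435929 / 2 ^ 20 ≤ c) (hc2 : c ≤ 435931 / 2 ^ 20) :
    W (-(1 / 8)) ≤ 4 / 9 := by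
  have h1 := encW h hc1 hc2 (-(1 / 8)) ⟨by norm_num, by norm_num⟩
  have h2 := chk (z := -(1 / 8)) (s := 0) (t := 0) cW0 (by norm_num) (by norm_num) (by norm_num)
    (by norm_num) (by simp)
  simp only [Ex.evR_sub, Ex.evR_var, Ex.evR_cst, env1] at h2
  have h3 := (abs_le.1 h1).2
  norm_num at h2 h3 ⊢
  linarith

/-- `I² ≤ 3 V (1-V)²` at `-1/8` -/
theorem rho0 (h : SPair c W V I k lam) (hc1 : 435929 / 2 ^ 20 ≤ c) (hc2 : c ≤ 435931 / 2 ^ 20) :
    I (-(1 / 8)) ^ 2 ≤ 3 * (V (-(1 / 8)) * (1 - V (-(1 / 8))) ^ 2) := by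
  have a1 := V0_ge h hc1 hc2
  have a2 := V0_le h hc1 hc2
  have a3 := W0_le h hc1 hc2
  have a4 := h.W_pos (-(1 / 8))
  have a5 : I (-(1 / 8)) = W (-(1 / 8)) * (1 + c - 2 * c * V (-(1 / 8)))
      + (1 - c) / 8 * V (-(1 / 8)) := by
    rw [h.eqI (-(1 / 8))]; unfold Ad; ring
  have hI := h.I_pos (-(1 / 8))
  norm_num at hc1 hc2
  have a6 : I (-(1 / 8)) ≤ 4 / 9 * (1 + c - 2 * c * V (-(1 / 8))) + (1 - c) / 8 * V (-(1 / 8)) := by
    rw [a5]
    have : 0 ≤ 1 + c - 2 * c * V (-(1 / 8)) := by nlinarith [h.c_pos]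
    have := mul_le_mul_of_nonneg_right a3 this
    linarith
  have a7 : 4 / 9 * (1 + c - 2 * c * V (-(1 / 8))) + (1 - c) / 8 * V (-(1 / 8))
      ≤ 630 / 1000 - 296 / 1000 * V (-(1 / 8)) := by
    nlinarith
  have a8 : I (-(1 / 8)) ^ 2 ≤ (630 / 1000 - 296 / 1000 * V (-(1 / 8))) ^ 2 :=
    pow_le_pow_left₀ hI.le (a6.trans a7) 2
  refine a8.trans ?_
  nlinarith [mul_nonneg (sub_nonneg.2 a1) (sub_nonneg.2 a2),
    mul_nonneg (mul_nonneg (sub_nonneg.2 a1) (sub_nonneg.2 a2)) (sub_nonneg.2 a1)]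

/-- the alternative of `hM_of` -/
theorem hor (h : SPair c W V I k lam) (hc1 : 435929 / 2 ^ 20 ≤ c) (hc2 : c ≤ 435931 / 2 ^ 20)
    (x : ℝ) : 1 / 3 ≤ V x ∨ I x ^ 2 ≤ 3 * (V x * (1 - V x) ^ 2) := by
  have hV : StrictMono V := by
    apply strictMono_of_deriv_pos
    intro x
    rw [(h.dV x).deriv]
    exact h.I_pos x
  rcases le_total (-(1 / 8)) x with hx | hx
  · exact Or.inl ((V0_ge h hc1 hc2).trans (hV.monotone hx))
  · right
    have h1 : I x ^ 2 / (V x * (1 - V x) ^ 2)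
        ≤ I (-(1 / 8)) ^ 2 / (V (-(1 / 8)) * (1 - V (-(1 / 8))) ^ 2) :=
      (rho_mono h (by norm_num at hc1 ⊢; linarith)).monotone hx
    have h2 : ∀ y, 0 < V y * (1 - V y) ^ 2 := fun y => by
      have := h.V_pos y
      have : 0 < 1 - V y := by linarith [h.V_lt y]
      positivity
    have h3 := rho0 h hc1 hc2
    rw [← div_le_iff₀ (h2 (-(1 / 8)))] at h3
    rw [← div_le_iff₀ (h2 x)]
    exact h1.trans h3

/-! ### the reduction -/

/-- **closure certificate**: `B` a majorant of the shape, `F ≥ f± + Z` -/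
def Cert (c a F G : ℝ) (B W V I k : ℝ → ℝ) : Prop :=
  ∀ x, ∀ σ, σ = c ∨ σ = -c →
    PHI c a F (B x) σ (V x) (I x) (k x) (HH c W V I k x) ≤ 2 * G * (V x * (1 - V x) ^ 2)

/-- **(CLO), upper half** -/
theorem up_of (h : SPair c W V I k c) (hc1 : 435929 / 2 ^ 20 ≤ c)
    {a F G dl : ℝ} {B : ℝ → ℝ} (ha : 0 ≤ a) (ha1 : a ≤ 1) (hd : 0 < dl) (hdc : dl ≤ c)
    (hC : Cert c a F G B W V I k) (x : ℝ) {j L : ℝ}
    (hj1 : 1 - dl * B x ≤ j) (hj2 : j ≤ 1 + dl * B x) (hL0 : 0 ≤ L) (hL : k x - dl * F ≤ L) :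
    I x ^ 2 * j * (j - (1 + a * dl * V x)) + 2 * (V x * (1 - V x) ^ 2) * (c * j * (1 + a * dl * V x)
      - (c + G * dl)) + (1 + a * dl * V x) * HH c W V I k x * (j * k x - L)
      + j * (a * dl * I x) * HH c W V I k x ≤ 0 := by
  have hV := h.V_pos x
  have hV1 := h.V_lt x
  have hcl := h.c_lt
  have hc := h.c_pos
  have hadv : a * dl * V x ≤ 1 := by
    have h1 : a * dl ≤ 1 := by nlinarith
    have h2 : 0 ≤ a * dl := by positivity
    nlinarith
  exact clo_up hc hd ha hV.le hadv (h.I_pos x).le (h.k_pos x).le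
    (H_pos h (by norm_num at hc1 ⊢; linarith) x).le
    (PHI_le hc (hC x c (Or.inl rfl)) (hC x (-c) (Or.inr rfl)) (by linarith) hdc)
    hj1 hj2 hL0 hL

/-- **(CLO), lower half** -/
theorem lo_of (h : SPair c W V I k c) (hc1 : 435929 / 2 ^ 20 ≤ c) (hc2 : c ≤ 435931 / 2 ^ 20)
    {a F G dl : ℝ} {B : ℝ → ℝ} (ha : 0 ≤ a) (ha1 : a ≤ 1) (hF : 0 ≤ F) (hd : 0 < dl) (hdc : dl ≤ c)
    (hB0 : ∀ x, 0 ≤ B x) (hB : ∀ x, B x ≤ 12026 / 10000)
    (hC : Cert c a F G B W V I k) (x : ℝ) {j L : ℝ}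
    (hj1 : 1 - dl * B x ≤ j) (hL : L ≤ k x + dl * F) :
    0 ≤ I x ^ 2 * j * (j - (1 - a * dl * V x)) + 2 * (V x * (1 - V x) ^ 2) * (c * j * (1 - a * dl * V x)
      - (c - G * dl)) + (1 - a * dl * V x) * HH c W V I k x * (j * k x - L)
      + j * (-(a * dl * I x)) * HH c W V I k x := by
  have hV := h.V_pos x
  have hV1 := h.V_lt x
  have hcl := h.c_lt
  have hc := h.c_pos
  have hadv : a * dl * V x ≤ 1 := by
    have h1 : a * dl ≤ 1 := by nlinarith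
    have h2 : 0 ≤ a * dl := by positivity
    nlinarith
  have hHp := (H_pos h (by norm_num at hc1 ⊢; linarith) x).le
  have hdB : dl * B x ≤ 1 := by
    have := hB x; have := hB0 x
    norm_num at hc2
    nlinarith
  exact clo_lo hd ha hV.le hadv (h.k_pos x).le hHp (hB0 x) hF hdB
    (PHI_le hc (hC x c (Or.inl rfl)) (hC x (-c) (Or.inr rfl)) (by linarith) (by linarith))
    (hM_of hc (by norm_num at hc2 ⊢; linarith) hd hdc ha ha1 hV hV1 (h.I_pos x) (h.k_pos x).le hHp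
      (H_lt h x).le (hB x) (hor h hc1 hc2 x))
    hj1 hL

end main

end

end Crest.Agent.R146.Clo_924
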