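import Mathlib
import Crest.Agent.R151.V1
import Crest.Agent.R143.ES_831

/-!
# R146 (helper237), node (C), part A: generic log-partition functions with bounded row potentials

`lz σ u A = log ∫ exp (∑ a, u a (A a) y) dσ(y)` for a probability measure `σ`, rows `A a : X`, and
row potentials `u a : X → Y → ℝ` with `|u a x y| ≤ K`.

* `abs_lz_le`, `measurable_lz`
* `variance_lz_le`: Efron-Stein over rows
* `abs_integral_lz_sub_le`: change of the row potentials, one row at a time
* `abs_lz_sub_comp_le`: change of the number of rows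
-/

set_option autoImplicit false

open MeasureTheory ProbabilityTheory Filter
open scoped ENNReal NNReal

namespace Crest.Agent.R146.ConcA_237

section basic

variable {Y : Type*} [MeasurableSpace Y] {σ : Measure Y} [IsProbabilityMeasure σ]

lemma integrable_exp_of_bdd {h : Y → ℝ} (hm : Measurable h) {C : ℝ} (hC : ∀ y, |h y| ≤ C) :
    Integrable (fun y => Real.exp (h y)) σ := by
  refine Integrable.of_bound (C := Real.exp C) (hm.exp.aestronglyMeasurable)
    (Eventually.of_forall fun y => ?_)
  rw [Real.norm_eq_abs, abs_of_pos (Real.exp_pos _)]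
  exact Real.exp_le_exp.2 ((le_abs_self _).trans (hC y))

lemma exp_le_intExp {h : Y → ℝ} (hm : Measurable h) {C c : ℝ} (hC : ∀ y, |h y| ≤ C)
    (hc : ∀ y, c ≤ h y) : Real.exp c ≤ ∫ y, Real.exp (h y) ∂σ := by
  have h1 : ∫ _y : Y, Real.exp c ∂σ ≤ ∫ y, Real.exp (h y) ∂σ :=
    integral_mono (integrable_const _) (integrable_exp_of_bdd hm hC)
      (fun y => Real.exp_le_exp.2 (hc y))
  simpa using h1

lemma intExp_le_exp {h : Y → ℝ} (hm : Measurable h) {C c : ℝ} (hC : ∀ y, |h y| ≤ C)
    (hc : ∀ y, h y ≤ c) : ∫ y, Real.exp (h y) ∂σ ≤ Real.exp c := by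
  have h1 : ∫ y, Real.exp (h y) ∂σ ≤ ∫ _y : Y, Real.exp c ∂σ :=
    integral_mono (integrable_exp_of_bdd hm hC) (integrable_const _)
      (fun y => Real.exp_le_exp.2 (hc y))
  simpa using h1

lemma intExp_pos {h : Y → ℝ} (hm : Measurable h) {C : ℝ} (hC : ∀ y, |h y| ≤ C) :
    0 < ∫ y, Real.exp (h y) ∂σ :=
  (Real.exp_pos _).trans_le (exp_le_intExp hm hC fun y => neg_le_of_abs_le (hC y))

lemma abs_log_intExp_le {h : Y → ℝ} (hm : Measurable h) {C : ℝ} (hC : ∀ y, |h y| ≤ C) :
    |Real.log (∫ y, Real.exp (h y) ∂σ)| ≤ C := by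
  have h0 := intExp_pos (σ := σ) hm hC
  rw [abs_le]
  constructor
  · rw [Real.le_log_iff_exp_le h0]
    exact exp_le_intExp hm hC fun y => neg_le_of_abs_le (hC y)
  · rw [Real.log_le_iff_le_exp h0]
    exact intExp_le_exp hm hC fun y => le_of_abs_le (hC y)

lemma log_intExp_sub_le {h h' : Y → ℝ} (hm : Measurable h) (hm' : Measurable h') {C C' δ : ℝ}
    (hC : ∀ y, |h y| ≤ C) (hC' : ∀ y, |h' y| ≤ C') (hd : ∀ y, h y ≤ h' y + δ) :
    Real.log (∫ y, Real.exp (h y) ∂σ) ≤ Real.log (∫ y, Real.exp (h' y) ∂σ) + δ := by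
  have h0 := intExp_pos (σ := σ) hm hC
  have h0' := intExp_pos (σ := σ) hm' hC'
  have h1 : ∫ y, Real.exp (h y) ∂σ ≤ ∫ y, Real.exp δ * Real.exp (h' y) ∂σ := by
    refine integral_mono (integrable_exp_of_bdd hm hC)
      ((integrable_exp_of_bdd hm' hC').const_mul _) (fun y => ?_)
    simp only
    rw [← Real.exp_add]
    exact Real.exp_le_exp.2 (by linarith [hd y])
  rw [integral_const_mul] at h1
  have h2 := Real.log_le_log h0 h1
  rw [Real.log_mul (Real.exp_pos _).ne' h0'.ne', Real.log_exp] at h2
  linarith

lemma abs_log_intExp_sub_le {h h' : Y → ℝ} (hm : Measurable h) (hm' : Measurable h') {C C' δ : ℝ}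
    (hC : ∀ y, |h y| ≤ C) (hC' : ∀ y, |h' y| ≤ C') (hd : ∀ y, |h y - h' y| ≤ δ) :
    |Real.log (∫ y, Real.exp (h y) ∂σ) - Real.log (∫ y, Real.exp (h' y) ∂σ)| ≤ δ := by
  rw [abs_sub_le_iff]
  have a1 := log_intExp_sub_le (σ := σ) (δ := δ) hm hm' hC hC'
    (fun y => by linarith [le_of_abs_le (hd y)])
  have a2 := log_intExp_sub_le (σ := σ) (δ := δ) hm' hm hC' hC
    (fun y => by linarith [neg_le_of_abs_le (hd y)])
  constructor <;> linarith

/-- one row replaced: the difference of the log partition functions is controlled by the average of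
the difference of the potentials under the Gibbs measure of the remaining rows -/
lemma abs_log_intExp_add_sub_le {r p q : Y → ℝ} (hr : Measurable r) (hp : Measurable p)
    (hq : Measurable q) {C K : ℝ} (hC : ∀ y, |r y| ≤ C) (hpK : ∀ y, |p y| ≤ K)
    (hqK : ∀ y, |q y| ≤ K) :
    |Real.log (∫ y, Real.exp (r y + p y) ∂σ) - Real.log (∫ y, Real.exp (r y + q y) ∂σ)| ≤
      Real.exp (2 * K) * ((∫ y, Real.exp (r y) * |p y - q y| ∂σ) / ∫ y, Real.exp (r y) ∂σ) := by
  have hK0 : 0 ≤ K := by
    obtain ⟨y⟩ : Nonempty Y := nonempty_of_isProbabilityMeasure σ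
    exact (abs_nonneg _).trans (hpK y)
  have hZ := intExp_pos (σ := σ) hr hC
  have bp : ∀ y, |r y + p y| ≤ C + K := fun y => (abs_add_le _ _).trans (add_le_add (hC y) (hpK y))
  have bq : ∀ y, |r y + q y| ≤ C + K := fun y => (abs_add_le _ _).trans (add_le_add (hC y) (hqK y))
  have hP := intExp_pos (σ := σ) (hr.add hp) bp
  have hQ := intExp_pos (σ := σ) (hr.add hq) bq
  simp only [Pi.add_apply] at hP hQ
  have iP := integrable_exp_of_bdd (σ := σ) (hr.add hp) bp
  have iQ := integrable_exp_of_bdd (σ := σ) (hr.add hq) bq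
  simp only [Pi.add_apply] at iP iQ
  have iR := integrable_exp_of_bdd (σ := σ) hr hC
  -- the two partition functions are at least `exp (-K) Z`
  have low : ∀ {s : Y → ℝ}, Integrable (fun y => Real.exp (r y + s y)) σ → (∀ y, |s y| ≤ K) →
      Real.exp (-K) * ∫ y, Real.exp (r y) ∂σ ≤ ∫ y, Real.exp (r y + s y) ∂σ := by
    intro s hs hsK
    rw [← integral_const_mul]
    refine integral_mono (iR.const_mul _) hs (fun y => ?_)
    simp only
    rw [← Real.exp_add]
    exact Real.exp_le_exp.2 (by linarith [neg_le_of_abs_le (hsK y)])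
  have hPl := low iP hpK
  have hQl := low iQ hqK
  -- the difference
  have iD : Integrable (fun y => Real.exp (r y) * |p y - q y|) σ := by
    refine Integrable.of_bound (C := Real.exp C * (2 * K))
      ((hr.exp.mul (hp.sub hq).abs).aestronglyMeasurable) (Eventually.of_forall fun y => ?_)
    rw [Real.norm_eq_abs, abs_mul, abs_of_pos (Real.exp_pos _), abs_abs]
    refine mul_le_mul (Real.exp_le_exp.2 ((le_abs_self _).trans (hC y))) ?_ (abs_nonneg _)
      (Real.exp_pos _).le
    calc |p y - q y| ≤ |p y| + |q y| := abs_sub _ _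
      _ ≤ 2 * K := by linarith [hpK y, hqK y]
  have hdiff : |(∫ y, Real.exp (r y + p y) ∂σ) - ∫ y, Real.exp (r y + q y) ∂σ| ≤
      Real.exp K * ∫ y, Real.exp (r y) * |p y - q y| ∂σ := by
    rw [← integral_sub iP iQ, ← integral_const_mul]
    refine (abs_integral_le_integral_abs).trans
      (integral_mono (iP.sub iQ).abs (iD.const_mul _) (fun y => ?_))
    simp only
    rw [Real.exp_add, Real.exp_add, ← mul_sub, abs_mul, abs_of_pos (Real.exp_pos _)]
    have h3 : |Real.exp (p y) - Real.exp (q y)| ≤ Real.exp K * |p y - q y| := by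
      rcases le_total (p y) (q y) with h | h
      · rw [abs_sub_comm, abs_of_nonneg (by linarith [Real.exp_le_exp.2 h]), abs_sub_comm,
          abs_of_nonneg (by linarith)]
        have h4 : Real.exp (q y) - Real.exp (p y) ≤ Real.exp (q y) * (q y - p y) := by
          have := Real.add_one_le_exp (p y - q y)
          have e : Real.exp (p y) = Real.exp (q y) * Real.exp (p y - q y) := by
            rw [← Real.exp_add]; ring_nf
          rw [e]
          nlinarith [Real.exp_pos (q y)]
        refine h4.trans (mul_le_mul_of_nonneg_right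
          (Real.exp_le_exp.2 ((le_abs_self _).trans (hqK y))) (by linarith))
      · rw [abs_of_nonneg (by linarith [Real.exp_le_exp.2 h]), abs_of_nonneg (by linarith)]
        have h4 : Real.exp (p y) - Real.exp (q y) ≤ Real.exp (p y) * (p y - q y) := by
          have := Real.add_one_le_exp (q y - p y)
          have e : Real.exp (q y) = Real.exp (p y) * Real.exp (q y - p y) := by
            rw [← Real.exp_add]; ring_nf
          rw [e]
          nlinarith [Real.exp_pos (p y)]
        refine h4.trans (mul_le_mul_of_nonneg_right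
          (Real.exp_le_exp.2 ((le_abs_self _).trans (hpK y))) (by linarith))
    calc Real.exp (r y) * |Real.exp (p y) - Real.exp (q y)|
        ≤ Real.exp (r y) * (Real.exp K * |p y - q y|) :=
          mul_le_mul_of_nonneg_left h3 (Real.exp_pos _).le
      _ = Real.exp K * (Real.exp (r y) * |p y - q y|) := by ring
  -- `|log P - log Q| ≤ |P - Q| / m` when `P, Q ≥ m > 0`
  have hlog : ∀ {P Q m : ℝ}, 0 < m → m ≤ P → m ≤ Q → |Real.log P - Real.log Q| ≤ |P - Q| / m := by
    intro P Q m hm hmP hmQ
    have key : ∀ {a b : ℝ}, m ≤ a → m ≤ b → a ≤ b → Real.log b - Real.log a ≤ (b - a) / m := by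
      intro a b ha hb hab
      have ha0 : 0 < a := hm.trans_le ha
      have hb0 : 0 < b := hm.trans_le hb
      rw [← Real.log_div hb0.ne' ha0.ne']
      have h5 := Real.log_le_sub_one_of_pos (div_pos hb0 ha0)
      refine h5.trans ?_
      rw [div_sub_one ha0.ne']
      exact div_le_div_of_nonneg_left (by linarith) hm ha
    rcases le_total P Q with h | h
    · rw [abs_sub_comm, abs_of_nonneg (by linarith [Real.log_le_log (hm.trans_le hmP) h]),
        abs_sub_comm, abs_of_nonneg (by linarith)]
      exact key hmP hmQ h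
    · rw [abs_of_nonneg (by linarith [Real.log_le_log (hm.trans_le hmQ) h]),
        abs_of_nonneg (by linarith)]
      exact key hmQ hmP h
  have hm0 : 0 < Real.exp (-K) * ∫ y, Real.exp (r y) ∂σ := mul_pos (Real.exp_pos _) hZ
  refine (hlog hm0 hPl hQl).trans ?_
  rw [div_le_iff₀ hm0]
  have e1 : Real.exp (2 * K) * ((∫ y, Real.exp (r y) * |p y - q y| ∂σ) /
      ∫ y, Real.exp (r y) ∂σ) * (Real.exp (-K) * ∫ y, Real.exp (r y) ∂σ) =
      Real.exp K * ∫ y, Real.exp (r y) * |p y - q y| ∂σ := by
    have : Real.exp (2 * K) = Real.exp K * Real.exp K := by rw [← Real.exp_add]; ring_nf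
    rw [this, Real.exp_neg]
    field_simp
  rw [e1]
  exact hdiff

end basic

section rows

variable {Y X ι : Type*} [MeasurableSpace Y] [MeasurableSpace X] [Fintype ι]

/-- the generic log-partition function -/
noncomputable def lz (σ : Measure Y) (u : ι → X → Y → ℝ) (A : ι → X) : ℝ :=
  Real.log (∫ y, Real.exp (∑ a, u a (A a) y) ∂σ)

/-- a family of row potentials, jointly measurable and bounded by `K` -/
structure RowPot (u : ι → X → Y → ℝ) (K : ℝ) : Prop where
  meas : ∀ a, Measurable fun p : X × Y => u a p.1 p.2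
  bdd : ∀ a x y, |u a x y| ≤ K

lemma RowPot.meas_sum {u : ι → X → Y → ℝ} {K : ℝ} (hu : RowPot u K) :
    Measurable fun p : (ι → X) × Y => ∑ a, u a (p.1 a) p.2 := by
  refine Finset.measurable_sum _ fun a _ => ?_
  have h1 : Measurable fun p : (ι → X) × Y => (p.1 a, p.2) :=
    ((measurable_pi_apply a).comp measurable_fst).prodMk measurable_snd
  exact (hu.meas a).comp h1

lemma RowPot.meas_sum_right {u : ι → X → Y → ℝ} {K : ℝ} (hu : RowPot u K) (A : ι → X) :
    Measurable fun y : Y => ∑ a, u a (A a) y :=
  hu.meas_sum.comp (measurable_const.prodMk measurable_id)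

lemma RowPot.abs_sum_le {u : ι → X → Y → ℝ} {K : ℝ} (hu : RowPot u K) (A : ι → X) (y : Y) :
    |∑ a, u a (A a) y| ≤ Fintype.card ι * K := by
  calc |∑ a, u a (A a) y| ≤ ∑ a, |u a (A a) y| := Finset.abs_sum_le_sum_abs _ _
    _ ≤ ∑ _a : ι, K := Finset.sum_le_sum fun a _ => hu.bdd a _ _
    _ = Fintype.card ι * K := by simp

variable {σ : Measure Y} [IsProbabilityMeasure σ]

lemma abs_lz_le {u : ι → X → Y → ℝ} {K : ℝ} (hu : RowPot u K) (A : ι → X) :
    |lz σ u A| ≤ Fintype.card ι * K :=
  abs_log_intExp_le (hu.meas_sum_right A) (hu.abs_sum_le A)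

lemma measurable_lz {u : ι → X → Y → ℝ} {K : ℝ} (hu : RowPot u K) : Measurable (lz σ u) := by
  unfold lz
  refine Real.measurable_log.comp ?_
  have h1 : StronglyMeasurable fun p : (ι → X) × Y => Real.exp (∑ a, u a (p.1 a) p.2) :=
    hu.meas_sum.exp.stronglyMeasurable
  exact h1.integral_prod_right'.measurable

lemma integrable_lz {u : ι → X → Y → ℝ} {K : ℝ} (hu : RowPot u K) (μ : Measure (ι → X))
    [IsFiniteMeasure μ] : Integrable (lz σ u) μ :=
  Integrable.of_bound (C := Fintype.card ι * K) (measurable_lz hu).aestronglyMeasurable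
    (Eventually.of_forall fun A => by
      rw [Real.norm_eq_abs]; exact abs_lz_le hu A)

lemma abs_lz_update_sub_le [DecidableEq ι] {u : ι → X → Y → ℝ} {K : ℝ} (hu : RowPot u K)
    (A : ι → X) (a : ι) (x : X) : |lz σ u A - lz σ u (Function.update A a x)| ≤ 2 * K := by
  refine abs_log_intExp_sub_le (hu.meas_sum_right A) (hu.meas_sum_right _) (hu.abs_sum_le A)
    (hu.abs_sum_le _) fun y => ?_
  rw [← Finset.sum_sub_distrib, Finset.sum_eq_single a]
  · calc |u a (A a) y - u a (Function.update A a x a) y|
        ≤ |u a (A a) y| + |u a (Function.update A a x a) y| := abs_sub _ _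
      _ ≤ 2 * K := by linarith [hu.bdd a (A a) y, hu.bdd a (Function.update A a x a) y]
  · intro b _ hb
    rw [Function.update_of_ne hb, sub_self]
  · intro h; exact absurd (Finset.mem_univ a) h

/-- Efron-Stein over the rows -/
theorem variance_lz_le (G : Measure X) [IsProbabilityMeasure G] {u : ι → X → Y → ℝ} {K : ℝ}
    (hu : RowPot u K) :
    variance (lz σ u) (Measure.pi fun _ : ι => G) ≤ 2 * K ^ 2 * Fintype.card ι := by
  classical
  have hmem : MemLp (lz σ u) 2 (Measure.pi fun _ : ι => G) :=
    MemLp.of_bound (C := Fintype.card ι * K) (measurable_lz hu).aestronglyMeasurable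
      (Eventually.of_forall fun A => by rw [Real.norm_eq_abs]; exact abs_lz_le hu A)
  have h1 := R151.V.dvar_pi_le (ι := ι) G (measurable_lz (σ := σ) hu)
  rw [R151.V.dvar_eq hmem] at h1
  have h2 : ∀ i : ι, R151.V.infl (Measure.pi fun _ : ι => G) G (lz σ u) i ≤
      ENNReal.ofReal (4 * K ^ 2) := by
    intro i
    unfold R151.V.infl
    have h3 : ∀ x t, ENNReal.ofReal ((lz σ u x - lz σ u (Function.update x i t)) ^ 2) ≤
        ENNReal.ofReal (4 * K ^ 2) := by
      intro x t
      refine ENNReal.ofReal_le_ofReal ?_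
      have := abs_lz_update_sub_le (σ := σ) hu x i t
      have h4 := abs_nonneg (lz σ u x - lz σ u (Function.update x i t))
      rw [← sq_abs]
      nlinarith
    calc ∫⁻ x, ∫⁻ t, ENNReal.ofReal ((lz σ u x - lz σ u (Function.update x i t)) ^ 2) ∂G
          ∂(Measure.pi fun _ : ι => G)
        ≤ ∫⁻ _x, ∫⁻ _t, ENNReal.ofReal (4 * K ^ 2) ∂G ∂(Measure.pi fun _ : ι => G) :=
          lintegral_mono fun x => lintegral_mono fun t => h3 x t
      _ = ENNReal.ofReal (4 * K ^ 2) := by simp
  have h5 : ENNReal.ofReal (2 * variance (lz σ u) (Measure.pi fun _ : ι => G)) ≤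
      ENNReal.ofReal (Fintype.card ι * (4 * K ^ 2)) := by
    refine h1.trans ((Finset.sum_le_sum fun i _ => h2 i).trans ?_)
    have e : ENNReal.ofReal (Fintype.card ι * (4 * K ^ 2)) =
        (Fintype.card ι : ℝ≥0∞) * ENNReal.ofReal (4 * K ^ 2) := by
      rw [ENNReal.ofReal_mul (by positivity), ENNReal.ofReal_natCast]
    rw [Finset.sum_const, Finset.card_univ, nsmul_eq_mul, e]
  have h6 : 2 * variance (lz σ u) (Measure.pi fun _ : ι => G) ≤ Fintype.card ι * (4 * K ^ 2) :=
    (ENNReal.ofReal_le_ofReal_iff (by positivity)).1 h5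
  linarith

/-- resampling one coordinate of a finite product -/
lemma mp_update_pi [DecidableEq ι] (G : Measure X) [IsProbabilityMeasure G] (i : ι) :
    MeasurePreserving (fun p : (ι → X) × X => Function.update p.1 i p.2)
      ((Measure.pi fun _ : ι => G).prod G) (Measure.pi fun _ : ι => G) := by
  have h := R143.ESx831.mp_update (fun _ : ι => G) i
  rw [Measure.infinitePi_eq_pi] at h
  exact h

omit [MeasurableSpace Y] [MeasurableSpace X] in
lemma sum_update_eq [DecidableEq ι] (u : ι → X → Y → ℝ) (A : ι → X) (i : ι) (x : X) (y : Y) :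
    ∑ a, u a (Function.update A i x a) y =
      (∑ a ∈ Finset.univ.erase i, u a (A a) y) + u i x y := by
  rw [← Finset.sum_erase_add _ _ (Finset.mem_univ i), Function.update_self]
  congr 1
  refine Finset.sum_congr rfl fun a ha => ?_
  rw [Function.update_of_ne (Finset.ne_of_mem_erase ha)]

/-- replacement of the potential of one row, in the mean -/
lemma abs_integral_lz_sub_single [DecidableEq ι] (G : Measure X) [IsProbabilityMeasure G]
    {u v : ι → X → Y → ℝ} {K : ℝ} (hu : RowPot u K) (hv : RowPot v K) (i : ι)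
    (huv : ∀ a, a ≠ i → u a = v a) {η : ℝ} (hη : ∀ y, ∫ x, |u i x y - v i x y| ∂G ≤ η) :
    |(∫ A, lz σ u A ∂(Measure.pi fun _ : ι => G)) - ∫ A, lz σ v A ∂(Measure.pi fun _ : ι => G)| ≤
      Real.exp (2 * K) * η := by
  have hmp := mp_update_pi (ι := ι) G i
  have hmu : Measurable fun p : (ι → X) × X => Function.update p.1 i p.2 := hmp.measurable
  rw [← integral_sub (integrable_lz hu _) (integrable_lz hv _)]
  have hms : Measurable fun A : ι → X => lz σ u A - lz σ v A :=
    (measurable_lz hu).sub (measurable_lz hv)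
  rw [← hmp.map_eq, integral_map hmu.aemeasurable hms.aestronglyMeasurable]
  have hint : Integrable (fun p : (ι → X) × X => lz σ u (Function.update p.1 i p.2) -
      lz σ v (Function.update p.1 i p.2)) ((Measure.pi fun _ : ι => G).prod G) := by
    refine Integrable.of_bound (C := Fintype.card ι * K + Fintype.card ι * K)
      (((measurable_lz hu).comp hmu).sub ((measurable_lz hv).comp hmu)).aestronglyMeasurable
      (Eventually.of_forall fun p => ?_)
    rw [Real.norm_eq_abs]
    exact (abs_sub _ _).trans (add_le_add (abs_lz_le hu _) (abs_lz_le hv _))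
  rw [integral_prod _ hint]
  -- the pointwise bound after integrating over the resampled row
  have hK0 : 0 ≤ K := by
    obtain ⟨y⟩ : Nonempty Y := nonempty_of_isProbabilityMeasure σ
    obtain ⟨x⟩ : Nonempty X := nonempty_of_isProbabilityMeasure G
    exact (abs_nonneg _).trans (hu.bdd i x y)
  have hη0 : 0 ≤ η := by
    obtain ⟨y⟩ : Nonempty Y := nonempty_of_isProbabilityMeasure σ
    exact (integral_nonneg fun _ => abs_nonneg _).trans (hη y)
  have hpt : ∀ A : ι → X, |∫ x, (lz σ u (Function.update A i x) -
      lz σ v (Function.update A i x)) ∂G| ≤ Real.exp (2 * K) * η := by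
    intro A
    set r : Y → ℝ := fun y => ∑ a ∈ Finset.univ.erase i, u a (A a) y with hr
    have hrm : Measurable r := by
      refine Finset.measurable_sum _ fun a _ => ?_
      exact (hu.meas a).comp (measurable_const.prodMk measurable_id)
    have hrC : ∀ y, |r y| ≤ Fintype.card ι * K := by
      intro y
      calc |r y| ≤ ∑ a ∈ Finset.univ.erase i, |u a (A a) y| := Finset.abs_sum_le_sum_abs _ _
        _ ≤ ∑ _a ∈ Finset.univ.erase i, K := Finset.sum_le_sum fun a _ => hu.bdd a _ _
        _ = (Finset.univ.erase i).card * K := by simp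
        _ ≤ Fintype.card ι * K := by
            refine mul_le_mul_of_nonneg_right ?_ hK0
            exact_mod_cast (Finset.card_le_univ _)
    have eu : ∀ x, lz σ u (Function.update A i x) =
        Real.log (∫ y, Real.exp (r y + u i x y) ∂σ) := by
      intro x
      unfold lz
      congr 1
      refine integral_congr_ae (Eventually.of_forall fun y => ?_)
      simp only [sum_update_eq, hr]
    have ev : ∀ x, lz σ v (Function.update A i x) =
        Real.log (∫ y, Real.exp (r y + v i x y) ∂σ) := by
      intro x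
      unfold lz
      congr 1
      refine integral_congr_ae (Eventually.of_forall fun y => ?_)
      simp only [sum_update_eq, hr]
      congr 2
      refine Finset.sum_congr rfl fun a ha => ?_
      rw [huv a (Finset.ne_of_mem_erase ha)]
    have hZ := intExp_pos (σ := σ) hrm hrC
    have hmd : Measurable fun p : X × Y => Real.exp (r p.2) * |u i p.1 p.2 - v i p.1 p.2| :=
      ((hrm.comp measurable_snd).exp).mul (((hu.meas i).sub (hv.meas i)).abs)
    have hbd : ∀ p : X × Y, ‖Real.exp (r p.2) * |u i p.1 p.2 - v i p.1 p.2|‖ ≤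
        Real.exp (Fintype.card ι * K) * (2 * K) := by
      intro p
      rw [Real.norm_eq_abs, abs_mul, abs_of_pos (Real.exp_pos _), abs_abs]
      refine mul_le_mul (Real.exp_le_exp.2 ((le_abs_self _).trans (hrC _))) ?_ (abs_nonneg _)
        (Real.exp_pos _).le
      calc |u i p.1 p.2 - v i p.1 p.2| ≤ |u i p.1 p.2| + |v i p.1 p.2| := abs_sub _ _
        _ ≤ 2 * K := by linarith [hu.bdd i p.1 p.2, hv.bdd i p.1 p.2]
    have hid : Integrable (fun p : X × Y => Real.exp (r p.2) * |u i p.1 p.2 - v i p.1 p.2|)
        (G.prod σ) :=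
      Integrable.of_bound hmd.aestronglyMeasurable _ (Eventually.of_forall hbd)
    have hGm : Integrable (fun x => ∫ y, Real.exp (r y) * |u i x y - v i x y| ∂σ) G :=
      hid.integral_prod_left
    calc |∫ x, (lz σ u (Function.update A i x) - lz σ v (Function.update A i x)) ∂G|
        ≤ ∫ x, |lz σ u (Function.update A i x) - lz σ v (Function.update A i x)| ∂G :=
          abs_integral_le_integral_abs
      _ ≤ ∫ x, Real.exp (2 * K) * ((∫ y, Real.exp (r y) * |u i x y - v i x y| ∂σ) /
            ∫ y, Real.exp (r y) ∂σ) ∂G := by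
          refine integral_mono_of_nonneg (Eventually.of_forall fun _ => abs_nonneg _)
            ((hGm.div_const _).const_mul _) (Eventually.of_forall fun x => ?_)
          simp only
          rw [eu, ev]
          exact abs_log_intExp_add_sub_le hrm
            ((hu.meas i).comp (measurable_const.prodMk measurable_id))
            ((hv.meas i).comp (measurable_const.prodMk measurable_id)) hrC
            (fun y => hu.bdd i x y) (fun y => hv.bdd i x y)
      _ = Real.exp (2 * K) * ((∫ y, Real.exp (r y) * (∫ x, |u i x y - v i x y| ∂G) ∂σ) /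
            ∫ y, Real.exp (r y) ∂σ) := by
          rw [integral_const_mul, integral_div]
          congr 2
          rw [integral_integral_swap hid]
          refine integral_congr_ae (Eventually.of_forall fun y => ?_)
          simp only
          rw [integral_const_mul]
      _ ≤ Real.exp (2 * K) * η := by
          refine mul_le_mul_of_nonneg_left ?_ (Real.exp_pos _).le
          rw [div_le_iff₀ hZ, mul_comm η, ← integral_mul_const]
          refine integral_mono_of_nonneg (Eventually.of_forall fun y =>
            mul_nonneg (Real.exp_pos _).le (integral_nonneg fun _ => abs_nonneg _))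
            ((integrable_exp_of_bdd hrm hrC).mul_const _) (Eventually.of_forall fun y => ?_)
          exact mul_le_mul_of_nonneg_left (hη y) (Real.exp_pos _).le
  calc |∫ A, ∫ x, (lz σ u (Function.update A i x) - lz σ v (Function.update A i x)) ∂G
          ∂(Measure.pi fun _ : ι => G)|
      ≤ ∫ A, |∫ x, (lz σ u (Function.update A i x) - lz σ v (Function.update A i x)) ∂G|
          ∂(Measure.pi fun _ : ι => G) := abs_integral_le_integral_abs
    _ ≤ ∫ _A, Real.exp (2 * K) * η ∂(Measure.pi fun _ : ι => G) :=
        integral_mono_of_nonneg (Eventually.of_forall fun _ => abs_nonneg _)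
          (integrable_const _) (Eventually.of_forall hpt)
    _ = Real.exp (2 * K) * η := by simp

/-- replacement of all the row potentials, in the mean -/
theorem abs_integral_lz_sub_le (G : Measure X) [IsProbabilityMeasure G]
    {u v : ι → X → Y → ℝ} {K : ℝ} (hu : RowPot u K) (hv : RowPot v K)
    {η : ι → ℝ} (hη : ∀ a y, ∫ x, |u a x y - v a x y| ∂G ≤ η a) :
    |(∫ A, lz σ u A ∂(Measure.pi fun _ : ι => G)) - ∫ A, lz σ v A ∂(Measure.pi fun _ : ι => G)| ≤
      Real.exp (2 * K) * ∑ a, η a := by
  classical
  have key : ∀ s : Finset ι, |(∫ A, lz σ u A ∂(Measure.pi fun _ : ι => G)) -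
      ∫ A, lz σ (fun a => if a ∈ s then v a else u a) A ∂(Measure.pi fun _ : ι => G)| ≤
      Real.exp (2 * K) * ∑ a ∈ s, η a := by
    intro s
    induction s using Finset.induction_on with
    | empty => simp
    | insert i s his ih =>
      have hw : ∀ t : Finset ι, RowPot (fun a => if a ∈ t then v a else u a) K := by
        intro t
        constructor
        · intro a
          by_cases h : a ∈ t
          · simpa [h] using hv.meas a
          · simpa [h] using hu.meas a
        · intro a x y
          by_cases h : a ∈ t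
          · simpa [h] using hv.bdd a x y
          · simpa [h] using hu.bdd a x y
      have h1 := abs_integral_lz_sub_single (σ := σ) G (hw s) (hw (insert i s)) i
        (fun a ha => by simp [Finset.mem_insert, ha]) (η := η i) (fun y => by
          have e : ∀ x, |(if i ∈ s then v i else u i) x y -
              (if i ∈ insert i s then v i else u i) x y| = |u i x y - v i x y| := by
            intro x; simp [his]
          simp_rw [e]
          exact hη i y)
      rw [Finset.sum_insert his, mul_add]
      calc _ ≤ |(∫ A, lz σ u A ∂(Measure.pi fun _ : ι => G)) -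
            ∫ A, lz σ (fun a => if a ∈ s then v a else u a) A ∂(Measure.pi fun _ : ι => G)| +
            |(∫ A, lz σ (fun a => if a ∈ s then v a else u a) A ∂(Measure.pi fun _ : ι => G)) -
            ∫ A, lz σ (fun a => if a ∈ insert i s then v a else u a) A
              ∂(Measure.pi fun _ : ι => G)| := abs_sub_le _ _ _
        _ ≤ _ := by linarith
  have h2 := key Finset.univ
  simpa using h2

end rows

section number

variable {Y X ι κ : Type*} [MeasurableSpace Y] [MeasurableSpace X] [Fintype ι] [Fintype κ]
  {σ : Measure Y} [IsProbabilityMeasure σ]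

/-- removal of rows, pointwise -/
theorem abs_lz_sub_comp_le {u : κ → X → Y → ℝ} {K : ℝ} (hu : RowPot u K) {f : ι → κ}
    (hf : Function.Injective f) (A : κ → X) :
    |lz σ u A - lz σ (fun a => u (f a)) (fun a => A (f a))| ≤
      ((Fintype.card κ : ℝ) - Fintype.card ι) * K := by
  classical
  have hu' : RowPot (fun a => u (f a)) K := ⟨fun a => hu.meas _, fun a => hu.bdd _⟩
  refine abs_log_intExp_sub_le (hu.meas_sum_right A) (hu'.meas_sum_right fun a => A (f a))
    (hu.abs_sum_le A) (hu'.abs_sum_le fun a => A (f a)) fun y => ?_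
  have h1 : ∑ a, u (f a) (A (f a)) y = ∑ b ∈ Finset.univ.image f, u b (A b) y := by
    rw [Finset.sum_image fun a _ b _ h => hf h]
  rw [h1, ← Finset.sum_compl_add_sum (Finset.univ.image f), add_sub_cancel_right]
  calc |∑ b ∈ (Finset.univ.image f)ᶜ, u b (A b) y|
      ≤ ∑ b ∈ (Finset.univ.image f)ᶜ, |u b (A b) y| := Finset.abs_sum_le_sum_abs _ _
    _ ≤ ∑ _b ∈ (Finset.univ.image f)ᶜ, K := Finset.sum_le_sum fun b _ => hu.bdd b _ _
    _ = ((Fintype.card κ : ℝ) - Fintype.card ι) * K := by
        rw [Finset.sum_const, Finset.card_compl, Finset.card_image_of_injective _ hf,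
          Finset.card_univ, nsmul_eq_mul, Nat.cast_sub (Fintype.card_le_of_injective f hf)]

lemma pi_map_inj (G : Measure X) [IsProbabilityMeasure G] {f : ι → κ}
    (hf : Function.Injective f) :
    (Measure.pi fun _ : κ => G).map (fun y i => y (f i)) = Measure.pi fun _ : ι => G := by
  have h1 : iIndepFun (fun (k : κ) (y : κ → X) => y k) (Measure.pi fun _ : κ => G) :=
    iIndepFun_pi (X := fun _ x => x) (fun _ => aemeasurable_id)
  have h2 := h1.precomp hf
  rw [iIndepFun_iff_map_fun_eq_pi_map (fun i => (measurable_pi_apply _).aemeasurable)] at h2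
  rw [h2]
  congr 1
  funext i
  exact (measurePreserving_eval (fun _ : κ => G) (f i)).map_eq

/-- removal of rows, in the mean -/
theorem abs_integral_lz_sub_comp_le (G : Measure X) [IsProbabilityMeasure G]
    {u : κ → X → Y → ℝ} {K : ℝ} (hu : RowPot u K) {f : ι → κ} (hf : Function.Injective f) :
    |(∫ A, lz σ u A ∂(Measure.pi fun _ : κ => G)) -
      ∫ A, lz σ (fun a => u (f a)) A ∂(Measure.pi fun _ : ι => G)| ≤
      ((Fintype.card κ : ℝ) - Fintype.card ι) * K := by
  have hu' : RowPot (fun a => u (f a)) K := ⟨fun a => hu.meas _, fun a => hu.bdd _⟩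
  have hm : Measurable fun (y : κ → X) (i : ι) => y (f i) :=
    measurable_pi_lambda _ fun i => measurable_pi_apply _
  rw [← pi_map_inj G hf, integral_map hm.aemeasurable (measurable_lz hu').aestronglyMeasurable,
    ← integral_sub (integrable_lz hu _)]
  · calc |∫ A, (lz σ u A - lz σ (fun a => u (f a)) fun i => A (f i))
          ∂(Measure.pi fun _ : κ => G)|
        ≤ ∫ A, |lz σ u A - lz σ (fun a => u (f a)) fun i => A (f i)|
          ∂(Measure.pi fun _ : κ => G) := abs_integral_le_integral_abs
      _ ≤ ∫ _A, ((Fintype.card κ : ℝ) - Fintype.card ι) * K ∂(Measure.pi fun _ : κ => G) :=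
          integral_mono_of_nonneg (Eventually.of_forall fun _ => abs_nonneg _)
            (integrable_const _) (Eventually.of_forall fun A => abs_lz_sub_comp_le hu hf A)
      _ = _ := by simp
  · refine Integrable.of_bound (C := Fintype.card ι * K)
      ((measurable_lz hu').comp hm).aestronglyMeasurable (Eventually.of_forall fun A => ?_)
    rw [Real.norm_eq_abs]
    exact abs_lz_le hu' _

end number

end Crest.Agent.R146.ConcA_237
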