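import Mathlib
import Crest.Prelude.Def_SphericalPressure
import Crest.Agent.R146.ConcA_237

/-!
# R146 (helper237), node (C), part B: the literal pressure

* `sphP N`: the normalised sphere law; `spherePressure` as a row functional `lz`
* entry laws: `patternLaw`, `patternLawMix` are `Measure.pi` of one entry law `ν`; rows form
* measurability, bounds, integrability of `spherePressure`
* `variance_spherePressure_le` (Efron-Stein over rows), `tendsto_tail`
* the literal third conjunct of S0206 from the second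
* density and potential dependence of the expected pressure
-/

set_option autoImplicit false

open MeasureTheory ProbabilityTheory Filter
open scoped ENNReal NNReal Topology

namespace Crest.Agent.R146.Conc_237

open Crest.ProbabilityR.Perceptron
open Crest.Agent.R146.ConcA_237

/-! ### the normalised sphere law -/

/-- the uniform probability law on the unit sphere -/
noncomputable def sphP (N : ℕ) : Measure (UnitSphere N) :=
  (sphereLaw N Set.univ)⁻¹ • sphereLaw N

instance isFiniteMeasure_sphereLaw (N : ℕ) : IsFiniteMeasure (sphereLaw N) := by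
  unfold sphereLaw; infer_instance

lemma sphereLaw_univ_ne_zero {N : ℕ} (hN : 0 < N) : sphereLaw N Set.univ ≠ 0 := by
  have : Nonempty (Fin N) := ⟨⟨0, hN⟩⟩
  unfold sphereLaw
  rw [Measure.toSphere_apply_univ]
  refine mul_ne_zero ?_ (Metric.measure_ball_pos _ _ one_pos).ne'
  simp [hN.ne']

lemma isProb_sphP {N : ℕ} (hN : 0 < N) : IsProbabilityMeasure (sphP N) := by
  constructor
  unfold sphP
  rw [Measure.smul_apply, smul_eq_mul]
  exact ENNReal.inv_mul_cancel (sphereLaw_univ_ne_zero hN) (measure_ne_top _ _)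

lemma integral_sphP (N : ℕ) (f : UnitSphere N → ℝ) :
    ∫ y, f y ∂sphP N = (∫ y, f y ∂sphereLaw N) / (sphereLaw N).real Set.univ := by
  unfold sphP
  rw [integral_smul_measure, measureReal_def, ENNReal.toReal_inv, smul_eq_mul, div_eq_inv_mul]

/-! ### the field of a row -/

/-- the field `∑ i, x i * y i` -/
noncomputable def dotR {N : ℕ} (x : Fin N → ℝ) (y : UnitSphere N) : ℝ :=
  ∑ i, x i * (y : EuclideanSpace ℝ (Fin N)) i

lemma measurable_dotR {N : ℕ} : Measurable fun p : (Fin N → ℝ) × UnitSphere N => dotR p.1 p.2 := by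
  unfold dotR
  refine Finset.measurable_sum _ fun i _ => ?_
  refine ((measurable_pi_apply i).comp measurable_fst).mul ?_
  have h1 : Continuous fun y : UnitSphere N => (y : EuclideanSpace ℝ (Fin N)) i := by fun_prop
  exact h1.measurable.comp measurable_snd

/-- the row potential attached to `ψ a` -/
noncomputable def rp {N : ℕ} {ι : Type*} (ψ : ι → ℝ → ℝ) (a : ι) (x : Fin N → ℝ)
    (y : UnitSphere N) : ℝ := ψ a (dotR x y)

lemma rowPot_rp {N : ℕ} {ι : Type*} {ψ : ι → ℝ → ℝ} {K : ℝ} (hm : ∀ a, Measurable (ψ a))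
    (hK : ∀ a x, |ψ a x| ≤ K) : RowPot (rp (N := N) ψ) K :=
  ⟨fun a => (hm a).comp measurable_dotR, fun _ _ _ => hK _ _⟩

/-- the literal pressure is a row functional -/
lemma spherePressure_eq (N : ℕ) (α β : ℝ) (φ : ℝ → ℝ) (g : Patterns N α) :
    spherePressure N α β φ g =
      lz (sphP N) (rp (N := N) fun (_ : Fin (numPatterns N α)) x => β * φ x)
        (MeasurableEquiv.curry _ _ _ g) / N := by
  unfold spherePressure lz
  rw [integral_sphP]
  congr 4
  funext y
  congr 1
  unfold potentialSum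
  rw [Finset.mul_sum]
  rfl

/-! ### rows form of the pattern laws -/

/-- the pattern law with all entries of law `ν`; `patternLaw` and `patternLawMix` are instances -/
noncomputable def patLaw (N : ℕ) (α : ℝ) (ν : Measure ℝ) : Measure (Patterns N α) :=
  Measure.pi fun _ => ν

lemma patternLaw_eq (N : ℕ) (α : ℝ) : patternLaw N α = patLaw N α (gaussianReal 0 1) := rfl

lemma patternLawMix_eq (N : ℕ) (α ε : ℝ) : patternLawMix N α ε = patLaw N α (mixtureLaw ε) := rfl

instance isProb_mixtureLaw (ε : ℝ) : IsProbabilityMeasure (mixtureLaw ε) := by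
  constructor
  unfold mixtureLaw
  rw [Measure.add_apply, Measure.smul_apply, Measure.smul_apply, measure_univ, measure_univ]
  simp only [ENNReal.smul_def, smul_eq_mul, mul_one]
  rw [← ENNReal.coe_add, ← ENNReal.coe_one]
  congr 1
  rw [← two_mul, mul_inv_cancel₀ two_ne_zero]

instance isProb_patLaw (N : ℕ) (α : ℝ) (ν : Measure ℝ) [IsProbabilityMeasure ν] :
    IsProbabilityMeasure (patLaw N α ν) := by
  unfold patLaw; infer_instance

instance isProb_patternLaw (N : ℕ) (α : ℝ) : IsProbabilityMeasure (patternLaw N α) := by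
  unfold patternLaw; infer_instance

instance isProb_patternLawMix (N : ℕ) (α ε : ℝ) : IsProbabilityMeasure (patternLawMix N α ε) := by
  unfold patternLawMix; infer_instance

/-- the law of one row -/
noncomputable def rowLaw (N : ℕ) (ν : Measure ℝ) : Measure (Fin N → ℝ) := Measure.pi fun _ => ν

instance isProb_rowLaw (N : ℕ) (ν : Measure ℝ) [IsProbabilityMeasure ν] :
    IsProbabilityMeasure (rowLaw N ν) := by
  unfold rowLaw; infer_instance

lemma mp_curry {ι κ : Type*} [Fintype ι] [Fintype κ] (ν : Measure ℝ) [IsProbabilityMeasure ν] :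
    MeasurePreserving (MeasurableEquiv.curry ι κ ℝ) (Measure.pi fun _ : ι × κ => ν)
      (Measure.pi fun _ : ι => Measure.pi fun _ : κ => ν) := by
  refine ⟨(MeasurableEquiv.curry ι κ ℝ).measurable, ?_⟩
  have h := Measure.infinitePi_map_curry (ι := ι) (κ := κ) (X := ℝ) (fun _ _ => ν)
  rw [Measure.infinitePi_eq_pi, Measure.infinitePi_eq_pi] at h
  rw [h]
  congr 1
  funext i
  exact Measure.infinitePi_eq_pi _

lemma mp_rows (N : ℕ) (α : ℝ) (ν : Measure ℝ) [IsProbabilityMeasure ν] :
    MeasurePreserving (MeasurableEquiv.curry (Fin (numPatterns N α)) (Fin N) ℝ) (patLaw N α ν)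
      (Measure.pi fun _ : Fin (numPatterns N α) => rowLaw N ν) := mp_curry ν

/-- rows form of an expectation -/
lemma integral_patLaw (N : ℕ) (α : ℝ) (ν : Measure ℝ) [IsProbabilityMeasure ν]
    (F : (Fin (numPatterns N α) → Fin N → ℝ) → ℝ) :
    ∫ g, F (MeasurableEquiv.curry _ _ _ g) ∂patLaw N α ν =
      ∫ A, F A ∂(Measure.pi fun _ : Fin (numPatterns N α) => rowLaw N ν) :=
  (mp_rows N α ν).integral_comp' F

/-! ### measurability, bounds -/

section basic

variable {N : ℕ} {α β : ℝ} {φ : ℝ → ℝ} {K : ℝ}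

lemma rowPot_const (hφ : Measurable φ) (hK : ∀ x, |φ x| ≤ K) :
    RowPot (rp (N := N) fun (_ : Fin (numPatterns N α)) x => β * φ x) (|β| * K) :=
  rowPot_rp (fun _ => hφ.const_mul β) fun _ x => by
    rw [abs_mul]; exact mul_le_mul_of_nonneg_left (hK x) (abs_nonneg _)

lemma spherePressure_zero (α β : ℝ) (φ : ℝ → ℝ) (g : Patterns 0 α) :
    spherePressure 0 α β φ g = 0 := by
  simp [spherePressure]

lemma measurable_spherePressure (hφ : Measurable φ) (hK : ∀ x, |φ x| ≤ K) :
    Measurable (spherePressure N α β φ) := by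
  rcases Nat.eq_zero_or_pos N with rfl | hN
  · have : spherePressure 0 α β φ = fun _ => 0 := by
      funext g; exact spherePressure_zero α β φ g
    rw [this]; exact measurable_const
  · have := isProb_sphP hN
    have h1 : spherePressure N α β φ = fun g => lz (sphP N) (rp (N := N)
        fun (_ : Fin (numPatterns N α)) x => β * φ x) (MeasurableEquiv.curry _ _ _ g) / N := by
      funext g; exact spherePressure_eq N α β φ g
    rw [h1]
    exact ((measurable_lz (rowPot_const hφ hK)).comp (MeasurableEquiv.measurable _)).div_const _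

lemma numPatterns_le (hα : 0 ≤ α) : (numPatterns N α : ℝ) ≤ α * N :=
  Nat.floor_le (mul_nonneg hα (Nat.cast_nonneg _))

lemma abs_spherePressure_le' (hφ : Measurable φ) (hK : ∀ x, |φ x| ≤ K) (g : Patterns N α) :
    |spherePressure N α β φ g| ≤ (numPatterns N α : ℝ) * (|β| * K) / N := by
  rcases Nat.eq_zero_or_pos N with rfl | hN
  · rw [spherePressure_zero]; simp
  · have := isProb_sphP hN
    rw [spherePressure_eq, abs_div, Nat.abs_cast]
    refine div_le_div_of_nonneg_right ?_ (Nat.cast_nonneg _)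
    have := abs_lz_le (σ := sphP N) (rowPot_const (N := N) (α := α) (β := β) hφ hK)
      (MeasurableEquiv.curry _ _ _ g)
    simpa using this

lemma abs_spherePressure_le (hα : 0 ≤ α) (hφ : Measurable φ) (hK : ∀ x, |φ x| ≤ K)
    (g : Patterns N α) : |spherePressure N α β φ g| ≤ α * (|β| * K) := by
  have hK0 : 0 ≤ K := (abs_nonneg _).trans (hK 0)
  refine (abs_spherePressure_le' hφ hK g).trans ?_
  rcases Nat.eq_zero_or_pos N with rfl | hN
  · simp; positivity
  · have hN' : (0 : ℝ) < N := by exact_mod_cast hN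
    rw [div_le_iff₀ hN']
    have := numPatterns_le (N := N) hα
    nlinarith [mul_nonneg (abs_nonneg β) hK0]

variable (ν : Measure ℝ) [IsProbabilityMeasure ν]

lemma memLp_spherePressure (hφ : Measurable φ) (hK : ∀ x, |φ x| ≤ K) (p : ℝ≥0∞) :
    MemLp (spherePressure N α β φ) p (patLaw N α ν) :=
  MemLp.of_bound (measurable_spherePressure hφ hK).aestronglyMeasurable
    ((numPatterns N α : ℝ) * (|β| * K) / N)
    (Eventually.of_forall fun g => by
      rw [Real.norm_eq_abs]; exact abs_spherePressure_le' hφ hK g)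

lemma integrable_spherePressure (hφ : Measurable φ) (hK : ∀ x, |φ x| ≤ K) :
    Integrable (spherePressure N α β φ) (patLaw N α ν) :=
  memLp_one_iff_integrable.1 (memLp_spherePressure ν hφ hK 1)

/-- Efron-Stein over the rows for the literal pressure -/
theorem variance_spherePressure_le (hα : 0 ≤ α) (hφ : Measurable φ) (hK : ∀ x, |φ x| ≤ K) :
    variance (spherePressure N α β φ) (patLaw N α ν) ≤ 2 * (|β| * K) ^ 2 * α / N := by
  rcases Nat.eq_zero_or_pos N with rfl | hN
  · have : spherePressure 0 α β φ = fun _ => 0 := by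
      funext g; exact spherePressure_zero α β φ g
    rw [this]
    have h0 : variance (0 : Patterns 0 α → ℝ) (patLaw 0 α ν) = 0 := variance_zero _
    change variance (0 : Patterns 0 α → ℝ) (patLaw 0 α ν) ≤ _
    rw [h0]
    simp
  · have := isProb_sphP hN
    have hN' : (0 : ℝ) < N := by exact_mod_cast hN
    set u := rp (N := N) fun (_ : Fin (numPatterns N α)) x => β * φ x with hu
    have hrp : RowPot u (|β| * K) := rowPot_const hφ hK
    have h1 : spherePressure N α β φ =
        (fun A => (N : ℝ)⁻¹ * lz (sphP N) u A) ∘ (MeasurableEquiv.curry _ _ _) := by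
      funext g
      rw [spherePressure_eq, div_eq_inv_mul]
      rfl
    have h2 : variance (spherePressure N α β φ) (patLaw N α ν) =
        variance (fun A => (N : ℝ)⁻¹ * lz (sphP N) u A)
          (Measure.pi fun _ : Fin (numPatterns N α) => rowLaw N ν) := by
      rw [h1, ← variance_map ?_ (mp_rows N α ν).measurable.aemeasurable, (mp_rows N α ν).map_eq]
      exact ((measurable_lz hrp).const_mul _).aestronglyMeasurable.aemeasurable
    rw [h2, variance_const_mul]
    have h3 := variance_lz_le (σ := sphP N) (rowLaw N ν) hrp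
    rw [Fintype.card_fin] at h3
    have h4 := numPatterns_le (N := N) hα
    have h5 : 2 * (|β| * K) ^ 2 * (numPatterns N α : ℝ) ≤ 2 * (|β| * K) ^ 2 * (α * N) :=
      mul_le_mul_of_nonneg_left h4 (by positivity)
    calc ((N : ℝ)⁻¹) ^ 2 * variance (lz (sphP N) u)
          (Measure.pi fun _ : Fin (numPatterns N α) => rowLaw N ν)
        ≤ ((N : ℝ)⁻¹) ^ 2 * (2 * (|β| * K) ^ 2 * (α * N)) :=
          mul_le_mul_of_nonneg_left (h3.trans h5) (by positivity)
      _ = 2 * (|β| * K) ^ 2 * α / N := by field_simp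

/-- Chebyshev -/
theorem tail_le (hα : 0 ≤ α) (hφ : Measurable φ) (hK : ∀ x, |φ x| ≤ K) {s : ℝ} (hs : 0 < s) :
    patLaw N α ν {g | s ≤ |spherePressure N α β φ g -
      ∫ g, spherePressure N α β φ g ∂patLaw N α ν|} ≤
      ENNReal.ofReal (2 * (|β| * K) ^ 2 * α / N / s ^ 2) := by
  refine (meas_ge_le_variance_div_sq (memLp_spherePressure ν hφ hK 2) hs).trans ?_
  exact ENNReal.ofReal_le_ofReal
    (div_le_div_of_nonneg_right (variance_spherePressure_le ν hα hφ hK) (sq_nonneg s))

end basic

/-- convergence of the mean implies convergence in probability (iid entries of any law `ν`) -/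
theorem tendsto_tail (ν : Measure ℝ) [IsProbabilityMeasure ν] {α β : ℝ} (hα : 0 ≤ α)
    {φ : ℝ → ℝ} {K : ℝ} (hφ : Measurable φ) (hK : ∀ x, |φ x| ≤ K) {p : ℝ}
    (hp : Tendsto (fun N : ℕ => ∫ g, spherePressure N α β φ g ∂patLaw N α ν) atTop (𝓝 p))
    {ε : ℝ} (hε : 0 < ε) :
    Tendsto (fun N : ℕ => patLaw N α ν {g | ε < |spherePressure N α β φ g - p|}) atTop (𝓝 0) := by
  have h1 : ∀ᶠ N : ℕ in atTop, patLaw N α ν {g | ε < |spherePressure N α β φ g - p|} ≤
      ENNReal.ofReal (2 * (|β| * K) ^ 2 * α / N / (ε / 2) ^ 2) := by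
    have h2 := (Metric.tendsto_nhds.1 hp) (ε / 2) (by linarith)
    filter_upwards [h2] with N hN
    rw [Real.dist_eq] at hN
    refine (measure_mono fun g hg => ?_).trans (tail_le (β := β) ν hα hφ hK (half_pos hε))
    change ε < |spherePressure N α β φ g - p| at hg
    change ε / 2 ≤ |spherePressure N α β φ g - ∫ g, spherePressure N α β φ g ∂patLaw N α ν|
    have := abs_sub_le (spherePressure N α β φ g) (∫ g, spherePressure N α β φ g ∂patLaw N α ν) p
    linarith
  refine tendsto_of_tendsto_of_tendsto_of_le_of_le' tendsto_const_nhds ?_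
    (Eventually.of_forall fun _ => bot_le) h1
  rw [← ENNReal.ofReal_zero]
  refine ENNReal.tendsto_ofReal ?_
  have h3 : Tendsto (fun N : ℕ => (2 * (|β| * K) ^ 2 * α) / (N : ℝ)) atTop (𝓝 0) :=
    tendsto_const_div_atTop_nhds_zero_nat _
  simpa using h3.div_const ((ε / 2) ^ 2)

/-- **node (C)**, literal: the third conjunct of S0206 from the second -/
theorem tendsto_pressureTailProb {α β : ℝ} (hα : 0 ≤ α) {φ : ℝ → ℝ} (hφ : Measurable φ)
    (hφb : ∃ K : ℝ, ∀ x, |φ x| ≤ K) {p : ℝ}
    (hp : Tendsto (fun N : ℕ => expectedPressure N α β φ) atTop (𝓝 p)) :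
    ∀ ε : ℝ, 0 < ε → Tendsto (fun N : ℕ => pressureTailProb N α β φ p ε) atTop (𝓝 0) := by
  intro ε hε
  obtain ⟨K, hK⟩ := hφb
  exact tendsto_tail (gaussianReal 0 1) hα hφ hK hp hε

/-- the same for the mixture laws -/
theorem tendsto_pressureTailProb_mix {α β : ℝ} (hα : 0 ≤ α) {φ : ℝ → ℝ} (hφ : Measurable φ)
    (hφb : ∃ K : ℝ, ∀ x, |φ x| ≤ K) {p e : ℝ}
    (hp : Tendsto (fun N : ℕ => ∫ g, spherePressure N α β φ g ∂patternLawMix N α e) atTop (𝓝 p)) :
    ∀ ε : ℝ, 0 < ε → Tendsto (fun N : ℕ =>
      patternLawMix N α e {g | ε < |spherePressure N α β φ g - p|}) atTop (𝓝 0) := by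
  intro ε hε
  obtain ⟨K, hK⟩ := hφb
  exact tendsto_tail (mixtureLaw e) hα hφ hK hp hε

/-! ### dependence on the density and on the potential -/

/-- the expected pressure as a row integral -/
lemma integral_spherePressure_eq (N : ℕ) (α β : ℝ) (φ : ℝ → ℝ) (ν : Measure ℝ)
    [IsProbabilityMeasure ν] :
    ∫ g, spherePressure N α β φ g ∂patLaw N α ν =
      (∫ A, lz (sphP N) (rp (N := N) fun (_ : Fin (numPatterns N α)) x => β * φ x) A
        ∂(Measure.pi fun _ : Fin (numPatterns N α) => rowLaw N ν)) / N := by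
  have h1 : ∀ g : Patterns N α, spherePressure N α β φ g =
      (fun A => lz (sphP N) (rp (N := N) fun (_ : Fin (numPatterns N α)) x => β * φ x) A / N)
        (MeasurableEquiv.curry _ _ _ g) := fun g => spherePressure_eq N α β φ g
  simp_rw [h1]
  rw [integral_patLaw N α ν (fun A => lz (sphP N) (rp (N := N)
    fun (_ : Fin (numPatterns N α)) x => β * φ x) A / N), integral_div]

lemma numPatterns_mono (N : ℕ) {α α' : ℝ} (h : α ≤ α') : numPatterns N α ≤ numPatterns N α' :=
  Nat.floor_le_floor (mul_le_mul_of_nonneg_right h (Nat.cast_nonneg _))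

lemma numPatterns_sub_le (N : ℕ) {α α' : ℝ} (hα : 0 ≤ α) (h : α ≤ α') :
    (numPatterns N α' : ℝ) - numPatterns N α ≤ (α' - α) * N + 1 := by
  have h1 := numPatterns_le (N := N) (hα.trans h)
  have h2 : α * N < numPatterns N α + 1 := Nat.lt_floor_add_one _
  nlinarith

/-- Lipschitz dependence on the density -/
theorem abs_integral_spherePressure_density_le (ν : Measure ℝ) [IsProbabilityMeasure ν]
    {φ : ℝ → ℝ} {K : ℝ} (hφ : Measurable φ) (hK : ∀ x, |φ x| ≤ K) (N : ℕ) {α α' : ℝ}
    (β : ℝ) (hα : 0 ≤ α) (h : α ≤ α') :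
    |(∫ g, spherePressure N α' β φ g ∂patLaw N α' ν) -
      ∫ g, spherePressure N α β φ g ∂patLaw N α ν| ≤ |β| * K * ((α' - α) + 1 / N) := by
  have hK0 : 0 ≤ K := (abs_nonneg _).trans (hK 0)
  rcases Nat.eq_zero_or_pos N with rfl | hN
  · simp only [spherePressure_zero, integral_zero, sub_self, abs_zero]
    have : 0 ≤ (α' - α) + 1 / ((0 : ℕ) : ℝ) := by simp; linarith
    positivity
  · have := isProb_sphP hN
    have hN' : (0 : ℝ) < N := by exact_mod_cast hN
    rw [integral_spherePressure_eq, integral_spherePressure_eq, ← sub_div, abs_div, Nat.abs_cast,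
      div_le_iff₀ hN']
    have h1 := abs_integral_lz_sub_comp_le (σ := sphP N) (rowLaw N ν)
      (rowPot_const (N := N) (α := α') (β := β) hφ hK)
      (f := Fin.castLE (numPatterns_mono N h)) (Fin.castLE_injective _)
    rw [Fintype.card_fin, Fintype.card_fin] at h1
    have h2 := numPatterns_sub_le N hα h
    refine (h1.trans (mul_le_mul_of_nonneg_right h2 (mul_nonneg (abs_nonneg _) hK0))).trans
      (le_of_eq ?_)
    field_simp

/-- the two-sided form -/
theorem abs_integral_spherePressure_density_le' (ν : Measure ℝ) [IsProbabilityMeasure ν]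
    {φ : ℝ → ℝ} {K : ℝ} (hφ : Measurable φ) (hK : ∀ x, |φ x| ≤ K) (N : ℕ) {α α' : ℝ}
    (β : ℝ) (hα : 0 ≤ α) (hα' : 0 ≤ α') :
    |(∫ g, spherePressure N α' β φ g ∂patLaw N α' ν) -
      ∫ g, spherePressure N α β φ g ∂patLaw N α ν| ≤ |β| * K * (|α' - α| + 1 / N) := by
  rcases le_total α α' with h | h
  · have := abs_integral_spherePressure_density_le ν hφ hK N β hα h
    rwa [abs_of_nonneg (sub_nonneg.2 h)]
  · have := abs_integral_spherePressure_density_le ν hφ hK N β hα' h
    rw [abs_sub_comm, abs_sub_comm α', abs_of_nonneg (sub_nonneg.2 h)]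
    exact this

/-- `expectedPressure`: Lipschitz dependence on the density -/
theorem abs_expectedPressure_density_le {φ : ℝ → ℝ} {K : ℝ} (hφ : Measurable φ)
    (hK : ∀ x, |φ x| ≤ K) (N : ℕ) {α α' : ℝ} (β : ℝ) (hα : 0 ≤ α) (hα' : 0 ≤ α') :
    |expectedPressure N α' β φ - expectedPressure N α β φ| ≤ |β| * K * (|α' - α| + 1 / N) :=
  abs_integral_spherePressure_density_le' (gaussianReal 0 1) hφ hK N β hα hα'

/-- change of the potential, for any entry law: `η` bounds the mean of `|φ - ψ|` of the field of one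
row at every point of the sphere -/
theorem abs_integral_spherePressure_potential_le (ν : Measure ℝ) [IsProbabilityMeasure ν]
    {φ ψ : ℝ → ℝ} {K : ℝ} (hφ : Measurable φ) (hφK : ∀ x, |φ x| ≤ K) (hψ : Measurable ψ)
    (hψK : ∀ x, |ψ x| ≤ K) (N : ℕ) {α : ℝ} (β : ℝ) (hα : 0 ≤ α) {η : ℝ} (hη0 : 0 ≤ η)
    (hη : ∀ y : UnitSphere N, ∫ x, |φ (dotR x y) - ψ (dotR x y)| ∂rowLaw N ν ≤ η) :
    |(∫ g, spherePressure N α β φ g ∂patLaw N α ν) -
      ∫ g, spherePressure N α β ψ g ∂patLaw N α ν| ≤ α * |β| * Real.exp (2 * (|β| * K)) * η := by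
  rcases Nat.eq_zero_or_pos N with rfl | hN
  · simp only [spherePressure_zero, integral_zero, sub_self, abs_zero]
    positivity
  · have := isProb_sphP hN
    have hN' : (0 : ℝ) < N := by exact_mod_cast hN
    rw [integral_spherePressure_eq, integral_spherePressure_eq, ← sub_div, abs_div, Nat.abs_cast,
      div_le_iff₀ hN']
    have h1 := abs_integral_lz_sub_le (σ := sphP N) (rowLaw N ν)
      (rowPot_const (N := N) (α := α) (β := β) hφ hφK)
      (rowPot_const (N := N) (α := α) (β := β) hψ hψK) (η := fun _ => |β| * η) (by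
        intro _ y
        simp only [rp]
        have e : ∀ x, |β * φ (dotR x y) - β * ψ (dotR x y)| =
            |β| * |φ (dotR x y) - ψ (dotR x y)| := by
          intro x; rw [← mul_sub, abs_mul]
        simp_rw [e]
        rw [integral_const_mul]
        exact mul_le_mul_of_nonneg_left (hη y) (abs_nonneg _))
    refine h1.trans ?_
    rw [Finset.sum_const, Finset.card_univ, Fintype.card_fin, nsmul_eq_mul]
    have h4 := mul_le_mul_of_nonneg_right (numPatterns_le (N := N) hα)
      (mul_nonneg (mul_nonneg (Real.exp_pos (2 * (|β| * K))).le (abs_nonneg β)) hη0)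
    calc Real.exp (2 * (|β| * K)) * ((numPatterns N α : ℝ) * (|β| * η))
        = (numPatterns N α : ℝ) * (Real.exp (2 * (|β| * K)) * |β| * η) := by ring
      _ ≤ α * N * (Real.exp (2 * (|β| * K)) * |β| * η) := h4
      _ = _ := by ring

/-! ### the Gaussian row -/

lemma norm_sq_coe {N : ℕ} (y : UnitSphere N) :
    ∑ i, (y : EuclideanSpace ℝ (Fin N)) i ^ 2 = 1 := by
  have h1 : ‖(y : EuclideanSpace ℝ (Fin N))‖ = 1 := mem_sphere_zero_iff_norm.1 y.2
  have h2 := EuclideanSpace.norm_sq_eq (y : EuclideanSpace ℝ (Fin N))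
  rw [h1, one_pow] at h2
  refine Eq.trans (Finset.sum_congr rfl fun i _ => ?_) h2.symm
  rw [Real.norm_eq_abs, sq_abs]

/-- the field of a Gaussian row at a point of the sphere is standard Gaussian -/
theorem map_dotR_gaussian {N : ℕ} (y : UnitSphere N) :
    (rowLaw N (gaussianReal 0 1)).map (fun x => dotR x y) = gaussianReal 0 1 := by
  have hm : Measurable fun x : Fin N → ℝ => dotR x y :=
    measurable_dotR.comp (measurable_id.prodMk measurable_const)
  have hp : IsProbabilityMeasure ((rowLaw N (gaussianReal 0 1)).map (fun x => dotR x y)) :=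
    Measure.isProbabilityMeasure_map hm.aemeasurable
  refine Measure.ext_of_charFun ?_
  funext t
  rw [charFun_gaussianReal, charFun_apply_real, integral_map hm.aemeasurable (by fun_prop)]
  have h1 : ∀ x : Fin N → ℝ, Complex.exp (t * (dotR x y : ℝ) * Complex.I) =
      ∏ i, Complex.exp ((t * (y : EuclideanSpace ℝ (Fin N)) i : ℝ) * (x i : ℂ) * Complex.I) := by
    intro x
    rw [← Complex.exp_sum]
    congr 1
    unfold dotR
    push_cast
    rw [Finset.mul_sum, Finset.sum_mul]
    refine Finset.sum_congr rfl fun i _ => ?_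
    ring
  simp_rw [h1]
  unfold rowLaw
  rw [integral_fintype_prod_eq_prod (𝕜 := ℂ)
    (f := fun (i : Fin N) (s : ℝ) => Complex.exp
      ((t * (y : EuclideanSpace ℝ (Fin N)) i : ℝ) * (s : ℂ) * Complex.I))]
  have h2 : ∀ i : Fin N, ∫ s, Complex.exp
      ((t * (y : EuclideanSpace ℝ (Fin N)) i : ℝ) * (s : ℂ) * Complex.I) ∂gaussianReal 0 1 =
      Complex.exp (-(t ^ 2 * ((y : EuclideanSpace ℝ (Fin N)) i) ^ 2 : ℝ) / 2) := by
    intro i
    rw [← charFun_apply_real, charFun_gaussianReal]
    congr 1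
    push_cast
    ring
  simp_rw [h2]
  rw [← Complex.exp_sum]
  congr 1
  have h3 := norm_sq_coe y
  have h4 : ∑ i, (-(t ^ 2 * ((y : EuclideanSpace ℝ (Fin N)) i) ^ 2 : ℝ) / 2 : ℂ) =
      -(t ^ 2 : ℝ) / 2 * ((∑ i, ((y : EuclideanSpace ℝ (Fin N)) i) ^ 2 : ℝ) : ℂ) := by
    push_cast
    rw [Finset.mul_sum]
    refine Finset.sum_congr rfl fun i _ => ?_
    ring
  rw [h4, h3]
  push_cast
  ring

lemma integral_dotR_gaussian {N : ℕ} (y : UnitSphere N) {f : ℝ → ℝ} (hf : Measurable f) :
    ∫ x, f (dotR x y) ∂rowLaw N (gaussianReal 0 1) = ∫ z, f z ∂gaussianReal 0 1 := by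
  have hm : Measurable fun x : Fin N → ℝ => dotR x y :=
    measurable_dotR.comp (measurable_id.prodMk measurable_const)
  rw [← integral_map hm.aemeasurable (f := f) hf.aestronglyMeasurable, map_dotR_gaussian y]

/-- change of the potential for the Gaussian pattern law -/
theorem abs_expectedPressure_potential_le {φ ψ : ℝ → ℝ} {K : ℝ} (hφ : Measurable φ)
    (hφK : ∀ x, |φ x| ≤ K) (hψ : Measurable ψ) (hψK : ∀ x, |ψ x| ≤ K) (N : ℕ) {α : ℝ} (β : ℝ)
    (hα : 0 ≤ α) :
    |expectedPressure N α β φ - expectedPressure N α β ψ| ≤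
      α * |β| * Real.exp (2 * (|β| * K)) * ∫ z, |φ z - ψ z| ∂gaussianReal 0 1 :=
  abs_integral_spherePressure_potential_le (gaussianReal 0 1) hφ hφK hψ hψK N β hα
    (integral_nonneg fun _ => abs_nonneg _) fun y =>
    (integral_dotR_gaussian y (f := fun z => |φ z - ψ z|) (hφ.sub hψ).abs).le

end Crest.Agent.R146.Conc_237
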