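import Crest.Agent.R146.L3Tay_663

/-!
Row 146, S0206, lower bound, node CRUDE of `S6L_988` (helper663):
`crude_of : NEWC → MOM → FLD → CRUDE`.
-/

set_option autoImplicit false

namespace Crest.Agent.R146.Crude_663

open Finset MeasureTheory ProbabilityTheory Crest.Agent.R141
open Crest.Agent.R146.S6Def_988 Crest.Agent.R146.S6U_988 Crest.Agent.R146.S6L_988
open Crest.Agent.R146.FobL_998 Crest.Agent.R146.L3Tay_663

noncomputable section

/-- the first absolute moment -/
def c1 : ℝ := ∫ x, |x| ∂(gaussianReal 0 1)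

theorem c1_nonneg : 0 ≤ c1 := integral_nonneg fun _ => abs_nonneg _

/-- mean of the quadratic coefficient -/
theorem int_E2_le (hMOM : MOM) {N : ℕ} {C : Cfg N} {nc n M : ℕ} {K : ℝ} {f f1 f2 : ℝ → ℝ}
    (h : S6L_988.S3 K f f1 f2) (hN : 0 < N) (hn : 0 < n) (s : Fin nc → ℝ) {αp : ℝ}
    (hM : (M : ℝ) ≤ αp * N) :
    ∫ G, eE (QQ C nc n (M := M) (fun _ => f) G s) (fun ω => |E2 f1 f2 0 G ω|) ∂(gam M N) ≤
      αp * (K + K * (Real.exp (4 * K) * c1)) := by
  have hK : 0 ≤ K := (abs_nonneg _).trans (h.b0 0)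
  have hfc : Continuous f := continuous_iff_continuousAt.2 fun x => (h.d1 x).continuousAt
  have hn0 : (0:ℝ) < N := by exact_mod_cast hN
  have hi : ∀ a : Fin M, _ := fun a =>
    hMOM K N nc n hN hn C (fun _ => f) M s (fun _ => hfc.measurable) (fun _ => h.b0) a
      (fun x => |x|) (by fun_prop) (fun x => abs_nonneg x) (by
        have := integrable_pow_gauss 1
        simpa using this)
  have ia : ∀ a : Fin M, Integrable (fun G : Fin M → Fin N → ℝ =>
      K + K * eE (QQ C nc n (fun _ => f) G s) (fun ω => |hh G a (C.x ω.1)|)) (gam M N) :=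
    fun a => (integrable_const _).add ((hi a).1.const_mul _)
  have is : Integrable (fun G : Fin M → Fin N → ℝ =>
      (N:ℝ)⁻¹ * ∑ a : Fin M, (K + K * eE (QQ C nc n (fun _ => f) G s)
        (fun ω => |hh G a (C.x ω.1)|))) (gam M N) :=
    (integrable_finsetSum _ fun a _ => ia a).const_mul _
  have hpt : ∀ G : Fin M → Fin N → ℝ, eE (QQ C nc n (fun _ => f) G s)
      (fun ω => |E2 f1 f2 0 G ω|) ≤ (N:ℝ)⁻¹ * ∑ a : Fin M, (K + K *
        eE (QQ C nc n (fun _ => f) G s) (fun ω => |hh G a (C.x ω.1)|)) := by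
    intro G
    have hQ := QQ_isProb (C := C) (nc := nc) (n := n) (fun _ => f) G s
    have h1 : ∀ ω : Om C nc n, |E2 f1 f2 0 G ω| ≤
        (N:ℝ)⁻¹ * (∑ a : Fin M, (K + K * |hh G a (C.x ω.1)|)) := by
      intro ω
      unfold E2 RS
      rw [sub_zero, ← mul_sub, ← Finset.sum_sub_distrib, abs_mul, abs_of_pos (inv_pos.2 hn0)]
      refine mul_le_mul_of_nonneg_left ?_ (inv_pos.2 hn0).le
      refine (Finset.abs_sum_le_sum_abs _ _).trans (Finset.sum_le_sum fun a _ => ?_)
      refine (abs_sub _ _).trans ?_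
      rw [mul_one, abs_mul]
      exact add_le_add (h.b2 _) (mul_le_mul_of_nonneg_right (h.b1 _) (abs_nonneg _))
    refine (eE_mono hQ h1).trans (le_of_eq ?_)
    rw [eE_smul, eE_sum]
    congr 1
    refine Finset.sum_congr rfl fun a _ => ?_
    rw [eE_add, eE_const hQ, eE_smul]
  refine (integral_mono (integrable_E2 hMOM h hN hn s 0) is hpt).trans ?_
  rw [integral_const_mul, integral_finsetSum _ fun a _ => ia a]
  have e1 : ∀ a : Fin M, ∫ G : Fin M → Fin N → ℝ, (K + K * eE (QQ C nc n (fun _ => f) G s)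
      (fun ω => |hh G a (C.x ω.1)|)) ∂(gam M N) ≤ K + K * (Real.exp (4 * K) * c1) := by
    intro a
    rw [integral_add (integrable_const _) ((hi a).1.const_mul _), integral_const_mul,
      integral_const]
    simp only [probReal_univ, smul_eq_mul, one_mul]
    have := mul_le_mul_of_nonneg_left (hi a).2 hK
    unfold c1
    linarith
  have e2 := Finset.sum_le_sum fun a (_ : a ∈ (univ : Finset (Fin M))) => e1 a
  rw [Finset.sum_const, card_univ, Fintype.card_fin, nsmul_eq_mul] at e2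
  have hc := c1_nonneg
  have hpos : 0 ≤ K + K * (Real.exp (4 * K) * c1) := by positivity
  calc (N:ℝ)⁻¹ * ∑ a : Fin M, ∫ G : Fin M → Fin N → ℝ, (K + K *
        eE (QQ C nc n (fun _ => f) G s) (fun ω => |hh G a (C.x ω.1)|)) ∂(gam M N)
      ≤ (N:ℝ)⁻¹ * (M * (K + K * (Real.exp (4 * K) * c1))) := by gcongr
    _ ≤ (N:ℝ)⁻¹ * ((αp * N) * (K + K * (Real.exp (4 * K) * c1))) := by gcongr
    _ = _ := by field_simp

theorem crude_of (hNEWC : NEWC) (hMOM : MOM) (hFLD : FLD) : CRUDE := by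
  intro αm K
  have hTAYC := tayc_of hMOM hFLD
  obtain ⟨Cst, hCst, hT⟩ := hTAYC αm K 1 0 0 one_pos le_rfl le_rfl
  obtain ⟨N1, hT⟩ := hT 1 one_pos
  obtain ⟨N2, hNw⟩ := hNEWC 1 K K 1 1 one_pos one_pos
  set αp : ℝ := max αm 0 with hαp
  have hαp0 : 0 ≤ αp := le_max_right _ _
  have hc := c1_nonneg
  refine ⟨cV 1 0 0 + Cst * (αp * (|K| + |K| * (Real.exp (4 * |K|) * c1))) + Cst + 2, ?_,
    max N1 N2, ?_⟩
  · have := cV_nonneg (k := 1) (L := 0) (D := 0) le_rfl
    positivity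
  intro N hNN hN nc n M hn hM A hA
  obtain ⟨δ, hδ, hNw⟩ := hNw N ((le_max_right _ _).trans hNN) hN nc n M hn
  refine ⟨δ, hδ, ?_⟩
  intro C C1 hC hC1 f f1 f2 h s hs
  have hK : 0 ≤ K := (abs_nonneg _).trans (h.b0 0)
  have hKa : |K| = K := abs_of_nonneg hK
  have hf1c : Continuous f1 := continuous_iff_continuousAt.2 fun x => (h.d2 x).continuousAt
  have hfc : Continuous f := continuous_iff_continuousAt.2 fun x => (h.d1 x).continuousAt
  have hBL : BL K K f := by
    refine ⟨h.b0, fun x y => ?_⟩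
    have := Convex.norm_image_sub_le_of_norm_hasDerivWithin_le (f := f) (f' := f1) (C := K)
      (s := Set.univ) (x := y) (y := x) (fun z _ => (h.d1 z).hasDerivWithinAt)
      (fun z _ => by rw [Real.norm_eq_abs]; exact h.b1 z) convex_univ (Set.mem_univ _)
      (Set.mem_univ _)
    simpa [Real.norm_eq_abs] using this
  have hs1 : ∀ g, |s g| ≤ 1 := by
    intro g
    have hnc : 1 ≤ (nc : ℝ) := by
      have : 0 < nc := lt_of_le_of_lt (Nat.zero_le _) g.2
      exact_mod_cast this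
    have hA0 : 0 ≤ A := (abs_nonneg _).trans (hs g)
    have : A ≤ 1 := by nlinarith
    exact (hs g).trans this
  have hncA : 0 ≤ (nc : ℝ) * A := by
    rcases Nat.eq_zero_or_pos nc with h0 | h0
    · rw [h0]; simp
    · have : 0 ≤ A := (abs_nonneg _).trans (hs ⟨0, h0⟩)
      positivity
  have h1 := hNw C C1 hC hC1 f hBL s hs1
  have h2 := hT N ((le_max_left _ _).trans hNN) hN nc n hn C f f1 f2 h M A s hM hs hA 0
    (by simp) le_rfl
  have hMp : (M : ℝ) ≤ αp * N := hM.trans (by rw [hαp]; gcongr; exact le_max_left _ _)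
  have h3 := int_E2_le (C := C) (nc := nc) hMOM h hN hn s hMp
  have h3' : ∫ G, eE (QQ C nc n (M := M) (fun _ => f) G s)
      (fun ω => |RS C nc n f2 (fun _ => 1) G ω ω - RS C nc n f1 (fun x => x) G ω ω - 0|)
        ∂(gam M N) ≤ αp * (K + K * (Real.exp (4 * K) * c1)) := h3
  have iL := (integrable_F (C := C) (nc := nc) (n := n) (M := M) (f := fun _ => f)
    (fun _ => hfc.measurable) s
    (V := fun G g0 ω => LamT 1 0 0 (∑ a, Wv C nc n f1 G ω a * g0 a))
    (meas_LamT one_pos 0 0 hf1c)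
    (B := cV 1 0 0) (fun G g0 ω => LamT_abs one_pos (by simp) le_rfl le_rfl _))
  have h4 : -cV 1 0 0 ≤ ∫ G, (∫ g0, eE (QQ C nc n (M := M) (fun _ => f) G s)
      (Crest.Agent.R141.A (QQ C nc n (M := M) (fun _ => f) G s) (fil C nc n) (xs nc n)
        (fun ω => LamT 1 0 0 (∑ a, Wv C nc n f1 G ω a * g0 a)) 0) ∂(gv M)) ∂(gam M N) := by
    have a1 : ∀ G : Fin M → Fin N → ℝ, -cV 1 0 0 ≤
        ∫ g0, eE (QQ C nc n (M := M) (fun _ => f) G s)
        (Crest.Agent.R141.A (QQ C nc n (M := M) (fun _ => f) G s) (fil C nc n) (xs nc n)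
        (fun ω => LamT 1 0 0 (∑ a, Wv C nc n f1 G ω a * g0 a)) 0) ∂(gv M) := by
      intro G
      have a2 : ∀ g0 : Fin M → ℝ, -cV 1 0 0 ≤ eE (QQ C nc n (M := M) (fun _ => f) G s)
          (Crest.Agent.R141.A (QQ C nc n (M := M) (fun _ => f) G s) (fil C nc n) (xs nc n)
          (fun ω => LamT 1 0 0 (∑ a, Wv C nc n f1 G ω a * g0 a)) 0) := fun g0 =>
        (abs_le.1 (eE_A_abs (QQ_isProb (fun _ => f) G s) (xs_isExpo nc n).pos
          (fun ω => LamT_abs one_pos (by simp) le_rfl le_rfl _))).1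
      have a3 := integral_mono (μ := gv M) (integrable_const (-cV 1 0 0)) (iL.1 G) a2
      simpa using a3
    have a4 := integral_mono (μ := gam M N) (integrable_const (-cV 1 0 0)) iL.2 a1
    simpa using a4
  have h5 : Cst * ∫ G, eE (QQ C nc n (M := M) (fun _ => f) G s)
      (fun ω => |RS C nc n f2 (fun _ => 1) G ω ω - RS C nc n f1 (fun x => x) G ω ω - 0|)
        ∂(gam M N) ≤ Cst * (αp * (K + K * (Real.exp (4 * K) * c1))) :=
    mul_le_mul_of_nonneg_left h3' hCst
  have h6 : Cst * ((nc : ℝ) * A) ≤ Cst * 1 := mul_le_mul_of_nonneg_left hA hCst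
  rw [hKa]
  linarith

end

end Crest.Agent.R146.Crude_663
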