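import Crest.Agent.R164.GCalc2
import Crest.Prelude.Def_SphericalPressure

/-!
Row 146, S0206 node (V), part A (helper130): Gaussian one-step estimates for `gaussOp`.
-/

set_option autoImplicit false

namespace Crest.Agent.R146.CtlA_130

open MeasureTheory ProbabilityTheory Filter Topology Set
open Crest.ProbabilityR.InvariantGlass
open Crest.Agent.R164.GC (H)

noncomputable section

/-- bounded measurable functions -/
structure BM (f : ℝ → ℝ) (K : ℝ) : Prop where
  meas : Measurable f
  bd : ∀ x, |f x| ≤ K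

theorem BM.nonneg {f : ℝ → ℝ} {K : ℝ} (h : BM f K) : 0 ≤ K := (abs_nonneg _).trans (h.bd 0)

theorem BM.int {f : ℝ → ℝ} {K : ℝ} (h : BM f K) (t x : ℝ) (μ : Measure ℝ) [IsFiniteMeasure μ] :
    Integrable (fun g => f (x + t * g)) μ := by
  refine Integrable.of_bound (h.meas.comp (by fun_prop)).aestronglyMeasurable K ?_
  exact ae_of_all _ fun g => by simpa [Real.norm_eq_abs] using h.bd _

theorem BM.expi {f : ℝ → ℝ} {K : ℝ} (h : BM f K) (a t x : ℝ) (μ : Measure ℝ) [IsFiniteMeasure μ] :
    Integrable (fun g => Real.exp (a * f (x + t * g))) μ := by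
  refine Integrable.of_bound
    ((h.meas.comp (by fun_prop)).const_mul a).exp.aestronglyMeasurable (Real.exp (|a| * K)) ?_
  refine ae_of_all _ fun g => ?_
  rw [Real.norm_eq_abs, abs_of_pos (Real.exp_pos _)]
  refine Real.exp_le_exp.2 ?_
  calc a * f (x + t * g) ≤ |a * f (x + t * g)| := le_abs_self _
    _ = |a| * |f (x + t * g)| := abs_mul _ _
    _ ≤ |a| * K := mul_le_mul_of_nonneg_left (h.bd _) (abs_nonneg a)

/-- Gaussian shift -/
theorem gauss_shift (h : ℝ → ℝ) (c : ℝ) :
    ∫ z, h z ∂gaussianReal 0 1 =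
      ∫ z, h (z + c) * Real.exp (-c * z - c ^ 2 / 2) ∂gaussianReal 0 1 := by
  rw [integral_gaussianReal_eq_integral_smul one_ne_zero,
    integral_gaussianReal_eq_integral_smul one_ne_zero]
  rw [← integral_add_right_eq_self (μ := (volume : Measure ℝ)) (fun z => gaussianPDFReal 0 1 z • h z) c]
  refine integral_congr_ae (ae_of_all _ fun z => ?_)
  simp only [smul_eq_mul, gaussianPDFReal, sub_zero, NNReal.coe_one, mul_one]
  have : Real.exp (-(z + c) ^ 2 / 2) = Real.exp (-z ^ 2 / 2) * Real.exp (-c * z - c ^ 2 / 2) := by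
    rw [← Real.exp_add]; congr 1; ring
  rw [this]; ring

/-- one-step upper bound -/
theorem step_le {u : ℝ → ℝ} {K : ℝ} (hu : BM u K) {x : ℝ} (hx : 0 ≤ x) {d : ℝ} (hd : 0 ≤ d)
    (y c : ℝ) :
    (∫ g, u (y + x * d * c + Real.sqrt d * g) ∂gaussianReal 0 1) - x / 2 * (d * c ^ 2) ≤
      gaussOp x d u y := by
  rcases hx.eq_or_lt with hx0 | hx0
  · rw [← hx0, R164.GC.gaussOp_zero]
    simp [H]
  · rw [R164.GC.gaussOp_ne hx0.ne']
    unfold H
    set s := Real.sqrt d with hs
    have hsd : s ^ 2 = d := Real.sq_sqrt hd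
    set c' := x * s * c with hc'
    have e1 := gauss_shift (fun z => Real.exp (x * u (y + s * z))) c'
    rw [e1]
    have e2 : (fun z => Real.exp (x * u (y + s * (z + c'))) * Real.exp (-c' * z - c' ^ 2 / 2)) =
        fun z => Real.exp (x * u (y + x * d * c + s * z) + (-c' * z - c' ^ 2 / 2)) := by
      funext z
      rw [← Real.exp_add]
      congr 4
      rw [hc', ← hsd]; ring
    rw [e2]
    have hi1 := hu.int s (y + x * d * c) (gaussianReal 0 1)
    have hi2 : Integrable (fun z : ℝ => -c' * z - c' ^ 2 / 2) (gaussianReal 0 1) :=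
      ((memLp_id_gaussianReal' 1 (by simp)).integrable le_rfl).const_mul (-c') |>.sub
        (integrable_const _)
    have hW : Integrable (fun z => x * u (y + x * d * c + s * z) + (-c' * z - c' ^ 2 / 2))
        (gaussianReal 0 1) := (hi1.const_mul x).add hi2
    have hE : Integrable
        (fun z => Real.exp (x * u (y + x * d * c + s * z) + (-c' * z - c' ^ 2 / 2)))
        (gaussianReal 0 1) := by
      have h1 : Integrable (fun z : ℝ => Real.exp (-c' * z)) (gaussianReal 0 1) :=
        integrable_exp_mul_gaussianReal _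
      refine (h1.const_mul (Real.exp (|x| * K))).mono'
        (Measurable.aestronglyMeasurable ?_) (ae_of_all _ fun z => ?_)
      · exact (((hu.meas.comp (by fun_prop)).const_mul x).add (by fun_prop)).exp
      · rw [Real.norm_eq_abs, abs_of_pos (Real.exp_pos _), ← Real.exp_add]
        refine Real.exp_le_exp.2 ?_
        have h2 : x * u (y + x * d * c + s * z) ≤ |x| * K := by
          calc _ ≤ |x * u (y + x * d * c + s * z)| := le_abs_self _
            _ = |x| * |u (y + x * d * c + s * z)| := abs_mul _ _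
            _ ≤ |x| * K := mul_le_mul_of_nonneg_left (hu.bd _) (abs_nonneg x)
        nlinarith [sq_nonneg c']
    have hJ : Real.exp (∫ z, (x * u (y + x * d * c + s * z) + (-c' * z - c' ^ 2 / 2))
        ∂gaussianReal 0 1) ≤ ∫ z, Real.exp (x * u (y + x * d * c + s * z) +
          (-c' * z - c' ^ 2 / 2)) ∂gaussianReal 0 1 :=
      convexOn_exp.map_integral_le Real.continuous_exp.continuousOn isClosed_univ
        (by simp) hW hE
    have hI : ∫ z, (x * u (y + x * d * c + s * z) + (-c' * z - c' ^ 2 / 2)) ∂gaussianReal 0 1 =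
        x * (∫ z, u (y + x * d * c + s * z) ∂gaussianReal 0 1) - c' ^ 2 / 2 := by
      have hid : Integrable (fun z : ℝ => -c' * z) (gaussianReal 0 1) :=
        ((memLp_id_gaussianReal' 1 (by simp)).integrable le_rfl).const_mul (-c')
      rw [integral_add (hi1.const_mul x) hi2, integral_const_mul, integral_sub hid
        (integrable_const _), integral_const_mul, integral_id_gaussianReal]
      simp
      ring
    rw [hI] at hJ
    have hL := Real.log_le_log (Real.exp_pos _) hJ
    rw [Real.log_exp] at hL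
    have h3 : (∫ g, u (y + x * d * c + s * g) ∂gaussianReal 0 1) - x / 2 * (d * c ^ 2) =
        x⁻¹ * (x * (∫ z, u (y + x * d * c + s * z) ∂gaussianReal 0 1) - c' ^ 2 / 2) := by
      rw [hc', ← hsd]
      field_simp
    rw [h3]
    exact mul_le_mul_of_nonneg_left hL (by positivity)

theorem exp_le_aux (v : ℝ) : Real.exp v ≤ 1 + v + v ^ 2 * Real.exp |v| := by
  have h1 : 1 - v ≤ Real.exp (-v) := by have := Real.add_one_le_exp (-v); linarith
  have h3 : Real.exp (-v) * Real.exp v = 1 := by rw [← Real.exp_add]; simp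
  have hpos := Real.exp_pos v
  -- `exp v - 1 ≤ v exp v`
  have h4 : Real.exp v - 1 ≤ v * Real.exp v := by nlinarith
  have h5 : v ≤ Real.exp v - 1 := by have := Real.add_one_le_exp v; linarith
  have hle : Real.exp v ≤ Real.exp |v| := Real.exp_le_exp.2 (le_abs_self v)
  have h1' : (1:ℝ) ≤ Real.exp |v| := Real.one_le_exp (abs_nonneg v)
  rcases le_or_gt 0 v with hv | hv
  · nlinarith [mul_nonneg hv (sub_nonneg.2 h4), mul_le_mul_of_nonneg_left hle (mul_nonneg hv hv)]
  · -- `v (exp v - 1) ≤ v²`
    have h6 : v * (Real.exp v - 1) ≤ v * v := mul_le_mul_of_nonpos_left h5 hv.le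
    have h7 : 0 ≤ v ^ 2 := sq_nonneg v
    nlinarith [mul_le_mul_of_nonneg_left h1' h7]

theorem integrable_poly_exp (n : ℕ) (A L : ℝ) :
    Integrable (fun z : ℝ => (A + |z|) ^ n * Real.exp (L * |z|)) (gaussianReal 0 1) := by
  have h1 := R164.GC.integrable_exp_abs (L + n)
  refine (h1.const_mul (Real.exp (n * |A|))).mono' (by fun_prop) (ae_of_all _ fun z => ?_)
  rw [Real.norm_eq_abs, abs_mul, abs_of_pos (Real.exp_pos (L * |z|)), abs_pow]
  have h2 : abs (A + |z|) ≤ Real.exp (|A| + |z|) := by
    calc abs (A + |z|) ≤ |A| + |z| := by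
          have := abs_add_le A |z|
          rwa [abs_abs] at this
      _ ≤ Real.exp (|A| + |z|) := by have := Real.add_one_le_exp (|A| + |z|); linarith
  calc (abs (A + |z|)) ^ n * Real.exp (L * |z|) ≤
        Real.exp (|A| + |z|) ^ n * Real.exp (L * |z|) :=
        mul_le_mul_of_nonneg_right (pow_le_pow_left₀ (abs_nonneg _) h2 n) (Real.exp_pos _).le
    _ = Real.exp (n * |A|) * Real.exp ((L + n) * |z|) := by
        rw [← Real.exp_nat_mul, ← Real.exp_add, ← Real.exp_add]; congr 1; ring

/-- the constant of the one-step lower bound -/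
def MC (L C : ℝ) : ℝ :=
  C ^ 2 * ∫ z, ((L + |z|) ^ 4 * Real.exp (2 * L * |z|)) ∂gaussianReal 0 1

theorem MC_nonneg (L C : ℝ) : 0 ≤ MC L C := by
  unfold MC
  have : 0 ≤ ∫ z, ((L + |z|) ^ 4 * Real.exp (2 * L * |z|)) ∂gaussianReal 0 1 :=
    integral_nonneg fun z => by positivity
  positivity

/-- one-step lower bound -/
theorem step_ge {u u1 : ℝ → ℝ} {K L C : ℝ} (hu : BM u K) (hd1 : ∀ y, HasDerivAt u (u1 y) y)
    (hL0 : 0 ≤ L) (hC0 : 0 ≤ C)
    (hL : ∀ y, |u1 y| ≤ L) (hC : ∀ y z, |u1 y - u1 z| ≤ C * |y - z|) {x : ℝ} (hx : 0 ≤ x)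
    (hx1 : x ≤ 1) {d : ℝ} (hd : 0 ≤ d) (hd1' : d ≤ 1) (y : ℝ) :
    gaussOp x d u y ≤ (∫ g, u (y + x * d * u1 y + Real.sqrt d * g) ∂gaussianReal 0 1) -
      x / 2 * (d * u1 y ^ 2) + MC L C * d ^ 2 := by
  rcases hx.eq_or_lt with hx0 | hx0
  · rw [← hx0, R164.GC.gaussOp_zero]
    have := mul_nonneg (MC_nonneg L C) (sq_nonneg d)
    simp [H]
    exact this
  · rw [R164.GC.gaussOp_ne hx0.ne']
    unfold H
    set s := Real.sqrt d with hs
    set c := u1 y with hc
    have hs0 : 0 ≤ s := Real.sqrt_nonneg d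
    have hs1 : s ≤ 1 := Real.sqrt_le_one.mpr hd1'
    have hsd : s ^ 2 = d := Real.sq_sqrt hd
    set c' := x * s * c with hc'
    have e1 := gauss_shift (fun z => Real.exp (x * u (y + s * z))) c'
    rw [e1]
    set W : ℝ → ℝ := fun z => x * u (y + x * d * c + s * z) + (-c' * z - c' ^ 2 / 2) with hWdef
    have e2 : (fun z => Real.exp (x * u (y + s * (z + c'))) * Real.exp (-c' * z - c' ^ 2 / 2)) =
        fun z => Real.exp (W z) := by
      funext z
      rw [← Real.exp_add, hWdef]
      congr 4
      rw [hc', ← hsd]; ring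
    rw [e2]
    have hdW : ∀ z, HasDerivAt W (x * s * (u1 (y + x * d * c + s * z) - c)) z := by
      intro z
      have h1 : HasDerivAt (fun z => y + x * d * c + s * z) s z := by
        simpa using ((hasDerivAt_id z).const_mul s).const_add (y + x * d * c)
      have h2 := ((hd1 (y + x * d * c + s * z)).comp z h1).const_mul x
      have h3 : HasDerivAt (fun z : ℝ => -c' * z - c' ^ 2 / 2) (-c') z := by
        simpa using ((hasDerivAt_id z).const_mul (-c')).sub_const (c' ^ 2 / 2)
      have h4 := h2.add h3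
      refine (h4.congr_deriv ?_)
      rw [hc']; ring
    set V : ℝ → ℝ := fun z => W z - W 0 with hV
    have hcL : |c| ≤ L := hL y
    have hb1 : ∀ z, |V z| ≤ x * C * d * ((L + |z|) * |z|) := by
      intro z
      have := Convex.norm_image_sub_le_of_norm_hasDerivWithin_le (f := W)
        (f' := fun z => x * s * (u1 (y + x * d * c + s * z) - c)) (C := x * C * d * (L + |z|))
        (s := Metric.closedBall (0:ℝ) |z|) (x := 0) (y := z)
        (fun ζ _ => (hdW ζ).hasDerivWithinAt) ?_ (convex_closedBall _ _)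
        (Metric.mem_closedBall_self (abs_nonneg z)) (by simp [Real.dist_eq])
      · rw [hV]
        simpa [Real.norm_eq_abs, mul_assoc] using this
      · intro ζ hζ
        rw [Metric.mem_closedBall, dist_zero_right, Real.norm_eq_abs] at hζ
        rw [Real.norm_eq_abs, abs_mul, abs_of_nonneg (mul_nonneg hx hs0)]
        have h5 : |u1 (y + x * d * c + s * ζ) - c| ≤ C * (s * (L + |z|)) := by
          rw [hc]
          refine (hC _ _).trans (mul_le_mul_of_nonneg_left ?_ hC0)
          have e : y + x * d * u1 y + s * ζ - y = x * d * u1 y + s * ζ := by ring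
          rw [e]
          calc |x * d * u1 y + s * ζ| ≤ |x * d * u1 y| + |s * ζ| := abs_add_le _ _
            _ = x * d * |u1 y| + s * |ζ| := by
                rw [abs_mul (x * d), abs_mul s, abs_of_nonneg (mul_nonneg hx hd),
                  abs_of_nonneg hs0]
            _ ≤ s * L + s * |z| := by
                refine add_le_add ?_ (mul_le_mul_of_nonneg_left hζ hs0)
                have h6 : x * d ≤ s := by
                  rw [← hsd]
                  nlinarith [mul_nonneg hs0 hs0, mul_nonneg hx hs0]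
                exact mul_le_mul h6 hcL (abs_nonneg _) hs0
            _ = s * (L + |z|) := by ring
        calc x * s * |u1 (y + x * d * c + s * ζ) - c| ≤ x * s * (C * (s * (L + |z|))) :=
              mul_le_mul_of_nonneg_left h5 (mul_nonneg hx hs0)
          _ = x * C * s ^ 2 * (L + |z|) := by ring
          _ = x * C * d * (L + |z|) := by rw [hsd]
    have hb2 : ∀ z, |V z| ≤ 2 * L * |z| := by
      intro z
      have := Convex.norm_image_sub_le_of_norm_hasDerivWithin_le (f := W)
        (f' := fun z => x * s * (u1 (y + x * d * c + s * z) - c)) (C := 2 * L)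
        (s := Set.univ) (x := 0) (y := z)
        (fun ζ _ => (hdW ζ).hasDerivWithinAt) ?_ convex_univ (mem_univ _) (mem_univ _)
      · rw [hV]
        simpa [Real.norm_eq_abs, mul_assoc] using this
      · intro ζ _
        rw [Real.norm_eq_abs, abs_mul, abs_of_nonneg (mul_nonneg hx hs0)]
        have h6 : |u1 (y + x * d * c + s * ζ) - c| ≤ 2 * L := by
          calc _ ≤ |u1 (y + x * d * c + s * ζ)| + |c| := abs_sub _ _
            _ ≤ 2 * L := by have := hL (y + x * d * c + s * ζ); linarith
        have h7 : x * s ≤ 1 := by nlinarith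
        calc x * s * |u1 (y + x * d * c + s * ζ) - c| ≤ 1 * (2 * L) :=
              mul_le_mul h7 h6 (abs_nonneg _) zero_le_one
          _ = 2 * L := one_mul _
    have hi1 := hu.int s (y + x * d * c) (gaussianReal 0 1)
    have hid : Integrable (fun z : ℝ => -c' * z) (gaussianReal 0 1) :=
      ((memLp_id_gaussianReal' 1 (by simp)).integrable le_rfl).const_mul (-c')
    have hi2 : Integrable (fun z : ℝ => -c' * z - c' ^ 2 / 2) (gaussianReal 0 1) :=
      hid.sub (integrable_const _)
    have hWi : Integrable W (gaussianReal 0 1) := (hi1.const_mul x).add hi2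
    have hVi : Integrable V (gaussianReal 0 1) := hWi.sub (integrable_const _)
    have hWm : Measurable W := ((hu.meas.comp (by fun_prop)).const_mul x).add (by fun_prop)
    have hVm : Measurable V := hWm.sub_const _
    have hpe := integrable_poly_exp 4 L (2 * L)
    have hR : ∀ z, V z ^ 2 * Real.exp |V z| ≤
        (x * C * d) ^ 2 * ((L + |z|) ^ 4 * Real.exp (2 * L * |z|)) := by
      intro z
      have h8 : V z ^ 2 ≤ (x * C * d) ^ 2 * (L + |z|) ^ 4 := by
        have h9 : |V z| ≤ x * C * d * (L + |z|) ^ 2 := by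
          refine (hb1 z).trans (mul_le_mul_of_nonneg_left ?_ (by positivity))
          rw [sq]
          exact mul_le_mul_of_nonneg_left (by linarith) (by positivity)
        calc V z ^ 2 = |V z| ^ 2 := (sq_abs _).symm
          _ ≤ (x * C * d * (L + |z|) ^ 2) ^ 2 := pow_le_pow_left₀ (abs_nonneg _) h9 2
          _ = _ := by ring
      calc V z ^ 2 * Real.exp |V z| ≤ ((x * C * d) ^ 2 * (L + |z|) ^ 4) *
            Real.exp (2 * L * |z|) :=
            mul_le_mul h8 (Real.exp_le_exp.2 (hb2 z)) (Real.exp_pos _).le (by positivity)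
        _ = _ := by ring
    have hEV : Integrable (fun z => Real.exp (V z)) (gaussianReal 0 1) := by
      refine (R164.GC.integrable_exp_abs (2 * L)).mono' hVm.exp.aestronglyMeasurable
        (ae_of_all _ fun z => ?_)
      rw [Real.norm_eq_abs, abs_of_pos (Real.exp_pos _)]
      exact Real.exp_le_exp.2 ((le_abs_self _).trans (hb2 z))
    have hmain : ∫ z, Real.exp (V z) ∂gaussianReal 0 1 ≤
        1 + ∫ z, V z ∂gaussianReal 0 1 + x ^ 2 * d ^ 2 * MC L C := by
      have h10 : ∀ z, Real.exp (V z) ≤ 1 + V z +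
          (x * C * d) ^ 2 * ((L + |z|) ^ 4 * Real.exp (2 * L * |z|)) := fun z =>
        (exp_le_aux (V z)).trans (by have := hR z; linarith)
      have h11 := integral_mono hEV (((integrable_const 1).add hVi).add
        (hpe.const_mul ((x * C * d) ^ 2))) h10
      refine h11.trans (le_of_eq ?_)
      have e4 : ∀ z : ℝ, ((fun _ : ℝ => (1:ℝ)) + V + fun z => (x * C * d) ^ 2 *
          ((L + |z|) ^ 4 * Real.exp (2 * L * |z|))) z = 1 + V z + (x * C * d) ^ 2 *
          ((L + |z|) ^ 4 * Real.exp (2 * L * |z|)) := fun z => rfl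
      have e5 : ∫ z, (((fun _ : ℝ => (1:ℝ)) + V + fun z => (x * C * d) ^ 2 *
          ((L + |z|) ^ 4 * Real.exp (2 * L * |z|))) z) ∂gaussianReal 0 1 =
          ∫ z, (1 + V z) ∂gaussianReal 0 1 + ∫ z, ((x * C * d) ^ 2 *
          ((L + |z|) ^ 4 * Real.exp (2 * L * |z|))) ∂gaussianReal 0 1 :=
        integral_add ((integrable_const 1).add hVi) (hpe.const_mul _)
      have e6 : ∫ z, (1 + V z) ∂gaussianReal 0 1 = 1 + ∫ z, V z ∂gaussianReal 0 1 := by
        rw [integral_add (integrable_const 1) hVi]; simp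
      rw [e5, e6, integral_const_mul]
      unfold MC
      ring
    have hposI : 0 < ∫ z, Real.exp (V z) ∂gaussianReal 0 1 :=
      integral_exp_pos hEV
    have hlog : Real.log (∫ z, Real.exp (V z) ∂gaussianReal 0 1) ≤
        ∫ z, V z ∂gaussianReal 0 1 + x ^ 2 * d ^ 2 * MC L C := by
      have := Real.log_le_sub_one_of_pos hposI
      linarith
    have hWV : ∫ z, Real.exp (W z) ∂gaussianReal 0 1 =
        Real.exp (W 0) * ∫ z, Real.exp (V z) ∂gaussianReal 0 1 := by
      rw [← integral_const_mul]
      refine integral_congr_ae (ae_of_all _ fun z => ?_)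
      simp only [hV]
      rw [← Real.exp_add]
      congr 1
      ring
    have hVint : ∫ z, V z ∂gaussianReal 0 1 = x * (∫ z, u (y + x * d * c + s * z)
        ∂gaussianReal 0 1) - c' ^ 2 / 2 - W 0 := by
      have e5 : ∫ z, V z ∂gaussianReal 0 1 = ∫ z, W z ∂gaussianReal 0 1 - W 0 := by
        rw [hV, integral_sub hWi (integrable_const _)]
        simp
      rw [e5]
      congr 1
      rw [hWdef]
      simp only
      rw [integral_add (hi1.const_mul x) hi2, integral_const_mul, integral_sub hid
        (integrable_const _), integral_const_mul, integral_id_gaussianReal]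
      simp
      ring
    rw [hWV, Real.log_mul (Real.exp_pos _).ne' hposI.ne', Real.log_exp]
    have h12 : x⁻¹ * (W 0 + Real.log (∫ z, Real.exp (V z) ∂gaussianReal 0 1)) ≤
        x⁻¹ * (x * (∫ z, u (y + x * d * c + s * z) ∂gaussianReal 0 1) - c' ^ 2 / 2 +
          x ^ 2 * d ^ 2 * MC L C) := by
      refine mul_le_mul_of_nonneg_left ?_ (by positivity)
      rw [hVint] at hlog
      linarith
    refine h12.trans ?_
    have e6 : x⁻¹ * (x * (∫ z, u (y + x * d * c + s * z) ∂gaussianReal 0 1) - c' ^ 2 / 2 +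
          x ^ 2 * d ^ 2 * MC L C) = (∫ z, u (y + x * d * c + s * z) ∂gaussianReal 0 1) -
          x / 2 * (d * c ^ 2) + x * (MC L C * d ^ 2) := by
      rw [hc', ← hsd]
      field_simp
    rw [e6]
    have h13 : x * (MC L C * d ^ 2) ≤ 1 * (MC L C * d ^ 2) :=
      mul_le_mul_of_nonneg_right hx1 (mul_nonneg (MC_nonneg L C) (sq_nonneg d))
    linarith

end

end Crest.Agent.R146.CtlA_130
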