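import Crest.Agent.R146.CtlA_130

/-!
Row 146, S0206 node (V), part B (helper130): semigroup property and regularity of `gaussOp`.
-/

set_option autoImplicit false

namespace Crest.Agent.R146.CtlB_130

open MeasureTheory ProbabilityTheory Filter Topology Set
open Crest.ProbabilityR.InvariantGlass
open Crest.Agent.R164.GC (H)
open Crest.Agent.R146.CtlA_130
open scoped NNReal

noncomputable section

/-- `H` through the law of the increment -/
theorem H_eq {φ : ℝ → ℝ} (hφ : Measurable φ) {d : ℝ} (hd : 0 ≤ d) (x : ℝ) :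
    H (Real.sqrt d) φ x = ∫ y, φ (x + y) ∂gaussianReal 0 d.toNNReal := by
  have h1 : (gaussianReal 0 1).map (fun g => Real.sqrt d * g) = gaussianReal 0 d.toNNReal := by
    rw [gaussianReal_map_const_mul]
    congr 1
    · simp
    · rw [mul_one]
      apply NNReal.coe_injective
      simp [Real.sq_sqrt hd, Real.coe_toNNReal d hd]
  have hm : Measurable (fun y => φ (x + y)) := hφ.comp (by fun_prop)
  rw [← h1, integral_map (f := fun y => φ (x + y)) (by fun_prop) hm.aestronglyMeasurable]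
  rfl

theorem H_meas {φ : ℝ → ℝ} (hφ : Measurable φ) (t : ℝ) : Measurable (H t φ) := by
  unfold H
  have : StronglyMeasurable (fun p : ℝ × ℝ => φ (p.1 + t * p.2)) :=
    (hφ.comp (by fun_prop)).stronglyMeasurable
  exact this.integral_prod_right.measurable

theorem H_bd {φ : ℝ → ℝ} {K : ℝ} (h : BM φ K) (t x : ℝ) : |H t φ x| ≤ K := by
  unfold H
  have := norm_integral_le_of_norm_le_const (μ := gaussianReal 0 1) (f := fun g => φ (x + t * g))
    (C := K) (ae_of_all _ fun g => h.bd _)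
  simpa [Real.norm_eq_abs] using this

theorem H_semi {φ : ℝ → ℝ} {K : ℝ} (h : BM φ K) {d1 d2 : ℝ} (h1 : 0 ≤ d1) (h2 : 0 ≤ d2) (x : ℝ) :
    H (Real.sqrt d1) (H (Real.sqrt d2) φ) x = H (Real.sqrt (d1 + d2)) φ x := by
  rw [H_eq (H_meas h.meas _) h1, H_eq h.meas (add_nonneg h1 h2)]
  have e1 : ∀ y, H (Real.sqrt d2) φ (x + y) = ∫ z, φ (x + (y + z)) ∂gaussianReal 0 d2.toNNReal := by
    intro y
    rw [H_eq h.meas h2]
    simp only [add_assoc]
  simp only [e1]
  have e2 : gaussianReal 0 (d1 + d2).toNNReal =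
      (gaussianReal 0 d1.toNNReal) ∗ (gaussianReal 0 d2.toNNReal) := by
    rw [gaussianReal_conv_gaussianReal, add_zero, Real.toNNReal_add h1 h2]
  rw [e2, integral_conv]
  refine Integrable.of_bound (h.meas.comp (by fun_prop)).aestronglyMeasurable K ?_
  exact ae_of_all _ fun g => by simpa [Real.norm_eq_abs] using h.bd _

theorem exp_BM {f : ℝ → ℝ} {K : ℝ} (h : BM f K) (a : ℝ) :
    BM (fun y => Real.exp (a * f y)) (Real.exp (|a| * K)) := by
  refine ⟨(h.meas.const_mul a).exp, fun x => ?_⟩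
  rw [abs_of_pos (Real.exp_pos _)]
  refine Real.exp_le_exp.2 ?_
  calc a * f x ≤ |a * f x| := le_abs_self _
    _ = |a| * |f x| := abs_mul _ _
    _ ≤ |a| * K := mul_le_mul_of_nonneg_left (h.bd _) (abs_nonneg a)

theorem exp_H_pos {f : ℝ → ℝ} {K : ℝ} (h : BM f K) (a t x : ℝ) :
    0 < H t (fun y => Real.exp (a * f y)) x := by
  unfold H
  exact integral_exp_pos (h.expi a t x _)

theorem gaussOp_BM {f : ℝ → ℝ} {K : ℝ} (h : BM f K) {a : ℝ} (ha : 0 ≤ a) (v : ℝ) :
    BM (gaussOp a v f) K := by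
  rcases ha.eq_or_lt with h0 | h0
  · rw [← h0]
    have e : gaussOp 0 v f = fun x => H (Real.sqrt v) f x :=
      funext fun x => R164.GC.gaussOp_zero v f x
    rw [e]
    exact ⟨H_meas h.meas _, H_bd h _⟩
  · have e : gaussOp a v f = fun x =>
        a⁻¹ * Real.log (H (Real.sqrt v) (fun y => Real.exp (a * f y)) x) :=
      funext fun x => R164.GC.gaussOp_ne h0.ne' v f x
    rw [e]
    refine ⟨((H_meas (h.meas.const_mul a).exp _).log).const_mul _, fun x => ?_⟩
    have hp := exp_H_pos h a (Real.sqrt v) x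
    have hup : H (Real.sqrt v) (fun y => Real.exp (a * f y)) x ≤ Real.exp (a * K) := by
      unfold H
      have := integral_mono (μ := gaussianReal 0 1) (h.expi a (Real.sqrt v) x _)
        (integrable_const (Real.exp (a * K))) (fun g => Real.exp_le_exp.2
          (mul_le_mul_of_nonneg_left ((le_abs_self _).trans (h.bd _)) h0.le))
      simpa using this
    have hlo : Real.exp (-(a * K)) ≤ H (Real.sqrt v) (fun y => Real.exp (a * f y)) x := by
      unfold H
      have := integral_mono (μ := gaussianReal 0 1) (integrable_const (Real.exp (-(a * K))))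
        (h.expi a (Real.sqrt v) x _) (fun g => Real.exp_le_exp.2 (by
          have h1 := (abs_le.1 (h.bd (x + Real.sqrt v * g))).1
          nlinarith))
      simpa using this
    have h1 := Real.log_le_log hp hup
    have h2 := Real.log_le_log (Real.exp_pos _) hlo
    rw [Real.log_exp] at h1 h2
    have h3 : |Real.log (H (Real.sqrt v) (fun y => Real.exp (a * f y)) x)| ≤ a * K :=
      abs_le.2 ⟨h2, h1⟩
    rw [abs_mul, abs_of_pos (inv_pos.2 h0)]
    calc a⁻¹ * |Real.log (H (Real.sqrt v) (fun y => Real.exp (a * f y)) x)| ≤ a⁻¹ * (a * K) :=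
          mul_le_mul_of_nonneg_left h3 (inv_pos.2 h0).le
      _ = K := by field_simp

/-- semigroup property inside a cell -/
theorem gaussOp_semi {f : ℝ → ℝ} {K : ℝ} (h : BM f K) {a : ℝ} (ha : 0 ≤ a) {d1 d2 : ℝ}
    (h1 : 0 ≤ d1) (h2 : 0 ≤ d2) (x : ℝ) :
    gaussOp a d1 (gaussOp a d2 f) x = gaussOp a (d1 + d2) f x := by
  rcases ha.eq_or_lt with h0 | h0
  · rw [← h0]
    have e : gaussOp 0 d2 f = fun x => H (Real.sqrt d2) f x :=
      funext fun x => R164.GC.gaussOp_zero d2 f x
    rw [R164.GC.gaussOp_zero, R164.GC.gaussOp_zero, e]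
    exact H_semi h h1 h2 x
  · rw [R164.GC.gaussOp_ne h0.ne', R164.GC.gaussOp_ne h0.ne']
    congr 2
    rw [← H_semi (exp_BM h a) h1 h2 x]
    congr 1
    funext y
    rw [R164.GC.gaussOp_ne h0.ne']
    have hp := exp_H_pos h a (Real.sqrt d2) y
    rw [show a * (a⁻¹ * Real.log (H (Real.sqrt d2) (fun y => Real.exp (a * f y)) y)) =
      Real.log (H (Real.sqrt d2) (fun y => Real.exp (a * f y)) y) by field_simp]
    exact Real.exp_log hp

theorem gaussOp_var0 {f : ℝ → ℝ} {a : ℝ} (x : ℝ) : gaussOp a 0 f x = f x := by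
  unfold gaussOp
  by_cases h : a = 0
  · simp [h]
  · simp [h]

/-- bounded `C²` functions with bounded derivatives -/
structure Reg (u u1 u2 : ℝ → ℝ) (K L C : ℝ) : Prop where
  d1 : ∀ y, HasDerivAt u (u1 y) y
  d2 : ∀ y, HasDerivAt u1 (u2 y) y
  c2 : Continuous u2
  bK : ∀ y, |u y| ≤ K
  bL : ∀ y, |u1 y| ≤ L
  bC : ∀ y, |u2 y| ≤ C

theorem Reg.BM {u u1 u2 : ℝ → ℝ} {K L C : ℝ} (h : Reg u u1 u2 K L C) : BM u K :=
  ⟨(continuous_iff_continuousAt.2 fun y => (h.d1 y).continuousAt).measurable, h.bK⟩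

theorem Reg.lip1 {u u1 u2 : ℝ → ℝ} {K L C : ℝ} (h : Reg u u1 u2 K L C) (y z : ℝ) :
    |u1 y - u1 z| ≤ C * |y - z| := by
  have := Convex.norm_image_sub_le_of_norm_hasDerivWithin_le (f := u1) (f' := u2) (C := C)
    (s := Set.univ) (x := z) (y := y) (fun ζ _ => (h.d2 ζ).hasDerivWithinAt)
    (fun ζ _ => by simpa [Real.norm_eq_abs] using h.bC ζ) convex_univ (mem_univ _) (mem_univ _)
  simpa [Real.norm_eq_abs] using this

theorem Reg.lip {u u1 u2 : ℝ → ℝ} {K L C : ℝ} (h : Reg u u1 u2 K L C) (y z : ℝ) :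
    |u y - u z| ≤ L * |y - z| := by
  have := Convex.norm_image_sub_le_of_norm_hasDerivWithin_le (f := u) (f' := u1) (C := L)
    (s := Set.univ) (x := z) (y := y) (fun ζ _ => (h.d1 ζ).hasDerivWithinAt)
    (fun ζ _ => by simpa [Real.norm_eq_abs] using h.bL ζ) convex_univ (mem_univ _) (mem_univ _)
  simpa [Real.norm_eq_abs] using this

open R164.GC in
theorem gaussOp_sm' {f f1 f2 : ℝ → ℝ} {C : ℝ} (h : Sm f f1 f2 C) {a : ℝ} (ha : 0 ≤ a) (v : ℝ) :
    Sm (gaussOp a v f) (tE a v f f1) (g2 a v f f1 f2) (C + a) := by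
  refine ⟨gaussOp_deriv_x h a v, fun x => ?_, ?_, fun x => tE_abs_le h.lip a v h.B1 x,
    fun x => ?_⟩
  · have := tE_deriv_x h a v h.B1.eg h.B2.eg h.d2 x
    unfold g2
    simp only [sq]
    exact this
  · unfold g2
    have c1 := (tE_BC h.lip a v h.B2).cont
    have c2 := (tE_BC h.lip a v (h.B1.pow 2)).cont
    have c3 := (tE_BC h.lip a v h.B1).cont
    fun_prop
  · unfold g2
    have b1 := tE_abs_le h.lip a v h.B2 x
    have b2 := tE_abs_le h.lip a v (h.B1.pow 2) x
    have b3 := tE_sq_le h.lip a v h.B1.eg x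
    have b4 := sq_nonneg (tE a v f f1 x)
    rw [one_pow] at b2
    have b5 := (le_abs_self _).trans b2
    rw [abs_le] at b1 ⊢
    constructor
    · nlinarith
    · nlinarith

theorem gaussOp_scale {u : ℝ → ℝ} {L : ℝ} (hL : 0 < L) (a v x : ℝ) :
    gaussOp a v u x = L * gaussOp (a * L) v (fun y => u y / L) x := by
  unfold gaussOp
  by_cases h : a = 0
  · simp only [h, zero_mul, if_true]
    rw [integral_div]
    field_simp
  · rw [if_neg h, if_neg (mul_ne_zero h hL.ne')]
    have e : ∀ g : ℝ, a * L * (u (x + Real.sqrt v * g) / L) = a * u (x + Real.sqrt v * g) :=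
      fun g => by field_simp
    simp only [e]
    field_simp

/-- regularity is preserved inside a cell, uniformly in the width -/
theorem gaussOp_reg {u u1 u2 : ℝ → ℝ} {K L C : ℝ} (h : Reg u u1 u2 K L C) (hL : 0 < L)
    {a : ℝ} (ha : 0 ≤ a) (ha1 : a ≤ 1) (v : ℝ) :
    ∃ w1 w2 : ℝ → ℝ, Reg (gaussOp a v u) w1 w2 K L (C + L ^ 2) := by
  have hS : R164.GC.Sm (fun y => u y / L) (fun y => u1 y / L) (fun y => u2 y / L) (C / L) := by
    refine ⟨fun y => (h.d1 y).div_const L, fun y => (h.d2 y).div_const L, h.c2.div_const L,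
      fun y => ?_, fun y => ?_⟩
    · rw [abs_div, abs_of_pos hL]
      exact (div_le_one hL).2 (h.bL y)
    · rw [abs_div, abs_of_pos hL]
      exact div_le_div_of_nonneg_right (h.bC y) hL.le
  have hT := gaussOp_sm' hS (mul_nonneg ha hL.le) v
  have e : gaussOp a v u = fun x => L * gaussOp (a * L) v (fun y => u y / L) x :=
    funext fun x => gaussOp_scale hL a v x
  refine ⟨fun x => L * R164.GC.tE (a * L) v (fun y => u y / L) (fun y => u1 y / L) x,
    fun x => L * R164.GC.g2 (a * L) v (fun y => u y / L) (fun y => u1 y / L)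
      (fun y => u2 y / L) x, ?_, ?_, ?_, ?_, ?_, ?_⟩
  · intro y
    rw [e]
    exact (hT.d1 y).const_mul L
  · intro y
    exact (hT.d2 y).const_mul L
  · exact hT.c2.const_mul L |> fun h => h
  · exact (gaussOp_BM h.BM ha v).bd
  · intro y
    rw [abs_mul, abs_of_pos hL]
    calc L * _ ≤ L * 1 := mul_le_mul_of_nonneg_left (hT.b1 y) hL.le
      _ = L := mul_one L
  · intro y
    rw [abs_mul, abs_of_pos hL]
    have h1 : C / L + a * L ≤ C / L + L := by nlinarith
    calc L * _ ≤ L * (C / L + L) := mul_le_mul_of_nonneg_left ((hT.b2 y).trans h1) hL.le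
      _ = C + L ^ 2 := by field_simp

end

end Crest.Agent.R146.CtlB_130
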