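import Crest.Agent.R146.CtlC_130

/-!
Row 146, S0206 node (V), part D (helper130): upper bound on one cell for bounded progressive
controls.
-/

set_option autoImplicit false

namespace Crest.Agent.R146.CtlD_130

open MeasureTheory ProbabilityTheory Filter Topology Set
open Crest.ProbabilityR.InvariantGlass
open Crest.ProbabilityR.Perceptron
open Crest.Agent.R164.GC (H)
open Crest.Agent.R146.CtlA_130 Crest.Agent.R146.CtlB_130 Crest.Agent.R146.CtlC_130
open scoped NNReal

noncomputable section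

variable {Ω : Type*} [mΩ : MeasurableSpace Ω] {P : Measure Ω}
variable {B : ℝ≥0 → Ω → ℝ} {hBm : ∀ t, Measurable (B t)}

theorem _root_.Crest.Agent.R146.CtlC_130.Ctl.iv {M : ℝ} {v : ℝ≥0 → Ω → ℝ} (hv : Ctl hBm M v) {s t : ℝ} (hst : s ≤ t) (ω : Ω) :
    IntervalIntegrable (fun r => v r.toNNReal ω) volume s t := by
  have := hv.intv (m := fun _ => 1) measurable_const (c := 1) (s := s) (t := t)
    (fun r _ => by simp) hst ω
  simpa using this

theorem _root_.Crest.Agent.R146.CtlC_130.Ctl.iv2 {M : ℝ} {v : ℝ≥0 → Ω → ℝ} (hv : Ctl hBm M v) {s t : ℝ} (hst : s ≤ t) (ω : Ω) :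
    IntervalIntegrable (fun r => v r.toNNReal ω ^ 2) volume s t := by
  have := hv.intv2 (m := fun _ => 1) measurable_const (c := 1) (s := s) (t := t)
    (fun r _ => by simp) hst ω
  simpa using this

theorem _root_.Crest.Agent.R146.CtlC_130.Ctl.bd_int {M : ℝ} {v : ℝ≥0 → Ω → ℝ} (hv : Ctl hBm M v) {s t : ℝ} (hst : s ≤ t) (ω : Ω) :
    |∫ r in s..t, v r.toNNReal ω| ≤ M * (t - s) := by
  have := intervalIntegral.norm_integral_le_of_norm_le_const (a := s) (b := t)
    (f := fun r => v r.toNNReal ω) (C := M) (fun r _ => by simpa using hv.bd _ _)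
  rwa [abs_of_nonneg (by linarith : 0 ≤ t - s), Real.norm_eq_abs] at this

theorem _root_.Crest.Agent.R146.CtlC_130.Ctl.bd_int2 {M : ℝ} {v : ℝ≥0 → Ω → ℝ} (hv : Ctl hBm M v) {s t : ℝ} (hst : s ≤ t) (ω : Ω) :
    |∫ r in s..t, v r.toNNReal ω ^ 2| ≤ M ^ 2 * (t - s) := by
  have := intervalIntegral.norm_integral_le_of_norm_le_const (a := s) (b := t)
    (f := fun r => v r.toNNReal ω ^ 2) (C := M ^ 2) (fun r _ => by
      rw [Real.norm_eq_abs, abs_pow]; exact pow_le_pow_left₀ (abs_nonneg _) (hv.bd _ _) 2)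
  rwa [abs_of_nonneg (by linarith : 0 ≤ t - s), Real.norm_eq_abs] at this

theorem _root_.Crest.Agent.R146.CtlC_130.Ctl.meas_int {M : ℝ} {v : ℝ≥0 → Ω → ℝ} (hv : Ctl hBm M v) {s t : ℝ} (hst : s ≤ t) :
    Measurable[F hBm t] (fun ω => ∫ r in s..t, v r.toNNReal ω) :=
  CtlC_130.meas_int hv.prog hst (g := fun _ y => y) measurable_snd

theorem _root_.Crest.Agent.R146.CtlC_130.Ctl.meas_int2 {M : ℝ} {v : ℝ≥0 → Ω → ℝ} (hv : Ctl hBm M v) {s t : ℝ} (hst : s ≤ t) :
    Measurable[F hBm t] (fun ω => ∫ r in s..t, v r.toNNReal ω ^ 2) :=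
  CtlC_130.meas_int hv.prog hst (g := fun _ y => y ^ 2) (measurable_snd.pow_const 2)

/-- Jensen on one piece -/
theorem jensen {g : ℝ → ℝ} {s t : ℝ} (hst : s < t) (h1 : IntervalIntegrable g volume s t)
    (h2 : IntervalIntegrable (fun r => g r ^ 2) volume s t) :
    (t - s) * (((t - s)⁻¹ * ∫ r in s..t, g r) ^ 2) ≤ ∫ r in s..t, g r ^ 2 := by
  set c := (t - s)⁻¹ * ∫ r in s..t, g r with hc
  have hpos : 0 < t - s := by linarith
  have h3 : 0 ≤ ∫ r in s..t, (g r - c) ^ 2 :=
    intervalIntegral.integral_nonneg hst.le fun r _ => sq_nonneg _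
  have e : ∫ r in s..t, (g r - c) ^ 2 = ∫ r in s..t, (g r ^ 2 - (2 * c) * g r + c ^ 2) := by
    congr 1; funext r; ring
  rw [e, intervalIntegral.integral_add (h2.sub (h1.const_mul _)) (by simp),
    intervalIntegral.integral_sub h2 (h1.const_mul _), intervalIntegral.integral_const_mul,
    intervalIntegral.integral_const, smul_eq_mul] at h3
  have e2 : ∫ r in s..t, g r = (t - s) * c := by rw [hc]; field_simp
  rw [e2] at h3
  nlinarith

variable [IsProbabilityMeasure P]

/-- the chain of one-step bounds inside a cell -/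
theorem chain_le (hB : IsBrownianReal B P) {s d : ℝ} (hs : 0 ≤ s) (hd : 0 ≤ d) (n : ℕ)
    {X : Ω → ℝ} (hX : Measurable[F hBm s] X) {c : ℕ → Ω → ℝ} {M : ℝ}
    (hc : ∀ i : ℕ, Measurable[F hBm (s + i * d)] (c i)) (hcM : ∀ i ω, |c i ω| ≤ M)
    {φ : ℝ → ℝ} {K : ℝ} (hφ : BM φ K) {x : ℝ} (hx : 0 ≤ x) (k : ℕ) (hk : k ≤ n) :
    ∫ ω, gaussOp x (((n - k : ℕ) : ℝ) * d) φ (X ω + x * ∑ i ∈ Finset.range k, d * c i ω +
      (B (s + k * d).toNNReal ω - B s.toNNReal ω)) ∂P -
      x / 2 * ∑ i ∈ Finset.range k, d * ∫ ω, c i ω ^ 2 ∂P ≤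
    ∫ ω, gaussOp x (n * d) φ (X ω) ∂P := by
  induction k with
  | zero => simp
  | succ k ih =>
    refine le_trans ?_ (ih (by omega))
    have hsk : s ≤ s + k * d := by have : 0 ≤ (k:ℝ) * d := by positivity
                                   linarith
    have hk1 : s + (k + 1 : ℕ) * d = (s + k * d) + d := by push_cast; ring
    have hXk : Measurable[F hBm (s + k * d)] (fun ω => X ω + x * ∑ i ∈ Finset.range k, d * c i ω +
        (B (s + k * d).toNNReal ω - B s.toNNReal ω)) := by
      refine Measurable.add (Measurable.add (hX.mono (F_mono hBm hsk) le_rfl) ?_) ?_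
      · refine Measurable.const_mul ?_ _
        refine Finset.measurable_sum _ fun i hi => ?_
        refine Measurable.const_mul ?_ _
        refine (hc i).mono (F_mono hBm ?_) le_rfl
        have : (i:ℝ) ≤ k := by exact_mod_cast (Finset.mem_range.1 hi).le
        nlinarith
      · exact Measurable.sub (F_adapted hBm _ _ le_rfl) (F_adapted hBm _ _ hsk)
    have hψ : BM (gaussOp x (((n - (k + 1) : ℕ) : ℝ) * d) φ) K := gaussOp_BM hφ hx _
    have h1 := cstep_le hBm hB (s := s + k * d) (t := s + k * d + d) (by linarith) (by linarith)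
      hXk (hc k) (hcM k) hψ hx
    have e1 : s + k * d + d - (s + k * d) = d := by ring
    rw [e1] at h1
    have e2 : ∀ y, gaussOp x d (gaussOp x (((n - (k + 1) : ℕ) : ℝ) * d) φ) y =
        gaussOp x (((n - k : ℕ) : ℝ) * d) φ y := by
      intro y
      rw [gaussOp_semi hφ hx hd (by positivity)]
      congr 1
      have : ((n - k : ℕ) : ℝ) = ((n - (k + 1) : ℕ) : ℝ) + 1 := by
        have : n - k = n - (k + 1) + 1 := by omega
        rw [this]; push_cast; ring
      rw [this]; ring
    simp only [e2] at h1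
    have e3 : ∀ ω, X ω + x * ∑ i ∈ Finset.range (k + 1), d * c i ω +
        (B (s + (k + 1 : ℕ) * d).toNNReal ω - B s.toNNReal ω) =
        X ω + x * ∑ i ∈ Finset.range k, d * c i ω +
        (B (s + k * d).toNNReal ω - B s.toNNReal ω) + x * d * c k ω +
        (B (s + k * d + d).toNNReal ω - B (s + k * d).toNNReal ω) := by
      intro ω
      rw [Finset.sum_range_succ, hk1]
      ring
    simp only [e3]
    rw [Finset.sum_range_succ]
    linarith

/-- upper bound on one cell -/
theorem cell_le (hB : IsBrownianReal B P) {s t : ℝ} (hs : 0 ≤ s) (hst : s ≤ t)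
    {X : Ω → ℝ} (hX : Measurable[F hBm s] X) {v : ℝ≥0 → Ω → ℝ} {M : ℝ} (hv : Ctl hBm M v)
    {φ : ℝ → ℝ} {K : ℝ} (hφ : BM φ K) (hφc : Continuous φ) {x : ℝ} (hx : 0 ≤ x) :
    ∫ ω, φ (X ω + (B t.toNNReal ω - B s.toNNReal ω) + x * ∫ r in s..t, v r.toNNReal ω) ∂P -
      x / 2 * ∫ ω, (∫ r in s..t, v r.toNNReal ω ^ 2) ∂P ≤ ∫ ω, gaussOp x (t - s) φ (X ω) ∂P := by
  rcases hst.eq_or_lt with h0 | hlt
  · subst h0
    simp [gaussOp_var0]
  -- the bound with the last piece removed
  have hXm : Measurable X := hX.mono (F_le hBm s) le_rfl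
  have hM0 : 0 ≤ M := by
    rcases isEmpty_or_nonempty Ω with h | ⟨⟨ω⟩⟩
    · exact absurd (inferInstance : IsProbabilityMeasure P).measure_univ (by simp [Set.univ_eq_empty_iff.2 h])
    · exact (abs_nonneg _).trans (hv.bd 0 ω)
  have key : ∀ n : ℕ, ∫ ω, φ (X ω + (B t.toNNReal ω - B s.toNNReal ω) +
      x * ∫ r in s..(t - (t - s) / (n + 1 : ℕ)), v r.toNNReal ω) ∂P -
      x / 2 * ∫ ω, (∫ r in s..t, v r.toNNReal ω ^ 2) ∂P ≤ ∫ ω, gaussOp x (t - s) φ (X ω) ∂P := by
    intro n
    set d := (t - s) / (n + 1 : ℕ) with hd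
    have hd0 : 0 < d := div_pos (by linarith) (by positivity)
    have hnd : ((n + 1 : ℕ) : ℝ) * d = t - s := by rw [hd]; field_simp
    set c : ℕ → Ω → ℝ := fun i ω => d⁻¹ * ∫ r in (s + ((i - 1 : ℕ) : ℝ) * d)..(s + i * d),
      v r.toNNReal ω with hcdef
    have hii : ∀ i : ℕ, s + ((i - 1 : ℕ) : ℝ) * d ≤ s + i * d := by
      intro i
      have : ((i - 1 : ℕ) : ℝ) ≤ i := by exact_mod_cast Nat.sub_le i 1
      nlinarith
    have hss : ∀ i : ℕ, s ≤ s + (i:ℝ) * d := by
      intro i
      have : 0 ≤ (i:ℝ) * d := by positivity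
      linarith
    have hc : ∀ i : ℕ, Measurable[F hBm (s + i * d)] (c i) := fun i =>
      Measurable.const_mul (hv.meas_int (hii i)) _
    have hlen : ∀ i : ℕ, s + i * d - (s + ((i - 1 : ℕ) : ℝ) * d) ≤ d := by
      intro i
      have : (i:ℝ) ≤ ((i - 1 : ℕ) : ℝ) + 1 := by
        have : i ≤ (i - 1) + 1 := by omega
        exact_mod_cast this
      nlinarith
    have hcM : ∀ i ω, |c i ω| ≤ M := by
      intro i ω
      rw [hcdef]
      simp only
      rw [abs_mul, abs_of_pos (inv_pos.2 hd0)]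
      have h1 := hv.bd_int (hii i) ω
      calc d⁻¹ * |∫ r in (s + ((i - 1 : ℕ) : ℝ) * d)..(s + i * d), v r.toNNReal ω| ≤
            d⁻¹ * (M * d) := by
            refine mul_le_mul_of_nonneg_left (h1.trans ?_) (inv_pos.2 hd0).le
            exact mul_le_mul_of_nonneg_left (hlen i) hM0
        _ = M := by field_simp
    have hch := chain_le (P := P) hB hs hd0.le (n + 1) hX hc hcM hφ hx (n + 1) le_rfl
    -- sums
    have hsum : ∀ (k : ℕ) (ω : Ω), ∑ i ∈ Finset.range k, d * c i ω =
        ∫ r in s..(s + ((k - 1 : ℕ) : ℝ) * d), v r.toNNReal ω := by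
      intro k ω
      induction k with
      | zero => simp
      | succ k ih =>
        rw [Finset.sum_range_succ, ih, hcdef]
        simp only
        rw [mul_inv_cancel_left₀ hd0.ne', Nat.add_sub_cancel]
        exact intervalIntegral.integral_add_adjacent_intervals
          (hv.iv (hss _) ω) (hv.iv (hii k) ω)
    have hsum2 : ∀ (k : ℕ) (ω : Ω), ∑ i ∈ Finset.range k, d * c i ω ^ 2 ≤
        ∫ r in s..(s + ((k - 1 : ℕ) : ℝ) * d), v r.toNNReal ω ^ 2 := by
      intro k ω
      induction k with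
      | zero => simp
      | succ k ih =>
        rw [Finset.sum_range_succ, Nat.add_sub_cancel,
          ← intervalIntegral.integral_add_adjacent_intervals
          (hv.iv2 (hss (k - 1)) ω) (hv.iv2 (hii k) ω)]
        refine add_le_add ih ?_
        rcases Nat.eq_zero_or_pos k with h0 | hk
        · subst h0; simp [hcdef]
        · have e : s + k * d - (s + ((k - 1 : ℕ) : ℝ) * d) = d := by
            have : ((k - 1 : ℕ) : ℝ) = k - 1 := by
              rw [Nat.cast_sub hk]; simp
            rw [this]; ring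
          have := jensen (s := s + ((k - 1 : ℕ) : ℝ) * d) (t := s + k * d) (by linarith)
            (hv.iv (hii k) ω) (hv.iv2 (hii k) ω)
          rw [e] at this
          exact this
    have e1 : s + ((n + 1 : ℕ) : ℝ) * d = t := by rw [hnd]; ring
    have e2 : s + ((n + 1 - 1 : ℕ) : ℝ) * d = t - d := by
      rw [Nat.add_sub_cancel]
      have : (n:ℝ) * d = (t - s) - d := by rw [← hnd]; push_cast; ring
      rw [this]; ring
    rw [Nat.sub_self, Nat.cast_zero, zero_mul] at hch
    simp only [gaussOp_var0, hsum, e2, hnd, add_sub_cancel] at hch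
    have e4 : ∫ ω, φ (X ω + (B t.toNNReal ω - B s.toNNReal ω) +
        x * ∫ r in s..(t - d), v r.toNNReal ω) ∂P = ∫ ω, φ (X ω +
        (x * ∫ r in s..(t - d), v r.toNNReal ω) + (B t.toNNReal ω - B s.toNNReal ω)) ∂P := by
      congr 1; funext ω; congr 1; ring
    rw [e4]
    refine le_trans ?_ hch
    suffices hsuf : ∑ i ∈ Finset.range (n + 1), d * ∫ ω, c i ω ^ 2 ∂P ≤
        ∫ ω, (∫ r in s..t, v r.toNNReal ω ^ 2) ∂P by
      have := mul_le_mul_of_nonneg_left hsuf (by positivity : 0 ≤ x / 2)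
      linarith
    have hci : ∀ i, Integrable (fun ω => d * c i ω ^ 2) P := by
      intro i
      refine Integrable.const_mul ?_ _
      refine CtlC_130.bd_int (K := M ^ 2) (((hc i).mono (F_le hBm _) le_rfl).pow_const 2) fun ω => ?_
      rw [abs_pow]
      exact pow_le_pow_left₀ (abs_nonneg _) (hcM i ω) 2
    have e5 : ∑ i ∈ Finset.range (n + 1), d * ∫ ω, c i ω ^ 2 ∂P =
        ∫ ω, ∑ i ∈ Finset.range (n + 1), d * c i ω ^ 2 ∂P := by
      rw [integral_finsetSum _ fun i _ => hci i]
      simp only [integral_const_mul]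
    rw [e5]
    refine integral_mono (integrable_finsetSum _ fun i _ => hci i) ?_ fun ω => ?_
    · refine CtlC_130.bd_int (K := M ^ 2 * (t - s)) ((hv.meas_int2 hst).mono (F_le hBm _) le_rfl)
        fun ω => hv.bd_int2 hst ω
    · refine (hsum2 (n + 1) ω).trans ?_
      rw [e2]
      have htd : s ≤ t - d := by
        have h2 := hss n
        have h3 : s + (n:ℝ) * d = t - d := by rw [← e2, Nat.add_sub_cancel]
        linarith
      rw [← intervalIntegral.integral_add_adjacent_intervals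
          (hv.iv2 htd ω) (hv.iv2 (by linarith : t - d ≤ t) ω)]
      have : 0 ≤ ∫ r in (t - d)..t, v r.toNNReal ω ^ 2 :=
        intervalIntegral.integral_nonneg (by linarith) fun r _ => sq_nonneg _
      linarith
  -- the limit
  have hlim : Tendsto (fun n : ℕ => ∫ ω, φ (X ω + (B t.toNNReal ω - B s.toNNReal ω) +
      x * ∫ r in s..(t - (t - s) / (n + 1 : ℕ)), v r.toNNReal ω) ∂P) atTop
      (𝓝 (∫ ω, φ (X ω + (B t.toNNReal ω - B s.toNNReal ω) + x * ∫ r in s..t, v r.toNNReal ω) ∂P)) := by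
    have hdn : ∀ n : ℕ, 0 ≤ (t - s) / (n + 1 : ℕ) := fun n => div_nonneg (by linarith) (by positivity)
    have hdn' : ∀ n : ℕ, (t - s) / (n + 1 : ℕ) ≤ t - s := fun n =>
      div_le_self (by linarith) (by push_cast; linarith [(Nat.cast_nonneg n : (0:ℝ) ≤ n)])
    refine tendsto_integral_of_dominated_convergence (fun _ => K) (fun n => ?_)
      (integrable_const _) (fun n => ae_of_all _ fun ω => by
        simpa [Real.norm_eq_abs] using hφ.bd _) (ae_of_all _ fun ω => ?_)
    · refine (hφ.meas.comp ?_).aestronglyMeasurable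
      refine (hXm.add ((hBm _).sub (hBm _))).add (Measurable.const_mul ?_ _)
      exact (hv.meas_int (by have := hdn' n; linarith)).mono (F_le hBm _) le_rfl
    · refine (hφc.tendsto _).comp ?_
      refine Tendsto.const_add _ (Tendsto.const_mul _ ?_)
      have hz : Tendsto (fun n : ℕ => (t - s) / ((n + 1 : ℕ) : ℝ)) atTop (𝓝 0) := by
        have := tendsto_const_div_atTop_nhds_zero_nat (t - s)
        exact (tendsto_add_atTop_iff_nat 1).2 this
      rw [tendsto_iff_norm_sub_tendsto_zero]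
      refine squeeze_zero (fun _ => norm_nonneg _) (fun n => ?_) (by simpa using hz.const_mul M)
      have hle : s ≤ t - (t - s) / (n + 1 : ℕ) := by have := hdn' n; linarith
      have e := intervalIntegral.integral_add_adjacent_intervals
          (hv.iv hle ω) (hv.iv (by have := hdn n; linarith : t - (t - s) / (n + 1 : ℕ) ≤ t) ω)
      rw [← e]
      have h5 := hv.bd_int (by have := hdn n; linarith : t - (t - s) / (n + 1 : ℕ) ≤ t) ω
      rw [Real.norm_eq_abs, sub_add_cancel_left, abs_neg]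
      calc _ ≤ _ := h5
        _ = _ := by push_cast; ring
  exact le_of_tendsto' (hlim.sub_const _) key

end

end Crest.Agent.R146.CtlD_130
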