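import Crest.Prelude.Def_SphericalPressure
import Crest.Prelude.Def_InvariantGlass
import Crest.Agent.R141.HierM

/-!
Row 146, statement S0206: DEFINITIONS of the S6 project (helper988).

* `Cfg N`         : a finite configuration space with points of norm `√N` (grid on the sphere);
* `Om C nc n`     : configurations × field coins (`nc` cells, `n` coin rows per cell);
* `prior, fil, xs`: prior law, filtration, exponents `x_g = (g+1)/(nc+1)` on cell `g`, `1` at the end;
* `U`             : rows (quenched, arbitrary row functions `f a`) + fields of strengths `s g`;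
* `Phi, QQ, FN`   : hierarchical free energy, tilted law, normalised averaged free energy;
* `Th J f P`      : nested Gaussian recursion = control value of the step profile `mP J P`;
* `SP J P`        : entropy of the step profile;
* `pN`            : the pressure of the sphere with row functions.
-/

set_option autoImplicit false

namespace Crest.Agent.R146.S6Def_988

open Finset MeasureTheory ProbabilityTheory Crest.Agent.R141

noncomputable section

/-! ### Configuration spaces -/

/-- a finite configuration space on the sphere of radius `√N`. -/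
structure Cfg (N : ℕ) where
  Y : Type
  fY : Fintype Y
  nY : Nonempty Y
  q : Y → ℝ
  hq : IsProb q
  x : Y → Fin N → ℝ
  hx : ∀ y, ∑ i, x y i ^ 2 = N

attribute [instance] Cfg.fY Cfg.nY

/-- sign of a coin -/
def sv (b : Bool) : ℝ := if b then 1 else -1

/-- field coins: cell, row, coordinate -/
abbrev Coins (nc n N : ℕ) : Type := Fin nc → Fin n → Fin N → Bool

/-- configurations of the enriched system -/
abbrev Om {N : ℕ} (C : Cfg N) (nc n : ℕ) : Type := C.Y × Coins nc n N

variable {N : ℕ} (C : Cfg N) (nc n : ℕ)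

/-- prior law -/
def prior : Om C nc n → ℝ := fun ω => C.q ω.1 * (Fintype.card (Coins nc n N) : ℝ)⁻¹

/-- number of steps: one per coin row, plus one for the configuration -/
def Lv : ℕ := nc * n + 1

/-- first step of the cell `g` (`F_{st g}` knows the coins of the cells `< g`) -/
def st (g : ℕ) : ℕ := g * n

/-- agreement of everything revealed up to step `k`: the coin row `(g, t)` is revealed at step
`g * n + t + 1`, the configuration at step `Lv`. -/
def frel (k : ℕ) (ω ω' : Om C nc n) : Prop :=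
  (∀ (g : Fin nc) (t : Fin n), (g : ℕ) * n + t < k → ω.2 g t = ω'.2 g t) ∧
  (Lv nc n ≤ k → ω.1 = ω'.1)

theorem frel_equiv (k : ℕ) : Equivalence (frel C nc n k) where
  refl _ := ⟨fun _ _ _ => rfl, fun _ => rfl⟩
  symm h := ⟨fun g t hg => (h.1 g t hg).symm, fun hL => (h.2 hL).symm⟩
  trans h h' := ⟨fun g t hg => (h.1 g t hg).trans (h'.1 g t hg), fun hL => (h.2 hL).trans (h'.2 hL)⟩

/-- the filtration -/
def fil : Filt (Om C nc n) where
  F k := ⟨frel C nc n k, frel_equiv C nc n k⟩
  anti k := fun _ _ h => ⟨fun g t hg => h.1 g t (by omega), fun hL => h.2 (by omega)⟩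
  L := Lv nc n
  bot k hk := by
    ext ω ω'
    constructor
    · intro h
      have h : frel C nc n k ω ω' := h
      refine Prod.ext (h.2 hk) ?_
      funext g t
      refine h.1 g t ?_
      have h1 : (g : ℕ) * n + t < ((g : ℕ) + 1) * n := by
        have := t.2
        rw [add_mul, one_mul]; omega
      have h2 : ((g : ℕ) + 1) * n ≤ nc * n := Nat.mul_le_mul_right n g.2
      unfold Lv at hk
      omega
    · intro h
      have h : ω = ω' := h
      subst h
      exact (frel_equiv C nc n k).refl ω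

/-- exponents: step `k` (`1 ≤ k`) has exponent `min 1 (((k-1)/n + 1)/(nc+1))`. -/
def xs (k : ℕ) : ℝ := min 1 ((((k - 1) / n + 1 : ℕ) : ℝ) / ((nc : ℝ) + 1))

variable {C nc n}

/-- the field of the cell `g` at coordinate `i`: a normalised coin sum -/
def zf (c : Coins nc n N) (g : Fin nc) (i : Fin N) : ℝ :=
  (Real.sqrt n)⁻¹ * ∑ t : Fin n, sv (c g t i)

/-- the row energy: `∑_a f_a (g_a · x / √N)`. -/
def rowE {M : ℕ} (f : ℕ → ℝ → ℝ) (G : Fin M → Fin N → ℝ) (x : Fin N → ℝ) : ℝ :=
  ∑ a : Fin M, f a (∑ i, G a i * (x i / Real.sqrt N))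

/-- the field energy -/
def fieldE (s : Fin nc → ℝ) (ω : Om C nc n) : ℝ :=
  ∑ g, s g * ∑ i, zf ω.2 g i * C.x ω.1 i

/-- the total log-weight -/
def UU {M : ℕ} (f : ℕ → ℝ → ℝ) (G : Fin M → Fin N → ℝ) (s : Fin nc → ℝ) (ω : Om C nc n) : ℝ :=
  rowE f G (C.x ω.1) + fieldE s ω

variable (C nc n)

/-- hierarchical free energy -/
def Phi {M : ℕ} (f : ℕ → ℝ → ℝ) (G : Fin M → Fin N → ℝ) (s : Fin nc → ℝ) : ℝ :=
  eE (prior C nc n) (A (prior C nc n) (fil C nc n) (xs nc n) (UU f G s) 0)

/-- tilted law -/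
def QQ {M : ℕ} (f : ℕ → ℝ → ℝ) (G : Fin M → Fin N → ℝ) (s : Fin nc → ℝ) : Om C nc n → ℝ :=
  tl (prior C nc n) (fil C nc n) (xs nc n) (UU f G s)

/-- law of the rows -/
def gam (M N : ℕ) : Measure (Fin M → Fin N → ℝ) :=
  Measure.pi fun _ => Measure.pi fun _ => gaussianReal 0 1

/-- normalised averaged free energy with the field normalisation -/
def FN (f : ℕ → ℝ → ℝ) (M : ℕ) (s : Fin nc → ℝ) : ℝ :=
  (N : ℝ)⁻¹ * ∫ G, Phi C nc n (M := M) f G s ∂(gam M N) - 1 / 2 * ∑ g, s g ^ 2

/-- field observable of the cell `g` -/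
def Dobs (g : Fin nc) (ω : Om C nc n) : ℝ := (N : ℝ)⁻¹ * ∑ i, zf ω.2 g i * C.x ω.1 i

/-- averaged squared norm of the conditional mean at step `k`, normalised -/
def Rk (f : ℕ → ℝ → ℝ) (M : ℕ) (s : Fin nc → ℝ) (k : ℕ) : ℝ :=
  ∫ G, eE (QQ C nc n (M := M) f G s) (fun ω => (N : ℝ)⁻¹ *
    ∑ i, (cE (QQ C nc n (M := M) f G s) ((fil C nc n).F k) (fun w => C.x w.1 i) ω) ^ 2) ∂(gam M N)

/-! ### The sphere -/

/-- the uniform probability law on the unit sphere -/
def sph (N : ℕ) : Measure (Crest.ProbabilityR.Perceptron.UnitSphere N) :=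
  (Crest.ProbabilityR.Perceptron.sphereLaw N Set.univ)⁻¹ •
    Crest.ProbabilityR.Perceptron.sphereLaw N

/-- the averaged pressure with row functions `f a`, `a < M`. -/
def pN (N : ℕ) (f : ℕ → ℝ → ℝ) (M : ℕ) : ℝ :=
  (N : ℝ)⁻¹ * ∫ G, Real.log (∫ y, Real.exp (∑ a : Fin M, f a (∑ i, G a i *
    (y : EuclideanSpace ℝ (Fin N)) i)) ∂(sph N)) ∂(gam M N)

/-- the configuration space `C` is `δ`-close to the sphere of radius `√N`, tested against
functions which are 1-Lipschitz for the `ℓ¹` norm. -/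
def Near {N : ℕ} (C : Cfg N) (δ : ℝ) : Prop :=
  ∀ F : (Fin N → ℝ) → ℝ, (∀ u v, |F u - F v| ≤ ∑ i, |u i - v i|) →
    |∑ y, C.q y * F (C.x y) -
      ∫ y, F (fun i => Real.sqrt N * (y : EuclideanSpace ℝ (Fin N)) i) ∂(sph N)| ≤ δ

/-! ### Step profiles -/

/-- admissible levels `0 ≤ P_0 ≤ ... ≤ P_J ≤ 1` (all `P j` with `j > J` are not read). -/
structure Lev (J : ℕ) (P : ℕ → ℝ) : Prop where
  nonneg : 0 ≤ P 0
  mono : ∀ i j, i ≤ j → j ≤ J → P i ≤ P j
  le_one : P J ≤ 1

/-- time points `0, P_0, ..., P_J, 1` -/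
def tP (J : ℕ) (P : ℕ → ℝ) (j : ℕ) : ℝ := if j = 0 then 0 else if j ≤ J + 1 then P (j - 1) else 1

/-- backward recursion from time `t k`, `j` steps: exponent `m i` on `(t i, t (i+1))`. -/
def recV (f : ℝ → ℝ) (t m : ℕ → ℝ) (k : ℕ) : ℕ → ℝ → ℝ
  | 0 => f
  | j + 1 => Crest.ProbabilityR.InvariantGlass.gaussOp (m (k - 1 - j)) (t (k - j) - t (k - 1 - j))
      (recV f t m k j)

/-- the value of the recursion for the step profile with exponents `j/(J+1)` on
`(P_{j-1}, P_j)`, `0` before `P_0`, `1` after `P_J`. -/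
def Th (J : ℕ) (f : ℝ → ℝ) (P : ℕ → ℝ) : ℝ :=
  recV f (tP J P) (fun j => (j : ℝ) / ((J : ℝ) + 1)) (J + 2) (J + 2) 0

/-- `D(P_j)` for the step profile -/
def DP (J : ℕ) (P : ℕ → ℝ) (j : ℕ) : ℝ :=
  (1 - P J) + ∑ k ∈ Ico (j + 1) (J + 1), ((k : ℝ) / ((J : ℝ) + 1)) * (P k - P (k - 1))

/-- the entropy of the step profile (meant for `P J < 1`) -/
def SP (J : ℕ) (P : ℕ → ℝ) : ℝ :=
  1 / 2 * (P 0 / DP J P 0 +
    ∑ j ∈ Ico 1 (J + 1), (((J : ℝ) + 1) / j) * Real.log (DP J P (j - 1) / DP J P j) +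
    Real.log (DP J P J))

open scoped Classical in
/-- the step profile as an `OverlapProfile` -/
def mP (J : ℕ) (P : ℕ → ℝ) : Crest.ProbabilityR.Perceptron.OverlapProfile where
  toFun t := (((range (J + 1)).filter fun j => P j ≤ t).card : ℝ) / ((J : ℝ) + 1)
  mono := by
    intro s t h
    have h1 : (range (J + 1)).filter (fun j => P j ≤ s) ⊆ (range (J + 1)).filter fun j => P j ≤ t :=
      fun j hj => by
        rw [mem_filter] at hj ⊢
        exact ⟨hj.1, hj.2.trans h⟩
    have h2 := card_le_card h1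
    have h3 : (((range (J + 1)).filter fun j => P j ≤ s).card : ℝ) ≤
        (((range (J + 1)).filter fun j => P j ≤ t).card : ℝ) := by exact_mod_cast h2
    exact div_le_div_of_nonneg_right h3 (by positivity)
  nonneg t _ := by positivity
  le_one t _ := by
    rw [div_le_one (by positivity)]
    have h := card_filter_le (range (J + 1)) fun j => P j ≤ t
    rw [card_range] at h
    exact_mod_cast h

/-- bounded by `K` and `L`-Lipschitz -/
structure BL (K L : ℝ) (f : ℝ → ℝ) : Prop where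
  bd : ∀ x, |f x| ≤ K
  lip : ∀ x y, |f x - f y| ≤ L * |x - y|

end

end Crest.Agent.R146.S6Def_988
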