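import Crest.Agent.R146.CtlD_130
import Crest.Agent.R146.S6Def_988

/-!
Row 146, S0206 node (V), part E (helper130): the value of a step profile over bounded progressive
controls is the nested Gaussian recursion.
-/

set_option autoImplicit false

namespace Crest.Agent.R146.CtlE_130

open MeasureTheory ProbabilityTheory Filter Topology Set
open Crest.ProbabilityR.InvariantGlass
open Crest.ProbabilityR.Perceptron
open Crest.Agent.R164.GC (H)
open Crest.Agent.R146.CtlA_130 Crest.Agent.R146.CtlB_130 Crest.Agent.R146.CtlC_130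
open Crest.Agent.R146.S6Def_988 (recV)
open scoped NNReal

noncomputable section

variable {Ω : Type*} [mΩ : MeasurableSpace Ω]
variable {B : ℝ≥0 → Ω → ℝ} {hBm : ∀ t, Measurable (B t)}

/-- bounded profile functions -/
structure Prof (m : ℝ → ℝ) : Prop where
  meas : Measurable m
  bd : ∀ r ∈ Icc (0:ℝ) 1, 0 ≤ m r ∧ m r ≤ 1

theorem Prof.abs {m : ℝ → ℝ} (h : Prof m) {s t : ℝ} (hs : 0 ≤ s) (ht : t ≤ 1) :
    ∀ r ∈ Ioc s t, |m r| ≤ 1 := by
  intro r hr
  have := h.bd r ⟨hs.trans hr.1.le, hr.2.trans ht⟩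
  rw [abs_of_nonneg this.1]
  exact this.2

/-- value of a control from time `s` on -/
def val (P : Measure Ω) (B : ℝ≥0 → Ω → ℝ) (m : ℝ → ℝ) (f : ℝ → ℝ) (s : ℝ) (X : Ω → ℝ)
    (v : ℝ≥0 → Ω → ℝ) : ℝ :=
  ∫ ω, f (X ω + (B (1:ℝ).toNNReal ω - B s.toNNReal ω) + ∫ r in s..1, m r * v r.toNNReal ω) ∂P -
    1 / 2 * ∫ ω, (∫ r in s..1, m r * v r.toNNReal ω ^ 2) ∂P

theorem meas_mv {M : ℝ} {v : ℝ≥0 → Ω → ℝ} (hv : Ctl hBm M v) {m : ℝ → ℝ} (hm : Prof m)
    {s t : ℝ} (hst : s ≤ t) :
    Measurable[F hBm t] (fun ω => ∫ r in s..t, m r * v r.toNNReal ω) :=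
  CtlC_130.meas_int hv.prog hst (g := fun r y => m r * y)
    ((hm.meas.comp measurable_fst).mul measurable_snd)

theorem meas_mv2 {M : ℝ} {v : ℝ≥0 → Ω → ℝ} (hv : Ctl hBm M v) {m : ℝ → ℝ} (hm : Prof m)
    {s t : ℝ} (hst : s ≤ t) :
    Measurable[F hBm t] (fun ω => ∫ r in s..t, m r * v r.toNNReal ω ^ 2) :=
  CtlC_130.meas_int hv.prog hst (g := fun r y => m r * y ^ 2)
    ((hm.meas.comp measurable_fst).mul (measurable_snd.pow_const 2))

theorem bd_mv2 {M : ℝ} {v : ℝ≥0 → Ω → ℝ} (hv : Ctl hBm M v) {m : ℝ → ℝ} (hm : Prof m)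
    {s t : ℝ} (hs : 0 ≤ s) (hst : s ≤ t) (ht : t ≤ 1) (ω : Ω) :
    |∫ r in s..t, m r * v r.toNNReal ω ^ 2| ≤ M ^ 2 := by
  have := intervalIntegral.norm_integral_le_of_norm_le_const (a := s) (b := t)
    (f := fun r => m r * v r.toNNReal ω ^ 2) (C := M ^ 2) (fun r hr => by
      rw [uIoc_of_le hst] at hr
      rw [Real.norm_eq_abs, abs_mul, abs_pow]
      calc |m r| * |v r.toNNReal ω| ^ 2 ≤ 1 * M ^ 2 :=
            mul_le_mul (hm.abs hs ht r hr) (pow_le_pow_left₀ (abs_nonneg _) (hv.bd _ _) 2)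
              (by positivity) zero_le_one
        _ = M ^ 2 := one_mul _)
  rw [abs_of_nonneg (by linarith : 0 ≤ t - s), Real.norm_eq_abs] at this
  refine this.trans ?_
  have h2 : 0 ≤ M ^ 2 := sq_nonneg M
  nlinarith

variable {P : Measure Ω} [IsProbabilityMeasure P]

theorem int_mv2 {M : ℝ} {v : ℝ≥0 → Ω → ℝ} (hv : Ctl hBm M v) {m : ℝ → ℝ} (hm : Prof m)
    {s t : ℝ} (hs : 0 ≤ s) (hst : s ≤ t) (ht : t ≤ 1) :
    Integrable (fun ω => ∫ r in s..t, m r * v r.toNNReal ω ^ 2) P :=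
  CtlC_130.bd_int ((meas_mv2 hv hm hst).mono (F_le hBm _) le_rfl) fun ω => bd_mv2 hv hm hs hst ht ω

/-- splitting the value at an intermediate time -/
theorem val_split {M : ℝ} {v : ℝ≥0 → Ω → ℝ} (hv : Ctl hBm M v) {m : ℝ → ℝ} (hm : Prof m)
    (f : ℝ → ℝ) {s t : ℝ} (hs : 0 ≤ s) (hst : s ≤ t) (ht : t ≤ 1) (X : Ω → ℝ) :
    val P B m f s X v = val P B m f t (fun ω => X ω + (B t.toNNReal ω - B s.toNNReal ω) +
      ∫ r in s..t, m r * v r.toNNReal ω) v -
      1 / 2 * ∫ ω, (∫ r in s..t, m r * v r.toNNReal ω ^ 2) ∂P := by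
  unfold val
  have e1 : ∀ ω, ∫ r in s..1, m r * v r.toNNReal ω =
      (∫ r in s..t, m r * v r.toNNReal ω) + ∫ r in t..1, m r * v r.toNNReal ω := fun ω =>
    (intervalIntegral.integral_add_adjacent_intervals
      (hv.intv hm.meas (hm.abs hs ht) hst ω)
      (hv.intv hm.meas (hm.abs (hs.trans hst) le_rfl) ht ω)).symm
  have e2 : ∀ ω, ∫ r in s..1, m r * v r.toNNReal ω ^ 2 =
      (∫ r in s..t, m r * v r.toNNReal ω ^ 2) + ∫ r in t..1, m r * v r.toNNReal ω ^ 2 := fun ω =>
    (intervalIntegral.integral_add_adjacent_intervals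
      (hv.intv2 hm.meas (hm.abs hs ht) hst ω)
      (hv.intv2 hm.meas (hm.abs (hs.trans hst) le_rfl) ht ω)).symm
  simp only [e1, e2]
  rw [integral_add (int_mv2 hv hm hs hst ht) (int_mv2 hv hm (hs.trans hst) ht le_rfl)]
  have e3 : ∀ ω, X ω + (B (1:ℝ).toNNReal ω - B s.toNNReal ω) +
      ((∫ r in s..t, m r * v r.toNNReal ω) + ∫ r in t..1, m r * v r.toNNReal ω) =
      X ω + (B t.toNNReal ω - B s.toNNReal ω) + (∫ r in s..t, m r * v r.toNNReal ω) +
      (B (1:ℝ).toNNReal ω - B t.toNNReal ω) + ∫ r in t..1, m r * v r.toNNReal ω := fun ω => by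
    ring
  simp only [e3]
  ring

omit mΩ [IsProbabilityMeasure P] in
/-- a constant exponent comes out of the integral -/
theorem cell_const {m : ℝ → ℝ} {s t x : ℝ} (hst : s ≤ t) (hx : ∀ r ∈ Ioo s t, m r = x)
    (g : ℝ → ℝ) : ∫ r in s..t, m r * g r = x * ∫ r in s..t, g r := by
  rw [← intervalIntegral.integral_const_mul]
  rw [intervalIntegral.integral_of_le hst, intervalIntegral.integral_of_le hst,
    integral_Ioc_eq_integral_Ioo, integral_Ioc_eq_integral_Ioo]
  exact setIntegral_congr_fun measurableSet_Ioo fun r hr => by simp only [hx r hr]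

/-- the data of a step profile -/
structure Cells (m : ℝ → ℝ) (t a : ℕ → ℝ) (n : ℕ) : Prop where
  prof : Prof m
  t0 : 0 ≤ t 0
  tn : t n = 1
  mono : ∀ i < n, t i ≤ t (i + 1)
  a0 : ∀ i < n, 0 ≤ a i
  a1 : ∀ i < n, a i ≤ 1
  eq : ∀ i < n, ∀ r ∈ Ioo (t i) (t (i + 1)), m r = a i

theorem Cells.nonneg {m : ℝ → ℝ} {t a : ℕ → ℝ} {n : ℕ} (h : Cells m t a n) (i : ℕ) (hi : i ≤ n) :
    0 ≤ t i := by
  induction i with
  | zero => exact h.t0
  | succ i ih => exact (ih (by omega)).trans (h.mono i (by omega))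

theorem Cells.le_one {m : ℝ → ℝ} {t a : ℕ → ℝ} {n : ℕ} (h : Cells m t a n) (j : ℕ) (hj : j ≤ n) :
    t (n - j) ≤ 1 := by
  induction j with
  | zero => simp [h.tn]
  | succ j ih =>
    have h1 := h.mono (n - (j + 1)) (by omega)
    have h2 : n - (j + 1) + 1 = n - j := by omega
    rw [h2] at h1
    exact h1.trans (ih (by omega))

/-- regularity of the recursion -/
theorem recV_reg {m : ℝ → ℝ} {t a : ℕ → ℝ} {n : ℕ} (h : Cells m t a n) {f f1 f2 : ℝ → ℝ}
    {K L C : ℝ} (hf : Reg f f1 f2 K L C) (hL : 0 < L) (j : ℕ) (hj : j ≤ n) :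
    ∃ w1 w2 C', Reg (recV f t a n j) w1 w2 K L C' := by
  induction j with
  | zero => exact ⟨f1, f2, C, hf⟩
  | succ j ih =>
    obtain ⟨w1, w2, C', hw⟩ := ih (by omega)
    obtain ⟨w1', w2', hw'⟩ := gaussOp_reg hw hL (h.a0 (n - 1 - j) (by omega))
      (h.a1 (n - 1 - j) (by omega)) (t (n - j) - t (n - 1 - j))
    exact ⟨w1', w2', _, hw'⟩

/-- upper bound over all cells -/
theorem val_le (hB : IsBrownianReal B P) {m : ℝ → ℝ} {t a : ℕ → ℝ} {n : ℕ} (h : Cells m t a n)
    {f f1 f2 : ℝ → ℝ} {K L C : ℝ} (hf : Reg f f1 f2 K L C) (hL : 0 < L) {M : ℝ}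
    {v : ℝ≥0 → Ω → ℝ} (hv : Ctl hBm M v) (j : ℕ) (hj : j ≤ n) (X : Ω → ℝ)
    (hX : Measurable[F hBm (t (n - j))] X) :
    val P B m f (t (n - j)) X v ≤ ∫ ω, recV f t a n j (X ω) ∂P := by
  induction j generalizing X with
  | zero =>
    rw [Nat.sub_zero, h.tn]
    unfold val recV
    simp
  | succ j ih =>
    have hi : n - (j + 1) = n - 1 - j := by omega
    have hi1 : n - 1 - j + 1 = n - j := by omega
    rw [hi] at hX ⊢
    set s := t (n - 1 - j) with hs
    set t' := t (n - j) with ht'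
    have hs0 : 0 ≤ s := h.nonneg _ (by omega)
    have hst : s ≤ t' := by
      have := h.mono (n - 1 - j) (by omega)
      rwa [hi1] at this
    have ht1 : t' ≤ 1 := h.le_one j (by omega)
    have hx : ∀ r ∈ Ioo s t', m r = a (n - 1 - j) := by
      have := h.eq (n - 1 - j) (by omega)
      rwa [hi1] at this
    set x := a (n - 1 - j) with hxdef
    have hx0 : 0 ≤ x := h.a0 _ (by omega)
    rw [val_split hv h.prof f hs0 hst ht1]
    have e1 : ∀ ω, ∫ r in s..t', m r * v r.toNNReal ω = x * ∫ r in s..t', v r.toNNReal ω :=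
      fun ω => cell_const hst hx _
    have e2 : ∀ ω, ∫ r in s..t', m r * v r.toNNReal ω ^ 2 =
      x * ∫ r in s..t', v r.toNNReal ω ^ 2 := fun ω => cell_const hst hx _
    simp only [e1, e2]
    have hX' : Measurable[F hBm t'] (fun ω => X ω + (B t'.toNNReal ω - B s.toNNReal ω) +
        x * ∫ r in s..t', v r.toNNReal ω) := by
      refine Measurable.add (Measurable.add (hX.mono (F_mono hBm hst) le_rfl) ?_) ?_
      · exact Measurable.sub (F_adapted hBm _ _ le_rfl) (F_adapted hBm _ _ hst)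
      · exact Measurable.const_mul (hv.meas_int hst) _
    have h1 := ih (by omega) _ hX'
    obtain ⟨w1, w2, C', hw⟩ := recV_reg h hf hL j (by omega)
    have h2 := CtlD_130.cell_le hB hs0 hst hX hv hw.BM
      (continuous_iff_continuousAt.2 fun y => (hw.d1 y).continuousAt) hx0
    rw [integral_const_mul]
    change _ ≤ ∫ ω, gaussOp x (t' - s) (recV f t a n j) (X ω) ∂P
    have e3 : x / 2 * ∫ ω, (∫ r in s..t', v r.toNNReal ω ^ 2) ∂P =
      1 / 2 * (x * ∫ ω, (∫ r in s..t', v r.toNNReal ω ^ 2) ∂P) := by ring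
    rw [e3] at h2
    linarith

/-- glue a constant control before a control -/
def glue (s t : ℝ) (c : Ω → ℝ) (v : ℝ≥0 → Ω → ℝ) : ℝ≥0 → Ω → ℝ := fun r ω =>
  if s ≤ (r:ℝ) ∧ (r:ℝ) < t then c ω else v r ω

theorem glue_ctl {s t : ℝ} {c : Ω → ℝ} (hc : Measurable[F hBm s] c) {L : ℝ}
    (hcL : ∀ ω, |c ω| ≤ L) {v : ℝ≥0 → Ω → ℝ} (hv : Ctl hBm L v) : Ctl hBm L (glue s t c v) := by
  constructor
  · intro i
    have hvi := hv.prog i
    by_cases his : s ≤ (i:ℝ)
    · have hsi : F hBm s ≤ brownianFiltration B hBm i := by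
        refine (brownianFiltration B hBm).mono ?_
        rw [Real.toNNReal_le_iff_le_coe]
        exact his
      unfold glue
      refine Measurable.ite ?_ ?_ hvi
      · have h1 : MeasurableSet {q : Set.Iic i | s ≤ ((q : ℝ≥0) : ℝ) ∧ ((q : ℝ≥0) : ℝ) < t} := by
          have h2 : Measurable (fun q : Set.Iic i => ((q : ℝ≥0) : ℝ)) :=
            measurable_coe_nnreal_real.comp measurable_subtype_coe
          exact (measurableSet_le measurable_const h2).inter (measurableSet_lt h2 measurable_const)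
        exact (@measurable_fst _ _ _ (brownianFiltration B hBm i)) h1
      · exact (hc.mono hsi le_rfl).comp (@measurable_snd _ _ _ (brownianFiltration B hBm i))
    · have e : (fun p : Set.Iic i × Ω => glue s t c v p.1 p.2) =
          fun p : Set.Iic i × Ω => v p.1 p.2 := by
        funext p
        unfold glue
        rw [if_neg]
        rintro ⟨h1, _⟩
        have : ((p.1 : ℝ≥0) : ℝ) ≤ i := by exact_mod_cast p.1.2
        exact his (h1.trans this)
      rw [e]
      exact hvi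
  · intro r ω
    unfold glue
    split_ifs
    · exact hcL ω
    · exact hv.bd r ω

/-- value of a glued control -/
theorem val_glue {s t : ℝ} (hs : 0 ≤ s) (hst : s ≤ t) (ht : t ≤ 1) {c : Ω → ℝ}
    (hc : Measurable[F hBm s] c) {L : ℝ} (hcL : ∀ ω, |c ω| ≤ L) {v : ℝ≥0 → Ω → ℝ}
    (hv : Ctl hBm L v) {m : ℝ → ℝ} (hm : Prof m) {x : ℝ} (hx : ∀ r ∈ Ioo s t, m r = x)
    (f : ℝ → ℝ) (X : Ω → ℝ) :
    val P B m f s X (glue s t c v) = val P B m f t (fun ω => X ω + x * (t - s) * c ω +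
      (B t.toNNReal ω - B s.toNNReal ω)) v - x / 2 * ((t - s) * ∫ ω, c ω ^ 2 ∂P) := by
  have hg := glue_ctl (t := t) hc hcL hv
  rw [val_split hg hm f hs hst ht]
  have hin : ∀ r ∈ Ioo s t, ∀ ω, glue s t c v r.toNNReal ω = c ω := by
    intro r hr ω
    unfold glue
    rw [Real.coe_toNNReal r (hs.trans hr.1.le), if_pos ⟨hr.1.le, hr.2⟩]
  have e1 : ∀ ω, ∫ r in s..t, m r * glue s t c v r.toNNReal ω = x * (t - s) * c ω := by
    intro ω
    rw [cell_const hst hx, intervalIntegral.integral_of_le hst, integral_Ioc_eq_integral_Ioo,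
      setIntegral_congr_fun measurableSet_Ioo (fun r hr => hin r hr ω),
      ← integral_Ioc_eq_integral_Ioo, ← intervalIntegral.integral_of_le hst,
      intervalIntegral.integral_const, smul_eq_mul, mul_assoc]
  have e2 : ∀ ω, ∫ r in s..t, m r * glue s t c v r.toNNReal ω ^ 2 =
      x * ((t - s) * c ω ^ 2) := by
    intro ω
    rw [cell_const hst hx, intervalIntegral.integral_of_le hst, integral_Ioc_eq_integral_Ioo,
      setIntegral_congr_fun measurableSet_Ioo (fun r hr => by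
        rw [hin r hr ω]),
      ← integral_Ioc_eq_integral_Ioo, ← intervalIntegral.integral_of_le hst,
      intervalIntegral.integral_const, smul_eq_mul]
  have e3 : ∀ ω, ∫ r in t..1, m r * glue s t c v r.toNNReal ω =
      ∫ r in t..1, m r * v r.toNNReal ω := by
    intro ω
    refine intervalIntegral.integral_congr_ae (ae_of_all _ fun r hr => ?_)
    rw [uIoc_of_le ht] at hr
    unfold glue
    rw [Real.coe_toNNReal r ((hs.trans hst).trans hr.1.le), if_neg]
    rintro ⟨_, h2⟩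
    exact absurd h2 (not_lt.2 hr.1.le)
  have e4 : ∀ ω, ∫ r in t..1, m r * glue s t c v r.toNNReal ω ^ 2 =
      ∫ r in t..1, m r * v r.toNNReal ω ^ 2 := by
    intro ω
    refine intervalIntegral.integral_congr_ae (ae_of_all _ fun r hr => ?_)
    rw [uIoc_of_le ht] at hr
    unfold glue
    rw [Real.coe_toNNReal r ((hs.trans hst).trans hr.1.le), if_neg]
    rintro ⟨_, h2⟩
    exact absurd h2 (not_lt.2 hr.1.le)
  have e5 : 1 / 2 * ∫ ω, (∫ r in s..t, m r * glue s t c v r.toNNReal ω ^ 2) ∂P =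
      x / 2 * ((t - s) * ∫ ω, c ω ^ 2 ∂P) := by
    simp only [e2]
    rw [integral_const_mul, integral_const_mul]
    ring
  rw [e5]
  unfold val
  simp only [e1, e3, e4]
  have e6 : ∀ ω, X ω + (B t.toNNReal ω - B s.toNNReal ω) + x * (t - s) * c ω =
      X ω + x * (t - s) * c ω + (B t.toNNReal ω - B s.toNNReal ω) := fun ω => by ring
  simp only [e6]

theorem ctl_zero {L : ℝ} (hL : 0 ≤ L) : Ctl hBm L (fun _ _ => (0:ℝ)) :=
  ⟨isProgressive_const _ 0, fun _ _ => by simpa using hL⟩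

/-- lower bound over all cells -/
theorem val_ge (hB : IsBrownianReal B P) {m : ℝ → ℝ} {t a : ℕ → ℝ} {n : ℕ} (h : Cells m t a n)
    {f f1 f2 : ℝ → ℝ} {K L C : ℝ} (hf : Reg f f1 f2 K L C) (hL : 0 < L) (j : ℕ) (hj : j ≤ n) :
    ∀ ε : ℝ, 0 < ε → ∀ X : Ω → ℝ, Measurable[F hBm (t (n - j))] X →
      ∃ v : ℝ≥0 → Ω → ℝ, Ctl hBm L v ∧
        ∫ ω, recV f t a n j (X ω) ∂P - ε ≤ val P B m f (t (n - j)) X v := by
  induction j with
  | zero =>
    intro ε hε X hX
    refine ⟨fun _ _ => 0, ctl_zero hL.le, ?_⟩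
    rw [Nat.sub_zero, h.tn]
    unfold val recV
    simp
    exact hε.le
  | succ j ih =>
    intro ε hε X hX
    have hi : n - (j + 1) = n - 1 - j := by omega
    have hi1 : n - 1 - j + 1 = n - j := by omega
    rw [hi] at hX ⊢
    set s := t (n - 1 - j) with hs
    set t' := t (n - j) with ht'
    have hs0 : 0 ≤ s := h.nonneg _ (by omega)
    have hst : s ≤ t' := by
      have := h.mono (n - 1 - j) (by omega)
      rwa [hi1] at this
    have ht1 : t' ≤ 1 := h.le_one j (by omega)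
    have hx : ∀ r ∈ Ioo s t', m r = a (n - 1 - j) := by
      have := h.eq (n - 1 - j) (by omega)
      rwa [hi1] at this
    set x := a (n - 1 - j) with hxdef
    have hx0 : 0 ≤ x := h.a0 _ (by omega)
    have hx1 : x ≤ 1 := h.a1 _ (by omega)
    obtain ⟨w1, w2, C', hw⟩ := recV_reg h hf hL j (by omega)
    set Φ := recV f t a n j with hΦ
    have hgoal : recV f t a n (j + 1) = gaussOp x (t' - s) Φ := rfl
    rw [hgoal]
    set D := MC L (C' + L ^ 2) with hD
    have hD0 : 0 ≤ D := MC_nonneg _ _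
    -- number of pieces
    obtain ⟨N, hN⟩ := exists_nat_gt (2 * D / ε)
    have hN1 : (0:ℝ) < N + 1 := by positivity
    set d := (t' - s) / (N + 1 : ℕ) with hd
    have hd0 : 0 ≤ d := div_nonneg (by linarith) (by positivity)
    have hnd : ((N + 1 : ℕ) : ℝ) * d = t' - s := by rw [hd]; field_simp
    have hd1 : d ≤ 1 / (N + 1) := by
      rw [hd]; push_cast
      exact div_le_div_of_nonneg_right (by linarith) hN1.le
    have hd1' : d ≤ 1 := by
      refine hd1.trans ?_
      rw [div_le_one hN1]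
      have : (0:ℝ) ≤ N := Nat.cast_nonneg N
      linarith
    have inner : ∀ k : ℕ, k ≤ N + 1 → ∀ X : Ω → ℝ, Measurable[F hBm (t' - k * d)] X →
        ∃ v : ℝ≥0 → Ω → ℝ, Ctl hBm L v ∧
          ∫ ω, gaussOp x (k * d) Φ (X ω) ∂P - ε / 2 - k * (D * d ^ 2) ≤
            val P B m f (t' - k * d) X v := by
      intro k
      induction k with
      | zero =>
        intro _ X hX
        have e0 : t' - ((0 : ℕ) : ℝ) * d = t' := by simp
        rw [e0] at hX ⊢
        obtain ⟨v, hv, h1⟩ := ih (by omega) (ε / 2) (by linarith) X hX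
        refine ⟨v, hv, ?_⟩
        simpa [gaussOp_var0] using h1
      | succ k ihk =>
        intro hk X hX
        set s1 := t' - ((k + 1 : ℕ) : ℝ) * d with hs1
        have hs2 : t' - k * d = s1 + d := by rw [hs1]; push_cast; ring
        have hs1s : s ≤ s1 := by
          rw [hs1]
          have : ((k + 1 : ℕ) : ℝ) ≤ ((N + 1 : ℕ) : ℝ) := by exact_mod_cast hk
          nlinarith
        have hs2t : s1 + d ≤ t' := by
          rw [← hs2]
          have : 0 ≤ (k:ℝ) * d := by positivity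
          linarith
        obtain ⟨u1, u2, hu⟩ := gaussOp_reg hw hL hx0 hx1 (k * d)
        set ψ := gaussOp x (k * d) Φ with hψ
        have hu1m : Measurable u1 :=
          (continuous_iff_continuousAt.2 fun y => (hu.d2 y).continuousAt).measurable
        have hc : Measurable[F hBm s1] (fun ω => u1 (X ω)) := hu1m.comp hX
        have hcL : ∀ ω, |u1 (X ω)| ≤ L := fun ω => hu.bL _
        have hX' : Measurable[F hBm (t' - k * d)] (fun ω => X ω + x * (s1 + d - s1) * u1 (X ω) +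
            (B (s1 + d).toNNReal ω - B s1.toNNReal ω)) := by
          rw [hs2]
          have h12 : F hBm s1 ≤ F hBm (s1 + d) := F_mono hBm (by linarith)
          refine Measurable.add (Measurable.add (hX.mono h12 le_rfl)
            (Measurable.const_mul (hc.mono h12 le_rfl) _)) ?_
          exact Measurable.sub (F_adapted hBm _ _ le_rfl) (F_adapted hBm _ _ (by linarith))
        obtain ⟨v, hv, h1⟩ := ihk (by omega) _ hX'
        refine ⟨glue s1 (s1 + d) (fun ω => u1 (X ω)) v, glue_ctl hc hcL hv, ?_⟩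
        rw [val_glue (by linarith) (by linarith) (by linarith) hc hcL hv h.prof
          (fun r hr => hx r ⟨lt_of_le_of_lt hs1s hr.1, lt_of_lt_of_le hr.2 hs2t⟩)]
        rw [hs2] at h1
        have h2 := cstep_ge hBm hB (s := s1) (t := s1 + d) (by linarith) (by linarith)
          (by linarith) hX hu hx0 hx1
        have e1 : s1 + d - s1 = d := by ring
        rw [e1] at h2 h1 ⊢
        have e2 : ∀ y, gaussOp x d ψ y = gaussOp x (((k + 1 : ℕ) : ℝ) * d) Φ y := by
          intro y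
          rw [hψ, gaussOp_semi hw.BM hx0 hd0 (by positivity)]
          congr 1
          push_cast; ring
        simp only [e2] at h2
        push_cast at h2 ⊢
        linarith
    have e5 : t' - (t' - s) = s := by ring
    have h3 := inner (N + 1) le_rfl X (by rw [hnd, e5]; exact hX)
    rw [hnd, e5] at h3
    obtain ⟨v, hv, h4⟩ := h3
    refine ⟨v, hv, ?_⟩
    refine le_trans ?_ h4
    have h5 : ((N + 1 : ℕ) : ℝ) * (D * d ^ 2) ≤ ε / 2 := by
      have h6 : ((N + 1 : ℕ) : ℝ) * (D * d ^ 2) = D * (t' - s) * d := by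
        rw [← hnd]; ring
      rw [h6]
      have h7 : D * (t' - s) * d ≤ D * 1 * (1 / (N + 1)) := by
        refine mul_le_mul (mul_le_mul_of_nonneg_left (by linarith) hD0) hd1 hd0 (by linarith)
      have h8 : 2 * D ≤ N * ε := by
        rw [div_lt_iff₀ hε] at hN
        exact hN.le
      have h9 : D * 1 * (1 / ((N:ℝ) + 1)) ≤ ε / 2 := by
        rw [mul_one, mul_one_div, div_le_iff₀ hN1]
        nlinarith
      linarith
    linarith

end

end Crest.Agent.R146.CtlE_130
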