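import Crest.Agent.R146.CtlE_130

/-!
Row 146, S0206 node (V), part F (helper130): the literal `controlValue`: integrability facts for
admissible controls, truncation, boundedness.
-/

set_option autoImplicit false

namespace Crest.Agent.R146.CtlF_130

open MeasureTheory ProbabilityTheory Filter Topology Set
open Crest.ProbabilityR.InvariantGlass
open Crest.ProbabilityR.Perceptron
open Crest.Agent.R146.CtlA_130 Crest.Agent.R146.CtlB_130 Crest.Agent.R146.CtlC_130
open Crest.Agent.R146.CtlE_130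
open scoped NNReal ENNReal

noncomputable section

variable {Ω : Type*} [mΩ : MeasurableSpace Ω]
variable {B : ℝ≥0 → Ω → ℝ} {hBm : ∀ t, Measurable (B t)}

theorem prof_of (m : OverlapProfile) : Prof m.toFun :=
  ⟨m.mono.measurable, fun r hr => ⟨m.nonneg r hr, m.le_one r hr⟩⟩

variable {P : Measure Ω} [IsProbabilityMeasure P]

theorem meas_ext {v : ℝ≥0 → Ω → ℝ} (hv : IsProgressive (brownianFiltration B hBm) v)
    {g : ℝ → ℝ → ℝ} (hg : Measurable (fun p : ℝ × ℝ => g p.1 p.2)) :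
    Measurable (fun ω => ∫ r in (0:ℝ)..1, g r (v r.toNNReal ω)) :=
  (CtlC_130.meas_int hv zero_le_one hg).mono (F_le hBm _) le_rfl

/-- section of an admissible control (all integrands are read on `[0,1]`) -/
theorem sec_meas {v : ℝ≥0 → Ω → ℝ} (hv : IsProgressive (brownianFiltration B hBm) v) (ω : Ω)
    {g : ℝ → ℝ → ℝ} (hg : Measurable (fun p : ℝ × ℝ => g p.1 p.2)) :
    AEStronglyMeasurable (fun r => g r (v r.toNNReal ω)) (volume.restrict (Icc (0:ℝ) 1)) := by
  have h1 : Measurable (fun r : ℝ => g r (v (min r.toNNReal (1:ℝ).toNNReal) ω)) :=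
    hg.comp (measurable_id.prodMk (prog_section hv 1 ω))
  refine h1.aestronglyMeasurable.congr ?_
  refine (ae_restrict_iff' measurableSet_Icc).2 (ae_of_all _ fun r hr => ?_)
  simp only
  rw [min_eq_of_le hr.2]

structure AdmFacts (P : Measure Ω) (m : OverlapProfile) (v : ℝ≥0 → Ω → ℝ) : Prop where
  sq : ∀ᵐ ω ∂P, IntegrableOn (fun r => m.toFun r * v r.toNNReal ω ^ 2) (Icc (0:ℝ) 1)
  lin : ∀ᵐ ω ∂P, IntegrableOn (fun r => m.toFun r * v r.toNNReal ω) (Icc (0:ℝ) 1)
  int : Integrable (fun ω => ∫ r in (0:ℝ)..1, m.toFun r * v r.toNNReal ω ^ 2) P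
  cost : (controlCost P m v).toReal = ∫ ω, (∫ r in (0:ℝ)..1, m.toFun r * v r.toNNReal ω ^ 2) ∂P

theorem meas_inner (m : OverlapProfile) {v : ℝ≥0 → Ω → ℝ}
    (hv : IsProgressive (brownianFiltration B hBm) v) :
    Measurable (fun ω => ∫⁻ t in Icc (0:ℝ) 1, ENNReal.ofReal (m.toFun t * v t.toNNReal ω ^ 2)) := by
  have h1 : Measurable (fun p : ℝ × Ω => ENNReal.ofReal (m.toFun p.1 *
      v (min p.1.toNNReal (1:ℝ).toNNReal) p.2 ^ 2)) :=
    (((prof_of m).meas.comp measurable_fst).mul ((prog_joint' hv 1).pow_const 2)).ennreal_ofReal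
  have h2 := h1.lintegral_prod_left' (μ := volume.restrict (Icc (0:ℝ) 1))
  have e : (fun ω => ∫⁻ t in Icc (0:ℝ) 1, ENNReal.ofReal (m.toFun t * v t.toNNReal ω ^ 2)) =
      fun ω => ∫⁻ t in Icc (0:ℝ) 1, ENNReal.ofReal (m.toFun t *
      v (min t.toNNReal (1:ℝ).toNNReal) ω ^ 2) := by
    funext ω
    refine setLIntegral_congr_fun measurableSet_Icc fun r hr => ?_
    rw [min_eq_of_le hr.2]
  rw [e]
  exact h2

omit [IsProbabilityMeasure P] in
theorem adm_facts (m : OverlapProfile) {v : ℝ≥0 → Ω → ℝ}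
    (hv : IsAdmissibleControl P B hBm m v) : AdmFacts P m v := by
  obtain ⟨hp, hc⟩ := hv
  have hin := meas_inner m hp
  have hfin : ∀ᵐ ω ∂P, ∫⁻ t in Icc (0:ℝ) 1, ENNReal.ofReal (m.toFun t * v t.toNNReal ω ^ 2) < ⊤ :=
    ae_lt_top hin hc.ne
  have hgm : Measurable (fun p : ℝ × ℝ => m.toFun p.1 * p.2 ^ 2) :=
    ((prof_of m).meas.comp measurable_fst).mul (measurable_snd.pow_const 2)
  have hgm1 : Measurable (fun p : ℝ × ℝ => m.toFun p.1 * p.2) :=
    ((prof_of m).meas.comp measurable_fst).mul measurable_snd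
  have hnn : ∀ ω, ∀ᵐ r ∂(volume.restrict (Icc (0:ℝ) 1)), 0 ≤ m.toFun r * v r.toNNReal ω ^ 2 :=
    fun ω => (ae_restrict_iff' measurableSet_Icc).2 (ae_of_all _ fun r hr =>
      mul_nonneg (m.nonneg r hr) (sq_nonneg _))
  have hsq : ∀ᵐ ω ∂P, IntegrableOn (fun r => m.toFun r * v r.toNNReal ω ^ 2) (Icc (0:ℝ) 1) := by
    filter_upwards [hfin] with ω hω
    refine ⟨sec_meas hp ω (g := fun r y => m.toFun r * y ^ 2) hgm, ?_⟩
    rw [hasFiniteIntegral_iff_ofReal (hnn ω)]
    exact hω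
  have hlin : ∀ᵐ ω ∂P, IntegrableOn (fun r => m.toFun r * v r.toNNReal ω) (Icc (0:ℝ) 1) := by
    filter_upwards [hsq] with ω hω
    have h1 : IntegrableOn (fun r => m.toFun r * v r.toNNReal ω ^ 2 + 1) (Icc (0:ℝ) 1) :=
      hω.add (integrable_const (1:ℝ))
    refine h1.mono' (sec_meas hp ω (g := fun r y => m.toFun r * y) hgm1) ?_
    refine (ae_restrict_iff' measurableSet_Icc).2 (ae_of_all _ fun r hr => ?_)
    rw [Real.norm_eq_abs, abs_mul, abs_of_nonneg (m.nonneg r hr)]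
    have h2 := m.nonneg r hr
    have h3 := m.le_one r hr
    have h4 : |v r.toNNReal ω| ^ 2 = v r.toNNReal ω ^ 2 := sq_abs _
    nlinarith [sq_nonneg (|v r.toNNReal ω| - 1), abs_nonneg (v r.toNNReal ω),
      mul_nonneg h2 (sq_nonneg (|v r.toNNReal ω| - 1))]
  have hG : Measurable (fun ω => ∫ r in (0:ℝ)..1, m.toFun r * v r.toNNReal ω ^ 2) :=
    meas_ext hp (g := fun r y => m.toFun r * y ^ 2) hgm
  have hG0 : ∀ ω, 0 ≤ ∫ r in (0:ℝ)..1, m.toFun r * v r.toNNReal ω ^ 2 := fun ω => by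
    rw [intervalIntegral.integral_of_le zero_le_one, ← integral_Icc_eq_integral_Ioc]
    exact integral_nonneg_of_ae (hnn ω)
  have heq : ∀ᵐ ω ∂P, ∫⁻ t in Icc (0:ℝ) 1, ENNReal.ofReal (m.toFun t * v t.toNNReal ω ^ 2) =
      ENNReal.ofReal (∫ r in (0:ℝ)..1, m.toFun r * v r.toNNReal ω ^ 2) := by
    filter_upwards [hsq] with ω hω
    rw [intervalIntegral.integral_of_le zero_le_one, ← integral_Icc_eq_integral_Ioc,
      ofReal_integral_eq_lintegral_ofReal hω (hnn ω)]
  have hcost : controlCost P m v = ∫⁻ ω, ENNReal.ofReal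
      (∫ r in (0:ℝ)..1, m.toFun r * v r.toNNReal ω ^ 2) ∂P := by
    unfold controlCost
    exact lintegral_congr_ae heq
  have hint : Integrable (fun ω => ∫ r in (0:ℝ)..1, m.toFun r * v r.toNNReal ω ^ 2) P := by
    refine ⟨hG.aestronglyMeasurable, ?_⟩
    rw [hasFiniteIntegral_iff_ofReal (ae_of_all _ hG0), ← hcost]
    exact hc
  refine ⟨hsq, hlin, hint, ?_⟩
  rw [hcost, integral_eq_lintegral_of_nonneg_ae (ae_of_all _ hG0) hG.aestronglyMeasurable]

/-- bounded progressive controls are admissible -/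
theorem ctl_adm (m : OverlapProfile) {M : ℝ} {v : ℝ≥0 → Ω → ℝ} (hv : Ctl hBm M v) :
    IsAdmissibleControl P B hBm m v := by
  refine ⟨hv.prog, ?_⟩
  unfold controlCost
  have h1 : ∀ ω, ∫⁻ t in Icc (0:ℝ) 1, ENNReal.ofReal (m.toFun t * v t.toNNReal ω ^ 2) ≤
      ENNReal.ofReal (M ^ 2) := by
    intro ω
    have h2 : ∫⁻ t in Icc (0:ℝ) 1, ENNReal.ofReal (m.toFun t * v t.toNNReal ω ^ 2) ≤
        ∫⁻ _ in Icc (0:ℝ) 1, ENNReal.ofReal (M ^ 2) := by
      refine setLIntegral_mono measurable_const fun r hr => ?_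
      refine ENNReal.ofReal_le_ofReal ?_
      have h3 := m.nonneg r hr
      have h4 := m.le_one r hr
      have h5 : v r.toNNReal ω ^ 2 ≤ M ^ 2 := by
        rw [← sq_abs (v r.toNNReal ω)]
        exact pow_le_pow_left₀ (abs_nonneg _) (hv.bd _ _) 2
      nlinarith [sq_nonneg (v r.toNNReal ω)]
    refine h2.trans ?_
    simp
  calc ∫⁻ ω, ∫⁻ t in Icc (0:ℝ) 1, ENNReal.ofReal (m.toFun t * v t.toNNReal ω ^ 2) ∂volume ∂P ≤
        ∫⁻ _, ENNReal.ofReal (M ^ 2) ∂P := lintegral_mono h1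
    _ < ⊤ := by simp

/-- the payoff in real terms -/
theorem payoff_eq (m : OverlapProfile) {v : ℝ≥0 → Ω → ℝ} (hv : IsAdmissibleControl P B hBm m v)
    (f : ℝ → ℝ) : controlPayoff P B f m v =
      ∫ ω, f (B 1 ω + ∫ t in (0:ℝ)..1, m.toFun t * v t.toNNReal ω) ∂P -
      1 / 2 * ∫ ω, (∫ r in (0:ℝ)..1, m.toFun r * v r.toNNReal ω ^ 2) ∂P := by
  unfold controlPayoff
  rw [(adm_facts m hv).cost]
  ring

theorem meas_end (m : OverlapProfile) (hBm : ∀ t, Measurable (B t)) {v : ℝ≥0 → Ω → ℝ}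
    (hv : IsProgressive (brownianFiltration B hBm) v) :
    Measurable (fun ω => B 1 ω + ∫ t in (0:ℝ)..1, m.toFun t * v t.toNNReal ω) :=
  (hBm 1).add (meas_ext hv (g := fun r y => m.toFun r * y)
    (((prof_of m).meas.comp measurable_fst).mul measurable_snd))

/-! ### Suprema -/

theorem payoff_le (m : OverlapProfile) {v : ℝ≥0 → Ω → ℝ} {f : ℝ → ℝ} {K : ℝ}
    (hf : ∀ x, |f x| ≤ K) : controlPayoff P B f m v ≤ K := by
  unfold controlPayoff
  have h1 := norm_integral_le_of_norm_le_const (μ := P)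
    (f := fun ω => f (B 1 ω + ∫ t in (0:ℝ)..1, m.toFun t * v t.toNNReal ω)) (C := K)
    (ae_of_all _ fun ω => hf _)
  rw [Real.norm_eq_abs] at h1
  simp only [probReal_univ, mul_one] at h1
  have h2 : 0 ≤ (controlCost P m v).toReal := ENNReal.toReal_nonneg
  have := le_abs_self (∫ ω, f (B 1 ω + ∫ t in (0:ℝ)..1, m.toFun t * v t.toNNReal ω) ∂P)
  linarith

theorem bddAbove (hBm : ∀ t, Measurable (B t)) (m : OverlapProfile) {f : ℝ → ℝ} {K : ℝ}
    (hf : ∀ x, |f x| ≤ K) :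
    BddAbove {x : ℝ | ∃ v : ℝ≥0 → Ω → ℝ, IsAdmissibleControl P B hBm m v ∧
      x = controlPayoff P B f m v} :=
  ⟨K, by rintro x ⟨v, -, rfl⟩; exact payoff_le m hf⟩

theorem nonempty (hBm : ∀ t, Measurable (B t)) (m : OverlapProfile) (f : ℝ → ℝ) :
    {x : ℝ | ∃ v : ℝ≥0 → Ω → ℝ, IsAdmissibleControl P B hBm m v ∧
      x = controlPayoff P B f m v}.Nonempty :=
  ⟨_, fun _ _ => 0, ctl_adm m (ctl_zero le_rfl), rfl⟩

theorem le_value (m : OverlapProfile) {f : ℝ → ℝ} {K : ℝ} (hf : ∀ x, |f x| ≤ K)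
    {v : ℝ≥0 → Ω → ℝ} (hv : IsAdmissibleControl P B hBm m v) :
    controlPayoff P B f m v ≤ controlValue P B hBm f m :=
  le_csSup (bddAbove hBm m hf) ⟨v, hv, rfl⟩

theorem value_le (m : OverlapProfile) {f : ℝ → ℝ} {A : ℝ}
    (h : ∀ v : ℝ≥0 → Ω → ℝ, IsAdmissibleControl P B hBm m v → controlPayoff P B f m v ≤ A) :
    controlValue P B hBm f m ≤ A :=
  csSup_le (nonempty hBm m f) (by rintro x ⟨v, hv, rfl⟩; exact h v hv)

/-- truncation of a control -/
def clip (L : ℝ) (v : ℝ≥0 → Ω → ℝ) : ℝ≥0 → Ω → ℝ := fun r ω => max (-L) (min (v r ω) L)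

theorem clip_ctl {L : ℝ} (hL : 0 ≤ L) {v : ℝ≥0 → Ω → ℝ}
    (hv : IsProgressive (brownianFiltration B hBm) v) : Ctl hBm L (clip L v) := by
  constructor
  · intro i
    exact Measurable.max measurable_const (Measurable.min (hv i) measurable_const)
  · intro r ω
    unfold clip
    rw [abs_le]
    exact ⟨le_max_left _ _, max_le (by linarith) (min_le_right _ _)⟩

theorem clip_ineq {L : ℝ} (hL : 0 ≤ L) (y : ℝ) :
    2 * L * |y - max (-L) (min y L)| ≤ y ^ 2 - (max (-L) (min y L)) ^ 2 := by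
  rcases le_or_gt y L with h1 | h1
  · rw [min_eq_left h1]
    rcases le_or_gt (-L) y with h2 | h2
    · rw [max_eq_right h2]; simp
    · rw [max_eq_left h2.le, abs_of_neg (by linarith)]
      nlinarith
  · rw [min_eq_right h1.le, max_eq_right (by linarith), abs_of_pos (by linarith)]
    nlinarith

/-- truncation does not decrease the payoff -/
theorem payoff_clip (m : OverlapProfile) {v : ℝ≥0 → Ω → ℝ}
    (hv : IsAdmissibleControl P B hBm m v) {f : ℝ → ℝ} {K L : ℝ} (hL : 0 ≤ L)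
    (hfK : ∀ x, |f x| ≤ K) (hfL : ∀ x y, |f x - f y| ≤ L * |x - y|) :
    controlPayoff P B f m v ≤ controlPayoff P B f m (clip L v) := by
  have hc := clip_ctl (hBm := hBm) hL hv.1
  have hca : IsAdmissibleControl P B hBm m (clip L v) := ctl_adm m hc
  have hfc : Continuous f := by
    have : LipschitzWith (Real.toNNReal L) f := by
      refine LipschitzWith.of_dist_le_mul fun x y => ?_
      rw [Real.dist_eq, Real.dist_eq, Real.coe_toNNReal _ hL]
      exact hfL x y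
    exact this.continuous
  have hfB : BM f K := ⟨hfc.measurable, hfK⟩
  rw [payoff_eq m hv, payoff_eq m hca]
  have F1 := adm_facts m hv
  have F2 := adm_facts m hca
  have hi1 := bm_int (P := P) hfB (meas_end m hBm hv.1)
  have hi2 := bm_int (P := P) hfB (meas_end m hBm hca.1)
  have key : ∀ᵐ ω ∂P, f (B 1 ω + ∫ t in (0:ℝ)..1, m.toFun t * v t.toNNReal ω) -
      f (B 1 ω + ∫ t in (0:ℝ)..1, m.toFun t * clip L v t.toNNReal ω) ≤
      1 / 2 * (∫ r in (0:ℝ)..1, m.toFun r * v r.toNNReal ω ^ 2) -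
      1 / 2 * (∫ r in (0:ℝ)..1, m.toFun r * clip L v r.toNNReal ω ^ 2) := by
    filter_upwards [F1.sq, F1.lin, F2.sq, F2.lin] with ω a1 a2 a3 a4
    rw [intervalIntegral.integral_of_le zero_le_one, intervalIntegral.integral_of_le zero_le_one,
      intervalIntegral.integral_of_le zero_le_one, intervalIntegral.integral_of_le zero_le_one,
      ← integral_Icc_eq_integral_Ioc, ← integral_Icc_eq_integral_Ioc,
      ← integral_Icc_eq_integral_Ioc, ← integral_Icc_eq_integral_Ioc]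
    have h1 := hfL (B 1 ω + ∫ t in Icc (0:ℝ) 1, m.toFun t * v t.toNNReal ω)
      (B 1 ω + ∫ t in Icc (0:ℝ) 1, m.toFun t * clip L v t.toNNReal ω)
    rw [add_sub_add_left_eq_sub, ← integral_sub a2 a4] at h1
    have h2 : L * |∫ t in Icc (0:ℝ) 1, (m.toFun t * v t.toNNReal ω -
        m.toFun t * clip L v t.toNNReal ω)| ≤ ∫ t in Icc (0:ℝ) 1, (1 / 2 *
        (m.toFun t * v t.toNNReal ω ^ 2) - 1 / 2 * (m.toFun t * clip L v t.toNNReal ω ^ 2)) := by
      have h3 : |∫ t in Icc (0:ℝ) 1, (m.toFun t * v t.toNNReal ω -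
        m.toFun t * clip L v t.toNNReal ω)| ≤ ∫ t in Icc (0:ℝ) 1, |m.toFun t * v t.toNNReal ω -
        m.toFun t * clip L v t.toNNReal ω| := abs_integral_le_integral_abs
      refine (mul_le_mul_of_nonneg_left h3 hL).trans ?_
      rw [← integral_const_mul]
      refine setIntegral_mono_on ((a2.sub a4).abs.const_mul L)
        ((a1.const_mul _).sub (a3.const_mul _)) measurableSet_Icc fun r hr => ?_
      have h5 := clip_ineq hL (v r.toNNReal ω)
      have h6 := m.nonneg r hr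
      have h7 : |m.toFun r * v r.toNNReal ω - m.toFun r * clip L v r.toNNReal ω| =
          m.toFun r * |v r.toNNReal ω - clip L v r.toNNReal ω| := by
        rw [← mul_sub, abs_mul, abs_of_nonneg h6]
      rw [h7]
      unfold clip
      nlinarith [mul_le_mul_of_nonneg_left h5 h6]
    rw [integral_sub (a1.const_mul _) (a3.const_mul _), integral_const_mul,
      integral_const_mul] at h2
    have := le_abs_self (f (B 1 ω + ∫ t in Icc (0:ℝ) 1, m.toFun t * v t.toNNReal ω) -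
      f (B 1 ω + ∫ t in Icc (0:ℝ) 1, m.toFun t * clip L v t.toNNReal ω))
    linarith
  have h8 := integral_mono_ae (hi1.sub hi2) ((F1.int.const_mul (1 / 2)).sub
    (F2.int.const_mul (1 / 2))) key
  simp only [Pi.sub_apply] at h8
  rw [integral_sub hi1 hi2, integral_sub (F1.int.const_mul (1 / 2)) (F2.int.const_mul (1 / 2)),
    integral_const_mul, integral_const_mul] at h8
  linarith

end

end Crest.Agent.R146.CtlF_130
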