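import Crest.Agent.R146.P34_734

/-!
Row 146, package P3/P4 (helper649): the truncation error tends to zero (`P34_734.DTAIL`).
-/

set_option autoImplicit false

open MeasureTheory ProbabilityTheory Filter
open scoped Topology

namespace Crest.Agent.R146.DTail_649

open Crest.Agent.R146.P34_734

noncomputable section

theorem fqL_sub_nonneg (L b k x : ℝ) : 0 ≤ fqL L b k x - fq b k x := by
  unfold fqL
  linarith [le_max_left (fq b k x) (-L)]

theorem fqL_sub_le {L b k x : ℝ} (hb : 0 < b) (hL : 0 ≤ L) :
    fqL L b k x - fq b k x ≤ b / 2 * (k - x) ^ 2 := by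
  have h1 : max (k - x) 0 ^ 2 ≤ (k - x) ^ 2 := by
    rcases le_total (k - x) 0 with h | h
    · rw [max_eq_right h]
      simpa using sq_nonneg (k - x)
    · rw [max_eq_left h]
  have h2 : 0 ≤ b / 2 * max (k - x) 0 ^ 2 := by positivity
  have h3 : b / 2 * max (k - x) 0 ^ 2 ≤ b / 2 * (k - x) ^ 2 :=
    mul_le_mul_of_nonneg_left h1 (by positivity)
  unfold fqL fq
  rcases le_total (-(b / 2) * max (k - x) 0 ^ 2) (-L) with h | h
  · rw [max_eq_right h]
    linarith
  · rw [max_eq_left h]
    linarith

theorem measurable_fq (b k : ℝ) : Measurable (fq b k) := by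
  unfold fq
  fun_prop

theorem measurable_fqL (L b k : ℝ) : Measurable (fqL L b k) :=
  (measurable_fq b k).max measurable_const

theorem integrable_sq (a : ℝ) : Integrable (fun z : ℝ => (a - z) ^ 2) (gaussianReal 0 1) := by
  have h1 : MemLp (fun z : ℝ => a - z) 2 (gaussianReal 0 1) :=
    (memLp_const a).sub (memLp_id_gaussianReal 2)
  exact h1.integrable_sq

/-- **(DTAIL)** -/
theorem dtail : DTAIL := by
  intro b k c hb
  have key : Tendsto (fun L : ℝ => ∫ z, (fqL L b k (z - c) - fq b k (z - c))
      ∂(gaussianReal 0 1)) atTop (𝓝 (∫ _z : ℝ, (0 : ℝ) ∂(gaussianReal 0 1))) := by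
    refine tendsto_integral_filter_of_dominated_convergence
      (fun z => b / 2 * ((k + c) - z) ^ 2) ?_ ?_ ((integrable_sq (k + c)).const_mul _) ?_
    · refine Eventually.of_forall fun L => Measurable.aestronglyMeasurable ?_
      exact ((measurable_fqL L b k).comp (measurable_id.sub_const c)).sub
        ((measurable_fq b k).comp (measurable_id.sub_const c))
    · filter_upwards [eventually_ge_atTop (0 : ℝ)] with L hL
      refine ae_of_all _ fun z => ?_
      rw [Real.norm_eq_abs, abs_of_nonneg (fqL_sub_nonneg L b k (z - c))]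
      refine (fqL_sub_le hb hL).trans (le_of_eq ?_)
      ring
    · refine ae_of_all _ fun z => ?_
      refine tendsto_const_nhds.congr' ?_
      filter_upwards [eventually_ge_atTop (-(fq b k (z - c)))] with L hL
      unfold fqL
      rw [max_eq_left (by linarith)]
      ring
  simpa using key

end

end Crest.Agent.R146.DTail_649
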