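import Crest.Agent.R146.P34_734

/-!
Row 146: node `P34_734.DTAIL` (the truncation error of the quadratic penalty potential tends to
zero).  helper930.
-/

set_option autoImplicit false

open MeasureTheory ProbabilityTheory Filter
open scoped Topology
open Crest.Agent.R146.P34_734

namespace Crest.Agent.R146.DTail_930

lemma fq_nonpos {b : ℝ} (hb : 0 < b) (k x : ℝ) : fq b k x ≤ 0 := by
  unfold fq
  have : 0 ≤ b / 2 * max (k - x) 0 ^ 2 := by positivity
  linarith

lemma continuous_fq (b k : ℝ) : Continuous (fq b k) := by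
  unfold fq
  fun_prop

lemma continuous_fqL (L b k : ℝ) : Continuous (fqL L b k) := by
  unfold fqL
  exact (continuous_fq b k).max continuous_const

lemma abs_fq_le {b : ℝ} (hb : 0 < b) (k c z : ℝ) :
    |fq b k (z - c)| ≤ b * (k + c) ^ 2 + b * z ^ 2 := by
  rw [abs_of_nonpos (fq_nonpos hb _ _)]
  unfold fq
  have h1 : max (k - (z - c)) 0 ^ 2 ≤ ((k + c) - z) ^ 2 := by
    rcases le_total (k - (z - c)) 0 with h | h
    · rw [max_eq_right h]
      have := sq_nonneg ((k + c) - z)
      simpa using this
    · rw [max_eq_left h]; exact le_of_eq (by ring)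
  have h2 : ((k + c) - z) ^ 2 ≤ 2 * (k + c) ^ 2 + 2 * z ^ 2 := by
    nlinarith [sq_nonneg ((k + c) + z)]
  nlinarith

lemma abs_diff_le {b L : ℝ} (hb : 0 < b) (hL : 0 ≤ L) (k x : ℝ) :
    |fqL L b k x - fq b k x| ≤ |fq b k x| := by
  have h0 := fq_nonpos hb k x
  unfold fqL
  rcases le_total (fq b k x) (-L) with h | h
  · rw [max_eq_right h, abs_of_nonneg (by linarith), abs_of_nonpos h0]
    linarith
  · rw [max_eq_left h, sub_self, abs_zero]
    exact abs_nonneg _

theorem dtail : P34_734.DTAIL := by
  intro b k c hb
  have hint : Integrable (fun z : ℝ => b * (k + c) ^ 2 + b * z ^ 2) (gaussianReal 0 1) := by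
    refine (integrable_const _).add (Integrable.const_mul ?_ b)
    have := (memLp_id_gaussianReal (μ := 0) (v := 1) 2).integrable_sq
    simpa using this
  have hlim : Tendsto (fun L : ℝ => ∫ z, (fqL L b k (z - c) - fq b k (z - c)) ∂(gaussianReal 0 1))
      atTop (𝓝 (∫ _z : ℝ, (0 : ℝ) ∂(gaussianReal 0 1))) := by
    refine tendsto_integral_filter_of_dominated_convergence
      (fun z : ℝ => b * (k + c) ^ 2 + b * z ^ 2) ?_ ?_ hint ?_
    · refine Eventually.of_forall fun L => ?_
      have h1 : Continuous fun z : ℝ => fqL L b k (z - c) - fq b k (z - c) :=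
        ((continuous_fqL L b k).comp (by fun_prop)).sub ((continuous_fq b k).comp (by fun_prop))
      exact h1.aestronglyMeasurable
    · filter_upwards [eventually_ge_atTop (0 : ℝ)] with L hL
      refine Eventually.of_forall fun z => ?_
      rw [Real.norm_eq_abs]
      exact (abs_diff_le hb hL k (z - c)).trans (abs_fq_le hb k c z)
    · refine Eventually.of_forall fun z => ?_
      refine tendsto_const_nhds.congr' ?_
      filter_upwards [eventually_ge_atTop (-(fq b k (z - c)))] with L hL
      have : -L ≤ fq b k (z - c) := by linarith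
      unfold fqL
      rw [max_eq_left this, sub_self]
  simpa using hlim

end Crest.Agent.R146.DTail_930
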