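import Crest.Agent.R146.DZero_106

/-!
Row 146, node DZERO (helper106), part 2: at the jamming minimiser `D(1-) = 0`.

`J0 P F W α lam m d` is the jamming functional, `D(t) = d + ∫_t^1 m`.  Hypothesis `HJ`: `J0 ≥ 0` for
the time-dilated Brownian motions `W'(t) = W(at)/√a`, `F'(t) = F(at)`, `0 < a ≤ 1`.
Conclusion: `d = 0`, and `m` is not eventually constant at `1`.
-/

open MeasureTheory ProbabilityTheory Set Filter Topology
open scoped NNReal ENNReal

namespace Crest.Agent.R146.DZero_106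

set_option linter.unusedSectionVars false

variable {Ω : Type*} {mΩ : MeasurableSpace Ω}

/-- `W` is a Brownian motion on `[0,1]` for `F`. -/
structure Brown (P : Measure Ω) (F : ℝ → MeasurableSpace Ω) (W : ℝ → Ω → ℝ) : Prop where
  le : ∀ t ∈ Icc (0 : ℝ) 1, F t ≤ mΩ
  mono : ∀ s t, 0 ≤ s → s ≤ t → t ≤ 1 → F s ≤ F t
  meas : ∀ t ∈ Icc (0 : ℝ) 1, Measurable[F t] (W t)
  zero : ∀ᵐ ω ∂P, W 0 ω = 0
  indep : ∀ s t, 0 ≤ s → s ≤ t → t ≤ 1 →
    Indep (F s) (MeasurableSpace.comap (fun ω => W t ω - W s ω) inferInstance) P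
  law : ∀ s t, 0 ≤ s → s ≤ t → t ≤ 1 →
    P.map (fun ω => W t ω - W s ω) = gaussianReal 0 (Real.toNNReal (t - s))

/-- `D(t) = d + ∫_t^1 m`. -/
noncomputable def DD (m : ℝ → ℝ) (d t : ℝ) : ℝ := d + ∫ s in t..1, m s

/-- Admissible profiles. -/
structure Adm (m : ℝ → ℝ) (d : ℝ) : Prop where
  nonneg : ∀ t ∈ Ioo (0 : ℝ) 1, 0 ≤ m t
  mono : MonotoneOn m (Ioo 0 1)
  int : IntervalIntegrable m volume 0 1
  d_nonneg : 0 ≤ d
  pos : ∀ t ∈ Ico (0 : ℝ) 1, 0 < DD m d t
  E_int : IntervalIntegrable (fun t => 1 / DD m d t) volume 0 1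

/-- The jamming functional. -/
noncomputable def J0 (P : Measure Ω) (F : ℝ → MeasurableSpace Ω) (W : ℝ → Ω → ℝ) (α : ℝ)
    (lam : Ω → ℝ) (m : ℝ → ℝ) (d : ℝ) : ℝ :=
  α * (∫ ω, lam ω * (1 + W 1 ω) ∂P)
    + α / 2 * ((∫ t in (0 : ℝ)..1, m t * ∫ ω, (P[lam|F t]) ω ^ 2 ∂P) + d * ∫ ω, lam ω ^ 2 ∂P)
    + 1 / 2 * ∫ t in (0 : ℝ)..1, 1 / DD m d t

variable {P : Measure Ω} [IsProbabilityMeasure P] {F : ℝ → MeasurableSpace Ω} {W : ℝ → Ω → ℝ}
  {lam A : Ω → ℝ} {m : ℝ → ℝ} {d α : ℝ}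

lemma Brown.W2 (hB : Brown P F W) {t : ℝ} (ht : t ∈ Icc (0 : ℝ) 1) : MemLp (W t) 2 P := by
  have h1 := hB.law 0 t le_rfl ht.1 ht.2
  have hm : Measurable (fun ω => W t ω - W 0 ω) :=
    ((hB.meas t ht).mono (hB.le t ht) le_rfl).sub
      ((hB.meas 0 ⟨le_rfl, zero_le_one⟩).mono (hB.le 0 ⟨le_rfl, zero_le_one⟩) le_rfl)
  have h2 : MemLp (fun ω => W t ω - W 0 ω) 2 P := by
    have h3 : MemLp (id : ℝ → ℝ) 2 (P.map (fun ω => W t ω - W 0 ω)) := by
      rw [h1]; exact memLp_id_gaussianReal 2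
    exact (memLp_map_measure_iff aestronglyMeasurable_id hm.aemeasurable).1 h3
  refine (memLp_congr_ae ?_).1 h2
  filter_upwards [hB.zero] with ω hω
  rw [hω, sub_zero]

/-- `M(t) = E (E_t lam)²`. -/
noncomputable def MM (P : Measure Ω) (F : ℝ → MeasurableSpace Ω) (lam : Ω → ℝ) (t : ℝ) : ℝ :=
  ∫ ω, (P[lam|F t]) ω ^ 2 ∂P

/-- Pythagoras. -/
lemma rho_sq {t : ℝ} (ht : F t ≤ mΩ) (hlam : MemLp lam 2 P) :
    rho P F lam t ^ 2 = (∫ ω, lam ω ^ 2 ∂P) - MM P F lam t := by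
  have hE : MemLp (P[lam|F t]) 2 P := hlam.condExp (by norm_num)
  have h0 := orth ht hlam hE stronglyMeasurable_condExp
  rw [rho, n2_sq, MM]
  have e : ∀ ω, (lam ω - (P[lam|F t]) ω) ^ 2 = lam ω ^ 2 - (P[lam|F t]) ω ^ 2
      - 2 * ((lam ω - (P[lam|F t]) ω) * (P[lam|F t]) ω) := by
    intro ω; ring
  simp_rw [e]
  have i1 : Integrable (fun ω => lam ω ^ 2) P := hlam.integrable_sq
  have i2 : Integrable (fun ω => (P[lam|F t]) ω ^ 2) P := hE.integrable_sq
  have hl : MemLp (fun ω => lam ω - (P[lam|F t]) ω) 2 P := hlam.sub hE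
  have i3 : Integrable (fun ω => 2 * ((lam ω - (P[lam|F t]) ω) * (P[lam|F t]) ω)) P :=
    (int_mul hl hE).const_mul 2
  have i4 : Integrable (fun ω => lam ω ^ 2 - (P[lam|F t]) ω ^ 2) P := i1.sub i2
  rw [integral_sub i4 i3, integral_sub i1 i2, integral_const_mul, h0]
  ring

lemma MM_nonneg (t : ℝ) : 0 ≤ MM P F lam t := integral_nonneg fun _ => sq_nonneg _

lemma MM_le {t : ℝ} (ht : F t ≤ mΩ) (hlam : MemLp lam 2 P) :
    MM P F lam t ≤ ∫ ω, lam ω ^ 2 ∂P := by
  have := rho_sq (F := F) ht hlam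
  have h2 := sq_nonneg (rho P F lam t)
  linarith

lemma MM_mono (hB : Brown P F W) (hlam : MemLp lam 2 P) {s t : ℝ} (hs : 0 ≤ s) (hst : s ≤ t)
    (ht : t ≤ 1) : MM P F lam s ≤ MM P F lam t := by
  have hles := hB.le s ⟨hs, hst.trans ht⟩
  have hlet := hB.le t ⟨hs.trans hst, ht⟩
  have h1 := rho_sq (F := F) hles hlam
  have h2 := rho_sq (F := F) hlet hlam
  have h3 : rho P F lam t ≤ rho P F lam s :=
    n2_sub_condExp_le hlet hlam (hlam.condExp (by norm_num))
      (stronglyMeasurable_condExp.mono (hB.mono s t hs hst ht))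
  have h4 : rho P F lam t ^ 2 ≤ rho P F lam s ^ 2 := pow_le_pow_left₀ (rho_nonneg _) h3 2
  linarith

lemma mM_int (hB : Brown P F W) (hlam : MemLp lam 2 P) {k : ℝ → ℝ} {a b : ℝ} (ha : 0 ≤ a)
    (hab : a ≤ b) (hb : b ≤ 1) (hk : IntervalIntegrable k volume a b) :
    IntervalIntegrable (fun t => k t * MM P F lam t) volume a b := by
  rw [intervalIntegrable_iff_integrableOn_Icc_of_le hab] at hk ⊢
  have hmono : MonotoneOn (MM P F lam) (Icc a b) := fun s hs t ht hst =>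
    MM_mono hB hlam (ha.trans hs.1) hst (ht.2.trans hb)
  have hM : AEStronglyMeasurable (MM P F lam) (volume.restrict (Icc a b)) :=
    (aemeasurable_restrict_of_monotoneOn measurableSet_Icc hmono).aestronglyMeasurable
  refine Integrable.mul_bdd (c := ∫ ω, lam ω ^ 2 ∂P) hk hM ?_
  refine (ae_restrict_iff' measurableSet_Icc).2 (ae_of_all _ fun t ht => ?_)
  rw [Real.norm_eq_abs, abs_of_nonneg (MM_nonneg t)]
  exact MM_le (hB.le t ⟨ha.trans ht.1, ht.2.trans hb⟩) hlam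

lemma Adm.ge (h : Adm m d) {t : ℝ} (ht : t ∈ Icc (0 : ℝ) 1) : d ≤ DD m d t := by
  have : 0 ≤ ∫ s in t..1, m s := by
    rw [intervalIntegral.integral_of_le ht.2, integral_Ioc_eq_integral_Ioo]
    refine setIntegral_nonneg measurableSet_Ioo fun s hs => ?_
    exact h.nonneg s ⟨ht.1.trans_lt hs.1, hs.2⟩
  rw [DD]; linarith

lemma DD_cont (hm : IntervalIntegrable m volume 0 1) : ContinuousOn (DD m d) (Icc 0 1) := by
  have h1 : IntegrableOn m (uIcc (0 : ℝ) 1) := by
    rw [intervalIntegrable_iff_integrableOn_Icc_of_le zero_le_one] at hm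
    rwa [uIcc_of_le zero_le_one]
  have h2 := intervalIntegral.continuousOn_primitive_interval_left h1
  rw [uIcc_of_le zero_le_one] at h2
  exact continuousOn_const.add h2

lemma int_ind {r t : ℝ} (hr : r ∈ Icc (0 : ℝ) 1) (ht : t ∈ Icc (0 : ℝ) 1) :
    ∫ s in t..1, (Ioi r).indicator (fun _ => (1 : ℝ)) s = 1 - max t r := by
  rw [intervalIntegral.integral_of_le ht.2, setIntegral_indicator measurableSet_Ioi]
  have : Ioc t 1 ∩ Ioi r = Ioc (max t r) 1 := by
    ext s
    simp only [mem_inter_iff, mem_Ioc, mem_Ioi, max_lt_iff]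
    tauto
  rw [this, setIntegral_const, measureReal_def, Real.volume_Ioc, smul_eq_mul, mul_one,
    ENNReal.toReal_ofReal]
  have := max_le ht.2 hr.2
  linarith

lemma ind_int (r : ℝ) (a b : ℝ) :
    IntervalIntegrable ((Ioi r).indicator (fun _ => (1 : ℝ))) volume a b := by
  have : MonotoneOn ((Ioi r).indicator (fun _ => (1 : ℝ))) (uIcc a b) := by
    intro s _ t _ hst
    by_cases hs : s ∈ Ioi r
    · have ht : t ∈ Ioi r := lt_of_lt_of_le hs hst
      rw [indicator_of_mem hs, indicator_of_mem ht]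
    · rw [indicator_of_notMem hs]
      exact indicator_nonneg (fun _ _ => zero_le_one) t
  exact this.intervalIntegrable

/-- The perturbed profile `D - d (t-r)_+`. -/
lemma DD_pert (hm : IntervalIntegrable m volume 0 1) {r t : ℝ} (hr : r ∈ Icc (0 : ℝ) 1)
    (ht : t ∈ Icc (0 : ℝ) 1) :
    DD (fun s => m s + d * (Ioi r).indicator (fun _ => (1 : ℝ)) s) (d * r) t
      = DD m d t - d * max (t - r) 0 := by
  have hmt : IntervalIntegrable m volume t 1 :=
    hm.mono_set (by rw [uIcc_of_le ht.2, uIcc_of_le zero_le_one]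
                    exact Icc_subset_Icc_left ht.1)
  rw [DD, DD, intervalIntegral.integral_add hmt ((ind_int r t 1).const_mul d),
    intervalIntegral.integral_const_mul, int_ind hr ht]
  rcases le_total t r with h | h
  · rw [max_eq_right h, max_eq_right (by linarith : t - r ≤ 0)]; ring
  · rw [max_eq_left h, max_eq_left (by linarith : 0 ≤ t - r)]; ring

lemma Adm.pert (h : Adm m d) (hd : 0 < d) {r : ℝ} (hr : r ∈ Ioo (0 : ℝ) 1) :
    Adm (fun s => m s + d * (Ioi r).indicator (fun _ => (1 : ℝ)) s) (d * r) := by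
  have hr' : r ∈ Icc (0 : ℝ) 1 := ⟨hr.1.le, hr.2.le⟩
  have hpos : ∀ t ∈ Icc (0 : ℝ) 1, d * r
      ≤ DD (fun s => m s + d * (Ioi r).indicator (fun _ => (1 : ℝ)) s) (d * r) t := by
    intro t ht
    rw [DD_pert h.int hr' ht]
    have h1 := h.ge ht
    have h2 : max (t - r) 0 ≤ 1 - r := max_le (by linarith [ht.2]) (by linarith [hr.2])
    nlinarith
  have hint : IntervalIntegrable (fun s => m s + d * (Ioi r).indicator (fun _ => (1 : ℝ)) s)
      volume 0 1 := h.int.add ((ind_int r 0 1).const_mul d)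
  refine ⟨?_, ?_, hint, by nlinarith [hr.1], ?_, ?_⟩
  · intro t ht
    have h1 := h.nonneg t ht
    have h2 : 0 ≤ (Ioi r).indicator (fun _ => (1 : ℝ)) t :=
      indicator_nonneg (fun _ _ => zero_le_one) t
    positivity
  · intro s hs t ht hst
    have h1 := h.mono hs ht hst
    have h2 : (Ioi r).indicator (fun _ => (1 : ℝ)) s ≤ (Ioi r).indicator (fun _ => (1 : ℝ)) t := by
      by_cases hs : s ∈ Ioi r
      · have ht : t ∈ Ioi r := lt_of_lt_of_le hs hst
        rw [indicator_of_mem hs, indicator_of_mem ht]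
      · rw [indicator_of_notMem hs]
        exact indicator_nonneg (fun _ _ => zero_le_one) t
    simp only
    gcongr
  · intro t ht
    have := hpos t ⟨ht.1, ht.2.le⟩
    have : 0 < d * r := mul_pos hd hr.1
    linarith
  · apply ContinuousOn.intervalIntegrable
    rw [uIcc_of_le zero_le_one]
    refine continuousOn_const.div (DD_cont hint) fun t ht => ?_
    have := hpos t ht
    have h2 : 0 < d * r := mul_pos hd hr.1
    linarith

lemma int_max {r : ℝ} (hr : r ∈ Ioo (0 : ℝ) 1) (c : ℝ) :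
    ∫ t in (0 : ℝ)..1, max (t - r) 0 / c = (1 - r) ^ 2 / (2 * c) := by
  have h1 : ∀ a b : ℝ, IntervalIntegrable (fun t : ℝ => max (t - r) 0 / c) volume a b := by
    intro a b
    apply Continuous.intervalIntegrable
    fun_prop
  rw [← intervalIntegral.integral_add_adjacent_intervals (h1 0 r) (h1 r 1)]
  have h2 : ∫ t in (0 : ℝ)..r, max (t - r) 0 / c = 0 := by
    rw [intervalIntegral.integral_congr (g := fun _ => (0 : ℝ))]
    · simp
    · intro t ht
      rw [uIcc_of_le hr.1.le] at ht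
      simp only
      rw [max_eq_right (by linarith [ht.2]), zero_div]
  have h3 : ∫ t in r..1, max (t - r) 0 / c = ∫ t in r..1, (t - r) / c := by
    refine intervalIntegral.integral_congr ?_
    intro t ht
    rw [uIcc_of_le hr.2.le] at ht
    simp only
    rw [max_eq_left (by linarith [ht.1])]
  rw [h2, h3, zero_add, intervalIntegral.integral_div, intervalIntegral.integral_sub (by simp)
    (by simp), integral_id, intervalIntegral.integral_const, smul_eq_mul]
  have : (1 ^ 2 - r ^ 2) / 2 - (1 - r) * r = (1 - r) ^ 2 / 2 := by ring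
  rw [this]
  rw [div_div]

/-- Inequality (1) from the minimality in `D`. -/
lemma hU_of (hB : Brown P F W) (hlam : MemLp lam 2 P) (hA : Adm m d) (hd : 0 < d)
    (h0 : J0 P F W α lam m d ≤ 0)
    (hJ : ∀ m' d', Adm m' d' → 0 ≤ J0 P F W α lam m' d') {r : ℝ} (hr : r ∈ Ioo (0 : ℝ) 1) :
    α * ∫ t in r..1, rho P F lam t ^ 2 ≤ (1 - r) ^ 2 / (2 * d ^ 2 * r) := by
  have hr' : r ∈ Icc (0 : ℝ) 1 := ⟨hr.1.le, hr.2.le⟩
  have hpert := hA.pert hd hr
  have h1 := hJ _ _ hpert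
  set m' : ℝ → ℝ := fun s => m s + d * (Ioi r).indicator (fun _ => (1 : ℝ)) s with hm'
  set L2 := ∫ ω, lam ω ^ 2 ∂P with hL2
  -- the quadratic part
  have e1 : ∫ t in (0 : ℝ)..1, m' t * ∫ ω, (P[lam|F t]) ω ^ 2 ∂P
      = (∫ t in (0 : ℝ)..1, m t * ∫ ω, (P[lam|F t]) ω ^ 2 ∂P)
        + d * ∫ t in r..1, MM P F lam t := by
    have i1 := mM_int hB hlam le_rfl zero_le_one le_rfl hA.int
    have i2 := mM_int hB hlam le_rfl zero_le_one le_rfl (ind_int r 0 1)
    have e2 : ∀ t, m' t * ∫ ω, (P[lam|F t]) ω ^ 2 ∂P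
        = m t * MM P F lam t + d * ((Ioi r).indicator (fun _ => (1 : ℝ)) t * MM P F lam t) := by
      intro t
      simp only [hm', MM]
      ring
    simp_rw [e2]
    rw [intervalIntegral.integral_add i1 (i2.const_mul d), intervalIntegral.integral_const_mul]
    congr 2
    rw [intervalIntegral.integral_of_le zero_le_one, intervalIntegral.integral_of_le hr.2.le]
    have e3 : ∀ t, (Ioi r).indicator (fun _ => (1 : ℝ)) t * MM P F lam t
        = (Ioi r).indicator (MM P F lam) t := by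
      intro t
      by_cases ht : t ∈ Ioi r
      · rw [indicator_of_mem ht, indicator_of_mem ht, one_mul]
      · rw [indicator_of_notMem ht, indicator_of_notMem ht, zero_mul]
    simp_rw [e3]
    rw [setIntegral_indicator measurableSet_Ioi]
    congr 2
    ext s
    simp only [mem_inter_iff, mem_Ioc, mem_Ioi]
    constructor
    · rintro ⟨⟨_, h2⟩, h3⟩; exact ⟨h3, h2⟩
    · rintro ⟨h2, h3⟩; exact ⟨⟨hr.1.trans h2, h3⟩, h2⟩
  -- the entropy part
  have e4 : ∫ t in (0 : ℝ)..1, 1 / DD m' (d * r) t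
      ≤ (∫ t in (0 : ℝ)..1, 1 / DD m d t) + (1 - r) ^ 2 / (2 * (d * r)) := by
    rw [← int_max hr (d * r), ← intervalIntegral.integral_add hA.E_int
      (by apply Continuous.intervalIntegrable; fun_prop)]
    refine intervalIntegral.integral_mono_on zero_le_one hpert.E_int
      (hA.E_int.add (by apply Continuous.intervalIntegrable; fun_prop)) ?_
    intro t ht
    have k1 := hA.ge ht
    have k2 := hpert.ge ht
    have k3 := DD_pert (d := d) hA.int hr' ht
    rw [← hm'] at k3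
    have hdr : 0 < d * r := mul_pos hd hr.1
    have hD : 0 < DD m d t := by linarith
    have hD' : 0 < DD m' (d * r) t := by linarith
    have k4 : 0 ≤ max (t - r) 0 := le_max_right _ _
    rw [div_add_div _ _ hD.ne' hdr.ne', div_le_div_iff₀ hD' (by positivity)]
    rw [k3] at k2 hD' ⊢
    nlinarith [mul_nonneg (mul_nonneg hdr.le k4) (sub_nonneg.2 k1),
      mul_nonneg (mul_nonneg k4 hD.le) (sub_nonneg.2 k2)]
  -- rho
  have e5 : ∫ t in r..1, rho P F lam t ^ 2 = (1 - r) * L2 - ∫ t in r..1, MM P F lam t := by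
    have i1 : IntervalIntegrable (MM P F lam) volume r 1 := by
      have := mM_int hB hlam hr.1.le hr.2.le le_rfl
        (intervalIntegrable_const (c := (1 : ℝ)) (μ := volume) (a := r) (b := 1))
      simpa using this
    have e6 : ∫ t in r..1, rho P F lam t ^ 2 = ∫ t in r..1, (L2 - MM P F lam t) := by
      refine intervalIntegral.integral_congr ?_
      intro t ht
      rw [uIcc_of_le hr.2.le] at ht
      exact rho_sq (hB.le t ⟨hr.1.le.trans ht.1, ht.2⟩) hlam
    rw [e6, intervalIntegral.integral_sub (by simp) i1, intervalIntegral.integral_const,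
      smul_eq_mul]
  rw [J0, e1] at h1
  rw [J0] at h0
  have h2 : α * d * ∫ t in r..1, rho P F lam t ^ 2 ≤ (1 - r) ^ 2 / (2 * (d * r)) := by
    rw [e5]
    rw [← hL2] at h0 h1
    nlinarith
  have h3 : (1 - r) ^ 2 / (2 * d ^ 2 * r) = ((1 - r) ^ 2 / (2 * (d * r))) / d := by
    have := hr.1
    field_simp
  rw [h3, le_div_iff₀ hd]
  linarith

/-! ### The time-dilated competitor -/

lemma sqrt_facts {a : ℝ} (ha : 0 < a) : 0 < √a ∧ √a * √a = a ∧ √a * a⁻¹ = 1 / √a := by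
  have h1 : 0 < √a := Real.sqrt_pos.2 ha
  have h2 : √a * √a = a := Real.mul_self_sqrt ha.le
  refine ⟨h1, h2, ?_⟩
  rw [eq_div_iff h1.ne']
  calc √a * a⁻¹ * √a = (√a * √a) * a⁻¹ := by ring
    _ = 1 := by rw [h2]; exact mul_inv_cancel₀ ha.ne'

lemma DD_split (hm : IntervalIntegrable m volume 0 1) {t u : ℝ} (ht : 0 ≤ t) (htu : t ≤ u)
    (hu : u ≤ 1) : DD m d t = DD m d u + ∫ s in t..u, m s := by
  have h1 : IntervalIntegrable m volume t u :=
    hm.mono_set (by rw [uIcc_of_le htu, uIcc_of_le zero_le_one]; exact Icc_subset_Icc ht hu)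
  have h2 : IntervalIntegrable m volume u 1 :=
    hm.mono_set (by rw [uIcc_of_le hu, uIcc_of_le zero_le_one]
                    exact Icc_subset_Icc_left (ht.trans htu))
  rw [DD, DD, ← intervalIntegral.integral_add_adjacent_intervals h1 h2]
  ring

lemma DD_dil (hm : IntervalIntegrable m volume 0 1) {a : ℝ} (ha : a ∈ Ioc (0 : ℝ) 1) {s : ℝ}
    (hs : s ∈ Icc (0 : ℝ) 1) :
    DD (fun u => √a * m (a * u)) (DD m d a / √a) s = DD m d (a * s) / √a := by
  obtain ⟨h1, h2, h3⟩ := sqrt_facts ha.1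
  have h4 : a * s ≤ a := by nlinarith [hs.2, ha.1]
  have h5 : 0 ≤ a * s := mul_nonneg ha.1.le hs.1
  rw [DD_split hm h5 h4 ha.2]
  rw [DD, intervalIntegral.integral_const_mul,
    intervalIntegral.integral_comp_mul_left _ ha.1.ne', smul_eq_mul, mul_one, ← mul_assoc, h3]
  ring

lemma comp_int {f : ℝ → ℝ} (hf : IntervalIntegrable f volume 0 1) {a : ℝ}
    (ha : a ∈ Ioc (0 : ℝ) 1) : IntervalIntegrable (fun u => f (a * u)) volume 0 1 := by
  have h1 : IntervalIntegrable f volume 0 a :=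
    hf.mono_set (by rw [uIcc_of_le ha.1.le, uIcc_of_le zero_le_one]
                    exact Icc_subset_Icc_right ha.2)
  have h2 := h1.comp_mul_left (c := a)
  rwa [zero_div, div_self ha.1.ne'] at h2

lemma Adm.dil (h : Adm m d) {a : ℝ} (ha : a ∈ Ioo (0 : ℝ) 1) :
    Adm (fun u => √a * m (a * u)) (DD m d a / √a) := by
  have ha' : a ∈ Ioc (0 : ℝ) 1 := ⟨ha.1, ha.2.le⟩
  obtain ⟨h1, h2, h3⟩ := sqrt_facts ha.1
  have hmem : ∀ t ∈ Ioo (0 : ℝ) 1, a * t ∈ Ioo (0 : ℝ) 1 := fun t ht =>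
    ⟨mul_pos ha.1 ht.1, by nlinarith [ht.2, ha.1, ha.2, ht.1]⟩
  have hmem' : ∀ t ∈ Icc (0 : ℝ) 1, a * t ∈ Ico (0 : ℝ) 1 := fun t ht =>
    ⟨mul_nonneg ha.1.le ht.1, by nlinarith [ht.2, ha.1, ha.2, ht.1]⟩
  refine ⟨?_, ?_, ?_, ?_, ?_, ?_⟩
  · intro t ht
    exact mul_nonneg h1.le (h.nonneg _ (hmem t ht))
  · intro s hs t ht hst
    have h4 : a * s ≤ a * t := by gcongr; exact ha.1.le
    have := h.mono (hmem s hs) (hmem t ht) h4
    exact mul_le_mul_of_nonneg_left this h1.le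
  · exact (comp_int h.int ha').const_mul _
  · exact (div_pos (h.pos a ⟨ha.1.le, ha.2⟩) h1).le
  · intro t ht
    rw [DD_dil h.int ha' ⟨ht.1, ht.2.le⟩]
    exact div_pos (h.pos _ (hmem' t ⟨ht.1, ht.2.le⟩)) h1
  · have h5 := (comp_int h.E_int ha').const_mul (√a)
    refine h5.congr ?_
    intro t ht
    rw [uIoc_of_le zero_le_one] at ht
    have ht' : t ∈ Icc (0 : ℝ) 1 := ⟨ht.1.le, ht.2⟩
    simp only
    rw [DD_dil h.int ha' ht']
    have := h.pos _ (hmem' t ht')
    field_simp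

/-- Inequality (2) from the time-dilated competitor. -/
lemma hL_of (hB : Brown P F W) (hlam : MemLp lam 2 P) (hA : Adm m d) (hα : 0 < α)
    (h0 : J0 P F W α lam m d ≤ 0) {a : ℝ} (ha : a ∈ Ioo (0 : ℝ) 1)
    (hJ : 0 ≤ J0 P (fun s => F (a * s)) (fun s ω => W (a * s) ω / √a) α (P[lam|F a])
      (fun u => √a * m (a * u)) (DD m d a / √a)) :
    α / 2 * d * rho P F lam a ^ 2 + (1 - a) / (2 * (d + ∫ s in a..1, m s))
        + (1 - √a) * (α * ∫ ω, lam ω ∂P) ≤ -(α * ∫ ω, lam ω * (W 1 ω - W a ω) ∂P) := by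
  have ha' : a ∈ Ioc (0 : ℝ) 1 := ⟨ha.1, ha.2.le⟩
  have haI : a ∈ Icc (0 : ℝ) 1 := ⟨ha.1.le, ha.2.le⟩
  obtain ⟨h1, h2, h3⟩ := sqrt_facts ha.1
  have hFa := hB.le a haI
  have hE : MemLp (P[lam|F a]) 2 P := hlam.condExp (by norm_num)
  have hWa : MemLp (W a) 2 P := hB.W2 haI
  have hW1 : MemLp (W 1) 2 P := hB.W2 ⟨zero_le_one, le_rfl⟩
  have hlamI : Integrable lam P := hlam.integrable (by norm_num)
  -- linear part
  have hlin : √a * (∫ ω, (P[lam|F a]) ω * (1 + W (a * 1) ω / √a) ∂P)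
      = √a * (∫ ω, lam ω ∂P) + ∫ ω, lam ω * W a ω ∂P := by
    have hEI : Integrable (P[lam|F a]) P := integrable_condExp
    have e1 : ∀ ω, (P[lam|F a]) ω * (1 + W (a * 1) ω / √a)
        = (P[lam|F a]) ω + (1 / √a) * ((P[lam|F a]) ω * W a ω) := by
      intro ω; rw [mul_one]; field_simp
    simp_rw [e1]
    rw [integral_add hEI ((int_mul hE hWa).const_mul _), integral_const_mul,
      integral_condExp hFa]
    have e2 : ∫ ω, (P[lam|F a]) ω * W a ω ∂P = ∫ ω, lam ω * W a ω ∂P := by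
      have h4 := orth hFa hlam hWa (hB.meas a haI).stronglyMeasurable
      have e3 : ∀ ω, (lam ω - (P[lam|F a]) ω) * W a ω
          = lam ω * W a ω - (P[lam|F a]) ω * W a ω := fun ω => by ring
      simp_rw [e3] at h4
      rw [integral_sub (int_mul hlam hWa) (int_mul hE hWa)] at h4
      linarith
    rw [e2]
    field_simp
  -- quadratic part
  have hquad : √a * (∫ s in (0 : ℝ)..1, √a * m (a * s)
        * ∫ ω, (P[P[lam|F a]|F (a * s)]) ω ^ 2 ∂P)
      = ∫ s in (0 : ℝ)..a, m s * MM P F lam s := by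
    have e1 : ∫ s in (0 : ℝ)..1, √a * m (a * s) * ∫ ω, (P[P[lam|F a]|F (a * s)]) ω ^ 2 ∂P
        = ∫ s in (0 : ℝ)..1, √a * (m (a * s) * MM P F lam (a * s)) := by
      refine intervalIntegral.integral_congr ?_
      intro s hs
      rw [uIcc_of_le zero_le_one] at hs
      have h4 : a * s ≤ a := by nlinarith [hs.2, ha.1]
      have h5 : 0 ≤ a * s := mul_nonneg ha.1.le hs.1
      have h6 : P[P[lam|F a]|F (a * s)] =ᵐ[P] P[lam|F (a * s)] :=
        condExp_condExp_of_le (hB.mono _ _ h5 h4 ha.2.le) hFa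
      have h7 : ∫ ω, (P[P[lam|F a]|F (a * s)]) ω ^ 2 ∂P = MM P F lam (a * s) := by
        rw [MM]
        refine integral_congr_ae ?_
        filter_upwards [h6] with ω hω
        rw [hω]
      simp only
      rw [h7]; ring
    rw [e1, intervalIntegral.integral_const_mul,
      intervalIntegral.integral_comp_mul_left (fun s => m s * MM P F lam s) ha.1.ne', smul_eq_mul,
      mul_zero, mul_one]
    calc √a * (√a * (a⁻¹ * ∫ s in (0 : ℝ)..a, m s * MM P F lam s))
        = (√a * √a) * a⁻¹ * ∫ s in (0 : ℝ)..a, m s * MM P F lam s := by ring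
      _ = _ := by rw [h2, mul_inv_cancel₀ ha.1.ne', one_mul]
  -- entropy part
  have hent : √a * (∫ s in (0 : ℝ)..1, 1 / DD (fun u => √a * m (a * u)) (DD m d a / √a) s)
      = ∫ s in (0 : ℝ)..a, 1 / DD m d s := by
    have e1 : ∫ s in (0 : ℝ)..1, 1 / DD (fun u => √a * m (a * u)) (DD m d a / √a) s
        = ∫ s in (0 : ℝ)..1, √a * (1 / DD m d (a * s)) := by
      refine intervalIntegral.integral_congr ?_
      intro s hs
      rw [uIcc_of_le zero_le_one] at hs
      simp only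
      rw [DD_dil hA.int ha' hs]
      have h5 : 0 < DD m d (a * s) := hA.pos _ ⟨mul_nonneg ha.1.le hs.1, by
        nlinarith [hs.2, ha.1, ha.2, hs.1]⟩
      field_simp
    rw [e1, intervalIntegral.integral_const_mul,
      intervalIntegral.integral_comp_mul_left (fun s => 1 / DD m d s) ha.1.ne', smul_eq_mul,
      mul_zero, mul_one]
    calc √a * (√a * (a⁻¹ * ∫ s in (0 : ℝ)..a, 1 / DD m d s))
        = (√a * √a) * a⁻¹ * ∫ s in (0 : ℝ)..a, 1 / DD m d s := by ring
      _ = _ := by rw [h2, mul_inv_cancel₀ ha.1.ne', one_mul]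
  have hJ2 : 0 ≤ α * (√a * (∫ ω, lam ω ∂P) + ∫ ω, lam ω * W a ω ∂P)
      + α / 2 * ((∫ s in (0 : ℝ)..a, m s * MM P F lam s) + DD m d a * MM P F lam a)
      + 1 / 2 * ∫ s in (0 : ℝ)..a, 1 / DD m d s := by
    have h4 := mul_nonneg h1.le hJ
    rw [J0] at h4
    have e1 : √a * (α * (∫ ω, (P[lam|F a]) ω * (1 + W (a * 1) ω / √a) ∂P)
        + α / 2 * ((∫ s in (0 : ℝ)..1, √a * m (a * s)
          * ∫ ω, (P[P[lam|F a]|F (a * s)]) ω ^ 2 ∂P)
          + DD m d a / √a * ∫ ω, (P[lam|F a]) ω ^ 2 ∂P)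
        + 1 / 2 * ∫ s in (0 : ℝ)..1, 1 / DD (fun u => √a * m (a * u)) (DD m d a / √a) s)
        = α * (√a * (∫ ω, (P[lam|F a]) ω * (1 + W (a * 1) ω / √a) ∂P))
        + α / 2 * ((√a * (∫ s in (0 : ℝ)..1, √a * m (a * s)
          * ∫ ω, (P[P[lam|F a]|F (a * s)]) ω ^ 2 ∂P))
          + DD m d a * ∫ ω, (P[lam|F a]) ω ^ 2 ∂P)
        + 1 / 2 * (√a * ∫ s in (0 : ℝ)..1, 1 / DD (fun u => √a * m (a * u)) (DD m d a / √a) s) := by
      field_simp
    rw [e1, hlin, hquad, hent] at h4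
    exact h4
  -- the original functional
  have i1 := mM_int hB hlam le_rfl ha.1.le ha.2.le (hA.int.mono_set (by
    rw [uIcc_of_le ha.1.le, uIcc_of_le zero_le_one]; exact Icc_subset_Icc_right ha.2.le))
  have hma : IntervalIntegrable m volume a 1 := hA.int.mono_set (by
    rw [uIcc_of_le ha.2.le, uIcc_of_le zero_le_one]; exact Icc_subset_Icc_left ha.1.le)
  have i2 := mM_int hB hlam ha.1.le ha.2.le le_rfl hma
  have j1 : IntervalIntegrable (fun s => 1 / DD m d s) volume 0 a := hA.E_int.mono_set (by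
    rw [uIcc_of_le ha.1.le, uIcc_of_le zero_le_one]; exact Icc_subset_Icc_right ha.2.le)
  have j2 : IntervalIntegrable (fun s => 1 / DD m d s) volume a 1 := hA.E_int.mono_set (by
    rw [uIcc_of_le ha.2.le, uIcc_of_le zero_le_one]; exact Icc_subset_Icc_left ha.1.le)
  have hJ1 : α * ((∫ ω, lam ω ∂P) + ∫ ω, lam ω * W 1 ω ∂P)
      + α / 2 * (((∫ s in (0 : ℝ)..a, m s * MM P F lam s) + ∫ s in a..1, m s * MM P F lam s)
        + d * ∫ ω, lam ω ^ 2 ∂P)
      + 1 / 2 * ((∫ s in (0 : ℝ)..a, 1 / DD m d s) + ∫ s in a..1, 1 / DD m d s) ≤ 0 := by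
    rw [J0] at h0
    rw [intervalIntegral.integral_add_adjacent_intervals i1 i2,
      intervalIntegral.integral_add_adjacent_intervals j1 j2]
    have e1 : ∫ ω, lam ω * (1 + W 1 ω) ∂P = (∫ ω, lam ω ∂P) + ∫ ω, lam ω * W 1 ω ∂P := by
      rw [← integral_add hlamI (int_mul hlam hW1)]
      refine integral_congr_ae (ae_of_all _ fun ω => ?_)
      simp only; ring
    rw [e1] at h0
    exact h0
  -- estimates on [a,1]
  have k1 : MM P F lam a * (∫ s in a..1, m s) ≤ ∫ s in a..1, m s * MM P F lam s := by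
    rw [mul_comm, ← intervalIntegral.integral_mul_const]
    refine intervalIntegral.integral_mono_on_of_le_Ioo ha.2.le (hma.mul_const _) i2 ?_
    intro s hs
    have h4 := MM_mono hB hlam ha.1.le hs.1.le hs.2.le
    have h5 := hA.nonneg s ⟨ha.1.trans hs.1, hs.2⟩
    gcongr
  have hDa : 0 < DD m d a := hA.pos a ⟨ha.1.le, ha.2⟩
  have k2 : (1 - a) / DD m d a ≤ ∫ s in a..1, 1 / DD m d s := by
    have e1 : (1 - a) / DD m d a = ∫ s in a..1, 1 / DD m d a := by
      rw [intervalIntegral.integral_const, smul_eq_mul]; ring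
    rw [e1]
    refine intervalIntegral.integral_mono_on_of_le_Ioo ha.2.le (by simp) j2 ?_
    intro s hs
    have h4 : 0 < DD m d s := hA.pos s ⟨(ha.1.trans hs.1).le, hs.2⟩
    have h5 : DD m d s ≤ DD m d a := by
      rw [DD_split (d := d) hA.int ha.1.le hs.1.le hs.2.le]
      have : 0 ≤ ∫ u in a..s, m u := by
        rw [intervalIntegral.integral_of_le hs.1.le, integral_Ioc_eq_integral_Ioo]
        refine setIntegral_nonneg measurableSet_Ioo fun u hu => ?_
        exact hA.nonneg u ⟨ha.1.trans hu.1, hu.2.trans hs.2⟩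
      linarith
    exact one_div_le_one_div_of_le h4 h5
  have k3 := rho_sq (F := F) hFa hlam
  have k4 : ∫ ω, lam ω * (W 1 ω - W a ω) ∂P
      = (∫ ω, lam ω * W 1 ω ∂P) - ∫ ω, lam ω * W a ω ∂P := by
    rw [← integral_sub (int_mul hlam hW1) (int_mul hlam hWa)]
    refine integral_congr_ae (ae_of_all _ fun ω => ?_)
    simp only; ring
  have hDD : DD m d a = d + ∫ s in a..1, m s := rfl
  have k5 : (1 - a) / (2 * (d + ∫ s in a..1, m s)) = (1 / 2) * ((1 - a) / DD m d a) := by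
    rw [← hDD]; field_simp
  rw [k5, k3, k4]
  have k6 : α / 2 * (MM P F lam a * (∫ s in a..1, m s))
      ≤ α / 2 * ∫ s in a..1, m s * MM P F lam s := by gcongr
  rw [hDD] at hJ2
  rw [hDD] at k2
  rw [hDD]
  nlinarith

/-- **D(1-) = 0 at jamming.** `x = 1 + W_1 + A`, `A = ∫ m E_s lam` in the weak sense,
`h = x + d lam`, complementarity `h ≥ 0`, `lam h = 0`.  `HJ`: the functional is nonnegative for the
time-dilated Brownian motions (`a = 1` is the original one). -/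
theorem dzero (hα : 0 < α) (hB : Brown P F W) (hlam : MemLp lam 2 P) (hlam0 : 0 ≤ᵐ[P] lam)
    (hlamF : StronglyMeasurable[F 1] lam) (hA : Adm m d)
    (h0 : J0 P F W α lam m d ≤ 0)
    (HJ : ∀ a ∈ Ioc (0 : ℝ) 1, ∀ lam' : Ω → ℝ, MemLp lam' 2 P → 0 ≤ᵐ[P] lam' →
      StronglyMeasurable[F a] lam' → ∀ m' d', Adm m' d' →
      0 ≤ J0 P (fun s => F (a * s)) (fun s ω => W (a * s) ω / √a) α lam' m' d')
    (hA2 : MemLp A 2 P)
    (hAw : ∀ ψ : Ω → ℝ, MemLp ψ 2 P → ∫ ω, ψ ω * A ω ∂P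
      = ∫ s in (0 : ℝ)..1, m s * ∫ ω, ψ ω * (P[lam|F s]) ω ∂P)
    (hh : ∀ᵐ ω ∂P, 0 ≤ 1 + W 1 ω + A ω + d * lam ω)
    (hc : ∀ᵐ ω ∂P, lam ω * (1 + W 1 ω + A ω + d * lam ω) = 0)
    (hE : 0 < ∫ ω, lam ω ∂P) : d = 0 := by
  by_contra hd0
  have hd : 0 < d := lt_of_le_of_ne hA.d_nonneg (Ne.symm hd0)
  have hcore : Core P F W lam A m d := by
    refine ⟨hB.le, hB.mono, hB.meas, fun t ht => hB.W2 ht, ?_, ?_, hlam, hA2, hA.nonneg, hA.int,
      hAw, hd, ?_⟩
    · intro t ht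
      exact hB.indep t 1 ht.1 ht.2.le le_rfl
    · intro t ht
      exact hB.law t 1 ht.1 ht.2.le le_rfl
    · filter_upwards [hlam0, hh, hc] with ω h1 h2 h3
      have h1' : 0 ≤ lam ω := h1
      rcases h1'.eq_or_lt with h4 | h4
      · rw [← h4] at h2 ⊢
        rw [mul_zero, add_zero] at h2
        rw [max_eq_right (by linarith), zero_div]
      · have h5 : 1 + W 1 ω + A ω + d * lam ω = 0 := by
          rcases mul_eq_zero.1 h3 with h6 | h6
          · exact absurd h6 h4.ne'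
          · exact h6
        have h6 : -(1 + W 1 ω + A ω) = d * lam ω := by linarith
        rw [h6, max_eq_left (by positivity)]
        field_simp
  have hone : ∀ m' d', Adm m' d' → 0 ≤ J0 P F W α lam m' d' := by
    intro m' d' h1
    have h2 := HJ 1 ⟨one_pos, le_rfl⟩ lam hlam hlam0 hlamF m' d' h1
    simpa using h2
  have hU : ∀ r ∈ Ioo (0 : ℝ) 1,
      α * ∫ t in r..1, rho P F lam t ^ 2 ≤ (1 - r) ^ 2 / (2 * d ^ 2 * r) := fun r hr =>
    hU_of hB hlam hA hd h0 hone hr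
  have hL : ∀ t ∈ Ioo (0 : ℝ) 1,
      α / 2 * d * rho P F lam t ^ 2 + (1 - t) / (2 * (d + ∫ s in t..1, m s))
        + (1 - √t) * (α * ∫ ω, lam ω ∂P) ≤ -(α * ∫ ω, lam ω * (W 1 ω - W t ω) ∂P) := by
    intro t ht
    refine hL_of hB hlam hA hα h0 ht ?_
    refine HJ t ⟨ht.1, ht.2.le⟩ _ (hlam.condExp (by norm_num)) ?_ stronglyMeasurable_condExp _ _
      (hA.dil ht)
    exact condExp_nonneg hlam0
  have := hcore.main hα hU hL
  linarith

/-- With `D(1-) = 0`, the profile is not constant near `1` (its support accumulates at `1`). -/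
theorem not_const_near_one (hA : Adm m 0) {a c : ℝ} (ha : a ∈ Ico (0 : ℝ) 1) :
    ¬ ∀ t ∈ Ioo a 1, m t = c := by
  intro hconst
  have hDD : ∀ t ∈ Ioo a 1, DD m 0 t = c * (1 - t) := by
    intro t ht
    rw [DD, zero_add, intervalIntegral.integral_of_le ht.2.le, integral_Ioc_eq_integral_Ioo]
    have : ∫ s in Ioo t 1, m s = ∫ s in Ioo t 1, c :=
      setIntegral_congr_fun measurableSet_Ioo fun s hs => hconst s ⟨ht.1.trans hs.1, hs.2⟩
    rw [this, setIntegral_const, measureReal_def, Real.volume_Ioo, smul_eq_mul,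
      ENNReal.toReal_ofReal (by linarith [ht.2])]
    ring
  have hmid : (a + 1) / 2 ∈ Ioo a 1 := ⟨by linarith [ha.2], by linarith [ha.2]⟩
  have hc : 0 < c := by
    have h1 := hA.pos ((a + 1) / 2) ⟨by linarith [ha.1], hmid.2⟩
    rw [hDD _ hmid] at h1
    have : 0 < 1 - (a + 1) / 2 := by linarith [hmid.2]
    exact (mul_pos_iff_of_pos_right this).1 h1
  have h2 : IntervalIntegrable (fun t => 1 / DD m 0 t) volume ((a + 1) / 2) 1 :=
    hA.E_int.mono_set (by
      rw [uIcc_of_le hmid.2.le, uIcc_of_le zero_le_one]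
      exact Icc_subset_Icc_left (by linarith [ha.1]))
  have h3 : IntervalIntegrable (fun t : ℝ => (t - 1)⁻¹) volume ((a + 1) / 2) 1 := by
    have h4 := h2.const_mul (-c)
    refine h4.congr_ae ?_
    rw [uIoc_of_le hmid.2.le]
    have h5 : ∀ᵐ t : ℝ, t ≠ 1 := by simp [ae_iff, measure_singleton]
    refine (ae_restrict_iff' measurableSet_Ioc).2 ?_
    filter_upwards [h5] with t ht1 ht
    have ht' : t ∈ Ioo a 1 := ⟨hmid.1.trans ht.1, lt_of_le_of_ne ht.2 ht1⟩
    rw [hDD t ht']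
    have h6 : 1 - t ≠ 0 := by
      have := ht'.2
      intro h; linarith
    have h7 : t - 1 ≠ 0 := by
      intro h; apply h6; linarith
    field_simp
    ring
  rw [intervalIntegrable_sub_inv_iff] at h3
  rcases h3 with h3 | h3
  · linarith [hmid.2]
  · exact h3 right_mem_uIcc

end Crest.Agent.R146.DZero_106
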