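import Crest.Agent.R146.BrLaw_106
import Crest.Agent.R146.P5Def_12
import Crest.Agent.R146.HilbD_356
import Crest.Agent.R146.ProfF_540

/-!
Row 146 (helper106): first field of `TipOut` at the literal instance.

`D_one` : `IsJam (RW W) (KW W) (xiW W) αc x D → D 1 = 0`.
Also: `J0_eq` (bridge `J0` of functions = `Je` of the Hilbert frame), `kkt_ae` (`h ≥ 0`,
`lam h = 0` a.e.), `support_end` (`mOf D` is not constant near `1`).
-/

set_option autoImplicit false

open MeasureTheory ProbabilityTheory Set Filter Topology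
open scoped NNReal ENNReal RealInnerProductSpace

namespace Crest.Agent.R146.DZeroW_106

open Crest.ProbabilityR.Perceptron
open Crest.Agent.R146.DZero_106 (J0 DD n2 orth int_mul MM Brown rho_sq)
open Crest.Agent.R146.BrLaw_106 Crest.Agent.R146.BrFull_106
open Crest.Agent.R146.Hilb Crest.Agent.R146.ProfB_540 Crest.Agent.R146.ProfF_540
open Crest.Agent.R146.HilbE Crest.Agent.R146.HilbD
open Crest.Agent.R146.Lev2_576 Crest.Agent.R146.P34_734 Crest.Agent.R146.DualG_256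
open Crest.Agent.R146.DualL_256 Crest.Agent.R146.DualV_256
open Crest.Agent.R146.JamIface_776 Crest.Agent.R146.P5Def_12

variable (W : BS)

/-- natural filtration of `W` in real time -/
@[instance_reducible]
noncomputable def FW (t : ℝ) : MeasurableSpace W.Ω := NF W.B W.meas t

lemma FW_le (t : ℝ) : FW W t ≤ W.mΩ := (brownianFiltration W.B W.meas).le _

lemma FW_one : FW W 1 = (brownianFiltration W.B W.meas 1 : MeasurableSpace W.Ω) := by
  show (brownianFiltration W.B W.meas (1 : ℝ).toNNReal : MeasurableSpace W.Ω) = _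
  rw [Real.toNNReal_one]

/-- `J x` is `F_1`-measurable -/
lemma J_eq_cond (x : HW W) : (MW W).J x =ᵐ[W.P] W.P[(MW W).J x | FW W 1] := by
  have h := (MW W).cond 1 ⟨zero_le_one, le_rfl⟩ x
  rw [(RW W).one] at h
  exact h

/-- pairing with a function which is not `F_1`-measurable -/
lemma pair_cond (x : HW W) {ψ : W.Ω → ℝ} (hψ : MemLp ψ 2 W.P) :
    ∫ ω, ψ ω * (MW W).J x ω ∂W.P = ∫ ω, (W.P[ψ | FW W 1]) ω * (MW W).J x ω ∂W.P := by
  have hJ := (MW W).memLp x
  have hE : MemLp (W.P[ψ | FW W 1]) 2 W.P := hψ.condExp (by norm_num)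
  have hc : MemLp (W.P[(MW W).J x | FW W 1]) 2 W.P := hJ.condExp (by norm_num)
  have h0 := orth (FW_le W 1) hψ hc stronglyMeasurable_condExp
  have e : ∀ ω, (ψ ω - (W.P[ψ | FW W 1]) ω) * (W.P[(MW W).J x | FW W 1]) ω
      = ψ ω * (W.P[(MW W).J x | FW W 1]) ω
        - (W.P[ψ | FW W 1]) ω * (W.P[(MW W).J x | FW W 1]) ω := fun ω => by ring
  simp_rw [e] at h0
  rw [integral_sub (int_mul hψ hc) (int_mul hE hc)] at h0
  have e1 : ∫ ω, ψ ω * (MW W).J x ω ∂W.P
      = ∫ ω, ψ ω * (W.P[(MW W).J x | FW W 1]) ω ∂W.P := by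
    refine integral_congr_ae ?_
    filter_upwards [J_eq_cond W x] with ω hω
    rw [← hω]
  have e2 : ∫ ω, (W.P[ψ | FW W 1]) ω * (MW W).J x ω ∂W.P
      = ∫ ω, (W.P[ψ | FW W 1]) ω * (W.P[(MW W).J x | FW W 1]) ω ∂W.P := by
    refine integral_congr_ae ?_
    filter_upwards [J_eq_cond W x] with ω hω
    rw [← hω]
  rw [e1, e2]
  linarith

/-- every `F_1`-measurable function is `J z` -/
lemma exists_J {f : W.Ω → ℝ} (hf : MemLp f 2 W.P) (hm : StronglyMeasurable[FW W 1] f) :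
    ∃ z : HW W, (MW W).J z =ᵐ[W.P] f := by
  rw [FW_one] at hm
  exact full W.meas W.br f hf hm

lemma cond_norm {z : HW W} {f : W.Ω → ℝ} (hz : (MW W).J z =ᵐ[W.P] f) {t : ℝ}
    (ht : t ∈ Icc (0 : ℝ) 1) :
    ∫ ω, (W.P[f | FW W t]) ω ^ 2 ∂W.P = ‖(RW W).P t z‖ ^ 2 := by
  rw [← (MW W).norm_sq]
  refine integral_congr_ae ?_
  have h1 := (MW W).cond t ht z
  have h2 : W.P[(MW W).J z | FW W t] =ᵐ[W.P] W.P[f | FW W t] := condExp_congr_ae hz
  filter_upwards [h1, h2] with ω h3 h4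
  rw [h3, ← h4]; rfl

/-- the bridge `J0 = Je` -/
theorem J0_eq {z : HW W} {f : W.Ω → ℝ} (hz : (MW W).J z =ᵐ[W.P] f) (α : ℝ) {m : ℝ → ℝ} {d : ℝ}
    {D : ℝ → ℝ} (hD : ContinuousOn D (Icc 0 1)) (hm : IntervalIntegrable m volume 0 1)
    (h : ∀ t ∈ Icc (0 : ℝ) 1, D t = DD m d t) :
    J0 W.P (NF W.B W.meas) (NW W.B) α f m d = Je (RW W) α 0 0 (xiW W) z D := by
  have hξ : (MW W).J (xiW W) =ᵐ[W.P] fun ω => 1 + W.B 1 ω := DualG_256.modelB_xi W.meas W.br 1
  have e1 : ∫ ω, f ω * (1 + NW W.B 1 ω) ∂W.P = ⟪z, xiW W⟫ := by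
    rw [← (MW W).inner]
    refine integral_congr_ae ?_
    filter_upwards [hz, hξ] with ω h1 h2
    rw [h1, h2]
    simp only [NW, Real.toNNReal_one]
  have e2 : ∫ ω, f ω ^ 2 ∂W.P = ‖z‖ ^ 2 := by
    rw [← (MW W).norm_sq]
    refine integral_congr_ae ?_
    filter_upwards [hz] with ω h1
    rw [h1]
  have e3 : ∫ t in (0 : ℝ)..1, m t * ∫ ω, (W.P[f | NF W.B W.meas t]) ω ^ 2 ∂W.P
      = ∫ t in (0 : ℝ)..1, m t * ‖(RW W).P t z‖ ^ 2 := by
    refine intervalIntegral.integral_congr fun t ht => ?_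
    rw [uIcc_of_le zero_le_one] at ht
    have := cond_norm W hz ht
    rw [← this]
    rfl
  have e4 : Ent 0 D = ∫ t in (0 : ℝ)..1, 1 / DD m d t := by
    rw [Ent, entF_zero]
    refine intervalIntegral.integral_congr fun t ht => ?_
    rw [uIcc_of_le zero_le_one] at ht
    show 1 / D t = 1 / DD m d t
    rw [h t ht]
  rw [Je, (RW W).Q_eq_integral hD hm h, e4, J0, e1, e2, e3]
  ring

/-- my `Adm` gives the `Adm 0` of helper540 -/
lemma adm_of {m : ℝ → ℝ} {d : ℝ} (h : DZero_106.Adm m d) : ProfB_540.Adm 0 (DD m d) := by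
  have hp : Prof (DD m d) := prof_dOf h.mono h.nonneg h.int h.d_nonneg h.pos
  refine ⟨hp, ?_, ?_⟩
  · intro t ht
    rw [zero_mul]; linarith [ht.2]
  · rw [entF_zero]
    exact h.E_int

/-- and back -/
lemma of_adm {D : ℝ → ℝ} (h : ProfB_540.Adm 0 D) : DZero_106.Adm (mOf D) (D 1) := by
  have hp := h.prof
  have e : ∀ t ∈ Icc (0 : ℝ) 1, DD (mOf D) (D 1) t = D t := fun t ht =>
    (eq_add_integral hp ht).symm
  refine ⟨fun t ht => mOf_nonneg hp ht, mOf_mono hp, mOf_intervalIntegrable hp, hp.one, ?_, ?_⟩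
  · intro t ht
    rw [e t ⟨ht.1, ht.2.le⟩]
    exact hp.pos t ht
  · have h1 := h.int
    rw [entF_zero] at h1
    refine h1.congr ?_
    intro t ht
    rw [uIoc_of_le zero_le_one] at ht
    simp only
    rw [e t ⟨ht.1.le, ht.2⟩]

lemma mem_KW {z : HW W} : z ∈ KW W ↔ 0 ≤ᵐ[W.P] (MW W).J z := by
  show (z : W.Ω →₂[W.P] ℝ) ∈ cone W.P ↔ _
  rw [mem_cone]
  rfl

lemma isCone_KW : IsCone (KW W) where
  zero := KB_zero W.meas
  add := KB_add W.meas
  smul := KB_smul W.meas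

/-- KKT in `x` for a jamming minimiser -/
lemma kkt {αc : ℝ} (hα : 0 < αc) {x : HW W} {D : ℝ → ℝ}
    (h : IsJam (RW W) (KW W) (xiW W) αc x D) :
    (∀ y ∈ KW W, 0 ≤ ⟪y, xiW W + (RW W).Dop D x⟫) ∧ ⟪x, xiW W + (RW W).Dop D x⟫ = 0 := by
  have h1 := HilbD.kkt_x (RW W) (isCone_KW W) h.adm.prof.cont 0 (xiW W) x h.xK (by
    intro y hy
    have h2 := h.min y hy D h.adm
    have h3 := h.zero
    rw [Je_eq_Fx] at h2 h3
    have h4 : αc * Fx (RW W) 0 (xiW W) D x ≤ αc * Fx (RW W) 0 (xiW W) D y := by linarith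
    exact le_of_mul_le_mul_left h4 hα)
  have e : hvec (RW W) 0 (xiW W) D x = xiW W + (RW W).Dop D x := by
    unfold hvec; rw [zero_smul, add_zero]
  rw [e] at h1
  exact h1

/-- `h ≥ 0` a.e. from the dual cone -/
lemma nonneg_of_dual {h : HW W} (hd : ∀ y ∈ KW W, 0 ≤ ⟪y, h⟫) : 0 ≤ᵐ[W.P] (MW W).J h := by
  set f : W.Ω → ℝ := fun ω => max (-(W.P[(MW W).J h | FW W 1]) ω) 0 with hf
  have hJ := (MW W).memLp h
  have hE : MemLp (W.P[(MW W).J h | FW W 1]) 2 W.P := hJ.condExp (by norm_num)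
  have hfm : StronglyMeasurable[FW W 1] f := by
    have h1 : Measurable[FW W 1] (W.P[(MW W).J h | FW W 1]) :=
      stronglyMeasurable_condExp.measurable
    have h2 : Measurable[FW W 1] f := Measurable.max (Measurable.neg h1) measurable_const
    exact h2.stronglyMeasurable
  have hf2 : MemLp f 2 W.P := by
    refine MemLp.mono hE (hfm.mono (FW_le W 1)).aestronglyMeasurable (ae_of_all _ fun ω => ?_)
    simp only [hf, Real.norm_eq_abs]
    rcases le_total (-(W.P[(MW W).J h | FW W 1]) ω) 0 with h1 | h1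
    · rw [max_eq_right h1]; simp
    · rw [max_eq_left h1, abs_neg]
  obtain ⟨z, hz⟩ := exists_J W hf2 hfm
  have hzK : z ∈ KW W := by
    rw [mem_KW]
    filter_upwards [hz] with ω h1
    rw [h1]; exact le_max_right _ _
  have h1 := hd z hzK
  rw [← (MW W).inner] at h1
  have h2 : ∫ ω, (MW W).J z ω * (MW W).J h ω ∂W.P = -∫ ω, f ω ^ 2 ∂W.P := by
    rw [← integral_neg]
    refine integral_congr_ae ?_
    filter_upwards [hz, J_eq_cond W h] with ω h3 h4
    rw [h3, h4]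
    simp only [hf]
    rcases le_total (-(W.P[(MW W).J h | FW W 1]) ω) 0 with h5 | h5
    · rw [max_eq_right h5]; ring
    · rw [max_eq_left h5]; ring
  rw [h2] at h1
  have h3 : ∫ ω, f ω ^ 2 ∂W.P = 0 :=
    le_antisymm (by linarith) (integral_nonneg fun _ => sq_nonneg _)
  have h4 := (integral_eq_zero_iff_of_nonneg_ae (ae_of_all _ fun ω => sq_nonneg (f ω))
    hf2.integrable_sq).1 h3
  filter_upwards [h4, J_eq_cond W h] with ω h5 h6
  have h7 : f ω = 0 := by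
    have : f ω ^ 2 = 0 := h5
    exact pow_eq_zero_iff (two_ne_zero) |>.1 this
  have h8 : -(W.P[(MW W).J h | FW W 1]) ω ≤ 0 := by
    have : -(W.P[(MW W).J h | FW W 1]) ω ≤ f ω := le_max_left _ _
    rwa [h7] at this
  show (0 : ℝ) ≤ (MW W).J h ω
  rw [h6]; linarith

/-- complementarity: `h ≥ 0` and `lam h = 0` a.e. -/
theorem kkt_ae {αc : ℝ} (hα : 0 < αc) {x : HW W} {D : ℝ → ℝ}
    (h : IsJam (RW W) (KW W) (xiW W) αc x D) :
    (0 ≤ᵐ[W.P] (MW W).J (xiW W + (RW W).Dop D x)) ∧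
    ∀ᵐ ω ∂W.P, (MW W).J x ω * (MW W).J (xiW W + (RW W).Dop D x) ω = 0 := by
  obtain ⟨h1, h2⟩ := kkt W hα h
  have h3 := nonneg_of_dual W h1
  refine ⟨h3, ?_⟩
  rw [← (MW W).inner] at h2
  have h4 : ∀ᵐ ω ∂W.P, 0 ≤ (MW W).J x ω * (MW W).J (xiW W + (RW W).Dop D x) ω := by
    filter_upwards [h3, (mem_KW W).1 h.xK] with ω h5 h6
    exact mul_nonneg h6 h5
  have h5 := (integral_eq_zero_iff_of_nonneg_ae h4
    (int_mul ((MW W).memLp _) ((MW W).memLp _))).1 h2
  filter_upwards [h5] with ω h6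
  exact h6

/-- **First field of `TipOut`**: `D 1 = 0` at jamming. -/
theorem D_one {αc : ℝ} (hα : 0 < αc) {x : HW W} {D : ℝ → ℝ}
    (h : IsJam (RW W) (KW W) (xiW W) αc x D) : D 1 = 0 := by
  have hB : IsPreBrownianReal W.B W.P := W.br.toIsPreBrownianReal
  have hp := h.adm.prof
  have hAdm := of_adm h.adm
  have hDD : ∀ t ∈ Icc (0 : ℝ) 1, D t = DD (mOf D) (D 1) t := fun t ht =>
    eq_add_integral hp ht
  set lam : W.Ω → ℝ := W.P[(MW W).J x | FW W 1] with hlam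
  have hx : (MW W).J x =ᵐ[W.P] lam := J_eq_cond W x
  have hJx := (MW W).memLp x
  have hl2 : MemLp lam 2 W.P := hJx.condExp (by norm_num)
  have hlm : StronglyMeasurable[FW W 1] lam := stronglyMeasurable_condExp
  have hK := (mem_KW W).1 h.xK
  have hl0 : 0 ≤ᵐ[W.P] lam := by
    filter_upwards [hx, hK] with ω h1 h2
    rw [← h1]; exact h2
  have hξ : (MW W).J (xiW W) =ᵐ[W.P] fun ω => 1 + W.B 1 ω := DualG_256.modelB_xi W.meas W.br 1
  -- A
  set A : W.Ω → ℝ := fun ω => (MW W).J ((RW W).Dop D x) ω - D 1 * (MW W).J x ω with hA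
  have hA2 : MemLp A 2 W.P := ((MW W).memLp _).sub (hJx.const_mul _)
  have hh : ∀ᵐ ω ∂W.P, 1 + NW W.B 1 ω + A ω + D 1 * lam ω
      = (MW W).J (xiW W + (RW W).Dop D x) ω := by
    filter_upwards [hx, hξ, (MW W).add (xiW W) ((RW W).Dop D x)] with ω h1 h2 h3
    rw [h3, h2, ← h1]
    simp only [hA, NW, Real.toNNReal_one]
    ring
  obtain ⟨k1, k2⟩ := kkt_ae W hα h
  have hw : ∀ ψ : W.Ω → ℝ, MemLp ψ 2 W.P → ∫ ω, ψ ω * A ω ∂W.P
      = ∫ s in (0 : ℝ)..1, mOf D s * ∫ ω, ψ ω * (W.P[lam | FW W s]) ω ∂W.P := by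
    intro ψ hψ
    obtain ⟨z, hz⟩ := exists_J W (hψ.condExp (m := FW W 1) (by norm_num))
      stronglyMeasurable_condExp
    have pair : ∀ w : HW W, ∫ ω, ψ ω * (MW W).J w ω ∂W.P = ⟪z, w⟫ := by
      intro w
      rw [pair_cond W w hψ, ← (MW W).inner]
      refine integral_congr_ae ?_
      filter_upwards [hz] with ω h1
      rw [h1]
    have e1 : ∫ ω, ψ ω * A ω ∂W.P = ⟪z, (RW W).Dop D x⟫ - D 1 * ⟪z, x⟫ := by
      have e : ∀ ω, ψ ω * A ω = ψ ω * (MW W).J ((RW W).Dop D x) ω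
          - D 1 * (ψ ω * (MW W).J x ω) := by
        intro ω; simp only [hA]; ring
      simp_rw [e]
      rw [integral_sub (int_mul hψ ((MW W).memLp _)) ((int_mul hψ hJx).const_mul _),
        integral_const_mul, pair, pair]
    rw [e1, (RW W).inner_Dop_eq_integral hp.cont (mOf_intervalIntegrable hp) hDD]
    rw [add_sub_cancel_right]
    refine intervalIntegral.integral_congr fun s hs => ?_
    rw [uIcc_of_le zero_le_one] at hs
    show mOf D s * _ = mOf D s * _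
    rw [← pair]
    congr 1
    refine integral_congr_ae ?_
    have h1 := (MW W).cond s hs x
    have h2 : W.P[(MW W).J x | FW W s] =ᵐ[W.P] W.P[lam | FW W s] := condExp_congr_ae hx
    filter_upwards [h1, h2] with ω h3 h4
    rw [h3, ← h4]; rfl
  have hE : 0 < ∫ ω, lam ω ∂W.P := by
    have h0 : 0 ≤ ∫ ω, lam ω ∂W.P := integral_nonneg_of_ae hl0
    refine lt_of_le_of_ne h0 fun h1 => h.x0 ?_
    have h2 := (integral_eq_zero_iff_of_nonneg_ae hl0 (hl2.integrable (by norm_num))).1 h1.symm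
    have h3 : ‖x‖ ^ 2 = 0 := by
      rw [← (MW W).norm_sq]
      have : ∫ ω, (MW W).J x ω ^ 2 ∂W.P = ∫ _, (0 : ℝ) ∂W.P := by
        refine integral_congr_ae ?_
        filter_upwards [hx, h2] with ω h4 h5
        rw [h4]
        have : lam ω = 0 := h5
        rw [this]; norm_num
      rw [this, integral_zero]
    have h4 : ‖x‖ = 0 := by
      exact pow_eq_zero_iff (two_ne_zero) |>.1 h3
    exact norm_eq_zero.1 h4
  refine DZero_106.dzero (P := W.P) (F := NF W.B W.meas) (W := NW W.B) (lam := lam) (A := A)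
    (m := mOf D) (d := D 1) (α := αc) hα (brown W.meas hB) hl2 hl0 hlm hAdm ?_ ?_ hA2 hw ?_ ?_ hE
  · rw [J0_eq W hx αc hp.cont (mOf_intervalIntegrable hp) hDD, h.zero]
  · refine HJ_of_one W.meas hB ?_
    intro lam' h1 h2 h3 m' d' h4
    obtain ⟨z, hz⟩ := exists_J W h1 h3
    have hzK : z ∈ KW W := by
      rw [mem_KW]
      filter_upwards [hz, h2] with ω h5 h6
      rw [h5]; exact h6
    have h5 := adm_of h4
    rw [J0_eq W hz αc h5.prof.cont h4.int (fun t _ => rfl)]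
    exact h.min z hzK _ h5
  · filter_upwards [hh, k1] with ω h1 h2
    rw [h1]; exact h2
  · filter_upwards [hh, k2, hx] with ω h1 h2 h3
    rw [h1, ← h3]; exact h2

/-- the support of `dm` accumulates at `1` -/
theorem support_end {αc : ℝ} (hα : 0 < αc) {x : HW W} {D : ℝ → ℝ}
    (h : IsJam (RW W) (KW W) (xiW W) αc x D) {a : ℝ} (ha : a ∈ Ico (0 : ℝ) 1) (c : ℝ) :
    ¬ ∀ t ∈ Ioo a 1, mOf D t = c := by
  have h1 := of_adm h.adm
  rw [D_one W hα h] at h1
  exact DZero_106.not_const_near_one h1 ha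

end Crest.Agent.R146.DZeroW_106
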