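import Mathlib

/-!
Row 146, node DZERO (helper106): at the jamming minimiser `D(1-) = 0`.

Part A: L2 tools, Stein's identity for a one-sided linear function, small ball estimate.
-/

open MeasureTheory ProbabilityTheory Set Filter Topology
open scoped NNReal ENNReal

namespace Crest.Agent.R146.DZero_106

/-! ### Gaussian computations -/

lemma integrable_mul_pdf (v : ℝ≥0) (hv : v ≠ 0) (f : ℝ → ℝ)
    (hf : Integrable f (gaussianReal 0 v)) :
    Integrable (fun w => gaussianPDFReal 0 v w * f w) := by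
  rw [gaussianReal_of_var_ne_zero _ hv] at hf
  rw [integrable_withDensity_iff_integrable_smul₀' (measurable_gaussianPDF _ _).aemeasurable
    (ae_of_all _ fun _ ↦ gaussianPDF_lt_top)] at hf
  simpa [toReal_gaussianPDF] using hf

/-- Stein's identity for `w ↦ (y+w)_-`. -/
lemma stein_neg (v : ℝ≥0) (hv : v ≠ 0) (y : ℝ) :
    ∫ w, max (-(y + w)) 0 * w ∂(gaussianReal 0 v)
      = -(v : ℝ) * (gaussianReal 0 v).real (Iio (-y)) := by
  have hv' : (0 : ℝ) < v := by positivity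
  rw [integral_gaussianReal_eq_integral_smul hv]
  set ρ : ℝ → ℝ := gaussianPDFReal 0 v with hρ
  have hρd : ∀ w, HasDerivAt ρ (-(w / v) * ρ w) w := by
    intro w
    have h : ρ = fun x : ℝ => (√(2 * Real.pi * v))⁻¹ * Real.exp (-(x - 0) ^ 2 / (2 * v)) := by
      funext x; simp [hρ, gaussianPDFReal]
    rw [h]
    have h1 : HasDerivAt (fun x : ℝ => -(x - 0) ^ 2 / (2 * v)) (-(2 * (w - 0)) / (2 * v)) w := by
      have := ((((hasDerivAt_id w).sub_const 0).pow 2).neg).div_const (2 * (v : ℝ))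
      simpa using this
    have h2 := (h1.exp).const_mul ((√(2 * Real.pi * v))⁻¹)
    have e1 : -(w / (v : ℝ)) = -(2 * (w - 0)) / (2 * v) := by
      field_simp; ring
    rw [e1]
    refine h2.congr_deriv ?_
    ring
  have hint : Integrable ρ := integrable_gaussianPDFReal 0 v
  have hm1 : Integrable (fun w : ℝ => w) (gaussianReal 0 v) := by
    have := (memLp_id_gaussianReal (μ := 0) (v := v) 1)
    exact memLp_one_iff_integrable.1 (by exact_mod_cast this)
  have hm2 : Integrable (fun w : ℝ => w ^ 2) (gaussianReal 0 v) := by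
    have := (memLp_id_gaussianReal (μ := 0) (v := v) 2)
    simpa using this.integrable_sq
  have hint1 : Integrable (fun w => ρ w * w) := integrable_mul_pdf v hv _ hm1
  have hint2 : Integrable (fun w => ρ w * w ^ 2) := integrable_mul_pdf v hv _ hm2
  set G : ℝ → ℝ := fun w => v * ((y + w) * ρ w) with hG
  have hGd : ∀ w, HasDerivAt G (v * ρ w - (y + w) * w * ρ w) w := by
    intro w
    have h1 : HasDerivAt (fun w : ℝ => y + w) 1 w := by
      simpa using (hasDerivAt_id w).const_add y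
    have h2 := (h1.mul (hρd w)).const_mul (v : ℝ)
    refine h2.congr_deriv ?_
    field_simp
    ring
  have hG' : Integrable (fun w => v * ρ w - (y + w) * w * ρ w) := by
    have h2 : Integrable (fun w => (v : ℝ) * ρ w - (y * (ρ w * w) + ρ w * w ^ 2)) :=
      (hint.const_mul _).sub ((hint1.const_mul y).add hint2)
    refine h2.congr (ae_of_all _ fun w => ?_)
    simp only
    ring
  have hGi : Integrable G := by
    have h2 : Integrable (fun w => (v : ℝ) * (y * ρ w + ρ w * w)) :=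
      ((hint.const_mul y).add hint1).const_mul _
    refine h2.congr (ae_of_all _ fun w => ?_)
    simp only [hG]
    ring
  have hlim : Tendsto G atBot (𝓝 0) :=
    tendsto_zero_of_hasDerivAt_of_integrableOn_Iic (a := -y) (fun w _ => hGd w)
      hG'.integrableOn hGi.integrableOn
  have hI := integral_Iic_of_hasDerivAt_of_tendsto' (a := -y) (fun w _ => hGd w)
    hG'.integrableOn hlim
  have hGy : G (-y) = 0 := by simp [hG]
  rw [hGy, sub_zero] at hI
  have hI2 : ∫ w in Iic (-y), (v * ρ w - (y + w) * w * ρ w)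
      = (v : ℝ) * (∫ w in Iic (-y), ρ w) + ∫ w in Iic (-y), ρ w * (max (-(y + w)) 0 * w) := by
    have h0 : ∫ w in Iic (-y), ρ w * (max (-(y + w)) 0 * w)
        = ∫ w in Iic (-y), (-(y * (ρ w * w) + ρ w * w ^ 2)) := by
      refine setIntegral_congr_fun measurableSet_Iic fun w hw => ?_
      have hw' : w ≤ -y := hw
      have : max (-(y + w)) 0 = -(y + w) := max_eq_left (by linarith)
      simp only [this]
      ring
    rw [h0, ← integral_const_mul, ← integral_add]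
    · refine setIntegral_congr_fun measurableSet_Iic fun w _ => ?_
      ring
    · exact (hint.const_mul _).integrableOn
    · exact (((hint1.const_mul y).add hint2).neg).integrableOn
  have hfull : ∫ w, ρ w • (max (-(y + w)) 0 * w)
      = ∫ w in Iic (-y), ρ w * (max (-(y + w)) 0 * w) := by
    rw [← integral_indicator measurableSet_Iic]
    refine integral_congr_ae (ae_of_all _ fun w => ?_)
    by_cases hw : w ∈ Iic (-y)
    · simp [indicator_of_mem hw, smul_eq_mul]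
    · have hw' : -y < w := by simpa using hw
      have : max (-(y + w)) 0 = 0 := max_eq_right (by linarith)
      rw [indicator_of_notMem hw]
      simp only [this, zero_mul, smul_zero]
  rw [hfull]
  have hmeas : (gaussianReal 0 v).real (Iio (-y)) = ∫ w in Iic (-y), ρ w := by
    have hna := nullSingletonClass_gaussianReal (μ := 0) hv
    have h1 : (gaussianReal 0 v) (Iio (-y)) = (gaussianReal 0 v) (Iic (-y)) :=
      measure_congr Iio_ae_eq_Iic
    rw [measureReal_def, h1, gaussianReal_apply_eq_integral _ hv,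
      ENNReal.toReal_ofReal (integral_nonneg fun w => gaussianPDFReal_nonneg _ _ _)]
  rw [hmeas]
  rw [hI2] at hI
  linarith

/-- Small ball estimate. -/
lemma small_ball (v : ℝ≥0) (hv : v ≠ 0) (y a : ℝ) (ha : 0 ≤ a) :
    (gaussianReal 0 v).real {w | |y + w| ≤ a} ≤ a / √v := by
  have hv' : (0 : ℝ) < v := by positivity
  have hset : {w : ℝ | |y + w| ≤ a} = Icc (-a - y) (a - y) := by
    ext w
    simp only [mem_ofPred_eq, abs_le, mem_Icc]
    constructor
    · rintro ⟨h1, h2⟩; constructor <;> linarith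
    · rintro ⟨h1, h2⟩; constructor <;> linarith
  rw [hset, measureReal_def, gaussianReal_apply_eq_integral _ hv,
      ENNReal.toReal_ofReal (integral_nonneg fun w => gaussianPDFReal_nonneg _ _ _)]
  have hb : ∀ w, gaussianPDFReal 0 v w ≤ (√(2 * Real.pi * v))⁻¹ := by
    intro w
    rw [gaussianPDFReal]
    have : Real.exp (-(w - 0) ^ 2 / (2 * v)) ≤ 1 := by
      apply Real.exp_le_one_iff.2
      apply div_nonpos_of_nonpos_of_nonneg
      · nlinarith [sq_nonneg (w - 0)]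
      · positivity
    calc _ ≤ (√(2 * Real.pi * v))⁻¹ * 1 := by gcongr
      _ = _ := mul_one _
  have h1 : ∫ w in Icc (-a - y) (a - y), gaussianPDFReal 0 v w
      ≤ ∫ w in Icc (-a - y) (a - y), (√(2 * Real.pi * v))⁻¹ := by
    refine setIntegral_mono_on (integrable_gaussianPDFReal 0 v).integrableOn ?_ measurableSet_Icc
      fun w _ => hb w
    exact integrableOn_const (by simp)
  refine h1.trans ?_
  rw [setIntegral_const, smul_eq_mul, measureReal_def, Real.volume_Icc, ENNReal.toReal_ofReal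
    (by linarith)]
  have h2 : (2 : ℝ) * √v ≤ √(2 * Real.pi * v) := by
    rw [show (2 : ℝ) * √v = √(2 ^ 2 * v) by
      rw [Real.sqrt_mul (by positivity), Real.sqrt_sq (by positivity)]]
    apply Real.sqrt_le_sqrt
    have := Real.pi_gt_three
    nlinarith
  have hs : 0 < √(v : ℝ) := Real.sqrt_pos.2 hv'
  calc (a - y - (-a - y)) * (√(2 * Real.pi * v))⁻¹ ≤ (2 * a) * (2 * √v)⁻¹ := by
        have : a - y - (-a - y) = 2 * a := by ring
        rw [this]
        gcongr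
    _ = a / √v := by field_simp

/-! ### L2 tools -/

section L2

variable {Ω : Type*} {mΩ : MeasurableSpace Ω} {P : Measure Ω}

/-- The L2 norm of a function. -/
noncomputable def n2 (P : Measure Ω) (f : Ω → ℝ) : ℝ := √(∫ ω, f ω ^ 2 ∂P)

lemma n2_nonneg (f : Ω → ℝ) : 0 ≤ n2 P f := Real.sqrt_nonneg _

lemma n2_sq (f : Ω → ℝ) : n2 P f ^ 2 = ∫ ω, f ω ^ 2 ∂P :=
  Real.sq_sqrt (integral_nonneg fun _ => sq_nonneg _)

lemma n2_eq_norm {f : Ω → ℝ} (hf : MemLp f 2 P) : n2 P f = ‖hf.toLp f‖ := by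
  rw [Lp.norm_toLp, n2, hf.eLpNorm_eq_integral_rpow_norm (by norm_num) (by norm_num),
    ENNReal.toReal_ofReal (by positivity), Real.sqrt_eq_rpow]
  norm_num

lemma n2_add_le {f g : Ω → ℝ} (hf : MemLp f 2 P) (hg : MemLp g 2 P) :
    n2 P (fun ω => f ω + g ω) ≤ n2 P f + n2 P g := by
  have h : n2 P (fun ω => f ω + g ω) = ‖(hf.add hg).toLp (f + g)‖ := n2_eq_norm (hf.add hg)
  rw [h, n2_eq_norm hf, n2_eq_norm hg, MemLp.toLp_add]
  exact norm_add_le _ _

lemma n2_neg (f : Ω → ℝ) : n2 P (fun ω => - f ω) = n2 P f := by simp [n2]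

lemma n2_sub_le {f g : Ω → ℝ} (hf : MemLp f 2 P) (hg : MemLp g 2 P) :
    n2 P (fun ω => f ω - g ω) ≤ n2 P f + n2 P g := by
  have := n2_add_le hf hg.neg
  have e : n2 P (-g) = n2 P g := n2_neg g
  rw [e] at this
  simpa [sub_eq_add_neg] using this

lemma n2_const_mul (c : ℝ) (f : Ω → ℝ) : n2 P (fun ω => c * f ω) = |c| * n2 P f := by
  simp only [n2, mul_pow]
  rw [integral_const_mul, Real.sqrt_mul (sq_nonneg c), Real.sqrt_sq_eq_abs]

lemma n2_mono {f g : Ω → ℝ} (hg : MemLp g 2 P) (h : ∀ᵐ ω ∂P, |f ω| ≤ |g ω|) :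
    n2 P f ≤ n2 P g := by
  apply Real.sqrt_le_sqrt
  refine integral_mono_of_nonneg (ae_of_all _ fun _ => sq_nonneg _) hg.integrable_sq ?_
  filter_upwards [h] with ω hω
  exact sq_le_sq.2 hω

lemma n2_congr {f g : Ω → ℝ} (h : f =ᵐ[P] g) : n2 P f = n2 P g := by
  unfold n2
  congr 1
  refine integral_congr_ae ?_
  filter_upwards [h] with ω hω
  rw [hω]

/-- Cauchy-Schwarz. -/
lemma abs_integral_mul_le {f g : Ω → ℝ} (hf : MemLp f 2 P) (hg : MemLp g 2 P) :
    |∫ ω, f ω * g ω ∂P| ≤ n2 P f * n2 P g := by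
  have h := abs_real_inner_le_norm (hg.toLp g) (hf.toLp f)
  rw [L2.inner_def] at h
  have e : ∫ ω, inner ℝ ((hg.toLp g : Ω → ℝ) ω) ((hf.toLp f : Ω → ℝ) ω) ∂P
      = ∫ ω, f ω * g ω ∂P := by
    refine integral_congr_ae ?_
    filter_upwards [hf.coeFn_toLp, hg.coeFn_toLp] with ω h1 h2
    rw [h1, h2]
    simp [inner]
  rw [e] at h
  rw [n2_eq_norm hf, n2_eq_norm hg, mul_comm]
  exact h

lemma int_mul {f g : Ω → ℝ} (hf : MemLp f 2 P) (hg : MemLp g 2 P) :
    Integrable (fun ω => f ω * g ω) P := hf.integrable_mul hg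

variable [IsProbabilityMeasure P]

/-- Orthogonality of the conditional expectation. -/
lemma orth {m : MeasurableSpace Ω} (hm : m ≤ mΩ) {f c : Ω → ℝ} (hf : MemLp f 2 P)
    (hc : MemLp c 2 P) (hcm : StronglyMeasurable[m] c) :
    ∫ ω, (f ω - (P[f|m]) ω) * c ω ∂P = 0 := by
  have hE : MemLp (P[f|m]) 2 P := hf.condExp (by norm_num)
  have hfc : Integrable (fun ω => f ω * c ω) P := hf.integrable_mul hc
  have hEc : Integrable (fun ω => (P[f|m]) ω * c ω) P := hE.integrable_mul hc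
  have h1 : P[fun ω => f ω * c ω|m] =ᵐ[P] fun ω => (P[f|m]) ω * c ω :=
    condExp_mul_of_stronglyMeasurable_right hcm hfc (hf.integrable (by norm_num))
  have h2 : ∫ ω, f ω * c ω ∂P = ∫ ω, (P[f|m]) ω * c ω ∂P := by
    rw [← integral_condExp hm (f := fun ω => f ω * c ω)]
    exact integral_congr_ae h1
  have h3 : ∀ ω, (f ω - (P[f|m]) ω) * c ω = f ω * c ω - (P[f|m]) ω * c ω := fun ω => by ring
  simp_rw [h3]
  rw [integral_sub hfc hEc, h2, sub_self]

/-- The conditional expectation is the best approximation. -/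
lemma n2_sub_condExp_le {m : MeasurableSpace Ω} (hm : m ≤ mΩ) {f c : Ω → ℝ} (hf : MemLp f 2 P)
    (hc : MemLp c 2 P) (hcm : StronglyMeasurable[m] c) :
    n2 P (fun ω => f ω - (P[f|m]) ω) ≤ n2 P (fun ω => f ω - c ω) := by
  have hE : MemLp (P[f|m]) 2 P := hf.condExp (by norm_num)
  have h0 := orth hm hf (hE.sub hc) (stronglyMeasurable_condExp.sub hcm)
  apply Real.sqrt_le_sqrt
  have h1 : ∫ ω, (f ω - c ω) ^ 2 ∂P = ∫ ω, (f ω - (P[f|m]) ω) ^ 2 ∂P
      + ∫ ω, ((P[f|m]) ω - c ω) ^ 2 ∂P := by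
    have e : ∀ ω, (f ω - c ω) ^ 2 = (f ω - (P[f|m]) ω) ^ 2 + ((P[f|m]) ω - c ω) ^ 2
        + 2 * ((f ω - (P[f|m]) ω) * (P[f|m] - c) ω) := by
      intro ω; simp only [Pi.sub_apply]; ring
    simp_rw [e]
    have i1 : Integrable (fun ω => (f ω - (P[f|m]) ω) ^ 2) P := (hf.sub hE).integrable_sq
    have i2 : Integrable (fun ω => ((P[f|m]) ω - c ω) ^ 2) P := (hE.sub hc).integrable_sq
    have i3 : Integrable (fun ω => (f ω - (P[f|m]) ω) * (P[f|m] - c) ω) P :=
      (hf.sub hE).integrable_mul (hE.sub hc)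
    have j1 : ∫ ω, ((f ω - (P[f|m]) ω) ^ 2 + ((P[f|m]) ω - c ω) ^ 2
        + 2 * ((f ω - (P[f|m]) ω) * (P[f|m] - c) ω)) ∂P
        = (∫ ω, ((f ω - (P[f|m]) ω) ^ 2 + ((P[f|m]) ω - c ω) ^ 2) ∂P)
          + ∫ ω, 2 * ((f ω - (P[f|m]) ω) * (P[f|m] - c) ω) ∂P :=
      integral_add (i1.add i2) (i3.const_mul 2)
    rw [j1, integral_add i1 i2, integral_const_mul, h0]
    ring
  rw [h1]
  have : 0 ≤ ∫ ω, ((P[f|m]) ω - c ω) ^ 2 ∂P := integral_nonneg fun _ => sq_nonneg _
  linarith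

lemma n2_condExp_le {m : MeasurableSpace Ω} (hm : m ≤ mΩ) {f : Ω → ℝ} (hf : MemLp f 2 P) :
    n2 P (P[f|m]) ≤ n2 P f := by
  have hE : MemLp (P[f|m]) 2 P := hf.condExp (by norm_num)
  have h0 := orth hm hf hE stronglyMeasurable_condExp
  have i1 : Integrable (fun ω => f ω * (P[f|m]) ω) P := hf.integrable_mul hE
  have i2 : Integrable (fun ω => (P[f|m]) ω * (P[f|m]) ω) P := hE.integrable_mul hE
  have h1 : ∫ ω, (P[f|m]) ω ^ 2 ∂P = ∫ ω, f ω * (P[f|m]) ω ∂P := by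
    have e : ∀ ω, (f ω - (P[f|m]) ω) * (P[f|m]) ω
        = f ω * (P[f|m]) ω - (P[f|m]) ω * (P[f|m]) ω := fun ω => by ring
    simp_rw [e] at h0
    rw [integral_sub i1 i2] at h0
    simp_rw [pow_two]
    linarith
  have h2 := abs_integral_mul_le hf hE
  rw [← h1, ← n2_sq, abs_of_nonneg (sq_nonneg _)] at h2
  have h3 := n2_nonneg (P := P) (P[f|m])
  have h4 := n2_nonneg (P := P) f
  by_contra hlt
  push Not at hlt
  nlinarith

end L2

/-! ### One time level -/

section OneTime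

variable {Ω : Type*} {mΩ : MeasurableSpace Ω} {P : Measure Ω} [IsProbabilityMeasure P]

lemma stein_indep {y Z : Ω → ℝ} (hy : Measurable y) (hZ : Measurable Z) (hy2 : MemLp y 2 P)
    (hZ2 : MemLp Z 2 P) (hind : IndepFun y Z P) (v : ℝ≥0) (hv : v ≠ 0)
    (hlaw : P.map Z = gaussianReal 0 v) {B : Set ℝ} (hB : MeasurableSet B) :
    ∫ ω, (y ⁻¹' B).indicator (fun _ => (1 : ℝ)) ω * (max (-(y ω + Z ω)) 0 * Z ω) ∂P
      = -(v : ℝ) * P.real {ω | y ω ∈ B ∧ y ω + Z ω < 0} := by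
  have hpair : P.map (fun ω => (y ω, Z ω)) = (P.map y).prod (gaussianReal 0 v) := by
    rw [← hlaw]
    exact (indepFun_iff_map_prod_eq_prod_map_map hy.aemeasurable hZ.aemeasurable).1 hind
  have hyZ : Measurable (fun ω => (y ω, Z ω)) := hy.prodMk hZ
  have : IsProbabilityMeasure (P.map y) := Measure.isProbabilityMeasure_map hy.aemeasurable
  set φ : ℝ × ℝ → ℝ := fun q => B.indicator (fun _ => (1 : ℝ)) q.1
    * (max (-(q.1 + q.2)) 0 * q.2) with hφ
  have hφm : Measurable φ := by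
    refine ((measurable_const.indicator hB).comp measurable_fst).mul ?_
    exact ((measurable_fst.add measurable_snd).neg.max measurable_const).mul measurable_snd
  have hL : ∫ ω, (y ⁻¹' B).indicator (fun _ => (1 : ℝ)) ω * (max (-(y ω + Z ω)) 0 * Z ω) ∂P
      = ∫ ω, φ (y ω, Z ω) ∂P := by
    refine integral_congr_ae (ae_of_all _ fun ω => ?_)
    simp only [hφ]
    congr 1
  have hmax : MemLp (fun ω => max (-(y ω + Z ω)) 0) 2 P := by
    refine MemLp.mono (hy2.add hZ2) ?_ (ae_of_all _ fun ω => ?_)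
    · exact ((hy.add hZ).neg.max measurable_const).aestronglyMeasurable
    · simp only [Real.norm_eq_abs, Pi.add_apply]
      rcases le_total (-(y ω + Z ω)) 0 with h | h
      · rw [max_eq_right h]; simp
      · rw [max_eq_left h, abs_neg]
  have hint : Integrable (fun ω => φ (y ω, Z ω)) P := by
    have h1 : Integrable (fun ω => max (-(y ω + Z ω)) 0 * Z ω) P := hmax.integrable_mul hZ2
    refine h1.mono (hφm.comp hyZ).aestronglyMeasurable (ae_of_all _ fun ω => ?_)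
    simp only [hφ, norm_mul]
    have : ‖B.indicator (fun _ => (1 : ℝ)) (y ω)‖ ≤ 1 := by
      by_cases hb : y ω ∈ B
      · simp [indicator_of_mem hb]
      · simp [indicator_of_notMem hb]
    calc _ ≤ 1 * (‖max (-(y ω + Z ω)) 0‖ * ‖Z ω‖) := by gcongr
      _ = _ := one_mul _
  have hintp : Integrable φ ((P.map y).prod (gaussianReal 0 v)) := by
    rw [← hpair]
    exact (integrable_map_measure hφm.aestronglyMeasurable hyZ.aemeasurable).2 hint
  rw [hL, ← integral_map hyZ.aemeasurable hφm.aestronglyMeasurable, hpair, integral_prod _ hintp]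
  have hin : ∀ a : ℝ, ∫ b, φ (a, b) ∂(gaussianReal 0 v)
      = -(v : ℝ) * (∫ b, ({q : ℝ × ℝ | q.1 ∈ B ∧ q.1 + q.2 < 0}).indicator
        (fun _ => (1 : ℝ)) (a, b) ∂(gaussianReal 0 v)) := by
    intro a
    simp only [hφ]
    rw [integral_const_mul, stein_neg v hv a]
    by_cases ha : a ∈ B
    · have e1 : ∀ b : ℝ, ({q : ℝ × ℝ | q.1 ∈ B ∧ q.1 + q.2 < 0}).indicator
          (fun _ => (1 : ℝ)) (a, b) = (Iio (-a)).indicator (fun _ => (1 : ℝ)) b := by
        intro b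
        by_cases hb : b < -a
        · rw [indicator_of_mem, indicator_of_mem (show b ∈ Iio (-a) from hb)]
          exact ⟨ha, by simp only; linarith⟩
        · rw [indicator_of_notMem, indicator_of_notMem (show b ∉ Iio (-a) from hb)]
          rintro ⟨_, h2⟩
          simp only at h2
          exact hb (by linarith)
      simp_rw [e1]
      rw [integral_indicator_const _ measurableSet_Iio]
      simp [indicator_of_mem ha]
    · have e1 : ∀ b : ℝ, ({q : ℝ × ℝ | q.1 ∈ B ∧ q.1 + q.2 < 0}).indicator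
          (fun _ => (1 : ℝ)) (a, b) = 0 := by
        intro b
        rw [indicator_of_notMem]
        rintro ⟨h1, _⟩
        exact ha h1
      simp_rw [e1]
      simp [indicator_of_notMem ha]
  simp_rw [hin]
  rw [integral_const_mul]
  congr 1
  have hSm : MeasurableSet {q : ℝ × ℝ | q.1 ∈ B ∧ q.1 + q.2 < 0} :=
    (measurable_fst hB).inter (measurableSet_lt (measurable_fst.add measurable_snd)
      measurable_const)
  rw [← integral_prod (f := ({q : ℝ × ℝ | q.1 ∈ B ∧ q.1 + q.2 < 0}).indicator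
        (fun _ => (1 : ℝ)))]
  · rw [integral_indicator_const _ hSm, ← hpair, smul_eq_mul, mul_one, measureReal_def,
      Measure.map_apply hyZ hSm, measureReal_def]
    rfl
  · exact (integrable_const (1 : ℝ)).indicator hSm

lemma small_ball_indep {y Z : Ω → ℝ} (hy : Measurable y) (hZ : Measurable Z)
    (hind : IndepFun y Z P) (v : ℝ≥0) (hv : v ≠ 0)
    (hlaw : P.map Z = gaussianReal 0 v) {a : ℝ} (ha : 0 ≤ a) :
    P.real {ω | |y ω + Z ω| ≤ a} ≤ a / √v := by
  have hpair : P.map (fun ω => (y ω, Z ω)) = (P.map y).prod (gaussianReal 0 v) := by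
    rw [← hlaw]
    exact (indepFun_iff_map_prod_eq_prod_map_map hy.aemeasurable hZ.aemeasurable).1 hind
  have hyZ : Measurable (fun ω => (y ω, Z ω)) := hy.prodMk hZ
  have : IsProbabilityMeasure (P.map y) := Measure.isProbabilityMeasure_map hy.aemeasurable
  have hSm : MeasurableSet {q : ℝ × ℝ | |q.1 + q.2| ≤ a} :=
    measurableSet_le (measurable_fst.add measurable_snd).abs measurable_const
  have h1 : P {ω | |y ω + Z ω| ≤ a} = ((P.map y).prod (gaussianReal 0 v))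
      {q : ℝ × ℝ | |q.1 + q.2| ≤ a} := by
    rw [← hpair, Measure.map_apply hyZ hSm]
    rfl
  have h2 : ((P.map y).prod (gaussianReal 0 v)) {q : ℝ × ℝ | |q.1 + q.2| ≤ a}
      ≤ ENNReal.ofReal (a / √v) := by
    rw [Measure.prod_apply hSm]
    calc ∫⁻ x, (gaussianReal 0 v) (Prod.mk x ⁻¹' {q : ℝ × ℝ | |q.1 + q.2| ≤ a}) ∂(P.map y)
        ≤ ∫⁻ _, ENNReal.ofReal (a / √v) ∂(P.map y) := by
          refine lintegral_mono fun x => ?_
          have h3 := small_ball v hv x a ha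
          rw [measureReal_def] at h3
          have h4 : (gaussianReal 0 v) {w | |x + w| ≤ a} ≤ ENNReal.ofReal (a / √v) := by
            rw [← ENNReal.ofReal_toReal (measure_ne_top (gaussianReal 0 v) {w | |x + w| ≤ a})]
            exact ENNReal.ofReal_le_ofReal h3
          exact h4
      _ = ENNReal.ofReal (a / √v) := by simp
  rw [measureReal_def, h1]
  exact ENNReal.toReal_le_of_le_ofReal (by positivity) h2

end OneTime


/-! ### Core -/

set_option linter.unusedSectionVars false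

section Core

variable {Ω : Type*} {mΩ : MeasurableSpace Ω}

/-- Data of the core statement: `lam = max (-x) 0 / d` with `x = 1 + W_1 + A` and
`A = ∫₀¹ m(s) E_s lam ds` (in the weak sense). -/
structure Core (P : Measure Ω) (F : ℝ → MeasurableSpace Ω) (W : ℝ → Ω → ℝ) (lam A : Ω → ℝ)
    (m : ℝ → ℝ) (d : ℝ) : Prop where
  le : ∀ t ∈ Icc (0 : ℝ) 1, F t ≤ mΩ
  mono : ∀ s t, 0 ≤ s → s ≤ t → t ≤ 1 → F s ≤ F t
  meas : ∀ t ∈ Icc (0 : ℝ) 1, Measurable[F t] (W t)
  W2 : ∀ t ∈ Icc (0 : ℝ) 1, MemLp (W t) 2 P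
  indep : ∀ t ∈ Ico (0 : ℝ) 1,
    Indep (F t) (MeasurableSpace.comap (fun ω => W 1 ω - W t ω) inferInstance) P
  law : ∀ t ∈ Ico (0 : ℝ) 1,
    P.map (fun ω => W 1 ω - W t ω) = gaussianReal 0 (Real.toNNReal (1 - t))
  lam2 : MemLp lam 2 P
  A2 : MemLp A 2 P
  m_nonneg : ∀ t ∈ Ioo (0 : ℝ) 1, 0 ≤ m t
  m_int : IntervalIntegrable m volume 0 1
  weak : ∀ ψ : Ω → ℝ, MemLp ψ 2 P → ∫ ω, ψ ω * A ω ∂P
    = ∫ s in (0 : ℝ)..1, m s * ∫ ω, ψ ω * (P[lam|F s]) ω ∂P
  d_pos : 0 < d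
  kkt : lam =ᵐ[P] fun ω => max (-(1 + W 1 ω + A ω)) 0 / d

variable {P : Measure Ω} [IsProbabilityMeasure P] {F : ℝ → MeasurableSpace Ω} {W : ℝ → Ω → ℝ}
  {lam A : Ω → ℝ} {m : ℝ → ℝ} {d : ℝ}

/-- `ρ(t) = ‖lam - E_t lam‖₂`. -/
noncomputable def rho (P : Measure Ω) (F : ℝ → MeasurableSpace Ω) (lam : Ω → ℝ) (t : ℝ) : ℝ :=
  n2 P (fun ω => lam ω - (P[lam|F t]) ω)

/-- `ψ_t = A - E_t A`. -/
noncomputable def psi (P : Measure Ω) (F : ℝ → MeasurableSpace Ω) (A : Ω → ℝ) (t : ℝ) : Ω → ℝ :=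
  fun ω => A ω - (P[A|F t]) ω

/-- `y_t = 1 + W_t + E_t A`. -/
noncomputable def yy (P : Measure Ω) (F : ℝ → MeasurableSpace Ω) (W : ℝ → Ω → ℝ) (A : Ω → ℝ)
    (t : ℝ) : Ω → ℝ := fun ω => 1 + W t ω + (P[A|F t]) ω

/-- `Z_t = W_1 - W_t`. -/
def ZZ (W : ℝ → Ω → ℝ) (t : ℝ) : Ω → ℝ := fun ω => W 1 ω - W t ω

lemma rho_nonneg (t : ℝ) : 0 ≤ rho P F lam t := n2_nonneg _

/-- `|max (-x) 0 / d - max (-y) 0 / d| ≤ |x - y| / d`. -/
lemma abs_neg_sub_le {d : ℝ} (hd : 0 < d) (x y : ℝ) :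
    |max (-x) 0 / d - max (-y) 0 / d| ≤ |x - y| / d := by
  rw [← sub_div, abs_div, abs_of_pos hd]
  refine div_le_div_of_nonneg_right ?_ hd.le
  have := abs_max_sub_max_le_abs (-x) (-y) 0
  refine this.trans (le_of_eq ?_)
  rw [← abs_neg]; congr 1; ring

section facts

variable (h : Core P F W lam A m d)

include h

lemma Core.psi2 (t : ℝ) : MemLp (psi P F A t) 2 P := h.A2.sub (h.A2.condExp (by norm_num))

lemma Core.Z2 {t : ℝ} (ht : t ∈ Icc (0 : ℝ) 1) : MemLp (ZZ W t) 2 P :=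
  (h.W2 1 ⟨by norm_num, le_refl _⟩).sub (h.W2 t ht)

lemma Core.y2 {t : ℝ} (ht : t ∈ Icc (0 : ℝ) 1) : MemLp (yy P F W A t) 2 P := by
  have h1 : MemLp (fun _ : Ω => (1 : ℝ)) 2 P := memLp_const 1
  have h2 : MemLp (fun ω => (1 : ℝ) + W t ω) 2 P := h1.add (h.W2 t ht)
  have h3 : MemLp (P[A|F t]) 2 P := h.A2.condExp (by norm_num)
  exact h2.add h3

lemma Core.Wmeas {t : ℝ} (ht : t ∈ Icc (0 : ℝ) 1) : Measurable (W t) :=
  (h.meas t ht).mono (h.le t ht) le_rfl

lemma Core.Zmeas {t : ℝ} (ht : t ∈ Icc (0 : ℝ) 1) : Measurable (ZZ W t) :=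
  (h.Wmeas ⟨by norm_num, le_refl _⟩).sub (h.Wmeas ht)

lemma Core.ymeasF {t : ℝ} (ht : t ∈ Icc (0 : ℝ) 1) : Measurable[F t] (yy P F W A t) := by
  have h1 : Measurable[F t] (P[A|F t]) := stronglyMeasurable_condExp.measurable
  have h2 : Measurable[F t] (W t) := h.meas t ht
  have h3 : Measurable[F t] (fun ω => (1 : ℝ) + W t ω) := Measurable.const_add h2 1
  exact Measurable.add h3 h1

lemma Core.ymeas {t : ℝ} (ht : t ∈ Icc (0 : ℝ) 1) : Measurable (yy P F W A t) :=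
  (h.ymeasF ht).mono (h.le t ht) le_rfl

lemma Core.indepFun {t : ℝ} (ht : t ∈ Ico (0 : ℝ) 1) {c : Ω → ℝ} (hc : Measurable[F t] c) :
    IndepFun c (ZZ W t) P := by
  have h1 := h.indep t ht
  exact indep_of_indep_of_le_left h1 hc.comap_le

lemma Core.decomp (t : ℝ) (ω : Ω) :
    1 + W 1 ω + A ω = yy P F W A t ω + ZZ W t ω + psi P F A t ω := by
  simp only [yy, ZZ, psi]; ring

lemma Core.intZ {t : ℝ} (ht : t ∈ Ico (0 : ℝ) 1) : ∫ ω, ZZ W t ω ∂P = 0 := by
  have h1 : ∫ ω, ZZ W t ω ∂P = ∫ z, z ∂(P.map (ZZ W t)) :=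
    (integral_map (h.Zmeas ⟨ht.1, ht.2.le⟩).aemeasurable aestronglyMeasurable_id).symm
  rw [h1]
  have h2 : P.map (ZZ W t) = gaussianReal 0 (Real.toNNReal (1 - t)) := h.law t ht
  rw [h2, integral_id_gaussianReal]

lemma Core.intZ2 {t : ℝ} (ht : t ∈ Ico (0 : ℝ) 1) : ∫ ω, ZZ W t ω ^ 2 ∂P = 1 - t := by
  have h1 : ∫ ω, ZZ W t ω ^ 2 ∂P = ∫ z, z ^ 2 ∂(P.map (ZZ W t)) :=
    (integral_map (f := fun z : ℝ => z ^ 2) (h.Zmeas ⟨ht.1, ht.2.le⟩).aemeasurable
      (by fun_prop)).symm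
  rw [h1]
  have h2 : P.map (ZZ W t) = gaussianReal 0 (Real.toNNReal (1 - t)) := h.law t ht
  rw [h2]
  have h3 := variance_fun_id_gaussianReal (μ := 0) (v := Real.toNNReal (1 - t))
  rw [variance_eq_integral measurable_id'.aemeasurable, integral_id_gaussianReal] at h3
  simp only [sub_zero] at h3
  rw [h3, Real.coe_toNNReal _ (by linarith [ht.2])]

lemma Core.n2Z {t : ℝ} (ht : t ∈ Ico (0 : ℝ) 1) : n2 P (ZZ W t) = √(1 - t) := by
  rw [n2, h.intZ2 ht]

lemma Core.int_mul_Z {t : ℝ} (ht : t ∈ Ico (0 : ℝ) 1) {c : Ω → ℝ} (hc : Measurable[F t] c) :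
    ∫ ω, c ω * ZZ W t ω ∂P = 0 := by
  have h1 := (h.indepFun ht hc).integral_fun_mul_eq_mul_integral
    (hc.mono (h.le t ⟨ht.1, ht.2.le⟩) le_rfl).aestronglyMeasurable
    (h.Zmeas ⟨ht.1, ht.2.le⟩).aestronglyMeasurable
  rw [h1, h.intZ ht, mul_zero]

lemma Core.delta_nonneg {t : ℝ} (ht : t ∈ Icc (0 : ℝ) 1) : 0 ≤ ∫ s in t..1, m s := by
  rw [intervalIntegral.integral_of_le ht.2, integral_Ioc_eq_integral_Ioo]
  refine setIntegral_nonneg measurableSet_Ioo fun s hs => ?_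
  exact h.m_nonneg s ⟨ht.1.trans_lt hs.1, hs.2⟩

/-- Claim 1: `‖ψ_t‖ ≤ δ(t) ρ(t)`. -/
lemma Core.psi_le {t : ℝ} (ht : t ∈ Ico (0 : ℝ) 1) :
    n2 P (psi P F A t) ≤ (∫ s in t..1, m s) * rho P F lam t := by
  have ht' : t ∈ Icc (0 : ℝ) 1 := ⟨ht.1, ht.2.le⟩
  have hψ := h.psi2 t
  have hEA : MemLp (P[A|F t]) 2 P := h.A2.condExp (by norm_num)
  have hlt : MemLp (P[lam|F t]) 2 P := h.lam2.condExp (by norm_num)
  have h1 : ∫ ω, psi P F A t ω ^ 2 ∂P = ∫ ω, psi P F A t ω * A ω ∂P := by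
    have h0 := orth (h.le t ht') h.A2 hEA stronglyMeasurable_condExp
    have e : ∀ ω, psi P F A t ω ^ 2 = psi P F A t ω * A ω
        - psi P F A t ω * (P[A|F t]) ω := by
      intro ω; simp only [psi]; ring
    simp_rw [e]
    have h0' : ∫ ω, psi P F A t ω * (P[A|F t]) ω ∂P = 0 := h0
    rw [integral_sub (int_mul hψ h.A2) (int_mul hψ hEA), h0', sub_zero]
  have hw := h.weak _ hψ
  set g : ℝ → ℝ := fun s => ∫ ω, psi P F A t ω * (P[lam|F s]) ω ∂P with hg
  have hg0 : ∀ s ∈ Ioc (0 : ℝ) t, g s = 0 := by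
    intro s hs
    have hls : MemLp (P[lam|F s]) 2 P := h.lam2.condExp (by norm_num)
    exact orth (h.le t ht') h.A2 hls
      (stronglyMeasurable_condExp.mono (h.mono s t hs.1.le hs.2 ht.2.le))
  have hg1 : ∀ s ∈ Ioc t 1, |g s| ≤ n2 P (psi P F A t) * rho P F lam t := by
    intro s hs
    have hs' : s ∈ Icc (0 : ℝ) 1 := ⟨ht.1.trans hs.1.le, hs.2⟩
    have hls : MemLp (P[lam|F s]) 2 P := h.lam2.condExp (by norm_num)
    have h0 : ∫ ω, psi P F A t ω * (P[lam|F t]) ω ∂P = 0 :=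
      orth (h.le t ht') h.A2 hlt stronglyMeasurable_condExp
    have h2 : g s = ∫ ω, psi P F A t ω * ((P[lam|F s]) ω - (P[lam|F t]) ω) ∂P := by
      have e : ∀ ω, psi P F A t ω * ((P[lam|F s]) ω - (P[lam|F t]) ω)
          = psi P F A t ω * (P[lam|F s]) ω - psi P F A t ω * (P[lam|F t]) ω := fun ω => by ring
      simp_rw [e]
      rw [integral_sub (int_mul hψ hls) (int_mul hψ hlt), h0, sub_zero]
    rw [h2]
    have h3 := abs_integral_mul_le hψ (hls.sub hlt)
    refine h3.trans (mul_le_mul_of_nonneg_left ?_ (n2_nonneg _))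
    have h4 : (P[lam|F s] - P[lam|F t]) =ᵐ[P] P[lam - P[lam|F t]|F s] := by
      have h5 := condExp_sub (h.lam2.integrable (by norm_num)) (hlt.integrable (by norm_num)) (F s)
      have h6 : P[P[lam|F t]|F s] = P[lam|F t] :=
        condExp_of_stronglyMeasurable (h.le s hs')
          (stronglyMeasurable_condExp.mono (h.mono t s ht.1 hs.1.le hs.2))
          (hlt.integrable (by norm_num))
      rw [h6] at h5
      exact h5.symm
    rw [n2_congr h4]
    exact n2_condExp_le (h.le s hs') (h.lam2.sub hlt)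
  have h2 : ∫ s in (0 : ℝ)..1, m s * g s = ∫ s in Ioc t 1, m s * g s := by
    rw [intervalIntegral.integral_of_le (by norm_num)]
    refine setIntegral_eq_of_subset_of_forall_sdiff_eq_zero measurableSet_Ioc
      (Ioc_subset_Ioc_left ht.1) ?_
    rintro s ⟨hs1, hs2⟩
    have : s ∈ Ioc (0 : ℝ) t := by
      refine ⟨hs1.1, ?_⟩
      by_contra hlt'
      push Not at hlt'
      exact hs2 ⟨hlt', hs1.2⟩
    rw [hg0 s this, mul_zero]
  set c := n2 P (psi P F A t) * rho P F lam t with hc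
  have hc0 : 0 ≤ c := mul_nonneg (n2_nonneg _) (rho_nonneg _)
  have hmi : IntervalIntegrable m volume t 1 :=
    h.m_int.mono_set (by rw [uIcc_of_le ht.2.le, uIcc_of_le zero_le_one]
                         exact Icc_subset_Icc_left ht.1)
  have h3 : |∫ s in Ioc t 1, m s * g s| ≤ (∫ s in t..1, m s) * c := by
    rw [← intervalIntegral.integral_of_le ht.2.le, ← intervalIntegral.integral_mul_const]
    refine intervalIntegral.norm_integral_le_of_norm_le (f := fun s => m s * g s)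
      (g := fun s => m s * c) ht.2.le ?_ (hmi.mul_const c)
    have : ∀ᵐ s : ℝ, s ≠ 1 := by simp [ae_iff, measure_singleton]
    filter_upwards [this] with s hs1 hs
    have hm : 0 ≤ m s := h.m_nonneg s ⟨ht.1.trans_lt hs.1, lt_of_le_of_ne hs.2 hs1⟩
    rw [norm_mul, Real.norm_eq_abs, Real.norm_eq_abs, abs_of_nonneg hm]
    exact mul_le_mul_of_nonneg_left (hg1 s hs) hm
  rw [← h2, ← hw, ← h1, ← n2_sq, abs_of_nonneg (sq_nonneg _)] at h3
  rcases (n2_nonneg (P := P) (psi P F A t)).eq_or_lt with h4 | h4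
  · rw [← h4]
    exact mul_nonneg (h.delta_nonneg ht') (rho_nonneg _)
  · have h5 : n2 P (psi P F A t) * n2 P (psi P F A t)
        ≤ n2 P (psi P F A t) * ((∫ s in t..1, m s) * rho P F lam t) := by
      rw [hc] at h3
      nlinarith
    exact le_of_mul_le_mul_left h5 h4

lemma Core.cmem {y : Ω → ℝ} (hy : Measurable y) (hy2 : MemLp y 2 P) :
    MemLp (fun ω => max (-(y ω)) 0 / d) 2 P := by
  have hd := h.d_pos
  refine MemLp.mono (hy2.const_mul (1 / d)) ?_ (ae_of_all _ fun ω => ?_)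
  · exact ((hy.neg.max measurable_const).div_const d).aestronglyMeasurable
  · rw [Real.norm_eq_abs, Real.norm_eq_abs, abs_div, abs_mul, abs_of_pos hd,
      abs_of_pos (by positivity : 0 < 1 / d)]
    have : |max (-(y ω)) 0| ≤ |y ω| := by
      rcases le_total (-(y ω)) 0 with h | h
      · rw [max_eq_right h]; simp
      · rw [max_eq_left h, abs_neg]
    calc |max (-(y ω)) 0| / d ≤ |y ω| / d := by gcongr
      _ = 1 / d * |y ω| := by ring

/-- Claim 2: `ρ(t) ≤ (√τ + ‖ψ‖)/d`. -/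
lemma Core.rho_le {t : ℝ} (ht : t ∈ Ico (0 : ℝ) 1) :
    rho P F lam t ≤ (√(1 - t) + n2 P (psi P F A t)) / d := by
  have ht' : t ∈ Icc (0 : ℝ) 1 := ⟨ht.1, ht.2.le⟩
  have hd := h.d_pos
  have hc := h.cmem (h.ymeas ht') (h.y2 ht')
  have hcm : StronglyMeasurable[F t] (fun ω => max (-(yy P F W A t ω)) 0 / d) := by
    have h1 : Measurable[F t] (fun ω => max (-(yy P F W A t ω)) 0 / d) := by
      have h2 : Measurable[F t] (fun ω => -(yy P F W A t ω)) := Measurable.neg (h.ymeasF ht')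
      have h3 : Measurable[F t] (fun ω => max (-(yy P F W A t ω)) 0) :=
        Measurable.max h2 measurable_const
      exact Measurable.div_const h3 d
    exact h1.stronglyMeasurable
  refine (n2_sub_condExp_le (h.le t ht') h.lam2 hc hcm).trans ?_
  have h1 : n2 P (fun ω => lam ω - max (-(yy P F W A t ω)) 0 / d)
      ≤ n2 P (fun ω => (1 / d) * (ZZ W t ω + psi P F A t ω)) := by
    refine n2_mono (((h.Z2 ht').add (h.psi2 t)).const_mul _) ?_
    filter_upwards [h.kkt] with ω hω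
    rw [hω]
    refine (abs_neg_sub_le hd _ _).trans (le_of_eq ?_)
    rw [h.decomp t ω, abs_mul, abs_of_pos (by positivity : 0 < 1 / d)]
    rw [show yy P F W A t ω + ZZ W t ω + psi P F A t ω - yy P F W A t ω
      = ZZ W t ω + psi P F A t ω by ring, div_eq_inv_mul, one_div]
  refine h1.trans ?_
  rw [n2_const_mul, abs_of_pos (by positivity : 0 < 1 / d)]
  have h2 := n2_add_le (h.Z2 ht') (h.psi2 t)
  rw [h.n2Z ht] at h2
  calc 1 / d * n2 P (fun ω => ZZ W t ω + psi P F A t ω)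
      ≤ 1 / d * (√(1 - t) + n2 P (psi P F A t)) := by gcongr
    _ = _ := by ring

lemma Core.psi_small {t : ℝ} (ht : t ∈ Ico (0 : ℝ) 1) (hδ : ∫ s in t..1, m s ≤ d / 2) :
    n2 P (psi P F A t) ≤ (∫ s in t..1, m s) * (2 * √(1 - t) / d) := by
  have hd := h.d_pos
  have h1 := h.psi_le ht
  have h2 := h.rho_le ht
  have hr := rho_nonneg (P := P) (F := F) (lam := lam) t
  have hδ0 := h.delta_nonneg ⟨ht.1, ht.2.le⟩
  have h3 : rho P F lam t ≤ 2 * √(1 - t) / d := by
    rw [le_div_iff₀ hd] at h2 ⊢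
    nlinarith
  exact h1.trans (mul_le_mul_of_nonneg_left h3 hδ0)

lemma Core.vpos {t : ℝ} (ht : t ∈ Ico (0 : ℝ) 1) : Real.toNNReal (1 - t) ≠ 0 := by
  have : 0 < 1 - t := by linarith [ht.2]
  simpa using this

/-- (T1) upper bound for `-E[lam Z]`. -/
lemma Core.T1 {t : ℝ} (ht : t ∈ Ico (0 : ℝ) 1) :
    -∫ ω, lam ω * ZZ W t ω ∂P
      ≤ (1 - t) / d * P.real {ω | yy P F W A t ω + ZZ W t ω < 0}
        + n2 P (psi P F A t) * √(1 - t) / d := by
  have ht' : t ∈ Icc (0 : ℝ) 1 := ⟨ht.1, ht.2.le⟩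
  have hd := h.d_pos
  have hZ := h.Z2 ht'
  have hτ : (0 : ℝ) ≤ 1 - t := by linarith [ht.2]
  have hst := stein_indep (h.ymeas ht') (h.Zmeas ht') (h.y2 ht') hZ
    (h.indepFun ht (h.ymeasF ht')) _ (h.vpos ht) (h.law t ht) MeasurableSet.univ
  rw [Real.coe_toNNReal _ hτ] at hst
  simp only [preimage_univ, indicator_univ, one_mul, mem_univ, true_and] at hst
  have hzm : Measurable (fun ω => yy P F W A t ω + ZZ W t ω) := (h.ymeas ht').add (h.Zmeas ht')
  have hz := h.cmem hzm ((h.y2 ht').add hZ)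
  have hlz : MemLp (fun ω => lam ω - max (-(yy P F W A t ω + ZZ W t ω)) 0 / d) 2 P :=
    h.lam2.sub hz
  have h1 : ∫ ω, lam ω * ZZ W t ω ∂P
      = (∫ ω, (max (-(yy P F W A t ω + ZZ W t ω)) 0 / d) * ZZ W t ω ∂P)
        + ∫ ω, (lam ω - max (-(yy P F W A t ω + ZZ W t ω)) 0 / d) * ZZ W t ω ∂P := by
    rw [← integral_add (int_mul hz hZ) (int_mul hlz hZ)]
    refine integral_congr_ae (ae_of_all _ fun ω => ?_)
    simp only
    ring
  have h2 : ∫ ω, (max (-(yy P F W A t ω + ZZ W t ω)) 0 / d) * ZZ W t ω ∂P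
      = -((1 - t) / d * P.real {ω | yy P F W A t ω + ZZ W t ω < 0}) := by
    have e : ∀ ω, (max (-(yy P F W A t ω + ZZ W t ω)) 0 / d) * ZZ W t ω
        = (1 / d) * (max (-(yy P F W A t ω + ZZ W t ω)) 0 * ZZ W t ω) := fun ω => by ring
    simp_rw [e]
    rw [integral_const_mul, hst]
    ring
  have h3 := abs_integral_mul_le (h.lam2.sub hz) hZ
  have h4 : n2 P (lam - fun ω => max (-(yy P F W A t ω + ZZ W t ω)) 0 / d)
      ≤ n2 P (psi P F A t) / d := by
    have h5 : n2 P (lam - fun ω => max (-(yy P F W A t ω + ZZ W t ω)) 0 / d)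
        ≤ n2 P (fun ω => (1 / d) * psi P F A t ω) := by
      refine n2_mono ((h.psi2 t).const_mul _) ?_
      filter_upwards [h.kkt] with ω hω
      rw [Pi.sub_apply, hω]
      refine (abs_neg_sub_le hd _ _).trans (le_of_eq ?_)
      rw [h.decomp t ω, abs_mul, abs_of_pos (by positivity : 0 < 1 / d)]
      rw [show yy P F W A t ω + ZZ W t ω + psi P F A t ω - (yy P F W A t ω + ZZ W t ω)
        = psi P F A t ω by ring, div_eq_inv_mul, one_div]
    rw [n2_const_mul, abs_of_pos (by positivity : 0 < 1 / d)] at h5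
    calc _ ≤ 1 / d * n2 P (psi P F A t) := h5
      _ = _ := by ring
  have h6 : n2 P (lam - fun ω => max (-(yy P F W A t ω + ZZ W t ω)) 0 / d) * n2 P (ZZ W t)
      ≤ n2 P (psi P F A t) / d * √(1 - t) := by
    rw [h.n2Z ht]
    exact mul_le_mul_of_nonneg_right h4 (Real.sqrt_nonneg _)
  have h7 := (neg_abs_le (∫ ω, (lam - fun ω => max (-(yy P F W A t ω + ZZ W t ω)) 0 / d) ω
      * ZZ W t ω ∂P))
  have h8 : ∫ ω, (lam - fun ω => max (-(yy P F W A t ω + ZZ W t ω)) 0 / d) ω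
      * ZZ W t ω ∂P = ∫ ω, (lam ω - max (-(yy P F W A t ω + ZZ W t ω)) 0 / d)
        * ZZ W t ω ∂P := rfl
  rw [h8] at h7 h3
  have h9 : n2 P (psi P F A t) / d * √(1 - t) = n2 P (psi P F A t) * √(1 - t) / d := by ring
  rw [h1, h2]
  linarith

/-- (T2) lower bound for `ρ`. -/
lemma Core.T2 {t : ℝ} (ht : t ∈ Ico (0 : ℝ) 1) :
    (1 - t) / d * P.real {ω | yy P F W A t ω < 0 ∧ yy P F W A t ω + ZZ W t ω < 0}
        - n2 P (psi P F A t) * √(1 - t) / d
      ≤ rho P F lam t * (√(1 - t) * √(P.real {ω | yy P F W A t ω < 0})) := by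
  have ht' : t ∈ Icc (0 : ℝ) 1 := ⟨ht.1, ht.2.le⟩
  have hd := h.d_pos
  have hZ := h.Z2 ht'
  have hτ : (0 : ℝ) ≤ 1 - t := by linarith [ht.2]
  have hst := stein_indep (h.ymeas ht') (h.Zmeas ht') (h.y2 ht') hZ
    (h.indepFun ht (h.ymeasF ht')) _ (h.vpos ht) (h.law t ht) (measurableSet_Iio (a := (0 : ℝ)))
  rw [Real.coe_toNNReal _ hτ] at hst
  simp only [mem_Iio] at hst
  set I : Ω → ℝ := (yy P F W A t ⁻¹' Iio 0).indicator (fun _ => (1 : ℝ)) with hI
  have hIm : Measurable[F t] I :=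
    Measurable.indicator measurable_const (h.ymeasF ht' measurableSet_Iio)
  have hImm : Measurable I := hIm.mono (h.le t ht') le_rfl
  have hI1 : ∀ ω, |I ω| ≤ 1 := by
    intro ω
    by_cases hb : ω ∈ yy P F W A t ⁻¹' Iio 0
    · simp [hI, indicator_of_mem hb]
    · simp [hI, indicator_of_notMem hb]
  have hII : ∀ ω, I ω * I ω = I ω := by
    intro ω
    by_cases hb : ω ∈ yy P F W A t ⁻¹' Iio 0
    · simp [hI, indicator_of_mem hb]
    · simp [hI, indicator_of_notMem hb]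
  have hφ : MemLp (fun ω => I ω * ZZ W t ω) 2 P := by
    refine hZ.mono (hImm.mul (h.Zmeas ht')).aestronglyMeasurable (ae_of_all _ fun ω => ?_)
    rw [norm_mul]
    calc ‖I ω‖ * ‖ZZ W t ω‖ ≤ 1 * ‖ZZ W t ω‖ := by
          gcongr; exact hI1 ω
      _ = _ := one_mul _
  have hφ2 : n2 P (fun ω => I ω * ZZ W t ω) = √(1 - t) * √(P.real {ω | yy P F W A t ω < 0}) := by
    rw [n2, ← Real.sqrt_mul hτ]
    congr 1
    have e : ∀ ω, (I ω * ZZ W t ω) ^ 2 = I ω * (ZZ W t ω ^ 2) := by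
      intro ω
      rw [mul_pow, pow_two (I ω), hII]
    simp_rw [e]
    have h1 : IndepFun I (fun ω => ZZ W t ω ^ 2) P :=
      (h.indepFun ht hIm).comp measurable_id (measurable_id.pow_const 2)
    rw [h1.integral_fun_mul_eq_mul_integral hImm.aestronglyMeasurable
      ((h.Zmeas ht').pow_const 2).aestronglyMeasurable, h.intZ2 ht]
    rw [hI, integral_indicator_const _ (h.ymeas ht' measurableSet_Iio), smul_eq_mul, mul_one,
      mul_comm]
    rfl
  have hEl : MemLp (P[lam|F t]) 2 P := h.lam2.condExp (by norm_num)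
  have h1 : ∫ ω, (P[lam|F t]) ω * (I ω * ZZ W t ω) ∂P = 0 := by
    have h2 : Measurable[F t] (fun ω => (P[lam|F t]) ω * I ω) :=
      Measurable.mul stronglyMeasurable_condExp.measurable hIm
    have h3 := h.int_mul_Z ht h2
    simpa [mul_assoc] using h3
  have hzm : Measurable (fun ω => yy P F W A t ω + ZZ W t ω) := (h.ymeas ht').add (h.Zmeas ht')
  have hz := h.cmem hzm ((h.y2 ht').add hZ)
  have hlz : MemLp (fun ω => lam ω - max (-(yy P F W A t ω + ZZ W t ω)) 0 / d) 2 P :=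
    h.lam2.sub hz
  have h2 : ∫ ω, (lam ω - (P[lam|F t]) ω) * (I ω * ZZ W t ω) ∂P
      = (∫ ω, (max (-(yy P F W A t ω + ZZ W t ω)) 0 / d) * (I ω * ZZ W t ω) ∂P)
        + ∫ ω, (lam ω - max (-(yy P F W A t ω + ZZ W t ω)) 0 / d) * (I ω * ZZ W t ω) ∂P := by
    have e : ∀ ω, (lam ω - (P[lam|F t]) ω) * (I ω * ZZ W t ω)
        = lam ω * (I ω * ZZ W t ω) - (P[lam|F t]) ω * (I ω * ZZ W t ω) := fun ω => by ring
    simp_rw [e]
    rw [integral_sub (int_mul h.lam2 hφ) (int_mul hEl hφ), h1, sub_zero,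
      ← integral_add (int_mul hz hφ) (int_mul hlz hφ)]
    refine integral_congr_ae (ae_of_all _ fun ω => ?_)
    simp only
    ring
  have h3 : ∫ ω, (max (-(yy P F W A t ω + ZZ W t ω)) 0 / d) * (I ω * ZZ W t ω) ∂P
      = -((1 - t) / d * P.real {ω | yy P F W A t ω < 0 ∧ yy P F W A t ω + ZZ W t ω < 0}) := by
    have e : ∀ ω, (max (-(yy P F W A t ω + ZZ W t ω)) 0 / d) * (I ω * ZZ W t ω)
        = (1 / d) * (I ω * (max (-(yy P F W A t ω + ZZ W t ω)) 0 * ZZ W t ω)) :=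
      fun ω => by ring
    simp_rw [e]
    rw [integral_const_mul, hst]
    ring
  have h4 : n2 P (lam - fun ω => max (-(yy P F W A t ω + ZZ W t ω)) 0 / d)
      ≤ n2 P (psi P F A t) / d := by
    have h5 : n2 P (lam - fun ω => max (-(yy P F W A t ω + ZZ W t ω)) 0 / d)
        ≤ n2 P (fun ω => (1 / d) * psi P F A t ω) := by
      refine n2_mono ((h.psi2 t).const_mul _) ?_
      filter_upwards [h.kkt] with ω hω
      rw [Pi.sub_apply, hω]
      refine (abs_neg_sub_le hd _ _).trans (le_of_eq ?_)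
      rw [h.decomp t ω, abs_mul, abs_of_pos (by positivity : 0 < 1 / d)]
      rw [show yy P F W A t ω + ZZ W t ω + psi P F A t ω - (yy P F W A t ω + ZZ W t ω)
        = psi P F A t ω by ring, div_eq_inv_mul, one_div]
    rw [n2_const_mul, abs_of_pos (by positivity : 0 < 1 / d)] at h5
    calc _ ≤ 1 / d * n2 P (psi P F A t) := h5
      _ = _ := by ring
  have h5 : |∫ ω, (lam ω - max (-(yy P F W A t ω + ZZ W t ω)) 0 / d) * (I ω * ZZ W t ω) ∂P|
      ≤ n2 P (psi P F A t) / d * √(1 - t) := by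
    refine (abs_integral_mul_le (h.lam2.sub hz) hφ).trans ?_
    refine mul_le_mul h4 ?_ (n2_nonneg _) (by
      have := n2_nonneg (P := P) (psi P F A t)
      positivity)
    rw [← h.n2Z ht]
    refine n2_mono hZ (ae_of_all _ fun ω => ?_)
    rw [abs_mul]
    calc |I ω| * |ZZ W t ω| ≤ 1 * |ZZ W t ω| := by
          gcongr; exact hI1 ω
      _ = _ := one_mul _
  have h6 := abs_integral_mul_le (h.lam2.sub hEl) hφ
  rw [hφ2] at h6
  have h7 : ∫ ω, (lam - P[lam|F t]) ω * (I ω * ZZ W t ω) ∂P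
      = ∫ ω, (lam ω - (P[lam|F t]) ω) * (I ω * ZZ W t ω) ∂P := rfl
  rw [h7, h2, h3] at h6
  have h8 : n2 P (lam - P[lam|F t]) = rho P F lam t := rfl
  rw [h8] at h6
  have h9 : n2 P (psi P F A t) / d * √(1 - t) = n2 P (psi P F A t) * √(1 - t) / d := by ring
  have h10 := (abs_le.1 h5).2
  have h11 := (abs_le.1 h6).1
  linarith

end facts

/-! ### Limits `t → 1` -/

lemma cheb {f : Ω → ℝ} (hf : MemLp f 2 P) {ε : ℝ} (hε : 0 < ε) :
    P.real {ω | ε ≤ |f ω|} ≤ n2 P f ^ 2 / ε ^ 2 := by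
  have h1 := mul_meas_ge_le_integral_of_nonneg (μ := P) (f := fun ω => f ω ^ 2)
    (ae_of_all _ fun ω => sq_nonneg _) hf.integrable_sq (ε ^ 2)
  rw [← n2_sq] at h1
  have h2 : {ω | ε ≤ |f ω|} = {ω | ε ^ 2 ≤ f ω ^ 2} := by
    ext ω
    simp only [mem_ofPred_eq]
    rw [sq_le_sq, abs_of_pos hε]
  rw [h2, le_div_iff₀ (by positivity), mul_comm]
  exact h1

lemma close1 (x y : Ω → ℝ) (ε : ℝ) :
    P.real {ω | y ω < 0} ≤ P.real {ω | x ω < 0} + P.real {ω | |x ω| ≤ ε}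
      + P.real {ω | ε ≤ |x ω - y ω|} := by
  have h1 : {ω | y ω < 0} ⊆ ({ω | x ω < 0} ∪ {ω | |x ω| ≤ ε}) ∪ {ω | ε ≤ |x ω - y ω|} := by
    intro ω hω
    simp only [mem_ofPred_eq] at hω
    by_contra hcon
    simp only [mem_union, mem_ofPred_eq, not_or, not_lt, not_le] at hcon
    obtain ⟨⟨h1, h2⟩, h3⟩ := hcon
    rw [abs_of_nonneg h1] at h2
    have := (abs_lt.1 h3).2
    linarith
  refine (measureReal_mono h1).trans ((measureReal_union_le _ _).trans ?_)
  gcongr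
  exact measureReal_union_le _ _

lemma close2 (x y z : Ω → ℝ) (ε : ℝ) :
    P.real {ω | x ω < 0} ≤ P.real {ω | y ω < 0 ∧ z ω < 0} + P.real {ω | |x ω| ≤ ε}
      + P.real {ω | ε ≤ |x ω - y ω|} + P.real {ω | ε ≤ |x ω - z ω|} := by
  have h1 : {ω | x ω < 0} ⊆ (({ω | y ω < 0 ∧ z ω < 0} ∪ {ω | |x ω| ≤ ε})
      ∪ {ω | ε ≤ |x ω - y ω|}) ∪ {ω | ε ≤ |x ω - z ω|} := by
    intro ω hω
    simp only [mem_ofPred_eq] at hω
    by_contra hcon
    simp only [mem_union, mem_ofPred_eq, not_or, not_le] at hcon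
    obtain ⟨⟨⟨h1, h2⟩, h3⟩, h4⟩ := hcon
    rw [abs_of_neg hω] at h2
    have h5 := (abs_lt.1 h3).1
    have h6 := (abs_lt.1 h4).1
    exact h1 ⟨by linarith, by linarith⟩
  refine (measureReal_mono h1).trans ((measureReal_union_le _ _).trans ?_)
  gcongr
  refine (measureReal_union_le _ _).trans ?_
  gcongr
  exact measureReal_union_le _ _

section main

variable (h : Core P F W lam A m d)

include h

lemma Core.delta_tendsto : Tendsto (fun t => ∫ s in t..1, m s) (𝓝[<] (1 : ℝ)) (𝓝 0) := by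
  have h1 : IntegrableOn m (uIcc (0 : ℝ) 1) := by
    have := h.m_int
    rw [intervalIntegrable_iff_integrableOn_Icc_of_le zero_le_one] at this
    rwa [uIcc_of_le zero_le_one]
  have h2 := intervalIntegral.continuousOn_primitive_interval_left h1
  have h3 := h2 1 right_mem_uIcc
  have h4 : Tendsto (fun t => ∫ s in t..1, m s) (𝓝[uIcc 0 1] (1 : ℝ)) (𝓝 (∫ s in (1:ℝ)..1, m s)) :=
    h3
  rw [intervalIntegral.integral_same] at h4
  refine h4.mono_left ?_
  refine nhdsWithin_le_iff.2 ?_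
  rw [uIcc_of_le zero_le_one]
  filter_upwards [Ioo_mem_nhdsLT (show (0 : ℝ) < 1 by norm_num)] with t ht
  exact ⟨ht.1.le, ht.2.le⟩

lemma Core.x2 : MemLp (fun ω => 1 + W 1 ω + A ω) 2 P := by
  have h1 : MemLp (fun _ : Ω => (1 : ℝ)) 2 P := memLp_const 1
  have h2 : MemLp (fun ω => (1 : ℝ) + W 1 ω) 2 P := h1.add (h.W2 1 ⟨zero_le_one, le_refl _⟩)
  exact h2.add h.A2

lemma Core.small {η : ℝ} (hη : 0 < η) :
    ∃ ε : ℝ, 0 < ε ∧ P.real {ω | |1 + W 1 ω + A ω| ≤ ε} ≤ η := by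
  have hd := h.d_pos
  set κ := η / 4 with hκ
  have hκ0 : 0 < κ := by positivity
  have hδ := h.delta_tendsto
  have h1 : Tendsto (fun t => (2 * (∫ s in t..1, m s) / d) ^ 2 / κ ^ 2) (𝓝[<] (1 : ℝ)) (𝓝 0) := by
    have := (((hδ.const_mul 2).div_const d).pow 2).div_const (κ ^ 2)
    simpa using this
  have h2 : ∀ᶠ t in 𝓝[<] (1 : ℝ), (2 * (∫ s in t..1, m s) / d) ^ 2 / κ ^ 2 < η / 2 :=
    h1.eventually (gt_mem_nhds (by positivity))
  have h3 : ∀ᶠ t in 𝓝[<] (1 : ℝ), (∫ s in t..1, m s) < d / 2 :=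
    hδ.eventually (gt_mem_nhds (by positivity))
  have h4 : ∀ᶠ t in 𝓝[<] (1 : ℝ), t ∈ Ioo (0 : ℝ) 1 :=
    Ioo_mem_nhdsLT (show (0 : ℝ) < 1 by norm_num)
  obtain ⟨t, h2t, h3t, h4t⟩ := (h2.and (h3.and h4)).exists
  have ht : t ∈ Ico (0 : ℝ) 1 := ⟨h4t.1.le, h4t.2⟩
  have ht' : t ∈ Icc (0 : ℝ) 1 := ⟨h4t.1.le, h4t.2.le⟩
  have hτ : 0 < 1 - t := by linarith [h4t.2]
  have hs : 0 < √(1 - t) := Real.sqrt_pos.2 hτ
  refine ⟨κ * √(1 - t), by positivity, ?_⟩
  have h5 := h.psi_small ht h3t.le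
  have h6 := cheb (h.psi2 t) (ε := κ * √(1 - t)) (by positivity)
  have h7 := small_ball_indep (h.ymeas ht') (h.Zmeas ht') (h.indepFun ht (h.ymeasF ht')) _
    (h.vpos ht) (h.law t ht) (a := 2 * (κ * √(1 - t))) (by positivity)
  rw [Real.coe_toNNReal _ hτ.le] at h7
  have h8 : {ω | |1 + W 1 ω + A ω| ≤ κ * √(1 - t)}
      ⊆ {ω | |yy P F W A t ω + ZZ W t ω| ≤ 2 * (κ * √(1 - t))}
        ∪ {ω | κ * √(1 - t) ≤ |psi P F A t ω|} := by
    intro ω hω
    simp only [mem_ofPred_eq] at hω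
    by_contra hcon
    simp only [mem_union, mem_ofPred_eq, not_or, not_le] at hcon
    rw [h.decomp t ω] at hω
    have h9 : |yy P F W A t ω + ZZ W t ω|
        ≤ |yy P F W A t ω + ZZ W t ω + psi P F A t ω| + |psi P F A t ω| := by
      have := abs_sub (yy P F W A t ω + ZZ W t ω + psi P F A t ω) (psi P F A t ω)
      simpa using this
    linarith [hcon.1, hcon.2]
  refine (measureReal_mono h8).trans ((measureReal_union_le _ _).trans ?_)
  have h9 : 2 * (κ * √(1 - t)) / √(1 - t) = η / 2 := by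
    rw [hκ]; field_simp; ring
  have h10 : n2 P (psi P F A t) ^ 2 / (κ * √(1 - t)) ^ 2
      ≤ (2 * (∫ s in t..1, m s) / d) ^ 2 / κ ^ 2 := by
    have h11 : n2 P (psi P F A t) ^ 2 ≤ ((∫ s in t..1, m s) * (2 * √(1 - t) / d)) ^ 2 :=
      pow_le_pow_left₀ (n2_nonneg _) h5 2
    calc n2 P (psi P F A t) ^ 2 / (κ * √(1 - t)) ^ 2
        ≤ ((∫ s in t..1, m s) * (2 * √(1 - t) / d)) ^ 2 / (κ * √(1 - t)) ^ 2 := by gcongr
      _ = _ := by field_simp
  rw [h9] at h7
  linarith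

lemma Core.ev {η : ℝ} (hη : 0 < η) :
    ∀ᶠ t in 𝓝[<] (1 : ℝ), t ∈ Ioo (0 : ℝ) 1 ∧ (∫ s in t..1, m s) ≤ η * d ∧
      -∫ ω, lam ω * ZZ W t ω ∂P
        ≤ (1 - t) / d * (P.real {ω | 1 + W 1 ω + A ω < 0} + 3 * η) ∧
      (1 - t) / d ^ 2 * (P.real {ω | 1 + W 1 ω + A ω < 0} - 10 * η) ≤ rho P F lam t ^ 2 := by
  have hd := h.d_pos
  obtain ⟨ε, hε, hsm⟩ := h.small hη
  have hδ := h.delta_tendsto
  have h1 : ∀ᶠ t in 𝓝[<] (1 : ℝ), (∫ s in t..1, m s) < η * d / 2 :=
    hδ.eventually (gt_mem_nhds (by positivity))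
  have h3 : ∀ᶠ t in 𝓝[<] (1 : ℝ), (∫ s in t..1, m s) < d / 2 :=
    hδ.eventually (gt_mem_nhds (by positivity))
  have h4 : ∀ᶠ t in 𝓝[<] (1 : ℝ), t ∈ Ioo (0 : ℝ) 1 :=
    Ioo_mem_nhdsLT (show (0 : ℝ) < 1 by norm_num)
  have h5 : ∀ᶠ t in 𝓝[<] (1 : ℝ), (1 + η) ^ 2 * (1 - t) < η * ε ^ 2 := by
    have : Tendsto (fun t : ℝ => (1 + η) ^ 2 * (1 - t)) (𝓝[<] (1 : ℝ)) (𝓝 0) := by
      have h6 : Tendsto (fun t : ℝ => (1 + η) ^ 2 * (1 - t)) (𝓝 (1 : ℝ))
          (𝓝 ((1 + η) ^ 2 * (1 - 1))) := by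
        apply Continuous.tendsto
        fun_prop
      simpa using h6.mono_left nhdsWithin_le_nhds
    exact this.eventually (gt_mem_nhds (by positivity))
  filter_upwards [h1, h3, h4, h5] with t h1t h3t h4t h5t
  have ht : t ∈ Ico (0 : ℝ) 1 := ⟨h4t.1.le, h4t.2⟩
  have ht' : t ∈ Icc (0 : ℝ) 1 := ⟨h4t.1.le, h4t.2.le⟩
  have hτ : 0 < 1 - t := by linarith [h4t.2]
  have hs : 0 < √(1 - t) := Real.sqrt_pos.2 hτ
  have hss : √(1 - t) * √(1 - t) = 1 - t := Real.mul_self_sqrt hτ.le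
  set p := P.real {ω | 1 + W 1 ω + A ω < 0} with hp
  have hp0 : 0 ≤ p := measureReal_nonneg
  have hψ : n2 P (psi P F A t) ≤ η * √(1 - t) := by
    refine (h.psi_small ht h3t.le).trans ?_
    have : (∫ s in t..1, m s) * (2 * √(1 - t) / d) ≤ (η * d / 2) * (2 * √(1 - t) / d) := by
      gcongr
    refine this.trans (le_of_eq ?_)
    field_simp
  have hψ0 := n2_nonneg (P := P) (psi P F A t)
  -- Chebyshev bounds
  have c1 : P.real {ω | ε ≤ |(1 + W 1 ω + A ω) - (yy P F W A t ω + ZZ W t ω)|} ≤ η := by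
    have e : {ω | ε ≤ |(1 + W 1 ω + A ω) - (yy P F W A t ω + ZZ W t ω)|}
        = {ω | ε ≤ |psi P F A t ω|} := by
      ext ω
      simp only [mem_ofPred_eq]
      rw [h.decomp t ω]
      rw [show yy P F W A t ω + ZZ W t ω + psi P F A t ω - (yy P F W A t ω + ZZ W t ω)
        = psi P F A t ω by ring]
    rw [e]
    refine (cheb (h.psi2 t) hε).trans ?_
    rw [div_le_iff₀ (by positivity)]
    have h6 : n2 P (psi P F A t) ^ 2 ≤ (η * √(1 - t)) ^ 2 := pow_le_pow_left₀ hψ0 hψ 2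
    have h7 : (η * √(1 - t)) ^ 2 = η ^ 2 * (1 - t) := by
      rw [mul_pow, pow_two (√(1 - t)), hss]
    have h8 : η ^ 2 * (1 - t) ≤ (1 + η) ^ 2 * (1 - t) := by
      gcongr
      linarith
    linarith
  have c2 : P.real {ω | ε ≤ |(1 + W 1 ω + A ω) - yy P F W A t ω|} ≤ η := by
    have e : {ω | ε ≤ |(1 + W 1 ω + A ω) - yy P F W A t ω|}
        = {ω | ε ≤ |ZZ W t ω + psi P F A t ω|} := by
      ext ω
      simp only [mem_ofPred_eq]
      rw [h.decomp t ω]
      rw [show yy P F W A t ω + ZZ W t ω + psi P F A t ω - yy P F W A t ω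
        = ZZ W t ω + psi P F A t ω by ring]
    rw [e]
    have hzp : MemLp (fun ω => ZZ W t ω + psi P F A t ω) 2 P := (h.Z2 ht').add (h.psi2 t)
    refine (cheb hzp hε).trans ?_
    rw [div_le_iff₀ (by positivity)]
    have h5' := n2_add_le (h.Z2 ht') (h.psi2 t)
    rw [h.n2Z ht] at h5'
    have h6 : n2 P (fun ω => ZZ W t ω + psi P F A t ω) ^ 2 ≤ ((1 + η) * √(1 - t)) ^ 2 :=
      pow_le_pow_left₀ (n2_nonneg _) (by linarith) 2
    have h7 : ((1 + η) * √(1 - t)) ^ 2 = (1 + η) ^ 2 * (1 - t) := by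
      rw [mul_pow, pow_two (√(1 - t)), hss]
    linarith
  have p3 : P.real {ω | yy P F W A t ω + ZZ W t ω < 0} ≤ p + 2 * η := by
    have := close1 (P := P) (fun ω => 1 + W 1 ω + A ω) (fun ω => yy P F W A t ω + ZZ W t ω) ε
    linarith
  have p2 : P.real {ω | yy P F W A t ω < 0} ≤ p + 2 * η := by
    have := close1 (P := P) (fun ω => 1 + W 1 ω + A ω) (fun ω => yy P F W A t ω) ε
    linarith
  have p1 : p - 3 * η ≤ P.real {ω | yy P F W A t ω < 0 ∧ yy P F W A t ω + ZZ W t ω < 0} := by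
    have := close2 (P := P) (fun ω => 1 + W 1 ω + A ω) (fun ω => yy P F W A t ω)
      (fun ω => yy P F W A t ω + ZZ W t ω) ε
    linarith
  have hψs : n2 P (psi P F A t) * √(1 - t) / d ≤ (1 - t) / d * η := by
    have h6 : n2 P (psi P F A t) * √(1 - t) ≤ η * (1 - t) := by
      calc n2 P (psi P F A t) * √(1 - t) ≤ (η * √(1 - t)) * √(1 - t) := by gcongr
        _ = η * (1 - t) := by rw [mul_assoc, hss]
    calc n2 P (psi P F A t) * √(1 - t) / d ≤ η * (1 - t) / d := by gcongr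
      _ = _ := by ring
  have hτd : 0 < (1 - t) / d := by positivity
  refine ⟨h4t, by nlinarith, ?_, ?_⟩
  · refine (h.T1 ht).trans ?_
    have h6 : (1 - t) / d * P.real {ω | yy P F W A t ω + ZZ W t ω < 0}
        ≤ (1 - t) / d * (p + 2 * η) := by gcongr
    nlinarith
  · have hT2 := h.T2 ht
    have h6 : (1 - t) / d * (p - 3 * η)
        ≤ (1 - t) / d * P.real {ω | yy P F W A t ω < 0 ∧ yy P F W A t ω + ZZ W t ω < 0} := by
      gcongr
    have h7 : (1 - t) / d * (p - 4 * η)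
        ≤ rho P F lam t * (√(1 - t) * √(p + 2 * η)) := by
      have h8 : rho P F lam t * (√(1 - t) * √(P.real {ω | yy P F W A t ω < 0}))
          ≤ rho P F lam t * (√(1 - t) * √(p + 2 * η)) := by
        have := rho_nonneg (P := P) (F := F) (lam := lam) t
        gcongr
      nlinarith
    rcases le_or_gt (p - 4 * η) 0 with h8 | h8
    · have h9 : (1 - t) / d ^ 2 * (p - 10 * η) ≤ 0 := by
        apply mul_nonpos_of_nonneg_of_nonpos
        · positivity
        · linarith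
      exact h9.trans (sq_nonneg _)
    · have h9 : ((1 - t) / d * (p - 4 * η)) ^ 2
          ≤ (rho P F lam t * (√(1 - t) * √(p + 2 * η))) ^ 2 :=
        pow_le_pow_left₀ (by positivity) h7 2
      have h10 : (rho P F lam t * (√(1 - t) * √(p + 2 * η))) ^ 2
          = rho P F lam t ^ 2 * (1 - t) * (p + 2 * η) := by
        rw [mul_pow, mul_pow, Real.sq_sqrt hτ.le, Real.sq_sqrt (by positivity)]
        ring
      rw [h10] at h9
      have h11 : ((1 - t) / d * (p - 4 * η)) ^ 2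
          = ((1 - t) / d ^ 2 * (p - 4 * η) ^ 2) * (1 - t) := by
        field_simp
      rw [h11] at h9
      have h12 : (1 - t) / d ^ 2 * (p - 4 * η) ^ 2 ≤ rho P F lam t ^ 2 * (p + 2 * η) := by
        have : ((1 - t) / d ^ 2 * (p - 4 * η) ^ 2) * (1 - t)
            ≤ (rho P F lam t ^ 2 * (p + 2 * η)) * (1 - t) := by linarith
        exact le_of_mul_le_mul_right this hτ
      have h13 : (p + 2 * η) * (p - 10 * η) ≤ (p - 4 * η) ^ 2 := by nlinarith
      have h14 : (1 - t) / d ^ 2 * ((p + 2 * η) * (p - 10 * η))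
          ≤ (1 - t) / d ^ 2 * (p - 4 * η) ^ 2 := by gcongr
      have h15 : ((1 - t) / d ^ 2 * (p - 10 * η)) * (p + 2 * η)
          ≤ rho P F lam t ^ 2 * (p + 2 * η) := by
        calc _ = (1 - t) / d ^ 2 * ((p + 2 * η) * (p - 10 * η)) := by ring
          _ ≤ _ := h14.trans h12
      exact le_of_mul_le_mul_right h15 (by positivity)

lemma Core.rho_antitone {s t : ℝ} (hs : 0 ≤ s) (hst : s ≤ t) (ht : t ≤ 1) :
    rho P F lam t ≤ rho P F lam s :=
  n2_sub_condExp_le (h.le t ⟨hs.trans hst, ht⟩) h.lam2 (h.lam2.condExp (by norm_num))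
    (stronglyMeasurable_condExp.mono (h.mono s t hs hst ht))

lemma Core.rho_int {r : ℝ} (hr : 0 ≤ r) (hr1 : r ≤ 1) :
    IntervalIntegrable (fun t => rho P F lam t ^ 2) volume r 1 := by
  have : AntitoneOn (fun t => rho P F lam t ^ 2) (uIcc r 1) := by
    rw [uIcc_of_le hr1]
    intro s hs t ht hst
    exact pow_le_pow_left₀ (rho_nonneg _) (h.rho_antitone (hr.trans hs.1) hst ht.2) 2
  exact this.intervalIntegrable

/-- **Core theorem**: the two inequalities force `E lam ≤ 0`. -/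
theorem Core.main {α : ℝ} (hα : 0 < α)
    (hU : ∀ r ∈ Ioo (0 : ℝ) 1,
      α * ∫ t in r..1, rho P F lam t ^ 2 ≤ (1 - r) ^ 2 / (2 * d ^ 2 * r))
    (hL : ∀ t ∈ Ioo (0 : ℝ) 1,
      α / 2 * d * rho P F lam t ^ 2 + (1 - t) / (2 * (d + ∫ s in t..1, m s))
        + (1 - √t) * (α * ∫ ω, lam ω ∂P) ≤ -(α * ∫ ω, lam ω * (W 1 ω - W t ω) ∂P)) :
    ∫ ω, lam ω ∂P ≤ 0 := by
  have hd := h.d_pos
  by_contra hcon
  push Not at hcon
  set E := ∫ ω, lam ω ∂P with hE
  set p := P.real {ω | 1 + W 1 ω + A ω < 0} with hp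
  set η := d * α * E / (2 * (2 + 26 * α)) with hη
  have hη0 : 0 < η := by positivity
  have hηE : 2 * (2 + 26 * α) * η = d * α * E := by rw [hη]; field_simp
  have hev := h.ev hη0
  -- (2)
  obtain ⟨t, ht, hδ, h1, h2⟩ := hev.exists
  rw [← hp] at h1 h2
  have hτ : 0 < 1 - t := by linarith [ht.2]
  have hL' := hL t ht
  have k1 : α / 2 * d * ((1 - t) / d ^ 2 * (p - 10 * η)) ≤ α / 2 * d * rho P F lam t ^ 2 := by
    gcongr
  have hδ0 := h.delta_nonneg (t := t) ⟨ht.1.le, ht.2.le⟩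
  have k2 : (1 - t) / (2 * (d + η * d)) ≤ (1 - t) / (2 * (d + ∫ s in t..1, m s)) := by
    gcongr
  have k3 : (1 - t) / 2 * (α * E) ≤ (1 - √t) * (α * E) := by
    have h3 : √t ≤ (1 + t) / 2 := by
      rw [Real.sqrt_le_left (by linarith [ht.1])]
      nlinarith [sq_nonneg (1 - t)]
    have h4 : (1 - t) / 2 ≤ 1 - √t := by linarith
    have : 0 ≤ α * E := by positivity
    gcongr
  have k4 : -(α * ∫ ω, lam ω * (W 1 ω - W t ω) ∂P) ≤ α * ((1 - t) / d * (p + 3 * η)) := by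
    have : -(α * ∫ ω, lam ω * (W 1 ω - W t ω) ∂P) = α * (-∫ ω, lam ω * ZZ W t ω ∂P) := by
      simp only [ZZ]; ring
    rw [this]
    gcongr
  have k5 : α / 2 * d * ((1 - t) / d ^ 2 * (p - 10 * η)) + (1 - t) / (2 * (d + η * d))
      + (1 - t) / 2 * (α * E) ≤ α * ((1 - t) / d * (p + 3 * η)) := by linarith
  have k6 : α * (p - 10 * η) + 1 / (1 + η) + d * α * E ≤ 2 * α * (p + 3 * η) := by
    have e1 : α / 2 * d * ((1 - t) / d ^ 2 * (p - 10 * η)) + (1 - t) / (2 * (d + η * d))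
      + (1 - t) / 2 * (α * E) = ((1 - t) / (2 * d)) * (α * (p - 10 * η) + 1 / (1 + η)
        + d * α * E) := by
      have : d + η * d = d * (1 + η) := by ring
      rw [this]
      field_simp
    have e2 : α * ((1 - t) / d * (p + 3 * η)) = ((1 - t) / (2 * d)) * (2 * α * (p + 3 * η)) := by
      field_simp
    rw [e1, e2] at k5
    exact le_of_mul_le_mul_left k5 (by positivity)
  -- (1)
  have hev2 : ∀ᶠ r in 𝓝[<] (1 : ℝ), 1 / (1 + η) < r := by
    have h3 : 1 / (1 + η) < 1 := by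
      rw [div_lt_one (by positivity)]; linarith
    filter_upwards [Ioo_mem_nhdsLT h3] with r hr using hr.1
  obtain ⟨r0, hr0, hr0'⟩ := (mem_nhdsLT_iff_exists_Ioo_subset).1 (hev.and hev2)
  have hr0l : r0 < 1 := hr0
  set r := (max r0 0 + 1) / 2 with hr
  have hmx : max r0 0 < 1 := max_lt hr0l (by norm_num)
  have hr0r : r0 < r := by
    have := le_max_left r0 0
    rw [hr]; linarith
  have hr_pos : 0 < r := by
    have := le_max_right r0 0
    rw [hr]; linarith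
  have hr1 : r < 1 := by rw [hr]; linarith
  have hrr := (hr0' ⟨hr0r, hr1⟩).2
  have hU' := hU r ⟨hr_pos, hr1⟩
  have k7 : ∫ t in r..1, (1 - t) / d ^ 2 * (p - 10 * η) ≤ ∫ t in r..1, rho P F lam t ^ 2 := by
    refine intervalIntegral.integral_mono_on_of_le_Ioo hr1.le ?_ (h.rho_int hr_pos.le hr1.le) ?_
    · apply Continuous.intervalIntegrable
      fun_prop
    · intro t ht
      exact (hr0' ⟨hr0r.trans ht.1, ht.2⟩).1.2.2.2
  have k8 : ∫ t in r..1, (1 - t) / d ^ 2 * (p - 10 * η)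
      = (1 - r) ^ 2 / (2 * d ^ 2) * (p - 10 * η) := by
    rw [intervalIntegral.integral_mul_const, intervalIntegral.integral_div,
      intervalIntegral.integral_sub (by simp) (by simp), intervalIntegral.integral_const,
      integral_id]
    simp only [smul_eq_mul]
    ring
  rw [k8] at k7
  have k9 : α * ((1 - r) ^ 2 / (2 * d ^ 2) * (p - 10 * η)) ≤ (1 - r) ^ 2 / (2 * d ^ 2 * r) :=
    (mul_le_mul_of_nonneg_left k7 hα.le).trans hU'
  have k10 : α * (p - 10 * η) ≤ 1 / r := by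
    have e1 : α * ((1 - r) ^ 2 / (2 * d ^ 2) * (p - 10 * η))
        = ((1 - r) ^ 2 / (2 * d ^ 2)) * (α * (p - 10 * η)) := by ring
    have e2 : (1 - r) ^ 2 / (2 * d ^ 2 * r) = ((1 - r) ^ 2 / (2 * d ^ 2)) * (1 / r) := by
      field_simp
    rw [e1, e2] at k9
    have : 0 < (1 - r) ^ 2 / (2 * d ^ 2) := by
      have : 0 < 1 - r := by linarith
      positivity
    exact le_of_mul_le_mul_left k9 this
  have k11 : 1 / r ≤ 1 + η := by
    rw [div_le_iff₀ hr_pos]
    have := hrr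
    rw [div_lt_iff₀ (by positivity)] at this
    linarith
  have k12 : 1 - η ≤ 1 / (1 + η) := by
    rw [le_div_iff₀ (by positivity)]
    nlinarith [sq_nonneg η]
  nlinarith

end main

end Core

end Crest.Agent.R146.DZero_106
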