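import Mathlib
import Crest.Prelude.Def_SphericalPressure

/-!
Row 146, node (4) of post 459 (task 75, helper576): absence of atoms.

* `gaussian_ball`      : `γ_τ(|x - c| < η √τ) ≤ η`;
* `na_core`            : `P({A + Z + Y = a} ∩ C) ≤ P({η√τ ≤ |Y|} ∩ C) + η P(C)` for `A`, `C` in `𝓖`,
                         `Z ~ N(0,τ)` independent of `𝓖`, `Y` arbitrary;
* `no_atom_of_approx`  : if `X = A_n + Z_n + Y_n` a.e. with `E Y_n² ≤ ε_n τ_n`, `ε_n → 0`, then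
                         `X` has no atoms.
-/

set_option autoImplicit false

namespace Crest.Agent.R146.Lev_576

open MeasureTheory ProbabilityTheory Filter
open scoped ENNReal NNReal Topology

/-- small ball bound for a centred Gaussian -/
theorem gaussian_ball {τ : ℝ≥0} (hτ : τ ≠ 0) (c η : ℝ) (hη : 0 ≤ η) :
    gaussianReal 0 τ {x | |x - c| < η * √τ} ≤ ENNReal.ofReal η := by
  have hτ' : (0 : ℝ) < τ := by positivity
  have hs : 0 < √(τ : ℝ) := Real.sqrt_pos.2 hτ'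
  rw [gaussianReal_apply 0 hτ]
  have hset : {x : ℝ | |x - c| < η * √τ} = Set.Ioo (c - η * √τ) (c + η * √τ) := by
    ext x
    simp only [Set.mem_ofPred_eq, Set.mem_Ioo, abs_lt]
    constructor
    · rintro ⟨h1, h2⟩; constructor <;> linarith
    · rintro ⟨h1, h2⟩; constructor <;> linarith
  have hb : ∀ x, gaussianPDF 0 τ x ≤ ENNReal.ofReal ((√(2 * Real.pi * τ))⁻¹) := by
    intro x
    rw [gaussianPDF, gaussianPDFReal]
    apply ENNReal.ofReal_le_ofReal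
    have h1 : Real.exp (-(x - 0) ^ 2 / (2 * τ)) ≤ 1 := by
      rw [Real.exp_le_one_iff]
      exact div_nonpos_of_nonpos_of_nonneg (by nlinarith [sq_nonneg (x - 0)]) (by positivity)
    have h2 : 0 ≤ (√(2 * Real.pi * τ))⁻¹ := by positivity
    nlinarith
  calc ∫⁻ x in {x : ℝ | |x - c| < η * √τ}, gaussianPDF 0 τ x
      ≤ ∫⁻ _ in {x : ℝ | |x - c| < η * √τ}, ENNReal.ofReal ((√(2 * Real.pi * τ))⁻¹) :=
        lintegral_mono fun x => hb x
    _ = ENNReal.ofReal ((√(2 * Real.pi * τ))⁻¹) * volume {x : ℝ | |x - c| < η * √τ} := by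
        rw [setLIntegral_const]
    _ = ENNReal.ofReal ((√(2 * Real.pi * τ))⁻¹) * ENNReal.ofReal (2 * (η * √τ)) := by
        rw [hset, Real.volume_Ioo]
        congr 2; ring
    _ = ENNReal.ofReal ((√(2 * Real.pi * τ))⁻¹ * (2 * (η * √τ))) := by
        rw [← ENNReal.ofReal_mul (by positivity)]
    _ ≤ ENNReal.ofReal η := by
        apply ENNReal.ofReal_le_ofReal
        have h2 : √(2 * Real.pi * τ) = √(2 * Real.pi) * √τ := by
          rw [Real.sqrt_mul (by positivity : (0:ℝ) ≤ 2 * Real.pi)]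
        have h3 : 2 ≤ √(2 * Real.pi) := by
          apply Real.le_sqrt_of_sq_le
          nlinarith [Real.pi_gt_three]
        rw [h2, mul_inv]
        have h2' : (0:ℝ) ≤ 2 * Real.pi := by positivity
        have h4 : (√(2 * Real.pi))⁻¹ * (√(τ : ℝ))⁻¹ * (2 * (η * √τ)) =
            (2 / √(2 * Real.pi)) * η := by
          field_simp
        rw [h4]
        have h5 : 2 / √(2 * Real.pi) ≤ 1 := (div_le_one (by positivity)).2 h3
        nlinarith

variable {Ω : Type*} {𝓖 mΩ : MeasurableSpace Ω} {P : Measure Ω}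

/-- **NA core lemma** -/
theorem na_core [IsProbabilityMeasure P] (h𝓖 : 𝓖 ≤ mΩ)
    {A Z Y : Ω → ℝ} {τ : ℝ≥0} (hτ : τ ≠ 0) (hA : Measurable[𝓖] A) (hZ : Measurable Z)
    (hlaw : P.map Z = gaussianReal 0 τ)
    (hind : Indep 𝓖 (MeasurableSpace.comap Z inferInstance) P)
    {C : Set Ω} (hC : MeasurableSet[𝓖] C) (a : ℝ) {η : ℝ} (hη : 0 ≤ η) :
    P ({ω | A ω + Z ω + Y ω = a} ∩ C) ≤
      P ({ω | η * √τ ≤ |Y ω|} ∩ C) + ENNReal.ofReal η * P C := by
  set G : Ω → ℝ × ℝ := fun ω => (A ω, C.indicator (fun _ => (1 : ℝ)) ω) with hG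
  have hGm : Measurable[𝓖] G := hA.prodMk (measurable_const.indicator hC)
  have hGm' : Measurable G := hGm.mono h𝓖 le_rfl
  have hindF : IndepFun G Z P := by
    rw [IndepFun_iff_Indep]
    exact indep_of_indep_of_le_left hind hGm.comap_le
  have hprod := (indepFun_iff_map_prod_eq_prod_map_map hGm'.aemeasurable hZ.aemeasurable).1 hindF
  set S : Set ((ℝ × ℝ) × ℝ) := {p | |p.2 - (a - p.1.1)| < η * √τ ∧ p.1.2 = 1} with hS
  have hSm : MeasurableSet S := by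
    have h1 : Measurable fun p : (ℝ × ℝ) × ℝ => |p.2 - (a - p.1.1)| := by fun_prop
    have h2 : Measurable fun p : (ℝ × ℝ) × ℝ => p.1.2 := by fun_prop
    exact (measurableSet_lt h1 measurable_const).inter (measurableSet_eq_fun h2 measurable_const)
  have hsub : {ω | A ω + Z ω + Y ω = a} ∩ C ⊆
      ({ω | η * √τ ≤ |Y ω|} ∩ C) ∪ (fun ω => (G ω, Z ω)) ⁻¹' S := by
    rintro ω ⟨h1, h2⟩
    rcases le_or_gt (η * √τ) |Y ω| with h | h
    · left; exact ⟨h, h2⟩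
    · right
      simp only [Set.mem_preimage, hS, hG, Set.mem_ofPred_eq]
      refine ⟨?_, by simp [h2]⟩
      have h1 : A ω + Z ω + Y ω = a := h1
      have : Z ω - (a - A ω) = - Y ω := by linarith
      rw [this, abs_neg]; exact h
  have hC' : C = G ⁻¹' {p : ℝ × ℝ | p.2 = 1} := by
    ext ω
    simp only [hG, Set.mem_preimage, Set.mem_ofPred_eq]
    constructor
    · intro h; simp [h]
    · intro h; by_contra hc; simp [hc] at h
  have hm2 : MeasurableSet {p : ℝ × ℝ | p.2 = 1} :=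
    measurableSet_eq_fun measurable_snd measurable_const
  have hmain : P ((fun ω => (G ω, Z ω)) ⁻¹' S) ≤ ENNReal.ofReal η * P C := by
    rw [← Measure.map_apply (hGm'.prodMk hZ) hSm, hprod, hlaw, Measure.prod_apply hSm]
    calc ∫⁻ x, gaussianReal 0 τ (Prod.mk x ⁻¹' S) ∂(P.map G)
        ≤ ∫⁻ x, {p : ℝ × ℝ | p.2 = 1}.indicator (fun _ => ENNReal.ofReal η) x ∂(P.map G) := by
          apply lintegral_mono
          intro x
          by_cases hx : x.2 = 1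
          · rw [Set.indicator_of_mem (by exact hx)]
            refine le_trans (measure_mono ?_) (gaussian_ball hτ (a - x.1) η hη)
            intro z hz
            simp only [hS, Set.mem_preimage, Set.mem_ofPred_eq] at hz
            exact hz.1
          · have : Prod.mk x ⁻¹' S = ∅ := by
              ext z
              simp only [hS, Set.mem_preimage, Set.mem_ofPred_eq, Set.mem_empty_iff_false, iff_false]
              rintro ⟨_, h⟩; exact hx h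
            simp only [this, measure_empty]
            exact bot_le
      _ = ENNReal.ofReal η * (P.map G) {p : ℝ × ℝ | p.2 = 1} := by
          rw [lintegral_indicator hm2, setLIntegral_const]
      _ = ENNReal.ofReal η * P C := by
          rw [Measure.map_apply hGm' hm2, ← hC']
  calc P ({ω | A ω + Z ω + Y ω = a} ∩ C)
      ≤ P (({ω | η * √τ ≤ |Y ω|} ∩ C) ∪ (fun ω => (G ω, Z ω)) ⁻¹' S) := measure_mono hsub
    _ ≤ P ({ω | η * √τ ≤ |Y ω|} ∩ C) + P ((fun ω => (G ω, Z ω)) ⁻¹' S) := measure_union_le _ _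
    _ ≤ _ := by gcongr

/-- Chebyshev -/
theorem markov_sq {Y : Ω → ℝ} (hY : MemLp Y 2 P) {r : ℝ} (hr : 0 < r) :
    P {ω | r ≤ |Y ω|} ≤ ENNReal.ofReal ((∫ ω, Y ω ^ 2 ∂P) / r ^ 2) := by
  have h1 : ENNReal.ofReal (r ^ 2) * P {ω | ENNReal.ofReal (r ^ 2) ≤ ENNReal.ofReal (Y ω ^ 2)} ≤
      ∫⁻ ω, ENNReal.ofReal (Y ω ^ 2) ∂P :=
    mul_meas_ge_le_lintegral₀ (hY.1.aemeasurable.pow_const 2).ennreal_ofReal _
  have h2 : {ω | ENNReal.ofReal (r ^ 2) ≤ ENNReal.ofReal (Y ω ^ 2)} = {ω | r ≤ |Y ω|} := by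
    ext ω
    simp only [Set.mem_ofPred_eq]
    rw [ENNReal.ofReal_le_ofReal_iff (by positivity), ← sq_abs (Y ω)]
    constructor
    · intro h; exact le_of_sq_le_sq h (abs_nonneg _)
    · intro h; gcongr
  rw [h2, ← ofReal_integral_eq_lintegral_ofReal hY.integrable_sq
    (ae_of_all _ fun ω => sq_nonneg _)] at h1
  have hr2 : ENNReal.ofReal (r ^ 2) ≠ 0 := by
    rw [Ne, ENNReal.ofReal_eq_zero, not_le]; positivity
  rw [ENNReal.ofReal_div_of_pos (by positivity)]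
  rw [ENNReal.le_div_iff_mul_le (Or.inl hr2) (Or.inl ENNReal.ofReal_ne_top), mul_comm]
  exact h1

/-- Markov on a set -/
theorem markov_set {Y : Ω → ℝ} (hY : Integrable Y P) (hY0 : 0 ≤ᵐ[P] Y) {C : Set Ω}
    (hC : MeasurableSet C) {r : ℝ} (hr : 0 < r) :
    P ({ω | r ≤ |Y ω|} ∩ C) ≤ ENNReal.ofReal ((∫ ω in C, Y ω ∂P) / r) := by
  have h1 : ENNReal.ofReal r * (P.restrict C) {ω | ENNReal.ofReal r ≤ ENNReal.ofReal (Y ω)} ≤
      ∫⁻ ω in C, ENNReal.ofReal (Y ω) ∂P :=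
    mul_meas_ge_le_lintegral₀ (hY.1.aemeasurable.restrict).ennreal_ofReal _
  have hY0' : 0 ≤ᵐ[P.restrict C] Y := ae_restrict_of_ae hY0
  rw [← ofReal_integral_eq_lintegral_ofReal hY.integrableOn hY0'] at h1
  have h2 : P ({ω | r ≤ |Y ω|} ∩ C) ≤
      (P.restrict C) {ω | ENNReal.ofReal r ≤ ENNReal.ofReal (Y ω)} := by
    rw [← Measure.restrict_apply' hC]
    apply measure_mono_ae
    filter_upwards [hY0'] with ω hω h
    have h : r ≤ |Y ω| := h
    have hω : 0 ≤ Y ω := hω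
    rw [abs_of_nonneg hω] at h
    exact ENNReal.ofReal_le_ofReal h
  have hr0 : ENNReal.ofReal r ≠ 0 := by
    rw [Ne, ENNReal.ofReal_eq_zero, not_le]; exact hr
  rw [ENNReal.ofReal_div_of_pos hr,
    ENNReal.le_div_iff_mul_le (Or.inl hr0) (Or.inl ENNReal.ofReal_ne_top), mul_comm]
  exact le_trans (by gcongr) h1

/-- no atoms from approximate decompositions -/
theorem no_atom_of_approx [IsProbabilityMeasure P] {X : Ω → ℝ}
    (h : ∀ η : ℝ, 0 < η → ∃ (𝓖 : MeasurableSpace Ω) (A Z Y : Ω → ℝ) (τ : ℝ≥0),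
      𝓖 ≤ mΩ ∧ τ ≠ 0 ∧ Measurable[𝓖] A ∧ Measurable[mΩ] Z ∧
      @Measure.map Ω ℝ mΩ _ Z P = gaussianReal 0 τ ∧
      Indep 𝓖 (MeasurableSpace.comap Z inferInstance) P ∧
      (∀ᵐ ω ∂P, X ω = A ω + Z ω + Y ω) ∧ P {ω | η * √τ ≤ |Y ω|} ≤ ENNReal.ofReal η) (a : ℝ) :
    P {ω | X ω = a} = 0 := by
  have key : ∀ η : ℝ, 0 < η → P {ω | X ω = a} ≤ ENNReal.ofReal (2 * η) := by
    intro η hη
    obtain ⟨𝓖, A, Z, Y, τ, h𝓖, hτ, hA, hZ, hlaw, hind, hX, hY⟩ := h η hη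
    have h1 := na_core (P := P) h𝓖 (Y := Y) hτ hA hZ hlaw hind (@MeasurableSet.univ _ 𝓖) a hη.le
    simp only [Set.inter_univ, measure_univ, mul_one] at h1
    have h2 : P {ω | X ω = a} = P {ω | A ω + Z ω + Y ω = a} := by
      apply measure_congr
      filter_upwards [hX] with ω hω
      apply propext
      change X ω = a ↔ A ω + Z ω + Y ω = a
      rw [hω]
    rw [h2, show 2 * η = η + η by ring, ENNReal.ofReal_add hη.le hη.le]
    exact h1.trans (by gcongr)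
  by_contra hne
  have hpos : 0 < (P {ω | X ω = a}).toReal :=
    ENNReal.toReal_pos hne (measure_ne_top _ _)
  have h3 := key ((P {ω | X ω = a}).toReal / 4) (by positivity)
  have h4 : (P {ω | X ω = a}).toReal ≤ 2 * ((P {ω | X ω = a}).toReal / 4) := by
    apply ENNReal.toReal_le_of_le_ofReal (by positivity) h3
  linarith

section Cond

variable [IsProbabilityMeasure P]

/-- self-adjointness of the conditional expectation -/
theorem int_mul_condExp (h𝓖 : 𝓖 ≤ mΩ) {f g : Ω → ℝ} (hf : MemLp f 2 P) (hg : MemLp g 2 P) :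
    ∫ ω, f ω * (P[g | 𝓖]) ω ∂P = ∫ ω, (P[f | 𝓖]) ω * (P[g | 𝓖]) ω ∂P := by
  have hg2 : MemLp (P[g | 𝓖]) 2 P := hg.condExp (by norm_num)
  have h1 : P[f * P[g | 𝓖] | 𝓖] =ᵐ[P] P[f | 𝓖] * P[g | 𝓖] :=
    condExp_mul_of_stronglyMeasurable_right stronglyMeasurable_condExp
      (hf.integrable_mul hg2) (hf.integrable (by norm_num))
  calc ∫ ω, f ω * (P[g | 𝓖]) ω ∂P = ∫ ω, (f * P[g | 𝓖]) ω ∂P := rfl
    _ = ∫ ω, (P[f * P[g | 𝓖] | 𝓖]) ω ∂P := (integral_condExp h𝓖).symm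
    _ = ∫ ω, (P[f | 𝓖] * P[g | 𝓖]) ω ∂P := integral_congr_ae h1
    _ = _ := rfl

/-- Pythagoras -/
theorem int_sub_mul_sub (h𝓖 : 𝓖 ≤ mΩ) {f g : Ω → ℝ} (hf : MemLp f 2 P) (hg : MemLp g 2 P) :
    ∫ ω, (f ω - (P[f | 𝓖]) ω) * (g ω - (P[g | 𝓖]) ω) ∂P =
      ∫ ω, f ω * g ω ∂P - ∫ ω, (P[f | 𝓖]) ω * (P[g | 𝓖]) ω ∂P := by
  have hf2 : MemLp (P[f | 𝓖]) 2 P := hf.condExp (by norm_num)
  have hg2 : MemLp (P[g | 𝓖]) 2 P := hg.condExp (by norm_num)
  have h1 := int_mul_condExp h𝓖 hf hg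
  have h2 := int_mul_condExp h𝓖 hg hf
  have i1 : Integrable (fun ω => f ω * g ω) P := hf.integrable_mul hg
  have i2 : Integrable (fun ω => f ω * (P[g | 𝓖]) ω) P := hf.integrable_mul hg2
  have i3 : Integrable (fun ω => g ω * (P[f | 𝓖]) ω) P := hg.integrable_mul hf2
  have i4 : Integrable (fun ω => (P[f | 𝓖]) ω * (P[g | 𝓖]) ω) P := hf2.integrable_mul hg2
  have e : (fun ω => (f ω - (P[f | 𝓖]) ω) * (g ω - (P[g | 𝓖]) ω)) =
      fun ω => f ω * g ω - f ω * (P[g | 𝓖]) ω - g ω * (P[f | 𝓖]) ω +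
        (P[f | 𝓖]) ω * (P[g | 𝓖]) ω := by
    funext ω; ring
  rw [e, integral_add (by fun_prop) i4, integral_sub (by fun_prop) i3, integral_sub i1 i2, h1, h2]
  have h3 : ∫ ω, (P[g | 𝓖]) ω * (P[f | 𝓖]) ω ∂P = ∫ ω, (P[f | 𝓖]) ω * (P[g | 𝓖]) ω ∂P := by
    congr 1; funext ω; ring
  rw [h3]; ring

omit [IsProbabilityMeasure P] in
/-- Cauchy-Schwarz for real L² functions. -/
theorem abs_int_mul_le {f g : Ω → ℝ} (hf : MemLp f 2 P) (hg : MemLp g 2 P) :
    |∫ ω, f ω * g ω ∂P| ≤ √(∫ ω, f ω ^ 2 ∂P) * √(∫ ω, g ω ^ 2 ∂P) := by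
  have h := integral_mul_le_Lp_mul_Lq_of_nonneg (μ := P) (f := fun ω => |f ω|)
    (g := fun ω => |g ω|) (p := 2) (q := 2) (by constructor <;> norm_num)
    (ae_of_all _ fun ω => abs_nonneg _) (ae_of_all _ fun ω => abs_nonneg _)
    (by rw [show ENNReal.ofReal 2 = 2 by simp]; exact hf.abs)
    (by rw [show ENNReal.ofReal 2 = 2 by simp]; exact hg.abs)
  calc |∫ ω, f ω * g ω ∂P| ≤ ∫ ω, |f ω * g ω| ∂P := abs_integral_le_integral_abs
    _ = ∫ ω, |f ω| * |g ω| ∂P := by simp only [abs_mul]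
    _ ≤ _ := by
      refine h.trans (le_of_eq ?_)
      rw [Real.sqrt_eq_rpow, Real.sqrt_eq_rpow]
      congr 3 <;> · funext ω; norm_num

/-- second moment of a centred Gaussian variable -/
theorem gauss_sq {Z : Ω → ℝ} {τ : ℝ≥0} (hZ : Measurable Z) (hlaw : P.map Z = gaussianReal 0 τ) :
    MemLp Z 2 P ∧ ∫ ω, Z ω ∂P = 0 ∧ ∫ ω, Z ω ^ 2 ∂P = τ := by
  have h1 : MemLp Z 2 P := by
    have h := memLp_id_gaussianReal (μ := 0) (v := τ) 2
    rw [← hlaw] at h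
    exact (memLp_map_measure_iff aestronglyMeasurable_id hZ.aemeasurable).1 h
  have h2 : ∫ ω, Z ω ∂P = 0 := by
    have h := integral_id_gaussianReal (μ := 0) (v := τ)
    rw [← hlaw] at h
    exact (integral_map (μ := P) hZ.aemeasurable aestronglyMeasurable_id).symm.trans h
  refine ⟨h1, h2, ?_⟩
  have h3 := variance_id_gaussianReal (μ := 0) (v := τ)
  rw [← hlaw, variance_map aemeasurable_id hZ.aemeasurable] at h3
  rw [variance_eq_sub (by simpa using h1)] at h3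
  simp only [Function.id_comp] at h3
  rw [h2] at h3
  simpa using h3

/-- **(4b), energy**: `E[h_t λ_t] ≤ √τ ‖λ‖`. -/
theorem jam_energy (h𝓖 : 𝓖 ≤ mΩ) {A0 Z Y lam h : Ω → ℝ} {τ : ℝ≥0}
    (hA : Measurable[𝓖] A0) (hA2 : MemLp A0 2 P) (hZ : Measurable Z)
    (hlaw : P.map Z = gaussianReal 0 τ)
    (hind : Indep 𝓖 (MeasurableSpace.comap Z inferInstance) P)
    (hY : MemLp Y 2 P) (hlam : MemLp lam 2 P)
    (hh : h =ᵐ[P] fun ω => A0 ω + Z ω + Y ω)
    (hcomp : ∀ᵐ ω ∂P, h ω * lam ω = 0)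
    (hpos : 0 ≤ ∫ ω, (Y ω - (P[Y | 𝓖]) ω) * (lam ω - (P[lam | 𝓖]) ω) ∂P) :
    ∫ ω, (P[h | 𝓖]) ω * (P[lam | 𝓖]) ω ∂P ≤ √τ * √(∫ ω, lam ω ^ 2 ∂P) := by
  obtain ⟨hZ2, hZ0, hZs⟩ := gauss_sq hZ hlaw
  have hh2 : MemLp h 2 P := by
    rw [memLp_congr_ae hh]
    exact (hA2.add hZ2).add hY
  have hEZ : P[Z | 𝓖] =ᵐ[P] fun _ => 0 := by
    have := condExp_indep_eq (μ := P) (f := Z) hZ.comap_le h𝓖
      (comap_measurable Z).stronglyMeasurable hind.symm
    rw [hZ0] at this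
    exact this
  have hEA : P[A0 | 𝓖] = A0 :=
    condExp_of_stronglyMeasurable h𝓖 hA.stronglyMeasurable (hA2.integrable (by norm_num))
  have iA := hA2.integrable (show (1:ℝ≥0∞) ≤ 2 by norm_num)
  have iZ := hZ2.integrable (show (1:ℝ≥0∞) ≤ 2 by norm_num)
  have iY := hY.integrable (show (1:ℝ≥0∞) ≤ 2 by norm_num)
  have hEh : P[h | 𝓖] =ᵐ[P] fun ω => A0 ω + (P[Y | 𝓖]) ω := by
    have h1 : P[h | 𝓖] =ᵐ[P] P[A0 + Z + Y | 𝓖] := condExp_congr_ae hh
    have h2 : P[A0 + Z + Y | 𝓖] =ᵐ[P] P[A0 + Z | 𝓖] + P[Y | 𝓖] := condExp_add (iA.add iZ) iY 𝓖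
    have h3 : P[A0 + Z | 𝓖] =ᵐ[P] P[A0 | 𝓖] + P[Z | 𝓖] := condExp_add iA iZ 𝓖
    filter_upwards [h1, h2, h3, hEZ] with ω h1 h2 h3 h4
    rw [h1, h2]
    simp only [Pi.add_apply] at *
    rw [h3, h4, hEA]; ring
  have hpy := int_sub_mul_sub h𝓖 hh2 hlam
  have h0 : ∫ ω, h ω * lam ω ∂P = 0 := by
    rw [integral_congr_ae (g := fun _ => 0) hcomp]; simp
  rw [h0, zero_sub] at hpy
  have e1 : ∫ ω, (h ω - (P[h | 𝓖]) ω) * (lam ω - (P[lam | 𝓖]) ω) ∂P =
      ∫ ω, Z ω * (lam ω - (P[lam | 𝓖]) ω) ∂P +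
      ∫ ω, (Y ω - (P[Y | 𝓖]) ω) * (lam ω - (P[lam | 𝓖]) ω) ∂P := by
    have hl2 : MemLp (fun ω => lam ω - (P[lam | 𝓖]) ω) 2 P := hlam.sub (hlam.condExp (by norm_num))
    have hY2 : MemLp (fun ω => Y ω - (P[Y | 𝓖]) ω) 2 P := hY.sub (hY.condExp (by norm_num))
    have i1 : Integrable (fun ω => Z ω * (lam ω - (P[lam | 𝓖]) ω)) P := hZ2.integrable_mul hl2
    have i2 : Integrable (fun ω => (Y ω - (P[Y | 𝓖]) ω) * (lam ω - (P[lam | 𝓖]) ω)) P :=
      hY2.integrable_mul hl2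
    rw [← integral_add i1 i2]
    apply integral_congr_ae
    filter_upwards [hh, hEh] with ω h1 h2
    rw [h1, h2]; ring
  have e2 : ∫ ω, Z ω * (lam ω - (P[lam | 𝓖]) ω) ∂P = ∫ ω, Z ω * lam ω ∂P := by
    have hl2 : MemLp (P[lam | 𝓖]) 2 P := hlam.condExp (by norm_num)
    have h1 : ∫ ω, Z ω * (P[lam | 𝓖]) ω ∂P = 0 := by
      rw [int_mul_condExp h𝓖 hZ2 hlam]
      rw [integral_congr_ae (g := fun _ => 0)]
      · simp
      · filter_upwards [hEZ] with ω hω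
        rw [hω]; simp
    have h2 : (fun ω => Z ω * (lam ω - (P[lam | 𝓖]) ω)) =
        fun ω => Z ω * lam ω - Z ω * (P[lam | 𝓖]) ω := by funext ω; ring
    have i1 : Integrable (fun ω => Z ω * lam ω) P := hZ2.integrable_mul hlam
    have i2 : Integrable (fun ω => Z ω * (P[lam | 𝓖]) ω) P := hZ2.integrable_mul hl2
    rw [h2, integral_sub i1 i2, h1, sub_zero]
  have e3 := abs_int_mul_le hZ2 hlam
  rw [hZs] at e3
  have e4 := neg_abs_le (∫ ω, Z ω * lam ω ∂P)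
  rw [e1, e2] at hpy
  linarith

/-- **(4b), one scale**. -/
theorem jam_atom (h𝓖 : 𝓖 ≤ mΩ) {A0 Z Y lam h : Ω → ℝ} {τ : ℝ≥0} (hτ : τ ≠ 0)
    (hA : Measurable[𝓖] A0) (hA2 : MemLp A0 2 P) (hZ : Measurable Z)
    (hlaw : P.map Z = gaussianReal 0 τ)
    (hind : Indep 𝓖 (MeasurableSpace.comap Z inferInstance) P)
    (hY : MemLp Y 2 P) (hY0 : 0 ≤ᵐ[P] Y) (hlam : MemLp lam 2 P) (hlam0 : 0 ≤ᵐ[P] lam)
    (hh : h =ᵐ[P] fun ω => A0 ω + Z ω + Y ω) (hh0 : 0 ≤ᵐ[P] h)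
    (hcomp : ∀ᵐ ω ∂P, h ω * lam ω = 0) {D : ℝ} (hD : 0 ≤ D)
    (hEY : P[Y | 𝓖] =ᵐ[P] fun ω => D * (P[lam | 𝓖]) ω)
    (hpos : 0 ≤ ∫ ω, (Y ω - (P[Y | 𝓖]) ω) * (lam ω - (P[lam | 𝓖]) ω) ∂P)
    {a η : ℝ} (ha : 0 < a) (hη : 0 < η) :
    P {ω | h ω = a} ≤ ENNReal.ofReal ((∫ ω, (h ω - (P[h | 𝓖]) ω) ^ 2 ∂P) / (a / 2) ^ 2) +
      ENNReal.ofReal (2 * D * √(∫ ω, lam ω ^ 2 ∂P) / (a * η)) + ENNReal.ofReal η := by
  have hen := jam_energy h𝓖 hA hA2 hZ hlaw hind hY hlam hh hcomp hpos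
  obtain ⟨hZ2, hZ0, hZs⟩ := gauss_sq hZ hlaw
  have hτ' : (0 : ℝ) < τ := by positivity
  have hs : 0 < √(τ : ℝ) := Real.sqrt_pos.2 hτ'
  have hh2 : MemLp h 2 P := by
    rw [memLp_congr_ae hh]
    exact (hA2.add hZ2).add hY
  have hEh2 : MemLp (P[h | 𝓖]) 2 P := hh2.condExp (by norm_num)
  have hEl2 : MemLp (P[lam | 𝓖]) 2 P := hlam.condExp (by norm_num)
  have hEh0 : 0 ≤ᵐ[P] P[h | 𝓖] := condExp_nonneg hh0
  have hEl0 : 0 ≤ᵐ[P] P[lam | 𝓖] := condExp_nonneg hlam0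
  set C : Set Ω := {ω | a / 2 ≤ (P[h | 𝓖]) ω} with hC
  have hCm : MeasurableSet[𝓖] C :=
    measurableSet_le measurable_const stronglyMeasurable_condExp.measurable
  have hCm' : MeasurableSet[mΩ] C := h𝓖 _ hCm
  -- first part
  have p1 : P ({ω | h ω = a} ∩ Cᶜ) ≤
      ENNReal.ofReal ((∫ ω, (h ω - (P[h | 𝓖]) ω) ^ 2 ∂P) / (a / 2) ^ 2) := by
    refine le_trans (measure_mono ?_)
      (markov_sq (Y := fun ω => h ω - (P[h | 𝓖]) ω) (hh2.sub hEh2) (half_pos ha))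
    rintro ω ⟨h1, h2⟩
    have h1 : h ω = a := h1
    have h2 : ¬ (a / 2 ≤ (P[h | 𝓖]) ω) := h2
    change a / 2 ≤ |h ω - (P[h | 𝓖]) ω|
    rw [h1]
    refine le_trans ?_ (le_abs_self _)
    linarith [not_le.1 h2]
  -- second part
  have p2 : P ({ω | h ω = a} ∩ C) ≤
      ENNReal.ofReal (2 * D * √(∫ ω, lam ω ^ 2 ∂P) / (a * η)) + ENNReal.ofReal η := by
    have q1 : P ({ω | h ω = a} ∩ C) = P ({ω | A0 ω + Z ω + Y ω = a} ∩ C) := by
      apply measure_congr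
      filter_upwards [hh] with ω hω
      apply propext
      change (h ω = a ∧ ω ∈ C) ↔ (A0 ω + Z ω + Y ω = a ∧ ω ∈ C)
      rw [hω]
    have q2 := na_core (P := P) h𝓖 (Y := Y) hτ hA hZ hlaw hind hCm a hη.le
    have q3 := markov_set (P := P) (hY.integrable (by norm_num)) hY0 hCm' (r := η * √τ) (by positivity)
    have q4 : ∫ ω in C, Y ω ∂P ≤ D * (2 / a) * (√τ * √(∫ ω, lam ω ^ 2 ∂P)) := by
      calc ∫ ω in C, Y ω ∂P = ∫ ω in C, (P[Y | 𝓖]) ω ∂P :=
            (setIntegral_condExp h𝓖 (hY.integrable (by norm_num)) hCm).symm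
        _ = ∫ ω in C, D * (P[lam | 𝓖]) ω ∂P :=
            setIntegral_congr_ae hCm' (hEY.mono fun ω hω _ => hω)
        _ ≤ ∫ ω in C, D * (2 / a) * ((P[h | 𝓖]) ω * (P[lam | 𝓖]) ω) ∂P := by
            apply setIntegral_mono_on_ae
            · exact ((hEl2.integrable (by norm_num)).const_mul D).integrableOn
            · exact ((hEh2.integrable_mul hEl2).const_mul _).integrableOn
            · exact hCm'
            · filter_upwards [hEl0] with ω hω hc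
              have hc : a / 2 ≤ (P[h | 𝓖]) ω := hc
              have hω : 0 ≤ (P[lam | 𝓖]) ω := hω
              have h1 : 1 ≤ (2 / a) * (P[h | 𝓖]) ω := by
                rw [div_mul_eq_mul_div, le_div_iff₀ ha]; linarith
              calc D * (P[lam | 𝓖]) ω = D * (P[lam | 𝓖]) ω * 1 := by ring
                _ ≤ D * (P[lam | 𝓖]) ω * ((2 / a) * (P[h | 𝓖]) ω) := by gcongr
                _ = _ := by ring
        _ ≤ ∫ ω, D * (2 / a) * ((P[h | 𝓖]) ω * (P[lam | 𝓖]) ω) ∂P := by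
            apply setIntegral_le_integral
            · exact (hEh2.integrable_mul hEl2).const_mul _
            · filter_upwards [hEl0, hEh0] with ω h1 h2
              have h1 : 0 ≤ (P[lam | 𝓖]) ω := h1
              have h2 : 0 ≤ (P[h | 𝓖]) ω := h2
              change 0 ≤ D * (2 / a) * ((P[h | 𝓖]) ω * (P[lam | 𝓖]) ω)
              positivity
        _ = D * (2 / a) * ∫ ω, (P[h | 𝓖]) ω * (P[lam | 𝓖]) ω ∂P := integral_const_mul _ _
        _ ≤ _ := by gcongr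
    rw [q1]
    refine q2.trans (add_le_add (q3.trans (ENNReal.ofReal_le_ofReal ?_)) ?_)
    · rw [div_le_iff₀ (by positivity)]
      refine q4.trans (le_of_eq ?_)
      field_simp
    · calc ENNReal.ofReal η * P C ≤ ENNReal.ofReal η * 1 := by
            gcongr; exact prob_le_one
        _ = _ := mul_one _
  calc P {ω | h ω = a} ≤ P ({ω | h ω = a} ∩ Cᶜ) + P ({ω | h ω = a} ∩ C) := by
        refine le_trans (measure_mono ?_) (measure_union_le _ _)
        intro ω hω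
        by_cases hc : ω ∈ C
        · right; exact ⟨hω, hc⟩
        · left; exact ⟨hω, hc⟩
    _ ≤ _ := by rw [add_assoc]; gcongr

end Cond

section Brown

open Crest.ProbabilityR.Perceptron

variable {B : ℝ≥0 → Ω → ℝ}

theorem past_le (hBm : ∀ t, Measurable (B t)) (t : ℝ≥0) :
    brownianFiltration B hBm t ≤
      MeasurableSpace.comap (fun ω (s : Set.Iic t) => B s ω) inferInstance := by
  change (⨆ j ≤ t, MeasurableSpace.comap (B j) _) ≤ _
  refine iSup₂_le fun j hj => ?_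
  rw [← measurable_iff_comap_le]
  have h1 : Measurable[MeasurableSpace.comap (fun ω (s : Set.Iic t) => B s ω) inferInstance]
      (fun ω (s : Set.Iic t) => B s ω) := comap_measurable _
  exact (measurable_pi_apply (⟨j, hj⟩ : Set.Iic t)).comp h1

theorem indep_past (hB : IsPreBrownianReal B P) (hBm : ∀ t, Measurable (B t)) {t : ℝ≥0}
    (ht : t ≤ 1) :
    Indep (brownianFiltration B hBm t)
      (MeasurableSpace.comap (fun ω => B 1 ω - B t ω) inferInstance) P := by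
  have h := (hB.indepFun_shift t).symm
  rw [IndepFun_iff_Indep] at h
  refine indep_of_indep_of_le_left (indep_of_indep_of_le_right h ?_) (past_le hBm t)
  rw [← measurable_iff_comap_le]
  have h1 : Measurable[MeasurableSpace.comap (fun ω s => B (t + s) ω - B t ω) inferInstance]
      (fun ω (s : ℝ≥0) => B (t + s) ω - B t ω) := comap_measurable _
  have h2 := (measurable_pi_apply (1 - t : ℝ≥0)).comp h1
  have h3 : ((fun b : ℝ≥0 → ℝ => b (1 - t)) ∘ fun ω (s : ℝ≥0) => B (t + s) ω - B t ω) =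
      fun ω => B 1 ω - B t ω := by
    funext ω
    simp only [Function.comp]
    rw [add_tsub_cancel_of_le ht]
  rw [h3] at h2
  exact h2

theorem law_incr (hB : IsPreBrownianReal B P) {t : ℝ≥0} (ht : t ≤ 1) :
    P.map (fun ω => B 1 ω - B t ω) = gaussianReal 0 (1 - t) := by
  have h := (hB.hasLaw_sub 1 t).map_eq
  have h2 : nndist (1 : ℝ≥0).1 t.1 = 1 - t := by
    rw [← NNReal.coe_inj, coe_nndist, Real.dist_eq, NNReal.coe_sub ht]
    have h3 : ((1 : ℝ≥0).1) = 1 := rfl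
    have h4 : (t.1 : ℝ) ≤ 1 := ht
    rw [h3, abs_of_nonneg (sub_nonneg.2 h4)]; rfl
  rw [h2] at h
  exact h

/-- **(4a)**: if the conditional variances of `U` are `o(1 - t)` then `B_1 + U` has no atoms. -/
theorem no_atom_brown [IsProbabilityMeasure P] (hB : IsPreBrownianReal B P)
    (hBm : ∀ t, Measurable (B t)) {U : Ω → ℝ} (hU : MemLp U 2 P)
    (hvar : ∀ ε : ℝ, 0 < ε → ∃ t : ℝ≥0, t < 1 ∧
      ∫ ω, (U ω - (P[U | brownianFiltration B hBm t]) ω) ^ 2 ∂P ≤ ε * (1 - t)) (a : ℝ) :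
    P {ω | B 1 ω + U ω = a} = 0 := by
  refine no_atom_of_approx (X := fun ω => B 1 ω + U ω) ?_ a
  intro η hη
  obtain ⟨t, ht, hv⟩ := hvar (η ^ 3) (by positivity)
  have hle : brownianFiltration B hBm t ≤ mΩ := (brownianFiltration B hBm).le t
  have hBt : Measurable[brownianFiltration B hBm t] (B t) :=
    (Filtration.stronglyAdapted_natural (fun t => (hBm t).stronglyMeasurable) t).measurable
  refine ⟨brownianFiltration B hBm t,
    fun ω => B t ω + (P[U | brownianFiltration B hBm t]) ω, fun ω => B 1 ω - B t ω,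
    fun ω => U ω - (P[U | brownianFiltration B hBm t]) ω, 1 - t, hle, ?_,
    ?_, (hBm 1).sub (hBm t), law_incr hB ht.le, indep_past hB hBm ht.le, ?_, ?_⟩
  · exact (tsub_pos_of_lt ht).ne'
  · exact hBt.add stronglyMeasurable_condExp.measurable
  · refine ae_of_all _ fun ω => ?_
    ring
  · have hτ : (0 : ℝ) < ((1 - t : ℝ≥0) : ℝ) := by
      exact_mod_cast tsub_pos_of_lt ht
    have h1 := markov_sq (P := P) (Y := fun ω => U ω - (P[U | brownianFiltration B hBm t]) ω)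
      (hU.sub (hU.condExp (by norm_num))) (r := η * √((1 - t : ℝ≥0) : ℝ)) (by positivity)
    refine h1.trans (ENNReal.ofReal_le_ofReal ?_)
    rw [mul_pow, Real.sq_sqrt hτ.le, div_le_iff₀ (by positivity)]
    have h2 : ((1 - t : ℝ≥0) : ℝ) = 1 - t := by rw [NNReal.coe_sub ht.le]; rfl
    rw [h2]
    refine hv.trans (le_of_eq ?_)
    ring

/-- One-scale data of (4b): `h = A + (B_1 - B_t) + Y` with `A` in the past of `t`, `Y ≥ 0`,
`E_t Y = D λ_t` and the positivity `⟨Y - E_t Y, λ - λ_t⟩ ≥ 0`. -/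
structure JamDec (P : Measure Ω) (B : ℝ≥0 → Ω → ℝ) (hBm : ∀ t, Measurable (B t))
    (h lam : Ω → ℝ) (t : ℝ≥0) (D : ℝ) : Prop where
  D_nonneg : 0 ≤ D
  dec : ∃ A Y : Ω → ℝ, Measurable[brownianFiltration B hBm t] A ∧ MemLp A 2 P ∧ MemLp Y 2 P ∧
    0 ≤ᵐ[P] Y ∧ (h =ᵐ[P] fun ω => A ω + (B 1 ω - B t ω) + Y ω) ∧
    (P[Y | brownianFiltration B hBm t] =ᵐ[P]
      fun ω => D * (P[lam | brownianFiltration B hBm t]) ω) ∧
    0 ≤ ∫ ω, (Y ω - (P[Y | brownianFiltration B hBm t]) ω) *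
      (lam ω - (P[lam | brownianFiltration B hBm t]) ω) ∂P

/-- **(4b)**: at jamming (`D(1-) = 0`) the gap has no atom at `a > 0`. -/
theorem no_atom_jam [IsProbabilityMeasure P] (hB : IsPreBrownianReal B P)
    (hBm : ∀ t, Measurable (B t)) {h lam : Ω → ℝ} (hlam : MemLp lam 2 P) (hlam0 : 0 ≤ᵐ[P] lam)
    (hh0 : 0 ≤ᵐ[P] h) (hcomp : ∀ᵐ ω ∂P, h ω * lam ω = 0)
    (hdec : ∀ ε : ℝ, 0 < ε → ∃ t : ℝ≥0, t < 1 ∧ ∃ D : ℝ, D ≤ ε ∧ JamDec P B hBm h lam t D ∧
      ∫ ω, (h ω - (P[h | brownianFiltration B hBm t]) ω) ^ 2 ∂P ≤ ε)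
    {a : ℝ} (ha : 0 < a) : P {ω | h ω = a} = 0 := by
  set K : ℝ := √(∫ ω, lam ω ^ 2 ∂P) with hK
  have hK0 : 0 ≤ K := Real.sqrt_nonneg _
  have key : ∀ η : ℝ, 0 < η → P {ω | h ω = a} ≤ ENNReal.ofReal (3 * η) := by
    intro η hη
    set ε : ℝ := min (η * (a / 2) ^ 2) (a * η ^ 2 / (2 * (K + 1))) with hε
    have hε0 : 0 < ε := by
      rw [hε]; apply lt_min <;> positivity
    obtain ⟨t, ht, D, hDε, hJ, hv⟩ := hdec ε hε0
    obtain ⟨A, Y, hA, hA2, hY, hY0, hh, hEY, hpos⟩ := hJ.dec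
    have hle : brownianFiltration B hBm t ≤ mΩ := (brownianFiltration B hBm).le t
    have hτ : (1 - t : ℝ≥0) ≠ 0 := (tsub_pos_of_lt ht).ne'
    have h1 := jam_atom (P := P) hle hτ hA hA2 ((hBm 1).sub (hBm t)) (law_incr hB ht.le)
      (indep_past hB hBm ht.le) hY hY0 hlam hlam0 hh hh0 hcomp hJ.D_nonneg hEY hpos ha hη
    refine h1.trans ?_
    rw [show 3 * η = η + η + η by ring, ENNReal.ofReal_add (by positivity) hη.le,
      ENNReal.ofReal_add hη.le hη.le]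
    gcongr ?_ + ?_ + _
    · apply ENNReal.ofReal_le_ofReal
      rw [div_le_iff₀ (by positivity)]
      exact hv.trans (min_le_left _ _)
    · apply ENNReal.ofReal_le_ofReal
      rw [div_le_iff₀ (by positivity)]
      have h2 : D ≤ a * η ^ 2 / (2 * (K + 1)) := hDε.trans (min_le_right _ _)
      have h3 : 2 * D * K ≤ 2 * (a * η ^ 2 / (2 * (K + 1))) * K := by gcongr
      refine h3.trans ?_
      have h4 : 2 * (a * η ^ 2 / (2 * (K + 1))) * K = (K / (K + 1)) * (a * η ^ 2) := by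
        field_simp
      rw [h4]
      have h5 : K / (K + 1) ≤ 1 := by rw [div_le_one (by positivity)]; linarith
      calc K / (K + 1) * (a * η ^ 2) ≤ 1 * (a * η ^ 2) := by gcongr
        _ = η * (a * η) := by ring
  by_contra hne
  have hpos : 0 < (P {ω | h ω = a}).toReal :=
    ENNReal.toReal_pos hne (measure_ne_top _ _)
  have h3 := key ((P {ω | h ω = a}).toReal / 6) (by positivity)
  have h4 : (P {ω | h ω = a}).toReal ≤ 3 * ((P {ω | h ω = a}).toReal / 6) := by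
    apply ENNReal.toReal_le_of_le_ofReal (by positivity) h3
  linarith

end Brown

end Crest.Agent.R146.Lev_576
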