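import Crest.Agent.R146.HilbA_356
import Crest.Agent.R146.Lev_576

/-!
Row 146, node (4a)/(4b) of post 459 (helper576), part 2: the decomposition facts about the spectral
operator `Dop` of `HilbA_356`, and the two no-atom theorems in that frame.

* `P_Dop`         : `P_t` commutes with `Dop g`;
* `norm_Dop_high` : `P_t x = 0`, `|g| ≤ b` on `[t,1]`  ⟹  `‖Dop g x‖ ≤ b ‖x‖`;
* `gT g t`        : `s ↦ g (max s t)`;  `P_t (Dop (gT g t) x) = g t • P_t x`,
                    `Dop g x - Dop (gT g t) x` is fixed by `P_t`;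
* `Dop_mem_cone`  : `Dop g` preserves a closed convex cone preserved by the `P_t`, `g ≥ 0` antitone;
* `Model`         : `H` realised inside `L²(P)` with `P_t` = conditional expectation on the natural
                    filtration of a Brownian motion;
* `atom_pos_temp` : (4a); `atom_jam` : (4b).
-/

set_option autoImplicit false

namespace Crest.Agent.R146.Lev2_576

open Set Filter Topology MeasureTheory ProbabilityTheory Crest.Agent.R146.Hilb
  Crest.Agent.R146.Hilb.Res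
open scoped RealInnerProductSpace NNReal ENNReal

variable {H : Type*} [NormedAddCommGroup H] [InnerProductSpace ℝ H] (R : Res H)

lemma P_min (s t : ℝ) (x : H) : R.P s (R.P t x) = R.P (min s t) x := by
  rcases le_total s t with h | h
  · rw [min_eq_left h, R.mul s t h]
  · rw [min_eq_right h, R.mul' h]

lemma P_comm (s t : ℝ) (x : H) : R.P s (R.P t x) = R.P t (R.P s x) := by
  rw [P_min, P_min, min_comm]

lemma P_inc_comm (t a b : ℝ) (x : H) : R.P t (R.inc a b x) = R.inc a b (R.P t x) := by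
  simp only [inc_apply, map_sub, P_comm R t]

lemma P_S (g : ℝ → ℝ) (n : ℕ) (t : ℝ) (x : H) : R.P t (R.S g n x) = R.S g n (R.P t x) := by
  simp only [S_apply, RS_apply, map_add, map_smul, map_sum, P_inc_comm, P_comm R t 0]

lemma inc_high {a b t : ℝ} (ha : t ≤ a) (hab : a ≤ b) (x : H) : R.inc a b (R.P t x) = 0 := by
  rw [inc_apply, R.mul' (ha.trans hab), R.mul' ha, sub_self]

lemma inc_low {a b t : ℝ} (hab : a ≤ b) (hb : b ≤ t) {x : H} (hx : R.P t x = 0) :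
    R.inc a b x = 0 := by
  rw [inc_apply, ← R.mul b t hb, ← R.mul a t (hab.trans hb), hx, map_zero, map_zero, sub_self]

section

variable [CompleteSpace H]

lemma P_Dop {g : ℝ → ℝ} (hg : ContinuousOn g (Icc 0 1)) (t : ℝ) (x : H) :
    R.P t (R.Dop g x) = R.Dop g (R.P t x) := by
  have h1 := ((R.P t).continuous.tendsto _).comp (R.S_tendsto_apply hg x)
  refine tendsto_nhds_unique h1 ?_
  exact (R.S_tendsto_apply hg (R.P t x)).congr fun n => (P_S R g n t x).symm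

/-- the part of `Dop g` above time `t` -/
lemma norm_Dop_high {g : ℝ → ℝ} (hg : ContinuousOn g (Icc 0 1)) {t b : ℝ} (ht : 0 ≤ t)
    (hb : 0 ≤ b) (hgb : ∀ s ∈ Icc (0 : ℝ) 1, t ≤ s → |g s| ≤ b) {x : H} (hx : R.P t x = 0) :
    ‖R.Dop g x‖ ≤ b * ‖x‖ := by
  refine le_of_tendsto' (R.S_tendsto_apply hg x).norm fun n => ?_
  have h0 : R.P 0 x = 0 := by rw [← R.mul 0 t ht, hx, map_zero]
  have h : ‖R.S g n x‖ ^ 2 ≤ (b * ‖x‖) ^ 2 := by
    rw [R.norm_S_sq, mul_pow, ← R.mass n x, mul_add, Finset.mul_sum, h0]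
    refine add_le_add (by simp) (Finset.sum_le_sum fun i hi => ?_)
    rcases le_total (dy n (i + 1)) t with h1 | h1
    · rw [inc_low R (dy_mono n i.le_succ) h1 hx]; simp
    · refine mul_le_mul_of_nonneg_right ?_ (sq_nonneg _)
      rw [← sq_abs]
      exact pow_le_pow_left₀ (abs_nonneg _) (hgb _ (dy_mem (Finset.mem_range.1 hi)) h1) 2
  exact abs_le_of_sq_le_sq' h (by positivity) |>.2

omit [CompleteSpace H] in
lemma P_sub_self (t : ℝ) (x : H) : R.P t (x - R.P t x) = 0 := by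
  rw [map_sub, R.idem, sub_self]

/-- `‖Dop g x - P_t (Dop g x)‖ ≤ sup_{[t,1]} |g| · ‖x - P_t x‖` -/
lemma norm_Dop_sub_P {g : ℝ → ℝ} (hg : ContinuousOn g (Icc 0 1)) {t b : ℝ} (ht : 0 ≤ t)
    (hb : 0 ≤ b) (hgb : ∀ s ∈ Icc (0 : ℝ) 1, t ≤ s → |g s| ≤ b) (x : H) :
    ‖R.Dop g x - R.P t (R.Dop g x)‖ ≤ b * ‖x - R.P t x‖ := by
  have h1 : R.Dop g x - R.P t (R.Dop g x) = R.Dop g (x - R.P t x) := by
    rw [P_Dop R hg, map_sub]
  rw [h1]
  exact norm_Dop_high R hg ht hb hgb (P_sub_self R t x)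

/-- truncated profile `s ↦ g (max s t)` -/
def gT (g : ℝ → ℝ) (t : ℝ) : ℝ → ℝ := fun s => g (max s t)

lemma gT_cont {g : ℝ → ℝ} (hg : ContinuousOn g (Icc 0 1)) {t : ℝ} (ht : t ∈ Icc (0 : ℝ) 1) :
    ContinuousOn (gT g t) (Icc 0 1) := by
  refine hg.comp (by fun_prop) fun s hs => ?_
  exact ⟨le_max_of_le_left hs.1, max_le hs.2 ht.2⟩

/-- `Dop g x - Dop (gT g t) x` is measurable with respect to the past of `t` -/
lemma P_Dop_low {g : ℝ → ℝ} (hg : ContinuousOn g (Icc 0 1)) {t : ℝ} (ht : t ∈ Icc (0 : ℝ) 1)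
    (x : H) :
    R.P t (R.Dop g x - R.Dop (gT g t) x) = R.Dop g x - R.Dop (gT g t) x := by
  have hg' := gT_cont hg ht
  have e : R.Dop g x - R.Dop (gT g t) x = R.Dop (fun s => g s - gT g t s) x := by
    rw [R.Dop_sub hg hg']; rfl
  have h := norm_Dop_sub_P R (g := fun s => g s - gT g t s) (hg.sub hg') (t := t) (b := 0)
    ht.1 le_rfl (fun s hs hts => by
      simp only [gT, max_eq_left hts, sub_self, abs_zero, le_refl]) x
  rw [zero_mul] at h
  have h2 := norm_le_zero_iff.1 h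
  rw [e]
  exact (sub_eq_zero.1 h2).symm

/-- `P_t Dop (gT g t) x = g(t) P_t x` -/
lemma P_Dop_gT {g : ℝ → ℝ} (hg : ContinuousOn g (Icc 0 1)) {t : ℝ} (ht : t ∈ Icc (0 : ℝ) 1)
    (x : H) : R.P t (R.Dop (gT g t) x) = g t • R.P t x := by
  have hg' := gT_cont hg ht
  -- `k` vanishes on `[0,t]`
  set k : ℝ → ℝ := fun s => gT g t s - g t with hk
  have hkc : ContinuousOn k (Icc 0 1) := hg'.sub continuousOn_const
  have e : R.Dop k = R.Dop (gT g t) - R.Dop (fun _ => g t) := R.Dop_sub hg' continuousOn_const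
  have key : R.Dop k (R.P t x) = 0 := by
    rw [← norm_le_zero_iff]
    refine le_of_forall_pos_le_add fun ε hε => ?_
    rw [zero_add]
    set δ : ℝ := ε / (‖x‖ + 1) with hδ
    have hδ0 : 0 < δ := by positivity
    -- continuity of `k` at `t`
    have h1 : ∃ ρ > 0, ∀ s ∈ Icc (0 : ℝ) 1, |s - t| < ρ → |k s| ≤ δ := by
      have h := Metric.continuousWithinAt_iff.1 (hkc t ht) δ hδ0
      obtain ⟨ρ, hρ, h⟩ := h
      refine ⟨ρ, hρ, fun s hs hst => ?_⟩
      have h2 := h hs (by rwa [Real.dist_eq])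
      have h3 : k t = 0 := by simp [hk, gT]
      rw [Real.dist_eq, h3, sub_zero] at h2
      exact h2.le
    obtain ⟨ρ, hρ, h1⟩ := h1
    obtain ⟨n₀, hn₀⟩ := exists_pow_lt_of_lt_one hρ (by norm_num : (1 / 2 : ℝ) < 1)
    refine le_of_tendsto (R.S_tendsto_apply hkc (R.P t x)).norm
      (eventually_atTop.2 ⟨n₀, fun n hn => ?_⟩)
    have hn1 : (1 : ℝ) / 2 ^ n < ρ := by
      refine lt_of_le_of_lt ?_ hn₀
      rw [← one_div_pow]
      exact pow_le_pow_of_le_one (by norm_num) (by norm_num) hn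
    have h4 : ‖R.S k n (R.P t x)‖ ^ 2 ≤ (δ * ‖R.P t x‖) ^ 2 := by
      rw [R.norm_S_sq, mul_pow, ← R.mass n (R.P t x), mul_add, Finset.mul_sum]
      have k0 : ∀ s, s ≤ t → k s = 0 := fun s hs => by
        simp only [hk, gT, max_eq_right hs, sub_self]
      refine add_le_add ?_ (Finset.sum_le_sum fun i hi => ?_)
      · rw [k0 0 ht.1]
        have : 0 ≤ δ ^ 2 * ‖R.P 0 (R.P t x)‖ ^ 2 := by positivity
        simpa using this
      · rcases le_total (dy n (i + 1)) t with h5 | h5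
        · rw [k0 _ h5]
          have : 0 ≤ δ ^ 2 * ‖R.inc (dy n i) (dy n (i + 1)) (R.P t x)‖ ^ 2 := by positivity
          simpa using this
        · rcases le_total t (dy n i) with h6 | h6
          · rw [inc_high R h6 (dy_mono n i.le_succ)]; simp
          · refine mul_le_mul_of_nonneg_right ?_ (sq_nonneg _)
            rw [← sq_abs]
            refine pow_le_pow_left₀ (abs_nonneg _) (h1 _ (dy_mem (Finset.mem_range.1 hi)) ?_) 2
            have h7 := dy_succ n i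
            rw [abs_of_nonneg (by linarith)]
            linarith
    have h5 : ‖R.S k n (R.P t x)‖ ≤ δ * ‖R.P t x‖ :=
      (abs_le_of_sq_le_sq' h4 (by positivity)).2
    have h6 : ‖R.P t x‖ ≤ ‖x‖ := R.norm_P_le ht.2 x
    calc ‖R.S k n (R.P t x)‖ ≤ δ * ‖R.P t x‖ := h5
      _ ≤ δ * (‖x‖ + 1) := by gcongr; linarith
      _ = ε := by rw [hδ]; field_simp
  rw [e] at key
  rw [P_Dop R hg']
  have h9 : R.Dop (gT g t) (R.P t x) - R.Dop (fun _ => g t) (R.P t x) = 0 := key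
  rw [R.Dop_const, sub_eq_zero] at h9
  exact h9

omit [CompleteSpace H] in
/-- Abel summation of the dyadic sums -/
lemma S_abel (g : ℝ → ℝ) (n : ℕ) (x : H) :
    R.S g n x = ∑ i ∈ Finset.range (2 ^ n), (g (dy n i) - g (dy n (i + 1))) • R.P (dy n i) x +
      g 1 • x := by
  have key : ∀ N : ℕ, g (dy n 0) • R.P (dy n 0) x +
      ∑ i ∈ Finset.range N, g (dy n (i + 1)) • R.inc (dy n i) (dy n (i + 1)) x =
      ∑ i ∈ Finset.range N, (g (dy n i) - g (dy n (i + 1))) • R.P (dy n i) x +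
        g (dy n N) • R.P (dy n N) x := by
    intro N
    induction N with
    | zero => simp
    | succ N ih =>
      rw [Finset.sum_range_succ, Finset.sum_range_succ, ← add_assoc, ih, inc_apply, smul_sub,
        sub_smul]
      abel
  have h := key (2 ^ n)
  rw [dy_end, R.one, dy_zero] at h
  rw [S_apply, RS_apply, h]

/-- `Dop g` preserves closed convex cones preserved by all `P_t`. -/
lemma Dop_mem_cone {g : ℝ → ℝ} (hg : ContinuousOn g (Icc 0 1)) (ha : AntitoneOn g (Icc 0 1))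
    (h1 : 0 ≤ g 1) {K : Set H} (hK : IsClosed K) (h0 : (0 : H) ∈ K)
    (hadd : ∀ x ∈ K, ∀ y ∈ K, x + y ∈ K) (hsmul : ∀ c : ℝ, 0 ≤ c → ∀ x ∈ K, c • x ∈ K)
    (hP : ∀ t ∈ Icc (0 : ℝ) 1, ∀ x ∈ K, R.P t x ∈ K) {x : H} (hx : x ∈ K) :
    R.Dop g x ∈ K := by
  refine hK.mem_of_tendsto (R.S_tendsto_apply hg x) (Eventually.of_forall fun n => ?_)
  rw [S_abel]
  refine hadd _ ?_ _ (hsmul _ h1 _ hx)
  have : ∀ N ≤ 2 ^ n, ∑ i ∈ Finset.range N,
      (g (dy n i) - g (dy n (i + 1))) • R.P (dy n i) x ∈ K := by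
    intro N
    induction N with
    | zero => intro _; simpa using h0
    | succ N ih =>
      intro hN
      rw [Finset.sum_range_succ]
      refine hadd _ (ih (by omega)) _ (hsmul _ ?_ _ (hP _ (dy_mem (by omega)) _ hx))
      exact sub_nonneg.2 (ha (dy_mem (by omega)) (dy_mem hN) (dy_mono n N.le_succ))
  exact this _ le_rfl

end

open Crest.ProbabilityR.Perceptron Crest.Agent.R146.Lev_576

variable {Ω : Type*} {mΩ : MeasurableSpace Ω} {P : Measure Ω} {B : ℝ≥0 → Ω → ℝ}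

/-- Realisation of `(H, R)` inside `L²(P)`: `P_t` is the conditional expectation on the natural
filtration of `B`. -/
structure Model (R : Res H) (P : Measure Ω) (B : ℝ≥0 → Ω → ℝ) (hBm : ∀ t, Measurable (B t)) where
  J : H → Ω → ℝ
  memLp : ∀ x, MemLp (J x) 2 P
  add : ∀ x y, J (x + y) =ᵐ[P] fun ω => J x ω + J y ω
  smul : ∀ (c : ℝ) x, J (c • x) =ᵐ[P] fun ω => c * J x ω
  inner : ∀ x y, ∫ ω, J x ω * J y ω ∂P = ⟪x, y⟫
  cond : ∀ t : ℝ, t ∈ Icc (0 : ℝ) 1 → ∀ x, J (R.P t x) =ᵐ[P]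
    P[J x | brownianFiltration B hBm t.toNNReal]

namespace Model

variable {R} {hBm : ∀ t, Measurable (B t)} (M : Model R P B hBm)

include M in
lemma sub (x y : H) : M.J (x - y) =ᵐ[P] fun ω => M.J x ω - M.J y ω := by
  have h1 := M.add x ((-1 : ℝ) • y)
  have h2 := M.smul (-1) y
  have e : x + (-1 : ℝ) • y = x - y := by rw [neg_one_smul, sub_eq_add_neg]
  rw [e] at h1
  filter_upwards [h1, h2] with ω h1 h2
  rw [h1, h2]; ring

lemma norm_sq (x : H) : ∫ ω, M.J x ω ^ 2 ∂P = ‖x‖ ^ 2 := by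
  rw [← real_inner_self_eq_norm_sq, ← M.inner]
  congr 1; funext ω; ring

/-- `E (Jx - E_t Jx)² = ‖x - P_t x‖²` -/
lemma var_eq {t : ℝ} (ht : t ∈ Icc (0 : ℝ) 1) (x : H) :
    ∫ ω, (M.J x ω - (P[M.J x | brownianFiltration B hBm t.toNNReal]) ω) ^ 2 ∂P =
      ‖x - R.P t x‖ ^ 2 := by
  rw [← M.norm_sq]
  apply integral_congr_ae
  filter_upwards [M.sub x (R.P t x), M.cond t ht x] with ω h1 h2
  rw [h1, h2]

/-- the cone of nonnegative elements is closed -/
lemma isClosed_nonneg [IsProbabilityMeasure P] : IsClosed {z : H | 0 ≤ᵐ[P] M.J z} := by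
  have e : {z : H | 0 ≤ᵐ[P] M.J z} =
      ⋂ (S : Set Ω) (_ : MeasurableSet S), {z : H | 0 ≤ ∫ ω in S, M.J z ω ∂P} := by
    ext z
    simp only [mem_iInter, Set.mem_ofPred_eq]
    constructor
    · intro hz S hS
      exact setIntegral_nonneg_of_ae hz
    · intro hz
      exact ae_nonneg_of_forall_setIntegral_nonneg ((M.memLp z).integrable (by norm_num))
        fun S hS _ => hz S hS
  rw [e]
  refine isClosed_iInter fun S => isClosed_iInter fun hS => ?_
  have hL : LipschitzWith 1 (fun z : H => ∫ ω in S, M.J z ω ∂P) := by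
    refine LipschitzWith.of_dist_le_mul fun z w => ?_
    rw [NNReal.coe_one, one_mul, Real.dist_eq, dist_eq_norm]
    have iz := (M.memLp z).integrable (show (1 : ℝ≥0∞) ≤ 2 by norm_num)
    have iw := (M.memLp w).integrable (show (1 : ℝ≥0∞) ≤ 2 by norm_num)
    have h1 : ∫ ω in S, M.J z ω ∂P - ∫ ω in S, M.J w ω ∂P = ∫ ω in S, M.J (z - w) ω ∂P := by
      rw [← integral_sub iz.integrableOn iw.integrableOn]
      exact integral_congr_ae (ae_restrict_of_ae ((M.sub z w).mono fun ω h => h.symm))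
    have h2 := abs_int_mul_le (P := P) (f := S.indicator fun _ => (1 : ℝ)) (g := M.J (z - w))
      ((memLp_const 1).indicator hS) (M.memLp _)
    have h3 : ∫ ω, (S.indicator fun _ => (1 : ℝ)) ω * M.J (z - w) ω ∂P =
        ∫ ω in S, M.J (z - w) ω ∂P := by
      rw [← integral_indicator hS]
      congr 1; funext ω
      by_cases h : ω ∈ S <;> simp [h]
    have h4 : ∫ ω, (S.indicator fun _ => (1 : ℝ)) ω ^ 2 ∂P ≤ 1 := by
      have h5 : (fun ω => (S.indicator fun _ => (1 : ℝ)) ω ^ 2) = S.indicator fun _ => (1 : ℝ) := by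
        funext ω
        by_cases h : ω ∈ S <;> simp [h]
      rw [h5, integral_indicator hS, setIntegral_const, smul_eq_mul, mul_one]
      exact measureReal_le_one
    rw [h1, ← h3]
    refine h2.trans ?_
    rw [M.norm_sq, Real.sqrt_sq (norm_nonneg _)]
    calc √(∫ ω, (S.indicator fun _ => (1 : ℝ)) ω ^ 2 ∂P) * ‖z - w‖ ≤ 1 * ‖z - w‖ := by
          gcongr
          exact Real.sqrt_le_one.2 h4
      _ = ‖z - w‖ := one_mul _
  exact isClosed_le continuous_const hL.continuous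

end Model

variable {hBm : ∀ t, Measurable (B t)}

/-- **(4a)** in the frame of `HilbA_356`. -/
theorem no_atom_Dop [CompleteSpace H] [IsProbabilityMeasure P] {R : Res H}
    (M : Model R P B hBm) (hB : IsPreBrownianReal B P) {g : ℝ → ℝ}
    (hg : ContinuousOn g (Icc 0 1)) (ha : AntitoneOn g (Icc 0 1)) (x : H)
    (hsmall : ∀ ε : ℝ, 0 < ε → ∃ t ∈ Ico (0 : ℝ) 1,
      (g t - g 1) ^ 2 * ‖x - R.P t x‖ ^ 2 ≤ ε * (1 - t)) (a : ℝ) :
    P {ω | B 1 ω + M.J (R.Dop (fun s => g s - g 1) x) ω = a} = 0 := by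
  refine no_atom_brown hB hBm (M.memLp _) ?_ a
  intro ε hε
  obtain ⟨t, ht, h⟩ := hsmall ε hε
  have ht' : t ∈ Icc (0 : ℝ) 1 := ⟨ht.1, ht.2.le⟩
  refine ⟨t.toNNReal, ?_, ?_⟩
  · rw [← NNReal.coe_lt_coe, Real.coe_toNNReal _ ht.1]; exact ht.2
  · rw [M.var_eq ht', Real.coe_toNNReal _ ht.1]
    refine le_trans ?_ h
    have h1 : 0 ≤ g t - g 1 := sub_nonneg.2 (ha ht' (by simp) ht.2.le)
    have h2 := norm_Dop_sub_P R (g := fun s => g s - g 1) (hg.sub continuousOn_const)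
      (t := t) (b := g t - g 1) ht.1 h1 (fun s hs hts => by
        have h3 : 0 ≤ g s - g 1 := sub_nonneg.2 (ha hs (by simp) hs.2)
        rw [abs_of_nonneg h3]
        linarith [ha ht' hs hts]) x
    rw [← mul_pow]
    exact pow_le_pow_left₀ (norm_nonneg _) h2 2

/-- `hsmall` when `g t - g 1 ≤ L (1 - t)` (positive temperature). -/
theorem small_of_lip {R : Res H} {g : ℝ → ℝ} (ha : AntitoneOn g (Icc 0 1)) {L : ℝ}
    (hL : ∀ t ∈ Ico (0 : ℝ) 1, g t - g 1 ≤ L * (1 - t)) (x : H) (ε : ℝ) (hε : 0 < ε) :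
    ∃ t ∈ Ico (0 : ℝ) 1, (g t - g 1) ^ 2 * ‖x - R.P t x‖ ^ 2 ≤ ε * (1 - t) := by
  set K : ℝ := L ^ 2 * (4 * ‖x‖ ^ 2) + 1 with hK
  have hK0 : 0 < K := by positivity
  set τ : ℝ := min 1 (ε / K) with hτ
  have hτ0 : 0 < τ := lt_min one_pos (by positivity)
  have hτ1 : τ ≤ 1 := min_le_left _ _
  have hτ2 : τ * K ≤ ε := by
    have : τ ≤ ε / K := min_le_right _ _
    calc τ * K ≤ ε / K * K := by gcongr
      _ = ε := by field_simp
  have ht : 1 - τ ∈ Ico (0 : ℝ) 1 := ⟨by linarith, by linarith⟩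
  have ht' : 1 - τ ∈ Icc (0 : ℝ) 1 := ⟨ht.1, ht.2.le⟩
  refine ⟨1 - τ, ht, ?_⟩
  have h1 : 0 ≤ g (1 - τ) - g 1 := sub_nonneg.2 (ha ht' (by simp) ht.2.le)
  have h2 := hL _ ht
  rw [show 1 - (1 - τ) = τ by ring] at h2 ⊢
  have h3 : ‖x - R.P (1 - τ) x‖ ≤ 2 * ‖x‖ := by
    refine (norm_sub_le _ _).trans ?_
    have := R.norm_P_le ht'.2 x
    linarith
  have h4 : (g (1 - τ) - g 1) ^ 2 ≤ (L * τ) ^ 2 := by gcongr
  have h5 : ‖x - R.P (1 - τ) x‖ ^ 2 ≤ (2 * ‖x‖) ^ 2 := by gcongr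
  calc (g (1 - τ) - g 1) ^ 2 * ‖x - R.P (1 - τ) x‖ ^ 2
      ≤ (L * τ) ^ 2 * (2 * ‖x‖) ^ 2 := by gcongr
    _ = τ * (τ * (L ^ 2 * (4 * ‖x‖ ^ 2))) := by ring
    _ ≤ τ * (τ * K) := by
        gcongr
        rw [hK]; linarith
    _ ≤ τ * ε := by gcongr
    _ = ε * τ := by ring

/-- `hsmall` when `‖x - P_t x‖² ≤ C (1 - t)` (zero temperature). -/
theorem small_of_var {R : Res H} {g : ℝ → ℝ} (hg : ContinuousOn g (Icc 0 1)) {C : ℝ} {x : H}
    (hC : ∀ t ∈ Ico (0 : ℝ) 1, ‖x - R.P t x‖ ^ 2 ≤ C * (1 - t)) (ε : ℝ) (hε : 0 < ε) :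
    ∃ t ∈ Ico (0 : ℝ) 1, (g t - g 1) ^ 2 * ‖x - R.P t x‖ ^ 2 ≤ ε * (1 - t) := by
  have hC0 : 0 ≤ C := by
    have h := hC 0 ⟨le_rfl, one_pos⟩
    rw [sub_zero, mul_one] at h
    exact le_trans (sq_nonneg _) h
  have h1 := Metric.continuousWithinAt_iff.1 (hg 1 (by simp)) (√(ε / (C + 1)))
    (Real.sqrt_pos.2 (by positivity))
  obtain ⟨ρ, hρ, h1⟩ := h1
  set τ : ℝ := min 1 (ρ / 2) with hτ
  have hτ0 : 0 < τ := lt_min one_pos (by positivity)
  have hτ1 : τ ≤ 1 := min_le_left _ _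
  have hτ2 : τ ≤ ρ / 2 := min_le_right _ _
  have ht : 1 - τ ∈ Ico (0 : ℝ) 1 := ⟨by linarith, by linarith⟩
  have ht' : 1 - τ ∈ Icc (0 : ℝ) 1 := ⟨ht.1, ht.2.le⟩
  refine ⟨1 - τ, ht, ?_⟩
  have h2 := h1 ht' (by
    rw [Real.dist_eq, show 1 - τ - 1 = -τ by ring, abs_neg, abs_of_pos hτ0]; linarith)
  rw [Real.dist_eq] at h2
  have h3 : (g (1 - τ) - g 1) ^ 2 ≤ ε / (C + 1) := by
    rw [← sq_abs, ← Real.sq_sqrt (show 0 ≤ ε / (C + 1) by positivity)]
    exact pow_le_pow_left₀ (abs_nonneg _) h2.le 2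
  have h4 := hC _ ht
  rw [show 1 - (1 - τ) = τ by ring] at h4 ⊢
  calc (g (1 - τ) - g 1) ^ 2 * ‖x - R.P (1 - τ) x‖ ^ 2 ≤ ε / (C + 1) * (C * τ) := by gcongr
    _ = (C / (C + 1)) * (ε * τ) := by field_simp
    _ ≤ 1 * (ε * τ) := by
        gcongr
        rw [div_le_one (by positivity)]; linarith
    _ = ε * τ := one_mul _

/-- Levels of a complementarity solution (positive and zero temperature)
`h = κ + B_1 + Dop g x + c x`, `h x = 0`; gap `γ = h - c x`. -/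
theorem levels_pos [CompleteSpace H] [IsProbabilityMeasure P] {R : Res H}
    (M : Model R P B hBm) (hB : IsPreBrownianReal B P) {g : ℝ → ℝ}
    (hg : ContinuousOn g (Icc 0 1)) (ha : AntitoneOn g (Icc 0 1)) {x : H} {h : Ω → ℝ}
    {κ c : ℝ} (hh : h =ᵐ[P] fun ω => κ + B 1 ω + M.J (R.Dop g x) ω + c * M.J x ω)
    (hcomp : ∀ᵐ ω ∂P, h ω * M.J x ω = 0)
    (hsmall : ∀ ε : ℝ, 0 < ε → ∃ t ∈ Ico (0 : ℝ) 1,
      (g t - g 1) ^ 2 * ‖x - R.P t x‖ ^ 2 ≤ ε * (1 - t)) :
    (∀ a : ℝ, 0 < a → P {ω | h ω = a} = 0) ∧ (∀ l : ℝ, 0 < l → P {ω | M.J x ω = l} = 0) ∧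
      P {ω | h ω = 0 ∧ M.J x ω = 0} = 0 ∧
      (0 < c → ∀ a : ℝ, P {ω | h ω - c * M.J x ω = a} = 0) := by
  have hX : ∀ᵐ ω ∂P, h ω - (c + g 1) * M.J x ω =
      κ + (B 1 ω + M.J (R.Dop (fun s => g s - g 1) x) ω) := by
    have e1 : R.Dop g x = R.Dop (fun s => g s - g 1) x + g 1 • x := by
      have h1 := congrArg (fun T => T x) (R.Dop_sub hg (continuousOn_const (c := g 1)))
      simp only [sub_apply, R.Dop_const] at h1
      rw [h1]; abel
    have h2 := M.add (R.Dop (fun s => g s - g 1) x) (g 1 • x)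
    rw [← e1] at h2
    filter_upwards [hh, h2, M.smul (g 1) x] with ω h3 h4 h5
    rw [h3, h4, h5]; ring
  have key : ∀ (S : Set Ω) (a : ℝ), (∀ᵐ ω ∂P, ω ∈ S → h ω - (c + g 1) * M.J x ω = a) →
      P S = 0 := by
    intro S a hS
    have h1 := no_atom_Dop M hB hg ha x hsmall (a - κ)
    refine measure_mono_null_ae ?_ h1
    filter_upwards [hS, hX] with ω h2 h3 h4
    have h5 := h2 h4
    change B 1 ω + M.J (R.Dop (fun s => g s - g 1) x) ω = a - κ
    linarith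
  refine ⟨fun a ha0 => key _ a ?_, fun l hl => key _ (-((c + g 1) * l)) ?_, key _ 0 ?_,
    fun hc0 a => ?_⟩
  · filter_upwards [hcomp] with ω h1 h2
    have h2 : h ω = a := h2
    have h3 : M.J x ω = 0 := by
      rcases mul_eq_zero.1 h1 with h | h
      · rw [h] at h2; exact absurd h2 ha0.ne
      · exact h
    rw [h3, h2]; ring
  · filter_upwards [hcomp] with ω h1 h2
    have h2 : M.J x ω = l := h2
    have h3 : h ω = 0 := by
      rcases mul_eq_zero.1 h1 with h | h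
      · exact h
      · rw [h] at h2; exact absurd h2 hl.ne
    rw [h3, h2]; ring
  · refine ae_of_all _ fun ω h1 => ?_
    rw [h1.1, h1.2]; ring
  · have k1 := key {ω | h ω - c * M.J x ω = a ∧ M.J x ω = 0} a (ae_of_all _ fun ω h1 => by
      have h2 : h ω - c * M.J x ω = a := h1.1
      have h3 : M.J x ω = 0 := h1.2
      rw [h3] at h2 ⊢
      linarith)
    have k2 := key {ω | h ω - c * M.J x ω = a ∧ h ω = 0} ((c + g 1) * (a / c))
      (ae_of_all _ fun ω h1 => by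
        have h2 : h ω - c * M.J x ω = a := h1.1
        have h3 : h ω = 0 := h1.2
        have h4 : M.J x ω = -(a / c) := by
          rw [h3] at h2
          field_simp
          linarith
        rw [h3, h4]; ring)
    refine measure_mono_null_ae ?_ (measure_union_null k1 k2)
    filter_upwards [hcomp] with ω h1 h2
    have h2 : h ω - c * M.J x ω = a := h2
    rcases mul_eq_zero.1 h1 with h3 | h3
    · right; exact ⟨h2, h3⟩
    · left; exact ⟨h2, h3⟩

/-- **(4b)** in the frame of `HilbA_356`: `h = κ + B_1 + Dop g x`, `x ≥ 0`, `h ≥ 0`, `h x = 0`,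
`g ≥ 0` antitone with `g 1 = 0`: the law of `h` has no atom at `a > 0`. -/
theorem levels_jam [CompleteSpace H] [IsProbabilityMeasure P] {R : Res H}
    (M : Model R P B hBm) (hB : IsPreBrownianReal B P) {g : ℝ → ℝ}
    (hg : ContinuousOn g (Icc 0 1)) (ha : AntitoneOn g (Icc 0 1)) (hg1 : g 1 = 0) {x y : H}
    {κ : ℝ} (hy : M.J y =ᵐ[P] fun ω => κ + B 1 ω + M.J (R.Dop g x) ω)
    (hy0 : 0 ≤ᵐ[P] M.J y) (hx0 : 0 ≤ᵐ[P] M.J x) (hcomp : ∀ᵐ ω ∂P, M.J y ω * M.J x ω = 0)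
    {a : ℝ} (ha0 : 0 < a) : P {ω | M.J y ω = a} = 0 := by
  have hg0 : ∀ t ∈ Icc (0 : ℝ) 1, 0 ≤ g t := fun t ht => hg1 ▸ ha ht (by simp) ht.2
  -- the cone of nonnegative elements
  set K : Set H := {z | 0 ≤ᵐ[P] M.J z} with hK
  have hKx : ∀ t ∈ Icc (0 : ℝ) 1, ∀ z ∈ K, R.P t z ∈ K := by
    intro t ht z hz
    have h1 : 0 ≤ᵐ[P] P[M.J z | brownianFiltration B hBm t.toNNReal] := condExp_nonneg hz
    filter_upwards [h1, M.cond t ht z] with ω h1 h2
    rw [h2]; exact h1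
  have hKadd : ∀ z ∈ K, ∀ w ∈ K, z + w ∈ K := by
    intro z hz w hw
    filter_upwards [hz, hw, M.add z w] with ω h1 h2 h3
    have h1 : 0 ≤ M.J z ω := h1
    have h2 : 0 ≤ M.J w ω := h2
    change 0 ≤ M.J (z + w) ω
    rw [h3]; linarith
  have hKsmul : ∀ c : ℝ, 0 ≤ c → ∀ z ∈ K, c • z ∈ K := by
    intro c hc z hz
    filter_upwards [hz, M.smul c z] with ω h1 h2
    have h1 : 0 ≤ M.J z ω := h1
    change 0 ≤ M.J (c • z) ω
    rw [h2]; positivity
  have hK0 : (0 : H) ∈ K := by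
    have := hKsmul 0 le_rfl x hx0
    rwa [zero_smul] at this
  have hKc : IsClosed K := M.isClosed_nonneg
  refine no_atom_jam hB hBm (M.memLp x) hx0 hy0 hcomp ?_ ha0
  intro ε hε
  -- choose `t` near `1`
  have e1 : ∀ᶠ t in 𝓝[<] (1 : ℝ), t ∈ Ico (0 : ℝ) 1 :=
    Ico_mem_nhdsLT one_pos
  have e2 : ∀ᶠ t in 𝓝[<] (1 : ℝ), ‖y - R.P t y‖ < √ε := by
    have h1 : Tendsto (fun t => ‖y - R.P t y‖) (𝓝[<] 1) (𝓝 ‖y - y‖) :=
      ((tendsto_const_nhds (x := y)).sub (R.left y)).norm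
    rw [sub_self, norm_zero] at h1
    exact h1.eventually (gt_mem_nhds (Real.sqrt_pos.2 hε))
  have e3 : ∀ᶠ t in 𝓝[<] (1 : ℝ), g t < ε := by
    have h1 : Tendsto g (𝓝[Icc 0 1] 1) (𝓝 (g 1)) := hg 1 (by simp)
    have h2 : 𝓝[<] (1 : ℝ) ≤ 𝓝[Icc 0 1] 1 := by
      rw [← nhdsWithin_Ico_eq_nhdsLT (one_pos : (0:ℝ) < 1)]
      exact nhdsWithin_mono _ Ico_subset_Icc_self
    have h3 := h1.mono_left h2
    rw [hg1] at h3
    exact h3.eventually (gt_mem_nhds hε)
  obtain ⟨t, ht, h2, h3⟩ := (e1.and (e2.and e3)).exists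
  have ht' : t ∈ Icc (0 : ℝ) 1 := ⟨ht.1, ht.2.le⟩
  have htn : t.toNNReal < 1 := by
    rw [← NNReal.coe_lt_coe, Real.coe_toNNReal _ ht.1]; exact ht.2
  have hgc := gT_cont hg ht'
  have hga : AntitoneOn (gT g t) (Icc 0 1) := fun r hr s hs hrs =>
    ha ⟨le_max_of_le_left hr.1, max_le hr.2 ht.2.le⟩ ⟨le_max_of_le_left hs.1, max_le hs.2 ht.2.le⟩
      (max_le_max hrs le_rfl)
  have hgT1 : gT g t 1 = 0 := by simp only [gT, max_eq_left ht.2.le, hg1]
  set Yh : H := R.Dop (gT g t) x with hYh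
  set Ah : H := R.Dop g x - Yh with hAh
  have hA1 : R.P t Ah = Ah := P_Dop_low R hg ht' x
  refine ⟨t.toNNReal, htn, g t, h3.le, ⟨hg0 t ht', ?_⟩, ?_⟩
  · -- the past part, strongly measurable version
    set E := P[M.J Ah | brownianFiltration B hBm t.toNNReal] with hE
    have hEA : M.J Ah =ᵐ[P] E := by
      have := M.cond t ht' Ah
      rwa [hA1] at this
    have hBt : Measurable[brownianFiltration B hBm t.toNNReal] (B t.toNNReal) :=
      (Filtration.stronglyAdapted_natural (fun t => (hBm t).stronglyMeasurable) _).measurable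
    have hB2 : MemLp (B t.toNNReal) 2 P := by
      have h1 := hB.hasLaw_eval t.toNNReal
      exact h1.hasGaussianLaw.memLp_two
    have hY1 : M.J (R.P t Yh) =ᵐ[P] fun ω => g t * M.J (R.P t x) ω := by
      rw [P_Dop_gT R hg ht' x]
      exact M.smul _ _
    refine ⟨fun ω => κ + B t.toNNReal ω + E ω, M.J Yh, ?_, ?_, M.memLp _, ?_, ?_, ?_, ?_⟩
    · exact (measurable_const.add hBt).add stronglyMeasurable_condExp.measurable
    · exact ((memLp_const κ).add hB2).add ((M.memLp Ah).condExp (by norm_num))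
    · exact Dop_mem_cone R hgc hga (by rw [hgT1]) hKc hK0 hKadd hKsmul hKx hx0
    · have h4 := M.add Ah Yh
      rw [hAh, sub_add_cancel] at h4
      filter_upwards [hy, h4, hEA] with ω h5 h6 h7
      rw [h5, h6, ← hAh, h7]; ring
    · filter_upwards [hY1, M.cond t ht' Yh, M.cond t ht' x] with ω h4 h5 h6
      rw [← h5, h4, h6]
    · have h4 : ∫ ω, (M.J Yh ω - (P[M.J Yh | brownianFiltration B hBm t.toNNReal]) ω) *
          (M.J x ω - (P[M.J x | brownianFiltration B hBm t.toNNReal]) ω) ∂P =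
          ⟪Yh - R.P t Yh, x - R.P t x⟫ := by
        rw [← M.inner]
        apply integral_congr_ae
        filter_upwards [M.sub Yh (R.P t Yh), M.sub x (R.P t x), M.cond t ht' Yh,
          M.cond t ht' x] with ω h1 h2 h3 h4
        rw [h1, h2, h3, h4]
      rw [h4]
      have h5 : Yh - R.P t Yh = R.Dop (gT g t) (x - R.P t x) := by
        rw [hYh, P_Dop R hgc, map_sub]
      rw [h5, real_inner_comm]
      exact R.Q_nonneg hgc (fun s hs => hg0 _ ⟨le_max_of_le_left hs.1, max_le hs.2 ht.2.le⟩) _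
  · rw [M.var_eq ht']
    have h4 : ‖y - R.P t y‖ ^ 2 ≤ (√ε) ^ 2 := pow_le_pow_left₀ (norm_nonneg _) h2.le 2
    rwa [Real.sq_sqrt hε.le] at h4

end Crest.Agent.R146.Lev2_576
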