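import Crest.Agent.R146.DualL_256
import Crest.Agent.R146.HilbB_356
import Crest.Agent.R146.Lev2_576

/-!
# Row 146, node G of 624 (helper256), part 1: the Hilbert space of the Brownian filtration

`HB 𝓕 P` : the closed subspace of `x : L2(P)` with `E_t x → x` as `t ↑ 1`; `resB` the family of
conditional expectations on it (`Hilb.Res`), `modelB` the `Lev2_576.Model`.
-/

set_option autoImplicit false

noncomputable section

open MeasureTheory Set Filter Topology ProbabilityTheory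
open scoped InnerProductSpace RealInnerProductSpace NNReal ENNReal

namespace Crest.Agent.R146.DualG_256

open Crest.ProbabilityR.Perceptron
open Crest.Agent.R146.DualQ_256 Crest.Agent.R146.DualC1_256 Crest.Agent.R146.DualV_256
  Crest.Agent.R146.DualL_256

variable {Ω : Type*} [mΩ : MeasurableSpace Ω] (P : Measure Ω) [IsProbabilityMeasure P]
  (𝓕 : Filtration ℝ≥0 mΩ)

/-- the closed subspace of `L2(P)` of the `x` with `E_t x → x` as `t ↑ 1` -/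
def HB : Submodule ℝ (Ω →₂[P] ℝ) where
  carrier := {x | Tendsto (fun t : ℝ => condPi 𝓕 P t x) (𝓝[<] 1) (𝓝 x)}
  add_mem' := fun {x y} hx hy => by
    simp only [mem_ofPred_eq, map_add] at *
    exact hx.add hy
  zero_mem' := by
    simp only [mem_ofPred_eq, map_zero]
    exact tendsto_const_nhds
  smul_mem' := fun c x hx => by
    simp only [mem_ofPred_eq, map_smul] at *
    exact hx.const_smul c

variable {P 𝓕}

theorem mem_HB {x : Ω →₂[P] ℝ} :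
    x ∈ HB P 𝓕 ↔ Tendsto (fun t : ℝ => condPi 𝓕 P t x) (𝓝[<] 1) (𝓝 x) := Iff.rfl

theorem norm_condPi_le (t : ℝ) (x : Ω →₂[P] ℝ) : ‖condPi 𝓕 P t x‖ ≤ ‖x‖ :=
  (fam 𝓕 P).norm_Pi_le t x

theorem HB_closed : IsClosed (HB P 𝓕 : Set (Ω →₂[P] ℝ)) := by
  rw [← closure_subset_iff_isClosed]
  intro x hx
  rw [SetLike.mem_coe, mem_HB, Metric.tendsto_nhds]
  intro ε hε
  obtain ⟨y, hy, hxy⟩ := Metric.mem_closure_iff.1 hx (ε / 3) (by positivity)
  have h1 := (Metric.tendsto_nhds.1 (mem_HB.1 hy)) (ε / 3) (by positivity)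
  filter_upwards [h1] with t ht
  have h2 : dist (condPi 𝓕 P t x) (condPi 𝓕 P t y) ≤ dist x y := by
    rw [dist_eq_norm, dist_eq_norm, ← map_sub]; exact norm_condPi_le t _
  calc dist (condPi 𝓕 P t x) x ≤ dist (condPi 𝓕 P t x) (condPi 𝓕 P t y) +
        dist (condPi 𝓕 P t y) y + dist y x := dist_triangle4 _ _ _ _
    _ < ε := by rw [dist_comm y x]; linarith

instance : CompleteSpace (HB P 𝓕) := (HB_closed (P := P) (𝓕 := 𝓕)).completeSpace_coe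

theorem condPi_mem {t : ℝ} (ht : t < 1) (x : Ω →₂[P] ℝ) : condPi 𝓕 P t x ∈ HB P 𝓕 := by
  rw [mem_HB]
  refine tendsto_const_nhds.congr' ?_
  filter_upwards [Ioo_mem_nhdsLT ht] with s hs
  exact ((fam 𝓕 P).comp' hs.1.le x).symm

theorem condPi_fix {t : ℝ} (ht : 1 ≤ t) {x : Ω →₂[P] ℝ} (hx : x ∈ HB P 𝓕) :
    condPi 𝓕 P t x = x := by
  have h1 : Tendsto (fun s : ℝ => condPi 𝓕 P t (condPi 𝓕 P s x)) (𝓝[<] 1)
      (𝓝 (condPi 𝓕 P t x)) := ((condPi 𝓕 P t).continuous.tendsto _).comp (mem_HB.1 hx)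
  refine tendsto_nhds_unique (h1.congr' ?_) (mem_HB.1 hx)
  filter_upwards [self_mem_nhdsWithin] with s hs
  exact (fam 𝓕 P).comp' ((le_of_lt hs).trans ht) x

theorem condPi_mem' (t : ℝ) {x : Ω →₂[P] ℝ} (hx : x ∈ HB P 𝓕) : condPi 𝓕 P t x ∈ HB P 𝓕 := by
  rcases lt_or_ge t 1 with ht | ht
  · exact condPi_mem ht x
  · rw [condPi_fix ht hx]; exact hx

variable (P 𝓕) in
/-- conditional expectation on `HB` -/
def PB (t : ℝ) : HB P 𝓕 →L[ℝ] HB P 𝓕 :=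
  ((condPi 𝓕 P t).comp (HB P 𝓕).subtypeL).codRestrict (HB P 𝓕) (fun x => condPi_mem' t x.2)

theorem PB_coe (t : ℝ) (x : HB P 𝓕) : ((PB P 𝓕 t x : HB P 𝓕) : Ω →₂[P] ℝ) = condPi 𝓕 P t x := rfl

theorem PB_symm (t : ℝ) (x y : HB P 𝓕) : ⟪PB P 𝓕 t x, y⟫_ℝ = ⟪x, PB P 𝓕 t y⟫_ℝ := by
  rw [Submodule.coe_inner, Submodule.coe_inner, PB_coe, PB_coe]
  exact condPi_sa 𝓕 t (x : Ω →₂[P] ℝ) (y : Ω →₂[P] ℝ)

theorem PB_mul (s t : ℝ) (h : s ≤ t) (x : HB P 𝓕) : PB P 𝓕 s (PB P 𝓕 t x) = PB P 𝓕 s x := by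
  apply Subtype.ext
  exact condPi_comp 𝓕 s t h (x : Ω →₂[P] ℝ)

theorem PB_one (x : HB P 𝓕) : PB P 𝓕 1 x = x := by
  apply Subtype.ext
  exact condPi_fix le_rfl x.2

theorem PB_left (x : HB P 𝓕) : Tendsto (fun t => PB P 𝓕 t x) (𝓝[<] 1) (𝓝 x) := by
  rw [tendsto_subtype_rng]
  exact mem_HB.1 x.2

variable (P 𝓕) in
/-- the conditional expectations on `HB` -/
def resB : Hilb.Res (HB P 𝓕) where
  P := PB P 𝓕
  symm := PB_symm
  mul := PB_mul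
  one := PB_one
  left := PB_left

@[simp] theorem resB_coe (t : ℝ) (x : HB P 𝓕) :
    (((resB P 𝓕).P t x : HB P 𝓕) : Ω →₂[P] ℝ) = condPi 𝓕 P t x := rfl

/-! ### membership -/

theorem norm_sub_condPi_le (t : ℝ) {x y : Ω →₂[P] ℝ} (hy : condPi 𝓕 P t y = y) :
    ‖x - condPi 𝓕 P t x‖ ≤ ‖x - y‖ := by
  have h1 : x - condPi 𝓕 P t x = (x - y) - condPi 𝓕 P t (x - y) := by
    rw [map_sub, hy]; abel
  rw [h1]
  set z := x - y
  have h2 : ‖z - condPi 𝓕 P t z‖ ^ 2 = ‖z‖ ^ 2 - ‖condPi 𝓕 P t z‖ ^ 2 := by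
    rw [@norm_sub_sq ℝ]
    simp only [RCLike.re_to_real]
    have h3 : ⟪z, condPi 𝓕 P t z⟫_ℝ = ‖condPi 𝓕 P t z‖ ^ 2 := by
      have h4 := (fam 𝓕 P).q_eq z t
      have h5 : (fam 𝓕 P).q z t = ⟪condPi 𝓕 P t z, z⟫_ℝ := rfl
      rw [real_inner_comm, ← h5, h4]; rfl
    rw [h3]; ring
  have h6 : ‖z - condPi 𝓕 P t z‖ ^ 2 ≤ ‖z‖ ^ 2 := by
    rw [h2]; nlinarith [sq_nonneg ‖condPi 𝓕 P t z‖]
  exact (abs_le_of_sq_le_sq' h6 (norm_nonneg _)).2

theorem cst_fix (t k : ℝ) : condPi 𝓕 P t (cst P k) = cst P k :=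
  condPi_of_meas 𝓕 t _ ((aestronglyMeasurable_const (b := k)).congr (cst_coe k).symm)

theorem cst_mem (k : ℝ) : cst P k ∈ HB P 𝓕 := by
  rw [mem_HB]; simp only [cst_fix]; exact tendsto_const_nhds

section Brownian

variable {B : ℝ≥0 → Ω → ℝ} (hBm : ∀ t, Measurable (B t)) (hB : IsBrownianReal B P)

/-- `B_t` in `L2` -/
def Zt (t : ℝ≥0) : Ω →₂[P] ℝ := (memLp_B hB t).toLp _

theorem Zt_coe (t : ℝ≥0) : (Zt hB t : Ω → ℝ) =ᵐ[P] B t := MemLp.coeFn_toLp _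

theorem Zt_one : Zt hB 1 = ZB hB := rfl

theorem Zt_fix (t : ℝ≥0) : condPi (brownianFiltration B hBm) P t (Zt hB t) = Zt hB t := by
  refine condPi_of_meas _ _ _ ?_
  rw [Real.toNNReal_coe]
  refine AEStronglyMeasurable.congr ?_ (Zt_coe hB t).symm
  exact (Filtration.stronglyAdapted_natural (fun t => (hBm t).stronglyMeasurable) t).aestronglyMeasurable

theorem norm_Zt_sub (t : ℝ≥0) (ht : t ≤ 1) : ‖ZB hB - Zt hB t‖ ^ 2 = 1 - (t : ℝ) := by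
  rw [norm_sq_eq]
  have h1 : ∫ ω, (ZB hB - Zt hB t : Ω →₂[P] ℝ) ω ^ 2 ∂P = ∫ ω, (B 1 - B t) ω ^ 2 ∂P := by
    refine integral_congr_ae ?_
    filter_upwards [Lp.coeFn_sub (ZB hB) (Zt hB t), ZB_coe hB, Zt_coe hB t] with ω h1 h2 h3
    simp only [h1, Pi.sub_apply, h2, h3]
  rw [h1]
  have hl := hB.toIsPreBrownianReal.hasLaw_sub 1 t
  have h2 : ∫ ω, (B 1 - B t) ω ^ 2 ∂P = ∫ x, x ^ 2 ∂(gaussianReal 0 (nndist (1 : ℝ≥0).1 t.1)) := by
    rw [← hl.map_eq, integral_map hl.aemeasurable (by fun_prop)]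
  rw [h2]
  have h3 := variance_fun_id_gaussianReal (μ := 0) (v := nndist (1 : ℝ≥0).1 t.1)
  rw [variance_eq_integral (by fun_prop)] at h3
  simp only [integral_id_gaussianReal, sub_zero] at h3
  rw [h3]
  have h4 : (t : ℝ) ≤ 1 := by exact_mod_cast ht
  rw [coe_nndist, Real.dist_eq]
  show |(1 : ℝ) - t| = 1 - t
  exact abs_of_nonneg (by linarith)

theorem ZB_mem : ZB hB ∈ HB P (brownianFiltration B hBm) := by
  rw [mem_HB, tendsto_iff_norm_sub_tendsto_zero]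
  have h1 : Tendsto (fun t : ℝ => Real.sqrt (1 - t)) (𝓝[<] 1) (𝓝 0) := by
    have : Tendsto (fun t : ℝ => Real.sqrt (1 - t)) (𝓝 1) (𝓝 (Real.sqrt (1 - 1))) :=
      (Continuous.tendsto (by fun_prop) _)
    rw [sub_self, Real.sqrt_zero] at this
    exact this.mono_left nhdsWithin_le_nhds
  refine squeeze_zero' (Eventually.of_forall fun t => norm_nonneg _) ?_ h1
  filter_upwards [Ioo_mem_nhdsLT (show (0 : ℝ) < 1 by norm_num)] with t ht
  have h2 := norm_sub_condPi_le (𝓕 := brownianFiltration B hBm) (P := P) t (x := ZB hB)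
    (y := Zt hB t.toNNReal) (by
      have := Zt_fix hBm hB t.toNNReal
      rwa [Real.coe_toNNReal t ht.1.le] at this)
  rw [norm_sub_rev]
  refine h2.trans (Real.le_sqrt_of_sq_le ?_)
  rw [norm_Zt_sub hB _ (by rw [Real.toNNReal_le_iff_le_coe]; simpa using ht.2.le),
    Real.coe_toNNReal t ht.1.le]

/-- the Hilbert space of the Brownian filtration -/
abbrev HH (P : Measure Ω) [IsProbabilityMeasure P] (B : ℝ≥0 → Ω → ℝ)
    (hBm : ∀ t, Measurable (B t)) : Submodule ℝ (Ω →₂[P] ℝ) := HB P (brownianFiltration B hBm)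

/-- `xi k = k + B_1` -/
def xi (k : ℝ) : HH P B hBm := ⟨cst P k + ZB hB, (HH P B hBm).add_mem (cst_mem k) (ZB_mem hBm hB)⟩

theorem xi_coe (k : ℝ) : ((xi hBm hB k : Ω →₂[P] ℝ) : Ω → ℝ) =ᵐ[P] fun ω => k + B 1 ω := by
  filter_upwards [Lp.coeFn_add (cst P k) (ZB hB), cst_coe (P := P) k, ZB_coe hB] with ω h1 h2 h3
  show (cst P k + ZB hB : Ω →₂[P] ℝ) ω = _
  rw [h1, Pi.add_apply, h2, h3]

variable (P B) in
/-- the cone of nonnegative elements -/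
def KB : Set (HH P B hBm) := {x | (x : Ω →₂[P] ℝ) ∈ cone P}

variable (P B) in
theorem KB_closed : IsClosed (KB P B hBm) := cone_closed.preimage continuous_subtype_val

theorem KB_zero : (0 : HH P B hBm) ∈ KB P B hBm := by
  show (0 : Ω →₂[P] ℝ) ∈ cone P
  exact le_refl (0 : Ω →₂[P] ℝ)

theorem KB_add : ∀ x ∈ KB P B hBm, ∀ y ∈ KB P B hBm, x + y ∈ KB P B hBm :=
  fun x hx y hy => cone_add (x : Ω →₂[P] ℝ) hx y hy

theorem KB_smul : ∀ c : ℝ, 0 ≤ c → ∀ x ∈ KB P B hBm, c • x ∈ KB P B hBm :=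
  fun c hc x hx => cone_smul c hc (x : Ω →₂[P] ℝ) hx

theorem condPi_coe (t : ℝ) (x : Ω →₂[P] ℝ) :
    (condPi 𝓕 P t x : Ω → ℝ) =ᵐ[P] P[(x : Ω → ℝ) | 𝓕 t.toNNReal] := by
  have h := (Lp.memLp x).condExpL2_ae_eq_condExp' (𝕜 := ℝ) (𝓕.le t.toNNReal)
      ((Lp.memLp x).integrable one_le_two)
  rw [Lp.toLp_coeFn] at h
  exact h

theorem condPi_cone (t : ℝ) {x : Ω →₂[P] ℝ} (hx : x ∈ cone P) : condPi 𝓕 P t x ∈ cone P := by
  rw [mem_cone] at hx ⊢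
  have h2 := condExp_nonneg (m := 𝓕 t.toNNReal) hx
  filter_upwards [condPi_coe (𝓕 := 𝓕) t x, h2] with ω h1 h2
  rw [h1]; exact h2

theorem KB_P : ∀ t ∈ Icc (0 : ℝ) 1, ∀ x ∈ KB P B hBm,
    (resB P (brownianFiltration B hBm)).P t x ∈ KB P B hBm :=
  fun t _ _ hx => condPi_cone t hx

end Brownian

end Crest.Agent.R146.DualG_256
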