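import Crest.Agent.R146.StepDef_791

/-!
# Row 146, helper865: closure inequalities by a pointwise dual certificate

`p` a density on the line with `p → 0` at infinity, `V` increasing with values in `(0,1)`, `P = V_x`.
For every `G` on `[0,1]` (continuous, right derivative `G'`)
`(p G(V))_x = p (P G'(V) - Y G(V))`, `Y = -(log p)_x`, so `∫ p (P G'(V) - Y G(V)) = 0`.  Hence a
POINTWISE inequality `F ≤ P G'(V) - Y G(V) + Err` gives `∫ p F ≤ ∫ p Err`.  No integrability of
`Y` or `G'` is needed.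
-/

set_option autoImplicit false

namespace Crest.Agent.R146.Dual865

open MeasureTheory Filter Set Topology

/-- core inequality: `F ≤ p P G'(V) + p' G(V)` everywhere implies `∫ F ≤ 0` -/
theorem dual_core {p p' V P G G' F : ℝ → ℝ} (hp : ∀ x, HasDerivAt p (p' x) x)
    (hV : ∀ x, HasDerivAt V (P x) x) (hP : ∀ x, 0 ≤ P x) (hV01 : ∀ x, V x ∈ Ioo (0 : ℝ) 1)
    (hGc : ContinuousOn G (Icc 0 1)) (hG : ∀ v ∈ Ioo (0 : ℝ) 1, HasDerivWithinAt G (G' v) (Ici v) v)
    (h0 : Tendsto p (cocompact ℝ) (𝓝 0)) (hF : Integrable F)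
    (hle : ∀ x, F x ≤ p x * (P x * G' (V x)) + p' x * G (V x)) : ∫ x, F x ≤ 0 := by
  have hmono : Monotone V := monotone_of_hasDerivAt_nonneg hV hP
  have hVc : Continuous V := continuous_iff_continuousAt.2 fun x => (hV x).continuousAt
  have hpc : Continuous p := continuous_iff_continuousAt.2 fun x => (hp x).continuousAt
  have hGVc : Continuous fun x => G (V x) := by
    exact hGc.comp_continuous hVc fun x => ⟨(hV01 x).1.le, (hV01 x).2.le⟩
  obtain ⟨C, hC⟩ : ∃ C, ∀ v ∈ Icc (0 : ℝ) 1, ‖G v‖ ≤ C :=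
    isCompact_Icc.exists_bound_of_continuousOn hGc
  have hder : ∀ x, HasDerivWithinAt (fun x => p x * G (V x))
      (p' x * G (V x) + p x * (G' (V x) * P x)) (Ioi x) x := by
    intro x
    have h1 : HasDerivWithinAt (fun y => G (V y)) (G' (V x) * P x) (Ici x) x :=
      (hG (V x) (hV01 x)).comp x (hV x).hasDerivWithinAt fun y hy => hmono hy
    exact ((hp x).hasDerivWithinAt.mul h1).mono Ioi_subset_Ici_self
  have key : ∀ R : ℝ, 0 ≤ R → ∫ x in (-R)..R, F x ≤ p R * G (V R) - p (-R) * G (V (-R)) := by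
    intro R hR
    refine intervalIntegral.integral_le_sub_of_hasDeriv_right_of_le (by linarith)
      (hpc.mul hGVc).continuousOn (fun x _ => hder x) (hF.integrableOn) (fun x _ => ?_)
    have := hle x
    nlinarith [this]
  have hlim : Tendsto (fun R : ℝ => ∫ x in (-R)..R, F x) atTop (𝓝 (∫ x, F x)) :=
    intervalIntegral_tendsto_integral hF tendsto_neg_atTop_atBot tendsto_id
  have hbd : ∀ x, |p x * G (V x)| ≤ C * |p x| := by
    intro x
    rw [abs_mul, mul_comm]
    exact mul_le_mul_of_nonneg_right (hC _ ⟨(hV01 x).1.le, (hV01 x).2.le⟩) (abs_nonneg _)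
  have habs : Tendsto (fun x => C * |p x|) (cocompact ℝ) (𝓝 0) := by
    have := (h0.abs).const_mul C
    simpa using this
  have hpG : Tendsto (fun x => p x * G (V x)) (cocompact ℝ) (𝓝 0) :=
    squeeze_zero_norm (fun x => by simpa using hbd x) habs
  have ht : Tendsto (fun x => p x * G (V x)) atTop (𝓝 0) :=
    hpG.mono_left atTop_le_cocompact
  have hb : Tendsto (fun x => p x * G (V x)) atBot (𝓝 0) :=
    hpG.mono_left atBot_le_cocompact
  have hlim2 : Tendsto (fun R : ℝ => p R * G (V R) - p (-R) * G (V (-R))) atTop (𝓝 (0 - 0)) :=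
    ht.sub (hb.comp tendsto_neg_atTop_atBot)
  rw [sub_zero] at hlim2
  exact le_of_tendsto_of_tendsto hlim hlim2
    (eventually_atTop.2 ⟨0, fun R hR => key R hR⟩)

/-- with the log-derivative `p' = -Y p` and an error function -/
theorem dual_le {p Y V P G G' F Er : ℝ → ℝ} (hp : ∀ x, HasDerivAt p (-Y x * p x) x)
    (hp0 : ∀ x, 0 < p x)
    (hV : ∀ x, HasDerivAt V (P x) x) (hP : ∀ x, 0 ≤ P x) (hV01 : ∀ x, V x ∈ Ioo (0 : ℝ) 1)
    (hGc : ContinuousOn G (Icc 0 1)) (hG : ∀ v ∈ Ioo (0 : ℝ) 1, HasDerivWithinAt G (G' v) (Ici v) v)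
    (h0 : Tendsto p (cocompact ℝ) (𝓝 0)) (hF : Integrable fun x => p x * F x)
    (hEr : Integrable fun x => p x * Er x)
    (hle : ∀ x, F x ≤ P x * G' (V x) - Y x * G (V x) + Er x) :
    ∫ x, p x * F x ≤ ∫ x, p x * Er x := by
  have := dual_core (F := fun x => p x * F x - p x * Er x) hp hV hP hV01 hGc hG h0 (hF.sub hEr)
    (fun x => by
      have := mul_le_mul_of_nonneg_left (hle x) (hp0 x).le
      nlinarith [this])
  rw [integral_sub hF hEr] at this
  linarith

/-! ### on the step system -/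

open StepDef_791

/-- the scaled form on the step system: with `s = √χ` (any `s > 0`), `I = s P`, `y = s Y`, a pointwise
inequality `I² - 2c(1-V)²V ≤ I G'(V) - y G(V) + Er` implies
`s² E[P²] ≤ 2c E[(1-V)²V] + ∫ p Er`. -/
theorem closure_le (A : SD) (hB : Back A) {x0 : ℝ} {p Y Yx Yxx : ℝ → ℝ → ℝ}
    (hL : Law A x0 p Y Yx Yxx) {t : ℝ} (ht : t ∈ Ioc 0 A.T) {s c : ℝ}
    {G G' Er : ℝ → ℝ} (hV01 : ∀ x, A.V t x ∈ Ioo (0 : ℝ) 1)
    (hGc : ContinuousOn G (Icc 0 1)) (hG : ∀ v ∈ Ioo (0 : ℝ) 1, HasDerivWithinAt G (G' v) (Ici v) v)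
    (hP2 : Integrable fun x => p t x * A.P t x ^ 2)
    (hRV : Integrable fun x => p t x * ((1 - A.V t x) ^ 2 * A.V t x))
    (hEr : Integrable fun x => p t x * Er x)
    (hle : ∀ x, (s * A.P t x) ^ 2 - 2 * c * ((1 - A.V t x) ^ 2 * A.V t x)
      ≤ (s * A.P t x) * G' (A.V t x) - (s * Y t x) * G (A.V t x) + Er x) :
    s ^ 2 * (∫ x, p t x * A.P t x ^ 2) ≤ 2 * c * (∫ x, p t x * ((1 - A.V t x) ^ 2 * A.V t x))
      + ∫ x, p t x * Er x := by
  have htc : t ∈ Icc 0 A.T := ⟨ht.1.le, ht.2⟩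
  have h0 : Tendsto (p t) (cocompact ℝ) (𝓝 0) := by
    simpa using hL.tail t ht 0
  have hI : Integrable fun x => p t x *
      ((s * A.P t x) ^ 2 - 2 * c * ((1 - A.V t x) ^ 2 * A.V t x)) := by
    have := (hP2.const_mul (s ^ 2)).sub (hRV.const_mul (2 * c))
    refine this.congr (Eventually.of_forall fun x => ?_)
    simp only [Pi.sub_apply]
    ring
  have key := dual_le (p := p t) (Y := Y t) (V := A.V t) (P := A.P t)
    (G := fun v => s * G v) (G' := fun v => s * G' v) (F := fun x =>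
      (s * A.P t x) ^ 2 - 2 * c * ((1 - A.V t x) ^ 2 * A.V t x)) (Er := Er)
    (hL.p_x t ht) (hL.p_pos t ht) (hB.V_x t htc) (fun x => (hB.P_pos t htc x).le) hV01
    (continuousOn_const.mul hGc) (fun v hv => (hG v hv).const_mul s) h0 hI hEr
    (fun x => by have := hle x; nlinarith [this])
  have e : ∫ x, p t x * ((s * A.P t x) ^ 2 - 2 * c * ((1 - A.V t x) ^ 2 * A.V t x))
      = s ^ 2 * (∫ x, p t x * A.P t x ^ 2)
        - 2 * c * (∫ x, p t x * ((1 - A.V t x) ^ 2 * A.V t x)) := by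
    rw [← integral_const_mul, ← integral_const_mul, ← integral_sub (hP2.const_mul _)
      (hRV.const_mul _)]
    congr 1
    ext x
    ring
  rw [e] at key
  linarith

/-- the reversed inequality -/
theorem le_closure (A : SD) (hB : Back A) {x0 : ℝ} {p Y Yx Yxx : ℝ → ℝ → ℝ}
    (hL : Law A x0 p Y Yx Yxx) {t : ℝ} (ht : t ∈ Ioc 0 A.T) {s c : ℝ}
    {G G' Er : ℝ → ℝ} (hV01 : ∀ x, A.V t x ∈ Ioo (0 : ℝ) 1)
    (hGc : ContinuousOn G (Icc 0 1)) (hG : ∀ v ∈ Ioo (0 : ℝ) 1, HasDerivWithinAt G (G' v) (Ici v) v)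
    (hP2 : Integrable fun x => p t x * A.P t x ^ 2)
    (hRV : Integrable fun x => p t x * ((1 - A.V t x) ^ 2 * A.V t x))
    (hEr : Integrable fun x => p t x * Er x)
    (hle : ∀ x, 2 * c * ((1 - A.V t x) ^ 2 * A.V t x) - (s * A.P t x) ^ 2
      ≤ (s * A.P t x) * G' (A.V t x) - (s * Y t x) * G (A.V t x) + Er x) :
    2 * c * (∫ x, p t x * ((1 - A.V t x) ^ 2 * A.V t x))
      ≤ s ^ 2 * (∫ x, p t x * A.P t x ^ 2) + ∫ x, p t x * Er x := by
  have htc : t ∈ Icc 0 A.T := ⟨ht.1.le, ht.2⟩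
  have h0 : Tendsto (p t) (cocompact ℝ) (𝓝 0) := by
    simpa using hL.tail t ht 0
  have hI : Integrable fun x => p t x *
      (2 * c * ((1 - A.V t x) ^ 2 * A.V t x) - (s * A.P t x) ^ 2) := by
    have := (hRV.const_mul (2 * c)).sub (hP2.const_mul (s ^ 2))
    refine this.congr (Eventually.of_forall fun x => ?_)
    simp only [Pi.sub_apply]
    ring
  have key := dual_le (p := p t) (Y := Y t) (V := A.V t) (P := A.P t)
    (G := fun v => s * G v) (G' := fun v => s * G' v) (F := fun x =>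
      2 * c * ((1 - A.V t x) ^ 2 * A.V t x) - (s * A.P t x) ^ 2) (Er := Er)
    (hL.p_x t ht) (hL.p_pos t ht) (hB.V_x t htc) (fun x => (hB.P_pos t htc x).le) hV01
    (continuousOn_const.mul hGc) (fun v hv => (hG v hv).const_mul s) h0 hI hEr
    (fun x => by have := hle x; nlinarith [this])
  have e : ∫ x, p t x * (2 * c * ((1 - A.V t x) ^ 2 * A.V t x) - (s * A.P t x) ^ 2)
      = 2 * c * (∫ x, p t x * ((1 - A.V t x) ^ 2 * A.V t x))
        - s ^ 2 * (∫ x, p t x * A.P t x ^ 2) := by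
    rw [← integral_const_mul, ← integral_const_mul, ← integral_sub (hRV.const_mul _)
      (hP2.const_mul _)]
    congr 1
    ext x
    ring
  rw [e] at key
  linarith

end Crest.Agent.R146.Dual865
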