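import Mathlib
import Crest.Agent.R146.NLevD_918
import Crest.Agent.R146.ObsAsm_918
import Crest.Agent.R146.P5Def_12
import Crest.Agent.R146.Asm0204_734
import Crest.Agent.R146.P34Big_840
import Crest.Agent.R146.VCc_468
import Crest.Agent.R146.VTr_468
import Crest.Agent.R146.P34a_323
import Crest.Agent.R146.Chk34_288

/-!
Row 146 (helper918): LAST EDGE OF S0205.

* `P5FIN W` : output of package P5 (objects of helper12's post 941, structure `P5Out_576.P5Out`);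
* `EXPO W`  : exponents of the jamming laws from the output of the tip analysis (helper778);
* `zeroE_low`, `not_zeroE_high` : the hypotheses of S0205 in terms of `ZeroE`;
* `s0205_edge` : `EPS W → GUB W → LINDLB W → P5FIN W → EXPO W → S0205` (literal conclusion).
-/

set_option linter.unusedSectionVars false

namespace Crest.Agent.R146.Edge05_918

open MeasureTheory ProbabilityTheory Filter Topology Set
open Crest.ProbabilityR.Perceptron
open Crest.Agent.R146.Obs918 (MeanEmp ForceLim JamData)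
open Crest.Agent.R146.P34_734
open Crest.Agent.R146.ObsD_548 (IsMinP)
open Crest.Agent.R146.JamIface_776 (IsJam TipOut TIP)
open Crest.Agent.R146.P5Def_12

noncomputable section

/-- **Output of package P5 on `W`**: the family of force and profile at finite temperature, at zero
temperature and at jamming (`P5Out_576.P5Out`), the finite temperature objects come from minimising
overlap profiles, the jamming pair is a jamming minimiser and has the tip exponent `ν`. -/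
def P5FIN (W : BS) : Prop := ∀ αc : ℝ, 0 < αc →
  (∀ α : ℝ, 0 < α → α < αc → W.ZeroE α (-1)) → (∀ α : ℝ, αc < α → ¬ W.ZeroE α (-1)) →
  ∃ (η : ℝ) (x : ℝ → ℝ → HW W) (D : ℝ → ℝ → ℝ → ℝ) (x0 : ℝ → HW W) (D0 : ℝ → ℝ → ℝ)
    (xJ : HW W) (DJ : ℝ → ℝ) (s : ℝ → ℝ) (ν : ℝ),
    P5Out_576.P5Out (MW W) (xiW W) αc η x D x0 D0 xJ DJ s ∧
    (∀ α : ℝ, αc < α → α < αc + η → ∀ (b : ℝ) (hb : 0 < b), ∃ m : OverlapProfile,
      IsMinP W α b (-1) m ∧
      (MW W).J (xiW W + (RW W).Dop (D α b) (x α b)) =ᵐ[W.P]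
        fun ω => 1 + DualL_256.XP W.meas W.br m hb (-1) ω) ∧
    IsJam (RW W) (KW W) (xiW W) αc xJ DJ ∧ TipOut (RW W) (xiW W) xJ DJ ν

/-- **Exponents of the jamming laws** from the output of the tip analysis, at a jamming
minimiser. -/
def EXPO (W : BS) : Prop := ∀ (αc : ℝ), 0 < αc → ∀ (x : HW W) (D : ℝ → ℝ) (ν : ℝ),
  IsJam (RW W) (KW W) (xiW W) αc x D → TipOut (RW W) (xiW W) x D ν →
  Tendsto (fun u : ℝ => Real.log (W.P.real {ω | 0 < (MW W).J (xiW W + (RW W).Dop D x) ω ∧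
    (MW W).J (xiW W + (RW W).Dop D x) ω ≤ u}) / Real.log u) (𝓝[>] 0) (𝓝 (2 * ν)) ∧
  Tendsto (fun s : ℝ => Real.log (W.P.real {ω | 0 < (MW W).J x ω ∧ (MW W).J x ω ≤ s}) /
    Real.log s) (𝓝[>] 0) (𝓝 (2 * ν / (1 - 2 * ν)))

/-! ### The hypotheses of S0205 -/

/-- below the threshold the ground state energy vanishes -/
lemma zeroE_low (W : BS) (hG : GUB W) {αc : ℝ}
    (hlow : ∀ α : ℝ, 0 < α → α < αc → Tendsto (fun N : ℕ => satProb N α) atTop (𝓝 1)) :
    ∀ α, 0 < α → α < αc → W.ZeroE α (-1) :=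
  Asm0204_734.zeroE_below W hG P34a_323.cap P34a_323.concm P34Big_840.mix0 hlow

/-- above the threshold the ground state energy does not vanish -/
lemma not_zeroE_high (W : BS) (hG : GUB W) (hLB : LINDLB W) {αc : ℝ} (hαc : 0 < αc)
    (hhigh : ∀ α : ℝ, αc < α → Tendsto (fun N : ℕ => satProb N α) atTop (𝓝 0)) :
    ∀ α, αc < α → ¬ W.ZeroE α (-1) := by
  intro α hα hE
  -- a density strictly between
  obtain ⟨α', h1, h2⟩ := exists_between hα
  have h0 : 0 < α' := hαc.trans h1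
  obtain ⟨η, hη, hη1, hE'⟩ := Asm0204_734.margin_gain W (VCc_468.vconc W) (VTr_468.vzero W) hG
    P34a_323.cap P34a_323.concm P34Big_840.kern h0 h2 hE
  have h3 := Asm0204_734.sat_of_zeroE W P34a_323.markov hLB (ε := 0) h0 le_rfl zero_lt_one hη hη1
    hE'
  have e : ∀ N : ℕ, satProb N α' = satProbMix N α' 0 := by
    intro N
    unfold satProb satProbMix patternLaw patternLawMix
    rw [P34Big_840.mix0]
  simp only [← e] at h3
  exact zero_ne_one (tendsto_nhds_unique (hhigh α' h1) h3)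

/-! ### The edge -/

lemma tendsto_congr_set {Ω : Type*} [MeasurableSpace Ω] {P : Measure Ω} {f g : Ω → ℝ}
    (h : f =ᵐ[P] g) (u : ℝ) : P.real {ω | 0 < f ω ∧ f ω ≤ u} = P.real {ω | 0 < g ω ∧ g ω ≤ u} := by
  rw [measureReal_def, measureReal_def]
  congr 1
  apply measure_congr
  filter_upwards [h] with ω h1
  apply propext
  change (0 < f ω ∧ f ω ≤ u) ↔ (0 < g ω ∧ g ω ≤ u)
  rw [h1]

/-- **S0205** (literal conclusion) from the nodes. -/
theorem s0205_edge (W : BS) (hE : EPS W) (hG : GUB W) (hLB : LINDLB W) (h5 : P5FIN W)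
    (hX : EXPO W)
    (αc : ℝ) (hαc : 0 < αc)
    (hlow : ∀ α : ℝ, 0 < α → α < αc →
      Filter.Tendsto (fun N : ℕ => satProb N α) Filter.atTop (nhds 1))
    (hhigh : ∀ α : ℝ, αc < α →
      Filter.Tendsto (fun N : ℕ => satProb N α) Filter.atTop (nhds 0)) :
    ∃ ε₀ : ℝ, 0 < ε₀ ∧ ε₀ < 1 ∧ ∃ G F : ℝ → ℝ,
      (∀ ε : ℝ, 0 ≤ ε → ε < ε₀ →
        (∀ u : ℝ, 0 < u → ∃ g : ℝ → ℝ,
          (∀ δ : ℝ, 0 < δ → δ < u →
            HasOrderedLimit (fun N β α => gapMean N β α ε δ u) αc (g δ)) ∧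
          Filter.Tendsto g (nhdsWithin 0 (Set.Ioi 0)) (nhds (G u))) ∧
        (∀ s : ℝ, 0 < s → HasOrderedLimit (fun N β α => forceMean N β α ε s) αc (F s))) ∧
      (∃ P : MeasureTheory.Measure ℝ, MeasureTheory.IsProbabilityMeasure P ∧
        P (Set.Iic 0) = 0 ∧ ∫ x, x ∂P = 1 ∧
        ∀ s : ℝ, 0 < s → F s = (P (Set.Iic s)).toReal) ∧
      ∃ γ θ : ℝ, γ = 1 / (2 + θ) ∧ 0.4126930 < γ ∧ γ < 0.4126934 ∧
        0.4231063 < θ ∧ θ < 0.4231088 ∧
        Filter.Tendsto (fun u : ℝ => Real.log (G u) / Real.log u)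
          (nhdsWithin 0 (Set.Ioi 0)) (nhds (1 - γ)) ∧
        Filter.Tendsto (fun s : ℝ => Real.log (F s) / Real.log s)
          (nhdsWithin 0 (Set.Ioi 0)) (nhds (1 + θ)) := by
  obtain ⟨η1, x, D, x0, D0, xJ, DJ, s, ν, hO, hmin, hjam, hν⟩ :=
    h5 αc hαc (zeroE_low W hG hlow) (not_zeroE_high W hG hLB hαc hhigh)
  obtain ⟨ε0, hε0, hε1, η2, hη2, hin⟩ := NLev918.inputs_of_isMinP hE hαc hlow
  have hη1 : 0 < η1 := hO.η_pos
  -- the common window
  set η := min η1 η2 with hη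
  have hηp : 0 < η := lt_min hη1 hη2
  have hO' := hO.mono hηp (min_le_left _ _)
  have hJ := hO'.jamData W.br.toIsPreBrownianReal
  have hxJ : 0 ≤ᵐ[W.P] (MW W).J xJ := DualV_256.mem_cone.1 hjam.xK
  obtain ⟨hG1, hF1⟩ := hX αc hαc xJ DJ ν hjam hν
  have hin' : ∀ ε : ℝ, 0 ≤ ε → ε < ε0 → ∀ α, αc < α → α < αc + η → ∀ β, 0 < β →
      MeanEmp α β ε (W.P.map ((MW W).J (xiW W + (RW W).Dop (D α β) (x α β)))) ∧
      ForceLim α β ε (W.P.map ((MW W).J (xiW W + (RW W).Dop (D α β) (x α β)))) := by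
    intro ε he0 he1 α h1 h2 β hβ
    obtain ⟨m, hm, hXm⟩ := hmin α h1 (h2.trans_le (by linarith [min_le_left η1 η2])) β hβ
    exact hin ε he0 he1 α h1 (h2.trans_le (by linarith [min_le_right η1 η2])) β hβ m hm _ hXm
  refine Obs918.S0205_of_inputs hJ (JamAsm_576.frc_measurable _ _) hε0 hε1
    (fun ε he0 he1 α h1 h2 β hβ => (hin' ε he0 he1 α h1 h2 β hβ).1)
    (fun ε he0 he1 α h1 h2 β hβ => (hin' ε he0 he1 α h1 h2 β hβ).2) hν.ν_lo hν.ν_hi hG1 ?_
  simp only [tendsto_congr_set (JamAsm_576.frc_ae (MW W) hxJ)]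
  exact hF1

/-- **S0205** (literal conclusion) from S0206 on `W`, `LOCUB`, package P5 and the exponents. -/
theorem s0205_open (W : BS) (h6 : S6 W) (hLOC : LOCUB W) (h5 : P5FIN W) (hX : EXPO W)
    (αc : ℝ) (hαc : 0 < αc)
    (hlow : ∀ α : ℝ, 0 < α → α < αc →
      Filter.Tendsto (fun N : ℕ => satProb N α) Filter.atTop (nhds 1))
    (hhigh : ∀ α : ℝ, αc < α →
      Filter.Tendsto (fun N : ℕ => satProb N α) Filter.atTop (nhds 0)) :
    ∃ ε₀ : ℝ, 0 < ε₀ ∧ ε₀ < 1 ∧ ∃ G F : ℝ → ℝ,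
      (∀ ε : ℝ, 0 ≤ ε → ε < ε₀ →
        (∀ u : ℝ, 0 < u → ∃ g : ℝ → ℝ,
          (∀ δ : ℝ, 0 < δ → δ < u →
            HasOrderedLimit (fun N β α => gapMean N β α ε δ u) αc (g δ)) ∧
          Filter.Tendsto g (nhdsWithin 0 (Set.Ioi 0)) (nhds (G u))) ∧
        (∀ s : ℝ, 0 < s → HasOrderedLimit (fun N β α => forceMean N β α ε s) αc (F s))) ∧
      (∃ P : MeasureTheory.Measure ℝ, MeasureTheory.IsProbabilityMeasure P ∧
        P (Set.Iic 0) = 0 ∧ ∫ x, x ∂P = 1 ∧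
        ∀ s : ℝ, 0 < s → F s = (P (Set.Iic s)).toReal) ∧
      ∃ γ θ : ℝ, γ = 1 / (2 + θ) ∧ 0.4126930 < γ ∧ γ < 0.4126934 ∧
        0.4231063 < θ ∧ θ < 0.4231088 ∧
        Filter.Tendsto (fun u : ℝ => Real.log (G u) / Real.log u)
          (nhdsWithin 0 (Set.Ioi 0)) (nhds (1 - γ)) ∧
        Filter.Tendsto (fun s : ℝ => Real.log (F s) / Real.log s)
          (nhdsWithin 0 (Set.Ioi 0)) (nhds (1 + θ)) :=
  s0205_edge W (Chk34_288.eps_open W h6 hLOC) (P34b_323.gub W h6) (Chk34_288.lindlb W h6) h5 hX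
    αc hαc hlow hhigh

end

end Crest.Agent.R146.Edge05_918
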