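import Crest.Agent.R146.LipF_861
import Crest.Agent.R146.P5Fin_12

/-!
Row 146, package P5 (helper861): the exponential bounds for the complementarity solutions `LCP` of
`JamAsm_576`, and the Prop `LIPZ` of `P5Def_12`.
-/

set_option autoImplicit false
set_option maxHeartbeats 400000

namespace Crest.Agent.R146.LipG_861

open Set Filter Topology MeasureTheory ProbabilityTheory Crest.ProbabilityR.Perceptron
open Crest.Agent.R146.Hilb Crest.Agent.R146.Lev2_576 Crest.Agent.R146.JamAsm_576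
open Crest.Agent.R146.LipD_861 Crest.Agent.R146.LipF_861
open Crest.Agent.R146.P5Def_12 Crest.Agent.R146.P34_734 Crest.Agent.R146.DualG_256
open scoped RealInnerProductSpace NNReal ENNReal

section General

variable {H : Type*} [NormedAddCommGroup H] [InnerProductSpace ℝ H] [CompleteSpace H]
  {R : Res H} {Ω : Type*} {mΩ : MeasurableSpace Ω} {P : Measure Ω} {B : ℝ≥0 → Ω → ℝ}
  {hBm : ∀ t, Measurable (B t)} {M : Model R P B hBm} {ξ x : H} {κ c : ℝ} {g : ℝ → ℝ}

/-- the equation of a complementarity solution with the damping inside the profile -/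
theorem lcp_eq (hξ : M.J ξ =ᵐ[P] fun ω => κ + B 1 ω) (L : LCP M ξ c g x) :
    M.J (ξ + R.Dop g x + c • x) =ᵐ[P]
      fun ω => κ + B 1 ω + M.J (R.Dop (fun t => g t + c) x) ω := by
  have e : R.Dop (fun t => g t + c) x = R.Dop g x + c • x := by
    rw [R.Dop_add L.cont continuousOn_const, add_apply, R.Dop_const]
  have e2 : ξ + R.Dop g x + c • x = ξ + R.Dop (fun t => g t + c) x := by rw [e, add_assoc]
  rw [e2]
  filter_upwards [M.add ξ (R.Dop (fun t => g t + c) x), hξ] with ω h1 h2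
  rw [h1, h2]

/-- (EMh) for a complementarity solution -/
theorem lcp_gap [IsProbabilityMeasure P] (hB : IsPreBrownianReal B P)
    (hξ : M.J ξ =ᵐ[P] fun ω => κ + B 1 ω) (L : LCP M ξ c g x) (h1 : 0 ≤ g 1 + c)
    {s u : ℝ≥0} (hsu : s ≤ u) (hu : u ≤ 1) {A : Set Ω}
    (hA : MeasurableSet[brownianFiltration B hBm s] A) :
    CSG P A (fun ω => M.J (R.P u (ξ + R.Dop g x + c • x)) ω
      - M.J (R.P s (ξ + R.Dop g x + c • x)) ω) (u - s) :=
  em_gap M hB (L.cont.add continuousOn_const)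
    (fun _ ha _ hb hab => add_le_add_left (L.anti ha hb hab) c) h1 L.x_nonneg
    L.h_nonneg L.comp (lcp_eq hξ L) hsu hu hA

/-- (EMl) for a complementarity solution -/
theorem lcp_force [IsProbabilityMeasure P] (hB : IsPreBrownianReal B P)
    (hξ : M.J ξ =ᵐ[P] fun ω => κ + B 1 ω) (L : LCP M ξ c g x) (h1 : 0 ≤ g 1 + c)
    (hpos : ∀ t ∈ Ico (0 : ℝ) 1, 0 < g t + c) {s u : ℝ≥0} (hsu : s ≤ u) (hu : u ≤ 1)
    {V : ℝ → ℝ}
    (hV : ∀ a b : ℝ, (s : ℝ) ≤ a → a ≤ b → b ≤ u → (b - a) / (g a + c) ^ 2 ≤ V b - V a)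
    {A : Set Ω} (hA : MeasurableSet[brownianFiltration B hBm s] A) :
    CSG P A (fun ω => M.J (R.P u x) ω - M.J (R.P s x) ω) (V u - V s) :=
  em_force M hB (D := fun t => g t + c) (L.cont.add continuousOn_const)
    (fun _ ha _ hb hab => add_le_add_left (L.anti ha hb hab) c) h1 hpos L.x_nonneg
    L.h_nonneg L.comp (lcp_eq hξ L) hsu hu hV hA

/-- `‖x - P_t x‖² ≤ (1 - t) / c²` for `c > 0` -/
theorem lcp_lip [IsProbabilityMeasure P] (hB : IsPreBrownianReal B P)
    (hξ : M.J ξ =ᵐ[P] fun ω => κ + B 1 ω) (L : LCP M ξ c g x) (hc : 0 < c) (h1 : 0 ≤ g 1)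
    {t : ℝ} (ht : t ∈ Icc (0 : ℝ) 1) : ‖x - R.P t x‖ ^ 2 ≤ (1 - t) / c ^ 2 := by
  have hg : ∀ r ∈ Icc (0 : ℝ) 1, 0 ≤ g r := fun r hr => h1.trans (L.anti hr (by simp) hr.2)
  obtain ⟨w, hw⟩ : ∃ w : ℝ≥0, (w : ℝ) = t := ⟨t.toNNReal, Real.coe_toNNReal _ ht.1⟩
  have hw1 : w ≤ 1 := by exact_mod_cast hw.le.trans ht.2
  have h2 := lcp_force hB hξ L (by linarith) (fun r hr => by
      have := hg r ⟨hr.1, hr.2.le⟩; linarith) hw1 le_rfl (V := fun r => r / c ^ 2)
      (fun a b ha hab hb => by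
        rw [NNReal.coe_one] at hb
        have h3 := hg a ⟨w.2.trans ha, hab.trans hb⟩
        rw [← sub_div]
        refine div_le_div_of_nonneg_left (sub_nonneg.2 hab) (by positivity) ?_
        gcongr
        linarith) (A := univ) MeasurableSet.univ
  have h3 := h2.sq_le (((M.memLp _).aestronglyMeasurable.aemeasurable).sub
    (M.memLp _).aestronglyMeasurable.aemeasurable) (by
      rw [NNReal.coe_one, hw, ← sub_div]
      exact div_nonneg (sub_nonneg.2 ht.2) (sq_nonneg _))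
  rw [setIntegral_univ, probReal_univ, mul_one, J_inc, NNReal.coe_one, R.one, hw, ← sub_div] at h3
  exact h3

end General

/-- **(LIPZ)** -/
theorem lipz (W : BS) : LIPZ W := by
  intro α hα x D h
  by_cases hx : x = 0
  · subst hx
    exact ⟨0, fun t _ => by simp⟩
  have hprob : IsProbabilityMeasure W.P := inferInstance
  have L := P5Fin_12.lcp_of_min W hα h hx
  refine ⟨1, fun t ht => ?_⟩
  have h1 := lcp_lip W.br.toIsPreBrownianReal (modelB_xi W.meas W.br 1) L one_pos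
    h.adm.prof.one (t := t) ⟨ht.1, ht.2.le⟩
  simpa using h1

end Crest.Agent.R146.LipG_861
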