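import Crest.Agent.R146.LipG_491
import Crest.Agent.R146.LipG_861

/-!
Row 146, package P5 (helper491): `EMG` from helper861's exponential bounds, hence `EMW`, `EML0`,
`FLIM`, `LEVC`, `LEVD` of `P5Def_12`, unconditionally.
-/

set_option autoImplicit false

namespace Crest.Agent.R146.Emg_491

open Set Filter Topology MeasureTheory ProbabilityTheory Crest.ProbabilityR.Perceptron
open Crest.Agent.R146.Hilb Crest.Agent.R146.ProfB_540 Crest.Agent.R146.HilbE
open Crest.Agent.R146.Lev2_576 Crest.Agent.R146.P34_734 Crest.Agent.R146.DualG_256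
open Crest.Agent.R146.P5Def_12 Crest.Agent.R146.JamAsm_576
open Crest.Agent.R146.SubG_4 Crest.Agent.R146.LevE_4 Crest.Agent.R146.LevF_4
open Crest.Agent.R146.LipG_491
open scoped RealInnerProductSpace NNReal ENNReal

noncomputable section

/-- closing the clock inequality at `1` -/
lemma clock_one {c : ℝ} {D V : ℝ → ℝ}
    (h : ∀ s t, 0 ≤ s → s ≤ t → t < 1 → (t - s) * (c + D s)⁻¹ ^ 2 ≤ V t - V s)
    (hV : ContinuousOn V (Icc 0 1)) {a b : ℝ} (ha : 0 ≤ a) (hab : a ≤ b) (hb : b ≤ 1) :
    (b - a) / (D a + c) ^ 2 ≤ V b - V a := by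
  have e : ∀ b : ℝ, (b - a) / (D a + c) ^ 2 = (b - a) * (c + D a)⁻¹ ^ 2 := fun b => by
    rw [div_eq_mul_inv, inv_pow, add_comm c]
  rw [e]
  rcases hb.lt_or_eq with hb | rfl
  · exact h a b ha hab hb
  rcases hab.lt_or_eq with hab | rfl
  · have h1 : Tendsto (fun t : ℝ => (t - a) * (c + D a)⁻¹ ^ 2) (𝓝[<] 1)
        (𝓝 ((1 - a) * (c + D a)⁻¹ ^ 2)) :=
      (Continuous.tendsto (by fun_prop) 1).mono_left nhdsWithin_le_nhds
    have h2 : Tendsto (fun t : ℝ => V t - V a) (𝓝[<] 1) (𝓝 (V 1 - V a)) := by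
      refine Tendsto.sub_const ?_ _
      refine (hV 1 ⟨zero_le_one, le_rfl⟩).mono_left ?_
      refine nhdsWithin_le_of_mem ?_
      exact mem_of_superset (Ioo_mem_nhdsLT zero_lt_one) (fun t ht => ⟨ht.1.le, ht.2.le⟩)
    refine le_of_tendsto_of_tendsto h1 h2 ?_
    filter_upwards [Ioo_mem_nhdsLT hab] with t ht
    exact h a t ha ht.1.le ht.2
  · simp

/-- **node LIP** -/
theorem emg (W : BS) : EMG W := by
  intro c x D hc L hpos h1
  have hprob : IsProbabilityMeasure W.P := inferInstance
  refine ⟨?_, ?_⟩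
  · intro s u hs hsu hu
    lift s to ℝ≥0 using hs
    lift u to ℝ≥0 using (s.2.trans hsu)
    intro μ C hC
    have hC : MeasurableSet[brownianFiltration W.B W.meas s] C := by
      have h := hC
      unfold LevE_4.Fl at h
      rwa [Real.toNNReal_coe] at h
    exact LipG_861.lcp_gap W.br.toIsPreBrownianReal (modelB_xi W.meas W.br 1) L
      (by linarith) (by exact_mod_cast hsu) (by exact_mod_cast hu) hC μ
  · intro V hV hVc s u hs hsu hu
    lift s to ℝ≥0 using hs
    lift u to ℝ≥0 using (s.2.trans hsu)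
    intro μ C hC
    have hC : MeasurableSet[brownianFiltration W.B W.meas s] C := by
      have h := hC
      unfold LevE_4.Fl at h
      rwa [Real.toNNReal_coe] at h
    exact LipG_861.lcp_force W.br.toIsPreBrownianReal (modelB_xi W.meas W.br 1) L
      (by linarith) (fun t ht => by have := hpos t ht; linarith) (by exact_mod_cast hsu)
      (by exact_mod_cast hu) (V := V)
      (fun a b ha hab hb => clock_one hV hVc (s.2.trans ha) hab (hb.trans hu)) hC μ

theorem emw (W : BS) : EMW W := LipG_491.emw W (emg W)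

theorem eml0 (W : BS) : FLim_491.EML0 W := LipG_491.eml0 W (emg W)

/-- **FLIM** -/
theorem flim (W : BS) : FLIM W := LipG_491.flim W (emg W)

/-- **LIPZ** -/
theorem lipz (W : BS) : LIPZ W := LipG_861.lipz W

/-- **LEVC** -/
theorem levc (W : BS) : LEVC W := LevF_4.levc (emw W)

/-- **LEVD** -/
theorem levd (W : BS) : LEVD W := LevF_4.levd (emw W)

end

end Crest.Agent.R146.Emg_491
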