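import Crest.Agent.R146.Enc1_848

/-!
# Row 146, helper848: enclosures, part 2: `k`, `k'` of the CLOSED stationary pair (`lam = c`)

For `SPair c W V I k c`: `c ∈ [435929/2^20, 435931/2^20]` (`c_box`), `|k - f1|`, `|k' - f1'|`.
-/

set_option autoImplicit false
set_option linter.unusedSimpArgs false

namespace Crest.Agent.R146.Enc2_848

open Set Filter Topology
open Crest.Agent.R146.PP865 Crest.Agent.R146.EncData_848 Crest.Agent.R146.EncR_848
open Crest.Agent.R146.Enc0_848 Crest.Agent.R146.Enc1_848 Crest.Agent.R146.SPair_307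

noncomputable section

/-! ### checks -/

/-- residual of the `k` equation (`lam = c`) -/
def ek : Ex := .var 5 - .var 4 * .var 4 - ((1 - .var 19) * .var 0 + 2 * .var 19 * .var 1) * .var 4
  + (1 - .var 19) + 2 * .var 19 * .var 2 - 2 * .var 19

theorem ck1 : chkBoxR 36 3 18 (-64) 64 pc (.cst 41 20 - ek) p0 ps = true := by decide +kernel
theorem ck2 : chkBoxR 36 3 18 (-64) 64 pc (.cst 41 20 + ek) p0 ps = true := by decide +kernel

theorem cf1 : chkBoxR 36 3 18 (-64) 64 [] (.var 4) p0 ps = true := by decide +kernel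
theorem cf2 : chkBoxR 36 3 18 (-64) 64 [] (.cst 69 8 - .var 4) p0 ps = true := by decide +kernel
theorem cf3 : chkBoxR 36 3 18 (-64) (-62) [] (.cst 102 10 - .var 4) p0 ps = true := by
  decide +kernel
theorem cf4 : chkBoxR 36 3 18 62 64 [] (.cst 102 10 - .var 4) p0 ps = true := by decide +kernel

/-- `a* = 2 f1 + 2 Â + 13/N + b` -/
def eU (b : Ex) : Ex := 2 * .var 4 + eA + .cst 13 20 + b
/-- `a_* = 2 f1 + 2 Â - 13/N - b` -/
def eL (b : Ex) : Ex := 2 * .var 4 + eA - .cst 13 20 - b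

theorem cl1 : chkBoxR 36 4 18 (-64) (-32) pc
    (.cst 240 0 * (1 + eU (.cst 113 10) * .var 0) - .cst 128 0 * (.var 0 * .var 0)) p0 ps = true := by
  decide +kernel
theorem cl2 : chkBoxR 36 4 18 (-64) (-32) pc
    (.cst 15 5 * .var 0 - eU (.cst 113 10)) p0 ps = true := by
  decide +kernel
theorem cl3 : chkBoxR 36 4 18 (-32) (-8) pc
    (.cst 248 0 * (1 + eU (.cst 1 11) * .var 0) - .cst 128 0 * (.var 0 * .var 0)) p0 ps = true := by
  decide +kernel
theorem cr1 : chkBoxR 36 4 18 32 64 pc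
    (.cst 192 0 * (eL (.cst 113 10) * (2 + .var 0) + 1)
      - .cst 128 0 * ((2 + .var 0) * (2 + .var 0))) p0 ps = true := by
  decide +kernel
theorem cr2 : chkBoxR 36 4 18 32 64 pc
    (eL (.cst 113 10) - .var 0) p0 ps = true := by
  decide +kernel
theorem cr3 : chkBoxR 36 4 18 (-8) 32 pc
    (.cst 196 0 * (eL (.cst 1 11) * (2 + .var 0) + 1)
      - .cst 128 0 * ((2 + .var 0) * (2 + .var 0))) p0 ps = true := by
  decide +kernel

section main

variable {c : ℝ} {W V I k : ℝ → ℝ}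

theorem c_box (h : SPair c W V I k c) : 435929 / 2 ^ 20 ≤ c ∧ c ≤ 435931 / 2 ^ 20 := by
  have h1 := Stat7_307.enclosure_of_closure h
  have hc : 0 < 1 + c := by linarith [h.c_pos]
  have h2 := h1.1
  have h3 := h1.2
  rw [lt_div_iff₀ hc] at h2
  rw [div_lt_iff₀ hc] at h3
  constructor
  · norm_num at h2 ⊢; linarith
  · norm_num at h3 ⊢; linarith

theorem k_l (h : SPair c W V I k c) {x : ℝ} (hx : x ≤ -5) : k x ≤ 1 / 10 := by
  obtain ⟨hc1, hc2⟩ := c_box h
  norm_num at hc1 hc2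
  obtain ⟨C, hC⟩ := h.k_left
  set X := max (-x) (10 * |C| + 1) with hX
  have hX1 : -x ≤ X := le_max_left _ _
  have hX2 : 10 * |C| + 1 ≤ X := le_max_right _ _
  have hC0 := abs_nonneg C
  have hX0 : 0 < X := by linarith
  refine fwd (f := k) (B := fun _ => 1 / 10) (B' := fun _ => 0) (u := -X) (v := -5) h.dk
    (fun y _ => hasDerivAt_const y _) ?_ ?_ x ⟨by linarith, hx⟩
  · have h1 := hC (-X) (by linarith)
    rw [neg_neg] at h1
    have h2 : C / X ≤ 1 / 10 := by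
      rw [div_le_iff₀ hX0]
      have := le_abs_self C
      linarith
    linarith
  · intro y hy hk
    have hk' : k y = 1 / 10 := hk
    rw [hk', Ad_eq]
    have h1 := mulW_le h (show y ≤ 0 by linarith [hy.2])
    have h2 := h.W_pos y
    have h3 : W y ≤ 1 / 20 := by nlinarith [hy.2]
    have h4 := h.V_pos y
    have h5 : 2 * c * W y ≤ 2 * c * (1 / 20) := by
      apply mul_le_mul_of_nonneg_left h3
      linarith
    have h6 : (1 - c) * y ≤ (1 - c) * (-5) := by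
      apply mul_le_mul_of_nonneg_left hy.2.le
      linarith
    have h7 : 0 < c * V y := mul_pos (by linarith) h4
    unfold Ad1
    nlinarith

theorem k_r (h : SPair c W V I k c) {x : ℝ} (hx : 5 ≤ x) : k x ≤ 1 / 10 := by
  obtain ⟨hc1, hc2⟩ := c_box h
  norm_num at hc1 hc2
  obtain ⟨C, hC⟩ := h.k_right
  set X := max x (10 * |C| + 1) with hX
  have hX1 : x ≤ X := le_max_left _ _
  have hX2 : 10 * |C| + 1 ≤ X := le_max_right _ _
  have hC0 := abs_nonneg C
  have hX0 : 0 < X := by linarith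
  refine bwd (f := k) (B := fun _ => 1 / 10) (B' := fun _ => 0) (u := 5) (v := X) h.dk
    (fun y _ => hasDerivAt_const y _) ?_ ?_ x ⟨hx, hX1⟩
  · have h1 := hC X (by linarith)
    have h2 : C / X ≤ 1 / 10 := by
      rw [div_le_iff₀ hX0]
      have := le_abs_self C
      linarith
    linarith
  · intro y hy hk
    have hk' : k y = 1 / 10 := hk
    rw [hk']
    have h4 := h.V_lt y
    have h2 := h.U_pos y
    have h5 : 0 < c * (W y - y) := mul_pos (by linarith) (by linarith)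
    have h6 : 0 < c * (1 - V y) := mul_pos (by linarith) (by linarith)
    have h7 : 0 ≤ c * (y - 5) := mul_nonneg (by linarith) (by linarith [hy.1])
    unfold Ad1 Ad
    nlinarith

/-- residual of `k` -/
def rk (c x : ℝ) : ℝ :=
  F1 1 x - F 1 x * F 1 x - ((1 - c) * x + 2 * c * F 0 x) * F 1 x + (1 - c) + 2 * c * F1 0 x - 2 * c

theorem rk_le (hc1 : 435929 / 2 ^ 20 ≤ c) (hc2 : c ≤ 435931 / 2 ^ 20) {x : ℝ} (h1 : -8 ≤ x)
    (h2 : x ≤ 8) : |rk c x| ≤ 41 / 2 ^ 20 := by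
  have k1 := chkc (t := 0) ck1 hc1 hc2 h1 h2 (by norm_num; linarith) (by norm_num; linarith)
  have k2 := chkc (t := 0) ck2 hc1 hc2 h1 h2 (by norm_num; linarith) (by norm_num; linarith)
  simp only [ek, Ex.evR_sub, Ex.evR_add, Ex.evR_mul, Ex.evR_cst, Ex.evR_var, evR_one, evR_two,
    env0, env1, env2, env3, env4, env5, env19] at k1 k2
  push_cast at k1 k2
  unfold rk
  rw [abs_le]
  constructor <;> linarith

theorem f_bd {x : ℝ} (h1 : -8 ≤ x) (h2 : x ≤ 8) : 0 < F 1 x ∧ F 1 x < 69 / 2 ^ 8 := by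
  have k1 := chk (s := 0) (t := 0) cf1 h1 h2 (by norm_num; linarith) (by norm_num; linarith)
    (by simp)
  have k2 := chk (s := 0) (t := 0) cf2 h1 h2 (by norm_num; linarith) (by norm_num; linarith)
    (by simp)
  simp only [Ex.evR_sub, Ex.evR_add, Ex.evR_mul, Ex.evR_cst, Ex.evR_var, env4] at k1 k2
  push_cast at k2
  constructor <;> linarith

/-- source of the difference equation -/
def s1 (c : ℝ) (W V : ℝ → ℝ) (x : ℝ) : ℝ :=
  2 * c * (W x - F 0 x) * F 1 x - 2 * c * (V x - F1 0 x) - rk c x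

theorem dd (h : SPair c W V I k c) (x : ℝ) : HasDerivAt (fun x => k x - F 1 x)
    ((2 * F 1 x + 2 * Ad c W x + (k x - F 1 x)) * (k x - F 1 x) + s1 c W V x) x := by
  refine ((h.dk x).sub (dF (by norm_num) x)).congr_deriv ?_
  unfold s1 rk Ad Ad1
  ring

theorem s1_le (h : SPair c W V I k c) {x : ℝ} (h1 : -8 ≤ x) (h2 : x ≤ 8) :
    |s1 c W V x| ≤ 127 / 2 ^ 20 := by
  obtain ⟨hc1, hc2⟩ := c_box h
  have a1 := encW h hc1 hc2 x ⟨h1, h2⟩
  have a2 := encV h hc1 hc2 x ⟨h1, h2⟩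
  have a3 := rk_le hc1 hc2 h1 h2
  have a4 := f_bd h1 h2
  have hc0 := h.c_pos
  have b1 : |2 * c * (W x - F 0 x) * F 1 x| ≤ 2 * (435931 / 2 ^ 20) * (13 / 2 ^ 20) * (69 / 2 ^ 8) := by
    rw [abs_mul, abs_mul, abs_of_pos a4.1, abs_of_pos (show 0 < 2 * c by linarith)]
    have a41 := a4.2.le
    have a40 := a4.1.le
    gcongr
  have b2 : |2 * c * (V x - F1 0 x)| ≤ 2 * (435931 / 2 ^ 20) * (98 / 2 ^ 20) := by
    rw [abs_mul, abs_of_pos (show 0 < 2 * c by linarith)]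
    gcongr
  rw [abs_le] at a3 b1 b2 ⊢
  unfold s1
  norm_num at a3 b1 b2 ⊢
  constructor <;> linarith [a3.1, a3.2, b1.1, b1.2, b2.1, b2.2]

theorem fw_touch {a0 B B' s S aS : ℝ} (hB : 0 ≤ B) (hs : |s| ≤ S) (ha : a0 + B ≤ aS)
    (h : aS * B + S < B') : (a0 + B) * B + s < B' ∧ -B' < (a0 + -B) * -B + s := by
  have h1 := abs_le.1 hs
  have h2 : (a0 + B) * B ≤ aS * B := mul_le_mul_of_nonneg_right ha hB
  have h3 : (a0 - B) * B ≤ aS * B := mul_le_mul_of_nonneg_right (by linarith) hB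
  constructor
  · linarith [h1.2]
  · have : (a0 + -B) * -B = -((a0 - B) * B) := by ring
    rw [this]
    linarith [h1.1]

theorem bw_touch {a0 B B' s S aS : ℝ} (hB : 0 ≤ B) (hs : |s| ≤ S) (ha : aS ≤ a0 - B)
    (h : B' < aS * B - S) : B' < (a0 + B) * B + s ∧ (a0 + -B) * -B + s < -B' := by
  have h1 := abs_le.1 hs
  have h2 : aS * B ≤ (a0 + B) * B := mul_le_mul_of_nonneg_right (by linarith) hB
  have h3 : aS * B ≤ (a0 - B) * B := mul_le_mul_of_nonneg_right ha hB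
  constructor
  · linarith [h1.1]
  · have : (a0 + -B) * -B = -((a0 - B) * B) := by ring
    rw [this]
    linarith [h1.2]

theorem d_ends (h : SPair c W V I k c) :
    |k (-8) - F 1 (-8)| ≤ 1 / 10 ∧ |k 8 - F 1 8| ≤ 1 / 10 := by
  have a1 := k_l h (show (-8:ℝ) ≤ -5 by norm_num)
  have a2 := k_r h (show (5:ℝ) ≤ 8 by norm_num)
  have k1 := chk (z := -8) (s := 0) (t := 0) cf3 (by norm_num) (by norm_num) (by norm_num)
    (by norm_num) (by simp)
  have k2 := chk (z := 8) (s := 0) (t := 0) cf4 (by norm_num) (by norm_num) (by norm_num)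
    (by norm_num) (by simp)
  simp only [Ex.evR_sub, Ex.evR_add, Ex.evR_mul, Ex.evR_cst, Ex.evR_var, env4] at k1 k2
  push_cast at k1 k2
  have b1 := f_bd (x := -8) (by norm_num) (by norm_num)
  have b2 := f_bd (x := 8) (by norm_num) (by norm_num)
  have c1 := h.k_pos (-8)
  have c2 := h.k_pos 8
  norm_num at k1 k2
  constructor
  · rw [abs_le]; constructor <;> linarith [b1.1]
  · rw [abs_le]; constructor <;> linarith [b2.1]

theorem A_bd (h : SPair c W V I k c) {x : ℝ} (h1 : -8 ≤ x) (h2 : x ≤ 8) :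
    (1 - c) * x + 2 * c * F 0 x - 13 / 2 ^ 20 ≤ 2 * Ad c W x ∧
      2 * Ad c W x ≤ (1 - c) * x + 2 * c * F 0 x + 13 / 2 ^ 20 := by
  obtain ⟨hc1, hc2⟩ := c_box h
  have := abs_le.1 (A_ge h hc1 hc2 h1 h2)
  constructor <;> linarith [this.1, this.2]

/-- outer left part -/
theorem left1 (h : SPair c W V I k c) : ∀ x ∈ Icc (-8 : ℝ) (-4), |k x - F 1 x| ≤
    240 / 2 ^ 20 * (-x⁻¹) + 1 / 10 * Real.exp (15 / 64 * (x ^ 2 - 64)) := by
  obtain ⟨hc1, hc2⟩ := c_box h
  have hG : ∀ x ∈ Icc (-8 : ℝ) (-4), Real.exp (15 / 64 * (x ^ 2 - 64)) ≤ 1 := fun x hx => by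
    rw [Real.exp_le_one_iff]
    nlinarith [hx.1, hx.2]
  have hI : ∀ x ∈ Icc (-8 : ℝ) (-4), 0 < -x⁻¹ ∧ -x⁻¹ ≤ 1 / 4 := fun x hx => by
    have hx0 : 0 < -x := by linarith [hx.2]
    rw [← inv_neg]
    refine ⟨inv_pos.2 hx0, ?_⟩
    rw [one_div]
    exact inv_anti₀ (by norm_num) (by linarith [hx.2])
  have hT : ∀ x ∈ Ico (-8 : ℝ) (-4), ∀ B, B = 240 / 2 ^ 20 * (-x⁻¹)
      + 1 / 10 * Real.exp (15 / 64 * (x ^ 2 - 64)) →
      (2 * F 1 x + 2 * Ad c W x + B) * B + s1 c W V x < 240 / 2 ^ 20 * (x ^ 2)⁻¹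
        + 1 / 10 * (15 / 32 * x * Real.exp (15 / 64 * (x ^ 2 - 64))) ∧
      -(240 / 2 ^ 20 * (x ^ 2)⁻¹ + 1 / 10 * (15 / 32 * x * Real.exp (15 / 64 * (x ^ 2 - 64)))) <
        (2 * F 1 x + 2 * Ad c W x + -B) * -B + s1 c W V x := by
    intro x hx B hB
    have hx' : x ∈ Icc (-8 : ℝ) (-4) := ⟨hx.1, hx.2.le⟩
    have g1 := hG x hx'
    have g0 := Real.exp_pos (15 / 64 * (x ^ 2 - 64))
    obtain ⟨i0, i1⟩ := hI x hx'
    have hx0 : x < 0 := by linarith [hx.2]
    have k1 := chkc (t := 0) cl1 hc1 hc2 hx.1 (by linarith) (by norm_num; linarith [hx.1])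
      (by norm_num; linarith [hx.2])
    have k2 := chkc (t := 0) cl2 hc1 hc2 hx.1 (by linarith) (by norm_num; linarith [hx.1])
      (by norm_num; linarith [hx.2])
    simp only [eU, eA, Ex.evR_sub, Ex.evR_add, Ex.evR_mul, Ex.evR_cst, Ex.evR_var, evR_one,
      evR_two, env0, env1, env2, env3, env4, env5, env19] at k1 k2
    push_cast at k1 k2
    set aS := 2 * F 1 x + ((1 - c) * x + 2 * c * F 0 x) + 13 / 2 ^ 20 + 113 / 2 ^ 10 with haS
    have hB0 : 0 ≤ B := by rw [hB]; positivity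
    have hB1 : B ≤ 113 / 2 ^ 10 := by
      rw [hB]
      norm_num
      nlinarith
    refine fw_touch (S := 127 / 2 ^ 20) (aS := aS) hB0 (s1_le h hx.1 (by linarith)) ?_ ?_
    · have := (A_bd h hx.1 (by linarith)).2
      rw [haS]
      linarith
    · rw [hB]
      have hxn : x ≠ 0 := hx0.ne
      have e1 : 0 < x ^ 2 := by positivity
      have e2 : 240 / 2 ^ 20 * (aS * (-x⁻¹)) + 128 / 2 ^ 20 < 240 / 2 ^ 20 * (x ^ 2)⁻¹ := by
        have : 240 / 2 ^ 20 * (x ^ 2)⁻¹ - (240 / 2 ^ 20 * (aS * (-x⁻¹)) + 128 / 2 ^ 20)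
            = (240 * (1 + aS * x) - 128 * (x * x)) * (x ^ 2)⁻¹ / 2 ^ 20 := by
          field_simp
          ring
        have h3 : 0 < (240 * (1 + aS * x) - 128 * (x * x)) * (x ^ 2)⁻¹ / 2 ^ 20 := by
          have : 0 < 240 * (1 + aS * x) - 128 * (x * x) := by
            norm_num at k1 ⊢
            linarith
          positivity
        linarith
      have e3 : aS * (1 / 10 * Real.exp (15 / 64 * (x ^ 2 - 64)))
          ≤ 1 / 10 * (15 / 32 * x * Real.exp (15 / 64 * (x ^ 2 - 64))) := by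
        have : aS ≤ 15 / 32 * x := by
          norm_num at k2 ⊢
          linarith
        nlinarith
      have e4 : aS * (240 / 2 ^ 20 * (-x⁻¹) + 1 / 10 * Real.exp (15 / 64 * (x ^ 2 - 64)))
          = 240 / 2 ^ 20 * (aS * (-x⁻¹)) + aS * (1 / 10 * Real.exp (15 / 64 * (x ^ 2 - 64))) := by
        ring
      rw [e4]
      have e5 : (127 : ℝ) / 2 ^ 20 ≤ 128 / 2 ^ 20 := by norm_num
      linarith
  refine fwd_abs (f := fun x => k x - F 1 x) (B' := fun x => 240 / 2 ^ 20 * (x ^ 2)⁻¹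
        + 1 / 10 * (15 / 32 * x * Real.exp (15 / 64 * (x ^ 2 - 64)))) (dd h) ?_ ?_ ?_ ?_
  · intro x hx
    have hx0 : x ≠ 0 := by linarith [hx.2]
    have d1 : HasDerivAt (fun x : ℝ => 240 / 2 ^ 20 * (-x⁻¹)) (240 / 2 ^ 20 * (x ^ 2)⁻¹) x :=
      (((hasDerivAt_inv hx0).neg).const_mul _).congr_deriv (by ring)
    have d2 : HasDerivAt (fun x : ℝ => 15 / 64 * (x ^ 2 - 64)) (15 / 32 * x) x :=
      ((((hasDerivAt_id x).pow 2).sub_const 64).const_mul (15 / 64)).congr_deriv (by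
        simp only [id]
        ring)
    exact d1.add ((d2.exp.const_mul (1 / 10)).congr_deriv (by ring))
  · have := (d_ends h).1
    refine this.trans ?_
    norm_num
  · intro x hx hB
    have := (hT x hx _ rfl).1
    rw [hB]
    exact this
  · intro x hx hB
    have := (hT x hx _ rfl).2
    rw [hB]
    exact this

/-- inner left part -/
theorem left2 (h : SPair c W V I k c) : ∀ x ∈ Icc (-4 : ℝ) (-1), |k x - F 1 x| ≤
    248 / 2 ^ 20 * (-x⁻¹) := by
  obtain ⟨hc1, hc2⟩ := c_box h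
  have hT : ∀ x ∈ Ico (-4 : ℝ) (-1), ∀ B, B = 248 / 2 ^ 20 * (-x⁻¹) →
      (2 * F 1 x + 2 * Ad c W x + B) * B + s1 c W V x < 248 / 2 ^ 20 * (x ^ 2)⁻¹ ∧
      -(248 / 2 ^ 20 * (x ^ 2)⁻¹) < (2 * F 1 x + 2 * Ad c W x + -B) * -B + s1 c W V x := by
    intro x hx B hB
    have hx0 : x < 0 := by linarith [hx.2]
    have hxn : x ≠ 0 := hx0.ne
    have hx1 : 0 < -x := by linarith
    have i0 : 0 < -x⁻¹ := by
      rw [← inv_neg]
      exact inv_pos.2 hx1
    have i1 : -x⁻¹ ≤ 1 := by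
      rw [← inv_neg]
      exact inv_le_one_of_one_le₀ (by linarith [hx.2])
    have k1 := chkc (t := 0) cl3 hc1 hc2 (by linarith [hx.1]) (by linarith)
      (by norm_num; linarith [hx.1]) (by norm_num; linarith [hx.2])
    simp only [eU, eA, Ex.evR_sub, Ex.evR_add, Ex.evR_mul, Ex.evR_cst, Ex.evR_var, evR_one,
      evR_two, env0, env1, env2, env3, env4, env5, env19] at k1
    push_cast at k1
    set aS := 2 * F 1 x + ((1 - c) * x + 2 * c * F 0 x) + 13 / 2 ^ 20 + 1 / 2 ^ 11 with haS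
    have hB0 : 0 ≤ B := by rw [hB]; positivity
    have hB1 : B ≤ 1 / 2 ^ 11 := by
      rw [hB]
      norm_num
      nlinarith
    refine fw_touch (S := 127 / 2 ^ 20) (aS := aS) hB0
      (s1_le h (by linarith [hx.1]) (by linarith)) ?_ ?_
    · have := (A_bd h (x := x) (by linarith [hx.1]) (by linarith)).2
      rw [haS]
      linarith
    · rw [hB]
      have e1 : 0 < x ^ 2 := by positivity
      have e2 : aS * (248 / 2 ^ 20 * (-x⁻¹)) + 128 / 2 ^ 20 < 248 / 2 ^ 20 * (x ^ 2)⁻¹ := by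
        have : 248 / 2 ^ 20 * (x ^ 2)⁻¹ - (aS * (248 / 2 ^ 20 * (-x⁻¹)) + 128 / 2 ^ 20)
            = (248 * (1 + aS * x) - 128 * (x * x)) * (x ^ 2)⁻¹ / 2 ^ 20 := by
          field_simp
          ring
        have h3 : 0 < (248 * (1 + aS * x) - 128 * (x * x)) * (x ^ 2)⁻¹ / 2 ^ 20 := by
          have : 0 < 248 * (1 + aS * x) - 128 * (x * x) := by
            norm_num at k1 ⊢
            linarith
          positivity
        linarith
      have e5 : (127 : ℝ) / 2 ^ 20 ≤ 128 / 2 ^ 20 := by norm_num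
      linarith
  refine fwd_abs (f := fun x => k x - F 1 x) (B' := fun x => 248 / 2 ^ 20 * (x ^ 2)⁻¹) (dd h)
    ?_ ?_ ?_ ?_
  · intro x hx
    have hx0 : x ≠ 0 := by linarith [hx.2]
    exact (((hasDerivAt_inv hx0).neg).const_mul _).congr_deriv (by ring)
  · have h1 := left1 h (-4) ⟨by norm_num, le_rfl⟩
    refine h1.trans ?_
    have h2 : Real.exp (15 / 64 * ((-4 : ℝ) ^ 2 - 64)) ≤ 1 / 2.7 ^ 11 := by
      have e1 : Real.exp (15 / 64 * ((-4 : ℝ) ^ 2 - 64)) ≤ Real.exp (-11) := by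
        apply Real.exp_le_exp.2
        norm_num
      refine e1.trans ?_
      rw [Real.exp_neg, ← one_div]
      apply one_div_le_one_div_of_le (by norm_num)
      have h1 : (2.7 : ℝ) < Real.exp 1 := by
        have := Real.exp_one_gt_d9
        linarith
      have h2 : Real.exp 11 = Real.exp 1 ^ 11 := by
        rw [← Real.exp_nat_mul]
        norm_num
      rw [h2]
      gcongr
    norm_num at h2 ⊢
    linarith
  · intro x hx hB
    have := (hT x hx _ rfl).1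
    rw [hB]
    exact this
  · intro x hx hB
    have := (hT x hx _ rfl).2
    rw [hB]
    exact this

/-- outer right part -/
theorem right1 (h : SPair c W V I k c) : ∀ x ∈ Icc (4 : ℝ) 8, |k x - F 1 x| ≤
    192 / 2 ^ 20 * (2 + x)⁻¹ + 1 / 10 * Real.exp (1 / 2 * (x ^ 2 - 64)) := by
  obtain ⟨hc1, hc2⟩ := c_box h
  have hT : ∀ x ∈ Ioc (4 : ℝ) 8, ∀ B, B = 192 / 2 ^ 20 * (2 + x)⁻¹
      + 1 / 10 * Real.exp (1 / 2 * (x ^ 2 - 64)) →
      -(192 / 2 ^ 20 * ((2 + x) ^ 2)⁻¹) + 1 / 10 * (x * Real.exp (1 / 2 * (x ^ 2 - 64))) <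
        (2 * F 1 x + 2 * Ad c W x + B) * B + s1 c W V x ∧
      (2 * F 1 x + 2 * Ad c W x + -B) * -B + s1 c W V x <
        -(-(192 / 2 ^ 20 * ((2 + x) ^ 2)⁻¹) + 1 / 10 * (x * Real.exp (1 / 2 * (x ^ 2 - 64)))) := by
    intro x hx B hB
    have g1 : Real.exp (1 / 2 * (x ^ 2 - 64)) ≤ 1 := by
      rw [Real.exp_le_one_iff]
      nlinarith [hx.1, hx.2]
    have g0 := Real.exp_pos (1 / 2 * (x ^ 2 - 64))
    have hx0 : 0 < 2 + x := by linarith [hx.1]
    have i0 : 0 < (2 + x)⁻¹ := inv_pos.2 hx0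
    have i1 : (2 + x)⁻¹ ≤ 1 := inv_le_one_of_one_le₀ (by linarith [hx.1])
    have k1 := chkc (t := 0) cr1 hc1 hc2 (by linarith [hx.1]) hx.2
      (by norm_num; linarith [hx.1]) (by norm_num; linarith [hx.2])
    have k2 := chkc (t := 0) cr2 hc1 hc2 (by linarith [hx.1]) hx.2
      (by norm_num; linarith [hx.1]) (by norm_num; linarith [hx.2])
    simp only [eL, eA, Ex.evR_sub, Ex.evR_add, Ex.evR_mul, Ex.evR_cst, Ex.evR_var, evR_one,
      evR_two, env0, env1, env2, env3, env4, env5, env19] at k1 k2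
    push_cast at k1 k2
    set aS := 2 * F 1 x + ((1 - c) * x + 2 * c * F 0 x) - 13 / 2 ^ 20 - 113 / 2 ^ 10 with haS
    have hB0 : 0 ≤ B := by rw [hB]; positivity
    have hB1 : B ≤ 113 / 2 ^ 10 := by
      rw [hB]
      norm_num
      nlinarith
    refine bw_touch (S := 127 / 2 ^ 20) (aS := aS) hB0 (s1_le h (by linarith [hx.1]) hx.2) ?_ ?_
    · have := (A_bd h (x := x) (by linarith [hx.1]) hx.2).1
      rw [haS]
      linarith
    · rw [hB]
      have e2 : 128 / 2 ^ 20 < 192 / 2 ^ 20 * (aS * (2 + x)⁻¹) + 192 / 2 ^ 20 * ((2 + x) ^ 2)⁻¹ := by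
        have : 192 / 2 ^ 20 * (aS * (2 + x)⁻¹) + 192 / 2 ^ 20 * ((2 + x) ^ 2)⁻¹ - 128 / 2 ^ 20
            = (192 * (aS * (2 + x) + 1) - 128 * ((2 + x) * (2 + x))) * ((2 + x) ^ 2)⁻¹ / 2 ^ 20 := by
          field_simp
        have h3 : 0 < (192 * (aS * (2 + x) + 1) - 128 * ((2 + x) * (2 + x))) * ((2 + x) ^ 2)⁻¹
            / 2 ^ 20 := by
          have : 0 < 192 * (aS * (2 + x) + 1) - 128 * ((2 + x) * (2 + x)) := by
            norm_num at k1 ⊢
            linarith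
          positivity
        linarith
      have e3 : 1 / 10 * (x * Real.exp (1 / 2 * (x ^ 2 - 64)))
          ≤ aS * (1 / 10 * Real.exp (1 / 2 * (x ^ 2 - 64))) := by
        have : x ≤ aS := by
          norm_num at k2 ⊢
          linarith
        nlinarith
      have e4 : aS * (192 / 2 ^ 20 * (2 + x)⁻¹ + 1 / 10 * Real.exp (1 / 2 * (x ^ 2 - 64)))
          = 192 / 2 ^ 20 * (aS * (2 + x)⁻¹) + aS * (1 / 10 * Real.exp (1 / 2 * (x ^ 2 - 64))) := by
        ring
      rw [e4]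
      have e5 : (127 : ℝ) / 2 ^ 20 ≤ 128 / 2 ^ 20 := by norm_num
      linarith
  refine bwd_abs (f := fun x => k x - F 1 x) (B' := fun x => -(192 / 2 ^ 20 * ((2 + x) ^ 2)⁻¹)
        + 1 / 10 * (x * Real.exp (1 / 2 * (x ^ 2 - 64)))) (dd h) ?_ ?_ ?_ ?_
  · intro x hx
    have hx0 : 2 + x ≠ 0 := by linarith [hx.1]
    have d1 : HasDerivAt (fun x : ℝ => 192 / 2 ^ 20 * (2 + x)⁻¹)
        (-(192 / 2 ^ 20 * ((2 + x) ^ 2)⁻¹)) x :=
      ((((hasDerivAt_id x).const_add 2).inv hx0).const_mul (192 / 2 ^ 20)).congr_deriv (by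
        simp only [id]
        ring)
    have d2 : HasDerivAt (fun x : ℝ => 1 / 2 * (x ^ 2 - 64)) x x :=
      ((((hasDerivAt_id x).pow 2).sub_const 64).const_mul (1 / 2)).congr_deriv (by
        simp only [id]
        ring)
    exact d1.add ((d2.exp.const_mul (1 / 10)).congr_deriv (by ring))
  · have := (d_ends h).2
    refine this.trans ?_
    norm_num
  · intro x hx hB
    have := (hT x hx _ rfl).1
    rw [hB]
    exact this
  · intro x hx hB
    have := (hT x hx _ rfl).2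
    rw [hB]
    exact this

/-- inner right part -/
theorem right2 (h : SPair c W V I k c) : ∀ x ∈ Icc (-1 : ℝ) 4, |k x - F 1 x| ≤
    196 / 2 ^ 20 * (2 + x)⁻¹ := by
  obtain ⟨hc1, hc2⟩ := c_box h
  have hT : ∀ x ∈ Ioc (-1 : ℝ) 4, ∀ B, B = 196 / 2 ^ 20 * (2 + x)⁻¹ →
      -(196 / 2 ^ 20 * ((2 + x) ^ 2)⁻¹) <
        (2 * F 1 x + 2 * Ad c W x + B) * B + s1 c W V x ∧
      (2 * F 1 x + 2 * Ad c W x + -B) * -B + s1 c W V x <
        -(-(196 / 2 ^ 20 * ((2 + x) ^ 2)⁻¹)) := by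
    intro x hx B hB
    have hx0 : 0 < 2 + x := by linarith [hx.1]
    have i0 : 0 < (2 + x)⁻¹ := inv_pos.2 hx0
    have i1 : (2 + x)⁻¹ ≤ 1 := inv_le_one_of_one_le₀ (by linarith [hx.1])
    have k1 := chkc (t := 0) cr3 hc1 hc2 (by linarith [hx.1]) (by linarith [hx.2])
      (by norm_num; linarith [hx.1]) (by norm_num; linarith [hx.2])
    simp only [eL, eA, Ex.evR_sub, Ex.evR_add, Ex.evR_mul, Ex.evR_cst, Ex.evR_var, evR_one,
      evR_two, env0, env1, env2, env3, env4, env5, env19] at k1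
    push_cast at k1
    set aS := 2 * F 1 x + ((1 - c) * x + 2 * c * F 0 x) - 13 / 2 ^ 20 - 1 / 2 ^ 11 with haS
    have hB0 : 0 ≤ B := by rw [hB]; positivity
    have hB1 : B ≤ 1 / 2 ^ 11 := by
      rw [hB]
      norm_num
      nlinarith
    refine bw_touch (S := 127 / 2 ^ 20) (aS := aS) hB0
      (s1_le h (by linarith [hx.1]) (by linarith [hx.2])) ?_ ?_
    · have := (A_bd h (x := x) (by linarith [hx.1]) (by linarith [hx.2])).1
      rw [haS]
      linarith
    · rw [hB]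
      have e2 : 128 / 2 ^ 20 < aS * (196 / 2 ^ 20 * (2 + x)⁻¹) + 196 / 2 ^ 20 * ((2 + x) ^ 2)⁻¹ := by
        have : aS * (196 / 2 ^ 20 * (2 + x)⁻¹) + 196 / 2 ^ 20 * ((2 + x) ^ 2)⁻¹ - 128 / 2 ^ 20
            = (196 * (aS * (2 + x) + 1) - 128 * ((2 + x) * (2 + x))) * ((2 + x) ^ 2)⁻¹ / 2 ^ 20 := by
          field_simp
        have h3 : 0 < (196 * (aS * (2 + x) + 1) - 128 * ((2 + x) * (2 + x))) * ((2 + x) ^ 2)⁻¹
            / 2 ^ 20 := by
          have : 0 < 196 * (aS * (2 + x) + 1) - 128 * ((2 + x) * (2 + x)) := by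
            norm_num at k1 ⊢
            linarith
          positivity
        linarith
      have e5 : (127 : ℝ) / 2 ^ 20 ≤ 128 / 2 ^ 20 := by norm_num
      linarith
  refine bwd_abs (f := fun x => k x - F 1 x) (B' := fun x => -(196 / 2 ^ 20 * ((2 + x) ^ 2)⁻¹))
    (dd h) ?_ ?_ ?_ ?_
  · intro x hx
    have hx0 : 2 + x ≠ 0 := by linarith [hx.1]
    exact ((((hasDerivAt_id x).const_add 2).inv hx0).const_mul (196 / 2 ^ 20)).congr_deriv (by
        simp only [id]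
        ring)
  · have h1 := right1 h 4 ⟨le_rfl, by norm_num⟩
    refine h1.trans ?_
    have h2 : Real.exp (1 / 2 * ((4 : ℝ) ^ 2 - 64)) ≤ 1 / 2 ^ 20 := by
      refine le_trans ?_ exp18
      apply Real.exp_le_exp.2
      norm_num
    norm_num at h2 ⊢
    linarith
  · intro x hx hB
    have := (hT x hx _ rfl).1
    rw [hB]
    exact this
  · intro x hx hB
    have := (hT x hx _ rfl).2
    rw [hB]
    exact this

end main

end

end Crest.Agent.R146.Enc2_848
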