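import Mathlib
import Crest.Agent.R146.Trans_109

/-!
The two one-sided exclusion theorems (row 146, numerics certificate): explicit super/sub profiles
and test functions exclude the closure `lambda = 2 ν` above/below a given value of `ν`.
-/

set_option autoImplicit false

namespace Crest.Agent.R146.Encl_109

open Filter Topology Set
open Crest.Agent.R146.Slide_109 Crest.Agent.R146.Prof_109 Crest.Agent.R146.Trans_109

/-- explicit data excluding the closure for all `ν ≥ n` -/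
structure DataPlus (n : ℝ) (U0 U1 U2 U3 f f1 f2 : ℝ → ℝ) : Prop where
  jet : Jet U0 U1 U2 U3
  surj : Function.Surjective U0
  pos : ∀ z, 0 < U1 z
  lower : ∃ c, 1 - 2 * n < c ∧ ∀ z, c ≤ U1 z
  right : ∃ zR, (∀ z, zR ≤ z → 1 ≤ U1 z) ∧
    ∀ z, z < zR → U3 z + U0 z * U2 z - (1 - U1 z) * (U1 z - (1 - 2 * n)) < 0
  g0 : ∀ z, HasDerivAt f (f1 z) z
  g1 : ∀ z, HasDerivWithinAt f1 (f2 z) (Ici z) z
  sub : ∃ α β, f α ≤ 0 ∧ f β ≤ 0 ∧ (∃ z, α ≤ z ∧ z ≤ β ∧ 0 < f z) ∧
    ∀ z, α ≤ z → z < β → 0 < f2 z + U0 z * f1 z + 2 * n * f z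

theorem exclude_above {n : ℝ} {U0 U1 U2 U3 f f1 f2 : ℝ → ℝ}
    (D : DataPlus n U0 U1 U2 U3 f f1 f2) {ν : ℝ} (hn : n ≤ ν) {W V q q1 : ℝ → ℝ}
    (h : ProfD ν W V) (hq : ChargeD ν (2 * ν) W q q1) : False := by
  have hν := h.pos
  have hν2 := h.lt
  have hmU : StrictMono U0 := strictMono_of_hasDerivAt_pos D.jet.d0 D.pos
  have hS1 : ∀ z, 0 < 1 - 2 * ν + 2 * ν * V z := fun z => by
    have := h.V_nonneg z
    nlinarith [mul_nonneg hν.le this]
  have hmS : StrictMono (A ν W) := strictMono_of_hasDerivAt_pos h.jet.d0 hS1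
  obtain ⟨c, hc1, hc2⟩ := D.lower
  obtain ⟨zR, hR1, hR2⟩ := D.right
  -- box
  have hbdd : ∃ B, ∀ z1 z2, A ν W z2 ≤ U0 z1 → U1 z1 ≤ 1 - 2 * ν + 2 * ν * V z2 →
      |z1| ≤ B ∧ |z2| ≤ B := by
    have hcc : 0 < (c - (1 - 2 * ν)) / (2 * ν) := div_pos (by linarith) (by linarith)
    obtain ⟨Z, hZ⟩ := h.V_small hcc
    obtain ⟨Z1, hZ1⟩ := D.surj (A ν W Z)
    refine ⟨|zR| + |Z| + |Z1| + |U0 zR|, fun z1 z2 h1 h2 => ?_⟩
    have h3 : z1 < zR := by
      by_contra hcon
      push Not at hcon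
      have h4 := hR1 z1 hcon
      have h5 := h.V_lt_one z2
      nlinarith [mul_pos hν (sub_pos.2 h5)]
    have h6 : Z < z2 := by
      by_contra hcon
      push Not at hcon
      have h7 := hZ z2 hcon
      rw [lt_div_iff₀ (by linarith)] at h7
      have h8 := hc2 z1
      linarith
    have h9 : Z1 ≤ z1 := by
      by_contra hcon
      push Not at hcon
      have h10 := hmU hcon
      have h11 := hmS h6
      linarith
    have h12 : z2 ≤ U0 zR := (h.A_ge z2).trans (h1.trans (hmU.monotone h3.le))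
    have e1 := le_abs_self zR
    have e2 := neg_abs_le Z
    have e3 := neg_abs_le Z1
    have e4 := le_abs_self (U0 zR)
    have p1 := abs_nonneg zR
    have p2 := abs_nonneg Z
    have p3 := abs_nonneg Z1
    have p4 := abs_nonneg (U0 zR)
    constructor
    · rw [abs_le]; constructor <;> linarith
    · rw [abs_le]; constructor <;> linarith
  have hslide := slide h.jet D.jet hS1 D.pos D.surj
    (Or.inl fun z => mul_nonneg (by linarith) (h.X_nonneg z))
    (fun z1 z2 h1 h2 h3 => by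
      have hV := h.V_lt_one z2
      have hlt1 : U1 z1 < 1 := by rw [h2]; nlinarith [mul_pos hν (sub_pos.2 hV)]
      have hz1 : z1 < zR := by
        by_contra hcon
        push Not at hcon
        have := hR1 z1 hcon
        linarith
      have hN := hR2 z1 hz1
      have hX := mul_nonneg (by linarith : (0 : ℝ) ≤ 2 * ν) (h.X_nonneg z2)
      rw [h2, h3] at hN
      have h4 := mul_nonneg hX (sub_nonneg.2 h1)
      have h5 := mul_nonneg (sub_nonneg.2 hn) (sub_nonneg.2 hV.le)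
      nlinarith [mul_nonneg hν.le h5])
    hbdd
  obtain ⟨z0, hm1, hm2⟩ := phi_mode h hq (by linarith)
  obtain ⟨s, ho1, ho2⟩ := order_super h.jet.d0 D.jet.d0 D.pos D.surj
    (fun z1 z2 hz => hslide z1 z2 hz.ge) z0
  obtain ⟨α, β, hα, hβ, hex, hsub⟩ := D.sub
  have hshift : ∀ (F F' : ℝ → ℝ), (∀ z, HasDerivAt F (F' z) z) →
      ∀ z, HasDerivAt (fun z => F (z - s)) (F' (z - s)) z := fun F F' hF z =>
    (hF (z - s)).comp_sub_const z s
  refine barta_sub (B := U0) (lam := 2 * n) (f := f) (f1 := f1) (f2 := f2)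
    (g := fun z => phi ν W q (z - s)) (g1 := fun z => phi1 ν W q q1 (z - s))
    (g2 := fun z => -(2 * ν * phi ν W q (z - s)) - A ν W (z - s) * phi1 ν W q q1 (z - s))
    D.g0 D.g1 (hshift _ _ (phi_d0 h hq))
    (fun z => (hshift _ _ (phi_d1 h hq) z).hasDerivWithinAt)
    (fun z => phi_pos hq _) (fun z => ?_) hsub hα hβ hex
  have hφ := phi_pos hq (z - s)
  have h1 : (U0 z - A ν W (z - s)) * phi1 ν W q q1 (z - s) ≤ 0 := by
    rcases le_total (z - s) z0 with hz | hz
    · have h2 := ho1 _ hz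
      rw [sub_add_cancel] at h2
      exact mul_nonpos_of_nonpos_of_nonneg (by linarith) (hm1 _ hz)
    · have h2 := ho2 _ hz
      rw [sub_add_cancel] at h2
      exact mul_nonpos_of_nonneg_of_nonpos (by linarith) (hm2 _ hz)
  nlinarith [mul_nonneg (sub_nonneg.2 hn) hφ.le]

/-- explicit data excluding the closure for all `ν ≤ n` -/
structure DataMinus (n : ℝ) (S0 S1 S2 S3 g g1 g2 : ℝ → ℝ) : Prop where
  jet : Jet S0 S1 S2 S3
  surj : Function.Surjective S0
  pos : ∀ z, 0 < S1 z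
  left : ∃ c zL, c < 1 - 2 * n ∧ ∀ z, z ≤ zL → S1 z ≤ c
  lt_one : ∀ z, S1 z < 1
  tail : ∃ zR k K C : ℝ, 0 < k ∧ ∀ z, zR ≤ z → k * Real.exp (-(K * z)) ≤ 1 - S1 z ∧ z - C ≤ S0 z
  res : ∀ z, 0 < S3 z + S0 z * S2 z - (1 - S1 z) * (S1 z - (1 - 2 * n))
  g0 : ∀ z, HasDerivAt g (g1 z) z
  g1' : ∀ z, HasDerivWithinAt g1 (g2 z) (Ici z) z
  gpos : ∃ k K : ℝ, 0 < k ∧ 0 ≤ K ∧ ∀ z, k * Real.exp (-(K * |z|)) ≤ g z
  super : ∀ z, g2 z + S0 z * g1 z + 2 * n * g z < 0

lemma exp_gauss_lt (k K C : ℝ) (hk : 0 < k) :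
    ∃ Z : ℝ, ∀ z, Z ≤ z → Real.exp (-((z - C) ^ 2 / 2)) < k * Real.exp (-(K * z)) := by
  -- -(z-C)^2/2 + K z → -∞
  have h1 : Tendsto (fun z : ℝ => z * ((K + C) - 1 / 2 * z) - C ^ 2 / 2) atTop atBot := by
    apply tendsto_atBot_add_const_right
    apply Tendsto.atTop_mul_atBot₀ tendsto_id
    have : Tendsto (fun x : ℝ => 1 / 2 * x) atTop atTop :=
      tendsto_id.const_mul_atTop (by norm_num)
    have h2 := tendsto_neg_atTop_atBot.comp this
    have h3 := tendsto_atBot_add_const_left _ (K + C) h2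
    refine h3.congr fun x => ?_
    simp [sub_eq_add_neg]
  have h2 := h1.eventually (eventually_lt_atBot (Real.log k))
  obtain ⟨Z, hZ⟩ := eventually_atTop.1 h2
  refine ⟨Z, fun z hz => ?_⟩
  have h3 := hZ z hz
  have h4 : Real.exp (-((z - C) ^ 2 / 2)) < Real.exp (Real.log k + -(K * z)) := by
    apply Real.exp_lt_exp.2
    nlinarith
  rwa [Real.exp_add, Real.exp_log hk] at h4

theorem exclude_below {n : ℝ} {S0 S1 S2 S3 g g1 g2 : ℝ → ℝ}
    (D : DataMinus n S0 S1 S2 S3 g g1 g2) {ν : ℝ} (hn : ν ≤ n) {W V q q1 : ℝ → ℝ}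
    (h : ProfD ν W V) (hq : ChargeD ν (2 * ν) W q q1) : False := by
  have hν := h.pos
  have hν2 := h.lt
  have hmS : StrictMono S0 := strictMono_of_hasDerivAt_pos D.jet.d0 D.pos
  have hU1 : ∀ z, 0 < 1 - 2 * ν + 2 * ν * V z := fun z => by
    have := h.V_nonneg z
    nlinarith [mul_nonneg hν.le this]
  have hmU : StrictMono (A ν W) := strictMono_of_hasDerivAt_pos h.jet.d0 hU1
  obtain ⟨c, zL, hc1, hc2⟩ := D.left
  obtain ⟨zR, k, K, C, hk, htail⟩ := D.tail
  have cS1 : Continuous S1 := continuous_iff_continuousAt.2 fun z => (D.jet.d1 z).continuousAt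
  -- box
  have hbdd : ∃ B, ∀ z1 z2, S0 z2 ≤ A ν W z1 → 1 - 2 * ν + 2 * ν * V z1 ≤ S1 z2 →
      |z1| ≤ B ∧ |z2| ≤ B := by
    set C2 : ℝ := C + 2 * ν * W 0 with hC2
    obtain ⟨Z, hZ⟩ := exp_gauss_lt k K C2 hk
    set Z2 : ℝ := max (max zR Z) (C2 + 1) with hZ2
    obtain ⟨μx, hμx, hμ⟩ := isCompact_Icc.exists_isMaxOn
      (⟨min zL Z2, le_refl _, min_le_right _ _⟩ : (Icc (min zL Z2) Z2).Nonempty)
      cS1.continuousOn
    have hμ1 := D.lt_one μx
    have hμpos : 0 < 1 - S1 μx := by linarith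
    -- decay of 1 - V
    have hdec : ∃ Y : ℝ, 0 ≤ Y ∧ ∀ z, Y ≤ z → Real.exp (-(z ^ 2 / 2)) < 1 - S1 μx := by
      obtain ⟨Y, hY⟩ := exp_gauss_lt (1 - S1 μx) 0 0 hμpos
      refine ⟨max Y 0, le_max_right _ _, fun z hz => ?_⟩
      have := hY z ((le_max_left _ _).trans hz)
      simpa using this
    obtain ⟨Y, hY0, hY⟩ := hdec
    obtain ⟨Y1, hY1⟩ := h.A_surj (S0 zL)
    refine ⟨|zL| + |Z2| + |Y| + |Y1|, fun z1 z2 h1 h2 => ?_⟩
    have hV1 := h.V_nonneg z1
    have h3 : zL < z2 := by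
      by_contra hcon
      push Not at hcon
      have h4 := hc2 z2 hcon
      nlinarith [mul_nonneg hν.le hV1]
    have h5 : z2 < Z2 := by
      by_contra hcon
      push Not at hcon
      have e1 : zR ≤ z2 := (le_max_left _ _).trans ((le_max_left _ _).trans hcon)
      have e2 : Z ≤ z2 := (le_max_right _ _).trans ((le_max_left _ _).trans hcon)
      have e3 : C2 + 1 ≤ z2 := (le_max_right _ _).trans hcon
      obtain ⟨t1, t2⟩ := htail z2 e1
      have h6 : 0 ≤ z1 := by
        by_contra hc0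
        push Not at hc0
        have h7 := hmU hc0
        have h8 : A ν W 0 = 2 * ν * W 0 := by unfold A; ring
        rw [h8] at h7
        linarith
      have h9 := h.A_le h6
      have h10 : z2 - C2 ≤ z1 := by rw [hC2]; linarith
      have h11 := h.R_le h6
      have h12 : Real.exp (-(z1 ^ 2 / 2)) ≤ Real.exp (-((z2 - C2) ^ 2 / 2)) := by
        apply Real.exp_le_exp.2
        have : (z2 - C2) ^ 2 ≤ z1 ^ 2 := by
          apply pow_le_pow_left₀ (by linarith) h10
        linarith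
      have h13 := hZ z2 e2
      have h14 : 0 ≤ 1 - V z1 := by have := h.V_le_one z1; linarith
      nlinarith [mul_nonneg (by linarith : (0 : ℝ) ≤ 1 - 2 * ν) h14]
    have h6 : Y1 < z1 := by
      by_contra hcon
      push Not at hcon
      have h7 := hmU.monotone hcon
      have h8 := hmS h3
      rw [hY1] at h7
      linarith
    have h7 : z1 < Y := by
      by_contra hcon
      push Not at hcon
      have h8 := hY z1 hcon
      have h9 := h.R_le (hY0.trans hcon)
      have h10 : S1 z2 ≤ S1 μx := hμ ⟨(min_le_left _ _).trans h3.le, h5.le⟩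
      have h14 : 0 ≤ 1 - V z1 := by have := h.V_le_one z1; linarith
      nlinarith [mul_nonneg (by linarith : (0 : ℝ) ≤ 1 - 2 * ν) h14]
    have e1 := neg_abs_le zL
    have e2 := le_abs_self Z2
    have e3 := le_abs_self Y
    have e4 := neg_abs_le Y1
    have p1 := abs_nonneg zL
    have p2 := abs_nonneg Z2
    have p3 := abs_nonneg Y
    have p4 := abs_nonneg Y1
    constructor
    · rw [abs_le]; constructor <;> linarith
    · rw [abs_le]; constructor <;> linarith
  have hslide := slide D.jet h.jet D.pos hU1 h.A_surj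
    (Or.inr fun z => mul_nonneg (by linarith) (h.X_nonneg z))
    (fun z1 z2 h1 h2 h3 => by
      have hN := D.res z2
      have hV := h.V_le_one z1
      have hX := mul_nonneg (by linarith : (0 : ℝ) ≤ 2 * ν) (h.X_nonneg z1)
      rw [← h2, ← h3] at hN
      have h4 := mul_nonneg hX (sub_nonneg.2 h1)
      have h5 := mul_nonneg (sub_nonneg.2 hn) (sub_nonneg.2 hV)
      nlinarith [mul_nonneg hν.le h5])
    hbdd
  obtain ⟨z0, hm1, hm2⟩ := phi_mode h hq (by linarith)
  obtain ⟨s, ho1, ho2⟩ := order_sub D.jet.d0 h.jet.d0 D.pos D.surj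
    (fun z1 z2 hz => hslide z1 z2 hz.ge) z0
  obtain ⟨k', K', hk', hK', hg⟩ := D.gpos
  have hgpos : ∀ z, 0 < g z := fun z => lt_of_lt_of_le (mul_pos hk' (Real.exp_pos _)) (hg z)
  have hshift : ∀ (F F' : ℝ → ℝ), (∀ z, HasDerivAt F (F' z) z) →
      ∀ z, HasDerivAt (fun z => F (z - s)) (F' (z - s)) z := fun F F' hF z =>
    (hF (z - s)).comp_sub_const z s
  refine barta_super (B := S0) (lam := 2 * n)
    (f := fun z => phi ν W q (z - s)) (f1 := fun z => phi1 ν W q q1 (z - s))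
    (f2 := fun z => -(2 * ν * phi ν W q (z - s)) - A ν W (z - s) * phi1 ν W q q1 (z - s))
    (g := g) (g1 := g1) (g2 := g2)
    (hshift _ _ (phi_d0 h hq))
    (fun z => (hshift _ _ (phi_d1 h hq) z).hasDerivWithinAt) D.g0 D.g1'
    (fun z => phi_pos hq _) hgpos (fun z => ?_) D.super ?_
  · have hφ := phi_pos hq (z - s)
    have h1 : 0 ≤ (S0 z - A ν W (z - s)) * phi1 ν W q q1 (z - s) := by
      rcases le_total (z - s) z0 with hz | hz
      · have h2 := ho1 _ hz
        rw [sub_add_cancel] at h2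
        exact mul_nonneg (by linarith) (hm1 _ hz)
      · have h2 := ho2 _ hz
        rw [sub_add_cancel] at h2
        exact mul_nonneg_of_nonpos_of_nonpos (by linarith) (hm2 _ hz)
    nlinarith [mul_nonneg (sub_nonneg.2 hn) hφ.le]
  · have hlim := phi_exp_tendsto h hq K'
    have hsh : Tendsto (fun z : ℝ => z - s) (cocompact ℝ) (cocompact ℝ) :=
      (Homeomorph.subRight s).isClosedEmbedding.tendsto_cocompact
    have h1 := (hlim.comp hsh).const_mul (Real.exp (K' * |s|) / k')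
    rw [mul_zero] at h1
    refine squeeze_zero (fun z => (div_pos (phi_pos hq _) (hgpos z)).le) (fun z => ?_) h1
    simp only [Function.comp]
    rw [div_le_iff₀ (hgpos z)]
    have h2 := hg z
    have hφ := phi_pos hq (z - s)
    have h3 : phi ν W q (z - s) = Real.exp (K' * |s|) / k' *
        (phi ν W q (z - s) * Real.exp (K' * |z - s|)) *
        (k' * Real.exp (-(K' * (|z - s| + |s|)))) := by
      have e1 : Real.exp (K' * |s|) * Real.exp (K' * |z - s|) *
          Real.exp (-(K' * (|z - s| + |s|))) = 1 := by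
        rw [← Real.exp_add, ← Real.exp_add]
        rw [show K' * |s| + K' * |z - s| + -(K' * (|z - s| + |s|)) = 0 by ring, Real.exp_zero]
      have e2 := hk'.ne'
      calc phi ν W q (z - s) = phi ν W q (z - s) * (Real.exp (K' * |s|) *
            Real.exp (K' * |z - s|) * Real.exp (-(K' * (|z - s| + |s|)))) := by rw [e1, mul_one]
        _ = _ := by field_simp
    have h4 : k' * Real.exp (-(K' * (|z - s| + |s|))) ≤ k' * Real.exp (-(K' * |z|)) := by
      apply mul_le_mul_of_nonneg_left _ hk'.le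
      apply Real.exp_le_exp.2
      have : |z| ≤ |z - s| + |s| := by
        calc |z| = |(z - s) + s| := by rw [sub_add_cancel]
          _ ≤ _ := abs_add_le _ _
      nlinarith [mul_nonneg hK' (sub_nonneg.2 this)]
    have h5 : 0 ≤ Real.exp (K' * |s|) / k' * (phi ν W q (z - s) * Real.exp (K' * |z - s|)) := by
      positivity
    calc phi ν W q (z - s) = _ := h3
      _ ≤ _ := mul_le_mul_of_nonneg_left (h4.trans h2) h5

end Crest.Agent.R146.Encl_109
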