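import Mathlib
import Crest.Agent.R146.Slide_109

/-!
Piecewise polynomials with integer coefficients: evaluation, derivatives, positivity tests, gluing
(row 146, numerics certificate).
-/

set_option autoImplicit false

namespace Crest.Agent.R146.Pc_109

open Filter Topology Set
open Crest.Agent.R146.Slide_109

/-! ### integer polynomials as lists -/

/-- Horner evaluation -/
noncomputable def ev : List ℤ → ℝ → ℝ
  | [], _ => 0
  | c :: p, x => (c : ℝ) + x * ev p x

/-- addition -/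
def padd : List ℤ → List ℤ → List ℤ
  | [], q => q
  | a :: p, [] => a :: p
  | a :: p, b :: q => (a + b) :: padd p q

/-- scalar multiple -/
def psm (k : ℤ) : List ℤ → List ℤ
  | [] => []
  | a :: p => (k * a) :: psm k p

/-- product -/
def pmul : List ℤ → List ℤ → List ℤ
  | [], _ => []
  | a :: p, q => padd (psm a q) (0 :: pmul p q)

/-- derivative -/
def pder : List ℤ → List ℤ
  | [] => []
  | _ :: p => padd p (0 :: pder p)

/-- sum of absolute values -/
def sab : List ℤ → ℤ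
  | [] => 0
  | a :: p => |a| + sab p

/-- integer evaluation -/
def evz (x : ℤ) : List ℤ → ℤ
  | [] => 0
  | a :: p => a + x * evz x p

/-- `2^(len p) * p ((x+s)/2)` -/
def sh (s : ℤ) : List ℤ → List ℤ
  | [] => []
  | a :: p => padd [a * 2 ^ (p.length + 1)] (pmul [s, 1] (sh s p))

/-- positivity on `[-1,1]` by bisection of depth `d` -/
def chk : ℕ → List ℤ → Bool
  | _, [] => false
  | 0, a :: p => decide (sab p < a)
  | d + 1, a :: p => decide (sab p < a) || (chk d (sh 1 (a :: p)) && chk d (sh (-1) (a :: p)))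

lemma ev_padd (p q : List ℤ) (x : ℝ) : ev (padd p q) x = ev p x + ev q x := by
  induction p generalizing q with
  | nil => simp [padd, ev]
  | cons a p ih =>
    cases q with
    | nil => simp [padd, ev]
    | cons b q => simp only [padd, ev, ih]; push_cast; ring

lemma ev_psm (k : ℤ) (p : List ℤ) (x : ℝ) : ev (psm k p) x = k * ev p x := by
  induction p with
  | nil => simp [psm, ev]
  | cons a p ih => simp only [psm, ev, ih]; push_cast; ring

lemma ev_pmul (p q : List ℤ) (x : ℝ) : ev (pmul p q) x = ev p x * ev q x := by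
  induction p with
  | nil => simp [pmul, ev]
  | cons a p ih => simp only [pmul, ev_padd, ev_psm, ev, ih]; push_cast; ring

lemma ev_pder (p : List ℤ) (x : ℝ) : HasDerivAt (ev p) (ev (pder p) x) x := by
  induction p with
  | nil => exact hasDerivAt_const x 0
  | cons a p ih =>
    have h1 : HasDerivAt (fun x : ℝ => (a : ℝ) + x * ev p x) (1 * ev p x + x * ev (pder p) x) x :=
      ((hasDerivAt_id x).mul ih).const_add (a : ℝ)
    have h2 : ev (pder (a :: p)) x = 1 * ev p x + x * ev (pder p) x := by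
      simp only [pder, ev_padd, ev]; push_cast; ring
    rw [h2]
    exact h1

lemma ev_evz (x : ℤ) (p : List ℤ) : ev p (x : ℝ) = (evz x p : ℝ) := by
  induction p with
  | nil => simp [ev, evz]
  | cons a p ih => simp only [ev, evz, ih]; push_cast; ring

lemma abs_ev_le (p : List ℤ) {x : ℝ} (hx : |x| ≤ 1) : |ev p x| ≤ (sab p : ℝ) := by
  induction p with
  | nil => simp [ev, sab]
  | cons a p ih =>
    simp only [ev, sab]
    push_cast
    calc |(a : ℝ) + x * ev p x| ≤ |(a : ℝ)| + |x * ev p x| := abs_add_le _ _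
      _ = |(a : ℝ)| + |x| * |ev p x| := by rw [abs_mul]
      _ ≤ |(a : ℝ)| + 1 * sab p := by
        gcongr
      _ = _ := by ring

lemma ev_pos_of_sab {a : ℤ} {p : List ℤ} (h : sab p < a) {x : ℝ} (hx : |x| ≤ 1) :
    0 < ev (a :: p) x := by
  simp only [ev]
  have h1 := abs_ev_le p hx
  have h2 : |x * ev p x| ≤ (sab p : ℝ) := by
    rw [abs_mul]
    calc |x| * |ev p x| ≤ 1 * |ev p x| := mul_le_mul_of_nonneg_right hx (abs_nonneg _)
      _ ≤ _ := by rw [one_mul]; exact h1
  have h3 := (abs_le.1 h2).1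
  have h4 : (sab p : ℝ) < a := by exact_mod_cast h
  linarith

lemma ev_sh (s : ℤ) (p : List ℤ) (x : ℝ) :
    ev (sh s p) x = 2 ^ p.length * ev p ((x + s) / 2) := by
  induction p with
  | nil => simp [sh, ev]
  | cons a p ih =>
    simp only [sh, ev_padd, ev_pmul, ev, ih, List.length_cons]
    push_cast
    ring

lemma chk_pos : ∀ (d : ℕ) (p : List ℤ), chk d p = true → ∀ x : ℝ, |x| ≤ 1 → 0 < ev p x := by
  intro d
  induction d with
  | zero =>
    intro p hp x hx
    cases p with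
    | nil => simp [chk] at hp
    | cons a p =>
      simp only [chk, decide_eq_true_eq] at hp
      exact ev_pos_of_sab hp hx
  | succ d ih =>
    intro p hp x hx
    cases p with
    | nil => simp [chk] at hp
    | cons a p =>
      simp only [chk, Bool.or_eq_true, decide_eq_true_eq, Bool.and_eq_true] at hp
      rcases hp with hp | ⟨hp1, hp2⟩
      · exact ev_pos_of_sab hp hx
      · rw [abs_le] at hx
        rcases le_total 0 x with h0 | h0
        · have h1 := ih _ hp1 (2 * x - 1) (by rw [abs_le]; constructor <;> linarith [hx.2])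
          rw [ev_sh] at h1
          have h2 : (2 * x - 1 + ((1 : ℤ) : ℝ)) / 2 = x := by push_cast; ring
          rw [h2] at h1
          exact (mul_pos_iff_of_pos_left (by positivity)).1 h1
        · have h1 := ih _ hp2 (2 * x + 1) (by rw [abs_le]; constructor <;> linarith [hx.1])
          rw [ev_sh] at h1
          have h2 : (2 * x + 1 + ((-1 : ℤ) : ℝ)) / 2 = x := by push_cast; ring
          rw [h2] at h1
          exact (mul_pos_iff_of_pos_left (by positivity)).1 h1

/-! ### gluing -/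

/-- glue two functions at `c` -/
noncomputable def glue (c : ℝ) (f g : ℝ → ℝ) (z : ℝ) : ℝ := if z < c then f z else g z

lemma glue_lt {c z : ℝ} (f g : ℝ → ℝ) (h : z < c) : glue c f g z = f z := if_pos h

lemma glue_ge {c z : ℝ} (f g : ℝ → ℝ) (h : c ≤ z) : glue c f g z = g z := if_neg (not_lt.2 h)

lemma glue_ev_lt {c z : ℝ} (f g : ℝ → ℝ) (h : z < c) : glue c f g =ᶠ[𝓝 z] f := by
  filter_upwards [Iio_mem_nhds h] with w hw using if_pos hw

lemma glue_ev_gt {c z : ℝ} (f g : ℝ → ℝ) (h : c < z) : glue c f g =ᶠ[𝓝 z] g := by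
  filter_upwards [Ioi_mem_nhds h] with w hw using if_neg (not_lt.2 (le_of_lt hw))

lemma glue_deriv {c : ℝ} {f g f' g' : ℝ → ℝ} (hf : ∀ z, HasDerivAt f (f' z) z)
    (hg : ∀ z, HasDerivAt g (g' z) z) (h0 : f c = g c) (h1 : f' c = g' c) (z : ℝ) :
    HasDerivAt (glue c f g) (glue c f' g' z) z := by
  rcases lt_trichotomy z c with hz | hz | hz
  · rw [glue_lt _ _ hz]
    exact (hf z).congr_of_eventuallyEq (glue_ev_lt f g hz)
  · subst hz
    rw [glue_ge _ _ le_rfl]
    have hl : HasDerivWithinAt (glue z f g) (g' z) (Iic z) z := by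
      rw [← h1]
      refine (hf z).hasDerivWithinAt.congr (fun w hw => ?_) ?_
      · rcases lt_or_eq_of_le (mem_Iic.1 hw) with h | h
        · exact glue_lt _ _ h
        · rw [h, glue_ge _ _ le_rfl, h0]
      · rw [glue_ge _ _ le_rfl, h0]
    have hr : HasDerivWithinAt (glue z f g) (g' z) (Ici z) z :=
      (hg z).hasDerivWithinAt.congr (fun w hw => glue_ge _ _ hw) (glue_ge _ _ le_rfl)
    have := hl.union hr
    rw [Iic_union_Ici, hasDerivWithinAt_univ] at this
    exact this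
  · rw [glue_ge _ _ hz.le]
    exact (hg z).congr_of_eventuallyEq (glue_ev_gt f g hz)

lemma glue_rderiv {c : ℝ} {f g f' g' : ℝ → ℝ}
    (hf : ∀ z, HasDerivWithinAt f (f' z) (Ici z) z)
    (hg : ∀ z, HasDerivWithinAt g (g' z) (Ici z) z) (z : ℝ) :
    HasDerivWithinAt (glue c f g) (glue c f' g' z) (Ici z) z := by
  rcases lt_or_ge z c with hz | hz
  · rw [glue_lt _ _ hz]
    refine (hf z).congr_of_eventuallyEq ?_ (glue_lt _ _ hz)
    exact (glue_ev_lt f g hz).filter_mono nhdsWithin_le_nhds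
  · rw [glue_ge _ _ hz]
    refine (hg z).congr (fun w hw => glue_ge _ _ (hz.trans hw)) (glue_ge _ _ hz)

/-- gluing of jets -/
lemma glue_jet {c : ℝ} {F0 F1 F2 F3 G0 G1 G2 G3 : ℝ → ℝ} (hF : Jet F0 F1 F2 F3)
    (hG : Jet G0 G1 G2 G3) (h0 : F0 c = G0 c) (h1 : F1 c = G1 c) (h2 : F2 c = G2 c) :
    Jet (glue c F0 G0) (glue c F1 G1) (glue c F2 G2) (glue c F3 G3) where
  d0 := glue_deriv hF.d0 hG.d0 h0 h1
  d1 := glue_deriv hF.d1 hG.d1 h1 h2
  d2 := glue_rderiv hF.d2 hG.d2

/-- `C¹` function with right-differentiable derivative -/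
structure Jet1 (F0 F1 F2 : ℝ → ℝ) : Prop where
  d0 : ∀ z, HasDerivAt F0 (F1 z) z
  d1 : ∀ z, HasDerivWithinAt F1 (F2 z) (Ici z) z

lemma glue_jet1 {c : ℝ} {F0 F1 F2 G0 G1 G2 : ℝ → ℝ} (hF : Jet1 F0 F1 F2)
    (hG : Jet1 G0 G1 G2) (h0 : F0 c = G0 c) (h1 : F1 c = G1 c) :
    Jet1 (glue c F0 G0) (glue c F1 G1) (glue c F2 G2) where
  d0 := glue_deriv hF.d0 hG.d0 h0 h1
  d1 := glue_rderiv hF.d1 hG.d1

/-! ### polynomial pieces of length `1/2` -/

/-- `k`-th derivative of the piece with left knot `x`: `4^k p^(k)(4 (z-x) - 1) / Q` -/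
noncomputable def pf (Q : ℤ) (k : ℕ) (p : List ℤ) (x z : ℝ) : ℝ :=
  4 ^ k * ev (pder^[k] p) (4 * (z - x) - 1) / Q

lemma pf_deriv (Q : ℤ) (k : ℕ) (p : List ℤ) (x z : ℝ) :
    HasDerivAt (pf Q k p x) (pf Q (k + 1) p x z) z := by
  have h1 : HasDerivAt (fun z : ℝ => 4 * (z - x) - 1) (4 * 1) z :=
    (((hasDerivAt_id z).sub_const x).const_mul 4).sub_const 1
  have h2 := (ev_pder (pder^[k] p) (4 * (z - x) - 1)).comp z h1
  have h3 := (h2.const_mul ((4 : ℝ) ^ k)).div_const (Q : ℝ)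
  refine h3.congr_deriv ?_
  unfold pf
  rw [Function.iterate_succ_apply', pow_succ]
  ring

lemma pf_jet (Q : ℤ) (p : List ℤ) (x : ℝ) :
    Jet (pf Q 0 p x) (pf Q 1 p x) (pf Q 2 p x) (pf Q 3 p x) where
  d0 := pf_deriv Q 0 p x
  d1 := pf_deriv Q 1 p x
  d2 z := (pf_deriv Q 2 p x z).hasDerivWithinAt

lemma pf_jet1 (Q : ℤ) (p : List ℤ) (x : ℝ) :
    Jet1 (pf Q 0 p x) (pf Q 1 p x) (pf Q 2 p x) where
  d0 := pf_deriv Q 0 p x
  d1 z := (pf_deriv Q 1 p x z).hasDerivWithinAt

lemma pf_left (Q : ℤ) (k : ℕ) (p : List ℤ) (x : ℝ) :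
    pf Q k p x x = 4 ^ k * (evz (-1) (pder^[k] p) : ℝ) / Q := by
  unfold pf
  rw [← ev_evz]
  norm_num

lemma pf_right (Q : ℤ) (k : ℕ) (p : List ℤ) (x : ℝ) :
    pf Q k p x (x + 1 / 2) = 4 ^ k * (evz 1 (pder^[k] p) : ℝ) / Q := by
  unfold pf
  rw [← ev_evz]
  congr 3
  push_cast
  ring

/-- piecewise polynomial with right outer function `T` -/
noncomputable def pw (Q : ℤ) (k : ℕ) (T : ℝ → ℝ) : List (List ℤ) → ℝ → ℝ → ℝ
  | [], _ => T
  | p :: L, x => glue (x + 1 / 2) (pf Q k p x) (pw Q k T L (x + 1 / 2))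

/-- consecutive pieces match up to order `m` (exclusive) and the last one has the end values `e` -/
def mtch : List ℤ → List ℤ → ℕ → Bool
  | _, _, 0 => true
  | p, q, m + 1 => mtch p q m && decide (evz 1 (pder^[m] p) = evz (-1) (pder^[m] q))

lemma mtch_spec {p q : List ℤ} {m : ℕ} (h : mtch p q m = true) {k : ℕ} (hk : k < m) :
    evz 1 (pder^[k] p) = evz (-1) (pder^[k] q) := by
  induction m with
  | zero => omega
  | succ m ih =>
    simp only [mtch, Bool.and_eq_true, decide_eq_true_eq] at h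
    rcases Nat.lt_succ_iff_lt_or_eq.1 hk with h1 | h1
    · exact ih h.1 h1
    · subst h1; exact h.2

/-- chain condition -/
def chain (m : ℕ) : List (List ℤ) → Bool
  | [] => true
  | [_] => true
  | p :: q :: L => mtch p q m && chain m (q :: L)

lemma pw_at (Q : ℤ) (k : ℕ) (T : ℝ → ℝ) (p : List ℤ) (L : List (List ℤ)) (x : ℝ) :
    pw Q k T (p :: L) x x = 4 ^ k * (evz (-1) (pder^[k] p) : ℝ) / Q := by
  rw [pw, glue_lt _ _ (by linarith), pf_left]

/-- the last polynomial of a nonempty list -/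
def lst : List ℤ → List (List ℤ) → List ℤ
  | p, [] => p
  | _, q :: L => lst q L

lemma pw_jet {Q : ℤ} {T0 T1 T2 T3 : ℝ → ℝ} (hT : Jet T0 T1 T2 T3) :
    ∀ (L : List (List ℤ)) (p : List ℤ) (x : ℝ), chain 3 (p :: L) = true →
    (4 ^ 0 * (evz 1 (pder^[0] (lst p L)) : ℝ) / Q = T0 (x + (L.length + 1) / 2)) →
    (4 ^ 1 * (evz 1 (pder^[1] (lst p L)) : ℝ) / Q = T1 (x + (L.length + 1) / 2)) →
    (4 ^ 2 * (evz 1 (pder^[2] (lst p L)) : ℝ) / Q = T2 (x + (L.length + 1) / 2)) →
    Jet (pw Q 0 T0 (p :: L) x) (pw Q 1 T1 (p :: L) x) (pw Q 2 T2 (p :: L) x)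
      (pw Q 3 T3 (p :: L) x) := by
  intro L
  induction L with
  | nil =>
    intro p x _ h0 h1 h2
    simp only [List.length_nil, Nat.cast_zero, zero_add, lst] at h0 h1 h2
    refine glue_jet (pf_jet Q p x) hT ?_ ?_ ?_
    · rw [pf_right]; exact h0
    · rw [pf_right]; exact h1
    · rw [pf_right]; exact h2
  | cons q L ih =>
    intro p x hc h0 h1 h2
    simp only [chain, Bool.and_eq_true] at hc
    have hx : x + (((q :: L).length : ℝ) + 1) / 2 = (x + 1 / 2) + ((L.length : ℝ) + 1) / 2 := by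
      simp only [List.length_cons]; push_cast; ring
    rw [hx] at h0 h1 h2
    have hrec := ih q (x + 1 / 2) hc.2 h0 h1 h2
    refine glue_jet (pf_jet Q p x) hrec ?_ ?_ ?_
    · rw [pf_right, pw_at, mtch_spec hc.1 (k := 0) (by norm_num)]
    · rw [pf_right, pw_at, mtch_spec hc.1 (k := 1) (by norm_num)]
    · rw [pf_right, pw_at, mtch_spec hc.1 (k := 2) (by norm_num)]

lemma pw_jet1 {Q : ℤ} {T0 T1 T2 : ℝ → ℝ} (hT : Jet1 T0 T1 T2) :
    ∀ (L : List (List ℤ)) (p : List ℤ) (x : ℝ), chain 2 (p :: L) = true →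
    (4 ^ 0 * (evz 1 (pder^[0] (lst p L)) : ℝ) / Q = T0 (x + (L.length + 1) / 2)) →
    (4 ^ 1 * (evz 1 (pder^[1] (lst p L)) : ℝ) / Q = T1 (x + (L.length + 1) / 2)) →
    Jet1 (pw Q 0 T0 (p :: L) x) (pw Q 1 T1 (p :: L) x) (pw Q 2 T2 (p :: L) x) := by
  intro L
  induction L with
  | nil =>
    intro p x _ h0 h1
    simp only [List.length_nil, Nat.cast_zero, zero_add, lst] at h0 h1
    refine glue_jet1 (pf_jet1 Q p x) hT ?_ ?_
    · rw [pf_right]; exact h0
    · rw [pf_right]; exact h1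
  | cons q L ih =>
    intro p x hc h0 h1
    simp only [chain, Bool.and_eq_true] at hc
    have hx : x + (((q :: L).length : ℝ) + 1) / 2 = (x + 1 / 2) + ((L.length : ℝ) + 1) / 2 := by
      simp only [List.length_cons]; push_cast; ring
    rw [hx] at h0 h1
    have hrec := ih q (x + 1 / 2) hc.2 h0 h1
    refine glue_jet1 (pf_jet1 Q p x) hrec ?_ ?_
    · rw [pf_right, pw_at, mtch_spec hc.1 (k := 0) (by norm_num)]
    · rw [pf_right, pw_at, mtch_spec hc.1 (k := 1) (by norm_num)]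

/-- on the range of the pieces the piecewise function is given by one of the pieces; two lists of
the same length are cut at the same knots -/
lemma pw_local (Q : ℤ) {P : List ℤ → List ℤ → Bool} :
    ∀ (L M : List (List ℤ)) (x z : ℝ), L.length = M.length →
    (List.zipWith P L M).all id = true → x ≤ z → z < x + (L.length : ℝ) / 2 →
    ∃ p q : List ℤ, ∃ y : ℝ, P p q = true ∧ |4 * (z - y) - 1| ≤ 1 ∧
      (∀ (k : ℕ) (T : ℝ → ℝ), pw Q k T L x z = pf Q k p y z) ∧
      (∀ (k : ℕ) (T : ℝ → ℝ), pw Q k T M x z = pf Q k q y z) := by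
  intro L
  induction L with
  | nil =>
    intro M x z _ _ h1 h2
    simp at h2
    linarith
  | cons p L ih =>
    intro M x z hlen hall h1 h2
    cases M with
    | nil => simp at hlen
    | cons q M =>
      simp only [List.zipWith_cons_cons, List.all_cons, id_eq, Bool.and_eq_true] at hall
      rcases lt_or_ge z (x + 1 / 2) with hz | hz
      · refine ⟨p, q, x, hall.1, ?_, fun k T => ?_, fun k T => ?_⟩
        · rw [abs_le]; constructor <;> linarith
        · rw [pw, glue_lt _ _ hz]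
        · rw [pw, glue_lt _ _ hz]
      · have hx : x + (((p :: L).length : ℕ) : ℝ) / 2 = (x + 1 / 2) + (L.length : ℝ) / 2 := by
          simp only [List.length_cons]; push_cast; ring
        rw [hx] at h2
        obtain ⟨p', q', y, e1, e2, e3, e4⟩ := ih M (x + 1 / 2) z
          (by simpa using hlen) hall.2 hz h2
        refine ⟨p', q', y, e1, e2, fun k T => ?_, fun k T => ?_⟩
        · rw [pw, glue_ge _ _ hz, e3]
        · rw [pw, glue_ge _ _ hz, e4]

lemma pw_ge (Q : ℤ) (k : ℕ) (T : ℝ → ℝ) :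
    ∀ (L : List (List ℤ)) (x z : ℝ), x + (L.length : ℝ) / 2 ≤ z → pw Q k T L x z = T z := by
  intro L
  induction L with
  | nil => intro x z _; rfl
  | cons p L ih =>
    intro x z h
    have hx : x + (((p :: L).length : ℕ) : ℝ) / 2 = (x + 1 / 2) + (L.length : ℝ) / 2 := by
      simp only [List.length_cons]; push_cast; ring
    rw [hx] at h
    have h2 : x + 1 / 2 ≤ z := by
      have : (0 : ℝ) ≤ (L.length : ℝ) / 2 := by positivity
      linarith
    rw [pw, glue_ge _ _ h2, ih _ _ h]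

/-! ### residual polynomials -/

/-- `Q² D (U''' + U U'' - (1 - U') (U' - nA / D))` -/
def resA (Q nA D : ℤ) (p : List ℤ) : List ℤ :=
  padd (psm D (padd (psm (64 * Q) (pder^[3] p)) (psm 16 (pmul p (pder^[2] p)))))
    (pmul (padd [-Q] (psm 4 (pder^[1] p))) (padd (psm (4 * D) (pder^[1] p)) [-(nA * Q)]))

lemma ev_resA {Q nA D : ℤ} (hQ : 0 < Q) (hD : 0 < D) (p : List ℤ) (x z : ℝ) :
    ev (resA Q nA D p) (4 * (z - x) - 1) = (Q : ℝ) ^ 2 * D *
      (pf Q 3 p x z + pf Q 0 p x z * pf Q 2 p x z -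
        (1 - pf Q 1 p x z) * (pf Q 1 p x z - (nA : ℝ) / D)) := by
  have h1 : (Q : ℝ) ≠ 0 := by exact_mod_cast hQ.ne'
  have h2 : (D : ℝ) ≠ 0 := by exact_mod_cast hD.ne'
  simp only [resA, ev_padd, ev_psm, ev_pmul, ev, pf, Function.iterate_zero, id]
  push_cast
  field_simp
  ring

/-- `Q² D (f'' + U f' + (nl / D) f)` -/
def resP (Q nl D : ℤ) (p f : List ℤ) : List ℤ :=
  padd (psm D (padd (psm (16 * Q) (pder^[2] f)) (psm 4 (pmul p (pder^[1] f)))))
    (psm (nl * Q) f)

lemma ev_resP {Q nl D : ℤ} (hQ : 0 < Q) (hD : 0 < D) (p f : List ℤ) (x z : ℝ) :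
    ev (resP Q nl D p f) (4 * (z - x) - 1) = (Q : ℝ) ^ 2 * D *
      (pf Q 2 f x z + pf Q 0 p x z * pf Q 1 f x z + (nl : ℝ) / D * pf Q 0 f x z) := by
  have h1 : (Q : ℝ) ≠ 0 := by exact_mod_cast hQ.ne'
  have h2 : (D : ℝ) ≠ 0 := by exact_mod_cast hD.ne'
  simp only [resP, ev_padd, ev_psm, ev_pmul, pf, Function.iterate_zero, id]
  push_cast
  field_simp
  ring

end Crest.Agent.R146.Pc_109
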