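import Mathlib
import Crest.Agent.R146.Encl_109
import Crest.Agent.R146.Pc_109

/-!
From integer tests on piecewise polynomials to the explicit data of the exclusion theorems
(row 146, numerics certificate).
-/

set_option autoImplicit false

namespace Crest.Agent.R146.Mk_109

open Filter Topology Set
open Crest.Agent.R146.Slide_109 Crest.Agent.R146.Prof_109 Crest.Agent.R146.Trans_109
open Crest.Agent.R146.Encl_109 Crest.Agent.R146.Pc_109

lemma surj_of_ge {U0 U1 : ℝ → ℝ} {c : ℝ} (hc : 0 < c) (hd : ∀ z, HasDerivAt U0 (U1 z) z)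
    (hge : ∀ z, c ≤ U1 z) : Function.Surjective U0 := by
  have hcont : Continuous U0 := continuous_iff_continuousAt.2 fun z => (hd z).continuousAt
  have hmono : Monotone (fun z => U0 z - c * z) :=
    monotone_of_hasDerivAt_nonneg (f' := fun z => U1 z - c * 1)
      (fun z => (hd z).sub ((hasDerivAt_id z).const_mul c))
      (fun z => by have := hge z; simp only [Pi.zero_apply]; linarith)
  apply hcont.surjective
  · have h1 : Tendsto (fun z : ℝ => c * z + U0 0) atTop atTop :=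
      tendsto_atTop_add_const_right _ _ (tendsto_id.const_mul_atTop hc)
    refine tendsto_atTop_mono' _ ?_ h1
    filter_upwards [eventually_ge_atTop 0] with z hz
    have := hmono hz
    simp only [mul_zero, sub_zero] at this
    linarith
  · have h1 : Tendsto (fun z : ℝ => c * z + U0 0) atBot atBot :=
      tendsto_atBot_add_const_right _ _ (tendsto_id.const_mul_atBot hc)
    refine tendsto_atBot_mono' _ ?_ h1
    filter_upwards [eventually_le_atBot 0] with z hz
    have := hmono hz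
    simp only [mul_zero, sub_zero] at this
    linarith

/-- affine jet -/
lemma affine_jet (y c x : ℝ) :
    Jet (fun z => y + c * (z - x)) (fun _ => c) (fun _ => 0) (fun _ => 0) where
  d0 z := by
    have := (((hasDerivAt_id z).sub_const x).const_mul c).const_add y
    simpa using this
  d1 z := hasDerivAt_const z c
  d2 z := (hasDerivAt_const z (0 : ℝ)).hasDerivWithinAt

lemma affine_jet1 (y c x : ℝ) :
    Jet1 (fun z => y + c * (z - x)) (fun _ => c) (fun _ => 0) where
  d0 := (affine_jet y c x).d0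
  d1 z := (hasDerivAt_const z c).hasDerivWithinAt

/-! ### upper side -/

/-- test of one piece, upper side -/
def Pp (Q nA nl D e : ℤ) (p q : List ℤ) : Bool :=
  chk 1 (psm (-1) (resA Q nA D p)) && (chk 1 (resP Q nl D p q) &&
    chk 3 (padd (psm (4 * D) (pder p)) [-(nA * Q + e)]))

lemma Pp_spec {Q nA nl D e : ℤ} (hQ : 0 < Q) (hD : 0 < D) {p q : List ℤ}
    (h : Pp Q nA nl D e p q = true) {y z : ℝ} (hz : |4 * (z - y) - 1| ≤ 1) :
    (pf Q 3 p y z + pf Q 0 p y z * pf Q 2 p y z -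
        (1 - pf Q 1 p y z) * (pf Q 1 p y z - (nA : ℝ) / D) < 0) ∧
    (0 < pf Q 2 q y z + pf Q 0 p y z * pf Q 1 q y z + (nl : ℝ) / D * pf Q 0 q y z) ∧
    ((nA * Q + e : ℝ) / (D * Q) ≤ pf Q 1 p y z) := by
  simp only [Pp, Bool.and_eq_true] at h
  obtain ⟨h1, h2, h3⟩ := h
  have hQr : (0 : ℝ) < Q := by exact_mod_cast hQ
  have hDr : (0 : ℝ) < D := by exact_mod_cast hD
  have hK : (0 : ℝ) < (Q : ℝ) ^ 2 * D := by positivity
  have e1 := chk_pos _ _ h1 _ hz
  have e2 := chk_pos _ _ h2 _ hz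
  have e3 := chk_pos _ _ h3 _ hz
  rw [ev_psm, ev_resA hQ hD] at e1
  rw [ev_resP hQ hD] at e2
  rw [ev_padd, ev_psm] at e3
  refine ⟨?_, ?_, ?_⟩
  · by_contra hcon
    push Not at hcon
    have := mul_nonneg hK.le hcon
    push_cast at e1
    linarith
  · exact (mul_pos_iff_of_pos_left hK).1 e2
  · simp only [ev] at e3
    push_cast at e3
    unfold pf
    rw [div_le_div_iff₀ (by positivity) hQr]
    simp only [Function.iterate_one, pow_one]
    nlinarith

/-- right outer functions (slope one) -/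
noncomputable def Tp (y x : ℝ) : ℕ → ℝ → ℝ
  | 0 => fun z => y + 1 * (z - x)
  | 1 => fun _ => 1
  | _ => fun _ => 0

theorem dataPlus_of {Q nA nl D e N0 M1 NR g gd : ℤ} {n : ℝ} {p q q' : List ℤ}
    {L M : List (List ℤ)}
    (hQ : 0 < Q) (hD : 0 < D) (he : 0 < e) (hnA : 0 < nA)
    (ha : (nA : ℝ) / D = 1 - 2 * n) (hl : (nl : ℝ) / D = 2 * n)
    (hlen : (p :: L).length = (q :: q' :: M).length)
    (hc3 : chain 3 (p :: L) = true) (hc2 : chain 2 (q :: q' :: M) = true)
    (hall : (List.zipWith (Pp Q nA nl D e) (p :: L) (q :: q' :: M)).all id = true)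
    (hp0 : evz (-1) p = N0) (hp1 : evz (-1) (pder p) = M1) (hp2 : evz (-1) (pder (pder p)) = 0)
    (hM1 : nA * Q + e ≤ 4 * M1 * D) (hM1' : 4 * M1 < Q)
    (hr0 : evz 1 (lst p L) = NR) (hr1 : 4 * evz 1 (pder (lst p L)) = Q)
    (hr2 : evz 1 (pder (pder (lst p L))) = 0)
    (hQc : nA * Q + e ≤ D * Q)
    (hq0 : evz (-1) q ≤ 0) (hq1 : 0 < evz (-1) q')
    (hg0 : evz 1 (lst q (q' :: M)) = g) (hg1 : evz 1 (pder (lst q (q' :: M))) = gd) (hg : g ≤ 0) :
    ∃ U0 U1 U2 U3 f f1 f2 : ℝ → ℝ, DataPlus n U0 U1 U2 U3 f f1 f2 := by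
  have hQr : (0 : ℝ) < Q := by exact_mod_cast hQ
  have hDr : (0 : ℝ) < D := by exact_mod_cast hD
  have her : (0 : ℝ) < e := by exact_mod_cast he
  set xn : ℝ := 0 + ((L.length : ℝ) + 1) / 2 with hxn
  set c0 : ℝ := 4 * M1 / Q with hc0
  set cc : ℝ := (nA * Q + e : ℝ) / (D * Q) with hcc
  have hc0' : cc ≤ c0 := by
    rw [hcc, hc0, div_le_div_iff₀ (by positivity) hQr]
    have : ((nA * Q + e : ℤ) : ℝ) ≤ ((4 * M1 * D : ℤ) : ℝ) := by exact_mod_cast hM1
    push_cast at this
    nlinarith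
  have hc01 : c0 < 1 := by
    rw [hc0, div_lt_one hQr]
    exact_mod_cast hM1'
  have hcc1 : cc ≤ 1 := by
    rw [hcc, div_le_one (by positivity)]
    exact_mod_cast hQc
  have hcca : 1 - 2 * n < cc := by
    rw [← ha, hcc, div_lt_div_iff₀ hDr (by positivity)]
    nlinarith [mul_pos her hDr]
  have hcc0 : 0 < cc := by
    have : (0 : ℝ) < nA := by exact_mod_cast hnA
    rw [hcc]; positivity
  -- the functions
  set W : ℕ → ℝ → ℝ := fun k => pw Q k (Tp (NR / Q) xn k) (p :: L) 0 with hW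
  set U0 : ℝ → ℝ := glue 0 (fun z => (N0 : ℝ) / Q + c0 * (z - 0)) (W 0) with hU0
  set U1 : ℝ → ℝ := glue 0 (fun _ => c0) (W 1) with hU1
  set U2 : ℝ → ℝ := glue 0 (fun _ => 0) (W 2) with hU2
  set U3 : ℝ → ℝ := glue 0 (fun _ => 0) (W 3) with hU3
  have hjW : Jet (W 0) (W 1) (W 2) (W 3) := by
    refine pw_jet (T0 := Tp (NR / Q) xn 0) (T1 := Tp (NR / Q) xn 1) (T2 := Tp (NR / Q) xn 2)
      (T3 := Tp (NR / Q) xn 3) (affine_jet (NR / Q) 1 xn) L p 0 hc3 ?_ ?_ ?_
    · simp only [Function.iterate_zero, id, pow_zero, one_mul, hr0, Tp]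
      rw [← hxn]; ring
    · simp only [Function.iterate_one, Tp]
      have : ((4 * evz 1 (pder (lst p L)) : ℤ) : ℝ) = Q := by exact_mod_cast hr1
      push_cast at this
      rw [pow_one, this, div_self hQr.ne']
    · have e2 : pder^[2] (lst p L) = pder (pder (lst p L)) := rfl
      simp only [Tp]
      rw [e2, hr2]
      simp
  have hjet : Jet U0 U1 U2 U3 := by
    refine glue_jet (affine_jet ((N0 : ℝ) / Q) c0 0) hjW ?_ ?_ ?_
    · simp only [hW]
      rw [pw_at]
      simp only [Function.iterate_zero, id, pow_zero, hp0]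
      ring
    · simp only [hW]
      rw [pw_at]
      simp only [Function.iterate_one, hp1, pow_one, hc0]
    · simp only [hW]
      rw [pw_at]
      have e2 : pder^[2] p = pder (pder p) := rfl
      rw [e2, hp2]
      simp
  -- local description
  have hloc : ∀ z, 0 ≤ z → z < xn → ∃ p1 q1 : List ℤ, ∃ y : ℝ,
      Pp Q nA nl D e p1 q1 = true ∧ |4 * (z - y) - 1| ≤ 1 ∧
      (∀ (k : ℕ) (T : ℝ → ℝ), pw Q k T (p :: L) 0 z = pf Q k p1 y z) ∧
      (∀ (k : ℕ) (T : ℝ → ℝ), pw Q k T (q :: q' :: M) 0 z = pf Q k q1 y z) := by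
    intro z h1 h2
    refine pw_local Q (p :: L) (q :: q' :: M) 0 z hlen hall h1 ?_
    simpa [hxn] using h2
  have hge : ∀ z, xn ≤ z → ∀ k T, pw Q k T (p :: L) 0 z = T z := by
    intro z hz k T
    apply pw_ge
    simpa [hxn] using hz
  have hxn0 : 0 < xn := by
    rw [hxn]; positivity
  have hlow : ∀ z, cc ≤ U1 z := by
    intro z
    rcases lt_or_ge z 0 with h0 | h0
    · simp only [hU1]; rw [glue_lt _ _ h0]; exact hc0'
    · rcases lt_or_ge z xn with h1 | h1
      · obtain ⟨p1, q1, y, e1, e2, e3, e4⟩ := hloc z h0 h1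
        simp only [hU1, hW]
        rw [glue_ge _ _ h0, e3]
        exact (Pp_spec hQ hD e1 e2).2.2
      · simp only [hU1, hW]
        rw [glue_ge _ _ h0, hge z h1]
        exact hcc1
  set f : ℕ → ℝ → ℝ := fun k => pw Q k
    (match k with
      | 0 => fun z => (g : ℝ) / Q + (4 * gd / Q) * (z - xn)
      | 1 => fun _ => (4 * gd / Q : ℝ)
      | _ => fun _ => 0) (q :: q' :: M) 0 with hf
  have hlen' : (M.length : ℝ) + 1 = L.length := by
    simp only [List.length_cons] at hlen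
    have : M.length + 1 = L.length := by omega
    exact_mod_cast this
  have hjf : Jet1 (f 0) (f 1) (f 2) := by
    refine pw_jet1 (affine_jet1 ((g : ℝ) / Q) (4 * gd / Q) xn) (q' :: M) q 0 hc2 ?_ ?_
    · simp only [Function.iterate_zero, id, pow_zero, one_mul, hg0]
      have : (0 : ℝ) + (((q' :: M).length : ℝ) + 1) / 2 = xn := by
        rw [hxn]; simp only [List.length_cons]; push_cast; rw [hlen']
      rw [this]; ring
    · simp only [Function.iterate_one, hg1, pow_one]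
  refine ⟨U0, U1, U2, U3, f 0, f 1, f 2, hjet, surj_of_ge hcc0 hjet.d0 hlow,
    fun z => lt_of_lt_of_le hcc0 (hlow z), ⟨cc, hcca, hlow⟩, ⟨xn, ?_, ?_⟩, hjf.d0, hjf.d1,
    ⟨0, xn, ?_, ?_, ⟨1 / 2, by norm_num, ?_, ?_⟩, ?_⟩⟩
  · intro z hz
    simp only [hU1, hW]
    rw [glue_ge _ _ (hxn0.le.trans hz), hge z hz]
    exact le_refl _
  · intro z hz
    rcases lt_or_ge z 0 with h0 | h0
    · simp only [hU0, hU1, hU2, hU3]
      rw [glue_lt _ _ h0, glue_lt _ _ h0, glue_lt _ _ h0, glue_lt _ _ h0]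
      have h1 : 0 < (1 - c0) * (c0 - (1 - 2 * n)) := mul_pos (by linarith) (by linarith)
      simp only [mul_zero, add_zero, zero_sub]
      linarith
    · obtain ⟨p1, q1, y, e1, e2, e3, e4⟩ := hloc z h0 hz
      simp only [hU0, hU1, hU2, hU3, hW]
      rw [glue_ge _ _ h0, glue_ge _ _ h0, glue_ge _ _ h0, glue_ge _ _ h0, e3, e3, e3, e3, ← ha]
      exact (Pp_spec hQ hD e1 e2).1
  · simp only [hf]
    rw [pw_at]
    simp only [Function.iterate_zero, id, pow_zero, one_mul]
    apply div_nonpos_of_nonpos_of_nonneg _ hQr.le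
    exact_mod_cast hq0
  · simp only [hf]
    rw [pw_ge]
    · simp only [sub_self, mul_zero, add_zero]
      apply div_nonpos_of_nonpos_of_nonneg _ hQr.le
      exact_mod_cast hg
    · simp only [List.length_cons, hxn]
      push_cast
      rw [← hlen']
  · rw [hxn, ← hlen']
    have : (0 : ℝ) ≤ M.length := by positivity
    linarith
  · simp only [hf]
    rw [pw, glue_ge _ _ (by norm_num)]
    rw [zero_add, pw_at]
    simp only [Function.iterate_zero, id, pow_zero, one_mul]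
    apply div_pos _ hQr
    exact_mod_cast hq1
  · intro z h0 h1
    obtain ⟨p1, q1, y, e1, e2, e3, e4⟩ := hloc z h0 h1
    simp only [hU0, hW, hf]
    rw [glue_ge _ _ h0, e3, e4, e4, e4, ← hl]
    exact (Pp_spec hQ hD e1 e2).2.1

/-! ### lower side -/

/-- test of one piece, lower side -/
def Pm (Q nA nl D : ℤ) (p q : List ℤ) : Bool :=
  chk 1 (resA Q nA D p) && (chk 1 (psm (-1) (resP Q nl D p q)) &&
    (chk 3 (padd (psm 16 (pder p)) [-Q]) && (chk 3 (padd [Q] (psm (-4) (pder p))) &&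
      chk 3 q)))

lemma Pm_spec {Q nA nl D : ℤ} (hQ : 0 < Q) (hD : 0 < D) {p q : List ℤ}
    (h : Pm Q nA nl D p q = true) {y z : ℝ} (hz : |4 * (z - y) - 1| ≤ 1) :
    (0 < pf Q 3 p y z + pf Q 0 p y z * pf Q 2 p y z -
        (1 - pf Q 1 p y z) * (pf Q 1 p y z - (nA : ℝ) / D)) ∧
    (pf Q 2 q y z + pf Q 0 p y z * pf Q 1 q y z + (nl : ℝ) / D * pf Q 0 q y z < 0) ∧
    (1 / 4 < pf Q 1 p y z) ∧ (pf Q 1 p y z < 1) ∧ 0 < pf Q 0 q y z := by
  simp only [Pm, Bool.and_eq_true] at h
  obtain ⟨h1, h2, h3, h4, h5⟩ := h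
  have hQr : (0 : ℝ) < Q := by exact_mod_cast hQ
  have hDr : (0 : ℝ) < D := by exact_mod_cast hD
  have hK : (0 : ℝ) < (Q : ℝ) ^ 2 * D := by positivity
  have e1 := chk_pos _ _ h1 _ hz
  have e2 := chk_pos _ _ h2 _ hz
  have e3 := chk_pos _ _ h3 _ hz
  have e4 := chk_pos _ _ h4 _ hz
  have e5 := chk_pos _ _ h5 _ hz
  rw [ev_resA hQ hD] at e1
  rw [ev_psm, ev_resP hQ hD] at e2
  rw [ev_padd, ev_psm] at e3
  rw [ev_padd, ev_psm] at e4
  refine ⟨?_, ?_, ?_, ?_, ?_⟩
  · exact (mul_pos_iff_of_pos_left hK).1 e1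
  · by_contra hcon
    push Not at hcon
    have := mul_nonneg hK.le hcon
    push_cast at e2
    linarith
  · simp only [ev] at e3
    push_cast at e3
    unfold pf
    rw [lt_div_iff₀ hQr]
    simp only [Function.iterate_one, pow_one]
    linarith
  · simp only [ev] at e4
    push_cast at e4
    unfold pf
    rw [div_lt_iff₀ hQr]
    simp only [Function.iterate_one, pow_one]
    linarith
  · unfold pf
    simp only [Function.iterate_zero, id, pow_zero, one_mul]
    exact div_pos e5 hQr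

/-- exponentials with all their derivatives -/
noncomputable def ex (C k x : ℝ) (m : ℕ) (z : ℝ) : ℝ := C * k ^ m * Real.exp (k * (z - x))

lemma ex_deriv (C k x : ℝ) (m : ℕ) (z : ℝ) :
    HasDerivAt (ex C k x m) (ex C k x (m + 1) z) z := by
  unfold ex
  have h1 : HasDerivAt (fun z : ℝ => k * (z - x)) (k * 1) z :=
    ((hasDerivAt_id z).sub_const x).const_mul k
  have h2 := h1.exp.const_mul (C * k ^ m)
  refine h2.congr_deriv ?_
  rw [pow_succ]; ring

lemma ex_at (C k x : ℝ) (m : ℕ) : ex C k x m x = C * k ^ m := by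
  simp [ex]

set_option maxHeartbeats 2000000 in
theorem dataMinus_of {Q nA nl D N0 M1 AR A1 A2 g0 g gd KL : ℤ} {n : ℝ} {p q : List ℤ}
    {L M : List (List ℤ)}
    (hQ : 0 < Q) (hD : 0 < D) (hn : 0 < 2 * n) (hn1 : 2 * n < 3 / 4)
    (ha : (nA : ℝ) / D = 1 - 2 * n) (hl : (nl : ℝ) / D = 2 * n)
    (hlen : (p :: L).length = (q :: M).length)
    (hc3 : chain 3 (p :: L) = true) (hc2 : chain 2 (q :: M) = true)
    (hall : (List.zipWith (Pm Q nA nl D) (p :: L) (q :: M)).all id = true)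
    (hp0 : evz (-1) p = N0) (hp1 : evz (-1) (pder p) = M1) (hp2 : evz (-1) (pder (pder p)) = 0)
    (hM1 : 4 * M1 * D < nA * Q) (hM1' : Q < 16 * M1)
    (hr0 : evz 1 (lst p L) = AR) (hr1 : evz 1 (pder (lst p L)) = A1)
    (hr2 : evz 1 (pder (pder (lst p L))) = A2)
    -- right tail of the profile: `P = 1 - 4 A1 / Q`, `K = (16 A2 / Q) / P`
    (hA1 : 4 * A1 < Q) (hA1' : Q < 16 * A1) (hA2 : 0 < A2)
    (hres : ((16 * A2 / (Q - 4 * A1) : ℝ) ^ 2 + 1 <
      (16 * A2 / (Q - 4 * A1) : ℝ) * ((AR : ℝ) / Q)))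
    -- test function
    (hq0 : evz (-1) q = g0) (hq1 : 4 * evz (-1) (pder q) = KL * g0) (hg0 : 0 < g0)
    (hKL : 0 < KL) (hKLr : ((KL : ℝ) ^ 2 + KL * ((N0 : ℝ) / Q) + 1 < 0))
    (hh0 : evz 1 (lst q M) = g) (hh1 : evz 1 (pder (lst q M)) = gd) (hg : 0 < g) (hgd : gd < 0)
    (hKR : ((4 * gd / g : ℝ) ^ 2 + (4 * gd / g : ℝ) * ((AR : ℝ) / Q) + 2 * n < 0)) :
    ∃ S0 S1 S2 S3 f f1 f2 : ℝ → ℝ, DataMinus n S0 S1 S2 S3 f f1 f2 := by
  have hQr : (0 : ℝ) < Q := by exact_mod_cast hQ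
  have hDr : (0 : ℝ) < D := by exact_mod_cast hD
  set xn : ℝ := 0 + ((L.length : ℝ) + 1) / 2 with hxn
  set c0 : ℝ := 4 * M1 / Q with hc0
  set P : ℝ := 1 - 4 * A1 / Q with hP
  set K : ℝ := 16 * A2 / (Q - 4 * A1) with hK
  set B : ℝ := (AR : ℝ) / Q with hB
  have hQA : (0 : ℝ) < Q - 4 * A1 := by
    have : (4 * A1 : ℝ) < Q := by exact_mod_cast hA1
    linarith
  have hP0 : 0 < P := by
    have : P = (Q - 4 * A1) / Q := by rw [hP]; field_simp
    rw [this]; positivity
  have hP1 : P < 3 / 4 := by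
    have h1 : (Q : ℝ) < 16 * A1 := by exact_mod_cast hA1'
    have : 1 / 4 < 4 * (A1 : ℝ) / Q := by rw [lt_div_iff₀ hQr]; linarith
    rw [hP]; linarith
  have hA2r : (0 : ℝ) < A2 := by exact_mod_cast hA2
  have hK0 : 0 < K := by rw [hK]; positivity
  have hKP : K * P = 16 * A2 / Q := by
    rw [hK, hP]; field_simp
  have hB0 : 0 < B := by
    by_contra hcon
    push Not at hcon
    nlinarith [mul_nonneg hK0.le (neg_nonneg.2 hcon), sq_nonneg K]
  have hc0a : c0 < 1 - 2 * n := by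
    rw [← ha, hc0, div_lt_div_iff₀ hQr hDr]
    have : ((4 * M1 * D : ℤ) : ℝ) < ((nA * Q : ℤ) : ℝ) := by exact_mod_cast hM1
    push_cast at this
    linarith
  have hc04 : 1 / 4 < c0 := by
    rw [hc0, lt_div_iff₀ hQr]
    have : (Q : ℝ) < 16 * M1 := by exact_mod_cast hM1'
    linarith
  -- outer functions
  set T : ℕ → ℝ → ℝ := fun k =>
    match k with
    | 0 => fun z => (B - P / K) + 1 * (z - xn) + ex (P / K) (-K) xn 0 z
    | 1 => fun z => 1 + ex (P / K) (-K) xn 1 z
    | 2 => fun z => ex (P / K) (-K) xn 2 z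
    | _ => fun z => ex (P / K) (-K) xn 3 z with hT
  have hjT : Jet (T 0) (T 1) (T 2) (T 3) := by
    refine ⟨fun z => ?_, fun z => ?_, fun z => ?_⟩
    · exact ((affine_jet (B - P / K) 1 xn).d0 z).add (ex_deriv (P / K) (-K) xn 0 z)
    · exact (ex_deriv (P / K) (-K) xn 1 z).const_add 1
    · exact (ex_deriv (P / K) (-K) xn 2 z).hasDerivWithinAt
  set W : ℕ → ℝ → ℝ := fun k => pw Q k (T k) (p :: L) 0 with hW
  set S0 : ℝ → ℝ := glue 0 (fun z => (N0 : ℝ) / Q + c0 * (z - 0)) (W 0) with hS0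
  set S1 : ℝ → ℝ := glue 0 (fun _ => c0) (W 1) with hS1
  set S2 : ℝ → ℝ := glue 0 (fun _ => 0) (W 2) with hS2
  set S3 : ℝ → ℝ := glue 0 (fun _ => 0) (W 3) with hS3
  have hjW : Jet (W 0) (W 1) (W 2) (W 3) := by
    refine pw_jet (T0 := T 0) (T1 := T 1) (T2 := T 2) (T3 := T 3) hjT L p 0 hc3 ?_ ?_ ?_
    · simp only [Function.iterate_zero, id, pow_zero, one_mul, hr0, hT]
      rw [← hxn, ex_at, hB]; ring
    · simp only [Function.iterate_one, hT, hr1]
      rw [← hxn, ex_at, hP]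
      have : (P / K) * (-K) ^ 1 = -P := by field_simp
      rw [← hP, this, hP]; ring
    · have e2 : pder^[2] (lst p L) = pder (pder (lst p L)) := rfl
      simp only [hT]
      rw [e2, hr2, ← hxn, ex_at]
      have : (P / K) * (-K) ^ 2 = K * P := by field_simp
      rw [this, hKP]; ring
  have hjet : Jet S0 S1 S2 S3 := by
    refine glue_jet (affine_jet ((N0 : ℝ) / Q) c0 0) hjW ?_ ?_ ?_
    · simp only [hW]
      rw [pw_at]
      simp only [Function.iterate_zero, id, pow_zero, hp0]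
      ring
    · simp only [hW]
      rw [pw_at]
      simp only [Function.iterate_one, hp1, pow_one, hc0]
    · simp only [hW]
      rw [pw_at]
      have e2 : pder^[2] p = pder (pder p) := rfl
      rw [e2, hp2]
      simp
  have hloc : ∀ z, 0 ≤ z → z < xn → ∃ p1 q1 : List ℤ, ∃ y : ℝ,
      Pm Q nA nl D p1 q1 = true ∧ |4 * (z - y) - 1| ≤ 1 ∧
      (∀ (k : ℕ) (T : ℝ → ℝ), pw Q k T (p :: L) 0 z = pf Q k p1 y z) ∧
      (∀ (k : ℕ) (T : ℝ → ℝ), pw Q k T (q :: M) 0 z = pf Q k q1 y z) := by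
    intro z h1 h2
    refine pw_local Q (p :: L) (q :: M) 0 z hlen hall h1 ?_
    simpa [hxn] using h2
  have hge : ∀ z, xn ≤ z → ∀ k T, pw Q k T (p :: L) 0 z = T z := by
    intro z hz k T
    apply pw_ge
    simpa [hxn] using hz
  have hlen' : (M.length : ℝ) = L.length := by
    simp only [List.length_cons] at hlen
    have : M.length = L.length := by omega
    exact_mod_cast this
  have hge' : ∀ z, xn ≤ z → ∀ k T, pw Q k T (q :: M) 0 z = T z := by
    intro z hz k T
    apply pw_ge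
    simpa [hxn, hlen'] using hz
  have hxn0 : 0 < xn := by
    rw [hxn]; positivity
  have hexp : ∀ z, xn ≤ z → 0 < Real.exp (-K * (z - xn)) ∧ Real.exp (-K * (z - xn)) ≤ 1 := by
    intro z hz
    refine ⟨Real.exp_pos _, Real.exp_le_one_iff.2 ?_⟩
    nlinarith [mul_nonneg hK0.le (sub_nonneg.2 hz)]
  have hT1 : ∀ z, T 1 z = 1 - P * Real.exp (-K * (z - xn)) := by
    intro z
    simp only [hT, ex]
    have : P / K * (-K) ^ 1 = -P := by field_simp
    rw [this]; ring
  have hT2 : ∀ z, T 2 z = K * P * Real.exp (-K * (z - xn)) := by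
    intro z
    simp only [hT, ex]
    have : P / K * (-K) ^ 2 = K * P := by field_simp
    rw [this]
  have hT3 : ∀ z, T 3 z = -(K ^ 2 * P * Real.exp (-K * (z - xn))) := by
    intro z
    simp only [hT, ex]
    have : P / K * (-K) ^ 3 = -(K ^ 2 * P) := by field_simp
    rw [this]; ring
  have hT0 : ∀ z, xn ≤ z → B ≤ T 0 z ∧ z - xn + B - P / K ≤ T 0 z := by
    intro z hz
    have h2 : 0 ≤ z - xn := by linarith
    have h3 := (hexp z hz).1
    simp only [hT, ex, pow_zero, mul_one, one_mul]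
    constructor
    · -- 1 - exp(-K t) ≤ K t
      have h1 := Real.add_one_le_exp (-K * (z - xn))
      have h4 : P / K * (1 - Real.exp (-K * (z - xn))) ≤ P / K * (K * (z - xn)) := by
        apply mul_le_mul_of_nonneg_left _ (by positivity)
        linarith
      have h5 : P / K * (K * (z - xn)) = P * (z - xn) := by field_simp
      rw [h5] at h4
      nlinarith [mul_nonneg (by linarith : (0 : ℝ) ≤ 1 - P) h2]
    · have : 0 ≤ P / K * Real.exp (-K * (z - xn)) := by positivity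
      linarith
  have hlow : ∀ z, 1 / 4 ≤ S1 z := by
    intro z
    rcases lt_or_ge z 0 with h0 | h0
    · simp only [hS1]; rw [glue_lt _ _ h0]; exact hc04.le
    · rcases lt_or_ge z xn with h1 | h1
      · obtain ⟨p1, q1, y, e1, e2, e3, e4⟩ := hloc z h0 h1
        simp only [hS1, hW]
        rw [glue_ge _ _ h0, e3]
        exact (Pm_spec hQ hD e1 e2).2.2.1.le
      · simp only [hS1, hW]
        rw [glue_ge _ _ h0, hge z h1, hT1]
        have := hexp z h1
        nlinarith [mul_nonneg hP0.le (sub_nonneg.2 this.2)]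
  have hupp : ∀ z, S1 z < 1 := by
    intro z
    rcases lt_or_ge z 0 with h0 | h0
    · simp only [hS1]; rw [glue_lt _ _ h0]; linarith
    · rcases lt_or_ge z xn with h1 | h1
      · obtain ⟨p1, q1, y, e1, e2, e3, e4⟩ := hloc z h0 h1
        simp only [hS1, hW]
        rw [glue_ge _ _ h0, e3]
        exact (Pm_spec hQ hD e1 e2).2.2.2.1
      · simp only [hS1, hW]
        rw [glue_ge _ _ h0, hge z h1, hT1]
        have := mul_pos hP0 (hexp z h1).1
        linarith
  -- test function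
  have hgr : (0 : ℝ) < g := by exact_mod_cast hg
  have hg0r : (0 : ℝ) < g0 := by exact_mod_cast hg0
  have hgdr : (gd : ℝ) < 0 := by exact_mod_cast hgd
  have hKLr0 : (0 : ℝ) < KL := by exact_mod_cast hKL
  set k : ℝ := 4 * gd / g with hk
  have hk0 : k < 0 := by
    rw [hk]; exact div_neg_of_neg_of_pos (by linarith) hgr
  set Wf : ℕ → ℝ → ℝ := fun m => pw Q m (ex ((g : ℝ) / Q) k xn m) (q :: M) 0 with hWf
  set f : ℕ → ℝ → ℝ := fun m => glue 0 (ex ((g0 : ℝ) / Q) KL 0 m) (Wf m) with hf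
  have hjWf : Jet1 (Wf 0) (Wf 1) (Wf 2) := by
    refine pw_jet1 (T0 := ex ((g : ℝ) / Q) k xn 0) (T1 := ex ((g : ℝ) / Q) k xn 1)
      (T2 := ex ((g : ℝ) / Q) k xn 2)
      ⟨ex_deriv _ _ _ 0, fun z => (ex_deriv _ _ _ 1 z).hasDerivWithinAt⟩ M q 0 hc2 ?_ ?_
    · rw [hlen', ← hxn, ex_at]
      simp only [Function.iterate_zero, id, pow_zero, one_mul, mul_one, hh0]
    · rw [hlen', ← hxn, ex_at]
      simp only [Function.iterate_one, pow_one, hh1, hk]
      field_simp
  have hjf : Jet1 (f 0) (f 1) (f 2) := by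
    refine glue_jet1 ⟨ex_deriv _ _ _ 0, fun z => (ex_deriv _ _ _ 1 z).hasDerivWithinAt⟩ hjWf ?_ ?_
    · simp only [hWf]
      rw [pw_at, ex_at]
      simp only [Function.iterate_zero, id, pow_zero, one_mul, mul_one, hq0]
    · simp only [hWf]
      rw [pw_at, ex_at]
      simp only [Function.iterate_one, pow_one]
      have : ((4 * evz (-1) (pder q) : ℤ) : ℝ) = ((KL * g0 : ℤ) : ℝ) := by exact_mod_cast hq1
      push_cast at this
      rw [this]; ring
  have hfcont : Continuous (f 0) :=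
    continuous_iff_continuousAt.2 fun z => (hjf.d0 z).continuousAt
  have hfpos : ∀ z, 0 < f 0 z := by
    intro z
    rcases lt_or_ge z 0 with h0 | h0
    · simp only [hf]; rw [glue_lt _ _ h0]; unfold ex; positivity
    · rcases lt_or_ge z xn with h1 | h1
      · obtain ⟨p1, q1, y, e1, e2, e3, e4⟩ := hloc z h0 h1
        simp only [hf, hWf]
        rw [glue_ge _ _ h0, e4]
        exact (Pm_spec hQ hD e1 e2).2.2.2.2
      · simp only [hf, hWf]
        rw [glue_ge _ _ h0, hge' z h1]; unfold ex; positivity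
  obtain ⟨μx, -, hμ⟩ := isCompact_Icc.exists_isMinOn
    (⟨0, le_refl _, hxn0.le⟩ : (Icc (0 : ℝ) xn).Nonempty) hfcont.continuousOn
  have hμpos := hfpos μx
  obtain ⟨mn, hmn0, hmn1, hmn2, hmn3⟩ : ∃ mn : ℝ, 0 < mn ∧ mn ≤ f 0 μx ∧
      mn ≤ (g0 : ℝ) / Q ∧ mn ≤ (g : ℝ) / Q :=
    ⟨min (f 0 μx) (min ((g0 : ℝ) / Q) ((g : ℝ) / Q)),
      lt_min hμpos (lt_min (by positivity) (by positivity)), min_le_left _ _,
      (min_le_right _ _).trans (min_le_left _ _), (min_le_right _ _).trans (min_le_right _ _)⟩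
  refine ⟨S0, S1, S2, S3, f 0, f 1, f 2, hjet, surj_of_ge (by norm_num : (0 : ℝ) < 1 / 4)
    hjet.d0 hlow, fun z => lt_of_lt_of_le (by norm_num) (hlow z), ⟨c0, -1, hc0a, ?_⟩, hupp,
    ⟨xn, P * Real.exp (K * xn), K, xn - B + P / K, by positivity, ?_⟩, ?_, hjf.d0, hjf.d1,
    ⟨mn, max (KL : ℝ) (-k), hmn0, ?_, ?_⟩, ?_⟩
  · intro z hz
    have h0 : z < 0 := by linarith
    simp only [hS1]; rw [glue_lt _ _ h0]
  · intro z hz
    have h0 : 0 ≤ z := hxn0.le.trans hz
    constructor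
    · simp only [hS1, hW]
      rw [glue_ge _ _ h0, hge z hz, hT1, mul_assoc, ← Real.exp_add]
      have : K * xn + -(K * z) = -K * (z - xn) := by ring
      rw [this]; linarith
    · simp only [hS0, hW]
      rw [glue_ge _ _ h0, hge z hz]
      have := (hT0 z hz).2
      linarith
  · intro z
    rcases lt_or_ge z 0 with h0 | h0
    · simp only [hS0, hS1, hS2, hS3]
      rw [glue_lt _ _ h0, glue_lt _ _ h0, glue_lt _ _ h0, glue_lt _ _ h0]
      have h1 : (1 - c0) * (c0 - (1 - 2 * n)) < 0 :=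
        mul_neg_of_pos_of_neg (by linarith) (by linarith)
      simp only [mul_zero, add_zero, zero_sub]
      linarith
    · rcases lt_or_ge z xn with h1 | h1
      · obtain ⟨p1, q1, y, e1, e2, e3, e4⟩ := hloc z h0 h1
        simp only [hS0, hS1, hS2, hS3, hW]
        rw [glue_ge _ _ h0, glue_ge _ _ h0, glue_ge _ _ h0, glue_ge _ _ h0, e3, e3, e3, e3, ← ha]
        exact (Pm_spec hQ hD e1 e2).1
      · simp only [hS0, hS1, hS2, hS3, hW]
        rw [glue_ge _ _ h0, glue_ge _ _ h0, glue_ge _ _ h0, glue_ge _ _ h0, hge z h1, hge z h1,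
          hge z h1, hge z h1, hT1, hT2, hT3]
        have h2 := (hT0 z h1).1
        have h3 := hexp z h1
        set E := Real.exp (-K * (z - xn)) with hE
        have h4 : -(K ^ 2 * P * E) + T 0 z * (K * P * E) -
            (1 - (1 - P * E)) * (1 - P * E - (1 - 2 * n)) =
            P * E * (K * T 0 z - K ^ 2 - 2 * n + P * E) := by ring
        rw [h4]
        apply mul_pos (mul_pos hP0 h3.1)
        have h5 : K * B ≤ K * T 0 z := mul_le_mul_of_nonneg_left h2 hK0.le
        have h6 := mul_pos hP0 h3.1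
        linarith
  · exact le_max_of_le_left hKLr0.le
  · intro z
    have hm0 : 0 ≤ max (KL : ℝ) (-k) := le_max_of_le_left hKLr0.le
    rcases lt_or_ge z 0 with h0 | h0
    · simp only [hf]; rw [glue_lt _ _ h0]
      unfold ex
      rw [pow_zero, mul_one, sub_zero, abs_of_neg h0]
      apply mul_le_mul hmn2 _ (Real.exp_pos _).le (by positivity)
      apply Real.exp_le_exp.2
      have : (KL : ℝ) * (-z) ≤ max (KL : ℝ) (-k) * (-z) :=
        mul_le_mul_of_nonneg_right (le_max_left _ _) (by linarith)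
      linarith
    · rcases lt_or_ge z xn with h1 | h1
      · have h2 : f 0 μx ≤ f 0 z := hμ ⟨h0, h1.le⟩
        refine le_trans ?_ h2
        calc _ ≤ f 0 μx * 1 := by
              apply mul_le_mul hmn1 _ (Real.exp_pos _).le hμpos.le
              apply Real.exp_le_one_iff.2
              have := mul_nonneg hm0 (abs_nonneg z)
              linarith
          _ = _ := mul_one _
      · simp only [hf, hWf]
        rw [glue_ge _ _ h0, hge' z h1]
        unfold ex
        rw [pow_zero, mul_one, abs_of_nonneg h0]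
        apply mul_le_mul hmn3 _ (Real.exp_pos _).le (by positivity)
        apply Real.exp_le_exp.2
        have e1 : -k * z ≤ max (KL : ℝ) (-k) * z :=
          mul_le_mul_of_nonneg_right (le_max_right _ _) h0
        have e2 : 0 ≤ -k * xn := mul_nonneg (by linarith) hxn0.le
        nlinarith
  · intro z
    rcases lt_or_ge z 0 with h0 | h0
    · simp only [hS0, hf]
      rw [glue_lt _ _ h0, glue_lt _ _ h0, glue_lt _ _ h0, glue_lt _ _ h0]
      unfold ex
      have h1 : (g0 : ℝ) / Q * KL ^ 2 * Real.exp (KL * (z - 0)) +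
          ((N0 : ℝ) / Q + c0 * (z - 0)) * ((g0 : ℝ) / Q * KL ^ 1 * Real.exp (KL * (z - 0))) +
          2 * n * ((g0 : ℝ) / Q * KL ^ 0 * Real.exp (KL * (z - 0))) =
          ((g0 : ℝ) / Q * Real.exp (KL * (z - 0))) *
            (KL ^ 2 + KL * ((N0 : ℝ) / Q) + KL * (c0 * z) + 2 * n) := by ring
      rw [h1]
      apply mul_neg_of_pos_of_neg (by positivity)
      have h2 : KL * (c0 * z) ≤ 0 :=
        mul_nonpos_of_nonneg_of_nonpos hKLr0.le
          (mul_nonpos_of_nonneg_of_nonpos (by linarith) h0.le)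
      linarith
    · rcases lt_or_ge z xn with h1 | h1
      · obtain ⟨p1, q1, y, e1, e2, e3, e4⟩ := hloc z h0 h1
        simp only [hS0, hW, hf, hWf]
        rw [glue_ge _ _ h0, glue_ge _ _ h0, glue_ge _ _ h0, glue_ge _ _ h0, e3, e4, e4, e4, ← hl]
        exact (Pm_spec hQ hD e1 e2).2.1
      · simp only [hS0, hW, hf, hWf]
        rw [glue_ge _ _ h0, glue_ge _ _ h0, glue_ge _ _ h0, glue_ge _ _ h0, hge z h1, hge' z h1,
          hge' z h1, hge' z h1]
        have h2 := (hT0 z h1).1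
        unfold ex
        have h3 : (g : ℝ) / Q * k ^ 2 * Real.exp (k * (z - xn)) +
            T 0 z * ((g : ℝ) / Q * k ^ 1 * Real.exp (k * (z - xn))) +
            2 * n * ((g : ℝ) / Q * k ^ 0 * Real.exp (k * (z - xn))) =
            ((g : ℝ) / Q * Real.exp (k * (z - xn))) * (k ^ 2 + k * T 0 z + 2 * n) := by ring
        rw [h3]
        apply mul_neg_of_pos_of_neg (by positivity)
        have h4 : k * T 0 z ≤ k * B := mul_le_mul_of_nonpos_left h2 hk0.le
        linarith

end Crest.Agent.R146.Mk_109
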