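import Mathlib
import Crest.Agent.R146.Mk_109

/-!
Stronger versions of the constructors of `Mk_109`: quantitative residuals, unimodality and bounds of
the test functions (row 146, end game of the attractor lemma).
-/

set_option autoImplicit false

namespace Crest.Agent.R146.Mk2_109

open Filter Topology Set
open Crest.Agent.R146.Slide_109 Crest.Agent.R146.Prof_109 Crest.Agent.R146.Trans_109
open Crest.Agent.R146.Encl_109 Crest.Agent.R146.Pc_109 Crest.Agent.R146.Mk_109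

/-- sign pattern of a continuous function with negative right derivative at its zeros -/
lemma mode_of {f1 f2 : ℝ → ℝ} {α β : ℝ} (hc : Continuous f1)
    (hd : ∀ z, HasDerivWithinAt f1 (f2 z) (Ici z) z) (hαβ : α < β)
    (h0 : ∀ z, α ≤ z → z < β → f1 z = 0 → f2 z < 0) (hα : 0 < f1 α) (hβ : f1 β ≤ 0) :
    ∃ z0, α ≤ z0 ∧ z0 ≤ β ∧ (∀ z, α ≤ z → z ≤ z0 → 0 ≤ f1 z) ∧
      (∀ z, z0 ≤ z → z ≤ β → f1 z ≤ 0) := by
  set A : Set ℝ := Icc α β ∩ {z | f1 z ≤ 0} with hA
  have hAc : IsClosed A := isClosed_Icc.inter (isClosed_le hc continuous_const)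
  have hAne : A.Nonempty := ⟨β, ⟨hαβ.le, le_rfl⟩, hβ⟩
  have hAb : BddBelow A := ⟨α, fun z hz => hz.1.1⟩
  have hmem : sInf A ∈ A := hAc.csInf_mem hAne hAb
  refine ⟨sInf A, hmem.1.1, hmem.1.2, fun z h1 h2 => ?_, fun z h1 h2 => ?_⟩
  · rcases eq_or_lt_of_le h2 with h | h
    · -- z = inf: limit of positive values
      subst h
      rcases eq_or_lt_of_le hmem.1.1 with h3 | h3
      · rw [← h3]; exact hα.le
      · by_contra hcon
        push Not at hcon
        have hev : ∀ᶠ w in 𝓝[<] (sInf A), f1 w < 0 :=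
          (hc.continuousAt.eventually (gt_mem_nhds hcon)).filter_mono nhdsWithin_le_nhds
        have hev2 : ∀ᶠ w in 𝓝[<] (sInf A), α < w :=
          (lt_mem_nhds h3).filter_mono nhdsWithin_le_nhds
        obtain ⟨w, ⟨hw1, hw2⟩, hw3⟩ := ((hev.and hev2).and self_mem_nhdsWithin).exists
        have hw3' : w < sInf A := hw3
        have hwA : w ∈ A := ⟨⟨hw2.le, hw3'.le.trans hmem.1.2⟩, hw1.le⟩
        exact absurd (csInf_le hAb hwA) (not_le.2 hw3')
    · by_contra hcon
      push Not at hcon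
      have hzA : z ∈ A := ⟨⟨h1, h.le.trans hmem.1.2⟩, hcon.le⟩
      exact absurd (csInf_le hAb hzA) (not_le.2 h)
  · by_contra hcon
    push Not at hcon
    set B : Set ℝ := Icc (sInf A) z ∩ {w | f1 w ≤ 0} with hB
    have hBc : IsClosed B := isClosed_Icc.inter (isClosed_le hc continuous_const)
    have hBne : B.Nonempty := ⟨sInf A, ⟨le_rfl, h1⟩, hmem.2⟩
    have hBb : BddAbove B := ⟨z, fun w hw => hw.1.2⟩
    have hBm : sSup B ∈ B := hBc.csSup_mem hBne hBb
    set x := sSup B with hx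
    have hxz : x < z := by
      rcases eq_or_lt_of_le hBm.1.2 with h | h
      · have h3 : f1 x ≤ 0 := hBm.2
        rw [h] at h3; linarith
      · exact h
    have hright : ∀ w, x < w → w ≤ z → 0 < f1 w := by
      intro w hw1 hw2
      by_contra hc2
      push Not at hc2
      have : w ∈ B := ⟨⟨hBm.1.1.trans hw1.le, hw2⟩, hc2⟩
      exact absurd (le_csSup hBb this) (not_le.2 hw1)
    have hx0 : f1 x = 0 := by
      apply le_antisymm hBm.2
      by_contra hc2
      push Not at hc2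
      have hev : ∀ᶠ w in 𝓝[>] x, f1 w < 0 :=
        (hc.continuousAt.eventually (gt_mem_nhds hc2)).filter_mono nhdsWithin_le_nhds
      have hev2 : ∀ᶠ w in 𝓝[>] x, w < z := (gt_mem_nhds hxz).filter_mono nhdsWithin_le_nhds
      obtain ⟨w, ⟨hw1, hw2⟩, hw3⟩ := ((hev.and hev2).and self_mem_nhdsWithin).exists
      have := hright w hw3 hw2.le
      linarith
    have hf2 := h0 x (hmem.1.1.trans hBm.1.1) (hxz.trans_le h2) hx0
    obtain ⟨ε, hε, hpos⟩ := pos_right (E := fun w => -f1 w) (by simp [hx0])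
      ((hd x).neg) (neg_pos.2 hf2)
    have h5 : x < min z (x + ε / 2) := lt_min hxz (by linarith)
    have h6 := hright _ h5 (min_le_left _ _)
    have h7 := hpos _ h5 (lt_of_le_of_lt (min_le_right _ _) (by linarith))
    linarith

/-- two-sided second derivative off a finite set -/
def Fin2 (f1 f2 : ℝ → ℝ) : Prop :=
  ∃ S : Finset ℝ, ∀ z, z ∉ S → HasDerivAt f1 (f2 z) z ∧ ContinuousAt f2 z

lemma fin2_of {f1 f2 : ℝ → ℝ} (h : ∀ z, HasDerivAt f1 (f2 z) z) (hc : Continuous f2) :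
    Fin2 f1 f2 := ⟨∅, fun z _ => ⟨h z, hc.continuousAt⟩⟩

lemma glue_fin2 {c : ℝ} {f1 f2 g1 g2 : ℝ → ℝ} (hf : Fin2 f1 f2) (hg : Fin2 g1 g2) :
    Fin2 (glue c f1 g1) (glue c f2 g2) := by
  classical
  obtain ⟨S, hS⟩ := hf
  obtain ⟨S', hS'⟩ := hg
  refine ⟨insert c (S ∪ S'), fun z hz => ?_⟩
  simp only [Finset.mem_insert, Finset.mem_union, not_or] at hz
  obtain ⟨hzc, hzS, hzS'⟩ := hz
  rcases lt_or_gt_of_ne hzc with h | h
  · rw [glue_lt _ _ h]
    exact ⟨(hS z hzS).1.congr_of_eventuallyEq (glue_ev_lt f1 g1 h),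
      (hS z hzS).2.congr (glue_ev_lt f2 g2 h).symm⟩
  · rw [glue_ge _ _ (le_of_lt h)]
    exact ⟨(hS' z hzS').1.congr_of_eventuallyEq (glue_ev_gt f1 g1 h),
      (hS' z hzS').2.congr (glue_ev_gt f2 g2 h).symm⟩

lemma pf_cont (Q : ℤ) (k : ℕ) (p : List ℤ) (x : ℝ) : Continuous (pf Q k p x) :=
  continuous_iff_continuousAt.2 fun z => (pf_deriv Q k p x z).continuousAt

lemma pw_fin2 {Q : ℤ} {T1 T2 : ℝ → ℝ} (hT : Fin2 T1 T2) :
    ∀ (L : List (List ℤ)) (x : ℝ), Fin2 (pw Q 1 T1 L x) (pw Q 2 T2 L x) := by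
  intro L
  induction L with
  | nil => intro x; exact hT
  | cons p L ih =>
    intro x
    exact glue_fin2 (fin2_of (pf_deriv Q 1 p x) (pf_cont Q 2 p x)) (ih (x + 1 / 2))

lemma pw_bdd (Q : ℤ) (k : ℕ) (T : ℝ → ℝ) :
    ∀ (L : List (List ℤ)) (x : ℝ), ∃ C : ℝ, 0 ≤ C ∧
      ∀ z, x ≤ z → z < x + (L.length : ℝ) / 2 → |pw Q k T L x z| ≤ C := by
  intro L
  induction L with
  | nil =>
    intro x
    refine ⟨0, le_rfl, fun z h1 h2 => ?_⟩
    simp at h2
    linarith
  | cons p L ih =>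
    intro x
    obtain ⟨C, hC0, hC⟩ := ih (x + 1 / 2)
    refine ⟨C + |4 ^ k / (Q : ℝ)| * sab (pder^[k] p), ?_, fun z h1 h2 => ?_⟩
    · have h3 := abs_ev_le (pder^[k] p) (x := 0) (by simp)
      have h4 : (0 : ℝ) ≤ sab (pder^[k] p) := (abs_nonneg _).trans h3
      positivity
    · have h3' : (0 : ℝ) ≤ sab (pder^[k] p) :=
        (abs_nonneg _).trans (abs_ev_le (pder^[k] p) (x := 0) (by simp))
      rcases lt_or_ge z (x + 1 / 2) with hz | hz
      · rw [pw, glue_lt _ _ hz]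
        have h3 : |4 * (z - x) - 1| ≤ 1 := by rw [abs_le]; constructor <;> linarith
        have h4 := abs_ev_le (pder^[k] p) h3
        unfold pf
        have h5 : 4 ^ k * ev (pder^[k] p) (4 * (z - x) - 1) / (Q : ℝ) =
            (4 ^ k / (Q : ℝ)) * ev (pder^[k] p) (4 * (z - x) - 1) := by ring
        rw [h5, abs_mul]
        have h6 := mul_le_mul_of_nonneg_left h4 (abs_nonneg (4 ^ k / (Q : ℝ)))
        linarith
      · have hx : x + (((p :: L).length : ℕ) : ℝ) / 2 = (x + 1 / 2) + (L.length : ℝ) / 2 := by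
          simp only [List.length_cons]; push_cast; ring
        rw [hx] at h2
        rw [pw, glue_ge _ _ hz]
        have := hC z hz h2
        have h6 : 0 ≤ |4 ^ k / (Q : ℝ)| * sab (pder^[k] p) := by positivity
        linarith

lemma glue_cont {c : ℝ} {f g : ℝ → ℝ} (hf : Continuous f) (hg : Continuous g)
    (h : f c = g c) : Continuous (glue c f g) := by
  unfold glue
  refine Continuous.if ?_ hf hg
  intro a ha
  have hac : a = c := by
    have : frontier {x : ℝ | x < c} = {c} := frontier_Iio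
    rw [this] at ha
    exact ha
  rw [hac, h]

lemma pw_cont {Q : ℤ} {m k : ℕ} (hk : k < m) {T : ℝ → ℝ} (hT : Continuous T) :
    ∀ (L : List (List ℤ)) (p : List ℤ) (x : ℝ), chain m (p :: L) = true →
    (4 ^ k * (evz 1 (pder^[k] (lst p L)) : ℝ) / Q = T (x + (L.length + 1) / 2)) →
    Continuous (pw Q k T (p :: L) x) := by
  intro L
  induction L with
  | nil =>
    intro p x _ h0
    simp only [List.length_nil, Nat.cast_zero, zero_add, lst] at h0
    refine glue_cont (pf_cont Q k p x) hT ?_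
    rw [pf_right]; exact h0
  | cons q L ih =>
    intro p x hc h0
    simp only [chain, Bool.and_eq_true] at hc
    have hx : x + (((q :: L).length : ℝ) + 1) / 2 = (x + 1 / 2) + ((L.length : ℝ) + 1) / 2 := by
      simp only [List.length_cons]; push_cast; ring
    rw [hx] at h0
    refine glue_cont (pf_cont Q k p x) (ih q (x + 1 / 2) hc.2 h0) ?_
    rw [pf_right, pw_at, mtch_spec hc.1 hk]

/-- test of one piece, upper side, with margin and unimodality -/
def Pp2 (Q nA nl D e e2 : ℤ) (p q : List ℤ) : Bool :=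
  Pp Q nA nl D e p q && (chk 1 (padd (resP Q nl D p q) [-e2]) &&
    (chk 2 (pder q) || chk 2 (psm (-1) (pder q)) ||
      chk 2 (psm (-1) (padd (psm (16 * Q) (pder^[2] q)) (psm 4 (pmul p (pder^[1] q)))))))

lemma Pp2_Pp {Q nA nl D e e2 : ℤ} {p q : List ℤ} (h : Pp2 Q nA nl D e e2 p q = true) :
    Pp Q nA nl D e p q = true := by
  simp only [Pp2, Bool.and_eq_true] at h
  exact h.1

lemma Pp2_spec {Q nA nl D e e2 : ℤ} (hQ : 0 < Q) (hD : 0 < D) {p q : List ℤ}
    (h : Pp2 Q nA nl D e e2 p q = true) {y z : ℝ} (hz : |4 * (z - y) - 1| ≤ 1) :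
    ((e2 : ℝ) / ((Q : ℝ) ^ 2 * D) ≤
      pf Q 2 q y z + pf Q 0 p y z * pf Q 1 q y z + (nl : ℝ) / D * pf Q 0 q y z) ∧
    (pf Q 1 q y z = 0 → pf Q 2 q y z < 0) := by
  simp only [Pp2, Bool.and_eq_true, Bool.or_eq_true] at h
  obtain ⟨-, h2, h3⟩ := h
  have hQr : (0 : ℝ) < Q := by exact_mod_cast hQ
  have hDr : (0 : ℝ) < D := by exact_mod_cast hD
  have hK : (0 : ℝ) < (Q : ℝ) ^ 2 * D := by positivity
  have e2' := chk_pos _ _ h2 _ hz
  rw [ev_padd, ev_resP hQ hD] at e2'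
  simp only [ev] at e2'
  push_cast at e2'
  refine ⟨?_, fun h0 => ?_⟩
  · rw [div_le_iff₀ hK]
    linarith
  · have h0' : ev (pder q) (4 * (z - y) - 1) = 0 := by
      unfold pf at h0
      rw [div_eq_zero_iff] at h0
      rcases h0 with h0 | h0
      · simpa using h0
      · exact absurd h0 hQr.ne'
    rcases h3 with (h3 | h3) | h3
    · have := chk_pos _ _ h3 _ hz
      linarith
    · have := chk_pos _ _ h3 _ hz
      rw [ev_psm, h0'] at this
      simp at this
    · have h4 := chk_pos _ _ h3 _ hz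
      rw [ev_psm, ev_padd, ev_psm, ev_psm, ev_pmul] at h4
      simp only [Function.iterate_one] at h4
      rw [h0'] at h4
      push_cast at h4
      unfold pf
      have h5 : ev (pder^[2] q) (4 * (z - y) - 1) < 0 := by
        by_contra hcon
        push Not at hcon
        have := mul_nonneg hQr.le hcon
        linarith
      have h6 : 4 ^ 2 * ev (pder^[2] q) (4 * (z - y) - 1) < 0 := by linarith
      exact div_neg_of_neg_of_pos h6 hQr

set_option maxHeartbeats 1000000 in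
theorem dataPlus2_of {Q nA nl D e e2 N0 M1 NR g gd : ℤ} {n : ℝ} {p q q' : List ℤ}
    {L M : List (List ℤ)}
    (hQ : 0 < Q) (hD : 0 < D) (he : 0 < e) (hnA : 0 < nA)
    (ha : (nA : ℝ) / D = 1 - 2 * n) (hl : (nl : ℝ) / D = 2 * n)
    (hlen : (p :: L).length = (q :: q' :: M).length)
    (hc3 : chain 3 (p :: L) = true) (hc2 : chain 2 (q :: q' :: M) = true)
    (hall : (List.zipWith (Pp2 Q nA nl D e e2) (p :: L) (q :: q' :: M)).all id = true)
    (hp0 : evz (-1) p = N0) (hp1 : evz (-1) (pder p) = M1) (hp2 : evz (-1) (pder (pder p)) = 0)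
    (hM1 : nA * Q + e ≤ 4 * M1 * D) (hM1' : 4 * M1 < Q)
    (hr0 : evz 1 (lst p L) = NR) (hr1 : 4 * evz 1 (pder (lst p L)) = Q)
    (hr2 : evz 1 (pder (pder (lst p L))) = 0)
    (hQc : nA * Q + e ≤ D * Q)
    (hq0 : evz (-1) q ≤ 0) (hq1 : 0 < evz (-1) q')
    (hg0 : evz 1 (lst q (q' :: M)) = g) (hg1 : evz 1 (pder (lst q (q' :: M))) = gd) (hg : g ≤ 0)
    (he2 : 0 < e2) (hq0d : 0 < evz (-1) (pder q)) (hgd : gd ≤ 0) :
    ∃ U0 U1 U2 U3 f f1 f2 : ℝ → ℝ, DataPlus n U0 U1 U2 U3 f f1 f2 ∧ Fin2 f1 f2 ∧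
      ∃ d α β : ℝ, 0 < d ∧ α < β ∧ f α ≤ 0 ∧ f β ≤ 0 ∧ (∃ z, α ≤ z ∧ z ≤ β ∧ 0 < f z) ∧
        (∀ z, α ≤ z → z < β → d ≤ f2 z + U0 z * f1 z + 2 * n * f z) ∧
        (∃ z0, α ≤ z0 ∧ z0 ≤ β ∧ (∀ z, α ≤ z → z ≤ z0 → 0 ≤ f1 z) ∧
          (∀ z, z0 ≤ z → z ≤ β → f1 z ≤ 0)) ∧
        (∃ C, ∀ z, α ≤ z → z < β → |f2 z| ≤ C) ∧ Continuous f1 := by
  have hQr : (0 : ℝ) < Q := by exact_mod_cast hQ
  have hDr : (0 : ℝ) < D := by exact_mod_cast hD
  have her : (0 : ℝ) < e := by exact_mod_cast he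
  set xn : ℝ := 0 + ((L.length : ℝ) + 1) / 2 with hxn
  set c0 : ℝ := 4 * M1 / Q with hc0
  set cc : ℝ := (nA * Q + e : ℝ) / (D * Q) with hcc
  have hc0' : cc ≤ c0 := by
    rw [hcc, hc0, div_le_div_iff₀ (by positivity) hQr]
    have : ((nA * Q + e : ℤ) : ℝ) ≤ ((4 * M1 * D : ℤ) : ℝ) := by exact_mod_cast hM1
    push_cast at this
    nlinarith
  have hc01 : c0 < 1 := by
    rw [hc0, div_lt_one hQr]
    exact_mod_cast hM1'
  have hcc1 : cc ≤ 1 := by
    rw [hcc, div_le_one (by positivity)]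
    exact_mod_cast hQc
  have hcca : 1 - 2 * n < cc := by
    rw [← ha, hcc, div_lt_div_iff₀ hDr (by positivity)]
    nlinarith [mul_pos her hDr]
  have hcc0 : 0 < cc := by
    have : (0 : ℝ) < nA := by exact_mod_cast hnA
    rw [hcc]; positivity
  -- the functions
  set W : ℕ → ℝ → ℝ := fun k => pw Q k (Tp (NR / Q) xn k) (p :: L) 0 with hW
  set U0 : ℝ → ℝ := glue 0 (fun z => (N0 : ℝ) / Q + c0 * (z - 0)) (W 0) with hU0
  set U1 : ℝ → ℝ := glue 0 (fun _ => c0) (W 1) with hU1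
  set U2 : ℝ → ℝ := glue 0 (fun _ => 0) (W 2) with hU2
  set U3 : ℝ → ℝ := glue 0 (fun _ => 0) (W 3) with hU3
  have hjW : Jet (W 0) (W 1) (W 2) (W 3) := by
    refine pw_jet (T0 := Tp (NR / Q) xn 0) (T1 := Tp (NR / Q) xn 1) (T2 := Tp (NR / Q) xn 2)
      (T3 := Tp (NR / Q) xn 3) (affine_jet (NR / Q) 1 xn) L p 0 hc3 ?_ ?_ ?_
    · simp only [Function.iterate_zero, id, pow_zero, one_mul, hr0, Tp]
      rw [← hxn]; ring
    · simp only [Function.iterate_one, Tp]
      have : ((4 * evz 1 (pder (lst p L)) : ℤ) : ℝ) = Q := by exact_mod_cast hr1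
      push_cast at this
      rw [pow_one, this, div_self hQr.ne']
    · have e2 : pder^[2] (lst p L) = pder (pder (lst p L)) := rfl
      simp only [Tp]
      rw [e2, hr2]
      simp
  have hjet : Jet U0 U1 U2 U3 := by
    refine glue_jet (affine_jet ((N0 : ℝ) / Q) c0 0) hjW ?_ ?_ ?_
    · simp only [hW]
      rw [pw_at]
      simp only [Function.iterate_zero, id, pow_zero, hp0]
      ring
    · simp only [hW]
      rw [pw_at]
      simp only [Function.iterate_one, hp1, pow_one, hc0]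
    · simp only [hW]
      rw [pw_at]
      have e2 : pder^[2] p = pder (pder p) := rfl
      rw [e2, hp2]
      simp
  -- local description
  have hloc : ∀ z, 0 ≤ z → z < xn → ∃ p1 q1 : List ℤ, ∃ y : ℝ,
      Pp2 Q nA nl D e e2 p1 q1 = true ∧ |4 * (z - y) - 1| ≤ 1 ∧
      (∀ (k : ℕ) (T : ℝ → ℝ), pw Q k T (p :: L) 0 z = pf Q k p1 y z) ∧
      (∀ (k : ℕ) (T : ℝ → ℝ), pw Q k T (q :: q' :: M) 0 z = pf Q k q1 y z) := by
    intro z h1 h2
    refine pw_local Q (p :: L) (q :: q' :: M) 0 z hlen hall h1 ?_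
    simpa [hxn] using h2
  have hge : ∀ z, xn ≤ z → ∀ k T, pw Q k T (p :: L) 0 z = T z := by
    intro z hz k T
    apply pw_ge
    simpa [hxn] using hz
  have hxn0 : 0 < xn := by
    rw [hxn]; positivity
  have hlow : ∀ z, cc ≤ U1 z := by
    intro z
    rcases lt_or_ge z 0 with h0 | h0
    · simp only [hU1]; rw [glue_lt _ _ h0]; exact hc0'
    · rcases lt_or_ge z xn with h1 | h1
      · obtain ⟨p1, q1, y, e1, e2', e3, e4⟩ := hloc z h0 h1
        simp only [hU1, hW]
        rw [glue_ge _ _ h0, e3]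
        exact (Pp_spec hQ hD (Pp2_Pp e1) e2').2.2
      · simp only [hU1, hW]
        rw [glue_ge _ _ h0, hge z h1]
        exact hcc1
  set f : ℕ → ℝ → ℝ := fun k => pw Q k
    (match k with
      | 0 => fun z => (g : ℝ) / Q + (4 * gd / Q) * (z - xn)
      | 1 => fun _ => (4 * gd / Q : ℝ)
      | _ => fun _ => 0) (q :: q' :: M) 0 with hf
  have hlen' : (M.length : ℝ) + 1 = L.length := by
    simp only [List.length_cons] at hlen
    have : M.length + 1 = L.length := by omega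
    exact_mod_cast this
  have hjf : Jet1 (f 0) (f 1) (f 2) := by
    refine pw_jet1 (affine_jet1 ((g : ℝ) / Q) (4 * gd / Q) xn) (q' :: M) q 0 hc2 ?_ ?_
    · simp only [Function.iterate_zero, id, pow_zero, one_mul, hg0]
      have : (0 : ℝ) + (((q' :: M).length : ℝ) + 1) / 2 = xn := by
        rw [hxn]; simp only [List.length_cons]; push_cast; rw [hlen']
      rw [this]; ring
    · simp only [Function.iterate_one, hg1, pow_one]
  have hf0 : f 0 0 ≤ 0 := by
    simp only [hf]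
    rw [pw_at]
    simp only [Function.iterate_zero, id, pow_zero, one_mul]
    apply div_nonpos_of_nonpos_of_nonneg _ hQr.le
    exact_mod_cast hq0
  have hfn : f 0 xn ≤ 0 := by
    simp only [hf]
    rw [pw_ge]
    · simp only [sub_self, mul_zero, add_zero]
      apply div_nonpos_of_nonpos_of_nonneg _ hQr.le
      exact_mod_cast hg
    · simp only [List.length_cons, hxn]
      push_cast
      rw [← hlen']
  have hhalf : 1 / 2 ≤ xn := by
    rw [hxn, ← hlen']
    have : (0 : ℝ) ≤ M.length := by positivity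
    linarith
  have hfh : 0 < f 0 (1 / 2) := by
    simp only [hf]
    rw [pw, glue_ge _ _ (by norm_num)]
    rw [zero_add, pw_at]
    simp only [Function.iterate_zero, id, pow_zero, one_mul]
    apply div_pos _ hQr
    exact_mod_cast hq1
  have hspec : ∀ z, 0 ≤ z → z < xn →
      ((e2 : ℝ) / ((Q : ℝ) ^ 2 * D) ≤ f 2 z + U0 z * f 1 z + 2 * n * f 0 z) ∧
      (f 1 z = 0 → f 2 z < 0) := by
    intro z h0 h1
    obtain ⟨p1, q1, y, e1, e2', e3, e4⟩ := hloc z h0 h1
    simp only [hU0, hW, hf]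
    rw [glue_ge _ _ h0, e3, e4, e4, e4, ← hl]
    exact Pp2_spec hQ hD e1 e2'
  have hf1c : Continuous (f 1) := by
    simp only [hf]
    refine pw_cont (m := 2) (by norm_num) continuous_const (q' :: M) q 0 hc2 ?_
    simp only [Function.iterate_one, hg1, pow_one]
  have hfin : Fin2 (f 1) (f 2) := by
    simp only [hf]
    exact pw_fin2 (fin2_of (fun z => hasDerivAt_const z _) continuous_const) _ _
  have he2r : (0 : ℝ) < e2 := by exact_mod_cast he2
  have hf1l : 0 < f 1 0 := by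
    simp only [hf]
    rw [pw_at]
    simp only [Function.iterate_one, pow_one]
    have : (0 : ℝ) < evz (-1) (pder q) := by exact_mod_cast hq0d
    positivity
  have hf1r : f 1 xn ≤ 0 := by
    simp only [hf]
    rw [pw_ge]
    · apply div_nonpos_of_nonpos_of_nonneg _ hQr.le
      have : (gd : ℝ) ≤ 0 := by exact_mod_cast hgd
      linarith
    · simp only [List.length_cons, hxn]
      push_cast
      rw [← hlen']
  obtain ⟨C2, -, hC2⟩ := pw_bdd Q 2 (fun _ => (0 : ℝ)) (q :: q' :: M) 0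
  refine ⟨U0, U1, U2, U3, f 0, f 1, f 2, ⟨hjet, surj_of_ge hcc0 hjet.d0 hlow,
    fun z => lt_of_lt_of_le hcc0 (hlow z), ⟨cc, hcca, hlow⟩, ⟨xn, ?_, ?_⟩, hjf.d0, hjf.d1,
    ⟨0, xn, hf0, hfn, ⟨1 / 2, by norm_num, hhalf, hfh⟩, ?_⟩⟩, hfin,
    (e2 : ℝ) / ((Q : ℝ) ^ 2 * D), 0, xn, by positivity, hxn0, hf0, hfn,
    ⟨1 / 2, by norm_num, hhalf, hfh⟩, fun z h0 h1 => (hspec z h0 h1).1,
    mode_of hf1c hjf.d1 hxn0 (fun z h0 h1 => (hspec z h0 h1).2) hf1l hf1r,
    ⟨C2, fun z h0 h1 => ?_⟩, hf1c⟩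
  · intro z hz
    simp only [hU1, hW]
    rw [glue_ge _ _ (hxn0.le.trans hz), hge z hz]
    exact le_refl _
  · intro z hz
    rcases lt_or_ge z 0 with h0 | h0
    · simp only [hU0, hU1, hU2, hU3]
      rw [glue_lt _ _ h0, glue_lt _ _ h0, glue_lt _ _ h0, glue_lt _ _ h0]
      have h1 : 0 < (1 - c0) * (c0 - (1 - 2 * n)) := mul_pos (by linarith) (by linarith)
      simp only [mul_zero, add_zero, zero_sub]
      linarith
    · obtain ⟨p1, q1, y, e1, e2', e3, e4⟩ := hloc z h0 hz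
      simp only [hU0, hU1, hU2, hU3, hW]
      rw [glue_ge _ _ h0, glue_ge _ _ h0, glue_ge _ _ h0, glue_ge _ _ h0, e3, e3, e3, e3, ← ha]
      exact (Pp_spec hQ hD (Pp2_Pp e1) e2').1
  · intro z h0 h1
    obtain ⟨p1, q1, y, e1, e2', e3, e4⟩ := hloc z h0 h1
    simp only [hU0, hW, hf]
    rw [glue_ge _ _ h0, e3, e4, e4, e4, ← hl]
    exact (Pp_spec hQ hD (Pp2_Pp e1) e2').2.1
  · apply hC2 z h0
    simp only [List.length_cons]
    push_cast
    rw [hlen']
    rw [hxn] at h1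
    linarith

/-! ### lower side -/

/-- test of one piece, lower side, with relative margin -/
def Pm2 (Q nA nl D : ℤ) (p q : List ℤ) : Bool :=
  Pm Q nA nl D p q && chk 2 (padd (psm (-20) (resP Q nl D p q)) (psm (-Q) q))

lemma Pm2_Pm {Q nA nl D : ℤ} {p q : List ℤ} (h : Pm2 Q nA nl D p q = true) :
    Pm Q nA nl D p q = true := by
  simp only [Pm2, Bool.and_eq_true] at h
  exact h.1

lemma Pm2_spec {Q nA nl D : ℤ} (hQ : 0 < Q) (hD : 0 < D) {p q : List ℤ}
    (h : Pm2 Q nA nl D p q = true) {y z : ℝ} (hz : |4 * (z - y) - 1| ≤ 1) :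
    pf Q 2 q y z + pf Q 0 p y z * pf Q 1 q y z + (nl : ℝ) / D * pf Q 0 q y z ≤
      -(1 / (20 * D)) * pf Q 0 q y z := by
  simp only [Pm2, Bool.and_eq_true] at h
  have hQr : (0 : ℝ) < Q := by exact_mod_cast hQ
  have hDr : (0 : ℝ) < D := by exact_mod_cast hD
  have h1 := chk_pos _ _ h.2 _ hz
  rw [ev_padd, ev_psm, ev_psm, ev_resP hQ hD] at h1
  push_cast at h1
  have h2 : ev q (4 * (z - y) - 1) = Q * pf Q 0 q y z := by
    unfold pf
    simp only [Function.iterate_zero, id, pow_zero, one_mul]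
    field_simp
  rw [h2] at h1
  set X := pf Q 2 q y z + pf Q 0 p y z * pf Q 1 q y z + (nl : ℝ) / D * pf Q 0 q y z with hX
  set Y := pf Q 0 q y z with hY
  have h3 : (Q : ℝ) ^ 2 * (-20 * (D * X) - Y) > 0 := by nlinarith
  have h4 : 0 < -20 * (D * X) - Y := by
    have hQ2 : (0 : ℝ) < (Q : ℝ) ^ 2 := by positivity
    exact (mul_pos_iff_of_pos_left hQ2).1 h3
  have h5 : -(1 / (20 * (D : ℝ))) * Y = -(Y / (20 * D)) := by ring
  rw [h5, le_neg, div_le_iff₀ (by positivity)]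
  nlinarith

set_option maxHeartbeats 4000000 in
theorem dataMinus2_of {Q nA nl D N0 M1 AR A1 A2 g0 g gd KL : ℤ} {n : ℝ} {p q : List ℤ}
    {L M : List (List ℤ)}
    (hQ : 0 < Q) (hD : 0 < D) (hn : 0 < 2 * n) (hn1 : 2 * n < 3 / 4)
    (ha : (nA : ℝ) / D = 1 - 2 * n) (hl : (nl : ℝ) / D = 2 * n)
    (hlen : (p :: L).length = (q :: M).length)
    (hc3 : chain 3 (p :: L) = true) (hc2 : chain 2 (q :: M) = true)
    (hall : (List.zipWith (Pm2 Q nA nl D) (p :: L) (q :: M)).all id = true)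
    (hp0 : evz (-1) p = N0) (hp1 : evz (-1) (pder p) = M1) (hp2 : evz (-1) (pder (pder p)) = 0)
    (hM1 : 4 * M1 * D < nA * Q) (hM1' : Q < 16 * M1)
    (hr0 : evz 1 (lst p L) = AR) (hr1 : evz 1 (pder (lst p L)) = A1)
    (hr2 : evz 1 (pder (pder (lst p L))) = A2)
    -- right tail of the profile: `P = 1 - 4 A1 / Q`, `K = (16 A2 / Q) / P`
    (hA1 : 4 * A1 < Q) (hA1' : Q < 16 * A1) (hA2 : 0 < A2)
    (hres : ((16 * A2 / (Q - 4 * A1) : ℝ) ^ 2 + 1 <
      (16 * A2 / (Q - 4 * A1) : ℝ) * ((AR : ℝ) / Q)))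
    -- test function
    (hq0 : evz (-1) q = g0) (hq1 : 4 * evz (-1) (pder q) = KL * g0) (hg0 : 0 < g0)
    (hKL : 0 < KL) (hKLr : ((KL : ℝ) ^ 2 + KL * ((N0 : ℝ) / Q) + 1 < 0))
    (hh0 : evz 1 (lst q M) = g) (hh1 : evz 1 (pder (lst q M)) = gd) (hg : 0 < g) (hgd : gd < 0)
    (hKR : ((4 * gd / g : ℝ) ^ 2 + (4 * gd / g : ℝ) * ((AR : ℝ) / Q) + 2 * n < 0)) :
    ∃ S0 S1 S2 S3 f f1 f2 : ℝ → ℝ, DataMinus n S0 S1 S2 S3 f f1 f2 ∧ Fin2 f1 f2 ∧
      ∃ d C : ℝ, 0 < d ∧ (∀ z, f2 z + S0 z * f1 z + 2 * n * f z ≤ -d * f z) ∧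
        (∃ z0, (∀ z, z ≤ z0 → 0 ≤ f1 z) ∧ (∀ z, z0 ≤ z → f1 z ≤ 0)) ∧
        (∀ z, |f1 z| ≤ C * f z) ∧ (∀ z, |f2 z| ≤ C * f z) ∧ (∀ z, f z ≤ C) ∧
        Continuous f1 := by
  have hQr : (0 : ℝ) < Q := by exact_mod_cast hQ
  have hDr : (0 : ℝ) < D := by exact_mod_cast hD
  set xn : ℝ := 0 + ((L.length : ℝ) + 1) / 2 with hxn
  set c0 : ℝ := 4 * M1 / Q with hc0
  set P : ℝ := 1 - 4 * A1 / Q with hP
  set K : ℝ := 16 * A2 / (Q - 4 * A1) with hK
  set B : ℝ := (AR : ℝ) / Q with hB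
  have hQA : (0 : ℝ) < Q - 4 * A1 := by
    have : (4 * A1 : ℝ) < Q := by exact_mod_cast hA1
    linarith
  have hP0 : 0 < P := by
    have : P = (Q - 4 * A1) / Q := by rw [hP]; field_simp
    rw [this]; positivity
  have hP1 : P < 3 / 4 := by
    have h1 : (Q : ℝ) < 16 * A1 := by exact_mod_cast hA1'
    have : 1 / 4 < 4 * (A1 : ℝ) / Q := by rw [lt_div_iff₀ hQr]; linarith
    rw [hP]; linarith
  have hA2r : (0 : ℝ) < A2 := by exact_mod_cast hA2
  have hK0 : 0 < K := by rw [hK]; positivity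
  have hKP : K * P = 16 * A2 / Q := by
    rw [hK, hP]; field_simp
  have hB0 : 0 < B := by
    by_contra hcon
    push Not at hcon
    nlinarith [mul_nonneg hK0.le (neg_nonneg.2 hcon), sq_nonneg K]
  have hc0a : c0 < 1 - 2 * n := by
    rw [← ha, hc0, div_lt_div_iff₀ hQr hDr]
    have : ((4 * M1 * D : ℤ) : ℝ) < ((nA * Q : ℤ) : ℝ) := by exact_mod_cast hM1
    push_cast at this
    linarith
  have hc04 : 1 / 4 < c0 := by
    rw [hc0, lt_div_iff₀ hQr]
    have : (Q : ℝ) < 16 * M1 := by exact_mod_cast hM1'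
    linarith
  -- outer functions
  set T : ℕ → ℝ → ℝ := fun k =>
    match k with
    | 0 => fun z => (B - P / K) + 1 * (z - xn) + ex (P / K) (-K) xn 0 z
    | 1 => fun z => 1 + ex (P / K) (-K) xn 1 z
    | 2 => fun z => ex (P / K) (-K) xn 2 z
    | _ => fun z => ex (P / K) (-K) xn 3 z with hT
  have hjT : Jet (T 0) (T 1) (T 2) (T 3) := by
    refine ⟨fun z => ?_, fun z => ?_, fun z => ?_⟩
    · exact ((affine_jet (B - P / K) 1 xn).d0 z).add (ex_deriv (P / K) (-K) xn 0 z)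
    · exact (ex_deriv (P / K) (-K) xn 1 z).const_add 1
    · exact (ex_deriv (P / K) (-K) xn 2 z).hasDerivWithinAt
  set W : ℕ → ℝ → ℝ := fun k => pw Q k (T k) (p :: L) 0 with hW
  set S0 : ℝ → ℝ := glue 0 (fun z => (N0 : ℝ) / Q + c0 * (z - 0)) (W 0) with hS0
  set S1 : ℝ → ℝ := glue 0 (fun _ => c0) (W 1) with hS1
  set S2 : ℝ → ℝ := glue 0 (fun _ => 0) (W 2) with hS2
  set S3 : ℝ → ℝ := glue 0 (fun _ => 0) (W 3) with hS3
  have hjW : Jet (W 0) (W 1) (W 2) (W 3) := by
    refine pw_jet (T0 := T 0) (T1 := T 1) (T2 := T 2) (T3 := T 3) hjT L p 0 hc3 ?_ ?_ ?_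
    · simp only [Function.iterate_zero, id, pow_zero, one_mul, hr0, hT]
      rw [← hxn, ex_at, hB]; ring
    · simp only [Function.iterate_one, hT, hr1]
      rw [← hxn, ex_at, hP]
      have : (P / K) * (-K) ^ 1 = -P := by field_simp
      rw [← hP, this, hP]; ring
    · have e2 : pder^[2] (lst p L) = pder (pder (lst p L)) := rfl
      simp only [hT]
      rw [e2, hr2, ← hxn, ex_at]
      have : (P / K) * (-K) ^ 2 = K * P := by field_simp
      rw [this, hKP]; ring
  have hjet : Jet S0 S1 S2 S3 := by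
    refine glue_jet (affine_jet ((N0 : ℝ) / Q) c0 0) hjW ?_ ?_ ?_
    · simp only [hW]
      rw [pw_at]
      simp only [Function.iterate_zero, id, pow_zero, hp0]
      ring
    · simp only [hW]
      rw [pw_at]
      simp only [Function.iterate_one, hp1, pow_one, hc0]
    · simp only [hW]
      rw [pw_at]
      have e2 : pder^[2] p = pder (pder p) := rfl
      rw [e2, hp2]
      simp
  have hloc : ∀ z, 0 ≤ z → z < xn → ∃ p1 q1 : List ℤ, ∃ y : ℝ,
      Pm2 Q nA nl D p1 q1 = true ∧ |4 * (z - y) - 1| ≤ 1 ∧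
      (∀ (k : ℕ) (T : ℝ → ℝ), pw Q k T (p :: L) 0 z = pf Q k p1 y z) ∧
      (∀ (k : ℕ) (T : ℝ → ℝ), pw Q k T (q :: M) 0 z = pf Q k q1 y z) := by
    intro z h1 h2
    refine pw_local Q (p :: L) (q :: M) 0 z hlen hall h1 ?_
    simpa [hxn] using h2
  have hge : ∀ z, xn ≤ z → ∀ k T, pw Q k T (p :: L) 0 z = T z := by
    intro z hz k T
    apply pw_ge
    simpa [hxn] using hz
  have hlen' : (M.length : ℝ) = L.length := by
    simp only [List.length_cons] at hlen
    have : M.length = L.length := by omega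
    exact_mod_cast this
  have hge' : ∀ z, xn ≤ z → ∀ k T, pw Q k T (q :: M) 0 z = T z := by
    intro z hz k T
    apply pw_ge
    simpa [hxn, hlen'] using hz
  have hxn0 : 0 < xn := by
    rw [hxn]; positivity
  have hexp : ∀ z, xn ≤ z → 0 < Real.exp (-K * (z - xn)) ∧ Real.exp (-K * (z - xn)) ≤ 1 := by
    intro z hz
    refine ⟨Real.exp_pos _, Real.exp_le_one_iff.2 ?_⟩
    nlinarith [mul_nonneg hK0.le (sub_nonneg.2 hz)]
  have hT1 : ∀ z, T 1 z = 1 - P * Real.exp (-K * (z - xn)) := by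
    intro z
    simp only [hT, ex]
    have : P / K * (-K) ^ 1 = -P := by field_simp
    rw [this]; ring
  have hT2 : ∀ z, T 2 z = K * P * Real.exp (-K * (z - xn)) := by
    intro z
    simp only [hT, ex]
    have : P / K * (-K) ^ 2 = K * P := by field_simp
    rw [this]
  have hT3 : ∀ z, T 3 z = -(K ^ 2 * P * Real.exp (-K * (z - xn))) := by
    intro z
    simp only [hT, ex]
    have : P / K * (-K) ^ 3 = -(K ^ 2 * P) := by field_simp
    rw [this]; ring
  have hT0 : ∀ z, xn ≤ z → B ≤ T 0 z ∧ z - xn + B - P / K ≤ T 0 z := by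
    intro z hz
    have h2 : 0 ≤ z - xn := by linarith
    have h3 := (hexp z hz).1
    simp only [hT, ex, pow_zero, mul_one, one_mul]
    constructor
    · -- 1 - exp(-K t) ≤ K t
      have h1 := Real.add_one_le_exp (-K * (z - xn))
      have h4 : P / K * (1 - Real.exp (-K * (z - xn))) ≤ P / K * (K * (z - xn)) := by
        apply mul_le_mul_of_nonneg_left _ (by positivity)
        linarith
      have h5 : P / K * (K * (z - xn)) = P * (z - xn) := by field_simp
      rw [h5] at h4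
      nlinarith [mul_nonneg (by linarith : (0 : ℝ) ≤ 1 - P) h2]
    · have : 0 ≤ P / K * Real.exp (-K * (z - xn)) := by positivity
      linarith
  have hlow : ∀ z, 1 / 4 ≤ S1 z := by
    intro z
    rcases lt_or_ge z 0 with h0 | h0
    · simp only [hS1]; rw [glue_lt _ _ h0]; exact hc04.le
    · rcases lt_or_ge z xn with h1 | h1
      · obtain ⟨p1, q1, y, e1, e2, e3, e4⟩ := hloc z h0 h1
        simp only [hS1, hW]
        rw [glue_ge _ _ h0, e3]
        exact (Pm_spec hQ hD (Pm2_Pm e1) e2).2.2.1.le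
      · simp only [hS1, hW]
        rw [glue_ge _ _ h0, hge z h1, hT1]
        have := hexp z h1
        nlinarith [mul_nonneg hP0.le (sub_nonneg.2 this.2)]
  have hupp : ∀ z, S1 z < 1 := by
    intro z
    rcases lt_or_ge z 0 with h0 | h0
    · simp only [hS1]; rw [glue_lt _ _ h0]; linarith
    · rcases lt_or_ge z xn with h1 | h1
      · obtain ⟨p1, q1, y, e1, e2, e3, e4⟩ := hloc z h0 h1
        simp only [hS1, hW]
        rw [glue_ge _ _ h0, e3]
        exact (Pm_spec hQ hD (Pm2_Pm e1) e2).2.2.2.1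
      · simp only [hS1, hW]
        rw [glue_ge _ _ h0, hge z h1, hT1]
        have := mul_pos hP0 (hexp z h1).1
        linarith
  -- test function
  have hgr : (0 : ℝ) < g := by exact_mod_cast hg
  have hg0r : (0 : ℝ) < g0 := by exact_mod_cast hg0
  have hgdr : (gd : ℝ) < 0 := by exact_mod_cast hgd
  have hKLr0 : (0 : ℝ) < KL := by exact_mod_cast hKL
  set k : ℝ := 4 * gd / g with hk
  have hk0 : k < 0 := by
    rw [hk]; exact div_neg_of_neg_of_pos (by linarith) hgr
  set Wf : ℕ → ℝ → ℝ := fun m => pw Q m (ex ((g : ℝ) / Q) k xn m) (q :: M) 0 with hWf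
  set f : ℕ → ℝ → ℝ := fun m => glue 0 (ex ((g0 : ℝ) / Q) KL 0 m) (Wf m) with hf
  have hjWf : Jet1 (Wf 0) (Wf 1) (Wf 2) := by
    refine pw_jet1 (T0 := ex ((g : ℝ) / Q) k xn 0) (T1 := ex ((g : ℝ) / Q) k xn 1)
      (T2 := ex ((g : ℝ) / Q) k xn 2)
      ⟨ex_deriv _ _ _ 0, fun z => (ex_deriv _ _ _ 1 z).hasDerivWithinAt⟩ M q 0 hc2 ?_ ?_
    · rw [hlen', ← hxn, ex_at]
      simp only [Function.iterate_zero, id, pow_zero, one_mul, mul_one, hh0]
    · rw [hlen', ← hxn, ex_at]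
      simp only [Function.iterate_one, pow_one, hh1, hk]
      field_simp
  have hjf : Jet1 (f 0) (f 1) (f 2) := by
    refine glue_jet1 ⟨ex_deriv _ _ _ 0, fun z => (ex_deriv _ _ _ 1 z).hasDerivWithinAt⟩ hjWf ?_ ?_
    · simp only [hWf]
      rw [pw_at, ex_at]
      simp only [Function.iterate_zero, id, pow_zero, one_mul, mul_one, hq0]
    · simp only [hWf]
      rw [pw_at, ex_at]
      simp only [Function.iterate_one, pow_one]
      have : ((4 * evz (-1) (pder q) : ℤ) : ℝ) = ((KL * g0 : ℤ) : ℝ) := by exact_mod_cast hq1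
      push_cast at this
      rw [this]; ring
  have hfcont : Continuous (f 0) :=
    continuous_iff_continuousAt.2 fun z => (hjf.d0 z).continuousAt
  have hfpos : ∀ z, 0 < f 0 z := by
    intro z
    rcases lt_or_ge z 0 with h0 | h0
    · simp only [hf]; rw [glue_lt _ _ h0]; unfold ex; positivity
    · rcases lt_or_ge z xn with h1 | h1
      · obtain ⟨p1, q1, y, e1, e2, e3, e4⟩ := hloc z h0 h1
        simp only [hf, hWf]
        rw [glue_ge _ _ h0, e4]
        exact (Pm_spec hQ hD (Pm2_Pm e1) e2).2.2.2.2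
      · simp only [hf, hWf]
        rw [glue_ge _ _ h0, hge' z h1]; unfold ex; positivity
  obtain ⟨μx, -, hμ⟩ := isCompact_Icc.exists_isMinOn
    (⟨0, le_refl _, hxn0.le⟩ : (Icc (0 : ℝ) xn).Nonempty) hfcont.continuousOn
  have hμpos := hfpos μx
  obtain ⟨mn, hmn0, hmn1, hmn2, hmn3⟩ : ∃ mn : ℝ, 0 < mn ∧ mn ≤ f 0 μx ∧
      mn ≤ (g0 : ℝ) / Q ∧ mn ≤ (g : ℝ) / Q :=
    ⟨min (f 0 μx) (min ((g0 : ℝ) / Q) ((g : ℝ) / Q)),
      lt_min hμpos (lt_min (by positivity) (by positivity)), min_le_left _ _,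
      (min_le_right _ _).trans (min_le_left _ _), (min_le_right _ _).trans (min_le_right _ _)⟩
  have hnQ : 2 * n < 3 / 4 := hn1
  set cR : ℝ := -(k ^ 2 + k * B + 2 * n) with hcR
  have hcR0 : 0 < cR := by rw [hcR]; linarith
  set dd : ℝ := min (1 / (20 * (D : ℝ))) (min (1 / 4) cR) with hdd
  have hdd0 : 0 < dd := by
    rw [hdd]; exact lt_min (by positivity) (lt_min (by norm_num) hcR0)
  have hdd1 : dd ≤ 1 / (20 * (D : ℝ)) := min_le_left _ _
  have hdd2 : dd ≤ 1 / 4 := (min_le_right _ _).trans (min_le_left _ _)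
  have hdd3 : dd ≤ cR := (min_le_right _ _).trans (min_le_right _ _)
  clear_value dd
  have hres2 : ∀ z, f 2 z + S0 z * f 1 z + 2 * n * f 0 z ≤ -dd * f 0 z := by
    intro z
    rcases lt_or_ge z 0 with h0 | h0
    · simp only [hS0, hf]
      rw [glue_lt _ _ h0, glue_lt _ _ h0, glue_lt _ _ h0, glue_lt _ _ h0]
      unfold ex
      have h1 : (g0 : ℝ) / Q * KL ^ 2 * Real.exp (KL * (z - 0)) +
          ((N0 : ℝ) / Q + c0 * (z - 0)) * ((g0 : ℝ) / Q * KL ^ 1 * Real.exp (KL * (z - 0))) +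
          2 * n * ((g0 : ℝ) / Q * KL ^ 0 * Real.exp (KL * (z - 0))) =
          ((g0 : ℝ) / Q * Real.exp (KL * (z - 0))) *
            (KL ^ 2 + KL * ((N0 : ℝ) / Q) + KL * (c0 * z) + 2 * n) := by ring
      have h1' : -dd * ((g0 : ℝ) / Q * KL ^ 0 * Real.exp (KL * (z - 0))) =
          ((g0 : ℝ) / Q * Real.exp (KL * (z - 0))) * (-dd) := by ring
      rw [h1, h1']
      apply mul_le_mul_of_nonneg_left _ (by positivity)
      have h2 : KL * (c0 * z) ≤ 0 :=
        mul_nonpos_of_nonneg_of_nonpos hKLr0.le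
          (mul_nonpos_of_nonneg_of_nonpos (by linarith) h0.le)
      linarith
    · rcases lt_or_ge z xn with h1 | h1
      · obtain ⟨p1, q1, y, e1, e2, e3, e4⟩ := hloc z h0 h1
        have hpos := hfpos z
        have h5 := Pm2_spec hQ hD e1 e2
        simp only [hS0, hW, hf, hWf] at hpos ⊢
        rw [glue_ge _ _ h0, glue_ge _ _ h0, glue_ge _ _ h0, glue_ge _ _ h0, e3, e4, e4, e4, ← hl]
        rw [glue_ge _ _ h0, e4] at hpos
        refine h5.trans ?_
        have := mul_le_mul_of_nonneg_right hdd1 hpos.le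
        linarith
      · simp only [hS0, hW, hf, hWf]
        rw [glue_ge _ _ h0, glue_ge _ _ h0, glue_ge _ _ h0, glue_ge _ _ h0, hge z h1, hge' z h1,
          hge' z h1, hge' z h1]
        have h2 := (hT0 z h1).1
        unfold ex
        have h3 : (g : ℝ) / Q * k ^ 2 * Real.exp (k * (z - xn)) +
            T 0 z * ((g : ℝ) / Q * k ^ 1 * Real.exp (k * (z - xn))) +
            2 * n * ((g : ℝ) / Q * k ^ 0 * Real.exp (k * (z - xn))) =
            ((g : ℝ) / Q * Real.exp (k * (z - xn))) * (k ^ 2 + k * T 0 z + 2 * n) := by ring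
        have h3' : -dd * ((g : ℝ) / Q * k ^ 0 * Real.exp (k * (z - xn))) =
            ((g : ℝ) / Q * Real.exp (k * (z - xn))) * (-dd) := by ring
        rw [h3, h3']
        apply mul_le_mul_of_nonneg_left _ (by positivity)
        have h4 : k * T 0 z ≤ k * B := mul_le_mul_of_nonpos_left h2 hk0.le
        linarith
  -- tails of the derivatives
  have hleft : ∀ z, z < 0 → f 1 z = KL * f 0 z ∧ f 2 z = KL ^ 2 * f 0 z := by
    intro z h0
    simp only [hf]
    rw [glue_lt _ _ h0, glue_lt _ _ h0, glue_lt _ _ h0]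
    unfold ex
    constructor <;> ring
  have hright : ∀ z, xn ≤ z → f 1 z = k * f 0 z ∧ f 2 z = k ^ 2 * f 0 z := by
    intro z h1
    have h0 : 0 ≤ z := hxn0.le.trans h1
    simp only [hf, hWf]
    rw [glue_ge _ _ h0, glue_ge _ _ h0, glue_ge _ _ h0, hge' z h1, hge' z h1, hge' z h1]
    unfold ex
    constructor <;> ring
  have hexc : ∀ (C k x : ℝ) (m : ℕ), Continuous (ex C k x m) := fun C k x m =>
    continuous_iff_continuousAt.2 fun z => (ex_deriv C k x m z).continuousAt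
  have hWfc : Continuous (Wf 1) := by
    simp only [hWf]
    refine pw_cont (m := 2) (by norm_num) (hexc _ _ _ _) M q 0 hc2 ?_
    rw [hlen', ← hxn, ex_at]
    simp only [Function.iterate_one, pow_one, hh1, hk]
    field_simp
  have hf1c : Continuous (f 1) := by
    simp only [hf]
    refine glue_cont (hexc _ _ _ _) hWfc ?_
    simp only [hWf]
    rw [pw_at, ex_at]
    simp only [Function.iterate_one, pow_one]
    have : ((4 * evz (-1) (pder q) : ℤ) : ℝ) = ((KL * g0 : ℤ) : ℝ) := by exact_mod_cast hq1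
    push_cast at this
    rw [this]; ring
  have hfin : Fin2 (f 1) (f 2) := by
    simp only [hf, hWf]
    exact glue_fin2 (fin2_of (ex_deriv _ _ _ 1) (hexc _ _ _ _))
      (pw_fin2 (fin2_of (ex_deriv _ _ _ 1) (hexc _ _ _ _)) _ _)
  obtain ⟨C1, hC10, hC1⟩ : ∃ C : ℝ, 0 ≤ C ∧ ∀ z, 0 ≤ z → z < xn → |f 1 z| ≤ C := by
    obtain ⟨C, hC0, hC⟩ := pw_bdd Q 1 (ex ((g : ℝ) / Q) k xn 1) (q :: M) 0
    refine ⟨C, hC0, fun z h0 h1 => ?_⟩
    simp only [hf, hWf]
    rw [glue_ge _ _ h0]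
    apply hC z h0
    simpa [hxn, hlen'] using h1
  obtain ⟨C2, hC20, hC2⟩ : ∃ C : ℝ, 0 ≤ C ∧ ∀ z, 0 ≤ z → z < xn → |f 2 z| ≤ C := by
    obtain ⟨C, hC0, hC⟩ := pw_bdd Q 2 (ex ((g : ℝ) / Q) k xn 2) (q :: M) 0
    refine ⟨C, hC0, fun z h0 h1 => ?_⟩
    simp only [hf, hWf]
    rw [glue_ge _ _ h0]
    apply hC z h0
    simpa [hxn, hlen'] using h1
  obtain ⟨C0, hC00, hC0⟩ : ∃ C : ℝ, 0 ≤ C ∧ ∀ z, 0 ≤ z → z < xn → |f 0 z| ≤ C := by
    obtain ⟨C, hC0, hC⟩ := pw_bdd Q 0 (ex ((g : ℝ) / Q) k xn 0) (q :: M) 0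
    refine ⟨C, hC0, fun z h0 h1 => ?_⟩
    simp only [hf, hWf]
    rw [glue_ge _ _ h0]
    apply hC z h0
    simpa [hxn, hlen'] using h1
  have hmin : ∀ z, 0 ≤ z → z < xn → f 0 μx ≤ f 0 z := fun z h0 h1 => hμ ⟨h0, h1.le⟩
  have hfle : ∀ z, f 0 z ≤ C0 + (g0 : ℝ) / Q + (g : ℝ) / Q := by
    intro z
    have p1 : (0 : ℝ) < (g0 : ℝ) / Q := by positivity
    have p2 : (0 : ℝ) < (g : ℝ) / Q := by positivity
    rcases lt_or_ge z 0 with h0 | h0
    · have : f 0 z ≤ (g0 : ℝ) / Q := by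
        simp only [hf]; rw [glue_lt _ _ h0]; unfold ex
        rw [pow_zero, mul_one]
        have h3 : Real.exp (KL * (z - 0)) ≤ 1 := by
          apply Real.exp_le_one_iff.2
          have := mul_neg_of_pos_of_neg hKLr0 h0
          linarith
        exact mul_le_of_le_one_right p1.le h3
      linarith
    · rcases lt_or_ge z xn with h1 | h1
      · have := (abs_le.1 (hC0 z h0 h1)).2
        linarith
      · have : f 0 z ≤ (g : ℝ) / Q := by
          simp only [hf, hWf]; rw [glue_ge _ _ h0, hge' z h1]; unfold ex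
          rw [pow_zero, mul_one]
          have h3 : Real.exp (k * (z - xn)) ≤ 1 := by
            apply Real.exp_le_one_iff.2
            exact mul_nonpos_of_nonpos_of_nonneg hk0.le (by linarith)
          exact mul_le_of_le_one_right p2.le h3
        linarith
  have hmode : ∃ z0, (∀ z, z ≤ z0 → 0 ≤ f 1 z) ∧ (∀ z, z0 ≤ z → f 1 z ≤ 0) := by
    have hk1 : f 1 xn ≤ 0 := by
      rw [(hright xn le_rfl).1]
      exact mul_nonpos_of_nonpos_of_nonneg hk0.le (hfpos xn).le
    have hk2 : 0 < f 1 0 := by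
      have e1 : f 1 0 = 4 * (evz (-1) (pder q) : ℝ) / Q := by
        simp only [hf, hWf]
        rw [glue_ge _ _ le_rfl, pw_at]
        simp only [Function.iterate_one, pow_one]
      rw [e1]
      have : ((4 * evz (-1) (pder q) : ℤ) : ℝ) = ((KL * g0 : ℤ) : ℝ) := by exact_mod_cast hq1
      push_cast at this
      rw [this]
      positivity
    obtain ⟨z0, e1, e2, e3, e4⟩ := mode_of hf1c hjf.d1 hxn0 (fun z h0 h1 hz => by
      have h3 := hres2 z
      rw [hz, mul_zero, add_zero] at h3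
      have h4 := hfpos z
      have h5 := mul_pos hn h4
      have h6 := mul_pos hdd0 h4
      linarith) hk2 hk1
    refine ⟨z0, fun z hz => ?_, fun z hz => ?_⟩
    · rcases lt_or_ge z 0 with h0 | h0
      · rw [(hleft z h0).1]
        exact (mul_pos hKLr0 (hfpos z)).le
      · exact e3 z h0 hz
    · rcases le_or_gt z xn with h1 | h1
      · exact e4 z hz h1
      · rw [(hright z h1.le).1]
        exact mul_nonpos_of_nonpos_of_nonneg hk0.le (hfpos z).le
  set CC : ℝ := C0 + (g0 : ℝ) / Q + (g : ℝ) / Q + C1 / f 0 μx + C2 / f 0 μx + KL + KL ^ 2 +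
    |k| + k ^ 2 with hCC
  have hp1 : (0 : ℝ) < (g0 : ℝ) / Q := by positivity
  have hp2 : (0 : ℝ) < (g : ℝ) / Q := by positivity
  have hp3 : 0 ≤ C1 / f 0 μx := by positivity
  have hp4 : 0 ≤ C2 / f 0 μx := by positivity
  have hp5 : 0 ≤ |k| := abs_nonneg k
  have hp6 : 0 ≤ k ^ 2 := sq_nonneg k
  have hp7 : 0 < (KL : ℝ) ^ 2 := by positivity
  have hb1 : ∀ z, |f 1 z| ≤ CC * f 0 z := by
    intro z
    have hpz := hfpos z
    rcases lt_or_ge z 0 with h0 | h0
    · rw [(hleft z h0).1, abs_mul, abs_of_pos hpz, abs_of_pos hKLr0]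
      apply mul_le_mul_of_nonneg_right _ hpz.le
      rw [hCC]; linarith
    · rcases lt_or_ge z xn with h1 | h1
      · have e1 : C1 ≤ (C1 / f 0 μx) * f 0 z := by
          have e2 := mul_le_mul_of_nonneg_left (hmin z h0 h1) hp3
          rwa [div_mul_cancel₀ _ hμpos.ne'] at e2
        have e3 : (C1 / f 0 μx) * f 0 z ≤ CC * f 0 z := by
          apply mul_le_mul_of_nonneg_right _ hpz.le
          rw [hCC]; linarith
        exact (hC1 z h0 h1).trans (e1.trans e3)
      · rw [(hright z h1).1, abs_mul, abs_of_pos hpz]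
        apply mul_le_mul_of_nonneg_right _ hpz.le
        rw [hCC]; linarith
  have hb2 : ∀ z, |f 2 z| ≤ CC * f 0 z := by
    intro z
    have hpz := hfpos z
    rcases lt_or_ge z 0 with h0 | h0
    · rw [(hleft z h0).2, abs_mul, abs_of_pos hpz, abs_of_pos hp7]
      apply mul_le_mul_of_nonneg_right _ hpz.le
      rw [hCC]; linarith
    · rcases lt_or_ge z xn with h1 | h1
      · have e1 : C2 ≤ (C2 / f 0 μx) * f 0 z := by
          have e2 := mul_le_mul_of_nonneg_left (hmin z h0 h1) hp4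
          rwa [div_mul_cancel₀ _ hμpos.ne'] at e2
        have e3 : (C2 / f 0 μx) * f 0 z ≤ CC * f 0 z := by
          apply mul_le_mul_of_nonneg_right _ hpz.le
          rw [hCC]; linarith
        exact (hC2 z h0 h1).trans (e1.trans e3)
      · rw [(hright z h1).2, abs_mul, abs_of_pos hpz, abs_of_nonneg hp6]
        apply mul_le_mul_of_nonneg_right _ hpz.le
        rw [hCC]; linarith
  refine ⟨S0, S1, S2, S3, f 0, f 1, f 2, ⟨hjet, surj_of_ge (by norm_num : (0 : ℝ) < 1 / 4)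
    hjet.d0 hlow, fun z => lt_of_lt_of_le (by norm_num) (hlow z), ⟨c0, -1, hc0a, ?_⟩, hupp,
    ⟨xn, P * Real.exp (K * xn), K, xn - B + P / K, by positivity, ?_⟩, ?_, hjf.d0, hjf.d1,
    ⟨mn, max (KL : ℝ) (-k), hmn0, ?_, ?_⟩, ?_⟩, hfin, dd, CC, hdd0, hres2,
    hmode, hb1, hb2, fun z => (hfle z).trans (by rw [hCC]; linarith), hf1c⟩
  · intro z hz
    have h0 : z < 0 := by linarith
    simp only [hS1]; rw [glue_lt _ _ h0]
  · intro z hz
    have h0 : 0 ≤ z := hxn0.le.trans hz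
    constructor
    · simp only [hS1, hW]
      rw [glue_ge _ _ h0, hge z hz, hT1, mul_assoc, ← Real.exp_add]
      have : K * xn + -(K * z) = -K * (z - xn) := by ring
      rw [this]; linarith
    · simp only [hS0, hW]
      rw [glue_ge _ _ h0, hge z hz]
      have := (hT0 z hz).2
      linarith
  · intro z
    rcases lt_or_ge z 0 with h0 | h0
    · simp only [hS0, hS1, hS2, hS3]
      rw [glue_lt _ _ h0, glue_lt _ _ h0, glue_lt _ _ h0, glue_lt _ _ h0]
      have h1 : (1 - c0) * (c0 - (1 - 2 * n)) < 0 :=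
        mul_neg_of_pos_of_neg (by linarith) (by linarith)
      simp only [mul_zero, add_zero, zero_sub]
      linarith
    · rcases lt_or_ge z xn with h1 | h1
      · obtain ⟨p1, q1, y, e1, e2, e3, e4⟩ := hloc z h0 h1
        simp only [hS0, hS1, hS2, hS3, hW]
        rw [glue_ge _ _ h0, glue_ge _ _ h0, glue_ge _ _ h0, glue_ge _ _ h0, e3, e3, e3, e3, ← ha]
        exact (Pm_spec hQ hD (Pm2_Pm e1) e2).1
      · simp only [hS0, hS1, hS2, hS3, hW]
        rw [glue_ge _ _ h0, glue_ge _ _ h0, glue_ge _ _ h0, glue_ge _ _ h0, hge z h1, hge z h1,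
          hge z h1, hge z h1, hT1, hT2, hT3]
        have h2 := (hT0 z h1).1
        have h3 := hexp z h1
        set E := Real.exp (-K * (z - xn)) with hE
        have h4 : -(K ^ 2 * P * E) + T 0 z * (K * P * E) -
            (1 - (1 - P * E)) * (1 - P * E - (1 - 2 * n)) =
            P * E * (K * T 0 z - K ^ 2 - 2 * n + P * E) := by ring
        rw [h4]
        apply mul_pos (mul_pos hP0 h3.1)
        have h5 : K * B ≤ K * T 0 z := mul_le_mul_of_nonneg_left h2 hK0.le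
        have h6 := mul_pos hP0 h3.1
        linarith
  · exact le_max_of_le_left hKLr0.le
  · intro z
    have hm0 : 0 ≤ max (KL : ℝ) (-k) := le_max_of_le_left hKLr0.le
    rcases lt_or_ge z 0 with h0 | h0
    · simp only [hf]; rw [glue_lt _ _ h0]
      unfold ex
      rw [pow_zero, mul_one, sub_zero, abs_of_neg h0]
      apply mul_le_mul hmn2 _ (Real.exp_pos _).le (by positivity)
      apply Real.exp_le_exp.2
      have : (KL : ℝ) * (-z) ≤ max (KL : ℝ) (-k) * (-z) :=
        mul_le_mul_of_nonneg_right (le_max_left _ _) (by linarith)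
      linarith
    · rcases lt_or_ge z xn with h1 | h1
      · have h2 : f 0 μx ≤ f 0 z := hμ ⟨h0, h1.le⟩
        refine le_trans ?_ h2
        calc _ ≤ f 0 μx * 1 := by
              apply mul_le_mul hmn1 _ (Real.exp_pos _).le hμpos.le
              apply Real.exp_le_one_iff.2
              have := mul_nonneg hm0 (abs_nonneg z)
              linarith
          _ = _ := mul_one _
      · simp only [hf, hWf]
        rw [glue_ge _ _ h0, hge' z h1]
        unfold ex
        rw [pow_zero, mul_one, abs_of_nonneg h0]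
        apply mul_le_mul hmn3 _ (Real.exp_pos _).le (by positivity)
        apply Real.exp_le_exp.2
        have e1 : -k * z ≤ max (KL : ℝ) (-k) * z :=
          mul_le_mul_of_nonneg_right (le_max_right _ _) h0
        have e2 : 0 ≤ -k * xn := mul_nonneg (by linarith) hxn0.le
        nlinarith
  · intro z
    have h1 := hres2 z
    have h2 := mul_pos hdd0 (hfpos z)
    linarith

end Crest.Agent.R146.Mk2_109
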