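import Mathlib
import Crest.Agent.R146.Mk2_109
import Crest.Agent.R146.DataM_109

/-!
Explicit data at `ν = 0.2936533` with relative margin and unimodality (row 146).
-/

set_option autoImplicit false

namespace Crest.Agent.R146.EndM_109

open Crest.Agent.R146.Encl_109 Crest.Agent.R146.Pc_109 Crest.Agent.R146.Mk_109
open Crest.Agent.R146.Mk2_109 Crest.Agent.R146.DataM_109

set_option maxRecDepth 100000 in
theorem pieces2 : (List.zipWith (Pm2 Q 2063467 2936533 5000000) (p0 :: pL)
    (q0 :: qM)).all id = true := by decide +kernel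

/-- explicit data at `0.2936533` -/
theorem data2 : ∃ S0 S1 S2 S3 f f1 f2 : ℝ → ℝ, DataMinus 0.2936533 S0 S1 S2 S3 f f1 f2 ∧
    Fin2 f1 f2 ∧
      ∃ d C : ℝ, 0 < d ∧ (∀ z, f2 z + S0 z * f1 z + 2 * 0.2936533 * f z ≤ -d * f z) ∧
        (∃ z0, (∀ z, z ≤ z0 → 0 ≤ f1 z) ∧ (∀ z, z0 ≤ z → f1 z ≤ 0)) ∧
        (∀ z, |f1 z| ≤ C * f z) ∧ (∀ z, |f2 z| ≤ C * f z) ∧ (∀ z, f z ≤ C) ∧
        Continuous f1 := by
  refine dataMinus2_of (Q := Q) (nA := 2063467) (nl := 2936533) (D := 5000000)
    (N0 := -316873259459477587181984) (M1 := 7795557917557115966992)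
    (AR := 441108208611352924422816) (A1 := 18889465815489272627712) (A2 := 115989308227072)
    (g0 := 75557863725888) (g := 19720240495741824) (gd := -1119627979691632) (KL := 3)
    (p := p0) (L := pL) (q := q0) (M := qM)
    (by decide +kernel) (by decide +kernel) (by norm_num) (by norm_num)
    (by norm_num) (by norm_num) (by decide +kernel) chainA chainP pieces2
    (by decide +kernel) (by decide +kernel) (by decide +kernel) (by decide +kernel)
    (by decide +kernel) (by decide +kernel) (by decide +kernel) (by decide +kernel)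
    (by decide +kernel) (by decide +kernel) (by decide +kernel) ?_
    (by decide +kernel) (by decide +kernel) (by decide +kernel) (by decide +kernel) ?_
    (by decide +kernel) (by decide +kernel) (by decide +kernel) (by decide +kernel) ?_
  · norm_num [Q]
  · norm_num [Q]
  · norm_num [Q]

end Crest.Agent.R146.EndM_109
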