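import Mathlib
import Crest.Agent.R146.EndP_109
import Crest.Agent.R146.EndM_109

/-!
End game input of the attractor lemma (row 146): for every self-similar profile with
`ν ≤ 0.2936533` there is an explicit positive test function `φ` with
`φ'' + A φ' + 2 ν φ ≤ - d φ`, and for every profile with `ν ≥ 0.2936535` a compactly supported one
with `φ'' + A φ' + 2 ν φ ≥ d` where it is nonnegative.
-/

set_option autoImplicit false

namespace Crest.Agent.R146.EndPsi_109

open Filter Topology Set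
open Crest.Agent.R146.Slide_109 Crest.Agent.R146.Prof_109 Crest.Agent.R146.Trans_109
open Crest.Agent.R146.Encl_109 Crest.Agent.R146.Mk2_109

theorem order_above {n : ℝ} {U0 U1 U2 U3 f f1 f2 : ℝ → ℝ}
    (D : DataPlus n U0 U1 U2 U3 f f1 f2) {ν : ℝ} (hn : n ≤ ν) {W V : ℝ → ℝ}
    (h : ProfD ν W V) :
    ∀ z1 z2, A ν W z2 ≤ U0 z1 → 1 - 2 * ν + 2 * ν * V z2 < U1 z1 := by
  have hν := h.pos
  have hν2 := h.lt
  have hmU : StrictMono U0 := strictMono_of_hasDerivAt_pos D.jet.d0 D.pos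
  have hS1 : ∀ z, 0 < 1 - 2 * ν + 2 * ν * V z := fun z => by
    have := h.V_nonneg z
    nlinarith [mul_nonneg hν.le this]
  have hmS : StrictMono (A ν W) := strictMono_of_hasDerivAt_pos h.jet.d0 hS1
  obtain ⟨c, hc1, hc2⟩ := D.lower
  obtain ⟨zR, hR1, hR2⟩ := D.right
  -- box
  have hbdd : ∃ B, ∀ z1 z2, A ν W z2 ≤ U0 z1 → U1 z1 ≤ 1 - 2 * ν + 2 * ν * V z2 →
      |z1| ≤ B ∧ |z2| ≤ B := by
    have hcc : 0 < (c - (1 - 2 * ν)) / (2 * ν) := div_pos (by linarith) (by linarith)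
    obtain ⟨Z, hZ⟩ := h.V_small hcc
    obtain ⟨Z1, hZ1⟩ := D.surj (A ν W Z)
    refine ⟨|zR| + |Z| + |Z1| + |U0 zR|, fun z1 z2 h1 h2 => ?_⟩
    have h3 : z1 < zR := by
      by_contra hcon
      push Not at hcon
      have h4 := hR1 z1 hcon
      have h5 := h.V_lt_one z2
      nlinarith [mul_pos hν (sub_pos.2 h5)]
    have h6 : Z < z2 := by
      by_contra hcon
      push Not at hcon
      have h7 := hZ z2 hcon
      rw [lt_div_iff₀ (by linarith)] at h7
      have h8 := hc2 z1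
      linarith
    have h9 : Z1 ≤ z1 := by
      by_contra hcon
      push Not at hcon
      have h10 := hmU hcon
      have h11 := hmS h6
      linarith
    have h12 : z2 ≤ U0 zR := (h.A_ge z2).trans (h1.trans (hmU.monotone h3.le))
    have e1 := le_abs_self zR
    have e2 := neg_abs_le Z
    have e3 := neg_abs_le Z1
    have e4 := le_abs_self (U0 zR)
    have p1 := abs_nonneg zR
    have p2 := abs_nonneg Z
    have p3 := abs_nonneg Z1
    have p4 := abs_nonneg (U0 zR)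
    constructor
    · rw [abs_le]; constructor <;> linarith
    · rw [abs_le]; constructor <;> linarith
  have hslide := slide h.jet D.jet hS1 D.pos D.surj
    (Or.inl fun z => mul_nonneg (by linarith) (h.X_nonneg z))
    (fun z1 z2 h1 h2 h3 => by
      have hV := h.V_lt_one z2
      have hlt1 : U1 z1 < 1 := by rw [h2]; nlinarith [mul_pos hν (sub_pos.2 hV)]
      have hz1 : z1 < zR := by
        by_contra hcon
        push Not at hcon
        have := hR1 z1 hcon
        linarith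
      have hN := hR2 z1 hz1
      have hX := mul_nonneg (by linarith : (0 : ℝ) ≤ 2 * ν) (h.X_nonneg z2)
      rw [h2, h3] at hN
      have h4 := mul_nonneg hX (sub_nonneg.2 h1)
      have h5 := mul_nonneg (sub_nonneg.2 hn) (sub_nonneg.2 hV.le)
      nlinarith [mul_nonneg hν.le h5])
    hbdd
  exact hslide

theorem order_below {n : ℝ} {S0 S1 S2 S3 g g1 g2 : ℝ → ℝ}
    (D : DataMinus n S0 S1 S2 S3 g g1 g2) {ν : ℝ} (hn : ν ≤ n) {W V : ℝ → ℝ}
    (h : ProfD ν W V) :
    ∀ z1 z2, S0 z2 ≤ A ν W z1 → S1 z2 < 1 - 2 * ν + 2 * ν * V z1 := by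
  have hν := h.pos
  have hν2 := h.lt
  have hmS : StrictMono S0 := strictMono_of_hasDerivAt_pos D.jet.d0 D.pos
  have hU1 : ∀ z, 0 < 1 - 2 * ν + 2 * ν * V z := fun z => by
    have := h.V_nonneg z
    nlinarith [mul_nonneg hν.le this]
  have hmU : StrictMono (A ν W) := strictMono_of_hasDerivAt_pos h.jet.d0 hU1
  obtain ⟨c, zL, hc1, hc2⟩ := D.left
  obtain ⟨zR, k, K, C, hk, htail⟩ := D.tail
  have cS1 : Continuous S1 := continuous_iff_continuousAt.2 fun z => (D.jet.d1 z).continuousAt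
  -- box
  have hbdd : ∃ B, ∀ z1 z2, S0 z2 ≤ A ν W z1 → 1 - 2 * ν + 2 * ν * V z1 ≤ S1 z2 →
      |z1| ≤ B ∧ |z2| ≤ B := by
    set C2 : ℝ := C + 2 * ν * W 0 with hC2
    obtain ⟨Z, hZ⟩ := exp_gauss_lt k K C2 hk
    set Z2 : ℝ := max (max zR Z) (C2 + 1) with hZ2
    obtain ⟨μx, hμx, hμ⟩ := isCompact_Icc.exists_isMaxOn
      (⟨min zL Z2, le_refl _, min_le_right _ _⟩ : (Icc (min zL Z2) Z2).Nonempty)
      cS1.continuousOn
    have hμ1 := D.lt_one μx
    have hμpos : 0 < 1 - S1 μx := by linarith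
    -- decay of 1 - V
    have hdec : ∃ Y : ℝ, 0 ≤ Y ∧ ∀ z, Y ≤ z → Real.exp (-(z ^ 2 / 2)) < 1 - S1 μx := by
      obtain ⟨Y, hY⟩ := exp_gauss_lt (1 - S1 μx) 0 0 hμpos
      refine ⟨max Y 0, le_max_right _ _, fun z hz => ?_⟩
      have := hY z ((le_max_left _ _).trans hz)
      simpa using this
    obtain ⟨Y, hY0, hY⟩ := hdec
    obtain ⟨Y1, hY1⟩ := h.A_surj (S0 zL)
    refine ⟨|zL| + |Z2| + |Y| + |Y1|, fun z1 z2 h1 h2 => ?_⟩
    have hV1 := h.V_nonneg z1
    have h3 : zL < z2 := by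
      by_contra hcon
      push Not at hcon
      have h4 := hc2 z2 hcon
      nlinarith [mul_nonneg hν.le hV1]
    have h5 : z2 < Z2 := by
      by_contra hcon
      push Not at hcon
      have e1 : zR ≤ z2 := (le_max_left _ _).trans ((le_max_left _ _).trans hcon)
      have e2 : Z ≤ z2 := (le_max_right _ _).trans ((le_max_left _ _).trans hcon)
      have e3 : C2 + 1 ≤ z2 := (le_max_right _ _).trans hcon
      obtain ⟨t1, t2⟩ := htail z2 e1
      have h6 : 0 ≤ z1 := by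
        by_contra hc0
        push Not at hc0
        have h7 := hmU hc0
        have h8 : A ν W 0 = 2 * ν * W 0 := by unfold A; ring
        rw [h8] at h7
        linarith
      have h9 := h.A_le h6
      have h10 : z2 - C2 ≤ z1 := by rw [hC2]; linarith
      have h11 := h.R_le h6
      have h12 : Real.exp (-(z1 ^ 2 / 2)) ≤ Real.exp (-((z2 - C2) ^ 2 / 2)) := by
        apply Real.exp_le_exp.2
        have : (z2 - C2) ^ 2 ≤ z1 ^ 2 := by
          apply pow_le_pow_left₀ (by linarith) h10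
        linarith
      have h13 := hZ z2 e2
      have h14 : 0 ≤ 1 - V z1 := by have := h.V_le_one z1; linarith
      nlinarith [mul_nonneg (by linarith : (0 : ℝ) ≤ 1 - 2 * ν) h14]
    have h6 : Y1 < z1 := by
      by_contra hcon
      push Not at hcon
      have h7 := hmU.monotone hcon
      have h8 := hmS h3
      rw [hY1] at h7
      linarith
    have h7 : z1 < Y := by
      by_contra hcon
      push Not at hcon
      have h8 := hY z1 hcon
      have h9 := h.R_le (hY0.trans hcon)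
      have h10 : S1 z2 ≤ S1 μx := hμ ⟨(min_le_left _ _).trans h3.le, h5.le⟩
      have h14 : 0 ≤ 1 - V z1 := by have := h.V_le_one z1; linarith
      nlinarith [mul_nonneg (by linarith : (0 : ℝ) ≤ 1 - 2 * ν) h14]
    have e1 := neg_abs_le zL
    have e2 := le_abs_self Z2
    have e3 := le_abs_self Y
    have e4 := neg_abs_le Y1
    have p1 := abs_nonneg zL
    have p2 := abs_nonneg Z2
    have p3 := abs_nonneg Y
    have p4 := abs_nonneg Y1
    constructor
    · rw [abs_le]; constructor <;> linarith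
    · rw [abs_le]; constructor <;> linarith
  have hslide := slide D.jet h.jet D.pos hU1 h.A_surj
    (Or.inr fun z => mul_nonneg (by linarith) (h.X_nonneg z))
    (fun z1 z2 h1 h2 h3 => by
      have hN := D.res z2
      have hV := h.V_le_one z1
      have hX := mul_nonneg (by linarith : (0 : ℝ) ≤ 2 * ν) (h.X_nonneg z1)
      rw [← h2, ← h3] at hN
      have h4 := mul_nonneg hX (sub_nonneg.2 h1)
      have h5 := mul_nonneg (sub_nonneg.2 hn) (sub_nonneg.2 hV)
      nlinarith [mul_nonneg hν.le h5])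
    hbdd
  exact hslide

/-- Gaussian decay of `V = W'` on the left -/
lemma V_le {ν : ℝ} {W V : ℝ → ℝ} (h : ProfD ν W V) {z : ℝ} (hz : z ≤ 0) :
    V z ≤ Real.exp (-((1 - 2 * ν) * (z ^ 2 / 2) + 2 * ν * W 0 * z)) := by
  have hmono := mf_mono_of h.contA h.d1 (fun w => by
    have := h.W_nonneg w
    linarith)
  have h1 := hmono hz
  simp only [mf_zero, one_mul] at h1
  have h2 := h.V_le_one 0
  have h3 := h.m_ge_left hz
  have h4 := h.V_nonneg z
  have h5 : Real.exp ((1 - 2 * ν) * (z ^ 2 / 2) + 2 * ν * W 0 * z) * V z ≤ 1 :=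
    (mul_le_mul_of_nonneg_right h3 h4).trans (h1.trans h2)
  rw [Real.exp_neg, ← one_div, le_div_iff₀ (Real.exp_pos _)]
  linarith

/-- positive test function at small `ν` -/
structure TestM (ν : ℝ) (a : ℝ → ℝ) (d K : ℝ) (φ φ1 φ2 : ℝ → ℝ) : Prop where
  d0 : ∀ z, HasDerivAt φ (φ1 z) z
  d1 : ∀ z, HasDerivWithinAt φ1 (φ2 z) (Ici z) z
  c1 : Continuous φ1
  fin : ∃ S : Finset ℝ, ∀ z, z ∉ S → HasDerivAt φ1 (φ2 z) z ∧ ContinuousAt φ2 z
  res : ∀ z, φ2 z + a z * φ1 z + 2 * ν * φ z ≤ -(d * φ z)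
  mode : ∃ z0, (∀ z, z ≤ z0 → 0 ≤ φ1 z) ∧ (∀ z, z0 ≤ z → φ1 z ≤ 0)
  lo : ∃ k, 0 < k ∧ ∀ z, k * Real.exp (-(K * |z|)) ≤ φ z
  hi : ∃ C, ∀ z, φ z ≤ C ∧ |φ1 z| ≤ C * φ z ∧ |φ2 z| ≤ C * φ z

/-- compactly supported test function at large `ν` -/
structure TestP (ν : ℝ) (a : ℝ → ℝ) (d α β : ℝ) (φ φ1 φ2 : ℝ → ℝ) : Prop where
  d0 : ∀ z, HasDerivAt φ (φ1 z) z
  d1 : ∀ z, HasDerivWithinAt φ1 (φ2 z) (Ici z) z
  c1 : Continuous φ1
  fin : ∃ S : Finset ℝ, ∀ z, z ∉ S → HasDerivAt φ1 (φ2 z) z ∧ ContinuousAt φ2 z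
  lt : α < β
  zl : φ α ≤ 0
  zr : φ β ≤ 0
  ex : ∃ z, α ≤ z ∧ z ≤ β ∧ 0 < φ z
  res : ∀ z, α ≤ z → z < β → 0 ≤ φ z → d ≤ φ2 z + a z * φ1 z + 2 * ν * φ z
  mode : ∃ z0, α ≤ z0 ∧ z0 ≤ β ∧ (∀ z, α ≤ z → z ≤ z0 → 0 ≤ φ1 z) ∧
    (∀ z, z0 ≤ z → z ≤ β → φ1 z ≤ 0)
  hi : ∃ C, ∀ z, α ≤ z → z < β → |φ2 z| ≤ C

lemma fin_shift {f1 f2 : ℝ → ℝ} (h : Fin2 f1 f2) (s : ℝ) :
    ∃ S : Finset ℝ, ∀ z, z ∉ S →
      HasDerivAt (fun z => f1 (z + s)) (f2 (z + s)) z ∧ ContinuousAt (fun z => f2 (z + s)) z := by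
  classical
  obtain ⟨S, hS⟩ := h
  refine ⟨S.image (fun z => z - s), fun z hz => ?_⟩
  have h1 : z + s ∉ S := by
    intro hcon
    apply hz
    rw [Finset.mem_image]
    exact ⟨z + s, hcon, by ring⟩
  have h2 := hS _ h1
  refine ⟨h2.1.comp_add_const z s, ?_⟩
  have h3 : ContinuousAt (fun z : ℝ => z + s) z := (continuous_id.add continuous_const).continuousAt
  exact ContinuousAt.comp (f := fun z : ℝ => z + s) (g := f2) h2.2 h3

lemma shift_right {f1 : ℝ → ℝ} {d z s : ℝ} (h : HasDerivWithinAt f1 d (Ici (z + s)) (z + s)) :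
    HasDerivWithinAt (fun z => f1 (z + s)) d (Ici z) z := by
  have h1 : HasDerivWithinAt (fun z : ℝ => z + s) 1 (Ici z) z :=
    ((hasDerivAt_id z).add_const s).hasDerivWithinAt
  have h2 := HasDerivWithinAt.comp (h := fun z : ℝ => z + s) z h h1
    (fun w hw => by simp only [mem_Ici] at hw ⊢; linarith)
  rw [mul_one] at h2
  exact h2

/-- **Test functions below.** -/
theorem psi_minus : ∃ d K : ℝ, 0 < d ∧ 0 ≤ K ∧ ∀ (ν : ℝ) (W V : ℝ → ℝ), ProfD ν W V →
    ν ≤ 0.2936533 → ∃ φ φ1 φ2 : ℝ → ℝ, TestM ν (A ν W) d K φ φ1 φ2 := by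
  obtain ⟨S0, S1, S2, S3, f, f1, f2, D, hfin, d, C, hd, hres, hmode, hb1, hb2, hC, hc1⟩ :=
    EndM_109.data2
  obtain ⟨k, K, hk, hK, hlo⟩ := D.gpos
  have hfpos : ∀ z, 0 < f z := fun z => lt_of_lt_of_le (mul_pos hk (Real.exp_pos _)) (hlo z)
  refine ⟨d, K, hd, hK, fun ν W V h hν => ?_⟩
  obtain ⟨z0, hm1, hm2⟩ := hmode
  have hord := order_below D hν h
  -- choose the shift: `A (z0 - s) = S0 z0`
  obtain ⟨y0, hy0⟩ := h.A_surj (S0 z0)
  obtain ⟨s, ho1, ho2⟩ := order_sub D.jet.d0 h.jet.d0 D.pos D.surj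
    (fun z1 z2 hz => hord z1 z2 hz.ge) y0
  -- the matched point: S0 (y0 + s) = A y0 = S0 z0
  have hmS : StrictMono S0 := strictMono_of_hasDerivAt_pos D.jet.d0 D.pos
  have hs : y0 + s = z0 := by
    apply hmS.injective
    have e1 := ho1 y0 le_rfl
    have e2 := ho2 y0 le_rfl
    linarith
  refine ⟨fun z => f (z + s), fun z => f1 (z + s), fun z => f2 (z + s), ?_⟩
  refine ⟨fun z => (D.g0 (z + s)).comp_add_const z s, fun z => shift_right (D.g1' (z + s)),
    hc1.comp (continuous_id.add continuous_const), fin_shift hfin s, fun z => ?_,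
    ⟨y0, fun z hz => hm1 _ (by linarith), fun z hz => hm2 _ (by linarith)⟩,
    ⟨k * Real.exp (-(K * |s|)), by positivity, fun z => ?_⟩, ⟨C, fun z => ⟨hC _, hb1 _, hb2 _⟩⟩⟩
  · have h1 := hres (z + s)
    have hp := hfpos (z + s)
    have h2 : (A ν W z - S0 (z + s)) * f1 (z + s) ≤ 0 := by
      rcases le_total z y0 with hz | hz
      · exact mul_nonpos_of_nonpos_of_nonneg (by linarith [ho1 z hz]) (hm1 _ (by linarith))
      · exact mul_nonpos_of_nonneg_of_nonpos (by linarith [ho2 z hz]) (hm2 _ (by linarith))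
    have h3 := mul_nonneg (sub_nonneg.2 hν) hp.le
    nlinarith
  · refine le_trans ?_ (hlo (z + s))
    rw [mul_assoc, ← Real.exp_add]
    apply mul_le_mul_of_nonneg_left _ hk.le
    apply Real.exp_le_exp.2
    have := mul_le_mul_of_nonneg_left (abs_add_le z s) hK
    linarith

/-- **Test functions above.** -/
theorem psi_plus : ∃ d : ℝ, 0 < d ∧ ∀ (ν : ℝ) (W V : ℝ → ℝ), ProfD ν W V →
    0.2936535 ≤ ν → ∃ (α β : ℝ) (φ φ1 φ2 : ℝ → ℝ), TestP ν (A ν W) d α β φ φ1 φ2 := by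
  obtain ⟨U0, U1, U2, U3, f, f1, f2, D, hfin, d, α, β, hd, hαβ, hα, hβ, hex, hres, hmode, hC, hc1⟩ :=
    EndP_109.data
  refine ⟨d, hd, fun ν W V h hν => ?_⟩
  obtain ⟨z0, hz1, hz2, hm1, hm2⟩ := hmode
  have hord := order_above D hν h
  obtain ⟨y0, hy0⟩ := h.A_surj (U0 z0)
  obtain ⟨s, ho1, ho2⟩ := order_super h.jet.d0 D.jet.d0 D.pos D.surj
    (fun z1 z2 hz => hord z1 z2 hz.ge) y0
  have hmU : StrictMono U0 := strictMono_of_hasDerivAt_pos D.jet.d0 D.pos
  have hs : y0 + s = z0 := by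
    apply hmU.injective
    have e1 := ho1 y0 le_rfl
    have e2 := ho2 y0 le_rfl
    linarith
  refine ⟨α - s, β - s, fun z => f (z + s), fun z => f1 (z + s), fun z => f2 (z + s), ?_⟩
  refine ⟨fun z => (D.g0 (z + s)).comp_add_const z s, fun z => shift_right (D.g1 (z + s)),
    hc1.comp (continuous_id.add continuous_const), fin_shift hfin s, by linarith, ?_, ?_, ?_,
    fun z e1 e2 e3 => ?_, ⟨y0, by linarith, by linarith, fun z e1 e2 => hm1 _ (by linarith)
      (by linarith), fun z e1 e2 => hm2 _ (by linarith) (by linarith)⟩, ?_⟩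
  · simpa using hα
  · simpa using hβ
  · obtain ⟨z, e1, e2, e3⟩ := hex
    exact ⟨z - s, by linarith, by linarith, by simpa using e3⟩
  · have h1 := hres (z + s) (by linarith) (by linarith)
    have h2 : 0 ≤ (A ν W z - U0 (z + s)) * f1 (z + s) := by
      rcases le_total z y0 with hz | hz
      · exact mul_nonneg (by linarith [ho1 z hz]) (hm1 _ (by linarith) (by linarith))
      · exact mul_nonneg_of_nonpos_of_nonpos (by linarith [ho2 z hz])
          (hm2 _ (by linarith) (by linarith))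
    have h3 := mul_nonneg (sub_nonneg.2 hν) e3
    nlinarith
  · obtain ⟨C, hC⟩ := hC
    exact ⟨C, fun z e1 e2 => hC _ (by linarith) (by linarith)⟩

end Crest.Agent.R146.EndPsi_109
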