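import Crest.Agent.R146.EulM_684

/-!
Row 146, package PT-STEP, note 3 (L3), bridge R3 in Euler form: `E2`, the martingale property of the
Euler chain up to a small error (helper684).

* `one_step` : `E[φ(X_{k+1}) | F_k] = H(√h) φ (X_k + h β(t_k, X_k))`;
* `tele`     : `E[F(t_m, X_m) | F_k] = F(t_k, X_k) + E[Σ_{j=k}^{m-1} err_j(X_j) | F_k]`;
* `e2`       : `E2`.
-/

set_option autoImplicit false

namespace Crest.Agent.R146.EulE2_684

open MeasureTheory ProbabilityTheory Set Filter Topology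
open Crest.ProbabilityR.Perceptron
open Crest.Agent.R146.Hg_534 (H)
open Crest.Agent.R146.StepIf_791 Crest.Agent.R146.EulM_684
open scoped NNReal

variable {Ω : Type*} {mΩ : MeasurableSpace Ω} {P : Measure Ω} {B : ℝ≥0 → Ω → ℝ}

/-- Gaussian averages of variance `h` -/
theorem gauss_H {h : ℝ} (hh : 0 ≤ h) {φ : ℝ → ℝ} (hφ : Measurable φ) (x : ℝ) :
    ∫ y, φ (x + y) ∂gaussianReal 0 h.toNNReal = H (Real.sqrt h) φ x := by
  have h1 : (gaussianReal 0 1).map (fun g => Real.sqrt h * g) = gaussianReal 0 h.toNNReal := by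
    have := gaussianReal_map_const_mul (μ := 0) (v := 1) (Real.sqrt h)
    rw [this, mul_zero, mul_one]
    congr 1
    apply NNReal.coe_injective
    rw [Real.coe_toNNReal _ hh]
    exact Real.sq_sqrt hh
  have h2 : Measurable (fun y => φ (x + y)) := hφ.comp (measurable_const_add x)
  rw [← h1, integral_map (by fun_prop) h2.aestronglyMeasurable]
  rfl

/-- one step of the chain -/
theorem one_step [IsProbabilityMeasure P] (hB : IsBrownianReal B P)
    (hBm : ∀ t, Measurable (B t)) {β : ℝ → ℝ → ℝ} (hβ : ∀ r, Measurable (β r)) (x0 : ℝ)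
    {t : ℕ → ℝ} {N : ℕ} (h0 : t 0 = 0) (h : ∀ k < N, t k ≤ t (k + 1)) {k : ℕ} (hk : k < N)
    {φ : ℝ → ℝ} (hφ : Measurable φ) (hi : Integrable (fun ω => φ (Ch B β t x0 (k + 1) ω)) P) :
    P[fun ω => φ (Ch B β t x0 (k + 1) ω) | brownianFiltration B hBm (t k).toNNReal] =ᵐ[P]
      fun ω => H (Real.sqrt (t (k + 1) - t k)) φ
        (Ch B β t x0 k ω + (t (k + 1) - t k) * β (t k) (Ch B β t x0 k ω)) := by
  have hst : t k ≤ t (k + 1) := h k hk
  have htk : 0 ≤ t k := grid_nonneg h0 h hk.le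
  have hY := Y_meas (B := B) hBm hβ h x0 hk.le (t (k + 1) - t k)
  have hm : Measurable (fun ω => B (t (k + 1)).toNNReal ω - B (t k).toNNReal ω) :=
    (hBm _).sub (hBm _)
  have hf : Measurable (fun q : ℝ × ℝ => φ (q.1 + q.2)) := hφ.comp (by fun_prop)
  have key := LipB_861.condExp_freeze (P := P) ((brownianFiltration B hBm).le (t k).toNNReal) hY hm
    (indep_incr hB hBm (Real.toNNReal_le_toNNReal hst)) hf hi
  refine key.trans (Eventually.of_forall fun ω => ?_)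
  simp only
  rw [map_incr hB htk hst]
  exact gauss_H (by linarith) hφ _

/-- `|Σ err|² ≤ Σ h (2 ε² + 2 C²/K² (1+|X|)^{2n+2})` -/
theorem sum_sq_le {ι : Type*} (s : Finset ι) (hh a e : ι → ℝ) (hh0 : ∀ j ∈ s, 0 ≤ hh j)
    (hs : ∑ j ∈ s, hh j ≤ 1) (ha : ∀ j ∈ s, |e j| ≤ hh j * a j) :
    (∑ j ∈ s, e j) ^ 2 ≤ ∑ j ∈ s, hh j * a j ^ 2 := by
  have h1 : |∑ j ∈ s, e j| ≤ ∑ j ∈ s, hh j * a j :=
    (Finset.abs_sum_le_sum_abs _ _).trans (Finset.sum_le_sum ha)
  have h2 : (∑ j ∈ s, hh j * a j) ^ 2 ≤ (∑ j ∈ s, hh j) * ∑ j ∈ s, hh j * a j ^ 2 :=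
    Finset.sum_sq_le_sum_mul_sum_of_sq_le_mul s hh0
      (fun j hj => mul_nonneg (hh0 j hj) (sq_nonneg _)) fun j _ => le_of_eq (by ring)
  have h3 : 0 ≤ ∑ j ∈ s, hh j * a j ^ 2 :=
    Finset.sum_nonneg fun j hj => mul_nonneg (hh0 j hj) (sq_nonneg _)
  calc (∑ j ∈ s, e j) ^ 2 = |∑ j ∈ s, e j| ^ 2 := (sq_abs _).symm
    _ ≤ (∑ j ∈ s, hh j * a j) ^ 2 := pow_le_pow_left₀ (abs_nonneg _) h1 2
    _ ≤ (∑ j ∈ s, hh j) * ∑ j ∈ s, hh j * a j ^ 2 := h2
    _ ≤ 1 * ∑ j ∈ s, hh j * a j ^ 2 := mul_le_mul_of_nonneg_right hs h3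
    _ = _ := one_mul _

section Main

variable [IsProbabilityMeasure P] (hB : IsBrownianReal B P) (hBm : ∀ t, Measurable (B t))
  {M x0 C : ℝ} {n : ℕ} {β F : ℝ → ℝ → ℝ} {t : ℕ → ℝ} {N : ℕ} {K ε : ℝ}

include hB hBm

theorem f_int (hβ : ∀ r, Measurable (β r)) (hβM : ∀ r x, |β r x| ≤ M * (1 + |x|)) (h0 : t 0 = 0)
    (h : ∀ k < N, t k ≤ t (k + 1)) (hN : t N ≤ 1) (hF : ∀ k ≤ N, Continuous (F (t k)))
    (hFC : ∀ k ≤ N, ∀ x, |F (t k) x| ≤ C * (1 + |x|) ^ n) {k : ℕ} (hk : k ≤ N) :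
    MemLp (fun ω => F (t k) (Ch B β t x0 k ω)) 2 P := by
  have hC : 0 ≤ C := by
    have := hFC k hk 0
    simp only [abs_zero, add_zero, one_pow, mul_one] at this
    exact (abs_nonneg _).trans this
  have hm := Ch_meas' (B := B) hBm hβ h x0 hk
  have hfm : Measurable (fun ω => F (t k) (Ch B β t x0 k ω)) := (hF k hk).measurable.comp hm
  rw [memLp_two_iff_integrable_sq hfm.aestronglyMeasurable]
  have i1 := (moments hB hBm x0 (2 * n) hβ hβM h0 h hN hk).1
  refine Integrable.mono' (i1.const_mul (C ^ 2)) (hfm.pow_const 2).aestronglyMeasurable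
    (Eventually.of_forall fun ω => ?_)
  rw [Real.norm_eq_abs, abs_of_nonneg (sq_nonneg _), ← sq_abs]
  calc |F (t k) (Ch B β t x0 k ω)| ^ 2 ≤ (C * (1 + |Ch B β t x0 k ω|) ^ n) ^ 2 :=
        pow_le_pow_left₀ (abs_nonneg _) (hFC k hk _) 2
    _ = _ := by rw [mul_pow, ← pow_mul, mul_comm n 2]

/-- the Euler error at step `j` is a conditional mean -/
theorem err_ae (hβ : ∀ r, Measurable (β r)) (hβM : ∀ r x, |β r x| ≤ M * (1 + |x|)) (h0 : t 0 = 0)
    (h : ∀ k < N, t k ≤ t (k + 1)) (hN : t N ≤ 1) (hF : ∀ k ≤ N, Continuous (F (t k)))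
    (hFC : ∀ k ≤ N, ∀ x, |F (t k) x| ≤ C * (1 + |x|) ^ n) {k : ℕ} (hk : k < N) :
    P[fun ω => F (t (k + 1)) (Ch B β t x0 (k + 1) ω) | brownianFiltration B hBm (t k).toNNReal]
      =ᵐ[P] fun ω => F (t k) (Ch B β t x0 k ω) +
        err β F (t k) (t (k + 1) - t k) (Ch B β t x0 k ω) := by
  have h1 : MemLp (fun ω => F (t (k + 1)) (Ch B β t x0 (k + 1) ω)) 2 P :=
    f_int hB hBm hβ hβM h0 h hN hF hFC hk
  refine (one_step hB hBm hβ x0 h0 h hk (hF (k + 1) hk).measurable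
    (h1.integrable (by norm_num))).trans (Eventually.of_forall fun ω => ?_)
  simp only [err]
  rw [add_sub_cancel (t k) (t (k + 1))]
  ring

theorem err_int (hβ : ∀ r, Measurable (β r)) (hβM : ∀ r x, |β r x| ≤ M * (1 + |x|)) (h0 : t 0 = 0)
    (h : ∀ k < N, t k ≤ t (k + 1)) (hN : t N ≤ 1) (hF : ∀ k ≤ N, Continuous (F (t k)))
    (hFC : ∀ k ≤ N, ∀ x, |F (t k) x| ≤ C * (1 + |x|) ^ n) {k : ℕ} (hk : k < N) :
    Integrable (fun ω => err β F (t k) (t (k + 1) - t k) (Ch B β t x0 k ω)) P := by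
  have h1 := err_ae (x0 := x0) hB hBm hβ hβM h0 h hN hF hFC hk
  have h2 : Integrable (fun ω => F (t k) (Ch B β t x0 k ω)) P :=
    (f_int hB hBm hβ hβM h0 h hN hF hFC hk.le).integrable (by norm_num)
  have h3 : Integrable (P[fun ω => F (t (k + 1)) (Ch B β t x0 (k + 1) ω) |
      brownianFiltration B hBm (t k).toNNReal]) P := integrable_condExp
  refine (h3.sub h2).congr (h1.mono fun ω hω => ?_)
  simp only [Pi.sub_apply]
  rw [hω]
  ring

/-- telescoping -/
theorem tele (hβ : ∀ r, Measurable (β r)) (hβM : ∀ r x, |β r x| ≤ M * (1 + |x|)) (h0 : t 0 = 0)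
    (h : ∀ k < N, t k ≤ t (k + 1)) (hN : t N ≤ 1) (hF : ∀ k ≤ N, Continuous (F (t k)))
    (hFC : ∀ k ≤ N, ∀ x, |F (t k) x| ≤ C * (1 + |x|) ^ n) {k m : ℕ} (hkm : k ≤ m) (hm : m ≤ N) :
    P[fun ω => F (t m) (Ch B β t x0 m ω) | brownianFiltration B hBm (t k).toNNReal] =ᵐ[P]
      fun ω => F (t k) (Ch B β t x0 k ω) + (P[fun ω => ∑ j ∈ Finset.Ico k m,
        err β F (t j) (t (j + 1) - t j) (Ch B β t x0 j ω) |
          brownianFiltration B hBm (t k).toNNReal]) ω := by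
  induction m, hkm using Nat.le_induction with
  | base =>
    have h1 : Measurable[brownianFiltration B hBm (t k).toNNReal]
        (fun ω => F (t k) (Ch B β t x0 k ω)) := (hF k hm).measurable.comp (Ch_meas hBm hβ h x0 hm)
    have h2 : Integrable (fun ω => F (t k) (Ch B β t x0 k ω)) P :=
      (f_int hB hBm hβ hβM h0 h hN hF hFC hm).integrable (by norm_num)
    rw [condExp_of_stronglyMeasurable ((brownianFiltration B hBm).le _) h1.stronglyMeasurable h2]
    simp only [Finset.Ico_self, Finset.sum_empty]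
    have h3 : P[fun _ : Ω => (0 : ℝ) | brownianFiltration B hBm (t k).toNNReal] = fun _ => 0 :=
      condExp_const ((brownianFiltration B hBm).le _) 0
    rw [h3]
    exact Eventually.of_forall fun ω => by simp
  | succ m hkm ih =>
    have hmN : m < N := hm
    have ih' := ih hmN.le
    have hle : brownianFiltration B hBm (t k).toNNReal ≤ brownianFiltration B hBm (t m).toNNReal :=
      (brownianFiltration B hBm).mono
        (Real.toNNReal_le_toNNReal (grid_mono h hkm hmN.le))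
    have i1 : Integrable (fun ω => F (t m) (Ch B β t x0 m ω)) P :=
      (f_int hB hBm hβ hβM h0 h hN hF hFC hmN.le).integrable (by norm_num)
    have i2 : Integrable (fun ω => err β F (t m) (t (m + 1) - t m) (Ch B β t x0 m ω)) P :=
      err_int hB hBm hβ hβM h0 h hN hF hFC hmN
    have i3 : Integrable (fun ω => ∑ j ∈ Finset.Ico k m,
        err β F (t j) (t (j + 1) - t j) (Ch B β t x0 j ω)) P :=
      integrable_finsetSum _ fun j hj =>
        err_int hB hBm hβ hβM h0 h hN hF hFC ((Finset.mem_Ico.1 hj).2.trans hmN)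
    have s1 := condExp_condExp_of_le (μ := P)
      (f := fun ω => F (t (m + 1)) (Ch B β t x0 (m + 1) ω)) hle ((brownianFiltration B hBm).le _)
    have s2 := condExp_congr_ae (m := brownianFiltration B hBm (t k).toNNReal)
      (err_ae (x0 := x0) hB hBm hβ hβM h0 h hN hF hFC hmN)
    have s3 := condExp_add i1 i2 (brownianFiltration B hBm (t k).toNNReal)
    have s4 := condExp_add i3 i2 (brownianFiltration B hBm (t k).toNNReal)
    have e5 : (fun ω => ∑ j ∈ Finset.Ico k (m + 1),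
        err β F (t j) (t (j + 1) - t j) (Ch B β t x0 j ω)) =
        (fun ω => ∑ j ∈ Finset.Ico k m, err β F (t j) (t (j + 1) - t j) (Ch B β t x0 j ω)) +
        fun ω => err β F (t m) (t (m + 1) - t m) (Ch B β t x0 m ω) := by
      funext ω
      simp only [Pi.add_apply]
      rw [Finset.sum_Ico_succ_top hkm]
    rw [e5]
    filter_upwards [s1, s2, s3, s4, ih'] with ω w1 w2 w3 w4 w5
    rw [← w1, w2]
    refine (w3.trans ?_)
    rw [w4]
    simp only [Pi.add_apply]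
    rw [w5]
    ring

theorem main (hβ : ∀ r, Measurable (β r)) (hβM : ∀ r x, |β r x| ≤ M * (1 + |x|)) (h0 : t 0 = 0)
    (h : ∀ k < N, t k ≤ t (k + 1)) (hN : t N ≤ 1) (hF : ∀ k ≤ N, Continuous (F (t k)))
    (hFC : ∀ k ≤ N, ∀ x, |F (t k) x| ≤ C * (1 + |x|) ^ n) (hK : 0 < K) (hε : 0 ≤ ε)
    (hE1 : ∀ k < N, ∀ x, |x| ≤ K → |err β F (t k) (t (k + 1) - t k) x| ≤ ε * (t (k + 1) - t k))
    (hE2 : ∀ k < N, ∀ x, |err β F (t k) (t (k + 1) - t k) x| ≤
      (t (k + 1) - t k) * (C * (1 + |x|) ^ n)) {k : ℕ} (hk : k ≤ N) :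
    ∫ ω, ((P[fun ω => F (t N) (Ch B β t x0 N ω) | brownianFiltration B hBm (t k).toNNReal]) ω -
        F (t k) (Ch B β t x0 k ω)) ^ 2 ∂P ≤
      2 * (ε ^ 2 + C ^ 2 * CM M x0 (2 * (n + 1)) / K ^ 2) := by
  have hC : 0 ≤ C := by
    have := hFC k hk 0
    simp only [abs_zero, add_zero, one_pow, mul_one] at this
    exact (abs_nonneg _).trans this
  set S : Ω → ℝ := fun ω => ∑ j ∈ Finset.Ico k N,
    err β F (t j) (t (j + 1) - t j) (Ch B β t x0 j ω) with hSdef
  have hIco : ∀ j ∈ Finset.Ico k N, j < N := fun j hj => (Finset.mem_Ico.1 hj).2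
  have hSi : Integrable S P := integrable_finsetSum _ fun j hj =>
    err_int hB hBm hβ hβM h0 h hN hF hFC (hIco j hj)
  -- pointwise bound of one error
  set a : ℕ → Ω → ℝ := fun j ω => ε + C * (1 + |Ch B β t x0 j ω|) ^ (n + 1) / K with hadef
  have herr : ∀ ω, ∀ j ∈ Finset.Ico k N,
      |err β F (t j) (t (j + 1) - t j) (Ch B β t x0 j ω)| ≤ (t (j + 1) - t j) * a j ω := by
    intro ω j hj
    have hh : 0 ≤ t (j + 1) - t j := by
      have := h j (hIco j hj)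
      linarith
    have hp : 0 ≤ C * (1 + |Ch B β t x0 j ω|) ^ (n + 1) / K := by positivity
    rcases le_total |Ch B β t x0 j ω| K with hx | hx
    · refine (hE1 j (hIco j hj) _ hx).trans ?_
      rw [mul_comm]
      refine mul_le_mul_of_nonneg_left ?_ hh
      simp only [hadef]
      linarith
    · refine (hE2 j (hIco j hj) _).trans (mul_le_mul_of_nonneg_left ?_ hh)
      simp only [hadef]
      have h1 : C * (1 + |Ch B β t x0 j ω|) ^ n ≤ C * (1 + |Ch B β t x0 j ω|) ^ (n + 1) / K := by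
        rw [le_div_iff₀ hK, pow_succ, ← mul_assoc]
        refine mul_le_mul_of_nonneg_left ?_ (by positivity)
        linarith
      linarith
  have hh0 : ∀ j ∈ Finset.Ico k N, 0 ≤ t (j + 1) - t j := fun j hj => by
    have := h j (hIco j hj)
    linarith
  have hsum : ∑ j ∈ Finset.Ico k N, (t (j + 1) - t j) = t N - t k := Finset.sum_Ico_sub t hk
  have hsum1 : ∑ j ∈ Finset.Ico k N, (t (j + 1) - t j) ≤ 1 := by
    rw [hsum]
    have := grid_nonneg h0 h hk
    linarith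
  have hSsq : ∀ ω, S ω ^ 2 ≤ ∑ j ∈ Finset.Ico k N, (t (j + 1) - t j) * a j ω ^ 2 := fun ω =>
    sum_sq_le _ (fun j => t (j + 1) - t j) (fun j => a j ω) _ hh0 hsum1 (herr ω)
  have hasq : ∀ j ω, a j ω ^ 2 ≤
      2 * ε ^ 2 + 2 * C ^ 2 / K ^ 2 * (1 + |Ch B β t x0 j ω|) ^ (2 * (n + 1)) := by
    intro j ω
    simp only [hadef]
    have h1 : (1 + |Ch B β t x0 j ω|) ^ (2 * (n + 1)) = ((1 + |Ch B β t x0 j ω|) ^ (n + 1)) ^ 2 := by
      rw [← pow_mul, mul_comm]
    rw [h1]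
    generalize (1 + |Ch B β t x0 j ω|) ^ (n + 1) = y
    have h2 : 2 * C ^ 2 / K ^ 2 * y ^ 2 = 2 * (C * y / K) ^ 2 := by
      field_simp
    rw [h2]
    nlinarith [sq_nonneg (ε - C * y / K)]
  have hmom : ∀ j ∈ Finset.Ico k N,
      Integrable (fun ω => (1 + |Ch B β t x0 j ω|) ^ (2 * (n + 1))) P ∧
      ∫ ω, (1 + |Ch B β t x0 j ω|) ^ (2 * (n + 1)) ∂P ≤ CM M x0 (2 * (n + 1)) := fun j hj =>
    moments hB hBm x0 _ hβ hβM h0 h hN (hIco j hj).le
  -- the dominating function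
  set G : Ω → ℝ := fun ω => ∑ j ∈ Finset.Ico k N, (t (j + 1) - t j) *
    (2 * ε ^ 2 + 2 * C ^ 2 / K ^ 2 * (1 + |Ch B β t x0 j ω|) ^ (2 * (n + 1))) with hGdef
  have hGj : ∀ j ∈ Finset.Ico k N, Integrable (fun ω => (t (j + 1) - t j) *
      (2 * ε ^ 2 + 2 * C ^ 2 / K ^ 2 * (1 + |Ch B β t x0 j ω|) ^ (2 * (n + 1)))) P := fun j hj =>
    ((integrable_const _).add ((hmom j hj).1.const_mul _)).const_mul _
  have hGi : Integrable G P := integrable_finsetSum _ hGj
  have hSG : ∀ ω, S ω ^ 2 ≤ G ω := fun ω => (hSsq ω).trans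
    (Finset.sum_le_sum fun j hj => mul_le_mul_of_nonneg_left (hasq j ω) (hh0 j hj))
  have hGint : ∫ ω, G ω ∂P ≤ 2 * (ε ^ 2 + C ^ 2 * CM M x0 (2 * (n + 1)) / K ^ 2) := by
    have e1 : ∫ ω, G ω ∂P = ∑ j ∈ Finset.Ico k N, (t (j + 1) - t j) *
        (2 * ε ^ 2 + 2 * C ^ 2 / K ^ 2 * ∫ ω, (1 + |Ch B β t x0 j ω|) ^ (2 * (n + 1)) ∂P) := by
      rw [hGdef]
      simp only
      rw [integral_finsetSum _ hGj]
      refine Finset.sum_congr rfl fun j hj => ?_
      rw [integral_const_mul, integral_add (integrable_const _) ((hmom j hj).1.const_mul _),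
        integral_const, integral_const_mul]
      simp
    rw [e1]
    have e2 : ∀ j ∈ Finset.Ico k N, (t (j + 1) - t j) *
        (2 * ε ^ 2 + 2 * C ^ 2 / K ^ 2 * ∫ ω, (1 + |Ch B β t x0 j ω|) ^ (2 * (n + 1)) ∂P) ≤
        (t (j + 1) - t j) * (2 * (ε ^ 2 + C ^ 2 * CM M x0 (2 * (n + 1)) / K ^ 2)) := by
      intro j hj
      refine mul_le_mul_of_nonneg_left ?_ (hh0 j hj)
      have h1 : 2 * C ^ 2 / K ^ 2 * ∫ ω, (1 + |Ch B β t x0 j ω|) ^ (2 * (n + 1)) ∂P ≤
          2 * C ^ 2 / K ^ 2 * CM M x0 (2 * (n + 1)) :=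
        mul_le_mul_of_nonneg_left (hmom j hj).2 (by positivity)
      calc _ ≤ 2 * ε ^ 2 + 2 * C ^ 2 / K ^ 2 * CM M x0 (2 * (n + 1)) := by linarith
        _ = _ := by ring
    refine (Finset.sum_le_sum e2).trans ?_
    rw [← Finset.sum_mul]
    have h3 : 0 ≤ 2 * (ε ^ 2 + C ^ 2 * CM M x0 (2 * (n + 1)) / K ^ 2) := by
      have := CM_nonneg M x0 (2 * (n + 1))
      positivity
    exact mul_le_of_le_one_left h3 hsum1
  have hSsqi : Integrable (fun ω => S ω ^ 2) P := by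
    refine Integrable.mono' hGi (hSi.aestronglyMeasurable.pow 2) (Eventually.of_forall fun ω => ?_)
    rw [Real.norm_eq_abs, abs_of_nonneg (sq_nonneg _)]
    exact hSG ω
  -- conditional Jensen
  have hJ : ∀ᵐ ω ∂P, (P[S | brownianFiltration B hBm (t k).toNNReal]) ω ^ 2 ≤
      (P[fun ω => S ω ^ 2 | brownianFiltration B hBm (t k).toNNReal]) ω := by
    have hi : Integrable (fun ω => ‖S ω‖ ^ (2 : ℝ)) P := by
      simpa using hSsqi
    have := Integrable.norm_condExp_rpow_le (m := brownianFiltration B hBm (t k).toNNReal)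
      (p := 2) (by norm_num) hi
    have e : (fun ω => ‖S ω‖ ^ (2 : ℝ)) = fun ω => S ω ^ 2 := by
      funext ω
      simp
    rw [e] at this
    filter_upwards [this] with ω hω
    simpa using hω
  have htele := tele (x0 := x0) hB hBm hβ hβM h0 h hN hF hFC hk le_rfl
  have e3 : ∫ ω, ((P[fun ω => F (t N) (Ch B β t x0 N ω) |
      brownianFiltration B hBm (t k).toNNReal]) ω - F (t k) (Ch B β t x0 k ω)) ^ 2 ∂P =
      ∫ ω, (P[S | brownianFiltration B hBm (t k).toNNReal]) ω ^ 2 ∂P := by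
    refine integral_congr_ae (htele.mono fun ω hω => ?_)
    simp only
    rw [hω, add_sub_cancel_left]
  rw [e3]
  refine (integral_mono_of_nonneg (Eventually.of_forall fun ω => sq_nonneg _)
    integrable_condExp hJ).trans ?_
  rw [integral_condExp ((brownianFiltration B hBm).le _)]
  exact (integral_mono hSsqi hGi hSG).trans hGint

end Main

/-- **E2** -/
theorem e2 : E2 := by
  intro Ω mΩ P hP B hBm hB M x0 C n
  refine ⟨C ^ 2 * CM M x0 (2 * (n + 1)), mul_nonneg (sq_nonneg _) (CM_nonneg _ _ _), ?_⟩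
  intro β F t N K ε hK hε hβ hβM h0 h hN hF hFC hE1 hE2 k hk
  exact ⟨f_int hB hBm hβ hβM h0 h hN hF hFC le_rfl,
    main hB hBm hβ hβM h0 h hN hF hFC hK hε hE1 hE2 hk⟩

end Crest.Agent.R146.EulE2_684
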