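import Crest.Agent.R146.StepIf_791
import Crest.Agent.R146.LipB_861

/-!
Row 146, package PT-STEP, note 3 (L3), bridge R3 in Euler form: `E2m`, the moments of the Euler chain
(helper684).  The chain has exponential moments uniformly in the grid:
`E cosh(l X_k) ≤ e^{(L²/2 + M L) t_k} cosh(L x0)` as soon as `0 ≤ l` and `l e^{M t_k} ≤ L`.
-/

set_option autoImplicit false

namespace Crest.Agent.R146.EulM_684

open MeasureTheory ProbabilityTheory Set Filter Topology
open Crest.ProbabilityR.Perceptron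
open Crest.Agent.R146.StepIf_791
open scoped NNReal

variable {Ω : Type*} {mΩ : MeasurableSpace Ω} {P : Measure Ω} {B : ℝ≥0 → Ω → ℝ}

/-! ### Grids -/

theorem grid_mono {t : ℕ → ℝ} {N : ℕ} (h : ∀ k < N, t k ≤ t (k + 1)) {j k : ℕ} (hjk : j ≤ k)
    (hk : k ≤ N) : t j ≤ t k := by
  induction k with
  | zero =>
    have : j = 0 := by omega
    rw [this]
  | succ k ih =>
    rcases Nat.lt_or_ge j (k + 1) with h1 | h1
    · exact (ih (by omega) (by omega)).trans (h k (by omega))
    · have : j = k + 1 := by omega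
      rw [this]

theorem grid_nonneg {t : ℕ → ℝ} {N : ℕ} (h0 : t 0 = 0) (h : ∀ k < N, t k ≤ t (k + 1)) {k : ℕ}
    (hk : k ≤ N) : 0 ≤ t k := by
  have := grid_mono h (Nat.zero_le k) hk
  rwa [h0] at this

/-! ### The filtration -/

theorem adapted (hBm : ∀ t, Measurable (B t)) {s t : ℝ≥0} (h : s ≤ t) :
    Measurable[brownianFiltration B hBm t] (B s) := by
  have h1 : Measurable[brownianFiltration B hBm s] (B s) :=
    ((Filtration.stronglyAdapted_natural (u := fun t => B t)
      fun t => (hBm t).stronglyMeasurable) s).measurable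
  exact h1.mono ((brownianFiltration B hBm).mono h) le_rfl

theorem indep_incr (hB : IsBrownianReal B P) (hBm : ∀ t, Measurable (B t)) {s t : ℝ≥0}
    (hst : s ≤ t) :
    Indep (brownianFiltration B hBm s)
      (MeasurableSpace.comap (fun ω => B t ω - B s ω) inferInstance) P :=
  LipB_861.indep_incr hB.toIsPreBrownianReal hBm hst

theorem map_incr (hB : IsBrownianReal B P) {s t : ℝ} (hs : 0 ≤ s) (hst : s ≤ t) :
    P.map (fun ω => B t.toNNReal ω - B s.toNNReal ω) = gaussianReal 0 (t - s).toNNReal := by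
  rw [LipB_861.map_incr hB.toIsPreBrownianReal (Real.toNNReal_le_toNNReal hst)]
  congr 1
  apply NNReal.coe_injective
  rw [NNReal.coe_sub (Real.toNNReal_le_toNNReal hst), Real.coe_toNNReal t (hs.trans hst),
    Real.coe_toNNReal s hs, Real.coe_toNNReal _ (by linarith)]

/-! ### The chain is adapted -/

theorem Ch_succ (β : ℝ → ℝ → ℝ) (t : ℕ → ℝ) (x0 : ℝ) (k : ℕ) (ω : Ω) :
    Ch B β t x0 (k + 1) ω = Ch B β t x0 k ω + (t (k + 1) - t k) * β (t k) (Ch B β t x0 k ω) +
      (B (t (k + 1)).toNNReal ω - B (t k).toNNReal ω) := rfl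

theorem Ch_meas (hBm : ∀ t, Measurable (B t)) {β : ℝ → ℝ → ℝ} (hβ : ∀ r, Measurable (β r))
    {t : ℕ → ℝ} {N : ℕ} (h : ∀ k < N, t k ≤ t (k + 1)) (x0 : ℝ) {k : ℕ} (hk : k ≤ N) :
    Measurable[brownianFiltration B hBm (t k).toNNReal] (Ch B β t x0 k) := by
  induction k with
  | zero => exact measurable_const
  | succ k ih =>
    have hle : (t k).toNNReal ≤ (t (k + 1)).toNNReal := Real.toNNReal_le_toNNReal (h k (by omega))
    have h1 : Measurable[brownianFiltration B hBm (t (k + 1)).toNNReal] (Ch B β t x0 k) :=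
      (ih (by omega)).mono ((brownianFiltration B hBm).mono hle) le_rfl
    have h2 : Measurable[brownianFiltration B hBm (t (k + 1)).toNNReal]
        (fun ω => β (t k) (Ch B β t x0 k ω)) := (hβ (t k)).comp h1
    have h3 : Measurable[brownianFiltration B hBm (t (k + 1)).toNNReal]
        (fun ω => B (t (k + 1)).toNNReal ω - B (t k).toNNReal ω) :=
      Measurable.sub (adapted hBm le_rfl) (adapted hBm hle)
    exact Measurable.add (Measurable.add h1 (Measurable.const_mul h2 _)) h3

theorem Ch_meas' (hBm : ∀ t, Measurable (B t)) {β : ℝ → ℝ → ℝ} (hβ : ∀ r, Measurable (β r))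
    {t : ℕ → ℝ} {N : ℕ} (h : ∀ k < N, t k ≤ t (k + 1)) (x0 : ℝ) {k : ℕ} (hk : k ≤ N) :
    Measurable (Ch B β t x0 k) :=
  (Ch_meas hBm hβ h x0 hk).mono ((brownianFiltration B hBm).le _) le_rfl

/-- the deterministic part of the step -/
theorem Y_meas (hBm : ∀ t, Measurable (B t)) {β : ℝ → ℝ → ℝ} (hβ : ∀ r, Measurable (β r))
    {t : ℕ → ℝ} {N : ℕ} (h : ∀ k < N, t k ≤ t (k + 1)) (x0 : ℝ) {k : ℕ} (hk : k ≤ N) (a : ℝ) :
    Measurable[brownianFiltration B hBm (t k).toNNReal]
      (fun ω => Ch B β t x0 k ω + a * β (t k) (Ch B β t x0 k ω)) := by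
  have h1 := Ch_meas (B := B) hBm hβ h x0 hk
  exact Measurable.add h1 (Measurable.const_mul ((hβ (t k)).comp h1) _)

/-! ### Exponential moments of one step -/

theorem exp_incr [IsProbabilityMeasure P] (hB : IsBrownianReal B P) (hBm : ∀ t, Measurable (B t))
    {s t : ℝ} (hs : 0 ≤ s) (hst : s ≤ t) (l : ℝ) :
    Integrable (fun ω => Real.exp (l * (B t.toNNReal ω - B s.toNNReal ω))) P ∧
      ∫ ω, Real.exp (l * (B t.toNNReal ω - B s.toNNReal ω)) ∂P = Real.exp ((t - s) * l ^ 2 / 2) := by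
  have hm : Measurable (fun ω => B t.toNNReal ω - B s.toNNReal ω) := (hBm _).sub (hBm _)
  have hmap := map_incr hB hs hst
  have h2 := mgf_gaussianReal hmap l
  constructor
  · have h1 : Integrable (fun x : ℝ => Real.exp (l * x)) (gaussianReal 0 (t - s).toNNReal) :=
      integrable_exp_mul_gaussianReal l
    rw [← hmap] at h1
    exact (integrable_map_measure (by fun_prop) hm.aemeasurable).1 h1
  · rw [mgf] at h2
    rw [h2, zero_mul, zero_add, Real.coe_toNNReal _ (by linarith)]

/-- one step with exponential weights: `E e^{l (Y + b)} = e^{h l²/2} E e^{l Y}` -/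
theorem exp_step [IsProbabilityMeasure P] (hB : IsBrownianReal B P) (hBm : ∀ t, Measurable (B t))
    {s t : ℝ} (hs : 0 ≤ s) (hst : s ≤ t) {Y : Ω → ℝ}
    (hY : Measurable[brownianFiltration B hBm s.toNNReal] Y) (l : ℝ)
    (hi : Integrable (fun ω => Real.exp (l * Y ω)) P) :
    Integrable (fun ω => Real.exp (l * (Y ω + (B t.toNNReal ω - B s.toNNReal ω)))) P ∧
      ∫ ω, Real.exp (l * (Y ω + (B t.toNNReal ω - B s.toNNReal ω))) ∂P =
        Real.exp ((t - s) * l ^ 2 / 2) * ∫ ω, Real.exp (l * Y ω) ∂P := by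
  have hYm : Measurable Y := hY.mono ((brownianFiltration B hBm).le _) le_rfl
  have hm : Measurable (fun ω => B t.toNNReal ω - B s.toNNReal ω) := (hBm _).sub (hBm _)
  have hind0 := indep_incr hB hBm (Real.toNNReal_le_toNNReal hst)
  have hind : IndepFun Y (fun ω => B t.toNNReal ω - B s.toNNReal ω) P := by
    rw [IndepFun_iff_Indep]
    exact indep_of_indep_of_le_left hind0 hY.comap_le
  have hφ : Measurable (fun x : ℝ => Real.exp (l * x)) := by fun_prop
  have hind2 : IndepFun (fun ω => Real.exp (l * Y ω))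
      (fun ω => Real.exp (l * (B t.toNNReal ω - B s.toNNReal ω))) P := hind.comp hφ hφ
  obtain ⟨i1, e1⟩ := exp_incr hB hBm hs hst l
  have e : (fun ω => Real.exp (l * (Y ω + (B t.toNNReal ω - B s.toNNReal ω)))) =
      fun ω => Real.exp (l * Y ω) * Real.exp (l * (B t.toNNReal ω - B s.toNNReal ω)) := by
    funext ω
    rw [← Real.exp_add]
    ring_nf
  rw [e]
  refine ⟨hind2.integrable_mul hi i1, ?_⟩
  have := hind2.integral_mul_eq_mul_integral hi.aestronglyMeasurable i1.aestronglyMeasurable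
  simp only [Pi.mul_apply] at this
  rw [← e1, mul_comm, ← this]

theorem integrable_exp_of_cosh {Y : Ω → ℝ} (hY : Measurable Y) {l : ℝ}
    (hi : Integrable (fun ω => Real.cosh (l * Y ω)) P) :
    Integrable (fun ω => Real.exp (l * Y ω)) P ∧ Integrable (fun ω => Real.exp (-l * Y ω)) P := by
  constructor
  · refine Integrable.mono' (hi.const_mul 2) (by fun_prop) (Eventually.of_forall fun ω => ?_)
    rw [Real.norm_eq_abs, abs_of_pos (Real.exp_pos _), Real.cosh_eq]
    have := Real.exp_pos (-(l * Y ω))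
    linarith
  · refine Integrable.mono' (hi.const_mul 2) (by fun_prop) (Eventually.of_forall fun ω => ?_)
    rw [Real.norm_eq_abs, abs_of_pos (Real.exp_pos _), Real.cosh_eq]
    have := Real.exp_pos (l * Y ω)
    have e : -l * Y ω = -(l * Y ω) := by ring
    rw [e]
    linarith

theorem cosh_step [IsProbabilityMeasure P] (hB : IsBrownianReal B P) (hBm : ∀ t, Measurable (B t))
    {s t : ℝ} (hs : 0 ≤ s) (hst : s ≤ t) {Y : Ω → ℝ}
    (hY : Measurable[brownianFiltration B hBm s.toNNReal] Y) (l : ℝ)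
    (hi : Integrable (fun ω => Real.cosh (l * Y ω)) P) :
    Integrable (fun ω => Real.cosh (l * (Y ω + (B t.toNNReal ω - B s.toNNReal ω)))) P ∧
      ∫ ω, Real.cosh (l * (Y ω + (B t.toNNReal ω - B s.toNNReal ω))) ∂P =
        Real.exp ((t - s) * l ^ 2 / 2) * ∫ ω, Real.cosh (l * Y ω) ∂P := by
  have hYm : Measurable Y := hY.mono ((brownianFiltration B hBm).le _) le_rfl
  obtain ⟨i1, i2⟩ := integrable_exp_of_cosh hYm hi
  obtain ⟨j1, e1⟩ := exp_step hB hBm hs hst hY l i1
  obtain ⟨j2, e2⟩ := exp_step hB hBm hs hst hY (-l) i2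
  have e : (fun ω => Real.cosh (l * (Y ω + (B t.toNNReal ω - B s.toNNReal ω)))) =
      fun ω => (Real.exp (l * (Y ω + (B t.toNNReal ω - B s.toNNReal ω))) +
        Real.exp (-l * (Y ω + (B t.toNNReal ω - B s.toNNReal ω)))) / 2 := by
    funext ω
    rw [Real.cosh_eq, neg_mul]
  have e' : (fun ω => Real.cosh (l * Y ω)) =
      fun ω => (Real.exp (l * Y ω) + Real.exp (-l * Y ω)) / 2 := by
    funext ω
    rw [Real.cosh_eq, neg_mul]
  rw [e]
  refine ⟨(j1.add j2).div_const 2, ?_⟩
  rw [e', integral_div, integral_div, integral_add j1 j2, integral_add i1 i2, e1, e2]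
  have : (-l) ^ 2 = l ^ 2 := by ring
  rw [this]
  ring

/-- deterministic comparison for the drift part -/
theorem cosh_drift {x b l h M : ℝ} (hl : 0 ≤ l) (hh : 0 ≤ h) (hM : 0 ≤ M)
    (hb : |b| ≤ M * (1 + |x|)) :
    Real.cosh (l * (x + h * b)) ≤ Real.exp (l * (h * M)) * Real.cosh (l * (1 + h * M) * x) := by
  have h0 := abs_nonneg x
  have h1 : |l * (x + h * b)| ≤ l * (1 + h * M) * |x| + l * (h * M) := by
    rw [abs_mul, abs_of_nonneg hl]
    have h2 : |x + h * b| ≤ |x| + h * (M * (1 + |x|)) := by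
      refine (abs_add_le _ _).trans ?_
      rw [abs_mul, abs_of_nonneg hh]
      gcongr
    calc l * |x + h * b| ≤ l * (|x| + h * (M * (1 + |x|))) := mul_le_mul_of_nonneg_left h2 hl
      _ = _ := by ring
  have h3 : Real.cosh (l * (x + h * b)) ≤
      Real.cosh (l * (1 + h * M) * |x| + l * (h * M)) := by
    rw [Real.cosh_le_cosh]
    rwa [abs_of_nonneg (a := l * (1 + h * M) * |x| + l * (h * M)) (by positivity)]
  refine h3.trans ?_
  have h4 : Real.cosh (l * (1 + h * M) * x) = Real.cosh (l * (1 + h * M) * |x|) := by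
    rw [← Real.cosh_abs, abs_mul, abs_of_nonneg (a := l * (1 + h * M)) (by positivity)]
  rw [h4]
  have ha : 0 ≤ l * (1 + h * M) * |x| := by positivity
  have hc : 0 ≤ l * (h * M) := by positivity
  generalize l * (1 + h * M) * |x| = a at *
  generalize l * (h * M) = c at *
  rw [Real.cosh_add]
  have e1 : Real.exp c = Real.cosh c + Real.sinh c := (Real.cosh_add_sinh c).symm
  have e2 : Real.sinh a ≤ Real.cosh a := (Real.sinh_lt_cosh a).le
  have e3 : 0 ≤ Real.sinh c := Real.sinh_nonneg_iff.2 hc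
  rw [e1]
  nlinarith

/-! ### Exponential moments of the chain -/

theorem cosh_chain [IsProbabilityMeasure P] (hB : IsBrownianReal B P)
    (hBm : ∀ t, Measurable (B t)) {M : ℝ} (hM : 0 ≤ M) (x0 L : ℝ) (hL : 0 ≤ L)
    {β : ℝ → ℝ → ℝ} (hβ : ∀ r, Measurable (β r)) (hβM : ∀ r x, |β r x| ≤ M * (1 + |x|))
    {t : ℕ → ℝ} {N : ℕ} (h0 : t 0 = 0) (h : ∀ k < N, t k ≤ t (k + 1)) {k : ℕ} (hk : k ≤ N) :
    ∀ l : ℝ, 0 ≤ l → Integrable (fun ω => Real.cosh (l * Ch B β t x0 k ω)) P ∧
      (l * Real.exp (M * t k) ≤ L → ∫ ω, Real.cosh (l * Ch B β t x0 k ω) ∂P ≤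
        Real.exp ((L ^ 2 / 2 + M * L) * t k) * Real.cosh (L * x0)) := by
  induction k with
  | zero =>
    intro l hl
    have e : (fun ω => Real.cosh (l * Ch B β t x0 0 ω)) = fun _ => Real.cosh (l * x0) := rfl
    rw [e]
    refine ⟨integrable_const _, fun hlL => ?_⟩
    rw [h0] at hlL ⊢
    simp only [mul_zero, Real.exp_zero, mul_one, one_mul] at hlL ⊢
    rw [integral_const]
    simp only [probReal_univ, one_smul]
    rw [Real.cosh_le_cosh, abs_mul, abs_mul, abs_of_nonneg hl, abs_of_nonneg hL]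
    exact mul_le_mul_of_nonneg_right hlL (abs_nonneg _)
  | succ k ih =>
    intro l hl
    have hk' : k ≤ N := by omega
    have htk : 0 ≤ t k := grid_nonneg h0 h hk'
    have hst : t k ≤ t (k + 1) := h k (by omega)
    set hh := t (k + 1) - t k with hhdef
    have hh0 : 0 ≤ hh := by rw [hhdef]; linarith
    set l' := l * (1 + hh * M) with hl'
    have hl'0 : 0 ≤ l' := by positivity
    obtain ⟨i1, b1⟩ := ih hk' l' hl'0
    set Y : Ω → ℝ := fun ω => Ch B β t x0 k ω + hh * β (t k) (Ch B β t x0 k ω) with hYdef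
    have hY : Measurable[brownianFiltration B hBm (t k).toNNReal] Y :=
      Y_meas hBm hβ h x0 hk' hh
    have hYm : Measurable Y := hY.mono ((brownianFiltration B hBm).le _) le_rfl
    have hdr : ∀ ω, Real.cosh (l * Y ω) ≤
        Real.exp (l * (hh * M)) * Real.cosh (l' * Ch B β t x0 k ω) := fun ω =>
      cosh_drift hl hh0 hM (hβM _ _)
    have i2 : Integrable (fun ω => Real.cosh (l * Y ω)) P := by
      refine Integrable.mono' (i1.const_mul (Real.exp (l * (hh * M))))
        (Real.continuous_cosh.measurable.comp (hYm.const_mul l)).aestronglyMeasurable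
        (Eventually.of_forall fun ω => ?_)
      rw [Real.norm_eq_abs, abs_of_pos (Real.cosh_pos _)]
      exact hdr ω
    obtain ⟨j1, e1⟩ := cosh_step hB hBm htk hst hY l i2
    have e : (fun ω => Real.cosh (l * Ch B β t x0 (k + 1) ω)) =
        fun ω => Real.cosh (l * (Y ω + (B (t (k + 1)).toNNReal ω - B (t k).toNNReal ω))) := rfl
    rw [e]
    refine ⟨j1, fun hlL => ?_⟩
    rw [e1]
    have hlL2 : l ≤ L := by
      refine le_trans ?_ hlL
      have h1 : 1 ≤ Real.exp (M * t (k + 1)) :=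
        Real.one_le_exp (mul_nonneg hM (grid_nonneg h0 h hk))
      nlinarith
    have hl'L : l' * Real.exp (M * t k) ≤ L := by
      refine le_trans ?_ hlL
      have h1 : 1 + hh * M ≤ Real.exp (hh * M) := by
        have := Real.add_one_le_exp (hh * M)
        linarith
      have h2 : Real.exp (M * t (k + 1)) = Real.exp (hh * M) * Real.exp (M * t k) := by
        rw [← Real.exp_add]
        congr 1
        rw [hhdef]
        ring
      rw [h2, hl', mul_assoc]
      exact mul_le_mul_of_nonneg_left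
        (mul_le_mul_of_nonneg_right h1 (Real.exp_pos _).le) hl
    have b2 := b1 hl'L
    have b3 : ∫ ω, Real.cosh (l * Y ω) ∂P ≤
        Real.exp (l * (hh * M)) * (Real.exp ((L ^ 2 / 2 + M * L) * t k) * Real.cosh (L * x0)) := by
      refine (integral_mono i2 (i1.const_mul (Real.exp (l * (hh * M)))) hdr).trans ?_
      rw [integral_const_mul]
      exact mul_le_mul_of_nonneg_left b2 (Real.exp_pos _).le
    have hpos : 0 ≤ Real.exp ((L ^ 2 / 2 + M * L) * t k) * Real.cosh (L * x0) :=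
      mul_nonneg (Real.exp_pos _).le (Real.cosh_pos _).le
    calc Real.exp (hh * l ^ 2 / 2) * ∫ ω, Real.cosh (l * Y ω) ∂P
        ≤ Real.exp (hh * l ^ 2 / 2) * (Real.exp (l * (hh * M)) *
          (Real.exp ((L ^ 2 / 2 + M * L) * t k) * Real.cosh (L * x0))) :=
          mul_le_mul_of_nonneg_left b3 (Real.exp_pos _).le
      _ = Real.exp (hh * l ^ 2 / 2 + l * (hh * M)) *
          (Real.exp ((L ^ 2 / 2 + M * L) * t k) * Real.cosh (L * x0)) := by
          rw [Real.exp_add]; ring
      _ ≤ Real.exp ((L ^ 2 / 2 + M * L) * hh) *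
          (Real.exp ((L ^ 2 / 2 + M * L) * t k) * Real.cosh (L * x0)) := by
          refine mul_le_mul_of_nonneg_right (Real.exp_le_exp.2 ?_) hpos
          have h1 : l ^ 2 ≤ L ^ 2 := pow_le_pow_left₀ hl hlL2 2
          have h2 : hh * l ^ 2 ≤ hh * L ^ 2 := mul_le_mul_of_nonneg_left h1 hh0
          have h3 : l * (hh * M) ≤ L * (hh * M) :=
            mul_le_mul_of_nonneg_right hlL2 (mul_nonneg hh0 hM)
          nlinarith
      _ = Real.exp ((L ^ 2 / 2 + M * L) * t (k + 1)) * Real.cosh (L * x0) := by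
          rw [← mul_assoc, ← Real.exp_add]
          congr 2
          rw [hhdef]
          ring

/-! ### Polynomial moments -/

theorem pow_le_cosh (n : ℕ) (x : ℝ) :
    (1 + |x|) ^ n ≤ 2 * Real.exp 1 * n.factorial * Real.cosh x := by
  have h1 : (1 + |x|) ^ n / n.factorial ≤ Real.exp (1 + |x|) :=
    Real.pow_div_factorial_le_exp _ (by positivity) n
  have h2 : Real.exp |x| ≤ 2 * Real.cosh x := by
    rw [← Real.cosh_abs x, Real.cosh_eq]
    have := Real.exp_pos (-|x|)
    linarith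
  rw [div_le_iff₀ (by positivity)] at h1
  calc (1 + |x|) ^ n ≤ Real.exp (1 + |x|) * n.factorial := h1
    _ = Real.exp 1 * n.factorial * Real.exp |x| := by rw [Real.exp_add]; ring
    _ ≤ Real.exp 1 * n.factorial * (2 * Real.cosh x) := by gcongr
    _ = _ := by ring

/-- the constant of `E2m` -/
noncomputable def CM (M x0 : ℝ) (n : ℕ) : ℝ :=
  2 * Real.exp 1 * n.factorial *
    (Real.exp (|Real.exp M ^ 2 / 2 + M * Real.exp M|) * Real.cosh (Real.exp M * x0))

theorem CM_nonneg (M x0 : ℝ) (n : ℕ) : 0 ≤ CM M x0 n := by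
  unfold CM
  have := Real.cosh_pos (Real.exp M * x0)
  positivity

theorem moments [IsProbabilityMeasure P] (hB : IsBrownianReal B P)
    (hBm : ∀ t, Measurable (B t)) {M : ℝ} (x0 : ℝ) (n : ℕ)
    {β : ℝ → ℝ → ℝ} (hβ : ∀ r, Measurable (β r)) (hβM : ∀ r x, |β r x| ≤ M * (1 + |x|))
    {t : ℕ → ℝ} {N : ℕ} (h0 : t 0 = 0) (h : ∀ k < N, t k ≤ t (k + 1)) (hN : t N ≤ 1)
    {k : ℕ} (hk : k ≤ N) :
    Integrable (fun ω => (1 + |Ch B β t x0 k ω|) ^ n) P ∧
      ∫ ω, (1 + |Ch B β t x0 k ω|) ^ n ∂P ≤ CM M x0 n := by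
  have hM : 0 ≤ M := by
    have := hβM 0 0
    simp only [abs_zero, add_zero, mul_one] at this
    exact (abs_nonneg _).trans this
  have htk : 0 ≤ t k := grid_nonneg h0 h hk
  have htk1 : t k ≤ 1 := (grid_mono h hk le_rfl).trans hN
  obtain ⟨i1, b1⟩ := cosh_chain (x0 := x0) hB hBm hM (Real.exp M) (Real.exp_pos _).le hβ hβM h0 h hk
    1 zero_le_one
  have b2 := b1 (by
    rw [one_mul]
    refine Real.exp_le_exp.2 ?_
    nlinarith)
  simp only [one_mul] at i1 b2
  have hm := Ch_meas' (B := B) hBm hβ h x0 hk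
  have i2 : Integrable (fun ω => (1 + |Ch B β t x0 k ω|) ^ n) P := by
    refine Integrable.mono' (i1.const_mul (2 * Real.exp 1 * n.factorial)) ?_
      (Eventually.of_forall fun ω => ?_)
    · exact Measurable.aestronglyMeasurable (by fun_prop)
    · rw [Real.norm_eq_abs, abs_of_nonneg (by positivity)]
      exact pow_le_cosh n _
  refine ⟨i2, ?_⟩
  refine (integral_mono i2 (i1.const_mul (2 * Real.exp 1 * n.factorial))
    fun ω => pow_le_cosh n _).trans ?_
  rw [integral_const_mul]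
  unfold CM
  refine mul_le_mul_of_nonneg_left (b2.trans ?_) (by positivity)
  refine mul_le_mul_of_nonneg_right (Real.exp_le_exp.2 ?_) (Real.cosh_pos _).le
  have h3 : 0 ≤ Real.exp M ^ 2 / 2 + M * Real.exp M := by positivity
  rw [abs_of_nonneg h3]
  nlinarith

/-- **E2m** -/
theorem e2m : E2m := by
  intro Ω mΩ P hP B hBm hB M x0 n
  refine ⟨CM M x0 n, CM_nonneg _ _ _, fun β t N hβ hβM h0 h hN k hk => ?_⟩
  exact ⟨Ch_meas hBm hβ h x0 hk, (moments hB hBm x0 n hβ hβM h0 h hN hk).1,
    (moments hB hBm x0 n hβ hβM h0 h hN hk).2⟩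

end Crest.Agent.R146.EulM_684
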