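import Mathlib
import Crest.Agent.R146.Lev_576

/-!
Row 146, node (4c) of post 459 (task 58, helper4): the force has no atom at `l > 0`.

* `IG P G Z v`    : `Z` is `N(0,v)` and independent of the sub-σ-algebra `G` (rectangle form);
* `IG_wsum`       : Wiener sums `∑ a_i (W_{t_{i+1}} - W_{t_i})` are `IG` with variance `∑ a_i² Δ_i`;
* `no_atom_force` : (4c).
-/

set_option autoImplicit false

namespace Crest.Agent.R146.LevC_4

open MeasureTheory ProbabilityTheory Filter
open scoped ENNReal NNReal Topology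

variable {Ω : Type*} {G G' mΩ : MeasurableSpace Ω} {P : Measure Ω}

/-- `Z` is `N(0,v)` and independent of `G`. -/
def IG (P : Measure Ω) (G : MeasurableSpace Ω) (Z : Ω → ℝ) (v : ℝ≥0) : Prop :=
  ∀ C, MeasurableSet[G] C → ∀ S : Set ℝ, MeasurableSet S → P (C ∩ Z ⁻¹' S) = P C * gaussianReal 0 v S

theorem IG.mono {Z : Ω → ℝ} {v : ℝ≥0} (h : IG P G' Z v) (hG : G ≤ G') :
    IG P G Z v := fun C hC S hS => h C (hG C hC) S hS

theorem IG.law [IsProbabilityMeasure P] {Z : Ω → ℝ} {v : ℝ≥0}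
    (h : IG P G Z v) (hZ : Measurable Z) : P.map Z = gaussianReal 0 v := by
  ext S hS
  rw [Measure.map_apply hZ hS]
  have := h Set.univ MeasurableSet.univ S hS
  simpa using this

theorem IG.indep [IsProbabilityMeasure P] {Z : Ω → ℝ} {v : ℝ≥0}
    (h : IG P G Z v) (hZ : Measurable Z) : Indep G (MeasurableSpace.comap Z inferInstance) P := by
  rw [Indep_iff]
  rintro C D hC ⟨S, hS, rfl⟩
  rw [h C hC S hS, ← h.law hZ, Measure.map_apply hZ hS]

theorem IG.of_indep [IsProbabilityMeasure P] {Z : Ω → ℝ} {v : ℝ≥0}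
    (hZ : Measurable Z) (hl : P.map Z = gaussianReal 0 v)
    (h : Indep G (MeasurableSpace.comap Z inferInstance) P) : IG P G Z v := by
  intro C hC S hS
  rw [Indep_iff] at h
  rw [h C (Z ⁻¹' S) hC ⟨S, hS, rfl⟩, ← hl, Measure.map_apply hZ hS]

theorem IG.zero : IG P G (fun _ => 0) 0 := by
  intro C hC S hS
  rw [gaussianReal_zero_var, Measure.dirac_apply' _ hS]
  by_cases h : (0 : ℝ) ∈ S
  · simp [h]
  · simp [h]

theorem IG.const_mul [IsProbabilityMeasure P] {Z : Ω → ℝ} {v : ℝ≥0}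
    (h : IG P G Z v) (a : ℝ) :
    IG P G (fun ω => a * Z ω) (NNReal.mk (a ^ 2) (sq_nonneg a) * v) := by
  intro C hC S hS
  have hm : Measurable fun x : ℝ => a * x := measurable_const_mul a
  have h1 : (fun ω => a * Z ω) ⁻¹' S = Z ⁻¹' ((fun x => a * x) ⁻¹' S) := rfl
  rw [h1, h C hC _ (hm hS), ← Measure.map_apply hm hS, gaussianReal_map_const_mul, mul_zero]

theorem IG.add [IsProbabilityMeasure P] {Z Z' : Ω → ℝ} {v v' : ℝ≥0}
    (h : IG P G Z v) (hGG : G ≤ G') (hG' : G' ≤ mΩ) (hZ : Measurable[G'] Z)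
    (h' : IG P G' Z' v') (hZ' : Measurable Z') :
    IG P G (fun ω => Z ω + Z' ω) (v + v') := by
  intro C hC S hS
  have hZm : Measurable Z := hZ.mono hG' le_rfl
  have hCm : MeasurableSet C := hG' C (hGG C hC)
  have hfin : IsFiniteMeasure (P C • gaussianReal 0 v) := by
    constructor
    rw [Measure.smul_apply, smul_eq_mul]
    exact ENNReal.mul_lt_top (measure_lt_top _ _) (measure_lt_top _ _)
  have key : ((P.restrict C).map fun ω => (Z ω, Z' ω)) =
      (P C • gaussianReal 0 v).prod (gaussianReal 0 v') := by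
    symm
    apply Measure.prod_eq
    intro s t hs ht
    rw [Measure.map_apply (hZm.prodMk hZ') (hs.prod ht), Measure.restrict_apply
      ((hZm.prodMk hZ') (hs.prod ht))]
    have e : (fun ω => (Z ω, Z' ω)) ⁻¹' s ×ˢ t ∩ C = (C ∩ Z ⁻¹' s) ∩ Z' ⁻¹' t := by
      ext ω
      simp only [Set.mem_inter_iff, Set.mem_preimage, Set.mem_prod]
      tauto
    rw [e, h' _ ((hGG C hC).inter (hZ hs)) t ht, h C hC s hs, Measure.smul_apply, smul_eq_mul]
  have hadd : Measurable fun p : ℝ × ℝ => p.1 + p.2 := measurable_fst.add measurable_snd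
  have e1 : P (C ∩ (fun ω => Z ω + Z' ω) ⁻¹' S) =
      ((P.restrict C).map fun ω => (Z ω, Z' ω)) ((fun p : ℝ × ℝ => p.1 + p.2) ⁻¹' S) := by
    rw [Measure.map_apply (hZm.prodMk hZ') (hadd hS),
      Measure.restrict_apply ((hZm.prodMk hZ') (hadd hS)), Set.inter_comm]
    rfl
  rw [e1, key, Measure.prod_smul_left, Measure.smul_apply, smul_eq_mul,
    ← Measure.map_apply hadd hS]
  congr 1
  have := gaussianReal_conv_gaussianReal (m₁ := 0) (m₂ := 0) (v₁ := v) (v₂ := v')
  rw [Measure.conv, add_zero] at this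
  rw [← this]


/-- Increments of `W` after time `s` are independent of `F s`, Gaussian with the right variance. -/
structure BM (P : Measure Ω) (F : ℝ → MeasurableSpace Ω) (W : ℝ → Ω → ℝ) : Prop where
  mono : ∀ s t, 0 ≤ s → s ≤ t → t ≤ 1 → F s ≤ F t
  le : ∀ t, 0 ≤ t → t ≤ 1 → F t ≤ mΩ
  adapted : ∀ t, 0 ≤ t → t ≤ 1 → Measurable[F t] (W t)
  incr : ∀ s t, 0 ≤ s → s ≤ t → t ≤ 1 → IG P (F s) (fun ω => W t ω - W s ω) (t - s).toNNReal

/-- Wiener sums. -/
theorem IG_wsum [IsProbabilityMeasure P] {F : ℝ → MeasurableSpace Ω} {W : ℝ → Ω → ℝ}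
    (hW : BM P F W) {t : ℕ → ℝ} (ht : Monotone t) (h0 : 0 ≤ t 0) {n : ℕ} (hn : t n ≤ 1)
    (a : ℕ → ℝ) :
    Measurable[F (t n)] (fun ω => ∑ i ∈ Finset.range n, a i * (W (t (i + 1)) ω - W (t i) ω)) ∧
    IG P (F (t 0)) (fun ω => ∑ i ∈ Finset.range n, a i * (W (t (i + 1)) ω - W (t i) ω))
      (∑ i ∈ Finset.range n, NNReal.mk (a i ^ 2) (sq_nonneg _) * (t (i + 1) - t i).toNNReal) := by
  induction n with
  | zero => exact ⟨by simp, by simpa using IG.zero⟩
  | succ n ih =>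
    have hn' : t n ≤ 1 := (ht (Nat.le_succ n)).trans hn
    have hn0 : 0 ≤ t n := h0.trans (ht (Nat.zero_le n))
    have hle : t n ≤ t (n + 1) := ht (Nat.le_succ n)
    obtain ⟨i1, i2⟩ := ih hn'
    have hWn : Measurable[F (t (n + 1))] (W (t n)) :=
      (hW.adapted _ hn0 hn').mono (hW.mono _ _ hn0 hle hn) le_rfl
    have hWn1 : Measurable[F (t (n + 1))] (W (t (n + 1))) := hW.adapted _ (hn0.trans hle) hn
    refine ⟨?_, ?_⟩
    · simp only [Finset.sum_range_succ]
      exact (i1.mono (hW.mono _ _ hn0 hle hn) le_rfl).add ((hWn1.sub hWn).const_mul _)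
    · simp only [Finset.sum_range_succ]
      refine IG.add i2 (hW.mono _ _ h0 (ht (Nat.zero_le n)) hn') (hW.le _ hn0 hn') i1
        ((hW.incr _ _ hn0 hle hn).const_mul (a n)) ?_
      exact ((hWn1.sub hWn).const_mul _).mono (hW.le _ (hn0.trans hle) hn) le_rfl

theorem abel1 (E h : ℕ → ℝ) (k : ℕ) :
    ∑ i ∈ Finset.range (k + 1), E i * (h (i + 1) - h i) =
      E k * h (k + 1) - E 0 * h 0 - ∑ i ∈ Finset.range k, (E (i + 1) - E i) * h (i + 1) := by
  induction k with
  | zero => simp; ring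
  | succ k ih => rw [Finset.sum_range_succ, ih, Finset.sum_range_succ]; ring

theorem abel2 {E J τ : ℕ → ℝ} (hJ : ∀ i, E i * (τ i - τ (i + 1)) ≤ J i - J (i + 1)) (k : ℕ) :
    ∑ i ∈ Finset.range k, (E (i + 1) - E i) * τ (i + 1) ≤
      J 0 - J k + E k * τ k - E 0 * τ 0 := by
  induction k with
  | zero => simp
  | succ k ih =>
    rw [Finset.sum_range_succ]
    have h1 := hJ k
    nlinarith


/-- Hypotheses of (4c): `E = 1/D`, `K s = ∫_s^1 E²`, `J s = ∫_s^1 E (2 √(1-r))⁻¹ dr`. -/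
structure Force (P : Measure Ω) (F : ℝ → MeasurableSpace Ω) (W : ℝ → Ω → ℝ) (h lam : Ω → ℝ)
    (E K J : ℝ → ℝ) : Prop where
  bm : BM P F W
  h2 : MemLp h 2 P
  l2 : MemLp lam 2 P
  h0 : 0 ≤ᵐ[P] h
  l0 : 0 ≤ᵐ[P] lam
  comp : ∀ᵐ ω ∂P, h ω * lam ω = 0
  Epos : ∀ s, 0 ≤ s → s < 1 → 0 < E s
  Emono : ∀ s t, 0 ≤ s → s ≤ t → t < 1 → E s ≤ E t
  Kcont : ContinuousOn K (Set.Ico 0 1)
  Klim : Tendsto K (𝓝[<] 1) (𝓝 0)
  Kdec : ∀ s t, 0 ≤ s → s ≤ t → t < 1 → (t - s) * E s ^ 2 ≤ K s - K t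
  J0 : ∀ s, 0 ≤ s → s < 1 → 0 ≤ J s
  Jlim : Tendsto J (𝓝[<] 1) (𝓝 0)
  Jdec : ∀ s t, 0 ≤ s → s ≤ t → t < 1 → E s * (√(1 - s) - √(1 - t)) ≤ J s - J t
  varl1 : ∀ s, 0 ≤ s → s < 1 → ∫ ω, (lam ω - (P[lam | F s]) ω) ^ 2 ∂P ≤ K s
  varh1 : ∀ s, 0 ≤ s → s < 1 → ∫ ω, (h ω - (P[h | F s]) ω) ^ 2 ∂P ≤ 1 - s
  rel : ∀ s t, 0 ≤ s → s ≤ t → t < 1 →
    ∫ ω, |((P[lam | F t]) ω - (P[lam | F s]) ω) -
      E s * (((P[h | F t]) ω - (P[h | F s]) ω) - (W t ω - W s ω))| ∂P ≤
        (1 - E s / E t) * √(K s - K t)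

namespace Force

variable {F : ℝ → MeasurableSpace Ω} {W : ℝ → Ω → ℝ} {h lam : Ω → ℝ} {E K J : ℝ → ℝ}

theorem chi [IsProbabilityMeasure P] (H : Force P F W h lam E K J) {s : ℝ} (hs : 0 ≤ s) (hs1 : s < 1) :
    ∫ ω, lam ω * (P[h | F s]) ω ∂P ≤ √(1 - s) * √(K s) := by
  have hle := H.bm.le s hs hs1.le
  have e1 := Lev_576.int_mul_condExp hle H.l2 H.h2
  have e2 := Lev_576.int_sub_mul_sub hle H.l2 H.h2
  have e3 := Lev_576.abs_int_mul_le (P := P) (f := fun ω => lam ω - (P[lam | F s]) ω)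
    (g := fun ω => h ω - (P[h | F s]) ω)
    (H.l2.sub (H.l2.condExp (by norm_num))) (H.h2.sub (H.h2.condExp (by norm_num)))
  have e4 : ∫ ω, lam ω * h ω ∂P = 0 := by
    rw [integral_congr_ae (g := fun _ => (0 : ℝ))]
    · simp
    · filter_upwards [H.comp] with ω hω
      rw [mul_comm]; exact hω
  have e5 := H.varl1 s hs hs1
  have e6 := H.varh1 s hs hs1
  have e7 : √(∫ ω, (lam ω - (P[lam | F s]) ω) ^ 2 ∂P) * √(∫ ω, (h ω - (P[h | F s]) ω) ^ 2 ∂P) ≤
      √(K s) * √(1 - s) := by gcongr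
  rw [e1]
  have e8 := neg_abs_le (∫ ω, (lam ω - (P[lam | F s]) ω) * (h ω - (P[h | F s]) ω) ∂P)
  rw [e2, e4] at e8
  rw [e2, e4] at e3
  nlinarith [mul_comm (√(K s)) (√(1 - s))]

theorem K_nonneg [IsProbabilityMeasure P] (H : Force P F W h lam E K J) {s : ℝ} (hs : 0 ≤ s)
    (hs1 : s < 1) : 0 ≤ K s :=
  le_trans (integral_nonneg fun ω => sq_nonneg _) (H.varl1 s hs hs1)

theorem setint [IsProbabilityMeasure P] (H : Force P F W h lam E K J) {s : ℝ} (hs : 0 ≤ s)
    (hs1 : s < 1) {a : ℝ} (ha : 0 < a) :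
    ∫ ω in {ω | lam ω = a}, (P[h | F s]) ω ∂P ≤ √(1 - s) * √(K s) / a := by
  have hle := H.bm.le s hs hs1.le
  have hnull : NullMeasurableSet {ω | lam ω = a} P :=
    H.l2.1.aemeasurable.nullMeasurable (measurableSet_singleton a)
  have hc0 : 0 ≤ᵐ[P] P[h | F s] := condExp_nonneg H.h0
  have hi : Integrable (fun ω => lam ω * (P[h | F s]) ω) P :=
    H.l2.integrable_mul (H.h2.condExp (by norm_num))
  have h1 : ∫ ω in {ω | lam ω = a}, (P[h | F s]) ω ∂P =
      ∫ ω in {ω | lam ω = a}, (lam ω * (P[h | F s]) ω) / a ∂P := by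
    apply setIntegral_congr_ae₀ hnull
    refine ae_of_all _ fun ω hω => ?_
    have : lam ω = a := hω
    rw [this]; field_simp
  have h2 : ∫ ω in {ω | lam ω = a}, (lam ω * (P[h | F s]) ω) / a ∂P ≤
      ∫ ω, (lam ω * (P[h | F s]) ω) / a ∂P := by
    apply setIntegral_le_integral (hi.div_const a)
    filter_upwards [hc0, H.l0] with ω h1 h2
    exact div_nonneg (mul_nonneg h2 h1) ha.le
  rw [h1]
  refine h2.trans ?_
  rw [integral_div]
  exact div_le_div_of_nonneg_right (H.chi hs hs1) ha.le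


/-- Markov on a null-measurable set -/
theorem _root_.Crest.Agent.R146.LevC_4.markov0 {Y : Ω → ℝ} (hY : Integrable Y P) {S : Set Ω}
    (hS : NullMeasurableSet S P) {r : ℝ} (hr : 0 < r) :
    P {ω | r ≤ |S.indicator Y ω|} ≤ ENNReal.ofReal ((∫ ω in S, |Y ω| ∂P) / r) := by
  have h1 : ENNReal.ofReal r * (P.restrict S) {ω | ENNReal.ofReal r ≤ ENNReal.ofReal |Y ω|} ≤
      ∫⁻ ω in S, ENNReal.ofReal |Y ω| ∂P :=
    mul_meas_ge_le_lintegral₀ (hY.abs.1.aemeasurable.restrict).ennreal_ofReal _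
  rw [← ofReal_integral_eq_lintegral_ofReal hY.abs.integrableOn
    (ae_of_all _ fun ω => abs_nonneg _)] at h1
  have h2 : P {ω | r ≤ |S.indicator Y ω|} ≤
      (P.restrict S) {ω | ENNReal.ofReal r ≤ ENNReal.ofReal |Y ω|} := by
    rw [Measure.restrict_apply₀' hS]
    apply measure_mono
    intro ω hω
    have hω : r ≤ |S.indicator Y ω| := hω
    by_cases h : ω ∈ S
    · rw [Set.indicator_of_mem h] at hω
      exact ⟨ENNReal.ofReal_le_ofReal hω, h⟩
    · rw [Set.indicator_of_notMem h, abs_zero] at hω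
      exact absurd hω (not_le.2 hr)
  have hr0 : ENNReal.ofReal r ≠ 0 := by
    rw [Ne, ENNReal.ofReal_eq_zero, not_le]; exact hr
  rw [ENNReal.ofReal_div_of_pos hr,
    ENNReal.le_div_iff_mul_le (Or.inl hr0) (Or.inl ENNReal.ofReal_ne_top), mul_comm]
  exact le_trans (by gcongr) h1

theorem one_scale [IsProbabilityMeasure P] (H : Force P F W h lam E K J)
    {t : ℕ → ℝ} (ht : Monotone t) (h0 : 0 ≤ t 0) (h1 : ∀ i, t i < 1) (k : ℕ)
    (hk : t 0 < t (k + 1)) {a η : ℝ} (ha : 0 < a) (hη : 0 < η) :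
    P {ω | lam ω = a} ≤ ENNReal.ofReal ((2 / a * √(K (t 0)) * J (t 0) +
      (∑ i ∈ Finset.range (k + 1), (1 - E (t i) / E (t (i + 1))) * √(K (t i) - K (t (i + 1))) +
        √(K (t (k + 1))))) / (η * (√(t (k + 1) - t 0) * E (t 0)))) + ENNReal.ofReal η := by
  have hti : ∀ i, 0 ≤ t i := fun i => h0.trans (ht (Nat.zero_le i))
  have hE : ∀ i, 0 < E (t i) := fun i => H.Epos _ (hti i) (h1 i)
  have hEm : ∀ i, E (t i) ≤ E (t (i + 1)) := fun i =>
    H.Emono _ _ (hti i) (ht (Nat.le_succ i)) (h1 _)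
  have hK0 : ∀ i, 0 ≤ K (t i) := fun i => H.K_nonneg (hti i) (h1 i)
  set g : ℕ → Ω → ℝ := fun i => P[h | F (t i)] with hg
  set l : ℕ → Ω → ℝ := fun i => P[lam | F (t i)] with hl
  have hgi : ∀ i, Integrable (g i) P := fun i => integrable_condExp
  have hli : ∀ i, Integrable (l i) P := fun i => integrable_condExp
  have hg0 : ∀ i, 0 ≤ᵐ[P] g i := fun i => condExp_nonneg H.h0
  have hWm : ∀ i, Measurable (W (t i)) := fun i =>
    (H.bm.adapted _ (hti i) (h1 i).le).mono (H.bm.le _ (hti i) (h1 i).le) le_rfl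
  have hlamI : Integrable lam P := H.l2.integrable (by norm_num)
  set S : Set Ω := {ω | lam ω = a} with hS
  have hSn : NullMeasurableSet S P :=
    H.l2.1.aemeasurable.nullMeasurable (measurableSet_singleton a)
  -- the pieces
  set n := k + 1 with hn
  set A : Ω → ℝ := fun ω => l 0 ω - E (t 0) * g 0 ω with hA
  set Z : Ω → ℝ := fun ω => ∑ i ∈ Finset.range n, (-E (t i)) * (W (t (i + 1)) ω - W (t i) ω) with hZ
  set Y1 : Ω → ℝ := fun ω => E (t k) * g n ω -
    ∑ i ∈ Finset.range k, (E (t (i + 1)) - E (t i)) * g (i + 1) ω with hY1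
  set R : ℕ → Ω → ℝ := fun i ω => (l (i + 1) ω - l i ω) -
    E (t i) * ((g (i + 1) ω - g i ω) - (W (t (i + 1)) ω - W (t i) ω)) with hR
  set Y2 : Ω → ℝ := fun ω => ∑ i ∈ Finset.range n, R i ω + (lam ω - l n ω) with hY2
  have ident : ∀ ω, A ω + Z ω + (Y1 ω + Y2 ω) = lam ω := by
    intro ω
    have e1 := abel1 (fun i => E (t i)) (fun i => g i ω) k
    have e2' : ∀ m : ℕ, ∑ i ∈ Finset.range m, R i ω = (l m ω - l 0 ω) -
        ∑ i ∈ Finset.range m, E (t i) * (g (i + 1) ω - g i ω) -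
        ∑ i ∈ Finset.range m, (-E (t i)) * (W (t (i + 1)) ω - W (t i) ω) := by
      intro m
      induction m with
      | zero => simp
      | succ m ih =>
        rw [Finset.sum_range_succ, ih, Finset.sum_range_succ, Finset.sum_range_succ]
        simp only [hR]
        ring
    have e2 : ∑ i ∈ Finset.range n, R i ω = (l n ω - l 0 ω) -
        ∑ i ∈ Finset.range n, E (t i) * (g (i + 1) ω - g i ω) - Z ω := e2' n
    simp only [hA, hY1, hY2]
    rw [e2, e1]
    simp only [hn]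
    ring
  -- Gaussian part
  obtain ⟨hZm', hZIG⟩ := IG_wsum H.bm ht h0 (n := n) (h1 n).le (fun i => -E (t i))
  set v : ℝ≥0 := ∑ i ∈ Finset.range n, NNReal.mk ((-E (t i)) ^ 2) (sq_nonneg _) *
    (t (i + 1) - t i).toNNReal with hv
  have hZm : Measurable Z := hZm'.mono (H.bm.le _ (hti n) (h1 n).le) le_rfl
  have hvge : (t n - t 0) * E (t 0) ^ 2 ≤ (v : ℝ) := by
    have e1 : (v : ℝ) = ∑ i ∈ Finset.range n, E (t i) ^ 2 * (t (i + 1) - t i) := by
      rw [hv]
      push_cast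
      refine Finset.sum_congr rfl fun i _ => ?_
      rw [Real.coe_toNNReal _ (sub_nonneg.2 (ht (Nat.le_succ i)))]
      simp
    rw [e1]
    calc (t n - t 0) * E (t 0) ^ 2 = ∑ i ∈ Finset.range n, E (t 0) ^ 2 * (t (i + 1) - t i) := by
          rw [← Finset.mul_sum, Finset.sum_range_sub (fun i => t i)]; ring
      _ ≤ _ := by
          apply Finset.sum_le_sum
          intro i _
          have h3 : E (t 0) ≤ E (t i) := H.Emono _ _ h0 (ht (Nat.zero_le i)) (h1 i)
          have h4 := sub_nonneg.2 (ht (Nat.le_succ i))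
          have h5 := (hE 0).le
          gcongr
  have hvpos : (0 : ℝ) < v := lt_of_lt_of_le
    (mul_pos (sub_pos.2 hk) (pow_pos (hE 0) 2)) hvge
  have hv0 : v ≠ 0 := by
    intro h; rw [h] at hvpos; simp at hvpos
  have hsq : √(t n - t 0) * E (t 0) ≤ √(v : ℝ) := by
    apply Real.le_sqrt_of_sq_le
    rw [mul_pow, Real.sq_sqrt (sub_nonneg.2 hk.le)]
    exact hvge
  have hsqpos : 0 < √(t n - t 0) * E (t 0) :=
    mul_pos (Real.sqrt_pos.2 (sub_pos.2 hk)) (hE 0)
  have hAm : Measurable[F (t 0)] A :=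
    stronglyMeasurable_condExp.measurable.sub (stronglyMeasurable_condExp.measurable.const_mul _)
  -- integrability
  have hRi : ∀ i, Integrable (R i) P := by
    intro i
    have hWi : Integrable (fun ω => W (t (i + 1)) ω - W (t i) ω) P := by
      have hl' := (H.bm.incr _ _ (hti i) (ht (Nat.le_succ i)) (h1 _).le).law
        ((hWm (i + 1)).sub (hWm i))
      have := (Lev_576.gauss_sq ((hWm (i + 1)).sub (hWm i)) hl').1
      exact this.integrable (by norm_num)
    exact ((hli _).sub (hli _)).sub ((((hgi _).sub (hgi _)).sub hWi).const_mul _)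
  have hY2i : Integrable Y2 P :=
    (integrable_finsetSum _ fun i _ => hRi i).add (hlamI.sub (hli _))
  have hsumi : Integrable (fun ω => ∑ i ∈ Finset.range k,
      (E (t (i + 1)) - E (t i)) * g (i + 1) ω) P :=
    integrable_finsetSum _ fun i _ => (hgi _).const_mul _
  have hY1i : Integrable Y1 P := ((hgi _).const_mul _).sub hsumi
  -- bound of Y2
  have b2 : ∫ ω, |Y2 ω| ∂P ≤ ∑ i ∈ Finset.range n,
      (1 - E (t i) / E (t (i + 1))) * √(K (t i) - K (t (i + 1))) + √(K (t n)) := by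
    have e1 : ∫ ω, |Y2 ω| ∂P ≤ ∫ ω, (∑ i ∈ Finset.range n, |R i ω| + |lam ω - l n ω|) ∂P := by
      apply integral_mono hY2i.abs
      · exact (integrable_finsetSum _ fun i _ => (hRi i).abs).add (hlamI.sub (hli _)).abs
      · intro ω
        exact (abs_add_le _ _).trans (add_le_add (Finset.abs_sum_le_sum_abs _ _) le_rfl)
    refine e1.trans ?_
    have hd : Integrable (fun ω => |lam ω - l n ω|) P := (hlamI.sub (hli _)).abs
    rw [integral_add (integrable_finsetSum _ fun i _ => (hRi i).abs) hd,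
      integral_finsetSum _ fun i _ => (hRi i).abs]
    gcongr with i hi
    · exact H.rel _ _ (hti i) (ht (Nat.le_succ i)) (h1 _)
    · have e2 := Lev_576.abs_int_mul_le (P := P) (f := fun ω => |lam ω - l n ω|)
        (g := fun _ => (1 : ℝ)) ((H.l2.sub (H.l2.condExp (by norm_num))).abs)
        (memLp_const 1)
      simp only [mul_one, one_pow, integral_const, sq_abs, probReal_univ, smul_eq_mul,
        Real.sqrt_one] at e2
      refine (le_abs_self _).trans (e2.trans ?_)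
      exact Real.sqrt_le_sqrt (H.varl1 _ (hti n) (h1 n))
  -- bound of Y1 on S
  have hKm : ∀ i, K (t i) ≤ K (t 0) := by
    intro i
    have := H.Kdec _ _ h0 (ht (Nat.zero_le i)) (h1 i)
    have h7 : 0 ≤ (t i - t 0) * E (t 0) ^ 2 :=
      mul_nonneg (sub_nonneg.2 (ht (Nat.zero_le i))) (sq_nonneg _)
    linarith
  have hJm : ∀ i, J (t i) ≤ J (t 0) := by
    intro i
    have := H.Jdec _ _ h0 (ht (Nat.zero_le i)) (h1 i)
    have h8 : √(1 - t i) ≤ √(1 - t 0) := Real.sqrt_le_sqrt (by linarith [ht (Nat.zero_le i)])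
    have h7 : 0 ≤ E (t 0) * (√(1 - t 0) - √(1 - t i)) :=
      mul_nonneg (hE 0).le (sub_nonneg.2 h8)
    linarith
  have hchi : ∀ i, ∫ ω in S, g i ω ∂P ≤ √(K (t 0)) / a * √(1 - t i) := by
    intro i
    refine (H.setint (hti i) (h1 i) ha).trans ?_
    have h3 : √(K (t i)) ≤ √(K (t 0)) := Real.sqrt_le_sqrt (hKm i)
    calc √(1 - t i) * √(K (t i)) / a ≤ √(1 - t i) * √(K (t 0)) / a := by gcongr
      _ = _ := by ring
  have hJt : ∀ i, E (t i) * √(1 - t i) ≤ J (t i) := by
    intro i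
    have hlim : Tendsto (fun s => E (t i) * (√(1 - t i) - √(1 - s))) (𝓝[<] 1)
        (𝓝 (E (t i) * (√(1 - t i) - √(1 - 1)))) := by
      apply Tendsto.const_mul
      apply Tendsto.const_sub
      exact ((Real.continuous_sqrt.comp (continuous_const.sub continuous_id)).tendsto 1).mono_left
        nhdsWithin_le_nhds
    rw [sub_self, Real.sqrt_zero, sub_zero] at hlim
    refine le_of_tendsto hlim ?_
    have hmem : Set.Ioo (t i) 1 ∈ 𝓝[<] (1 : ℝ) := Ioo_mem_nhdsLT (h1 i)
    filter_upwards [hmem] with s hs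
    have h3 := H.Jdec (t i) s (hti i) hs.1.le hs.2
    have h4 := H.J0 s ((hti i).trans hs.1.le) hs.2
    linarith
  have b1 : ∫ ω in S, |Y1 ω| ∂P ≤ 2 / a * √(K (t 0)) * J (t 0) := by
    have e1 : ∫ ω in S, |Y1 ω| ∂P ≤ ∫ ω in S, (E (t k) * g n ω +
        ∑ i ∈ Finset.range k, (E (t (i + 1)) - E (t i)) * g (i + 1) ω) ∂P := by
      apply integral_mono_ae hY1i.abs.integrableOn
        (((hgi _).const_mul _).add hsumi).integrableOn
      have hall : ∀ᵐ ω ∂P, ∀ i, 0 ≤ g i ω := ae_all_iff.2 fun i => hg0 i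
      filter_upwards [ae_restrict_of_ae hall] with ω hω
      have e2 : 0 ≤ ∑ i ∈ Finset.range k, (E (t (i + 1)) - E (t i)) * g (i + 1) ω :=
        Finset.sum_nonneg fun i _ => mul_nonneg (sub_nonneg.2 (hEm i)) (hω _)
      have e3 : 0 ≤ E (t k) * g n ω := mul_nonneg (hE k).le (hω n)
      change |E (t k) * g n ω - ∑ i ∈ Finset.range k, (E (t (i + 1)) - E (t i)) * g (i + 1) ω| ≤
        E (t k) * g n ω + ∑ i ∈ Finset.range k, (E (t (i + 1)) - E (t i)) * g (i + 1) ω
      rw [abs_le]; constructor <;> linarith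
    refine e1.trans ?_
    rw [integral_add ((hgi _).const_mul _).integrableOn hsumi.integrableOn,
      integral_finsetSum _ fun i _ => ((hgi _).const_mul _).integrableOn]
    simp only [integral_const_mul]
    set q : ℝ := √(K (t 0)) / a with hq
    have hq0 : 0 ≤ q := by positivity
    have e2 : E (t k) * ∫ ω in S, g n ω ∂P ≤ q * J (t 0) := by
      have h3 := hchi n
      have h4 := hJt n
      have h5 : E (t k) ≤ E (t n) := hEm k
      have h6 := hJm n
      calc E (t k) * ∫ ω in S, g n ω ∂P ≤ E (t k) * (q * √(1 - t n)) := by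
            gcongr; exact (hE k).le
        _ ≤ E (t n) * (q * √(1 - t n)) := by gcongr
        _ = q * (E (t n) * √(1 - t n)) := by ring
        _ ≤ q * J (t 0) := by gcongr; linarith
    have e3 : ∑ i ∈ Finset.range k, (E (t (i + 1)) - E (t i)) * ∫ ω in S, g (i + 1) ω ∂P ≤
        q * J (t 0) := by
      have h3 := abel2 (E := fun i => E (t i)) (J := fun i => J (t i)) (τ := fun i => √(1 - t i))
        (fun i => H.Jdec _ _ (hti i) (ht (Nat.le_succ i)) (h1 _)) k
      have h4 := hJt k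
      have h5 : 0 ≤ E (t 0) * √(1 - t 0) := mul_nonneg (hE 0).le (Real.sqrt_nonneg _)
      calc ∑ i ∈ Finset.range k, (E (t (i + 1)) - E (t i)) * ∫ ω in S, g (i + 1) ω ∂P
          ≤ ∑ i ∈ Finset.range k, q * ((E (t (i + 1)) - E (t i)) * √(1 - t (i + 1))) := by
            apply Finset.sum_le_sum
            intro i _
            have h6 := hchi (i + 1)
            have h7 := sub_nonneg.2 (hEm i)
            calc (E (t (i + 1)) - E (t i)) * ∫ ω in S, g (i + 1) ω ∂P
                ≤ (E (t (i + 1)) - E (t i)) * (q * √(1 - t (i + 1))) := by gcongr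
              _ = _ := by ring
        _ = q * ∑ i ∈ Finset.range k, (E (t (i + 1)) - E (t i)) * √(1 - t (i + 1)) := by
            rw [Finset.mul_sum]
        _ ≤ q * J (t 0) := by gcongr; linarith
    calc _ ≤ q * J (t 0) + q * J (t 0) := add_le_add e2 e3
      _ = 2 / a * √(K (t 0)) * J (t 0) := by rw [hq]; ring
  -- conclusion
  have na := Lev_576.na_core (P := P) (H.bm.le _ h0 (h1 0).le) (Y := S.indicator fun ω => Y1 ω + Y2 ω)
    hv0 hAm hZm (hZIG.law hZm) (hZIG.indep hZm) MeasurableSet.univ a hη.le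
  rw [Set.inter_univ, Set.inter_univ, measure_univ, mul_one] at na
  have hsub : S ⊆ {ω | A ω + Z ω + S.indicator (fun ω => Y1 ω + Y2 ω) ω = a} := by
    intro ω hω
    simp only [Set.mem_ofPred_eq]
    rw [Set.indicator_of_mem hω, ident ω]
    exact hω
  refine (measure_mono hsub).trans (na.trans ?_)
  gcongr
  have hr : 0 < η * √(v : ℝ) := mul_pos hη (Real.sqrt_pos.2 hvpos)
  refine (markov0 (hY1i.add hY2i) hSn hr).trans ?_
  apply ENNReal.ofReal_le_ofReal
  have e1 : ∫ ω in S, |Y1 ω + Y2 ω| ∂P ≤ ∫ ω in S, |Y1 ω| ∂P + ∫ ω, |Y2 ω| ∂P := by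
    calc ∫ ω in S, |Y1 ω + Y2 ω| ∂P ≤ ∫ ω in S, (|Y1 ω| + |Y2 ω|) ∂P := by
          apply integral_mono (hY1i.add hY2i).abs.integrableOn
            (hY1i.abs.add hY2i.abs).integrableOn
          intro ω; exact abs_add_le _ _
      _ = ∫ ω in S, |Y1 ω| ∂P + ∫ ω in S, |Y2 ω| ∂P :=
          integral_add hY1i.abs.integrableOn hY2i.abs.integrableOn
      _ ≤ _ := add_le_add le_rfl
          (setIntegral_le_integral hY2i.abs (ae_of_all _ fun ω => abs_nonneg _))
  have e0 : 0 ≤ ∫ ω in S, |Y1 ω + Y2 ω| ∂P := integral_nonneg fun ω => abs_nonneg _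
  calc (∫ ω in S, |(Y1 + Y2) ω| ∂P) / (η * √(v : ℝ))
      ≤ (∫ ω in S, |Y1 ω + Y2 ω| ∂P) / (η * (√(t n - t 0) * E (t 0))) := by
        apply div_le_div_of_nonneg_left e0 (mul_pos hη hsqpos)
        gcongr
    _ ≤ _ := by
        apply div_le_div_of_nonneg_right _ (mul_pos hη hsqpos).le
        linarith


theorem K_ge [IsProbabilityMeasure P] (H : Force P F W h lam E K J) {s : ℝ} (hs : 0 ≤ s)
    (hs1 : s < 1) : (1 - s) * E s ^ 2 ≤ K s := by
  have hlim : Tendsto (fun r => (r - s) * E s ^ 2) (𝓝[<] 1) (𝓝 ((1 - s) * E s ^ 2)) := by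
    apply Tendsto.mul_const
    exact ((continuous_id.sub continuous_const).tendsto 1).mono_left nhdsWithin_le_nhds
  refine le_of_tendsto hlim ?_
  have hmem : Set.Ioo s 1 ∈ 𝓝[<] (1 : ℝ) := Ioo_mem_nhdsLT hs1
  filter_upwards [hmem] with r hr
  have h3 := H.Kdec s r hs hr.1.le hr.2
  have h4 := H.K_nonneg (hs.trans hr.1.le) hr.2
  linarith

/-- **(4c)**: at jamming the force has no atom at `a > 0`. -/
theorem no_atom_force [IsProbabilityMeasure P] (H : Force P F W h lam E K J) {C : ℝ} (hC : 0 < C)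
    (good : ∃ᶠ s in 𝓝[<] (1 : ℝ), K s ≤ C ^ 2 * (1 - s) * E s ^ 2) {a : ℝ}
    (ha : 0 < a) : P {ω | lam ω = a} = 0 := by
  have key : ∀ η : ℝ, 0 < η → P {ω | lam ω = a} ≤ ENNReal.ofReal (4 * η) := by
    intro η hη
    -- choice of `s0`
    have hc1 : 0 < a * η ^ 2 / (4 * C) := by positivity
    have ev1 : ∀ᶠ s in 𝓝[<] (1 : ℝ), J s < a * η ^ 2 / (4 * C) :=
      (tendsto_order.1 H.Jlim).2 _ hc1
    have hm1 : Set.Ioo 0 1 ∈ 𝓝[<] (1 : ℝ) := Ioo_mem_nhdsLT one_pos
    obtain ⟨s0, h1s, hs1, hs2⟩ := (good.and_eventually (ev1.and hm1)).exists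
    have hs00 : 0 ≤ s0 := hs2.1.le
    have hs01 : s0 < 1 := hs2.2
    have hE0 : 0 < E s0 := H.Epos _ hs00 hs01
    have hK0 : 0 < K s0 := lt_of_lt_of_le (mul_pos (sub_pos.2 hs01) (pow_pos hE0 2))
      (H.K_ge hs00 hs01)
    set q : ℝ := √(K s0) / (2 * C) with hq
    have hqpos : 0 < q := by rw [hq]; have := Real.sqrt_pos.2 hK0; positivity
    -- choice of `r`
    have hc2 : 0 < (η ^ 2 * q) ^ 2 := by positivity
    have ev2 : ∀ᶠ s in 𝓝[<] (1 : ℝ), K s < (η ^ 2 * q) ^ 2 := (tendsto_order.1 H.Klim).2 _ hc2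
    have hm2 : Set.Ioo ((1 + s0) / 2) 1 ∈ 𝓝[<] (1 : ℝ) := Ioo_mem_nhdsLT (by linarith)
    obtain ⟨r, hr1, hr2⟩ := (ev2.and hm2).exists
    have hr1' : r < 1 := hr2.2
    have hsr : s0 < r := by linarith [hr2.1]
    have hEr : 0 < E r := H.Epos _ (hs00.trans hsr.le) hr1'
    -- choice of the mesh
    set M : ℝ := E r / E s0 with hM
    have hMpos : 0 < M := div_pos hEr hE0
    have hcont : ContinuousOn K (Set.Icc s0 r) :=
      H.Kcont.mono fun x hx => ⟨hs00.trans hx.1, lt_of_le_of_lt hx.2 hr1'⟩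
    have hunif := isCompact_Icc.uniformContinuousOn_of_continuous hcont
    rw [Metric.uniformContinuousOn_iff] at hunif
    obtain ⟨δ, hδ, hun⟩ := hunif ((η ^ 2 * q / M) ^ 2) (by positivity)
    obtain ⟨k, hk⟩ := exists_nat_gt ((r - s0) / δ)
    set n : ℕ := k + 1 with hn
    have hnpos : (0 : ℝ) < n := by positivity
    have hmesh : (r - s0) / n < δ := by
      rw [div_lt_iff₀ hnpos]
      rw [div_lt_iff₀ hδ] at hk
      have : (k : ℝ) < n := by rw [hn]; push_cast; linarith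
      nlinarith
    set t : ℕ → ℝ := fun i => s0 + (r - s0) * ((min i n : ℕ) / (n : ℝ)) with ht
    have htm : Monotone t := by
      intro i j hij
      simp only [ht]
      have h1 : ((min i n : ℕ) : ℝ) ≤ ((min j n : ℕ) : ℝ) := by
        exact_mod_cast min_le_min_right n hij
      have h2 := sub_nonneg.2 hsr.le
      gcongr
    have htzero : t 0 = s0 := by simp [ht]
    have htn : t n = r := by
      simp only [ht, min_self]
      rw [div_self hnpos.ne']; ring
    have htle : ∀ i, t i ≤ r := by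
      intro i
      rcases le_total i n with h | h
      · rw [← htn]; exact htm h
      · have : t i = t n := by simp only [ht]; rw [min_eq_right h, min_self]
        rw [this, htn]
    have htge : ∀ i, s0 ≤ t i := fun i => by rw [← htzero]; exact htm (Nat.zero_le i)
    have hstep : ∀ i, t (i + 1) - t i ≤ (r - s0) / n := by
      intro i
      simp only [ht]
      have h1 : ((min (i + 1) n : ℕ) : ℝ) ≤ ((min i n : ℕ) : ℝ) + 1 := by
        exact_mod_cast (show min (i + 1) n ≤ min i n + 1 by omega)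
      have h2 := sub_nonneg.2 hsr.le
      have h3 : (r - s0) * (((min (i + 1) n : ℕ) : ℝ) / n) - (r - s0) * (((min i n : ℕ) : ℝ) / n) =
          (r - s0) / n * (((min (i + 1) n : ℕ) : ℝ) - ((min i n : ℕ) : ℝ)) := by ring
      have h4 : 0 ≤ (r - s0) / n := by positivity
      nlinarith
    have hlt1 : ∀ i, t i < 1 := fun i => lt_of_le_of_lt (htle i) hr1'
    have hbase := H.one_scale htm (by rw [htzero]; exact hs00)
      hlt1 k (by rw [htzero, ← hn, htn]; exact hsr) ha hη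
    rw [← hn, htn, htzero] at hbase
    -- the bound
    have hsum : ∑ i ∈ Finset.range n, (1 - E (t i) / E (t (i + 1))) * √(K (t i) - K (t (i + 1))) ≤
        η ^ 2 * q := by
      have hterm : ∀ i ∈ Finset.range n,
          (1 - E (t i) / E (t (i + 1))) * √(K (t i) - K (t (i + 1))) ≤
          (E (t (i + 1)) - E (t i)) / E s0 * (η ^ 2 * q / M) := by
        intro i _
        have hti : 0 ≤ t i := hs00.trans (htge i)
        have h1 : E (t i) ≤ E (t (i + 1)) := H.Emono _ _ hti (htm (Nat.le_succ i)) (hlt1 _)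
        have h2 : E s0 ≤ E (t (i + 1)) := H.Emono _ _ hs00 (htge _) (hlt1 _)
        have h3 : 0 < E (t (i + 1)) := lt_of_lt_of_le hE0 h2
        have h4 : 1 - E (t i) / E (t (i + 1)) ≤ (E (t (i + 1)) - E (t i)) / E s0 := by
          have : 1 - E (t i) / E (t (i + 1)) = (E (t (i + 1)) - E (t i)) / E (t (i + 1)) := by
            field_simp
          rw [this]
          exact div_le_div_of_nonneg_left (sub_nonneg.2 h1) hE0 h2
        have h5 : √(K (t i) - K (t (i + 1))) ≤ η ^ 2 * q / M := by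
          rw [Real.sqrt_le_left (by positivity)]
          have h6 := hun (t i) ⟨htge i, htle i⟩ (t (i + 1)) ⟨htge _, htle _⟩ (by
            rw [Real.dist_eq, abs_sub_comm, abs_of_nonneg (sub_nonneg.2 (htm (Nat.le_succ i)))]
            exact lt_of_le_of_lt (hstep i) hmesh)
          rw [Real.dist_eq] at h6
          exact (le_abs_self _).trans h6.le
        have h7 : 0 ≤ (E (t (i + 1)) - E (t i)) / E s0 := div_nonneg (sub_nonneg.2 h1) hE0.le
        exact mul_le_mul h4 h5 (Real.sqrt_nonneg _) h7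
      refine (Finset.sum_le_sum hterm).trans ?_
      rw [← Finset.sum_mul, ← Finset.sum_div, Finset.sum_range_sub (fun i => E (t i)), htn, htzero]
      have h8 : (E r - E s0) / E s0 ≤ M := by
        rw [hM]; gcongr; linarith
      calc (E r - E s0) / E s0 * (η ^ 2 * q / M) ≤ M * (η ^ 2 * q / M) := by gcongr
        _ = η ^ 2 * q := by field_simp
    have hKr : √(K r) ≤ η ^ 2 * q := by
      rw [Real.sqrt_le_left (by positivity)]
      exact hr1.le
    have hqle : q ≤ √(r - s0) * E s0 := by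
      have h1 := h1s
      have h2 : (1 - s0) / 4 ≤ r - s0 := by linarith [hr2.1]
      have h3 : √(K s0) ≤ C * √(1 - s0) * E s0 := by
        rw [Real.sqrt_le_left (by positivity), mul_pow, mul_pow,
          Real.sq_sqrt (sub_pos.2 hs01).le]
        exact h1
      have h4 : √(1 - s0) / 2 ≤ √(r - s0) := by
        apply Real.le_sqrt_of_sq_le
        rw [div_pow, Real.sq_sqrt (sub_pos.2 hs01).le]
        norm_num
        exact h2
      rw [hq, div_le_iff₀ (by positivity)]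
      calc √(K s0) ≤ C * √(1 - s0) * E s0 := h3
        _ = (√(1 - s0) / 2) * E s0 * (2 * C) := by ring
        _ ≤ √(r - s0) * E s0 * (2 * C) := by gcongr
    have hfirst : 2 / a * √(K s0) * J s0 ≤ η ^ 2 * q := by
      calc 2 / a * √(K s0) * J s0 ≤ 2 / a * √(K s0) * (a * η ^ 2 / (4 * C)) := by gcongr
        _ = η ^ 2 * q := by rw [hq]; field_simp; ring
    refine hbase.trans ?_
    rw [← ENNReal.ofReal_add ?_ hη.le]
    · apply ENNReal.ofReal_le_ofReal
      have h1 : 0 < η * (√(r - s0) * E s0) := mul_pos hη (lt_of_lt_of_le hqpos hqle)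
      have h2 : (2 / a * √(K s0) * J s0 + (∑ i ∈ Finset.range n, (1 - E (t i) / E (t (i + 1))) *
          √(K (t i) - K (t (i + 1))) + √(K r))) / (η * (√(r - s0) * E s0)) ≤ 3 * η := by
        rw [div_le_iff₀ h1]
        calc _ ≤ η ^ 2 * q + (η ^ 2 * q + η ^ 2 * q) := by
              gcongr
          _ = 3 * η * (η * q) := by ring
          _ ≤ 3 * η * (η * (√(r - s0) * E s0)) := by gcongr
      linarith
    · apply div_nonneg _ (mul_pos hη (lt_of_lt_of_le hqpos hqle)).le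
      have h1 : 0 ≤ ∑ i ∈ Finset.range n, (1 - E (t i) / E (t (i + 1))) *
          √(K (t i) - K (t (i + 1))) := by
        apply Finset.sum_nonneg
        intro i _
        apply mul_nonneg _ (Real.sqrt_nonneg _)
        have h1 : E (t i) ≤ E (t (i + 1)) :=
          H.Emono _ _ (hs00.trans (htge i)) (htm (Nat.le_succ i)) (hlt1 _)
        have h3 : 0 < E (t (i + 1)) := H.Epos _ (hs00.trans (htge _)) (hlt1 _)
        rw [sub_nonneg, div_le_one h3]
        exact h1
      have h2 := Real.sqrt_nonneg (K r)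
      have h3 : 0 ≤ 2 / a * √(K s0) * J s0 := by
        have := H.J0 s0 hs00 hs01
        positivity
      linarith
  by_contra hne
  have hpos : 0 < (P {ω | lam ω = a}).toReal := ENNReal.toReal_pos hne (measure_ne_top _ _)
  have h3 := key ((P {ω | lam ω = a}).toReal / 8) (by positivity)
  have h4 : (P {ω | lam ω = a}).toReal ≤ 4 * ((P {ω | lam ω = a}).toReal / 8) :=
    ENNReal.toReal_le_of_le_ofReal (by positivity) h3
  linarith

end Force

end Crest.Agent.R146.LevC_4
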