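import Mathlib

/-!
# One-dimensional Gaussian inequalities (helper778), used by the exponents package of row 146

`γ := gaussianReal 0 1`, `c1 := ∫ max y 0 dγ`.
* `tail_le`    : `γ (Iic (-a)) ≤ exp (-a²/2)` (`a ≥ 0`);
* `cmp`        : for `L ≥ 1`, `0 ≤ z`, `δ ≤ 1/L`:
  `γ {y | z + y ≤ δ} ≤ γ (Iic (-3L)) + e⁸ L ∫ (z+y)₋ dγ`;
* `tail_ge`    : `γ (Ici y) ≥ c exp (-y²/2) / (1+y)`.
-/

set_option autoImplicit false

open MeasureTheory ProbabilityTheory Real

namespace Crest.Agent.R146.Gauss_778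

/-- standard Gaussian law -/
noncomputable abbrev γ : Measure ℝ := gaussianReal 0 1

/-- `E g₊` -/
noncomputable def c1 : ℝ := ∫ y, max y 0 ∂γ

lemma pdf_eq (x : ℝ) : gaussianPDFReal 0 1 x = (√(2 * π))⁻¹ * exp (-x ^ 2 / 2) := by
  simp [gaussianPDFReal]

lemma integrable_id : Integrable (fun y : ℝ => y) γ :=
  (memLp_id_gaussianReal' (μ := 0) (v := 1) 1 (by simp)).integrable le_rfl

lemma integrable_pos : Integrable (fun y : ℝ => max y 0) γ := integrable_id.pos_part

lemma integrable_neg : Integrable (fun y : ℝ => max (-y) 0) γ := integrable_id.neg.pos_part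

lemma integral_neg_part : ∫ y, max (-y) 0 ∂γ = c1 := by
  have h : (gaussianReal 0 1).map (fun x : ℝ => -x) = gaussianReal 0 1 := by
    simpa using gaussianReal_map_neg (μ := (0 : ℝ)) (v := 1)
  unfold c1
  conv_rhs => rw [γ, ← h]
  rw [integral_map (by fun_prop) (by fun_prop)]

lemma c1_pos : 0 < c1 := by
  unfold c1
  rw [integral_pos_iff_support_of_nonneg (f := fun y : ℝ => max y 0) (fun y => le_max_right y 0) integrable_pos]
  have : (Function.support fun y : ℝ => max y 0) = Set.Ioi 0 := by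
    ext y
    simp only [Function.mem_support, ne_eq, Set.mem_Ioi]
    constructor
    · intro h
      by_contra h'
      exact h (max_eq_right (not_lt.1 h'))
    · intro h
      rw [max_eq_left h.le]; exact h.ne'
  rw [this, γ, gaussianReal_apply 0 one_ne_zero]
  rw [lintegral_pos_iff_support (measurable_gaussianPDF 0 1)]
  rw [support_gaussianPDF one_ne_zero]
  simp

/-- exponential moment -/
lemma integral_exp (t : ℝ) : ∫ y, exp (t * y) ∂γ = exp (t ^ 2 / 2) := by
  have := congrFun (mgf_fun_id_gaussianReal (μ := 0) (v := 1)) t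
  simp only [mgf, NNReal.coe_one, zero_mul, one_mul, zero_add] at this
  exact this

lemma lintegral_exp (t : ℝ) :
    ∫⁻ y, ENNReal.ofReal (exp (t * y)) ∂γ = ENNReal.ofReal (exp (t ^ 2 / 2)) := by
  rw [← integral_exp, ofReal_integral_eq_lintegral_ofReal]
  · exact integrable_exp_mul_gaussianReal t
  · exact Filter.Eventually.of_forall fun y => (exp_pos _).le

lemma tail_le (a : ℝ) (ha : 0 ≤ a) : γ (Set.Iic (-a)) ≤ ENNReal.ofReal (exp (-a ^ 2 / 2)) := by
  have h1 : γ (Set.Iic (-a)) ≤ ∫⁻ y, ENNReal.ofReal (exp (-a ^ 2 - a * y)) ∂γ := by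
    rw [← lintegral_indicator_one measurableSet_Iic]
    refine lintegral_mono fun y => ?_
    by_cases hy : y ∈ Set.Iic (-a)
    · rw [Set.indicator_of_mem hy]
      simp only [Pi.one_apply]
      rw [← ENNReal.ofReal_one]
      refine ENNReal.ofReal_le_ofReal (one_le_exp ?_)
      have : y ≤ -a := hy
      nlinarith
    · rw [Set.indicator_of_notMem hy]; exact bot_le
  refine h1.trans ?_
  have h2 : ∀ y : ℝ, ENNReal.ofReal (exp (-a ^ 2 - a * y)) =
      ENNReal.ofReal (exp (-a ^ 2)) * ENNReal.ofReal (exp ((-a) * y)) := by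
    intro y
    rw [← ENNReal.ofReal_mul (exp_pos _).le, ← exp_add]
    congr 2; ring
  simp_rw [h2]
  rw [lintegral_const_mul _ (by fun_prop), lintegral_exp, ← ENNReal.ofReal_mul (exp_pos _).le,
    ← exp_add]
  apply ENNReal.ofReal_le_ofReal
  apply exp_le_exp.2
  nlinarith

lemma tail_ge' (a : ℝ) (ha : 0 ≤ a) : γ (Set.Ici a) ≤ ENNReal.ofReal (exp (-a ^ 2 / 2)) := by
  have h : (gaussianReal 0 1).map (fun x : ℝ => -x) = gaussianReal 0 1 := by
    simpa using gaussianReal_map_neg (μ := (0 : ℝ)) (v := 1)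
  have h2 : γ (Set.Ici a) = γ (Set.Iic (-a)) := by
    conv_lhs => rw [γ, ← h]
    rw [Measure.map_apply (by fun_prop) measurableSet_Ici]
    congr 1
    ext y; simp
  rw [h2]; exact tail_le a ha

/-- lintegral against `γ` as lintegral against Lebesgue -/
lemma lint (f : ℝ → ENNReal) :
    ∫⁻ y, f y ∂γ = ∫⁻ y, ENNReal.ofReal (gaussianPDFReal 0 1 y) * f y := by
  rw [γ, gaussianReal_of_var_ne_zero 0 one_ne_zero,
    lintegral_withDensity_eq_lintegral_mul_non_measurable _ (measurable_gaussianPDF 0 1)]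
  · rfl
  · exact Filter.Eventually.of_forall fun y => gaussianPDF_lt_top

/-- comparison of the mass near the threshold with the expected negative part -/
lemma cmp (L z δ : ℝ) (hL : 1 ≤ L) (hδ : δ ≤ 1 / L) :
    γ {y | z + y ≤ δ} ≤ γ (Set.Iic (-(3 * L))) +
      ENNReal.ofReal (exp 8 * L) * ∫⁻ y, ENNReal.ofReal (max (-(z + y)) 0) ∂γ := by
  have hL0 : 0 < L := by linarith
  have hm : MeasurableSet {y : ℝ | z + y ≤ δ} := measurableSet_le (by fun_prop) (by fun_prop)
  have hsub : {y : ℝ | z + y ≤ δ} ⊆ Set.Iic (-(3 * L)) ∪ ({y | z + y ≤ δ} ∩ Set.Ioi (-(3 * L))) := by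
    intro y hy
    by_cases h : y ≤ -(3 * L)
    · exact Or.inl h
    · exact Or.inr ⟨hy, not_le.1 h⟩
  refine (measure_mono hsub).trans ((measure_union_le _ _).trans (add_le_add le_rfl ?_))
  have hm2 : MeasurableSet ({y : ℝ | z + y ≤ δ} ∩ Set.Ioi (-(3 * L))) := hm.inter measurableSet_Ioi
  rw [← lintegral_indicator_one hm2, lint, lint]
  have htr : ∫⁻ y, ENNReal.ofReal (gaussianPDFReal 0 1 y) * ENNReal.ofReal (max (-(z + y)) 0)
      = ∫⁻ y, ENNReal.ofReal (gaussianPDFReal 0 1 (y - 2 / L)) *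
        ENNReal.ofReal (max (-(z + (y - 2 / L))) 0) :=
    (lintegral_sub_right_eq_self (fun y => ENNReal.ofReal (gaussianPDFReal 0 1 y) *
      ENNReal.ofReal (max (-(z + y)) 0)) (2 / L)).symm
  rw [htr, ← lintegral_const_mul' _ _ ENNReal.ofReal_ne_top]
  refine lintegral_mono fun y => ?_
  by_cases hy : y ∈ ({y : ℝ | z + y ≤ δ} ∩ Set.Ioi (-(3 * L)))
  · rw [Set.indicator_of_mem hy]
    simp only [Pi.one_apply, mul_one]
    rw [← ENNReal.ofReal_mul (gaussianPDFReal_nonneg _ _ _), ← ENNReal.ofReal_mul (by positivity)]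
    apply ENNReal.ofReal_le_ofReal
    obtain ⟨hy1, hy2⟩ := hy
    have hy1' : z + y ≤ δ := hy1
    have hy2' : -(3 * L) < y := hy2
    have h3 : 1 / L ≤ -(z + (y - 2 / L)) := by
      have : 2 / L = 1 / L + 1 / L := by ring
      linarith
    have h4 : 1 / L ≤ max (-(z + (y - 2 / L))) 0 := le_max_of_le_left h3
    have h5 : gaussianPDFReal 0 1 y ≤ exp 8 * gaussianPDFReal 0 1 (y - 2 / L) := by
      rw [pdf_eq, pdf_eq]
      have : exp 8 * ((√(2 * π))⁻¹ * exp (-(y - 2 / L) ^ 2 / 2)) =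
          (√(2 * π))⁻¹ * exp (8 + -(y - 2 / L) ^ 2 / 2) := by
        rw [exp_add]; ring
      rw [this]
      refine mul_le_mul_of_nonneg_left (exp_le_exp.2 ?_) (by positivity)
      have h6 : (2 / L) * (-(3 * L)) ≤ (2 / L) * y :=
        mul_le_mul_of_nonneg_left hy2'.le (by positivity)
      have h7 : (2 / L) * (-(3 * L)) = -6 := by field_simp; ring
      have h8 : (2 / L) ≤ 2 := by
        rw [div_le_iff₀ hL0]; linarith
      have h9 : 0 ≤ 2 / L := by positivity
      nlinarith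
    calc gaussianPDFReal 0 1 y ≤ exp 8 * gaussianPDFReal 0 1 (y - 2 / L) := h5
      _ = exp 8 * L * (gaussianPDFReal 0 1 (y - 2 / L) * (1 / L)) := by field_simp
      _ ≤ exp 8 * L * (gaussianPDFReal 0 1 (y - 2 / L) * max (-(z + (y - 2 / L))) 0) := by
          have := gaussianPDFReal_nonneg 0 1 (y - 2 / L)
          gcongr
  · rw [Set.indicator_of_notMem hy]; simp

/-- lower bound for the Gaussian tail -/
lemma tail_ge (y : ℝ) (hy : 0 ≤ y) :
    ENNReal.ofReal ((√(2 * π))⁻¹ * exp (-2) / (1 + y) * exp (-y ^ 2 / 2)) ≤ γ (Set.Ici y) := by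
  have h1 : γ (Set.Icc y (y + 1 / (1 + y))) ≤ γ (Set.Ici y) := measure_mono fun x hx => hx.1
  refine le_trans ?_ h1
  rw [← lintegral_indicator_one measurableSet_Icc, lint]
  have h2 : ∫⁻ x in Set.Icc y (y + 1 / (1 + y)),
      ENNReal.ofReal ((√(2 * π))⁻¹ * exp (-2) * exp (-y ^ 2 / 2)) ≤
      ∫⁻ x, ENNReal.ofReal (gaussianPDFReal 0 1 x) *
        (Set.Icc y (y + 1 / (1 + y))).indicator 1 x := by
    rw [← lintegral_indicator measurableSet_Icc]
    refine lintegral_mono fun x => ?_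
    by_cases hx : x ∈ Set.Icc y (y + 1 / (1 + y))
    · rw [Set.indicator_of_mem hx, Set.indicator_of_mem hx]
      simp only [Pi.one_apply, mul_one]
      apply ENNReal.ofReal_le_ofReal
      rw [pdf_eq, mul_assoc, ← exp_add]
      refine mul_le_mul_of_nonneg_left (exp_le_exp.2 ?_) (by positivity)
      have h3 : x ≤ y + 1 / (1 + y) := hx.2
      have h4 : 0 ≤ x := hy.trans hx.1
      have h5 : y * (1 / (1 + y)) ≤ 1 := by
        rw [mul_one_div, div_le_one (by linarith)]; linarith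
      have h6 : 1 / (1 + y) ≤ 1 := by rw [div_le_one (by linarith)]; linarith
      have h7 : 0 ≤ 1 / (1 + y) := by positivity
      have h8 : x ^ 2 ≤ (y + 1 / (1 + y)) ^ 2 := by gcongr
      nlinarith
    · rw [Set.indicator_of_notMem hx]; exact bot_le
  refine le_trans (le_of_eq ?_) h2
  rw [setLIntegral_const, Real.volume_Icc, ← ENNReal.ofReal_mul (by positivity)]
  congr 1
  field_simp
  ring

end Crest.Agent.R146.Gauss_778
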