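import Mathlib
import Crest.Agent.R146.LevC_4
import Crest.Agent.R146.SnapA_778

/-!
# Inputs of the exponents package (helper778), row 146: abstract part

* `IG_lint`   : joint law of a `G`-measurable variable and an independent Gaussian, on `C ∈ G`;
* `s1_abs`    : `X + Z ≤ h` and `h ≥ 0` give `E (X + √τ g)₊ ≤ E_G h`;
* `s3_prob`   : approximate lower bound for the probability of staying nonnegative;
* `s3_abs`    : comparison between two times.
-/

set_option autoImplicit false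

open MeasureTheory ProbabilityTheory Filter Topology
open scoped ENNReal NNReal

namespace Crest.Agent.R146.Expo_778
open Crest.Agent.R146.LevC_4 Crest.Agent.R146.Gauss_778 Crest.Agent.R146.Snap_778

variable {Ω : Type*} {G mΩ : MeasurableSpace Ω} {P : Measure[mΩ] Ω}

lemma IG_joint [IsProbabilityMeasure P] (hG : G ≤ mΩ) {Y Z : Ω → ℝ} {v : ℝ≥0} (h : IG P G Z v)
    (hZ : Measurable Z) (hY : Measurable[G] Y) {C : Set Ω} (hC : MeasurableSet[G] C) :
    (P.restrict C).map (fun ω => (Y ω, Z ω)) = ((P.restrict C).map Y).prod (gaussianReal 0 v) := by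
  have hYm : Measurable Y := hY.mono hG le_rfl
  have hCm : MeasurableSet C := hG C hC
  symm
  apply Measure.prod_eq
  intro s t hs ht
  rw [Measure.map_apply (hYm.prodMk hZ) (hs.prod ht), Measure.restrict_apply
    ((hYm.prodMk hZ) (hs.prod ht)), Measure.map_apply hYm hs, Measure.restrict_apply (hYm hs)]
  have e : (fun ω => (Y ω, Z ω)) ⁻¹' s ×ˢ t ∩ C = (C ∩ Y ⁻¹' s) ∩ Z ⁻¹' t := by
    ext ω
    simp only [Set.mem_inter_iff, Set.mem_preimage, Set.mem_prod]
    tauto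
  rw [e, h _ (hC.inter (hY hs)) t ht, Set.inter_comm C]

lemma IG_lint [IsProbabilityMeasure P] (hG : G ≤ mΩ) {Y Z : Ω → ℝ} {v : ℝ≥0} (h : IG P G Z v)
    (hZ : Measurable Z) (hY : Measurable[G] Y) {C : Set Ω} (hC : MeasurableSet[G] C)
    {ψ : ℝ × ℝ → ℝ≥0∞} (hψ : Measurable ψ) :
    ∫⁻ ω in C, ψ (Y ω, Z ω) ∂P = ∫⁻ ω in C, ∫⁻ z, ψ (Y ω, z) ∂(gaussianReal 0 v) ∂P := by
  have hYm : Measurable Y := hY.mono hG le_rfl
  have h1 : ∫⁻ ω in C, ψ (Y ω, Z ω) ∂P =
      ∫⁻ p, ψ p ∂((P.restrict C).map (fun ω => (Y ω, Z ω))) := by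
    rw [lintegral_map hψ (hYm.prodMk hZ)]
  rw [h1, IG_joint hG h hZ hY hC, lintegral_prod _ hψ.aemeasurable,
    lintegral_map (f := fun x => ∫⁻ y, ψ (x, y) ∂(gaussianReal 0 v)) (hψ.lintegral_prod_right') hYm]

lemma gauss_scale {v : ℝ} (hv : 0 ≤ v) {f : ℝ → ℝ≥0∞} (hf : Measurable f) :
    ∫⁻ z, f z ∂(gaussianReal 0 v.toNNReal) = ∫⁻ y, f (√v * y) ∂γ := by
  have h1 : gaussianReal 0 v.toNNReal = (gaussianReal 0 1).map (fun x => √v * x) := by
    rw [gaussianReal_map_const_mul, mul_zero, mul_one]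
    congr 1
    rw [← NNReal.coe_inj, Real.coe_toNNReal _ hv]
    exact (Real.sq_sqrt hv).symm
  rw [h1, lintegral_map hf (measurable_const_mul _)]

lemma gauss_Ici' {v : ℝ} (hv : 0 < v) (a : ℝ) :
    gaussianReal 0 v.toNNReal (Set.Ici a) = γ (Set.Ici (a / √v)) := by
  have h := gauss_scale hv.le (f := (Set.Ici a).indicator 1)
    (measurable_one.indicator measurableSet_Ici)
  rw [lintegral_indicator_one measurableSet_Ici] at h
  rw [h, ← lintegral_indicator_one measurableSet_Ici]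
  refine lintegral_congr fun y => ?_
  have hs : 0 < √v := Real.sqrt_pos.2 hv
  by_cases hy : a / √v ≤ y
  · rw [Set.indicator_of_mem (show y ∈ Set.Ici (a / √v) from hy), Set.indicator_of_mem]
    · rfl
    · rw [div_le_iff₀ hs] at hy
      show a ≤ √v * y
      linarith
  · rw [Set.indicator_of_notMem (show y ∉ Set.Ici (a / √v) from hy), Set.indicator_of_notMem]
    intro h2
    have h3 : a ≤ √v * y := h2
    apply hy
    rw [div_le_iff₀ hs]; linarith

lemma ae_le_of_sets [IsProbabilityMeasure P] (hG : G ≤ mΩ) {f g : Ω → ℝ≥0∞}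
    (hf : Measurable[G] f) (hg : Measurable[G] g)
    (h : ∀ C, MeasurableSet[G] C → ∫⁻ ω in C, f ω ∂P ≤ ∫⁻ ω in C, g ω ∂P) : f ≤ᵐ[P] g := by
  apply ae_le_of_ae_le_trim (hm := hG)
  refine @ae_le_of_forall_setLIntegral_le_of_sigmaFinite Ω G (P.trim hG) _ f g hf ?_
  intro C hC _
  rw [← lintegral_indicator hC, ← lintegral_indicator hC, lintegral_trim hG (hf.indicator hC),
    lintegral_trim hG (hg.indicator hC), lintegral_indicator (hG C hC),
    lintegral_indicator (hG C hC)]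
  exact h C hC

lemma ofReal_phi (τ x : ℝ) :
    ENNReal.ofReal (phi τ x) = ∫⁻ y, ENNReal.ofReal (max (x + √τ * y) 0) ∂γ := by
  unfold phi
  rw [ofReal_integral_eq_lintegral_ofReal (intg_phi τ x)
    (Eventually.of_forall fun y => le_max_right _ _)]

lemma measurable_gphi (τ : ℝ) :
    Measurable fun x : ℝ => ∫⁻ y, ENNReal.ofReal (max (x + √τ * y) 0) ∂γ := by
  have h : Measurable fun p : ℝ × ℝ => ENNReal.ofReal (max (p.1 + √τ * p.2) 0) := by fun_prop
  exact h.lintegral_prod_right'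

/-- `h ≥ (X + Z)₊` ⟹ `E (X + √τ g)₊ ≤ E_G h` -/
lemma s1_abs [IsProbabilityMeasure P] (hG : G ≤ mΩ) {h H X Z : Ω → ℝ} {τ : ℝ} (hτ : 0 < τ)
    (mH : Measurable[G] H) (mX : Measurable[G] X) (mZ : Measurable Z)
    (ig : IG P G Z τ.toNNReal)
    (iH : ∀ A, MeasurableSet[G] A →
      ∫⁻ ω in A, ENNReal.ofReal (h ω) ∂P = ∫⁻ ω in A, ENNReal.ofReal (H ω) ∂P)
    (pos : ∀ᵐ ω ∂P, X ω + Z ω ≤ h ω) (h0 : ∀ᵐ ω ∂P, 0 ≤ h ω) (H0 : ∀ᵐ ω ∂P, 0 ≤ H ω) :
    ∀ᵐ ω ∂P, phi τ (X ω) ≤ H ω := by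
  have key : (fun ω => ∫⁻ y, ENNReal.ofReal (max (X ω + √τ * y) 0) ∂γ) ≤ᵐ[P]
      fun ω => ENNReal.ofReal (H ω) := by
    refine ae_le_of_sets hG ((measurable_gphi τ).comp mX)
      (ENNReal.measurable_ofReal.comp mH) fun C hC => ?_
    rw [← iH C hC]
    have hψ : Measurable fun p : ℝ × ℝ => ENNReal.ofReal (max (p.1 + p.2) 0) := by fun_prop
    have h1 := IG_lint hG ig mZ mX hC hψ
    have h2 : ∫⁻ ω in C, ∫⁻ y, ENNReal.ofReal (max (X ω + √τ * y) 0) ∂γ ∂P =
        ∫⁻ ω in C, ∫⁻ z, ENNReal.ofReal (max (X ω + z) 0) ∂(gaussianReal 0 τ.toNNReal) ∂P := by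
      refine lintegral_congr fun ω => ?_
      rw [gauss_scale hτ.le (f := fun z => ENNReal.ofReal (max (X ω + z) 0)) (by fun_prop)]
    rw [h2]
    refine le_trans (le_of_eq h1.symm) ?_
    refine lintegral_mono_ae ?_
    filter_upwards [ae_restrict_of_ae pos, ae_restrict_of_ae h0] with ω h3 h4
    exact ENNReal.ofReal_le_ofReal (max_le h3 h4)
  filter_upwards [key, H0] with ω h1 h2
  have h3 : ENNReal.ofReal (phi τ (X ω)) ≤ ENNReal.ofReal (H ω) := by
    rw [ofReal_phi]; exact h1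
  exact (ENNReal.ofReal_le_ofReal_iff h2).1 h3

lemma gLip {y y' : ℝ} : γ.real (Set.Ici y) ≤ γ.real (Set.Ici y') + |y' - y| := by
  rcases le_total y' y with h | h
  · have : γ.real (Set.Ici y) ≤ γ.real (Set.Ici y') := measureReal_mono (Set.Ici_subset_Ici.2 h)
    have h2 := abs_nonneg (y' - y)
    linarith
  · have h1 : Set.Ici y ⊆ Set.Ici y' ∪ Set.Ico y y' := by
      intro x hx
      rcases le_or_gt y' x with h2 | h2
      · exact Or.inl h2
      · exact Or.inr ⟨hx, h2⟩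
    have h2 : γ.real (Set.Ico y y') ≤ y' - y := by
      rw [measureReal_def]
      refine ENNReal.toReal_le_of_le_ofReal (by linarith) ?_
      rw [γ, gaussianReal_apply 0 one_ne_zero]
      calc ∫⁻ x in Set.Ico y y', gaussianPDF 0 1 x ≤ ∫⁻ x in Set.Ico y y', 1 := by
            refine lintegral_mono fun x => ?_
            unfold gaussianPDF
            rw [← ENNReal.ofReal_one]
            apply ENNReal.ofReal_le_ofReal
            rw [pdf_eq]
            have h3 : (√(2 * Real.pi))⁻¹ ≤ 1 := by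
              apply inv_le_one_of_one_le₀
              rw [Real.one_le_sqrt]
              have := Real.pi_gt_three
              linarith
            have h4 : Real.exp (-x ^ 2 / 2) ≤ 1 := by
              rw [Real.exp_le_one_iff]
              nlinarith [sq_nonneg x]
            have h5 : 0 < Real.exp (-x ^ 2 / 2) := Real.exp_pos _
            calc (√(2 * Real.pi))⁻¹ * Real.exp (-x ^ 2 / 2) ≤ 1 * 1 := by gcongr
              _ = 1 := one_mul 1
        _ = ENNReal.ofReal (y' - y) := by simp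
    calc γ.real (Set.Ici y) ≤ γ.real (Set.Ici y' ∪ Set.Ico y y') := measureReal_mono h1
      _ ≤ γ.real (Set.Ici y') + γ.real (Set.Ico y y') := measureReal_union_le _ _
      _ ≤ γ.real (Set.Ici y') + (y' - y) := by linarith
      _ ≤ _ := by gcongr; exact le_abs_self _

lemma measurable_gIci : Measurable fun y : ℝ => γ.real (Set.Ici y) := by
  have h : Antitone fun y : ℝ => γ.real (Set.Ici y) := fun a b hab =>
    measureReal_mono (Set.Ici_subset_Ici.2 hab)
  exact h.measurable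

/-- one approximation step -/
lemma s3_step [IsProbabilityMeasure P] (hG : G ≤ mΩ) {Y N R : Ω → ℝ} {v vn ε rn : ℝ} {A' C : Set Ω}
    (mY : Measurable[G] Y) (iY : Integrable Y P) (mN : Measurable N) (ig : IG P G N vn.toNNReal)
    (hvn : 0 < vn) (hR : Integrable (fun ω => R ω ^ 2) P)
    (hRn : ∫ ω, R ω ^ 2 ∂P ≤ rn) (hε : 0 < ε)
    (hA : ∀ᵐ ω ∂P, 0 ≤ Y ω + N ω + R ω → ω ∈ A') (hC : MeasurableSet[G] C) :
    ∫ ω in C, γ.real (Set.Ici (-(Y ω) / √v)) ∂P ≤ P.real (C ∩ A') + rn / ε ^ 2 + ε / √vn +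
      |1 / √v - 1 / √vn| * ∫ ω, |Y ω| ∂P := by
  have hYm : Measurable Y := mY.mono hG le_rfl
  have hCm : MeasurableSet C := hG C hC
  have hs : 0 < √vn := Real.sqrt_pos.2 hvn
  -- the Gaussian integral
  have h1 : P (C ∩ {ω | ε ≤ Y ω + N ω}) = ∫⁻ ω in C, γ (Set.Ici ((ε - Y ω) / √vn)) ∂P := by
    have hm : MeasurableSet {p : ℝ × ℝ | ε ≤ p.1 + p.2} :=
      measurableSet_le measurable_const (by fun_prop)
    have h2 := IG_lint hG ig mN mY hC (ψ := {p : ℝ × ℝ | ε ≤ p.1 + p.2}.indicator 1)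
      (measurable_one.indicator hm)
    have h3 : P (C ∩ {ω | ε ≤ Y ω + N ω}) =
        ∫⁻ ω in C, {p : ℝ × ℝ | ε ≤ p.1 + p.2}.indicator (1 : ℝ × ℝ → ℝ≥0∞) (Y ω, N ω) ∂P := by
      have hE : MeasurableSet {ω | ε ≤ Y ω + N ω} := measurableSet_le measurable_const (hYm.add mN)
      rw [Set.inter_comm, ← Measure.restrict_apply hE, ← lintegral_indicator_one hE]
      refine lintegral_congr fun ω => ?_
      by_cases hω : ε ≤ Y ω + N ω
      · rw [Set.indicator_of_mem (show ω ∈ {ω | ε ≤ Y ω + N ω} from hω), Set.indicator_of_mem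
          (show (Y ω, N ω) ∈ {p : ℝ × ℝ | ε ≤ p.1 + p.2} from hω)]
        rfl
      · rw [Set.indicator_of_notMem (show ω ∉ {ω | ε ≤ Y ω + N ω} from hω),
          Set.indicator_of_notMem (show (Y ω, N ω) ∉ {p : ℝ × ℝ | ε ≤ p.1 + p.2} from hω)]
    rw [h3, h2]
    refine lintegral_congr fun ω => ?_
    rw [← gauss_Ici' hvn, ← lintegral_indicator_one measurableSet_Ici]
    refine lintegral_congr fun z => ?_
    by_cases hz : ε ≤ Y ω + z
    · rw [Set.indicator_of_mem (show (Y ω, z) ∈ {p : ℝ × ℝ | ε ≤ p.1 + p.2} from hz),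
        Set.indicator_of_mem (show z ∈ Set.Ici (ε - Y ω) from by
          show ε - Y ω ≤ z
          linarith)]
      rfl
    · rw [Set.indicator_of_notMem (show (Y ω, z) ∉ {p : ℝ × ℝ | ε ≤ p.1 + p.2} from hz),
        Set.indicator_of_notMem (show z ∉ Set.Ici (ε - Y ω) from by
          intro h4
          have h4' : ε - Y ω ≤ z := h4
          exact hz (by linarith))]
  have mg : Measurable fun ω => γ.real (Set.Ici ((ε - Y ω) / √vn)) :=
    measurable_gIci.comp ((measurable_const.sub hYm).div_const _)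
  have mg0 : Measurable fun ω => γ.real (Set.Ici (-(Y ω) / √v)) :=
    measurable_gIci.comp (hYm.neg.div_const _)
  have bd : ∀ y : ℝ, γ.real (Set.Ici y) ≤ 1 := fun y => measureReal_le_one
  have ig1 : Integrable (fun ω => γ.real (Set.Ici ((ε - Y ω) / √vn))) P := by
    refine Integrable.of_bound mg.aestronglyMeasurable 1 (Eventually.of_forall fun ω => ?_)
    rw [Real.norm_of_nonneg measureReal_nonneg]; exact bd _
  have ig0 : Integrable (fun ω => γ.real (Set.Ici (-(Y ω) / √v))) P := by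
    refine Integrable.of_bound mg0.aestronglyMeasurable 1 (Eventually.of_forall fun ω => ?_)
    rw [Real.norm_of_nonneg measureReal_nonneg]; exact bd _
  have h2 : ∫ ω in C, γ.real (Set.Ici ((ε - Y ω) / √vn)) ∂P = P.real (C ∩ {ω | ε ≤ Y ω + N ω}) := by
    rw [integral_eq_lintegral_of_nonneg_ae (Eventually.of_forall fun ω => measureReal_nonneg)
      mg.aestronglyMeasurable, measureReal_def, h1]
    congr 1
    refine lintegral_congr fun ω => ?_
    rw [measureReal_def, ENNReal.ofReal_toReal (measure_ne_top _ _)]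
  -- the bad event
  have h3 : P.real {ω | ε ^ 2 ≤ R ω ^ 2} ≤ rn / ε ^ 2 := by
    have h4 := mul_meas_ge_le_integral_of_nonneg (μ := P) (f := fun ω => R ω ^ 2)
      (Eventually.of_forall fun ω => sq_nonneg _) hR (ε ^ 2)
    rw [le_div_iff₀ (by positivity), mul_comm]
    exact h4.trans hRn
  have h5 : P.real (C ∩ {ω | ε ≤ Y ω + N ω}) ≤ P.real (C ∩ A') + P.real {ω | ε ^ 2 ≤ R ω ^ 2} := by
    have h6 : P.real (C ∩ {ω | ε ≤ Y ω + N ω}) ≤ P.real ((C ∩ A') ∪ {ω | ε ^ 2 ≤ R ω ^ 2}) := by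
      rw [measureReal_def, measureReal_def]
      refine ENNReal.toReal_mono (measure_ne_top _ _) (measure_mono_ae ?_)
      filter_upwards [hA] with ω h7 h8
      rcases le_or_gt (ε ^ 2) (R ω ^ 2) with h9 | h9
      · exact Or.inr h9
      · refine Or.inl ⟨h8.1, h7 ?_⟩
        have h10 : ε ≤ Y ω + N ω := h8.2
        have h11 := abs_lt_of_sq_lt_sq h9 hε.le
        have := (abs_lt.1 h11).1
        linarith
    exact h6.trans (measureReal_union_le _ _)
  -- Lipschitz comparison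
  have h6 : ∫ ω in C, γ.real (Set.Ici (-(Y ω) / √v)) ∂P ≤
      ∫ ω in C, (γ.real (Set.Ici ((ε - Y ω) / √vn)) +
        (ε / √vn + |1 / √v - 1 / √vn| * |Y ω|)) ∂P := by
    refine integral_mono ig0.integrableOn ?_ fun ω => ?_
    · exact (ig1.add ((integrable_const _).add (iY.abs.const_mul _))).integrableOn
    · refine (gLip (y' := (ε - Y ω) / √vn)).trans ?_
      have h7 : (ε - Y ω) / √vn - -(Y ω) / √v = ε / √vn + (1 / √v - 1 / √vn) * Y ω := by ring
      have h8 : |(ε - Y ω) / √vn - -(Y ω) / √v| ≤ ε / √vn + |1 / √v - 1 / √vn| * |Y ω| := by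
        rw [h7]
        refine (abs_add_le _ _).trans ?_
        rw [abs_mul, abs_of_nonneg (by positivity : 0 ≤ ε / √vn)]
      gcongr
  have h7 : ∫ ω in C, (γ.real (Set.Ici ((ε - Y ω) / √vn)) +
        (ε / √vn + |1 / √v - 1 / √vn| * |Y ω|)) ∂P ≤
      P.real (C ∩ {ω | ε ≤ Y ω + N ω}) + (ε / √vn + |1 / √v - 1 / √vn| * ∫ ω, |Y ω| ∂P) := by
    have i2 : Integrable (fun ω => ε / √vn + |1 / √v - 1 / √vn| * |Y ω|) P :=
      (integrable_const _).add (iY.abs.const_mul _)
    rw [integral_add ig1.integrableOn i2.integrableOn, h2]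
    have h8 : ∫ ω in C, (ε / √vn + |1 / √v - 1 / √vn| * |Y ω|) ∂P ≤
        ∫ ω, (ε / √vn + |1 / √v - 1 / √vn| * |Y ω|) ∂P :=
      setIntegral_le_integral i2 (Eventually.of_forall fun ω => by
        show 0 ≤ ε / √vn + |1 / √v - 1 / √vn| * |Y ω|
        positivity)
    rw [integral_add (integrable_const _) (iY.abs.const_mul _), integral_const_mul] at h8
    simp only [integral_const, probReal_univ, smul_eq_mul, one_mul] at h8
    linarith
  linarith

/-- limit of `s3_step` -/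
lemma s3_prob [IsProbabilityMeasure P] (hG : G ≤ mΩ) {Y : Ω → ℝ} {N R : ℕ → Ω → ℝ} {v : ℝ}
    {vn rn : ℕ → ℝ} {A' C : Set Ω}
    (mY : Measurable[G] Y) (iY : Integrable Y P) (mN : ∀ n, Measurable (N n))
    (ig : ∀ n, IG P G (N n) (vn n).toNNReal) (hv : 0 < v) (hvn : ∀ n, 0 < vn n)
    (lv : Tendsto vn atTop (𝓝 v)) (hR : ∀ n, Integrable (fun ω => R n ω ^ 2) P)
    (hRn : ∀ n, ∫ ω, R n ω ^ 2 ∂P ≤ rn n) (lr : Tendsto rn atTop (𝓝 0))
    (hA : ∀ n, ∀ᵐ ω ∂P, 0 ≤ Y ω + N n ω + R n ω → ω ∈ A') (hC : MeasurableSet[G] C) :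
    ∫ ω in C, γ.real (Set.Ici (-(Y ω) / √v)) ∂P ≤ P.real (C ∩ A') := by
  have hs : 0 < √v := Real.sqrt_pos.2 hv
  have lsv : Tendsto (fun n => √(vn n)) atTop (𝓝 √v) := (Real.continuous_sqrt.tendsto v).comp lv
  have step : ∀ ε : ℝ, 0 < ε → ∫ ω in C, γ.real (Set.Ici (-(Y ω) / √v)) ∂P ≤
      P.real (C ∩ A') + ε / √v := by
    intro ε hε
    have l1 : Tendsto (fun n => P.real (C ∩ A') + rn n / ε ^ 2 + ε / √(vn n) +
        |1 / √v - 1 / √(vn n)| * ∫ ω, |Y ω| ∂P) atTop
        (𝓝 (P.real (C ∩ A') + 0 / ε ^ 2 + ε / √v + |1 / √v - 1 / √v| * ∫ ω, |Y ω| ∂P)) := by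
      refine Tendsto.add (Tendsto.add (Tendsto.add tendsto_const_nhds (lr.div_const _))
        (Tendsto.div tendsto_const_nhds lsv hs.ne')) ?_
      exact ((tendsto_const_nhds.sub (Tendsto.div tendsto_const_nhds lsv hs.ne')).abs).mul_const _
    have l2 := ge_of_tendsto' l1 fun n => s3_step (v := v) hG mY iY (mN n) (ig n) (hvn n) (hR n)
      (hRn n) hε (hA n) hC
    simpa using l2
  have l3 : Tendsto (fun ε : ℝ => P.real (C ∩ A') + ε / √v) (𝓝[>] 0)
      (𝓝 (P.real (C ∩ A') + 0 / √v)) := by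
    refine (tendsto_const_nhds.add ?_).mono_left nhdsWithin_le_nhds
    exact (continuous_id.div_const _).tendsto 0
  rw [zero_div, add_zero] at l3
  exact ge_of_tendsto l3 (by filter_upwards [self_mem_nhdsWithin] with ε hε using step ε hε)

/-- comparison between two times -/
lemma s3_abs [IsProbabilityMeasure P] (hG : G ≤ mΩ) {Y H H' : Ω → ℝ} {v a : ℝ} {A' : Set Ω}
    (mY : Measurable[G] Y) (mH : Measurable[G] H) (iHi : Integrable H P) (iH' : Integrable H' P)
    (hprob : ∀ C, MeasurableSet[G] C →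
      ∫ ω in C, γ.real (Set.Ici (-(Y ω) / √v)) ∂P ≤ P.real (C ∩ A'))
    (mA : MeasurableSet A') (ha : 0 ≤ a) (hH' : ∀ᵐ ω ∂P, ω ∈ A' → a ≤ H' ω)
    (H0' : ∀ᵐ ω ∂P, 0 ≤ H' ω) (H0 : ∀ᵐ ω ∂P, 0 ≤ H ω)
    (eq : ∀ C, MeasurableSet[G] C → ∫ ω in C, H' ω ∂P = ∫ ω in C, H ω ∂P) :
    ∀ᵐ ω ∂P, a * γ.real (Set.Ici (-(Y ω) / √v)) ≤ H ω := by
  have hYm : Measurable Y := mY.mono hG le_rfl
  have mg0' : Measurable[G] fun ω => γ.real (Set.Ici (-(Y ω) / √v)) :=
    measurable_gIci.comp (mY.neg.div_const _)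
  have mg0 : Measurable fun ω => γ.real (Set.Ici (-(Y ω) / √v)) := mg0'.mono hG le_rfl
  have ig0 : Integrable (fun ω => γ.real (Set.Ici (-(Y ω) / √v))) P := by
    refine Integrable.of_bound mg0.aestronglyMeasurable 1 (Eventually.of_forall fun ω => ?_)
    rw [Real.norm_of_nonneg measureReal_nonneg]; exact measureReal_le_one
  have key : (fun ω => ENNReal.ofReal (a * γ.real (Set.Ici (-(Y ω) / √v)))) ≤ᵐ[P]
      fun ω => ENNReal.ofReal (H ω) := by
    refine ae_le_of_sets hG (ENNReal.measurable_ofReal.comp (mg0'.const_mul a))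
      (ENNReal.measurable_ofReal.comp mH) fun C hC => ?_
    have hCm := hG C hC
    rw [← ofReal_integral_eq_lintegral_ofReal (ig0.const_mul a).integrableOn
      (Eventually.of_forall fun ω => mul_nonneg ha measureReal_nonneg),
      ← ofReal_integral_eq_lintegral_ofReal iHi.integrableOn (ae_restrict_of_ae H0)]
    apply ENNReal.ofReal_le_ofReal
    rw [integral_const_mul, ← eq C hC]
    calc a * ∫ ω in C, γ.real (Set.Ici (-(Y ω) / √v)) ∂P ≤ a * P.real (C ∩ A') :=
          mul_le_mul_of_nonneg_left (hprob C hC) ha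
      _ = ∫ ω in C, A'.indicator (fun _ => a) ω ∂P := by
          rw [setIntegral_indicator mA, setIntegral_const, smul_eq_mul, mul_comm]
      _ ≤ ∫ ω in C, H' ω ∂P := by
          refine setIntegral_mono_on_ae ((integrable_const a).indicator mA).integrableOn
            iH'.integrableOn hCm ?_
          filter_upwards [hH', H0'] with ω h1 h2 _
          by_cases h3 : ω ∈ A'
          · rw [Set.indicator_of_mem h3]; exact h1 h3
          · rw [Set.indicator_of_notMem h3]; exact h2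
  filter_upwards [key, H0] with ω h1 h2
  exact (ENNReal.ofReal_le_ofReal_iff h2).1 h1

end Crest.Agent.R146.Expo_778
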