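import Crest.Agent.R146.Lev2_576
import Crest.Agent.R146.Obs3_918

/-!
Row 146, package P5, gluing step (helper576): `JamData` (Obs3_918) from the Hilbert nodes.

* `LCP M ξ c g x` : `x ≥ 0`, `h = ξ + Dop g x + c x ≥ 0`, `⟪x,h⟫ = 0`, `x ≠ 0`;
* `jamData`       : finite temperature LCPs (`c = 1`, capped profile), zero temperature LCPs
                    (`c = 1`), jamming LCP (`c = 0`, `g 1 = 0`), strong convergence of the gaps and of
                    the normalised forces, (4c), (4d)  ⟹  `JamData`.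
-/

set_option autoImplicit false

namespace Crest.Agent.R146.JamAsm_576

open Set Filter Topology MeasureTheory ProbabilityTheory Crest.Agent.R146.Hilb
  Crest.Agent.R146.Lev_576 Crest.Agent.R146.Lev2_576 Crest.Agent.R146.Obs918
open scoped RealInnerProductSpace NNReal ENNReal

variable {H : Type*} [NormedAddCommGroup H] [InnerProductSpace ℝ H] {R : Res H}
  {Ω : Type*} {mΩ : MeasurableSpace Ω} {P : Measure Ω} {B : ℝ≥0 → Ω → ℝ}
  {hBm : ∀ t, Measurable (B t)}

section Basic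

variable (M : Model R P B hBm)

lemma int_abs_le [IsProbabilityMeasure P] (u : H) : ∫ ω, |M.J u ω| ∂P ≤ ‖u‖ := by
  have h := abs_int_mul_le (P := P) (f := fun _ => (1 : ℝ)) (g := fun ω => |M.J u ω|)
    (memLp_const 1) (M.memLp u).abs
  simp only [one_mul, one_pow, integral_const, smul_eq_mul, mul_one, sq_abs,
    probReal_univ, Real.sqrt_one] at h
  rw [M.norm_sq, Real.sqrt_sq (norm_nonneg _)] at h
  exact (le_abs_self _).trans h

lemma int_abs_sub_le [IsProbabilityMeasure P] (u v : H) :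
    ∫ ω, |M.J u ω - M.J v ω| ∂P ≤ ‖u - v‖ := by
  refine le_trans (le_of_eq ?_) (int_abs_le M (u - v))
  apply integral_congr_ae
  filter_upwards [M.sub u v] with ω h
  rw [h]

lemma integ [IsProbabilityMeasure P] (u : H) : Integrable (M.J u) P :=
  (M.memLp u).integrable (by norm_num)

/-- a nonzero nonnegative element is positive with positive probability -/
lemma pos_of_ne_zero [IsProbabilityMeasure P] {x : H} (hx : x ≠ 0) (h0 : 0 ≤ᵐ[P] M.J x) :
    0 < P.real {ω | 0 < M.J x ω} := by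
  by_contra hcon
  have h1 : P.real {ω | 0 < M.J x ω} = 0 := le_antisymm (not_lt.1 hcon) measureReal_nonneg
  have h2 : P {ω | 0 < M.J x ω} = 0 := by
    rwa [measureReal_def, ENNReal.toReal_eq_zero_iff, or_iff_left (measure_ne_top _ _)] at h1
  have h3 : M.J x =ᵐ[P] fun _ => 0 := by
    have h4 : ∀ᵐ ω ∂P, ¬ 0 < M.J x ω := by
      rw [ae_iff]; simpa using h2
    filter_upwards [h0, h4] with ω h5 h6
    exact le_antisymm (not_lt.1 h6) h5
  apply hx
  rw [← norm_eq_zero, ← sq_eq_zero_iff, ← M.norm_sq]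
  rw [integral_congr_ae (g := fun _ => 0)]
  · simp
  · filter_upwards [h3] with ω h
    rw [h]; simp

end Basic

/-- complementarity solution with damping `c` -/
structure LCP [CompleteSpace H] (M : Model R P B hBm) (ξ : H) (c : ℝ) (g : ℝ → ℝ) (x : H) :
    Prop where
  cont : ContinuousOn g (Icc 0 1)
  anti : AntitoneOn g (Icc 0 1)
  x_nonneg : 0 ≤ᵐ[P] M.J x
  h_nonneg : 0 ≤ᵐ[P] M.J (ξ + R.Dop g x + c • x)
  comp : ⟪x, ξ + R.Dop g x + c • x⟫ = 0
  ne : x ≠ 0

namespace LCP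

variable [CompleteSpace H] {M : Model R P B hBm} {ξ : H} {c : ℝ} {g : ℝ → ℝ} {x : H}

lemma ae (L : LCP M ξ c g x) :
    ∀ᵐ ω ∂P, M.J (ξ + R.Dop g x + c • x) ω * M.J x ω = 0 := by
  have h1 : ∫ ω, M.J x ω * M.J (ξ + R.Dop g x + c • x) ω ∂P = 0 := by
    rw [M.inner, L.comp]
  have h2 : 0 ≤ᵐ[P] fun ω => M.J x ω * M.J (ξ + R.Dop g x + c • x) ω := by
    filter_upwards [L.x_nonneg, L.h_nonneg] with ω h3 h4
    exact mul_nonneg h3 h4
  have h3 := (integral_eq_zero_iff_of_nonneg_ae h2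
    ((M.memLp _).integrable_mul (M.memLp _))).1 h1
  filter_upwards [h3] with ω h4
  rw [mul_comm]; exact h4

/-- the gap `h - c x` -/
lemma gap_ae (L : LCP M ξ c g x) :
    ∀ᵐ ω ∂P, M.J (ξ + R.Dop g x) ω = M.J (ξ + R.Dop g x + c • x) ω - c * M.J x ω := by
  filter_upwards [M.add (ξ + R.Dop g x) (c • x), M.smul c x] with ω h1 h2
  rw [h1, h2]; ring

/-- for `c > 0` the force is the negative part of the gap -/
lemma neg_ae (L : LCP M ξ c g x) (hc : 0 < c) :
    ∀ᵐ ω ∂P, max (-M.J (ξ + R.Dop g x) ω) 0 = c * M.J x ω := by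
  filter_upwards [L.gap_ae, L.ae, L.x_nonneg, L.h_nonneg] with ω h1 h2 h3 h4
  have h3 : 0 ≤ M.J x ω := h3
  have h4 : 0 ≤ M.J (ξ + R.Dop g x + c • x) ω := h4
  rw [h1]
  rcases mul_eq_zero.1 h2 with h | h
  · rw [h, zero_sub, neg_neg]
    exact max_eq_left (by positivity)
  · rw [h, mul_zero, sub_zero]
    exact max_eq_right (by linarith)

lemma pos_neg [IsProbabilityMeasure P] (L : LCP M ξ c g x) (hc : 0 < c) :
    0 < P.real {ω | M.J (ξ + R.Dop g x) ω < 0} := by
  have h1 := pos_of_ne_zero M L.ne L.x_nonneg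
  have h2 : P.real {ω | 0 < M.J x ω} ≤ P.real {ω | M.J (ξ + R.Dop g x) ω < 0} := by
    rw [measureReal_def, measureReal_def]
    refine ENNReal.toReal_mono (measure_ne_top _ _) (measure_mono_ae ?_)
    filter_upwards [L.neg_ae hc] with ω h3 h4
    have h4 : 0 < M.J x ω := h4
    change M.J (ξ + R.Dop g x) ω < 0
    by_contra h5
    rw [max_eq_right (by linarith [not_lt.1 h5])] at h3
    have : 0 < c * M.J x ω := by positivity
    linarith
  linarith

/-- no atoms of the gap for `c > 0` -/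
lemma noatom [IsProbabilityMeasure P] (L : LCP M ξ c g x) (hc : 0 < c)
    (hB : IsPreBrownianReal B P) (hξ : M.J ξ =ᵐ[P] fun ω => 1 + B 1 ω)
    (hsmall : ∀ ε : ℝ, 0 < ε → ∃ t ∈ Ico (0 : ℝ) 1,
      (g t - g 1) ^ 2 * ‖x - R.P t x‖ ^ 2 ≤ ε * (1 - t)) (a : ℝ) :
    P {ω | M.J (ξ + R.Dop g x) ω = a} = 0 := by
  have h1 := (levels_pos M hB L.cont L.anti (x := x) (h := M.J (ξ + R.Dop g x + c • x))
    (κ := 1) (c := c) (by
      filter_upwards [M.add (ξ + R.Dop g x) (c • x), M.smul c x, M.add ξ (R.Dop g x), hξ] with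
        ω h1 h2 h3 h4
      rw [h1, h2, h3, h4]) L.ae hsmall).2.2.2 hc a
  refine measure_mono_null_ae ?_ h1
  filter_upwards [L.gap_ae] with ω h2 h3
  have h3 : M.J (ξ + R.Dop g x) ω = a := h3
  change M.J (ξ + R.Dop g x + c • x) ω - c * M.J x ω = a
  rw [← h2, h3]

end LCP

/-- nonnegative measurable version of the force -/
noncomputable def frc (M : Model R P B hBm) (x : H) : Ω → ℝ :=
  fun ω => max ((M.memLp x).1.mk (M.J x) ω) 0

lemma frc_nonneg (M : Model R P B hBm) (x : H) (ω : Ω) : 0 ≤ frc M x ω := le_max_right _ _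

lemma frc_measurable (M : Model R P B hBm) (x : H) : Measurable (frc M x) :=
  ((M.memLp x).1.stronglyMeasurable_mk.measurable).max measurable_const

lemma frc_ae (M : Model R P B hBm) {x : H} (hx : 0 ≤ᵐ[P] M.J x) : frc M x =ᵐ[P] M.J x := by
  filter_upwards [hx, (M.memLp x).1.ae_eq_mk] with ω h1 h2
  have h1 : 0 ≤ M.J x ω := h1
  rw [frc, ← h2]
  exact max_eq_left h1

/-- convergence of the mass of the violated part -/
lemma mass_tendsto [IsProbabilityMeasure P] {ι : Type*} {l : Filter ι} {X : ι → Ω → ℝ}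
    {h w : Ω → ℝ} {s : ι → ℝ} (hX : ConvP P l X h)
    (hW : ConvP P l (fun i ω => s i * max (-X i ω) 0) w) (hm : AEMeasurable h P)
    (wm : AEMeasurable w P) (h0 : P {ω | h ω = 0 ∧ w ω = 0} = 0) (hw0 : ∀ᵐ ω ∂P, 0 ≤ w ω)
    (hh0 : ∀ᵐ ω ∂P, 0 ≤ h ω) (hc : ∀ᵐ ω ∂P, h ω * w ω = 0) :
    Tendsto (fun i => P.real {ω | X i ω < 0}) l (𝓝 (P.real {ω | 0 < w ω})) := by
  have e1 : P.real {ω | 0 < w ω} = P.real {ω | h ω ≤ 0} := by
    rw [measureReal_def, measureReal_def]
    congr 1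
    apply measure_congr
    have h1 : ∀ᵐ ω ∂P, ¬ (h ω = 0 ∧ w ω = 0) := by rw [ae_iff]; simpa using h0
    filter_upwards [h1, hw0, hh0, hc] with ω h1 h2 h3 h4
    apply propext
    change 0 < w ω ↔ h ω ≤ 0
    constructor
    · intro h5
      rcases mul_eq_zero.1 h4 with h6 | h6
      · exact h6.le
      · exact absurd h6 h5.ne'
    · intro h5
      refine lt_of_le_of_ne h2 fun h6 => h1 ⟨le_antisymm h5 h3, h6.symm⟩
  have hmap : ∀ {Z : Ω → ℝ} (_ : AEMeasurable Z P) (b : ℝ),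
      (P.map Z).real (Set.Iic b) = P.real {ω | Z ω ≤ b} := by
    intro Z hZ b
    rw [measureReal_def, measureReal_def, Measure.map_apply_of_aemeasurable hZ measurableSet_Iic]
    rfl
  have hcompl : ∀ b : ℝ, P.real {ω | b < w ω} = 1 - P.real {ω | w ω ≤ b} := by
    intro b
    have h1 : {ω | b < w ω} = {ω | w ω ≤ b}ᶜ := by
      ext ω; simp
    rw [h1, probReal_compl_eq_one_sub₀ (nullMeasurableSet_le wm aemeasurable_const)]
  rw [tendsto_order]
  constructor
  · intro b hb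
    have : IsProbabilityMeasure (P.map w) := Measure.isProbabilityMeasure_map wm
    obtain ⟨η, hη, h1⟩ := cdf_right (ν := P.map w) 0 (e := (P.real {ω | 0 < w ω} - b) / 2)
      (by linarith)
    rw [hmap wm, hmap wm] at h1
    have h2 : ∀ᶠ i in l, P.real {ω | η ≤ |s i * max (-X i ω) 0 - w ω|} <
        (P.real {ω | 0 < w ω} - b) / 2 := (tendsto_order.1 (hW η hη)).2 _ (by linarith)
    filter_upwards [h2] with i h3
    have h4 : {ω | η < w ω} ⊆ {ω | X i ω < 0} ∪ {ω | η ≤ |s i * max (-X i ω) 0 - w ω|} := by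
      intro ω hω
      have hω : η < w ω := hω
      by_cases h5 : X i ω < 0
      · exact Or.inl h5
      · right
        change η ≤ |s i * max (-X i ω) 0 - w ω|
        rw [max_eq_right (by linarith [not_lt.1 h5]), mul_zero, zero_sub, abs_neg]
        exact hω.le.trans (le_abs_self _)
    have h5 : P.real {ω | η < w ω} ≤ P.real {ω | X i ω < 0} +
        P.real {ω | η ≤ |s i * max (-X i ω) 0 - w ω|} :=
      (measureReal_mono h4).trans (measureReal_union_le _ _)
    have h6 := hcompl η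
    have h7 := hcompl 0
    rw [zero_add] at h1
    linarith
  · intro b hb
    have : IsProbabilityMeasure (P.map h) := Measure.isProbabilityMeasure_map hm
    obtain ⟨η, hη, h1⟩ := cdf_right (ν := P.map h) 0 (e := (b - P.real {ω | 0 < w ω}) / 2)
      (by linarith)
    rw [hmap hm, hmap hm, zero_add] at h1
    have h2 : ∀ᶠ i in l, P.real {ω | η ≤ |X i ω - h ω|} <
        (b - P.real {ω | 0 < w ω}) / 2 := (tendsto_order.1 (hX η hη)).2 _ (by linarith)
    filter_upwards [h2] with i h3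
    have h4 : {ω | X i ω < 0} ⊆ {ω | h ω ≤ η} ∪ {ω | η ≤ |X i ω - h ω|} := by
      intro ω hω
      have hω : X i ω < 0 := hω
      by_cases h5 : η ≤ |X i ω - h ω|
      · exact Or.inr h5
      · left
        have h6 := (abs_lt.1 (not_le.1 h5)).1
        change h ω ≤ η
        linarith
    have h5 : P.real {ω | X i ω < 0} ≤ P.real {ω | h ω ≤ η} + P.real {ω | η ≤ |X i ω - h ω|} :=
      (measureReal_mono h4).trans (measureReal_union_le _ _)
    linarith

section Main

variable [CompleteSpace H]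

/-- **Gluing of package P5.** -/
theorem jamData [IsProbabilityMeasure P] (M : Model R P B hBm) (hB : IsPreBrownianReal B P)
    {ξ : H} (hξ : M.J ξ =ᵐ[P] fun ω => 1 + B 1 ω) {αc η : ℝ} (hη : 0 < η)
    {x : ℝ → ℝ → H} {D : ℝ → ℝ → ℝ → ℝ} {x0 : ℝ → H} {D0 : ℝ → ℝ → ℝ} {xJ : H} {DJ : ℝ → ℝ}
    {s : ℝ → ℝ}
    (hT : ∀ α, αc < α → α < αc + η → ∀ b, 0 < b → LCP M ξ 1 (D α b) (x α b) ∧
      ∃ L : ℝ, ∀ t ∈ Ico (0 : ℝ) 1, D α b t - D α b 1 ≤ L * (1 - t))
    (hZ : ∀ α, αc < α → α < αc + η → LCP M ξ 1 (D0 α) (x0 α) ∧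
      ∃ C : ℝ, ∀ t ∈ Ico (0 : ℝ) 1, ‖x0 α - R.P t (x0 α)‖ ^ 2 ≤ C * (1 - t))
    (hJ : LCP M ξ 0 DJ xJ) (hJ1 : DJ 1 = 0)
    (h4c : ∀ l : ℝ, 0 < l → P {ω | M.J xJ ω = l} = 0)
    (h4d : P {ω | M.J (ξ + R.Dop DJ xJ) ω = 0 ∧ M.J xJ ω = 0} = 0)
    (hE : ∀ α, αc < α → α < αc + η →
      Tendsto (fun b => ξ + R.Dop (D α b) (x α b)) atTop (𝓝 (ξ + R.Dop (D0 α) (x0 α))))
    (hs : ∀ α, αc < α → α < αc + η → 0 < s α)
    (hF1 : Tendsto (fun α => s α • x0 α) (𝓝[>] αc) (𝓝 xJ))
    (hF2 : Tendsto (fun α => ξ + R.Dop (D0 α) (x0 α)) (𝓝[>] αc) (𝓝 (ξ + R.Dop DJ xJ))) :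
    JamData P αc η (fun α b => M.J (ξ + R.Dop (D α b) (x α b)))
      (fun α => M.J (ξ + R.Dop (D0 α) (x0 α))) (M.J (ξ + R.Dop DJ xJ)) (frc M xJ) s := by
  have hfx := frc_ae M hJ.x_nonneg
  have hev : ∀ᶠ α in 𝓝[>] αc, αc < α ∧ α < αc + η := eventually_right αc hη
  -- the jamming gap
  have hyJ : ∀ᵐ ω ∂P, M.J (ξ + R.Dop DJ xJ) ω * M.J xJ ω = 0 := by
    filter_upwards [hJ.ae, hJ.gap_ae] with ω h1 h2
    rw [h2, zero_mul, sub_zero]; exact h1
  have hyJ0 : 0 ≤ᵐ[P] M.J (ξ + R.Dop DJ xJ) := by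
    filter_upwards [hJ.h_nonneg, hJ.gap_ae] with ω h1 h2
    have h1 : 0 ≤ M.J (ξ + R.Dop DJ xJ + (0 : ℝ) • xJ) ω := h1
    change 0 ≤ M.J (ξ + R.Dop DJ xJ) ω
    rw [h2, zero_mul, sub_zero]; exact h1
  -- L¹ convergences
  have hcH : Tendsto (fun α => ∫ ω, |M.J (ξ + R.Dop (D0 α) (x0 α)) ω -
      M.J (ξ + R.Dop DJ xJ) ω| ∂P) (𝓝[>] αc) (𝓝 0) := by
    have h1 : Tendsto (fun α => ‖(ξ + R.Dop (D0 α) (x0 α)) - (ξ + R.Dop DJ xJ)‖) (𝓝[>] αc)
        (𝓝 0) := by
      have := (hF2.sub_const (ξ + R.Dop DJ xJ)).norm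
      rwa [sub_self, norm_zero] at this
    exact squeeze_zero (fun α => integral_nonneg fun ω => abs_nonneg _)
      (fun α => int_abs_sub_le M _ _) h1
  have hcL : Tendsto (fun α => ∫ ω, |s α * max (-M.J (ξ + R.Dop (D0 α) (x0 α)) ω) 0 -
      frc M xJ ω| ∂P) (𝓝[>] αc) (𝓝 0) := by
    have h1 : Tendsto (fun α => ‖s α • x0 α - xJ‖) (𝓝[>] αc) (𝓝 0) := by
      have := (hF1.sub_const xJ).norm
      rwa [sub_self, norm_zero] at this
    refine squeeze_zero' (Eventually.of_forall fun α => integral_nonneg fun ω => abs_nonneg _)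
      ?_ h1
    filter_upwards [hev] with α hα
    refine le_trans (le_of_eq ?_) (int_abs_sub_le M (s α • x0 α) xJ)
    apply integral_congr_ae
    filter_upwards [(hZ α hα.1 hα.2).1.neg_ae one_pos, hfx, M.smul (s α) (x0 α)] with ω h2 h3 h4
    rw [h2, h3, h4, one_mul]
  refine
    { η_pos := hη
      intX := fun α _ _ b _ => integ M _
      intX0 := fun α _ _ => integ M _
      intH := integ M _
      intL := (integrable_congr hfx).2 (integ M _)
      L_nonneg := frc_nonneg M xJ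
      noatomX := fun α h1 h2 b hb a => ?_
      noatomX0 := fun α h1 h2 a => ?_
      noatomH := fun a ha => ?_
      noatomL := fun a ha => ?_
      posX := fun α h1 h2 b hb => (hT α h1 h2 b hb).1.pos_neg one_pos
      posX0 := fun α h1 h2 => (hZ α h1 h2).1.pos_neg one_pos
      posL := ?_
      convX := fun α h1 h2 => ?_
      convH := hcH
      c_pos := hs
      convL := hcL
      convM := ?_ }
  · obtain ⟨L, k, hk⟩ := hT α h1 h2 b hb
    exact L.noatom one_pos hB hξ (small_of_lip L.anti hk _) a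
  · obtain ⟨L, C, hC⟩ := hZ α h1 h2
    exact L.noatom one_pos hB hξ (small_of_var L.cont hC) a
  · refine levels_jam M hB hJ.cont hJ.anti hJ1 (κ := 1) ?_ hyJ0 hJ.x_nonneg hyJ ha
    filter_upwards [M.add ξ (R.Dop DJ xJ), hξ] with ω h1 h2
    rw [h1, h2]
  · rw [← h4c a ha]
    apply measure_congr
    filter_upwards [hfx] with ω h1
    apply propext
    change frc M xJ ω = a ↔ M.J xJ ω = a
    rw [h1]
  · have h1 := pos_of_ne_zero M hJ.ne hJ.x_nonneg
    have h2 : P.real {ω | 0 < M.J xJ ω} = P.real {ω | 0 < frc M xJ ω} := by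
      rw [measureReal_def, measureReal_def]
      congr 1
      apply measure_congr
      filter_upwards [hfx] with ω h1
      apply propext
      change 0 < M.J xJ ω ↔ 0 < frc M xJ ω
      rw [h1]
    rwa [← h2]
  · have h3 : Tendsto (fun b => ‖(ξ + R.Dop (D α b) (x α b)) - (ξ + R.Dop (D0 α) (x0 α))‖) atTop
        (𝓝 0) := by
      have := ((hE α h1 h2).sub_const (ξ + R.Dop (D0 α) (x0 α))).norm
      rwa [sub_self, norm_zero] at this
    exact squeeze_zero (fun b => integral_nonneg fun ω => abs_nonneg _)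
      (fun b => int_abs_sub_le M _ _) h3
  · -- convergence of the mass of the violated part
    refine mass_tendsto (s := s) (ConvP.of_L1 ?_ hcH) (ConvP.of_L1 ?_ hcL)
      (integ M _).1.aemeasurable (frc_measurable M xJ).aemeasurable ?_
      (Eventually.of_forall (frc_nonneg M xJ)) hyJ0 ?_
    · exact Eventually.of_forall fun α => ((integ M _).sub (integ M _)).abs
    · filter_upwards [hev] with α hα
      have h1 : Integrable (fun ω => s α * max (-M.J (ξ + R.Dop (D0 α) (x0 α)) ω) 0) P :=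
        ((integ M _).neg.pos_part).const_mul _
      exact (h1.sub ((integrable_congr hfx).2 (integ M _))).abs
    · rw [← h4d]
      apply measure_congr
      filter_upwards [hfx] with ω h1
      apply propext
      change (M.J (ξ + R.Dop DJ xJ) ω = 0 ∧ frc M xJ ω = 0) ↔
        (M.J (ξ + R.Dop DJ xJ) ω = 0 ∧ M.J xJ ω = 0)
      rw [h1]
    · filter_upwards [hyJ, hfx] with ω h1 h2
      rw [h2]; exact h1

end Main

end Crest.Agent.R146.JamAsm_576
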