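import Mathlib

/-!
Row 146 (task 58, helper4): conditional sub-Gaussian bounds in set form.

`SubG P G X v` : `E[exp(μ X); C] ≤ exp(μ² v / 2) P(C)` for every real `μ` and every `C ∈ G`.
Consequences: tails, variances, closure under convergence in measure.
-/

set_option autoImplicit false

namespace Crest.Agent.R146.SubG_4

open MeasureTheory ProbabilityTheory Filter
open scoped ENNReal NNReal Topology

variable {Ω : Type*} {G G' mΩ : MeasurableSpace Ω} {P : Measure Ω}

/-- conditional sub-Gaussian bound, set form -/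
def SubG (P : Measure Ω) (G : MeasurableSpace Ω) (X : Ω → ℝ) (v : ℝ) : Prop :=
  ∀ μ : ℝ, ∀ C, MeasurableSet[G] C →
    ∫⁻ ω in C, ENNReal.ofReal (Real.exp (μ * X ω)) ∂P ≤ ENNReal.ofReal (Real.exp (μ ^ 2 * v / 2)) * P C

theorem SubG.congr {X Y : Ω → ℝ} {v : ℝ} (h : SubG P G X v) (hXY : X =ᵐ[P] Y) : SubG P G Y v := by
  intro μ C hC
  rw [← lintegral_congr_ae (μ := P.restrict C)
    (f := fun ω => ENNReal.ofReal (Real.exp (μ * X ω)))]
  · exact h μ C hC
  · filter_upwards [ae_restrict_of_ae hXY] with ω hω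
    rw [hω]

theorem SubG.mono {X : Ω → ℝ} {v : ℝ} (h : SubG P G' X v) (hG : G ≤ G') : SubG P G X v :=
  fun μ C hC => h μ C (hG C hC)

theorem SubG.mono_var {X : Ω → ℝ} {v w : ℝ} (h : SubG P G X v) (hvw : v ≤ w) : SubG P G X w := by
  intro μ C hC
  refine (h μ C hC).trans ?_
  gcongr

theorem SubG.neg {X : Ω → ℝ} {v : ℝ} (h : SubG P G X v) : SubG P G (fun ω => - X ω) v := by
  intro μ C hC
  have := h (-μ) C hC
  simpa only [mul_neg, neg_mul, neg_sq] using this

theorem SubG.const_mul {X : Ω → ℝ} {v : ℝ} (h : SubG P G X v) (a : ℝ) :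
    SubG P G (fun ω => a * X ω) (a ^ 2 * v) := by
  intro μ C hC
  have := h (μ * a) C hC
  have e : (μ * a) ^ 2 * v / 2 = μ ^ 2 * (a ^ 2 * v) / 2 := by ring
  rw [e] at this
  refine le_trans (le_of_eq ?_) this
  congr 1; funext ω; ring_nf

/-- **tails** -/
theorem SubG.tail {X : Ω → ℝ} {v : ℝ} (h : SubG P G X v) (hX : AEMeasurable X P) (hG : G ≤ mΩ)
    (hv : 0 < v) {x : ℝ}
    {C : Set Ω} (hC : MeasurableSet[G] C) (hx : 0 ≤ x) :
    P ({ω | X ω ≤ -x} ∩ C) ≤ ENNReal.ofReal (Real.exp (-(x ^ 2 / (2 * v)))) * P C := by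
  have h1 := h (-(x / v)) C hC
  have h2 : ENNReal.ofReal (Real.exp (x ^ 2 / v)) * P ({ω | X ω ≤ -x} ∩ C) ≤
      ∫⁻ ω in C, ENNReal.ofReal (Real.exp (-(x / v) * X ω)) ∂P := by
    have e1 : P ({ω | X ω ≤ -x} ∩ C) = (P.restrict C) {ω | X ω ≤ -x} :=
      (Measure.restrict_apply' (hG C hC)).symm
    rw [e1]
    have e2 : {ω | X ω ≤ -x} ⊆ {ω | ENNReal.ofReal (Real.exp (x ^ 2 / v)) ≤
        ENNReal.ofReal (Real.exp (-(x / v) * X ω))} := by
      intro ω hω
      have hω : X ω ≤ -x := hω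
      apply ENNReal.ofReal_le_ofReal
      apply Real.exp_le_exp.2
      have h3 : 0 ≤ x / v := by positivity
      calc x ^ 2 / v = (x / v) * x := by ring
        _ ≤ (x / v) * (- X ω) := by gcongr; linarith
        _ = _ := by ring
    have e3 : AEMeasurable (fun ω => ENNReal.ofReal (Real.exp (-(x / v) * X ω))) (P.restrict C) :=
      (Real.measurable_exp.comp_aemeasurable (hX.restrict.const_mul _)).ennreal_ofReal
    exact le_trans (by gcongr) (mul_meas_ge_le_lintegral₀ e3 _)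
  have h3 : ENNReal.ofReal (Real.exp (x ^ 2 / v)) * P ({ω | X ω ≤ -x} ∩ C) ≤
      ENNReal.ofReal (Real.exp (x ^ 2 / v)) *
        (ENNReal.ofReal (Real.exp (-(x ^ 2 / (2 * v)))) * P C) := by
    refine (h2.trans h1).trans (le_of_eq ?_)
    rw [← mul_assoc, ← ENNReal.ofReal_mul (Real.exp_pos _).le, ← Real.exp_add]
    congr 3
    field_simp
    ring
  have h4 : ENNReal.ofReal (Real.exp (x ^ 2 / v)) ≠ 0 := by
    rw [Ne, ENNReal.ofReal_eq_zero, not_le]; exact Real.exp_pos _
  exact (ENNReal.mul_le_mul_iff_right h4 ENNReal.ofReal_ne_top).1 h3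

theorem SubG.tail' {X : Ω → ℝ} {v : ℝ} (h : SubG P G X v) (hX : AEMeasurable X P) (hG : G ≤ mΩ)
    (hv : 0 < v) {x : ℝ} {C : Set Ω} (hC : MeasurableSet[G] C) (hx : 0 ≤ x) :
    P ({ω | x ≤ X ω} ∩ C) ≤ ENNReal.ofReal (Real.exp (-(x ^ 2 / (2 * v)))) * P C := by
  have := h.neg.tail hX.neg hG hv hC hx
  simpa only [neg_le_neg_iff] using this

/-- integration against `G`-measurable functions -/
theorem SubG.lintegral_mul {X : Ω → ℝ} {v : ℝ} (h : SubG P G X v) (hX : AEMeasurable X P)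
    (hG : G ≤ mΩ) (μ : ℝ) {f : Ω → ℝ≥0∞} (hf : Measurable[G] f) :
    ∫⁻ ω, f ω * ENNReal.ofReal (Real.exp (μ * X ω)) ∂P ≤
      ENNReal.ofReal (Real.exp (μ ^ 2 * v / 2)) * ∫⁻ ω, f ω ∂P := by
  have hexp : AEMeasurable (fun ω => ENNReal.ofReal (Real.exp (μ * X ω))) P :=
    (Real.measurable_exp.comp_aemeasurable (hX.const_mul _)).ennreal_ofReal
  refine Measurable.ennreal_induction (mα := G) (motive := fun f =>
    ∫⁻ ω, f ω * ENNReal.ofReal (Real.exp (μ * X ω)) ∂P ≤
      ENNReal.ofReal (Real.exp (μ ^ 2 * v / 2)) * ∫⁻ ω, f ω ∂P) ?_ ?_ ?_ hf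
  · intro c s hs
    have e1 : ∀ ω, s.indicator (fun _ => c) ω * ENNReal.ofReal (Real.exp (μ * X ω)) =
        s.indicator (fun ω => c * ENNReal.ofReal (Real.exp (μ * X ω))) ω := by
      intro ω
      by_cases hω : ω ∈ s <;> simp [hω]
    simp only [e1]
    rw [lintegral_indicator (hG s hs), lintegral_indicator (hG s hs), setLIntegral_const,
      lintegral_const_mul'' _ hexp.restrict]
    calc c * ∫⁻ ω in s, ENNReal.ofReal (Real.exp (μ * X ω)) ∂P
        ≤ c * (ENNReal.ofReal (Real.exp (μ ^ 2 * v / 2)) * P s) := by gcongr; exact h μ s hs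
      _ = _ := by ring
  · intro f g _ hf hg ihf ihg
    have hf' : Measurable f := hf.mono hG le_rfl
    simp only [Pi.add_apply, add_mul]
    have hm : AEMeasurable (fun ω => f ω * ENNReal.ofReal (Real.exp (μ * X ω))) P :=
      hf'.aemeasurable.mul hexp
    rw [lintegral_add_left' hm, lintegral_add_left hf', mul_add]
    exact add_le_add ihf ihg
  · intro f hf hmono ih
    have hf' : ∀ n, Measurable (f n) := fun n => (hf n).mono hG le_rfl
    have e1 : ∀ ω, (⨆ n, f n ω) * ENNReal.ofReal (Real.exp (μ * X ω)) =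
        ⨆ n, f n ω * ENNReal.ofReal (Real.exp (μ * X ω)) := fun ω => ENNReal.iSup_mul _ _
    have hm : ∀ n, AEMeasurable (fun ω => f n ω * ENNReal.ofReal (Real.exp (μ * X ω))) P :=
      fun n => (hf' n).aemeasurable.mul hexp
    have hmn : ∀ᵐ ω ∂P, Monotone fun n => f n ω * ENNReal.ofReal (Real.exp (μ * X ω)) := by
      refine ae_of_all _ fun ω i j hij => ?_
      have := hmono hij ω
      exact mul_le_mul_left this _
    simp only [e1]
    rw [lintegral_iSup' hm hmn, lintegral_iSup hf' hmono, ENNReal.mul_iSup]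
    exact iSup_mono ih

/-- sums along a filtration -/
theorem SubG.add {X Y : Ω → ℝ} {v w : ℝ} (h : SubG P G X v) (hGG : G ≤ G') (hG' : G' ≤ mΩ)
    (hXm : Measurable[G'] X) (h' : SubG P G' Y w) (hY : AEMeasurable Y P) :
    SubG P G (fun ω => X ω + Y ω) (v + w) := by
  intro μ C hC
  have hf : Measurable[G'] (C.indicator fun ω => ENNReal.ofReal (Real.exp (μ * X ω))) :=
    (Measurable.ennreal_ofReal (Real.measurable_exp.comp (hXm.const_mul μ))).indicator (hGG C hC)
  have h1 := h'.lintegral_mul hY hG' μ hf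
  have hCm : MeasurableSet C := hG' C (hGG C hC)
  rw [lintegral_indicator hCm] at h1
  have e1 : ∫⁻ ω in C, ENNReal.ofReal (Real.exp (μ * (X ω + Y ω))) ∂P =
      ∫⁻ ω, C.indicator (fun ω => ENNReal.ofReal (Real.exp (μ * X ω))) ω *
        ENNReal.ofReal (Real.exp (μ * Y ω)) ∂P := by
    rw [← lintegral_indicator hCm]
    congr 1
    funext ω
    by_cases hω : ω ∈ C
    · rw [Set.indicator_of_mem hω, Set.indicator_of_mem hω, ← ENNReal.ofReal_mul (Real.exp_pos _).le,
        ← Real.exp_add, mul_add]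
    · simp [hω]
  rw [e1]
  refine h1.trans ?_
  calc ENNReal.ofReal (Real.exp (μ ^ 2 * w / 2)) * ∫⁻ ω in C, ENNReal.ofReal (Real.exp (μ * X ω)) ∂P
      ≤ ENNReal.ofReal (Real.exp (μ ^ 2 * w / 2)) *
        (ENNReal.ofReal (Real.exp (μ ^ 2 * v / 2)) * P C) := by gcongr; exact h μ C hC
    _ = _ := by
      rw [← mul_assoc, ← ENNReal.ofReal_mul (Real.exp_pos _).le, ← Real.exp_add]
      congr 3; ring

theorem SubG.zero [IsProbabilityMeasure P] {v : ℝ} (hv : 0 ≤ v) : SubG P G (fun _ => (0 : ℝ)) v := by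
  intro μ C hC
  simp only [mul_zero, Real.exp_zero, ENNReal.ofReal_one, setLIntegral_one]
  calc P C = 1 * P C := (one_mul _).symm
    _ ≤ _ := by
      gcongr
      rw [ENNReal.one_le_ofReal]
      exact Real.one_le_exp (by positivity)

/-- closure under convergence in measure -/
theorem SubG.of_tendsto {X : Ω → ℝ} {Xn : ℕ → Ω → ℝ} {v : ℝ} {vn : ℕ → ℝ}
    (h : ∀ n, SubG P G (Xn n) (vn n)) (hm : ∀ n, AEMeasurable (Xn n) P)
    (hv : Tendsto vn atTop (𝓝 v)) (hX : TendstoInMeasure P Xn atTop X) : SubG P G X v := by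
  obtain ⟨ns, hns, hae⟩ := hX.exists_seq_tendsto_ae
  intro μ C hC
  have h1 : ∀ᵐ ω ∂(P.restrict C), Tendsto
      (fun i => ENNReal.ofReal (Real.exp (μ * Xn (ns i) ω))) atTop
      (𝓝 (ENNReal.ofReal (Real.exp (μ * X ω)))) := by
    filter_upwards [ae_restrict_of_ae hae] with ω hω
    exact (ENNReal.continuous_ofReal.tendsto _).comp
      ((Real.continuous_exp.tendsto _).comp (hω.const_mul μ))
  have h2 : ∫⁻ ω in C, ENNReal.ofReal (Real.exp (μ * X ω)) ∂P =
      ∫⁻ ω in C, liminf (fun i => ENNReal.ofReal (Real.exp (μ * Xn (ns i) ω))) atTop ∂P :=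
    lintegral_congr_ae (h1.mono fun ω hω => hω.liminf_eq.symm)
  rw [h2]
  refine (lintegral_liminf_le' fun n =>
    (Real.measurable_exp.comp_aemeasurable ((hm _).restrict.const_mul _)).ennreal_ofReal).trans ?_
  have h3 : Tendsto (fun i => ENNReal.ofReal (Real.exp (μ ^ 2 * vn (ns i) / 2)) * P C) atTop
      (𝓝 (ENNReal.ofReal (Real.exp (μ ^ 2 * v / 2)) * P C)) := by
    apply ENNReal.Tendsto.mul_const
    · exact (ENNReal.continuous_ofReal.tendsto _).comp ((Real.continuous_exp.tendsto _).comp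
        (((hv.comp hns.tendsto_atTop).const_mul _).div_const _))
    · left
      rw [Ne, ENNReal.ofReal_eq_zero, not_le]; exact Real.exp_pos _
  rw [← h3.liminf_eq]
  exact liminf_le_liminf (Eventually.of_forall fun i => h (ns i) μ C hC)


theorem cosh_ge (x : ℝ) : 2 + x ^ 2 ≤ Real.exp x + Real.exp (-x) := by
  have h1 : (x / 2) ^ 2 ≤ Real.sinh (x / 2) ^ 2 := by
    rcases le_total 0 (x / 2) with h | h
    · have := Real.self_le_sinh_iff.2 h
      gcongr
    · have h2 : 0 ≤ -(x / 2) := by linarith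
      have := Real.self_le_sinh_iff.2 h2
      rw [Real.sinh_neg] at this
      nlinarith
  have h2 := Real.cosh_two_mul (x / 2)
  rw [Real.cosh_sq, mul_div_cancel₀ x (two_ne_zero)] at h2
  have h3 := Real.cosh_eq x
  nlinarith

/-- **variance** -/
theorem SubG.var {X : Ω → ℝ} {v : ℝ} [IsFiniteMeasure P] (h : SubG P G X v) (hX : AEMeasurable X P)
    {C : Set Ω} (hC : MeasurableSet[G] C) (hv : 0 ≤ v) :
    ∫⁻ ω in C, ENNReal.ofReal (X ω ^ 2) ∂P ≤ ENNReal.ofReal v * P C := by
  have key : ∀ μ : ℝ, 0 < μ → ENNReal.ofReal (μ ^ 2) * ∫⁻ ω in C, ENNReal.ofReal (X ω ^ 2) ∂P +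
      2 * P C ≤ 2 * (ENNReal.ofReal (Real.exp (μ ^ 2 * v / 2)) * P C) := by
    intro μ hμ
    have h1 := h μ C hC
    have h2 := h (-μ) C hC
    rw [neg_sq] at h2
    have hm1 : AEMeasurable (fun ω => ENNReal.ofReal (Real.exp (μ * X ω))) (P.restrict C) :=
      (Real.measurable_exp.comp_aemeasurable (hX.restrict.const_mul _)).ennreal_ofReal
    calc ENNReal.ofReal (μ ^ 2) * ∫⁻ ω in C, ENNReal.ofReal (X ω ^ 2) ∂P + 2 * P C
        = ∫⁻ ω in C, (ENNReal.ofReal (μ ^ 2) * ENNReal.ofReal (X ω ^ 2) + 2) ∂P := by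
          rw [lintegral_add_right _ measurable_const,
            lintegral_const_mul'' _ (hX.restrict.pow_const 2).ennreal_ofReal, setLIntegral_const]
      _ ≤ ∫⁻ ω in C, (ENNReal.ofReal (Real.exp (μ * X ω)) +
            ENNReal.ofReal (Real.exp (-μ * X ω))) ∂P := by
          apply lintegral_mono
          intro ω
          change ENNReal.ofReal (μ ^ 2) * ENNReal.ofReal (X ω ^ 2) + 2 ≤
            ENNReal.ofReal (Real.exp (μ * X ω)) + ENNReal.ofReal (Real.exp (-μ * X ω))
          rw [← ENNReal.ofReal_mul (by positivity),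
            ← ENNReal.ofReal_add (Real.exp_pos _).le (Real.exp_pos _).le,
            show (2 : ℝ≥0∞) = ENNReal.ofReal 2 by simp,
            ← ENNReal.ofReal_add (by positivity) (by norm_num)]
          apply ENNReal.ofReal_le_ofReal
          have := cosh_ge (μ * X ω)
          rw [neg_mul]
          nlinarith
      _ = ∫⁻ ω in C, ENNReal.ofReal (Real.exp (μ * X ω)) ∂P +
            ∫⁻ ω in C, ENNReal.ofReal (Real.exp (-μ * X ω)) ∂P := lintegral_add_left' hm1 _
      _ ≤ _ := by rw [two_mul]; exact add_le_add h1 h2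
  -- real form
  set I : ℝ≥0∞ := ∫⁻ ω in C, ENNReal.ofReal (X ω ^ 2) ∂P with hI
  have hPC : P C ≠ ⊤ := measure_ne_top _ _
  have hIfin : I ≠ ⊤ := by
    intro hI'
    have := key 1 one_pos
    rw [hI'] at this
    have e : ENNReal.ofReal (1 ^ 2) * ⊤ + 2 * P C = ⊤ := by simp
    rw [e, top_le_iff] at this
    exact absurd this (ENNReal.mul_ne_top (by norm_num) (ENNReal.mul_ne_top ENNReal.ofReal_ne_top hPC))
  have keyR : ∀ μ : ℝ, 0 < μ → μ ^ 2 * I.toReal + 2 * (P C).toReal ≤
      2 * (Real.exp (μ ^ 2 * v / 2) * (P C).toReal) := by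
    intro μ hμ
    have h1 := ENNReal.toReal_mono (ENNReal.mul_ne_top (by norm_num)
      (ENNReal.mul_ne_top ENNReal.ofReal_ne_top hPC)) (key μ hμ)
    rw [ENNReal.toReal_add (ENNReal.mul_ne_top ENNReal.ofReal_ne_top hIfin)
      (ENNReal.mul_ne_top (by norm_num) hPC), ENNReal.toReal_mul, ENNReal.toReal_mul,
      ENNReal.toReal_mul, ENNReal.toReal_mul, ENNReal.toReal_ofReal (by positivity),
      ENNReal.toReal_ofReal (Real.exp_pos _).le] at h1
    simpa using h1
  have hfin : I.toReal ≤ v * (P C).toReal := by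
    -- `2 (exp(y v/2) - 1)/y → v` as `y → 0+`
    have hlim : Tendsto (fun y : ℝ => 2 * ((Real.exp (y * v / 2) - 1) / y) * (P C).toReal)
        (𝓝[>] 0) (𝓝 (2 * (v / 2) * (P C).toReal)) := by
      have hd : HasDerivAt (fun y : ℝ => Real.exp (y * v / 2)) (v / 2) 0 := by
        have h1 : HasDerivAt (fun y : ℝ => y * v / 2) (v / 2) 0 := by
          simpa using ((hasDerivAt_id (0 : ℝ)).mul_const v).div_const 2
        simpa using h1.exp
      have h2 := hd.tendsto_slope_zero_right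
      simp only [zero_add, zero_mul, zero_div, Real.exp_zero, smul_eq_mul] at h2
      have h3 : Tendsto (fun y : ℝ => (Real.exp (y * v / 2) - 1) / y) (𝓝[>] 0) (𝓝 (v / 2)) := by
        refine h2.congr fun y => ?_
        exact (div_eq_inv_mul _ _).symm
      exact (h3.const_mul 2).mul_const _
    have h4 : I.toReal ≤ 2 * (v / 2) * (P C).toReal := by
      refine ge_of_tendsto hlim ?_
      filter_upwards [self_mem_nhdsWithin] with y hy
      have hy : 0 < y := hy
      have h5 := keyR (√y) (Real.sqrt_pos.2 hy)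
      rw [Real.sq_sqrt hy.le] at h5
      rw [← sub_nonneg]
      have h6 : 2 * ((Real.exp (y * v / 2) - 1) / y) * (P C).toReal - I.toReal =
          (2 * (Real.exp (y * v / 2) * (P C).toReal) - (y * I.toReal + 2 * (P C).toReal)) / y := by
        field_simp
        ring
      rw [h6]
      exact div_nonneg (by linarith) hy.le
    linarith
  rw [← ENNReal.ofReal_toReal hIfin, ← ENNReal.ofReal_toReal hPC, ← ENNReal.ofReal_mul hv]
  exact ENNReal.ofReal_le_ofReal hfin

theorem SubG.memLp [IsFiniteMeasure P] {X : Ω → ℝ} {v : ℝ} (h : SubG P G X v)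
    (hX : AEMeasurable X P) (hv : 0 ≤ v) : MemLp X 2 P := by
  rw [memLp_two_iff_integrable_sq hX.aestronglyMeasurable]
  refine ⟨(hX.pow_const 2).aestronglyMeasurable, ?_⟩
  have h1 := h.var hX (C := Set.univ) MeasurableSet.univ hv
  rw [Measure.restrict_univ] at h1
  rw [hasFiniteIntegral_iff_ofReal (ae_of_all _ fun ω => sq_nonneg _)]
  exact lt_of_le_of_lt h1 (ENNReal.mul_lt_top ENNReal.ofReal_lt_top (measure_lt_top _ _))

theorem SubG.var_real [IsFiniteMeasure P] {X : Ω → ℝ} {v : ℝ} (h : SubG P G X v)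
    (hX : AEMeasurable X P) (hv : 0 ≤ v) {C : Set Ω} (hC : MeasurableSet[G] C) :
    ∫ ω in C, X ω ^ 2 ∂P ≤ v * P.real C := by
  rw [integral_eq_lintegral_of_nonneg_ae (ae_of_all _ fun ω => sq_nonneg _)
    (hX.restrict.pow_const 2).aestronglyMeasurable]
  apply ENNReal.toReal_le_of_le_ofReal (by positivity)
  refine (h.var hX hC hv).trans (le_of_eq ?_)
  rw [ENNReal.ofReal_mul hv, Measure.real, ENNReal.ofReal_toReal (measure_ne_top _ _)]

end Crest.Agent.R146.SubG_4
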