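import Mathlib
import Crest.Agent.R146.LevC_4
import Crest.Agent.R146.SubG_4

/-!
Row 146, node (4d) of post 459 (task 58, helper4): strict complementarity `P(h = 0 = lam) = 0` at
jamming.
-/

set_option autoImplicit false

namespace Crest.Agent.R146.LevD_4

open MeasureTheory ProbabilityTheory Filter
open scoped ENNReal NNReal Topology
open Crest.Agent.R146.LevC_4 Crest.Agent.R146.SubG_4

variable {Ω : Type*} {mΩ : MeasurableSpace Ω} {P : Measure Ω}

/-- Gaussian tail at two standard deviations -/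
noncomputable def c0 : ℝ := (gaussianReal 0 1).real (Set.Ici 2)

theorem c0_pos : 0 < c0 := by
  have h1 : volume (Set.Ici (2 : ℝ)) ≠ 0 := by simp
  have h2 : gaussianReal 0 1 (Set.Ici (2 : ℝ)) ≠ 0 := fun h =>
    h1 (gaussianReal_absolutelyContinuous' 0 one_ne_zero h)
  exact ENNReal.toReal_pos h2 (measure_ne_top _ _)

theorem gauss_Ici {τ : ℝ} (hτ : 0 < τ) :
    gaussianReal 0 τ.toNNReal (Set.Ici (2 * √τ)) = ENNReal.ofReal c0 := by
  have h1 : gaussianReal 0 τ.toNNReal = (gaussianReal 0 1).map (fun x => √τ * x) := by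
    rw [gaussianReal_map_const_mul, mul_zero, mul_one]
    congr 1
    rw [← NNReal.coe_inj, Real.coe_toNNReal _ hτ.le]
    exact (Real.sq_sqrt hτ.le).symm
  rw [h1, Measure.map_apply (measurable_const_mul _) measurableSet_Ici]
  have h2 : (fun x => √τ * x) ⁻¹' Set.Ici (2 * √τ) = Set.Ici 2 := by
    ext x
    simp only [Set.mem_preimage, Set.mem_Ici]
    rw [mul_comm 2]
    exact mul_le_mul_iff_right₀ (Real.sqrt_pos.2 hτ)
  rw [h2, c0, Measure.real, ENNReal.ofReal_toReal (measure_ne_top _ _)]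

/-- data of (4d) -/
structure Strict (P : Measure Ω) (F : ℝ → MeasurableSpace Ω) (W : ℝ → Ω → ℝ) (h lam : Ω → ℝ)
    (E K : ℝ → ℝ) : Prop where
  bm : BM P F W
  h2 : MemLp h 2 P
  l2 : MemLp lam 2 P
  h0 : 0 ≤ᵐ[P] h
  l0 : 0 ≤ᵐ[P] lam
  Epos : ∀ s, 0 ≤ s → s < 1 → 0 < E s
  Kpos : ∀ s, 0 ≤ s → s < 1 → 0 < K s
  Klim : Tendsto K (𝓝[<] 1) (𝓝 0)
  sgh : ∀ s, 0 ≤ s → s < 1 → SubG P (F s) (fun ω => h ω - (P[h | F s]) ω) (1 - s)
  sgl : ∀ s, 0 ≤ s → s < 1 → SubG P (F s) (fun ω => lam ω - (P[lam | F s]) ω) (K s)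
  pos : ∀ s, 0 ≤ s → s < 1 → ∀ᵐ ω ∂P,
    ((P[h | F s]) ω - (E s)⁻¹ * (P[lam | F s]) ω) + (W 1 ω - W s ω) ≤ h ω

namespace Strict

variable {F : ℝ → MeasurableSpace Ω} {W : ℝ → Ω → ℝ} {h lam : Ω → ℝ} {E K : ℝ → ℝ}

theorem d1 [IsProbabilityMeasure P] (H : Strict P F W h lam E K) {s : ℝ} (hs : 0 ≤ s)
    (hs1 : s < 1) : ∀ᵐ ω ∂P, -√(1 - s) ≤ (P[h | F s]) ω - (E s)⁻¹ * (P[lam | F s]) ω →
      c0 * √(1 - s) ≤ (P[h | F s]) ω := by
  have hle := H.bm.le s hs hs1.le
  set τ := 1 - s with hτ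
  have hτ0 : 0 < τ := sub_pos.2 hs1
  have hsq : 0 < √τ := Real.sqrt_pos.2 hτ0
  have hhm : Measurable[F s] (P[h | F s]) := stronglyMeasurable_condExp.measurable
  have hlm : Measurable[F s] (P[lam | F s]) := stronglyMeasurable_condExp.measurable
  set C : Set Ω := {ω | -√τ ≤ (P[h | F s]) ω - (E s)⁻¹ * (P[lam | F s]) ω} ∩
    {ω | (P[h | F s]) ω < c0 * √τ} with hC
  have hCa : MeasurableSet[F s] {ω | -√τ ≤ (P[h | F s]) ω - (E s)⁻¹ * (P[lam | F s]) ω} :=
    measurableSet_le measurable_const (hhm.sub (hlm.const_mul _))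
  have hCb : MeasurableSet[F s] {ω | (P[h | F s]) ω < c0 * √τ} :=
    measurableSet_lt hhm measurable_const
  have hCm : MeasurableSet[F s] C := hCa.inter hCb
  have hCm' : MeasurableSet C := hle C hCm
  have hW1 : Measurable (W 1) := (H.bm.adapted 1 zero_le_one le_rfl).mono
    (H.bm.le 1 zero_le_one le_rfl) le_rfl
  have hWs : Measurable (W s) := (H.bm.adapted s hs hs1.le).mono hle le_rfl
  have hhI : Integrable h P := H.h2.integrable (by norm_num)
  suffices hPC : P C = 0 by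
    have : ∀ᵐ ω ∂P, ω ∉ C := measure_eq_zero_iff_ae_notMem.1 hPC
    filter_upwards [this] with ω hω h1
    by_contra h2
    exact hω ⟨h1, not_le.1 h2⟩
  by_contra hPC
  have e1 : ∫ ω in C, (P[h | F s]) ω ∂P = ∫ ω in C, h ω ∂P := setIntegral_condExp hle hhI hCm
  set T : Set Ω := (fun ω => W 1 ω - W s ω) ⁻¹' Set.Ici (2 * √τ) with hT
  have hTm : MeasurableSet T := (hW1.sub hWs) measurableSet_Ici
  have e2 : P.real (C ∩ T) = P.real C * c0 := by
    have := H.bm.incr s 1 hs hs1.le le_rfl C hCm (Set.Ici (2 * √τ)) measurableSet_Ici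
    rw [gauss_Ici hτ0] at this
    rw [Measure.real, this, ENNReal.toReal_mul, ENNReal.toReal_ofReal c0_pos.le]
    rfl
  have e3 : √τ * P.real (C ∩ T) ≤ ∫ ω in C, h ω ∂P := by
    have e4 : ∫ ω in C, (T.indicator (fun _ => √τ) ω) ∂P = √τ * P.real (C ∩ T) := by
      rw [setIntegral_indicator hTm, setIntegral_const, smul_eq_mul, mul_comm]
    rw [← e4]
    apply setIntegral_mono_on_ae ((integrable_const _).indicator hTm).integrableOn
      hhI.integrableOn hCm'
    filter_upwards [H.pos s hs hs1, H.h0] with ω h1 h2 h3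
    by_cases h4 : ω ∈ T
    · rw [Set.indicator_of_mem h4]
      have h5 : 2 * √τ ≤ W 1 ω - W s ω := h4
      have h6 : -√τ ≤ (P[h | F s]) ω - (E s)⁻¹ * (P[lam | F s]) ω := h3.1
      linarith
    · rw [Set.indicator_of_notMem h4]; exact h2
  have e5 : ∫ ω in C, (P[h | F s]) ω ∂P < c0 * √τ * P.real C := by
    have hci : Integrable (P[h | F s]) P := integrable_condExp
    have h1 : 0 < ∫ ω in C, (c0 * √τ - (P[h | F s]) ω) ∂P := by
      rw [setIntegral_pos_iff_support_of_nonneg_ae]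
      · have : C ⊆ (Function.support fun ω => c0 * √τ - (P[h | F s]) ω) ∩ C := by
          intro ω hω
          refine ⟨?_, hω⟩
          have h2 : (P[h | F s]) ω < c0 * √τ := hω.2
          exact (sub_pos.2 h2).ne'
        exact lt_of_lt_of_le (pos_iff_ne_zero.2 hPC) (measure_mono this)
      · rw [EventuallyLE, ae_restrict_iff' hCm']
        refine ae_of_all _ fun ω hω => ?_
        have h2 : (P[h | F s]) ω < c0 * √τ := hω.2
        exact (sub_pos.2 h2).le
      · exact ((integrable_const _).sub hci).integrableOn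
    rw [integral_sub (integrable_const _).integrableOn hci.integrableOn, setIntegral_const,
      smul_eq_mul] at h1
    linarith [mul_comm (P.real C) (c0 * √τ)]
  rw [e1] at e5
  rw [e2] at e3
  have : c0 * √τ * P.real C = √τ * (P.real C * c0) := by ring
  linarith

/-- one scale -/
theorem one_scale [IsProbabilityMeasure P] (H : Strict P F W h lam E K) {C : ℝ} (hC : 0 < C)
    {s : ℝ} (hs : 0 ≤ s) (hs1 : s < 1) (tip : K s ≤ C ^ 2 * (1 - s) * E s ^ 2) {η : ℝ} (hη : 0 < η)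
    (hη1 : η < c0) (hηC : η * C ≤ 1) {A : Set Ω} (hA : MeasurableSet[F s] A) :
    P ({ω | h ω = 0 ∧ lam ω = 0} ∩ A) ≤ ENNReal.ofReal (Real.exp (-(η ^ 2 / 2))) * P A := by
  have hle := H.bm.le s hs hs1.le
  set τ := 1 - s with hτ
  have hτ0 : 0 < τ := sub_pos.2 hs1
  have hsq : 0 < √τ := Real.sqrt_pos.2 hτ0
  have hK0 := H.Kpos s hs hs1
  have hKs : 0 < √(K s) := Real.sqrt_pos.2 hK0
  have hE0 := H.Epos s hs hs1
  have hhm : Measurable[F s] (P[h | F s]) := stronglyMeasurable_condExp.measurable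
  have hlm : Measurable[F s] (P[lam | F s]) := stronglyMeasurable_condExp.measurable
  set A1 : Set Ω := A ∩ {ω | η * √τ < (P[h | F s]) ω} with hA1
  set A2 : Set Ω := A \ {ω | η * √τ < (P[h | F s]) ω} with hA2
  have hB1 : MeasurableSet[F s] {ω | η * √τ < (P[h | F s]) ω} :=
    measurableSet_lt measurable_const hhm
  have hA1m : MeasurableSet[F s] A1 := hA.inter hB1
  have hA2m : MeasurableSet[F s] A2 := hA.diff hB1
  have hunion : A = A1 ∪ A2 := by rw [hA1, hA2, Set.inter_union_sdiff]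
  have hPA : P A = P A1 + P A2 := (measure_inter_add_sdiff A (hle _ hB1)).symm
  have hXm : AEMeasurable (fun ω => h ω - (P[h | F s]) ω) P :=
    H.h2.1.aemeasurable.sub (hhm.mono hle le_rfl).aemeasurable
  have hYm : AEMeasurable (fun ω => lam ω - (P[lam | F s]) ω) P :=
    H.l2.1.aemeasurable.sub (hlm.mono hle le_rfl).aemeasurable
  have b1 : P ({ω | h ω = 0 ∧ lam ω = 0} ∩ A1) ≤ ENNReal.ofReal (Real.exp (-(η ^ 2 / 2))) * P A1 := by
    have h1 := (H.sgh s hs hs1).tail hXm hle hτ0 (x := η * √τ) hA1m (by positivity)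
    have e : (η * √τ) ^ 2 / (2 * τ) = η ^ 2 / 2 := by
      rw [mul_pow, Real.sq_sqrt hτ0.le]; field_simp
    rw [e] at h1
    refine (measure_mono ?_).trans h1
    rintro ω ⟨⟨h2, h3⟩, h4⟩
    refine ⟨?_, h4⟩
    have h5 : η * √τ < (P[h | F s]) ω := h4.2
    change h ω - (P[h | F s]) ω ≤ -(η * √τ)
    rw [h2]; linarith
  have b2 : P ({ω | h ω = 0 ∧ lam ω = 0} ∩ A2) ≤ ENNReal.ofReal (Real.exp (-(η ^ 2 / 2))) * P A2 := by
    have h1 := (H.sgl s hs hs1).tail hYm hle hK0 (x := η * √(K s)) hA2m (by positivity)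
    have e : (η * √(K s)) ^ 2 / (2 * K s) = η ^ 2 / 2 := by
      rw [mul_pow, Real.sq_sqrt hK0.le]; field_simp
    rw [e] at h1
    refine le_trans (measure_mono_ae ?_) h1
    filter_upwards [H.d1 hs hs1, condExp_nonneg (m := F s) H.h0] with ω h2 h3 h4
    have h3 : 0 ≤ (P[h | F s]) ω := h3
    obtain ⟨⟨h5, h6⟩, h7⟩ := h4
    refine ⟨?_, h7⟩
    have h8 : (P[h | F s]) ω ≤ η * √τ := not_lt.1 h7.2
    change lam ω - (P[lam | F s]) ω ≤ -(η * √(K s))
    rw [h6]
    by_contra hcon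
    have h9 : (P[lam | F s]) ω < η * √(K s) := by linarith
    have h10 : √(K s) ≤ C * √τ * E s := by
      rw [Real.sqrt_le_left (by positivity), mul_pow, mul_pow, Real.sq_sqrt hτ0.le]
      exact tip
    have h11 : (E s)⁻¹ * (P[lam | F s]) ω ≤ √τ := by
      calc (E s)⁻¹ * (P[lam | F s]) ω ≤ (E s)⁻¹ * (η * (C * √τ * E s)) := by
            gcongr
            exact h9.le.trans (by gcongr)
        _ = η * C * √τ := by field_simp
        _ ≤ 1 * √τ := by gcongr
        _ = √τ := one_mul _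
    have h13 : c0 * √τ ≤ (P[h | F s]) ω := h2 (by linarith)
    have h14 : c0 * √τ ≤ η * √τ := h13.trans h8
    have h15 := le_of_mul_le_mul_right h14 hsq
    linarith
  rw [hunion, Set.inter_union_distrib_left, ← hunion, hPA, mul_add]
  exact (measure_union_le _ _).trans (add_le_add b1 b2)


/-- **(4d)** strict complementarity -/
theorem strict_comp [IsProbabilityMeasure P] (H : Strict P F W h lam E K) {C : ℝ} (hC : 0 < C)
    (good : ∃ᶠ s in 𝓝[<] (1 : ℝ), K s ≤ C ^ 2 * (1 - s) * E s ^ 2) :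
    P {ω | h ω = 0 ∧ lam ω = 0} = 0 := by
  set N : Set Ω := {ω | h ω = 0 ∧ lam ω = 0} with hN
  set η : ℝ := min (c0 / 2) (1 / C) with hη
  have hη0 : 0 < η := lt_min (half_pos c0_pos) (by positivity)
  have hη1 : η < c0 := lt_of_le_of_lt (min_le_left _ _) (half_lt_self c0_pos)
  have hηC : η * C ≤ 1 := by
    calc η * C ≤ 1 / C * C := by gcongr; exact min_le_right _ _
      _ = 1 := by field_simp
  set θ : ℝ := Real.exp (-(η ^ 2 / 2)) with hθ
  have hθ1 : θ < 1 := by rw [hθ, Real.exp_lt_one_iff]; simpa using by positivity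
  have hθ0 : 0 < θ := Real.exp_pos _
  -- for every `ε`: `P N ≤ θ P {h ≤ 2 ε, lam ≤ 2 ε}`
  have key : ∀ ε : ℝ, 0 < ε → P.real N ≤ θ * P.real {ω | h ω ≤ 2 * ε ∧ lam ω ≤ 2 * ε} := by
    intro ε hε
    -- for every `s` close to one
    have h1 : ∀ s, 0 ≤ s → K s ≤ C ^ 2 * (1 - s) * E s ^ 2 → s < 1 → P.real N ≤
        θ * (P.real {ω | h ω ≤ 2 * ε ∧ lam ω ≤ 2 * ε} + ((1 - s) + K s) / ε ^ 2) +
          ((1 - s) + K s) / ε ^ 2 := by
      intro s hs hst hs1
      have hle := H.bm.le s hs hs1.le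
      have hhm : Measurable[F s] (P[h | F s]) := stronglyMeasurable_condExp.measurable
      have hlm : Measurable[F s] (P[lam | F s]) := stronglyMeasurable_condExp.measurable
      have hXm : AEMeasurable (fun ω => h ω - (P[h | F s]) ω) P :=
        H.h2.1.aemeasurable.sub (hhm.mono hle le_rfl).aemeasurable
      have hYm : AEMeasurable (fun ω => lam ω - (P[lam | F s]) ω) P :=
        H.l2.1.aemeasurable.sub (hlm.mono hle le_rfl).aemeasurable
      have hX2 : MemLp (fun ω => h ω - (P[h | F s]) ω) 2 P :=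
        H.h2.sub (H.h2.condExp (by norm_num))
      have hY2 : MemLp (fun ω => lam ω - (P[lam | F s]) ω) 2 P :=
        H.l2.sub (H.l2.condExp (by norm_num))
      set U : Set Ω := {ω | ε ≤ |h ω - (P[h | F s]) ω|} with hU
      set V : Set Ω := {ω | ε ≤ |lam ω - (P[lam | F s]) ω|} with hV
      have hUb : P.real U ≤ (1 - s) / ε ^ 2 := by
        have e1 := Lev_576.markov_sq (P := P) hX2 hε
        have e2 := (H.sgh s hs hs1).var_real hXm (sub_pos.2 hs1).le (C := Set.univ)
          MeasurableSet.univ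
        rw [setIntegral_univ, probReal_univ, mul_one] at e2
        apply ENNReal.toReal_le_of_le_ofReal (by have := (sub_pos.2 hs1).le; positivity)
        refine e1.trans (ENNReal.ofReal_le_ofReal ?_)
        gcongr
      have hVb : P.real V ≤ K s / ε ^ 2 := by
        have e1 := Lev_576.markov_sq (P := P) hY2 hε
        have e2 := (H.sgl s hs hs1).var_real hYm (H.Kpos s hs hs1).le (C := Set.univ)
          MeasurableSet.univ
        rw [setIntegral_univ, probReal_univ, mul_one] at e2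
        apply ENNReal.toReal_le_of_le_ofReal (by have := (H.Kpos s hs hs1).le; positivity)
        refine e1.trans (ENNReal.ofReal_le_ofReal ?_)
        gcongr
      set A : Set Ω := {ω | (P[h | F s]) ω ≤ ε} ∩ {ω | (P[lam | F s]) ω ≤ ε} with hA
      have hAm : MeasurableSet[F s] A := by
        have ha : MeasurableSet[F s] {ω | (P[h | F s]) ω ≤ ε} := measurableSet_le hhm measurable_const
        have hb : MeasurableSet[F s] {ω | (P[lam | F s]) ω ≤ ε} :=
          measurableSet_le hlm measurable_const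
        exact ha.inter hb
      have hbase := H.one_scale hC hs hs1 hst hη0 hη1 hηC hAm
      have hbaseR : P.real (N ∩ A) ≤ θ * P.real A := by
        have := ENNReal.toReal_mono (ENNReal.mul_ne_top ENNReal.ofReal_ne_top
          (measure_ne_top _ _)) hbase
        rwa [ENNReal.toReal_mul, ENNReal.toReal_ofReal hθ0.le] at this
      have hsub1 : N ⊆ (N ∩ A) ∪ (U ∪ V) := by
        rintro ω ⟨h1, h2⟩
        by_cases hu : ω ∈ U
        · right; left; exact hu
        by_cases hv : ω ∈ V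
        · right; right; exact hv
        left
        refine ⟨⟨h1, h2⟩, ?_, ?_⟩
        · have h3 : |h ω - (P[h | F s]) ω| < ε := not_le.1 hu
          rw [h1, abs_lt] at h3
          change (P[h | F s]) ω ≤ ε
          linarith
        · have h3 : |lam ω - (P[lam | F s]) ω| < ε := not_le.1 hv
          rw [h2, abs_lt] at h3
          change (P[lam | F s]) ω ≤ ε
          linarith
      have hsub2 : A ⊆ {ω | h ω ≤ 2 * ε ∧ lam ω ≤ 2 * ε} ∪ (U ∪ V) := by
        rintro ω ⟨h1, h2⟩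
        have h1 : (P[h | F s]) ω ≤ ε := h1
        have h2 : (P[lam | F s]) ω ≤ ε := h2
        by_cases hu : ω ∈ U
        · right; left; exact hu
        by_cases hv : ω ∈ V
        · right; right; exact hv
        left
        have h3 : |h ω - (P[h | F s]) ω| < ε := not_le.1 hu
        have h4 : |lam ω - (P[lam | F s]) ω| < ε := not_le.1 hv
        rw [abs_lt] at h3 h4
        exact ⟨by linarith, by linarith⟩
      have hUV : P.real (U ∪ V) ≤ ((1 - s) + K s) / ε ^ 2 := by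
        refine (measureReal_union_le _ _).trans ?_
        rw [add_div]
        exact add_le_add hUb hVb
      have h5 : P.real N ≤ P.real (N ∩ A) + P.real (U ∪ V) :=
        (measureReal_mono hsub1).trans (measureReal_union_le _ _)
      have h6 : P.real A ≤ P.real {ω | h ω ≤ 2 * ε ∧ lam ω ≤ 2 * ε} + P.real (U ∪ V) :=
        (measureReal_mono hsub2).trans (measureReal_union_le _ _)
      calc P.real N ≤ P.real (N ∩ A) + P.real (U ∪ V) := h5
        _ ≤ θ * P.real A + P.real (U ∪ V) := by gcongr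
        _ ≤ θ * (P.real {ω | h ω ≤ 2 * ε ∧ lam ω ≤ 2 * ε} + P.real (U ∪ V)) + P.real (U ∪ V) := by
            gcongr
        _ ≤ _ := by gcongr
    -- `s → 1`
    have hlim : Tendsto (fun s => θ * (P.real {ω | h ω ≤ 2 * ε ∧ lam ω ≤ 2 * ε} +
        ((1 - s) + K s) / ε ^ 2) + ((1 - s) + K s) / ε ^ 2) (𝓝[<] 1)
        (𝓝 (θ * (P.real {ω | h ω ≤ 2 * ε ∧ lam ω ≤ 2 * ε} + ((1 - 1) + 0) / ε ^ 2) +
          ((1 - 1) + 0) / ε ^ 2)) := by
      have h2 : Tendsto (fun s : ℝ => ((1 - s) + K s) / ε ^ 2) (𝓝[<] 1)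
          (𝓝 (((1 - 1) + 0) / ε ^ 2)) := by
        apply Tendsto.div_const
        apply Tendsto.add _ H.Klim
        exact ((continuous_const.sub continuous_id).tendsto 1).mono_left nhdsWithin_le_nhds
      exact ((h2.const_add _).const_mul _).add h2
    have h3 : P.real N ≤ θ * (P.real {ω | h ω ≤ 2 * ε ∧ lam ω ≤ 2 * ε} +
        ((1 - 1) + 0) / ε ^ 2) + ((1 - 1) + 0) / ε ^ 2 := by
      refine ge_of_tendsto_of_frequently hlim ?_
      have hm : Set.Ioo 0 1 ∈ 𝓝[<] (1 : ℝ) := Ioo_mem_nhdsLT one_pos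
      exact (good.and_eventually hm).mono fun s hs => h1 s hs.2.1.le hs.1 hs.2.2
    simpa using h3
  -- `ε → 0`
  have hlim2 : Tendsto (fun n : ℕ => P {ω | h ω ≤ 2 * (1 / ((n : ℝ) + 1)) ∧
      lam ω ≤ 2 * (1 / ((n : ℝ) + 1))}) atTop (𝓝 (P (⋂ n : ℕ, {ω | h ω ≤ 2 * (1 / ((n : ℝ) + 1)) ∧
      lam ω ≤ 2 * (1 / ((n : ℝ) + 1))}))) := by
    apply tendsto_measure_iInter_atTop
    · intro n
      exact (H.h2.1.aemeasurable.nullMeasurable measurableSet_Iic).inter
        (H.l2.1.aemeasurable.nullMeasurable measurableSet_Iic)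
    · intro m n hmn ω hω
      have h1 : 1 / ((n : ℝ) + 1) ≤ 1 / ((m : ℝ) + 1) := by
        have : (m : ℝ) ≤ n := by exact_mod_cast hmn
        gcongr
      exact ⟨hω.1.trans (by linarith), hω.2.trans (by linarith)⟩
    · exact ⟨0, measure_ne_top _ _⟩
  have hinter : P (⋂ n : ℕ, {ω | h ω ≤ 2 * (1 / ((n : ℝ) + 1)) ∧
      lam ω ≤ 2 * (1 / ((n : ℝ) + 1))}) = P N := by
    apply measure_congr
    filter_upwards [H.h0, H.l0] with ω h1 h2
    have h1 : 0 ≤ h ω := h1
    have h2 : 0 ≤ lam ω := h2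
    apply propext
    change (ω ∈ ⋂ n : ℕ, {ω | h ω ≤ 2 * (1 / ((n : ℝ) + 1)) ∧
      lam ω ≤ 2 * (1 / ((n : ℝ) + 1))}) ↔ (h ω = 0 ∧ lam ω = 0)
    rw [Set.mem_iInter]
    have hl : Tendsto (fun n : ℕ => 2 * (1 / ((n : ℝ) + 1))) atTop (𝓝 0) := by
      simpa using tendsto_one_div_add_atTop_nhds_zero_nat.const_mul (2 : ℝ)
    constructor
    · intro h3
      exact ⟨le_antisymm (ge_of_tendsto' hl fun n => (h3 n).1) h1,
        le_antisymm (ge_of_tendsto' hl fun n => (h3 n).2) h2⟩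
    · rintro ⟨h3, h4⟩ n
      have : 0 ≤ 2 * (1 / ((n : ℝ) + 1)) := by positivity
      exact ⟨by rw [h3]; exact this, by rw [h4]; exact this⟩
  rw [hinter] at hlim2
  have hlim3 : Tendsto (fun n : ℕ => θ * P.real {ω | h ω ≤ 2 * (1 / ((n : ℝ) + 1)) ∧
      lam ω ≤ 2 * (1 / ((n : ℝ) + 1))}) atTop (𝓝 (θ * P.real N)) :=
    ((ENNReal.tendsto_toReal (measure_ne_top _ _)).comp hlim2).const_mul _
  have h1 : P.real N ≤ θ * P.real N :=
    ge_of_tendsto' hlim3 fun n => key (1 / ((n : ℝ) + 1)) (by positivity)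
  have h2 : 0 ≤ P.real N := measureReal_nonneg
  have h3 : P.real N = 0 := by nlinarith
  rwa [measureReal_eq_zero_iff] at h3

end Strict

end Crest.Agent.R146.LevD_4
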