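import Mathlib

/-!
Row 146 (task 58, helper4): the clocks of (4c), (4d).
`E = 1/D`, `K s = ∫_s^1 D⁻²`, `J s = ∫_s^1 D⁻¹ (2 √(1-r))⁻¹ dr`; only `D t ≥ (1-t)^(2/5)` near `1`.
Good times: `K s ≤ 16 (1-s) E s²` for arbitrarily late `s`.
-/

set_option autoImplicit false

namespace Crest.Agent.R146.LevK_4

open MeasureTheory Filter Set intervalIntegral
open scoped Topology

/-- what is used of a profile -/
structure Prf (D : ℝ → ℝ) : Prop where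
  cont : ContinuousOn D (Icc 0 1)
  anti : AntitoneOn D (Icc 0 1)
  pos : ∀ t ∈ Ico (0 : ℝ) 1, 0 < D t
  low : ∀ᶠ t in 𝓝[<] (1 : ℝ), (1 - t) ^ (2 / 5 : ℝ) ≤ D t

noncomputable def K (D : ℝ → ℝ) (s : ℝ) : ℝ := ∫ r in s..1, (D r)⁻¹ ^ 2

noncomputable def J (D : ℝ → ℝ) (s : ℝ) : ℝ := ∫ r in s..1, (D r)⁻¹ * (2 * √(1 - r))⁻¹

namespace Prf

variable {D : ℝ → ℝ}

theorem bound (H : Prf D) : ∃ M : ℝ, 0 < M ∧ ∀ r ∈ Ico (0 : ℝ) 1, (D r)⁻¹ ≤ M * (1 - r) ^ (-(2 / 5) : ℝ) := by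
  have hm : Ioo (0 : ℝ) 1 ∈ 𝓝[<] (1 : ℝ) := Ioo_mem_nhdsLT one_pos
  obtain ⟨l, hl, hl2⟩ := (mem_nhdsLT_iff_exists_Ioo_subset' (zero_lt_one)).1 (inter_mem H.low hm)
  have hl1 : l < 1 := hl
  set t2 := (max l 0 + 1) / 2 with ht2
  have h1 : max l 0 < 1 := max_lt hl1 one_pos
  have ht21 : t2 < 1 := by rw [ht2]; linarith
  have ht2l : l < t2 := by rw [ht2]; have := le_max_left l 0; linarith
  have ht20 : 0 < t2 := by rw [ht2]; have := le_max_right l 0; linarith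
  refine ⟨max 1 (D t2)⁻¹, lt_of_lt_of_le one_pos (le_max_left _ _), fun r hr => ?_⟩
  have hr1 : 0 < 1 - r := sub_pos.2 hr.2
  rcases lt_or_ge r t2 with h | h
  · have h2 : D t2 ≤ D r := H.anti ⟨hr.1, hr.2.le⟩ ⟨ht20.le, ht21.le⟩ h.le
    have h3 : 0 < D t2 := H.pos _ ⟨ht20.le, ht21⟩
    have h4 : (D r)⁻¹ ≤ (D t2)⁻¹ := inv_anti₀ h3 h2
    have h5 : 1 ≤ (1 - r) ^ (-(2 / 5) : ℝ) :=
      Real.one_le_rpow_of_pos_of_le_one_of_nonpos hr1 (by linarith [hr.1]) (by norm_num)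
    have h6 : 0 < (D t2)⁻¹ := inv_pos.2 h3
    calc (D r)⁻¹ ≤ (D t2)⁻¹ * 1 := by rw [mul_one]; exact h4
      _ ≤ max 1 (D t2)⁻¹ * (1 - r) ^ (-(2 / 5) : ℝ) := by
        gcongr
        exact le_max_right _ _
  · have h2 : (1 - r) ^ (2 / 5 : ℝ) ≤ D r := (hl2 ⟨lt_of_lt_of_le ht2l h, hr.2⟩).1
    have h3 : 0 < (1 - r) ^ (2 / 5 : ℝ) := Real.rpow_pos_of_pos hr1 _
    have h4 : (D r)⁻¹ ≤ ((1 - r) ^ (2 / 5 : ℝ))⁻¹ := inv_anti₀ h3 h2
    rw [← Real.rpow_neg hr1.le] at h4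
    have h5 : 0 < (1 - r) ^ (-(2 / 5) : ℝ) := Real.rpow_pos_of_pos hr1 _
    calc (D r)⁻¹ ≤ 1 * (1 - r) ^ (-(2 / 5) : ℝ) := by rw [one_mul]; exact h4
      _ ≤ _ := by gcongr; exact le_max_left _ _

theorem contInv (H : Prf D) : ContinuousOn (fun r => (D r)⁻¹) (Ico 0 1) :=
  (H.cont.mono Ico_subset_Icc_self).inv₀ fun r hr => (H.pos r hr).ne'

theorem integ_rpow {p : ℝ} (hp : -1 < p) (a b : ℝ) :
    IntervalIntegrable (fun r : ℝ => (1 - r) ^ p) volume a b := by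
  have := (intervalIntegrable_rpow' (a := 1 - a) (b := 1 - b) hp).comp_sub_left 1
  simpa using this

theorem int_rpow {p : ℝ} (hp : -1 < p) (s : ℝ) :
    ∫ r in s..1, (1 - r) ^ p = (1 - s) ^ (p + 1) / (p + 1) := by
  rw [intervalIntegral.integral_comp_sub_left (fun x : ℝ => x ^ p) 1, sub_self,
    integral_rpow (Or.inl hp), Real.zero_rpow (by linarith), sub_zero]

/-- integrability of a function dominated by `(1-r)^p` -/
theorem integ_dom {f : ℝ → ℝ} (hf : ContinuousOn f (Ico 0 1)) {C p : ℝ} (hp : -1 < p)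
    (hb : ∀ r ∈ Ico (0 : ℝ) 1, |f r| ≤ C * (1 - r) ^ p) : IntervalIntegrable f volume 0 1 := by
  rw [intervalIntegrable_iff_integrableOn_Ioo_of_le zero_le_one]
  have h1 := ((integ_rpow hp 0 1).const_mul C)
  rw [intervalIntegrable_iff_integrableOn_Ioo_of_le zero_le_one] at h1
  refine Integrable.mono' h1 ?_ ?_
  · exact (hf.mono Ioo_subset_Ico_self).aestronglyMeasurable measurableSet_Ioo
  · rw [ae_restrict_iff' measurableSet_Ioo]
    exact ae_of_all _ fun r hr => hb r ⟨hr.1.le, hr.2⟩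

theorem K_bound (H : Prf D) : ∃ M : ℝ, 0 < M ∧ IntervalIntegrable (fun r => (D r)⁻¹ ^ 2) volume 0 1 ∧
    ∀ s ∈ Icc (0 : ℝ) 1, K D s ≤ M * (1 - s) ^ (1 / 5 : ℝ) := by
  obtain ⟨M, hM, hb⟩ := H.bound
  have hb2 : ∀ r ∈ Ico (0 : ℝ) 1, (D r)⁻¹ ^ 2 ≤ M ^ 2 * (1 - r) ^ (-(4 / 5) : ℝ) := by
    intro r hr
    have hr1 : 0 < 1 - r := sub_pos.2 hr.2
    have h1 := hb r hr
    have h2 : 0 < (D r)⁻¹ := inv_pos.2 (H.pos r hr)
    calc (D r)⁻¹ ^ 2 ≤ (M * (1 - r) ^ (-(2 / 5) : ℝ)) ^ 2 := by gcongr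
      _ = M ^ 2 * (1 - r) ^ (-(4 / 5) : ℝ) := by
        rw [mul_pow, ← Real.rpow_natCast ((1 - r) ^ (-(2 / 5) : ℝ)) 2, ← Real.rpow_mul hr1.le]
        norm_num
  have hi : IntervalIntegrable (fun r => (D r)⁻¹ ^ 2) volume 0 1 := by
    refine integ_dom (C := M ^ 2) (p := -(4 / 5)) (H.contInv.pow 2) (by norm_num) fun r hr => ?_
    rw [abs_of_nonneg (sq_nonneg _)]
    exact hb2 r hr
  refine ⟨5 * M ^ 2, by positivity, hi, fun s hs => ?_⟩
  have hi' : IntervalIntegrable (fun r => (D r)⁻¹ ^ 2) volume s 1 :=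
    hi.mono_set (by rw [uIcc_of_le hs.2, uIcc_of_le zero_le_one]; exact Icc_subset_Icc_left hs.1)
  have h1 : K D s ≤ ∫ r in s..1, M ^ 2 * (1 - r) ^ (-(4 / 5) : ℝ) := by
    unfold K
    refine integral_mono_on_of_le_Ioo hs.2 hi' ((integ_rpow (by norm_num) _ _).const_mul _) ?_
    intro r hr
    exact hb2 r ⟨hs.1.trans hr.1.le, hr.2⟩
  refine h1.trans (le_of_eq ?_)
  rw [intervalIntegral.integral_const_mul, int_rpow (by norm_num) s]
  norm_num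
  ring

theorem J_bound (H : Prf D) : ∃ M : ℝ, 0 < M ∧
    IntervalIntegrable (fun r => (D r)⁻¹ * (2 * √(1 - r))⁻¹) volume 0 1 ∧
    ∀ s ∈ Icc (0 : ℝ) 1, J D s ≤ M * (1 - s) ^ (1 / 10 : ℝ) := by
  obtain ⟨M, hM, hb⟩ := H.bound
  have hb2 : ∀ r ∈ Ico (0 : ℝ) 1,
      (D r)⁻¹ * (2 * √(1 - r))⁻¹ ≤ M / 2 * (1 - r) ^ (-(9 / 10) : ℝ) := by
    intro r hr
    have hr1 : 0 < 1 - r := sub_pos.2 hr.2
    have h1 := hb r hr
    calc (D r)⁻¹ * (2 * √(1 - r))⁻¹ ≤ (M * (1 - r) ^ (-(2 / 5) : ℝ)) * (2 * √(1 - r))⁻¹ := by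
          gcongr
      _ = M / 2 * (1 - r) ^ (-(9 / 10) : ℝ) := by
        rw [Real.sqrt_eq_rpow, mul_inv, ← Real.rpow_neg hr1.le]
        have : (1 - r) ^ (-(9 / 10) : ℝ) = (1 - r) ^ (-(2 / 5) : ℝ) * (1 - r) ^ (-(1 / 2) : ℝ) := by
          rw [← Real.rpow_add hr1]; norm_num
        rw [this]; ring
  have hs : ContinuousOn (fun r : ℝ => (2 * √(1 - r))⁻¹) (Ico 0 1) := by
    apply ContinuousOn.inv₀
    · fun_prop
    · intro r hr
      have := Real.sqrt_pos.2 (sub_pos.2 hr.2)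
      positivity
  have hi : IntervalIntegrable (fun r => (D r)⁻¹ * (2 * √(1 - r))⁻¹) volume 0 1 := by
    refine integ_dom (C := M / 2) (p := -(9 / 10)) (H.contInv.mul hs) (by norm_num) fun r hr => ?_
    rw [abs_of_nonneg (mul_nonneg (inv_nonneg.2 (H.pos r hr).le) (by positivity))]
    exact hb2 r hr
  refine ⟨5 * M, by positivity, hi, fun s hs => ?_⟩
  have hi' : IntervalIntegrable (fun r => (D r)⁻¹ * (2 * √(1 - r))⁻¹) volume s 1 :=
    hi.mono_set (by rw [uIcc_of_le hs.2, uIcc_of_le zero_le_one]; exact Icc_subset_Icc_left hs.1)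
  have h1 : J D s ≤ ∫ r in s..1, M / 2 * (1 - r) ^ (-(9 / 10) : ℝ) := by
    unfold J
    refine integral_mono_on_of_le_Ioo hs.2 hi' ((integ_rpow (by norm_num) _ _).const_mul _) ?_
    intro r hr
    exact hb2 r ⟨hs.1.trans hr.1.le, hr.2⟩
  refine h1.trans (le_of_eq ?_)
  rw [intervalIntegral.integral_const_mul, int_rpow (by norm_num) s]
  norm_num
  ring


theorem sub_int {f : ℝ → ℝ} (hi : IntervalIntegrable f volume 0 1) {s t : ℝ} (hs : 0 ≤ s)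
    (hst : s ≤ t) (ht : t ≤ 1) : IntervalIntegrable f volume s t :=
  hi.mono_set (by rw [uIcc_of_le hst, uIcc_of_le zero_le_one]; exact Icc_subset_Icc hs ht)

theorem K_sub (H : Prf D) {s t : ℝ} (hs : 0 ≤ s) (hst : s ≤ t) (ht : t ≤ 1) :
    K D s - K D t = ∫ r in s..t, (D r)⁻¹ ^ 2 := by
  obtain ⟨M, hM, hi, _⟩ := H.K_bound
  unfold K
  rw [← integral_add_adjacent_intervals (sub_int hi hs hst ht)
    (sub_int hi (hs.trans hst) ht le_rfl)]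
  ring

theorem J_sub (H : Prf D) {s t : ℝ} (hs : 0 ≤ s) (hst : s ≤ t) (ht : t ≤ 1) :
    J D s - J D t = ∫ r in s..t, (D r)⁻¹ * (2 * √(1 - r))⁻¹ := by
  obtain ⟨M, hM, hi, _⟩ := H.J_bound
  unfold J
  rw [← integral_add_adjacent_intervals (sub_int hi hs hst ht)
    (sub_int hi (hs.trans hst) ht le_rfl)]
  ring

theorem inv_mono (H : Prf D) {s t : ℝ} (hs : 0 ≤ s) (hst : s ≤ t) (ht : t < 1) :
    (D s)⁻¹ ≤ (D t)⁻¹ :=
  inv_anti₀ (H.pos t ⟨hs.trans hst, ht⟩) (H.anti ⟨hs, hst.trans ht.le⟩ ⟨hs.trans hst, ht.le⟩ hst)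

theorem inv_pos' (H : Prf D) {s : ℝ} (hs : 0 ≤ s) (hs1 : s < 1) : 0 < (D s)⁻¹ :=
  inv_pos.2 (H.pos s ⟨hs, hs1⟩)

theorem K_dec (H : Prf D) {s t : ℝ} (hs : 0 ≤ s) (hst : s ≤ t) (ht : t < 1) :
    (t - s) * (D s)⁻¹ ^ 2 ≤ K D s - K D t := by
  obtain ⟨M, hM, hi, _⟩ := H.K_bound
  rw [H.K_sub hs hst ht.le]
  have h1 : ∫ r in s..t, (D s)⁻¹ ^ 2 = (t - s) * (D s)⁻¹ ^ 2 := by simp
  rw [← h1]
  refine integral_mono_on hst (by simp) (sub_int hi hs hst ht.le) fun r hr => ?_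
  have h2 := H.inv_mono hs hr.1 (lt_of_le_of_lt hr.2 ht)
  have h3 := (H.inv_pos' hs (lt_of_le_of_lt hst ht)).le
  gcongr

theorem K_nonneg (_ : Prf D) {s : ℝ} (_ : 0 ≤ s) (hs1 : s ≤ 1) : 0 ≤ K D s := by
  unfold K
  exact integral_nonneg hs1 fun r _ => sq_nonneg _

theorem K_pos (H : Prf D) {s : ℝ} (hs : 0 ≤ s) (hs1 : s < 1) : 0 < K D s := by
  have h1 := H.K_dec (t := (s + 1) / 2) hs (by linarith) (by linarith)
  have h2 := H.K_nonneg (s := (s + 1) / 2) (by linarith) (by linarith)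
  have h3 : 0 < ((s + 1) / 2 - s) * (D s)⁻¹ ^ 2 :=
    mul_pos (by linarith) (pow_pos (H.inv_pos' hs hs1) 2)
  linarith

theorem J_nonneg (H : Prf D) {s : ℝ} (hs : 0 ≤ s) (hs1 : s ≤ 1) : 0 ≤ J D s := by
  unfold J
  obtain ⟨M, hM, hi, _⟩ := H.J_bound
  have h0 : ∫ r in s..1, (0 : ℝ) = 0 := by simp
  rw [← h0]
  refine integral_mono_on_of_le_Ioo hs1 (by simp) (sub_int hi hs hs1 le_rfl) fun r hr => ?_
  exact mul_nonneg (H.inv_pos' (hs.trans hr.1.le) hr.2).le (by positivity)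

theorem tendsto_pow {p : ℝ} (hp : 0 < p) : Tendsto (fun s : ℝ => (1 - s) ^ p) (𝓝[<] 1) (𝓝 0) := by
  have h1 : Tendsto (fun s : ℝ => 1 - s) (𝓝[<] 1) (𝓝 0) := by
    have : Tendsto (fun s : ℝ => 1 - s) (𝓝 1) (𝓝 (1 - 1)) :=
      (continuous_const.sub continuous_id).tendsto 1
    rw [sub_self] at this
    exact this.mono_left nhdsWithin_le_nhds
  have h2 := ((Real.continuous_rpow_const hp.le).tendsto (0 : ℝ)).comp h1
  rw [Real.zero_rpow hp.ne'] at h2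
  exact h2

theorem K_lim (H : Prf D) : Tendsto (K D) (𝓝[<] 1) (𝓝 0) := by
  obtain ⟨M, hM, hi, hb⟩ := H.K_bound
  have h1 := (tendsto_pow (p := 1 / 5) (by norm_num)).const_mul M
  rw [mul_zero] at h1
  have hm : Ioo (0 : ℝ) 1 ∈ 𝓝[<] (1 : ℝ) := Ioo_mem_nhdsLT one_pos
  refine tendsto_of_tendsto_of_tendsto_of_le_of_le' tendsto_const_nhds h1 ?_ ?_
  · filter_upwards [hm] with s hs
    exact H.K_nonneg hs.1.le hs.2.le
  · filter_upwards [hm] with s hs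
    exact hb s ⟨hs.1.le, hs.2.le⟩

theorem J_lim (H : Prf D) : Tendsto (J D) (𝓝[<] 1) (𝓝 0) := by
  obtain ⟨M, hM, hi, hb⟩ := H.J_bound
  have h1 := (tendsto_pow (p := 1 / 10) (by norm_num)).const_mul M
  rw [mul_zero] at h1
  have hm : Ioo (0 : ℝ) 1 ∈ 𝓝[<] (1 : ℝ) := Ioo_mem_nhdsLT one_pos
  refine tendsto_of_tendsto_of_tendsto_of_le_of_le' tendsto_const_nhds h1 ?_ ?_
  · filter_upwards [hm] with s hs
    exact H.J_nonneg hs.1.le hs.2.le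
  · filter_upwards [hm] with s hs
    exact hb s ⟨hs.1.le, hs.2.le⟩

theorem K_cont (H : Prf D) : ContinuousOn (K D) (Ico 0 1) := by
  obtain ⟨M, hM, hi, hb⟩ := H.K_bound
  have h1 : ContinuousOn (fun t => ∫ r in (0 : ℝ)..t, (D r)⁻¹ ^ 2) (Icc 0 1) := by
    have := continuousOn_primitive_interval' (a := 0) hi (by simp)
    rwa [uIcc_of_le zero_le_one] at this
  have h2 : EqOn (K D) (fun t => K D 0 - ∫ r in (0 : ℝ)..t, (D r)⁻¹ ^ 2) (Icc 0 1) := by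
    intro t ht
    have := H.K_sub le_rfl ht.1 ht.2
    simp only
    linarith
  exact ((continuousOn_const.sub h1).congr h2).mono Ico_subset_Icc_self

theorem J_dec (H : Prf D) {s t : ℝ} (hs : 0 ≤ s) (hst : s ≤ t) (ht : t < 1) :
    (D s)⁻¹ * (√(1 - s) - √(1 - t)) ≤ J D s - J D t := by
  obtain ⟨M, hM, hi, _⟩ := H.J_bound
  rw [H.J_sub hs hst ht.le]
  have hder : ∀ r ∈ uIcc s t, HasDerivAt (fun r => -√(1 - r)) ((2 * √(1 - r))⁻¹) r := by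
    intro r hr
    rw [uIcc_of_le hst] at hr
    have hr1 : 0 < 1 - r := by linarith [hr.2]
    have h1 : HasDerivAt (fun r : ℝ => 1 - r) (-1) r := by
      simpa using (hasDerivAt_id r).const_sub 1
    have h2 := (h1.sqrt hr1.ne').neg
    have e : -(-1 / (2 * √(1 - r))) = (2 * √(1 - r))⁻¹ := by
      rw [neg_div, neg_neg, one_div]
    rw [e] at h2
    exact h2
  have hcont : ContinuousOn (fun r : ℝ => (2 * √(1 - r))⁻¹) (uIcc s t) := by
    apply ContinuousOn.inv₀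
    · fun_prop
    · intro r hr
      rw [uIcc_of_le hst] at hr
      have := Real.sqrt_pos.2 (show 0 < 1 - r by linarith [hr.2])
      positivity
  have hint : IntervalIntegrable (fun r : ℝ => (2 * √(1 - r))⁻¹) volume s t :=
    hcont.intervalIntegrable
  have h1 : ∫ r in s..t, (2 * √(1 - r))⁻¹ = √(1 - s) - √(1 - t) := by
    rw [integral_eq_sub_of_hasDerivAt hder hint]; ring
  rw [← h1, ← intervalIntegral.integral_const_mul]
  refine integral_mono_on hst (hint.const_mul _) (sub_int hi hs hst ht.le) fun r hr => ?_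
  have h2 := H.inv_mono hs hr.1 (lt_of_le_of_lt hr.2 ht)
  gcongr

/-- **good times** -/
theorem good (H : Prf D) :
    ∃ᶠ s in 𝓝[<] (1 : ℝ), K D s ≤ 4 ^ 2 * (1 - s) * (D s)⁻¹ ^ 2 := by
  by_contra hcon
  rw [not_frequently] at hcon
  have hm : Ioo (0 : ℝ) 1 ∈ 𝓝[<] (1 : ℝ) := Ioo_mem_nhdsLT one_pos
  obtain ⟨l, hl, hl2⟩ := (mem_nhdsLT_iff_exists_Ioo_subset' (zero_lt_one)).1 (inter_mem hcon hm)
  have hl1 : l < 1 := hl
  obtain ⟨M, hM, hi, hb⟩ := H.K_bound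
  -- `s j = 1 - 2^-j`
  set s : ℕ → ℝ := fun j => 1 - (1 / 2) ^ j with hs
  have hs1 : ∀ j, s j < 1 := fun j => by simp only [hs]; have : (0:ℝ) < (1/2)^j := by positivity
                                         linarith
  obtain ⟨j0, hj0⟩ := exists_pow_lt_of_lt_one (show 0 < 1 - l by linarith)
    (show (1 / 2 : ℝ) < 1 by norm_num)
  have hlj : ∀ j, j0 ≤ j → l < s j := by
    intro j hj
    have : (1 / 2 : ℝ) ^ j ≤ (1 / 2) ^ j0 := pow_le_pow_of_le_one (by norm_num) (by norm_num) hj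
    simp only [hs]; linarith
  have hs0 : ∀ j, 0 ≤ s j := by
    intro j
    have : (1 / 2 : ℝ) ^ j ≤ 1 := pow_le_one₀ (by norm_num) (by norm_num)
    simp only [hs]; linarith
  have hstep : ∀ j, j0 ≤ j → K D (s j) ≤ 17 / 16 * K D (s (j + 1)) := by
    intro j hj
    have h0 : s j ≤ s (j + 1) := by
      simp only [hs]
      have : (1 / 2 : ℝ) ^ (j + 1) ≤ (1 / 2) ^ j :=
        pow_le_pow_of_le_one (by norm_num) (by norm_num) (Nat.le_succ j)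
      linarith
    have h1 := H.K_sub (hs0 j) h0 (hs1 _).le
    have h2 : ∫ r in s j..s (j + 1), (D r)⁻¹ ^ 2 ≤
        ∫ r in s j..s (j + 1), (D (s (j + 1)))⁻¹ ^ 2 := by
      refine integral_mono_on h0 (sub_int hi (hs0 j) h0 (hs1 _).le) (by simp) fun r hr => ?_
      have h3 := H.inv_mono ((hs0 j).trans hr.1) hr.2 (hs1 _)
      have h4 := (H.inv_pos' ((hs0 j).trans hr.1) (lt_of_le_of_lt hr.2 (hs1 _))).le
      gcongr
    have h3 : ∫ r in s j..s (j + 1), (D (s (j + 1)))⁻¹ ^ 2 =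
        (1 - s (j + 1)) * (D (s (j + 1)))⁻¹ ^ 2 := by
      rw [intervalIntegral.integral_const, smul_eq_mul]
      congr 1
      simp only [hs, pow_succ]; ring
    have h4 : ¬ K D (s (j + 1)) ≤ 4 ^ 2 * (1 - s (j + 1)) * (D (s (j + 1)))⁻¹ ^ 2 :=
      (hl2 ⟨hlj _ (hj.trans (Nat.le_succ j)), hs1 _⟩).1
    rw [not_le] at h4
    nlinarith
  have hiter : ∀ n, K D (s j0) ≤ (17 / 16) ^ n * K D (s (j0 + n)) := by
    intro n
    induction n with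
    | zero => simp
    | succ n ih =>
      refine ih.trans ?_
      have := hstep (j0 + n) (Nat.le_add_right _ _)
      calc (17 / 16) ^ n * K D (s (j0 + n)) ≤ (17 / 16) ^ n * (17 / 16 * K D (s (j0 + n + 1))) := by
            gcongr
        _ = (17 / 16) ^ (n + 1) * K D (s (j0 + (n + 1))) := by rw [pow_succ, add_assoc]; ring
  set ρ : ℝ := (1 / 2 : ℝ) ^ (1 / 5 : ℝ) with hρ
  have hρ0 : 0 < ρ := Real.rpow_pos_of_pos (by norm_num) _
  have hρ5 : ρ ^ 5 = 1 / 2 := by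
    rw [hρ, ← Real.rpow_natCast, ← Real.rpow_mul (by norm_num)]
    norm_num
  have hq : 17 / 16 * ρ < 1 := by
    by_contra h
    have h1 : 1 ≤ 17 / 16 * ρ := not_lt.1 h
    have h2 : (1 : ℝ) ≤ (17 / 16 * ρ) ^ 5 := one_le_pow₀ h1
    rw [mul_pow, hρ5] at h2
    norm_num at h2
  have hbound : ∀ n, K D (s j0) ≤ M * ρ ^ j0 * (17 / 16 * ρ) ^ n := by
    intro n
    have h1 := hb (s (j0 + n)) ⟨hs0 _, (hs1 _).le⟩
    have h2 : (1 - s (j0 + n)) ^ (1 / 5 : ℝ) = ρ ^ j0 * ρ ^ n := by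
      simp only [hs, sub_sub_cancel]
      rw [← pow_add, hρ, ← Real.rpow_natCast, ← Real.rpow_mul (by norm_num), mul_comm,
        Real.rpow_mul (by norm_num), Real.rpow_natCast]
    rw [h2] at h1
    calc K D (s j0) ≤ (17 / 16) ^ n * K D (s (j0 + n)) := hiter n
      _ ≤ (17 / 16) ^ n * (M * (ρ ^ j0 * ρ ^ n)) := by gcongr
      _ = _ := by rw [mul_pow]; ring
  have hlim : Tendsto (fun n : ℕ => M * ρ ^ j0 * (17 / 16 * ρ) ^ n) atTop (𝓝 0) := by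
    have := (tendsto_pow_atTop_nhds_zero_of_lt_one (r := 17 / 16 * ρ) (by positivity) hq).const_mul
      (M * ρ ^ j0)
    simpa using this
  have h1 : K D (s j0) ≤ 0 := ge_of_tendsto' hlim hbound
  exact absurd (H.K_pos (hs0 j0) (hs1 j0)) (not_lt.2 h1)

end Prf

/-- the log-limit of `TipOut` gives the lower bound -/
theorem low_of_log {D : ℝ → ℝ} {ν : ℝ} (hpos : ∀ t ∈ Ico (0 : ℝ) 1, 0 < D t)
    (h : Tendsto (fun t => Real.log (D t) / Real.log (1 - t)) (𝓝[<] 1) (𝓝 ν)) (hν : ν < 2 / 5) :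
    ∀ᶠ t in 𝓝[<] (1 : ℝ), (1 - t) ^ (2 / 5 : ℝ) ≤ D t := by
  have hm : Ioo (0 : ℝ) 1 ∈ 𝓝[<] (1 : ℝ) := Ioo_mem_nhdsLT one_pos
  filter_upwards [(tendsto_order.1 h).2 _ hν, hm] with t h1 ht
  have h2 : 0 < 1 - t := by linarith [ht.2]
  have h3 : Real.log (1 - t) < 0 := Real.log_neg h2 (by linarith [ht.1])
  have h4 : 2 / 5 * Real.log (1 - t) < Real.log (D t) := by
    rwa [div_lt_iff_of_neg h3] at h1
  have h5 := hpos t ⟨ht.1.le, ht.2⟩
  rw [Real.rpow_def_of_pos h2, ← Real.exp_log h5]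
  apply Real.exp_le_exp.2
  linarith [mul_comm (Real.log (1 - t)) (2 / 5)]

end Crest.Agent.R146.LevK_4
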