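import Crest.Agent.R146.LevC_4
import Crest.Agent.R146.LevD_4
import Crest.Agent.R146.LevK_4
import Crest.Agent.R146.JamAsm_576

/-!
Row 146 (task 58, helper4): (4c), (4d) of post 459 in the frame `Lev2_576.Model`, `JamAsm_576.LCP`.

`levels_cd`: at jamming (`c = 0`), from the sub-Gaussian bounds (EMh), (EMl) and `D t ≥ (1-t)^(2/5)`
near `1`: no atom of the force at `l > 0`, and strict complementarity.
-/

set_option autoImplicit false

namespace Crest.Agent.R146.LevE_4

open Set Filter Topology MeasureTheory ProbabilityTheory Crest.Agent.R146.Hilb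
  Crest.Agent.R146.Lev_576 Crest.Agent.R146.Lev2_576 Crest.Agent.R146.JamAsm_576
open Crest.Agent.R146.LevC_4 Crest.Agent.R146.LevD_4 Crest.Agent.R146.LevK_4
  Crest.Agent.R146.SubG_4
open Crest.ProbabilityR.Perceptron
open scoped RealInnerProductSpace NNReal ENNReal

section Hilbert

variable {H : Type*} [NormedAddCommGroup H] [InnerProductSpace ℝ H] [CompleteSpace H] (R : Res H)

/-- `Dop k` only sees the past of `t` on `P_t x` -/
theorem Dop_vanish {k : ℝ → ℝ} (hk : ContinuousOn k (Icc 0 1)) {t : ℝ} (ht : t ∈ Icc (0 : ℝ) 1)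
    (h0 : ∀ s ∈ Icc (0 : ℝ) 1, s ≤ t → k s = 0) (x : H) : R.Dop k (R.P t x) = 0 := by
  have e : R.Dop k = R.Dop (gT k t) := by
    apply R.Dop_congr
    intro s hs
    unfold gT
    rcases le_total s t with h | h
    · rw [max_eq_right h, h0 s hs h, h0 t ht le_rfl]
    · rw [max_eq_left h]
  rw [← P_Dop R hk, e, P_Dop_gT R hk ht, h0 t ht le_rfl, zero_smul]

theorem rel_norm {D : ℝ → ℝ} (hD : ContinuousOn D (Icc 0 1)) (ha : AntitoneOn D (Icc 0 1))
    {s t : ℝ} (hs : 0 ≤ s) (hst : s ≤ t) (ht : t ≤ 1) (x : H) :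
    ‖R.inc s t (R.Dop D x) - D s • R.inc s t x‖ ≤ (D s - D t) * ‖R.inc s t x‖ := by
  have htI : t ∈ Icc (0 : ℝ) 1 := ⟨hs.trans hst, ht⟩
  have hsI : s ∈ Icc (0 : ℝ) 1 := ⟨hs, hst.trans ht⟩
  set y := R.inc s t x with hy
  have hyt : R.P t y = y := by
    rw [hy, R.inc_apply, map_sub, R.idem, R.mul' hst]
  have hys : R.P s y = 0 := R.P_inc hst x
  set D1 : ℝ → ℝ := fun r => D (min r t) with hD1
  have hD1c : ContinuousOn D1 (Icc 0 1) := by
    refine hD.comp (by fun_prop) fun r hr => ?_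
    exact ⟨le_min hr.1 htI.1, min_le_of_left_le hr.2⟩
  have e1 : R.inc s t (R.Dop D x) = R.Dop D y := by
    rw [hy, R.inc_apply, R.inc_apply, P_Dop R hD, P_Dop R hD, map_sub]
  have e2 : R.Dop D y = R.Dop D1 y := by
    have h1 := Dop_vanish R (k := fun r => D r - D1 r) (hD.sub hD1c) htI (fun r _ hr => by
      simp only [hD1, min_eq_left hr, sub_self]) y
    have h2 : R.Dop (fun r => D r - D1 r) = R.Dop D - R.Dop D1 := R.Dop_sub hD hD1c
    rw [hyt, h2] at h1
    exact sub_eq_zero.1 h1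
  have e3 : R.Dop D1 y - D s • y = R.Dop (fun r => D1 r - D s) y := by
    have h2 : R.Dop (fun r => D1 r - D s) = R.Dop D1 - R.Dop (fun _ => D s) :=
      R.Dop_sub hD1c continuousOn_const
    rw [h2, sub_apply, R.Dop_const]
  rw [e1, e2, e3]
  refine norm_Dop_high R (hD1c.sub continuousOn_const) hs (sub_nonneg.2 (ha hsI htI hst)) ?_ hys
  intro r hr hsr
  change |D (min r t) - D s| ≤ D s - D t
  have h1 : D t ≤ D (min r t) :=
    ha ⟨le_min hr.1 htI.1, min_le_of_left_le hr.2⟩ htI (min_le_right _ _)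
  have h2 : D (min r t) ≤ D s :=
    ha hsI ⟨le_min hr.1 htI.1, min_le_of_left_le hr.2⟩ (le_min hsr hst)
  rw [abs_le]; constructor <;> linarith

end Hilbert

section Brown

variable {Ω : Type*} {mΩ : MeasurableSpace Ω} {P : Measure Ω} {B : ℝ≥0 → Ω → ℝ}
  (hBm : ∀ t, Measurable (B t))

/-- real-time filtration -/
noncomputable abbrev Fl (t : ℝ) : MeasurableSpace Ω := brownianFiltration B hBm t.toNNReal

theorem indep_incr (hB : IsPreBrownianReal B P) {s t : ℝ≥0} (hst : s ≤ t) :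
    Indep (brownianFiltration B hBm s)
      (MeasurableSpace.comap (fun ω => B t ω - B s ω) inferInstance) P := by
  have h := (hB.indepFun_shift s).symm
  rw [IndepFun_iff_Indep] at h
  refine indep_of_indep_of_le_left (indep_of_indep_of_le_right h ?_) (past_le hBm s)
  rw [← measurable_iff_comap_le]
  have h1 : Measurable[MeasurableSpace.comap (fun ω r => B (s + r) ω - B s ω) inferInstance]
      (fun ω (r : ℝ≥0) => B (s + r) ω - B s ω) := comap_measurable _
  have h2 := (measurable_pi_apply (t - s : ℝ≥0)).comp h1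
  have h3 : ((fun b : ℝ≥0 → ℝ => b (t - s)) ∘ fun ω (r : ℝ≥0) => B (s + r) ω - B s ω) =
      fun ω => B t ω - B s ω := by
    funext ω
    simp only [Function.comp]
    rw [add_tsub_cancel_of_le hst]
  rw [h3] at h2
  exact h2

theorem law_incr' (hB : IsPreBrownianReal B P) {s t : ℝ≥0} (hst : s ≤ t) :
    P.map (fun ω => B t ω - B s ω) = gaussianReal 0 (t - s) := by
  have h := (hB.hasLaw_sub t s).map_eq
  have h2 : nndist (t : ℝ≥0).1 s.1 = t - s := by
    rw [← NNReal.coe_inj, coe_nndist, Real.dist_eq, NNReal.coe_sub hst]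
    have h4 : (s.1 : ℝ) ≤ t.1 := hst
    rw [abs_of_nonneg (sub_nonneg.2 h4)]; rfl
  rw [h2] at h
  exact h

theorem bm_of_brown [IsProbabilityMeasure P] (hB : IsPreBrownianReal B P) :
    BM P (Fl hBm) (fun t => B t.toNNReal) where
  mono s t _ hst _ := (brownianFiltration B hBm).mono (Real.toNNReal_le_toNNReal hst)
  le t _ _ := (brownianFiltration B hBm).le _
  adapted t _ _ :=
    (Filtration.stronglyAdapted_natural (fun t => (hBm t).stronglyMeasurable) _).measurable
  incr s t hs hst _ := by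
    have h1 : s.toNNReal ≤ t.toNNReal := Real.toNNReal_le_toNNReal hst
    have h2 : (t - s).toNNReal = t.toNNReal - s.toNNReal := by
      rw [← NNReal.coe_inj, Real.coe_toNNReal _ (sub_nonneg.2 hst), NNReal.coe_sub h1,
        Real.coe_toNNReal _ (hs.trans hst), Real.coe_toNNReal _ hs]
    rw [h2]
    exact IG.of_indep ((hBm _).sub (hBm _)) (law_incr' hB h1) (indep_incr hBm hB h1)

end Brown

section Frame

variable {H : Type*} [NormedAddCommGroup H] [InnerProductSpace ℝ H] [CompleteSpace H] {R : Res H}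
  {Ω : Type*} {mΩ : MeasurableSpace Ω} {P : Measure Ω} {B : ℝ≥0 → Ω → ℝ}
  {hBm : ∀ t, Measurable (B t)} {M : Model R P B hBm} {ξ : H} {D : ℝ → ℝ} {x : H}

omit [CompleteSpace H] in
/-- `P_t ξ = κ + B_t` -/
theorem cond_xi [IsProbabilityMeasure P] (M : Model R P B hBm) (hB : IsPreBrownianReal B P) {κ : ℝ}
    (hξ : M.J ξ =ᵐ[P] fun ω => κ + B 1 ω) {t : ℝ} (ht : t ∈ Icc (0 : ℝ) 1) :
    M.J (R.P t ξ) =ᵐ[P] fun ω => κ + B t.toNNReal ω := by
  have hbm := bm_of_brown hBm hB
  have ht1 : t.toNNReal ≤ 1 := by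
    rw [← Real.toNNReal_one]; exact Real.toNNReal_le_toNNReal ht.2
  set u := t.toNNReal with hu
  have hle : brownianFiltration B hBm u ≤ mΩ := (brownianFiltration B hBm).le u
  have hZm : Measurable fun ω => B 1 ω - B u ω := (hBm 1).sub (hBm u)
  obtain ⟨hZ2, hZ0, hZs⟩ := gauss_sq (P := P) hZm (law_incr' hB ht1)
  have hEZ : P[fun ω => B 1 ω - B u ω | brownianFiltration B hBm u] =ᵐ[P] fun _ => 0 := by
    have := condExp_indep_eq (μ := P) (f := fun ω => B 1 ω - B u ω) hZm.comap_le hle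
      (comap_measurable _).stronglyMeasurable (indep_incr hBm hB ht1).symm
    rw [hZ0] at this
    exact this
  have hBu : StronglyMeasurable[brownianFiltration B hBm u] (fun ω => κ + B u ω) :=
    ((Filtration.stronglyAdapted_natural (fun t => (hBm t).stronglyMeasurable) u).measurable.const_add
      κ).stronglyMeasurable
  have hZi : Integrable (fun ω => B 1 ω - B u ω) P := hZ2.integrable (by norm_num)
  have hξi : Integrable (M.J ξ) P := (M.memLp ξ).integrable (by norm_num)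
  have hBi : Integrable (fun ω => κ + B u ω) P := by
    have h1 : Integrable (fun ω => (κ + B 1 ω) - (B 1 ω - B u ω)) P :=
      ((integrable_congr hξ).1 hξi).sub hZi
    refine (integrable_congr (ae_of_all _ fun ω => ?_)).1 h1
    ring
  have e1 : P[M.J ξ | brownianFiltration B hBm u] =ᵐ[P]
      P[fun ω => (κ + B u ω) + (B 1 ω - B u ω) | brownianFiltration B hBm u] := by
    apply condExp_congr_ae
    filter_upwards [hξ] with ω h
    rw [h]; ring
  have e2 : P[fun ω => (κ + B u ω) + (B 1 ω - B u ω) | brownianFiltration B hBm u] =ᵐ[P]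
      P[fun ω => κ + B u ω | brownianFiltration B hBm u] +
        P[fun ω => B 1 ω - B u ω | brownianFiltration B hBm u] := condExp_add hBi hZi _
  have e3 : P[fun ω => κ + B u ω | brownianFiltration B hBm u] = fun ω => κ + B u ω :=
    condExp_of_stronglyMeasurable hle hBu hBi
  filter_upwards [M.cond t ht ξ, e1, e2, hEZ] with ω h1 h2 h3 h4
  rw [h1, h2, h3, Pi.add_apply, e3, h4, add_zero]

omit [CompleteSpace H] in
/-- `J (inc s t z) = E_t z - E_s z` -/
theorem J_inc (M : Model R P B hBm) {s t : ℝ} (hs : s ∈ Icc (0 : ℝ) 1) (ht : t ∈ Icc (0 : ℝ) 1)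
    (z : H) : M.J (R.inc s t z) =ᵐ[P] fun ω =>
      (P[M.J z | Fl hBm t]) ω - (P[M.J z | Fl hBm s]) ω := by
  have h1 := M.sub (R.P t z) (R.P s z)
  filter_upwards [h1, M.cond t ht z, M.cond s hs z] with ω h1 h2 h3
  rw [R.inc_apply, h1, h2, h3]

/-- (POS) -/
theorem pos_frame [IsProbabilityMeasure P] (hB : IsPreBrownianReal B P) {κ : ℝ}
    (hξ : M.J ξ =ᵐ[P] fun ω => κ + B 1 ω) (L : LCP M ξ 0 D x) (hD1 : 0 ≤ D 1) {s : ℝ}
    (hs : s ∈ Icc (0 : ℝ) 1) : ∀ᵐ ω ∂P,
      ((P[M.J (ξ + R.Dop D x) | Fl hBm s]) ω - D s * (P[M.J x | Fl hBm s]) ω) +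
        (B 1 ω - B s.toNNReal ω) ≤ M.J (ξ + R.Dop D x) ω := by
  set T := R.Dop (gT D s) x with hT
  have h1I : (1 : ℝ) ∈ Icc (0 : ℝ) 1 := ⟨zero_le_one, le_rfl⟩
  -- `T ≥ 0`
  have hTpos : 0 ≤ᵐ[P] M.J T := by
    have hmem := Dop_mem_cone R (K := {z : H | 0 ≤ᵐ[P] M.J z}) (gT_cont L.cont hs) (x := x)
      (by
        intro a ha b hb hab
        exact L.anti ⟨le_max_of_le_left ha.1, max_le ha.2 hs.2⟩
          ⟨le_max_of_le_left hb.1, max_le hb.2 hs.2⟩ (max_le_max_right s hab))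
      (by unfold gT; rw [max_eq_left hs.2]; exact hD1)
      (Model.isClosed_nonneg M) ?_ ?_ ?_ ?_ L.x_nonneg
    · exact hmem
    · have h0 : M.J (0 : H) =ᵐ[P] fun _ => 0 := by
        have := M.smul 0 (0 : H)
        rw [zero_smul] at this
        filter_upwards [this] with ω h
        rw [h, zero_mul]
      filter_upwards [h0] with ω h
      rw [h]; exact le_rfl
    · intro a ha b hb
      change 0 ≤ᵐ[P] M.J (a + b)
      filter_upwards [M.add a b, ha, hb] with ω h1 h2 h3
      rw [h1]; exact add_nonneg h2 h3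
    · intro c hc a ha
      change 0 ≤ᵐ[P] M.J (c • a)
      filter_upwards [M.smul c a, ha] with ω h1 h2
      rw [h1]; exact mul_nonneg hc h2
    · intro t ht z hz
      have h1 : 0 ≤ᵐ[P] P[M.J z | brownianFiltration B hBm t.toNNReal] := condExp_nonneg hz
      filter_upwards [M.cond t ht z, h1] with ω h2 h3
      rw [h2]; exact h3
  -- `h - P_s h - (ξ - P_s ξ) + D s P_s x = T`
  have hlow := P_Dop_low R L.cont hs x
  have hgT := P_Dop_gT R L.cont hs x
  have e1 : (ξ + R.Dop D x) - R.P s (ξ + R.Dop D x) - (ξ - R.P s ξ) + D s • R.P s x = T := by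
    rw [map_sub, hgT] at hlow
    rw [map_add, hT]
    have : R.P s (R.Dop D x) = R.Dop D x - R.Dop (gT D s) x + D s • R.P s x := by
      rw [← hlow]; abel
    rw [this]; abel
  have j1 := M.sub (ξ + R.Dop D x) (R.P s (ξ + R.Dop D x))
  have j2 := M.sub ξ (R.P s ξ)
  have j3 := M.sub ((ξ + R.Dop D x) - R.P s (ξ + R.Dop D x)) (ξ - R.P s ξ)
  have j4 := M.add ((ξ + R.Dop D x) - R.P s (ξ + R.Dop D x) - (ξ - R.P s ξ)) (D s • R.P s x)
  have j5 := M.smul (D s) (R.P s x)
  rw [e1] at j4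
  filter_upwards [j1, j2, j3, j4, j5, hTpos, hξ, cond_xi M hB hξ hs,
    M.cond s hs (ξ + R.Dop D x), M.cond s hs x] with ω j1 j2 j3 j4 j5 h6 h7 h8 h9 h10
  have h6 : 0 ≤ M.J T ω := h6
  rw [j4, j3, j1, j2, j5, h7, h8, h9, h10] at h6
  linarith

/-- **(4c), (4d)** in the frame. -/
theorem levels_cd [IsProbabilityMeasure P] (hB : IsPreBrownianReal B P) {κ : ℝ}
    (hξ : M.J ξ =ᵐ[P] fun ω => κ + B 1 ω) (L : LCP M ξ 0 D x) (hpos : ∀ t ∈ Ico (0 : ℝ) 1, 0 < D t)
    (hD1 : 0 ≤ D 1) (hlow : ∀ᶠ t in 𝓝[<] (1 : ℝ), (1 - t) ^ (2 / 5 : ℝ) ≤ D t)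
    (EMh : ∀ s ∈ Ico (0 : ℝ) 1, SubG P (Fl hBm s)
      (fun ω => M.J (ξ + R.Dop D x) ω - (P[M.J (ξ + R.Dop D x) | Fl hBm s]) ω) (1 - s))
    (EMl : ∀ s ∈ Ico (0 : ℝ) 1, SubG P (Fl hBm s)
      (fun ω => M.J x ω - (P[M.J x | Fl hBm s]) ω) (K D s))
    (EMl2 : ∀ s t, 0 ≤ s → s ≤ t → t < 1 → ‖R.inc s t x‖ ^ 2 ≤ K D s - K D t) :
    (∀ l : ℝ, 0 < l → P {ω | M.J x ω = l} = 0) ∧
      P {ω | M.J (ξ + R.Dop D x) ω = 0 ∧ M.J x ω = 0} = 0 := by
  have hPrf : Prf D := ⟨L.cont, L.anti, hpos, hlow⟩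
  set h : H := ξ + R.Dop D x with hh
  have hc0 : ξ + R.Dop D x + (0 : ℝ) • x = h := by rw [zero_smul, add_zero]
  have h2 : MemLp (M.J h) 2 P := M.memLp _
  have l2 : MemLp (M.J x) 2 P := M.memLp _
  have hcomp : ∀ᵐ ω ∂P, M.J h ω * M.J x ω = 0 := by
    have := L.ae
    rwa [hc0] at this
  have hh0 : 0 ≤ᵐ[P] M.J h := by
    have := L.h_nonneg
    rwa [hc0] at this
  have hFle : ∀ s, Fl hBm s ≤ mΩ := fun s => (brownianFiltration B hBm).le _
  have hmh : ∀ s, AEMeasurable (fun ω => M.J h ω - (P[M.J h | Fl hBm s]) ω) P := fun s =>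
    h2.1.aemeasurable.sub
      ((stronglyMeasurable_condExp.measurable.mono (hFle s) le_rfl).aemeasurable)
  have hml : ∀ s, AEMeasurable (fun ω => M.J x ω - (P[M.J x | Fl hBm s]) ω) P := fun s =>
    l2.1.aemeasurable.sub
      ((stronglyMeasurable_condExp.measurable.mono (hFle s) le_rfl).aemeasurable)
  have HF : Force P (Fl hBm) (fun t => B t.toNNReal) (M.J h) (M.J x) (fun t => (D t)⁻¹) (K D)
      (J D) :=
    { bm := bm_of_brown hBm hB
      h2 := h2
      l2 := l2
      h0 := hh0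
      l0 := L.x_nonneg
      comp := hcomp
      Epos := fun s hs hs1 => hPrf.inv_pos' hs hs1
      Emono := fun s t hs hst ht => hPrf.inv_mono hs hst ht
      Kcont := hPrf.K_cont
      Klim := hPrf.K_lim
      Kdec := fun s t hs hst ht => hPrf.K_dec hs hst ht
      J0 := fun s hs hs1 => hPrf.J_nonneg hs hs1.le
      Jlim := hPrf.J_lim
      Jdec := fun s t hs hst ht => hPrf.J_dec hs hst ht
      varl1 := fun s hs hs1 => by
        have := (EMl s ⟨hs, hs1⟩).var_real (hml s) (hPrf.K_nonneg hs hs1.le) (C := Set.univ)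
          MeasurableSet.univ
        rwa [setIntegral_univ, probReal_univ, mul_one] at this
      varh1 := fun s hs hs1 => by
        have := (EMh s ⟨hs, hs1⟩).var_real (hmh s) (sub_pos.2 hs1).le (C := Set.univ)
          MeasurableSet.univ
        rwa [setIntegral_univ, probReal_univ, mul_one] at this
      rel := fun s t hs hst ht => by
        have hsI : s ∈ Icc (0 : ℝ) 1 := ⟨hs, hst.trans ht.le⟩
        have htI : t ∈ Icc (0 : ℝ) 1 := ⟨hs.trans hst, ht.le⟩
        have hDs : 0 < D s := hpos s ⟨hs, lt_of_le_of_lt hst ht⟩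
        have hDt : 0 < D t := hpos t ⟨hs.trans hst, ht⟩
        -- vector
        set z : H := -(D s)⁻¹ • (R.inc s t (R.Dop D x) - D s • R.inc s t x) with hz
        have e1 : (fun ω => |((P[M.J x | Fl hBm t]) ω - (P[M.J x | Fl hBm s]) ω) -
            (D s)⁻¹ * (((P[M.J h | Fl hBm t]) ω - (P[M.J h | Fl hBm s]) ω) -
              (B t.toNNReal ω - B s.toNNReal ω))|) =ᵐ[P] fun ω => |M.J z ω| := by
          have j1 := J_inc M hsI htI x
          have j2 := J_inc M hsI htI h
          have j3 := M.smul (-(D s)⁻¹) (R.inc s t (R.Dop D x) - D s • R.inc s t x)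
          have j4 := M.sub (R.inc s t (R.Dop D x)) (D s • R.inc s t x)
          have j5 := M.smul (D s) (R.inc s t x)
          have j6 : M.J (R.inc s t h) =ᵐ[P] fun ω =>
              M.J (R.inc s t ξ) ω + M.J (R.inc s t (R.Dop D x)) ω := by
            rw [hh, map_add]; exact M.add _ _
          have j7 := M.sub (R.P t ξ) (R.P s ξ)
          filter_upwards [j1, j2, j3, j4, j5, j6, j7, cond_xi M hB hξ hsI, cond_xi M hB hξ htI]
            with ω j1 j2 j3 j4 j5 j6 j7 j8 j9
          have j7' : M.J (R.inc s t ξ) ω = B t.toNNReal ω - B s.toNNReal ω := by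
            rw [R.inc_apply, j7, j8, j9]; ring
          rw [← j1, ← j2, hz, j3, j4, j5, j6, j7']
          congr 1
          field_simp
          ring
        rw [integral_congr_ae e1]
        refine (int_abs_le M z).trans ?_
        rw [hz, norm_smul, norm_neg, Real.norm_of_nonneg (inv_pos.2 hDs).le]
        have h3 := rel_norm R L.cont L.anti hs hst ht.le x
        have h4 : ‖R.inc s t x‖ ≤ √(K D s - K D t) := by
          apply Real.le_sqrt_of_sq_le
          exact EMl2 s t hs hst ht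
        have h5 : 0 ≤ D s - D t := sub_nonneg.2 (L.anti hsI htI hst)
        calc (D s)⁻¹ * ‖R.inc s t (R.Dop D x) - D s • R.inc s t x‖
            ≤ (D s)⁻¹ * ((D s - D t) * √(K D s - K D t)) := by
              have := (inv_pos.2 hDs).le
              gcongr
              exact h3.trans (by gcongr)
          _ = (1 - (D s)⁻¹ / (D t)⁻¹) * √(K D s - K D t) := by
              field_simp }
  have HS : Strict P (Fl hBm) (fun t => B t.toNNReal) (M.J h) (M.J x) (fun t => (D t)⁻¹)
      (K D) :=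
    { bm := bm_of_brown hBm hB
      h2 := h2
      l2 := l2
      h0 := hh0
      l0 := L.x_nonneg
      Epos := fun s hs hs1 => hPrf.inv_pos' hs hs1
      Kpos := fun s hs hs1 => hPrf.K_pos hs hs1
      Klim := hPrf.K_lim
      sgh := fun s hs hs1 => EMh s ⟨hs, hs1⟩
      sgl := fun s hs hs1 => EMl s ⟨hs, hs1⟩
      pos := fun s hs hs1 => by
        have := pos_frame hB hξ L hD1 (s := s) ⟨hs, hs1.le⟩
        filter_upwards [this] with ω hω
        rw [inv_inv]
        have h1 : B ((1 : ℝ).toNNReal) ω = B 1 ω := by rw [Real.toNNReal_one]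
        rw [h1]
        exact hω }
  exact ⟨fun l hl => HF.no_atom_force (C := 4) (by norm_num) hPrf.good hl,
    HS.strict_comp (C := 4) (by norm_num) hPrf.good⟩

end Frame

end Crest.Agent.R146.LevE_4
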