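import Mathlib
import Crest.Agent.R146.SnapA_778

/-!
# Snapshot estimates (helper778), exponents package of row 146

`Snap F P h l H Λ D τ κ c0 C`: at one time `t` (`τ = 1 - t`), `F = F_t`, `H = E_t h`, `Λ = E_t λ`,
`D = D(t)`, `κ² = ∫_t^1 1/D²`, charge `E H Λ = c0 τ`, second moments `≤ C`.

* `G_up`  : upper bound for `P (u/2 < h ≤ u)`, `u = √τ / L`;
* `F_up`  : upper bound for `P (s/2 < λ ≤ s)`, `s ≤ κ / L`;
* `G_low`, `F_low` : lower bounds for `P (0 < h ≤ M² √τ)`, `P (0 < λ ≤ M² κ)`.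
-/

set_option autoImplicit false

open MeasureTheory ProbabilityTheory Real
open scoped ENNReal

namespace Crest.Agent.R146.Snap_778
open Gauss_778

structure Snap {Ω : Type*} (F : MeasurableSpace Ω) [m0 : MeasurableSpace Ω] (P : Measure Ω)
    (h l H Λ : Ω → ℝ) (D τ κ c0 C : ℝ) : Prop where
  prob : IsProbabilityMeasure P
  hF : F ≤ m0
  mh : Measurable h
  ml : Measurable l
  h0 : ∀ᵐ ω ∂P, 0 ≤ h ω
  l0 : ∀ᵐ ω ∂P, 0 ≤ l ω
  hl : ∀ᵐ ω ∂P, h ω * l ω = 0
  mH : Measurable[F] H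
  mL : Measurable[F] Λ
  H0 : ∀ᵐ ω ∂P, 0 ≤ H ω
  L0 : ∀ᵐ ω ∂P, 0 ≤ Λ ω
  iH : ∀ A, MeasurableSet[F] A →
    ∫⁻ ω in A, ENNReal.ofReal (h ω) ∂P = ∫⁻ ω in A, ENNReal.ofReal (H ω) ∂P
  iL : ∀ A, MeasurableSet[F] A →
    ∫⁻ ω in A, ENNReal.ofReal (l ω) ∂P = ∫⁻ ω in A, ENNReal.ofReal (Λ ω) ∂P
  bh : ∫⁻ ω, ENNReal.ofReal (h ω) ^ 2 ∂P ≤ ENNReal.ofReal C
  bl : ∫⁻ ω, ENNReal.ofReal (l ω) ^ 2 ∂P ≤ ENNReal.ofReal C
  bH : ∫⁻ ω, ENNReal.ofReal (H ω) ^ 2 ∂P ≤ ENNReal.ofReal C
  bL : ∫⁻ ω, ENNReal.ofReal (Λ ω) ^ 2 ∂P ≤ ENNReal.ofReal C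
  sh : ∀ (θ : ℝ) A, MeasurableSet[F] A →
    ∫⁻ ω in A, ENNReal.ofReal (exp (θ * (h ω - H ω))) ∂P ≤
      ENNReal.ofReal (exp (θ ^ 2 * τ / 2)) * P A
  sl : ∀ (θ : ℝ) A, MeasurableSet[F] A →
    ∫⁻ ω in A, ENNReal.ofReal (exp (θ * (l ω - Λ ω))) ∂P ≤
      ENNReal.ofReal (exp (θ ^ 2 * κ ^ 2 / 2)) * P A
  s1 : ∀ᵐ ω ∂P, phi τ (H ω - D * Λ ω) ≤ H ω
  charge : ∫⁻ ω, ENNReal.ofReal (H ω) * ENNReal.ofReal (Λ ω) ∂P = ENNReal.ofReal (c0 * τ)
  D0 : 0 < D
  τ0 : 0 < τ
  κ0 : 0 < κ
  c00 : 0 < c0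
  C0 : 0 ≤ C

lemma div_help {A : ℝ≥0∞} {x b : ℝ} (hx : 0 < x)
    (h : ENNReal.ofReal x * A ≤ ENNReal.ofReal b) : A ≤ ENNReal.ofReal (b / x) := by
  have h1 : A = ENNReal.ofReal (1 / x) * (ENNReal.ofReal x * A) := by
    rw [← mul_assoc, ← ENNReal.ofReal_mul (by positivity), one_div_mul_cancel hx.ne']
    simp
  rw [h1]
  refine (mul_le_mul_right h _).trans (le_of_eq ?_)
  rw [← ENNReal.ofReal_mul (by positivity)]
  congr 1; ring

section
variable {Ω : Type*} {F : MeasurableSpace Ω} [m0 : MeasurableSpace Ω] {P : Measure Ω}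
  {h l H Λ : Ω → ℝ} {D τ κ c0 C : ℝ}

/-- the free field `X = H - D Λ` -/
abbrev XX (H Λ : Ω → ℝ) (D : ℝ) (ω : Ω) : ℝ := H ω - D * Λ ω

lemma Snap.mX (S : Snap F P h l H Λ D τ κ c0 C) : Measurable[F] (XX H Λ D) :=
  S.mH.sub (S.mL.const_mul D)

lemma Snap.mH' (S : Snap F P h l H Λ D τ κ c0 C) : Measurable H := S.mH.mono S.hF le_rfl
lemma Snap.mL' (S : Snap F P h l H Λ D τ κ c0 C) : Measurable Λ := S.mL.mono S.hF le_rfl
lemma Snap.mX' (S : Snap F P h l H Λ D τ κ c0 C) : Measurable (XX H Λ D) := S.mX.mono S.hF le_rfl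

/-- weights for `h` -/
lemma Snap.wh (S : Snap F P h l H Λ D τ κ c0 C) {Y : Ω → ℝ≥0∞} (hY : Measurable[F] Y) :
    ∫⁻ ω, Y ω * ENNReal.ofReal (h ω) ∂P = ∫⁻ ω, Y ω * ENNReal.ofReal (H ω) ∂P :=
  wt S.hF S.mh.ennreal_ofReal.aemeasurable S.mH'.ennreal_ofReal.aemeasurable S.iH hY

lemma Snap.wl (S : Snap F P h l H Λ D τ κ c0 C) {Y : Ω → ℝ≥0∞} (hY : Measurable[F] Y) :
    ∫⁻ ω, Y ω * ENNReal.ofReal (l ω) ∂P = ∫⁻ ω, Y ω * ENNReal.ofReal (Λ ω) ∂P :=
  wt S.hF S.ml.ennreal_ofReal.aemeasurable S.mL'.ennreal_ofReal.aemeasurable S.iL hY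

/-- `E [Λ ; X ≥ 0] ≤ c0 √τ / c1` -/
lemma Snap.L4 (S : Snap F P h l H Λ D τ κ c0 C) :
    ∫⁻ ω in {ω | 0 ≤ XX H Λ D ω}, ENNReal.ofReal (Λ ω) ∂P ≤ ENNReal.ofReal (c0 * √τ / c1) := by
  have hτ : 0 < √τ := sqrt_pos.2 S.τ0
  have hx : 0 < √τ * c1 := mul_pos hτ c1_pos
  have hA : MeasurableSet {ω | 0 ≤ XX H Λ D ω} := measurableSet_le measurable_const S.mX'
  have h1 : ENNReal.ofReal (√τ * c1) * ∫⁻ ω in {ω | 0 ≤ XX H Λ D ω}, ENNReal.ofReal (Λ ω) ∂P ≤
      ENNReal.ofReal (c0 * τ) := by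
    rw [← lintegral_const_mul' _ _ ENNReal.ofReal_ne_top, ← S.charge]
    refine le_trans ?_ (setLIntegral_le_lintegral {ω | 0 ≤ XX H Λ D ω} _)
    refine lintegral_mono_ae ?_
    filter_upwards [ae_restrict_mem hA, ae_restrict_of_ae S.s1] with ω h2 h3
    refine mul_le_mul_left ?_ _
    exact ENNReal.ofReal_le_ofReal ((phi_ge τ _ h2).trans h3)
  refine (div_help hx h1).trans (le_of_eq ?_)
  congr 1
  have : τ = √τ * √τ := (mul_self_sqrt S.τ0.le).symm
  have hc1 := c1_pos
  field_simp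
  rw [sq_sqrt S.τ0.le]

/-- `E [H ; X ≤ 0] ≤ c0 D √τ / c1` -/
lemma Snap.L5 (S : Snap F P h l H Λ D τ κ c0 C) :
    ∫⁻ ω in {ω | XX H Λ D ω ≤ 0}, ENNReal.ofReal (H ω) ∂P ≤ ENNReal.ofReal (c0 * D * √τ / c1) := by
  have hτ : 0 < √τ := sqrt_pos.2 S.τ0
  have hD := S.D0
  have hc1 := c1_pos
  have hx : 0 < √τ * c1 / D := by positivity
  have hA : MeasurableSet {ω | XX H Λ D ω ≤ 0} := measurableSet_le S.mX' measurable_const
  have h1 : ENNReal.ofReal (√τ * c1 / D) * ∫⁻ ω in {ω | XX H Λ D ω ≤ 0}, ENNReal.ofReal (H ω) ∂P ≤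
      ENNReal.ofReal (c0 * τ) := by
    rw [← lintegral_const_mul' _ _ ENNReal.ofReal_ne_top, ← S.charge]
    refine le_trans ?_ (setLIntegral_le_lintegral {ω | XX H Λ D ω ≤ 0} _)
    refine lintegral_mono_ae ?_
    filter_upwards [ae_restrict_mem hA, ae_restrict_of_ae S.s1] with ω h2 h3
    rw [mul_comm]
    refine mul_le_mul_right ?_ _
    apply ENNReal.ofReal_le_ofReal
    have h4 := psi_ge τ _ h2
    rw [div_le_iff₀ hD]
    have h5 : XX H Λ D ω = H ω - D * Λ ω := rfl
    rw [h5] at h4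
    linarith
  refine (div_help hx h1).trans (le_of_eq ?_)
  congr 1
  field_simp
  rw [sq_sqrt S.τ0.le]

lemma Snap.HX (S : Snap F P h l H Λ D τ κ c0 C) : ∀ᵐ ω ∂P, XX H Λ D ω ≤ H ω := by
  filter_upwards [S.L0] with ω h1
  show H ω - D * Λ ω ≤ H ω
  nlinarith [mul_nonneg S.D0.le h1]

/-- dyadic upper bound for the gap law -/
lemma Snap.G_up (S : Snap F P h l H Λ D τ κ c0 C) {L : ℝ} (hL : 1 ≤ L) :
    P {ω | √τ / L / 2 < h ω ∧ h ω ≤ √τ / L} ≤ ENNReal.ofReal (2 * L * D * c0 / c1) +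
      ENNReal.ofReal (exp 1 * (1 + L) ^ 2 * D * c0 / (c1 * c2)) +
      ENNReal.ofReal (exp (1 - L ^ 2 / 2)) := by
  have hτ := S.τ0
  have hs : 0 < √τ := sqrt_pos.2 S.τ0
  have hss : √τ * √τ = τ := mul_self_sqrt hτ.le
  have hD := S.D0
  have hc0 := S.c00
  have hc1 := c1_pos
  have hc2 := c2_pos
  have hL0 : 0 < L := by linarith
  set u : ℝ := √τ / L with hu
  have hu0 : 0 < u := by positivity
  set E : Set Ω := {ω | u / 2 < h ω ∧ h ω ≤ u} with hE
  have mE : MeasurableSet E :=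
    (measurableSet_lt measurable_const S.mh).inter (measurableSet_le S.mh measurable_const)
  set A1 : Set Ω := {ω | XX H Λ D ω ≤ 0} with hA1
  set A2 : Set Ω := {ω | 0 < XX H Λ D ω ∧ XX H Λ D ω ≤ L * √τ} with hA2
  set A3 : Set Ω := {ω | L * √τ < XX H Λ D ω} with hA3
  have fA1 : MeasurableSet[F] A1 := by
    have := S.mX (measurableSet_Iic (a := (0 : ℝ))); exact this
  have fA2 : MeasurableSet[F] A2 := by
    have := S.mX (measurableSet_Ioc (a := (0 : ℝ)) (b := L * √τ)); exact this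
  have fA3 : MeasurableSet[F] A3 := by
    have := S.mX (measurableSet_Ioi (a := L * √τ)); exact this
  have mA1 := S.hF _ fA1
  have mA2 := S.hF _ fA2
  have mA3 := S.hF _ fA3
  have hsub : E ⊆ (E ∩ A1) ∪ (E ∩ A2) ∪ (E ∩ A3) := by
    intro ω hω
    rcases le_or_gt (XX H Λ D ω) 0 with h1 | h1
    · exact Or.inl (Or.inl ⟨hω, h1⟩)
    · rcases le_or_gt (XX H Λ D ω) (L * √τ) with h2 | h2
      · exact Or.inl (Or.inr ⟨hω, h1, h2⟩)
      · exact Or.inr ⟨hω, h2⟩
  refine (measure_mono hsub).trans ?_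
  refine (measure_union_le _ _).trans (add_le_add ((measure_union_le _ _).trans
    (add_le_add ?_ ?_)) ?_)
  · -- on X ≤ 0
    have h1 : P (E ∩ A1) ≤ ENNReal.ofReal (2 / u) * ∫⁻ ω in A1, ENNReal.ofReal (h ω) ∂P := by
      rw [← lintegral_indicator_one (mE.inter mA1), ← lintegral_const_mul' _ _ ENNReal.ofReal_ne_top,
        ← lintegral_indicator mA1]
      refine lintegral_mono fun ω => ?_
      by_cases hω : ω ∈ E ∩ A1
      · rw [Set.indicator_of_mem hω, Set.indicator_of_mem hω.2,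
          ← ENNReal.ofReal_mul (by positivity)]
        simp only [Pi.one_apply]
        rw [← ENNReal.ofReal_one]
        apply ENNReal.ofReal_le_ofReal
        have h2 : u / 2 < h ω := hω.1.1
        rw [div_mul_eq_mul_div, le_div_iff₀ hu0]; linarith
      · rw [Set.indicator_of_notMem hω]; exact bot_le
    refine h1.trans ?_
    rw [S.iH A1 fA1]
    refine (mul_le_mul_right S.L5 _).trans (le_of_eq ?_)
    rw [← ENNReal.ofReal_mul (by positivity), hu]
    congr 1
    field_simp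
  · -- on 0 < X ≤ L √τ
    have h1 : P (E ∩ A2) ≤ ∫⁻ ω, A2.indicator (fun ω =>
        ENNReal.ofReal (exp (1 - (XX H Λ D ω / √τ) ^ 2 / 2))) ω *
        ENNReal.ofReal (exp ((-(XX H Λ D ω) / τ) * (h ω - H ω) -
          (-(XX H Λ D ω) / τ) ^ 2 * τ / 2)) ∂P := by
      rw [← lintegral_indicator_one (mE.inter mA2)]
      refine lintegral_mono_ae ?_
      filter_upwards [S.HX] with ω hHX
      by_cases hω : ω ∈ E ∩ A2
      · rw [Set.indicator_of_mem hω, Set.indicator_of_mem hω.2,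
          ← ENNReal.ofReal_mul (exp_pos _).le, ← exp_add]
        simp only [Pi.one_apply]
        rw [← ENNReal.ofReal_one]
        apply ENNReal.ofReal_le_ofReal
        apply one_le_exp
        obtain ⟨⟨_, hhu⟩, hX0, hXL⟩ := hω
        set x := XX H Λ D ω with hx
        set z := x / √τ with hz
        have hxz : x = √τ * z := by rw [hz]; field_simp
        have hz0 : 0 ≤ z := by rw [hz]; positivity
        have hzL : z ≤ L := by rw [hz, div_le_iff₀ hs]; exact hXL
        have e1 : -x / τ * (h ω - H ω) - (-x / τ) ^ 2 * τ / 2 =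
            (x / τ) * (H ω - h ω) - x ^ 2 / τ / 2 := by field_simp; ring
        have e2 : x ^ 2 / τ = z ^ 2 := by rw [hxz, mul_pow, sq_sqrt hτ.le]; field_simp
        have e3 : (x / τ) * (x - u) ≤ (x / τ) * (H ω - h ω) :=
          mul_le_mul_of_nonneg_left (by linarith) (by positivity)
        have e4 : (x / τ) * (x - u) = z ^ 2 - z / L := by
          have h4 : (x / τ) * x = z ^ 2 := by rw [← e2]; ring
          have h5 : (x / τ) * u = z / L := by
            rw [hu, hxz]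
            have : τ = √τ * √τ := hss.symm
            field_simp
            rw [sq_sqrt hτ.le, mul_comm]
          rw [mul_sub, h4, h5]
        have e5 : z / L ≤ 1 := by rw [div_le_one hL0]; exact hzL
        rw [e1, e2]
        linarith
      · rw [Set.indicator_of_notMem hω]; exact bot_le
    refine h1.trans ?_
    have hYm : Measurable[F] (A2.indicator fun ω =>
        ENNReal.ofReal (exp (1 - (XX H Λ D ω / √τ) ^ 2 / 2))) := by
      refine Measurable.indicator ?_ fA2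
      exact ENNReal.measurable_ofReal.comp (measurable_exp.comp
        (measurable_const.sub (((S.mX.div_const _).pow_const 2).div_const 2)))
    have hΘ : Measurable[F] fun ω => -(XX H Λ D ω) / τ := (S.mX.neg).div_const _
    refine (emVar S.hF (S.mh.sub S.mH').aemeasurable S.sh hΘ hYm).trans ?_
    set K : ℝ := exp 1 * (1 + L) ^ 2 * D / (c2 * √τ) with hK
    have hK0 : 0 ≤ K := by positivity
    have h2 : ∫⁻ ω, A2.indicator (fun ω =>
        ENNReal.ofReal (exp (1 - (XX H Λ D ω / √τ) ^ 2 / 2))) ω ∂P ≤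
        ENNReal.ofReal K * ∫⁻ ω in {ω | 0 ≤ XX H Λ D ω}, ENNReal.ofReal (Λ ω) ∂P := by
      have mA0 : MeasurableSet {ω | 0 ≤ XX H Λ D ω} := measurableSet_le measurable_const S.mX'
      rw [← lintegral_const_mul' _ _ ENNReal.ofReal_ne_top, ← lintegral_indicator mA0]
      refine lintegral_mono_ae ?_
      filter_upwards [S.s1] with ω hs1
      by_cases hω : ω ∈ A2
      · rw [Set.indicator_of_mem hω, Set.indicator_of_mem (show ω ∈ {ω | 0 ≤ XX H Λ D ω} from hω.1.le),
          ← ENNReal.ofReal_mul hK0]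
        apply ENNReal.ofReal_le_ofReal
        obtain ⟨hX0, hXL⟩ := hω
        have h3 := psi_ge2 τ (XX H Λ D ω) hτ hX0.le
        have h4 : phi τ (XX H Λ D ω) - XX H Λ D ω ≤ D * Λ ω := by
          have : XX H Λ D ω = H ω - D * Λ ω := rfl
          have h5 : phi τ (XX H Λ D ω) ≤ H ω := hs1
          linarith
        set z := XX H Λ D ω / √τ with hz
        have hz0 : 0 ≤ z := by rw [hz]; positivity
        have hzL : z ≤ L := by rw [hz, div_le_iff₀ hs]; exact hXL
        have h6 : √τ * (c2 * exp (-z ^ 2 / 2) / (1 + z) ^ 2) ≤ D * Λ ω := h3.trans h4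
        have h7 : √τ * (c2 * exp (-z ^ 2 / 2) / (1 + L) ^ 2) ≤ D * Λ ω := by
          refine le_trans ?_ h6
          gcongr
        have h8 : exp (1 - z ^ 2 / 2) =
            (exp 1 * (1 + L) ^ 2 / (c2 * √τ)) * (√τ * (c2 * exp (-z ^ 2 / 2) / (1 + L) ^ 2)) := by
          rw [show (1 : ℝ) - z ^ 2 / 2 = 1 + -z ^ 2 / 2 by ring, exp_add]
          field_simp
        rw [h8]
        refine (mul_le_mul_of_nonneg_left h7 (by positivity)).trans (le_of_eq ?_)
        rw [hK]; ring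
      · rw [Set.indicator_of_notMem hω]; exact bot_le
    refine h2.trans ((mul_le_mul_right S.L4 _).trans (le_of_eq ?_))
    rw [← ENNReal.ofReal_mul hK0, hK]
    congr 1
    field_simp
  · -- on X > L √τ
    have h1 : P (E ∩ A3) ≤ ∫⁻ ω, A3.indicator (fun _ => ENNReal.ofReal (exp (1 - L ^ 2))) ω *
        ENNReal.ofReal (exp ((-L / √τ) * (h ω - H ω))) ∂P := by
      rw [← lintegral_indicator_one (mE.inter mA3)]
      refine lintegral_mono_ae ?_
      filter_upwards [S.HX] with ω hHX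
      by_cases hω : ω ∈ E ∩ A3
      · rw [Set.indicator_of_mem hω, Set.indicator_of_mem hω.2,
          ← ENNReal.ofReal_mul (exp_pos _).le, ← exp_add]
        simp only [Pi.one_apply]
        rw [← ENNReal.ofReal_one]
        apply ENNReal.ofReal_le_ofReal
        apply one_le_exp
        obtain ⟨⟨_, hhu⟩, hX⟩ := hω
        have hX' : L * √τ < XX H Λ D ω := hX
        have e1 : (L / √τ) * (L * √τ - u) ≤ (L / √τ) * (H ω - h ω) :=
          mul_le_mul_of_nonneg_left (by linarith) (by positivity)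
        have e2 : (L / √τ) * (L * √τ - u) = L ^ 2 - 1 := by rw [hu]; field_simp
        have e3 : -L / √τ * (h ω - H ω) = (L / √τ) * (H ω - h ω) := by ring
        rw [e3]; linarith
      · rw [Set.indicator_of_notMem hω]; exact bot_le
    refine h1.trans ?_
    have hYm : Measurable[F] (A3.indicator fun _ => ENNReal.ofReal (exp (1 - L ^ 2))) :=
      Measurable.indicator measurable_const fA3
    refine (emY S.hF (S.mh.sub S.mH').aemeasurable S.sh (-L / √τ) hYm).trans ?_
    have h2 : ∫⁻ ω, A3.indicator (fun _ => ENNReal.ofReal (exp (1 - L ^ 2))) ω ∂P ≤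
        ENNReal.ofReal (exp (1 - L ^ 2)) := by
      rw [lintegral_indicator mA3, setLIntegral_const]
      have := S.prob
      calc ENNReal.ofReal (exp (1 - L ^ 2)) * P A3 ≤ ENNReal.ofReal (exp (1 - L ^ 2)) * 1 :=
            mul_le_mul_right prob_le_one _
        _ = _ := mul_one _
    refine (mul_le_mul_right h2 _).trans (le_of_eq ?_)
    rw [← ENNReal.ofReal_mul (exp_pos _).le, ← exp_add]
    congr 2
    rw [div_pow, sq_sqrt hτ.le]
    field_simp
    ring

/-- the Gaussian factor in the upper bound for the force law -/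
noncomputable def c3 : ℝ := √(2 * π) * exp 3 * exp 1 * 3

lemma c3_pos : 0 < c3 := by unfold c3; positivity

/-- dyadic upper bound for the force law; `τ'`, `v = κ_t² - κ_{t'}²` belong to a later time -/
lemma Snap.F_up (S : Snap F P h l H Λ D τ κ c0 C) {L s τ' v : ℝ} (hL : 1 ≤ L) (hs0 : 0 < s)
    (hs : s ≤ κ / L) (hτ' : 0 < τ') (hv : 0 < v) (hv1 : v ≤ κ ^ 2) (hv2 : L ^ 2 * (κ ^ 2 / v - 1) ≤ 2)
    (s3 : ∀ᵐ ω ∂P, c1 * √τ' * γ.real (Set.Ici (-(XX H Λ D ω) / (D * √v))) ≤ H ω) :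
    P {ω | s / 2 < l ω ∧ l ω ≤ s} ≤ ENNReal.ofReal (2 * c0 * √τ / (c1 * s)) +
      ENNReal.ofReal (c3 * (1 + L) * c0 * D * √τ / (c1 ^ 2 * √τ')) +
      ENNReal.ofReal (exp (1 - L ^ 2 / 2)) := by
  have hτ := S.τ0
  have hst : 0 < √τ := sqrt_pos.2 S.τ0
  have hst' : 0 < √τ' := sqrt_pos.2 hτ'
  have hsv : 0 < √v := sqrt_pos.2 hv
  have hD := S.D0
  have hκ := S.κ0
  have hc0 := S.c00
  have hc1 := c1_pos
  have hL0 : 0 < L := by linarith
  have hc3 := c3_pos
  set E : Set Ω := {ω | s / 2 < l ω ∧ l ω ≤ s} with hE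
  have mE : MeasurableSet E :=
    (measurableSet_lt measurable_const S.ml).inter (measurableSet_le S.ml measurable_const)
  set A1 : Set Ω := {ω | 0 ≤ XX H Λ D ω} with hA1
  set A2 : Set Ω := {ω | XX H Λ D ω < 0 ∧ -(L * (D * κ)) ≤ XX H Λ D ω} with hA2
  set A3 : Set Ω := {ω | XX H Λ D ω < -(L * (D * κ))} with hA3
  have fA1 : MeasurableSet[F] A1 := by
    have := S.mX (measurableSet_Ici (a := (0 : ℝ))); exact this
  have fA2 : MeasurableSet[F] A2 := by
    have := (S.mX (measurableSet_Iio (a := (0 : ℝ)))).inter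
      (S.mX (measurableSet_Ici (a := -(L * (D * κ))))); exact this
  have fA3 : MeasurableSet[F] A3 := by
    have := S.mX (measurableSet_Iio (a := -(L * (D * κ)))); exact this
  have mA1 := S.hF _ fA1
  have mA2 := S.hF _ fA2
  have mA3 := S.hF _ fA3
  have hsub : E ⊆ (E ∩ A1) ∪ (E ∩ A2) ∪ (E ∩ A3) := by
    intro ω hω
    rcases le_or_gt 0 (XX H Λ D ω) with h1 | h1
    · exact Or.inl (Or.inl ⟨hω, h1⟩)
    · rcases le_or_gt (-(L * (D * κ))) (XX H Λ D ω) with h2 | h2
      · exact Or.inl (Or.inr ⟨hω, h1, h2⟩)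
      · exact Or.inr ⟨hω, h2⟩
  -- `Λ ≥ |X| / D`
  have hLX : ∀ᵐ ω ∂P, -(XX H Λ D ω) / D ≤ Λ ω := by
    filter_upwards [S.H0] with ω h1
    have h2 : XX H Λ D ω = H ω - D * Λ ω := rfl
    rw [div_le_iff₀ hD, h2]; linarith
  refine (measure_mono hsub).trans ?_
  refine (measure_union_le _ _).trans (add_le_add ((measure_union_le _ _).trans
    (add_le_add ?_ ?_)) ?_)
  · -- on X ≥ 0
    have h1 : P (E ∩ A1) ≤ ENNReal.ofReal (2 / s) * ∫⁻ ω in A1, ENNReal.ofReal (l ω) ∂P := by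
      rw [← lintegral_indicator_one (mE.inter mA1), ← lintegral_const_mul' _ _ ENNReal.ofReal_ne_top,
        ← lintegral_indicator mA1]
      refine lintegral_mono fun ω => ?_
      by_cases hω : ω ∈ E ∩ A1
      · rw [Set.indicator_of_mem hω, Set.indicator_of_mem hω.2,
          ← ENNReal.ofReal_mul (by positivity)]
        simp only [Pi.one_apply]
        rw [← ENNReal.ofReal_one]
        apply ENNReal.ofReal_le_ofReal
        have h2 : s / 2 < l ω := hω.1.1
        rw [div_mul_eq_mul_div, le_div_iff₀ hs0]; linarith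
      · rw [Set.indicator_of_notMem hω]; exact bot_le
    refine h1.trans ?_
    rw [S.iL A1 fA1]
    refine (mul_le_mul_right S.L4 _).trans (le_of_eq ?_)
    rw [← ENNReal.ofReal_mul (by positivity)]
    congr 1
    field_simp
  · -- on -L D κ ≤ X < 0
    have h1 : P (E ∩ A2) ≤ ∫⁻ ω, A2.indicator (fun ω =>
        ENNReal.ofReal (exp (1 - (XX H Λ D ω / (D * κ)) ^ 2 / 2))) ω *
        ENNReal.ofReal (exp ((XX H Λ D ω / (D * κ ^ 2)) * (l ω - Λ ω) -
          (XX H Λ D ω / (D * κ ^ 2)) ^ 2 * κ ^ 2 / 2)) ∂P := by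
      rw [← lintegral_indicator_one (mE.inter mA2)]
      refine lintegral_mono_ae ?_
      filter_upwards [hLX] with ω hLX
      by_cases hω : ω ∈ E ∩ A2
      · rw [Set.indicator_of_mem hω, Set.indicator_of_mem hω.2,
          ← ENNReal.ofReal_mul (exp_pos _).le, ← exp_add]
        simp only [Pi.one_apply]
        rw [← ENNReal.ofReal_one]
        apply ENNReal.ofReal_le_ofReal
        apply one_le_exp
        obtain ⟨⟨_, hhu⟩, hX0, hXL⟩ := hω
        set x := XX H Λ D ω with hx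
        set a := -x / (D * κ) with ha
        have hxa : x = -(D * κ * a) := by rw [ha]; field_simp
        have ha0 : 0 ≤ a := by
          rw [ha]; apply div_nonneg (by linarith) (by positivity)
        have haL : a ≤ L := by rw [ha, div_le_iff₀ (by positivity)]; linarith
        have hΛ : κ * a ≤ Λ ω := by
          refine le_trans (le_of_eq ?_) hLX
          rw [hxa]; field_simp
        have e1 : (x / (D * κ)) ^ 2 = a ^ 2 := by rw [ha]; ring
        have e2 : x / (D * κ ^ 2) = -(a / κ) := by rw [hxa]; field_simp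
        rw [e1, e2]
        have e3 : (-(a / κ)) ^ 2 * κ ^ 2 = a ^ 2 := by field_simp
        rw [e3]
        have e4 : (a / κ) * (κ * a - s) ≤ (a / κ) * (Λ ω - l ω) :=
          mul_le_mul_of_nonneg_left (by linarith) (by positivity)
        have e5 : (a / κ) * (κ * a - s) = a ^ 2 - a * (s / κ) := by field_simp
        have e6 : a * (s / κ) ≤ 1 := by
          have h6 : s / κ ≤ 1 / L := by
            rw [div_le_iff₀ hκ]; refine hs.trans (le_of_eq ?_); ring
          calc a * (s / κ) ≤ L * (1 / L) := mul_le_mul haL h6 (by positivity) hL0.le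
            _ = 1 := by field_simp
        have e7 : -(a / κ) * (l ω - Λ ω) = (a / κ) * (Λ ω - l ω) := by ring
        rw [e7]; linarith
      · rw [Set.indicator_of_notMem hω]; exact bot_le
    refine h1.trans ?_
    have hYm : Measurable[F] (A2.indicator fun ω =>
        ENNReal.ofReal (exp (1 - (XX H Λ D ω / (D * κ)) ^ 2 / 2))) := by
      refine Measurable.indicator ?_ fA2
      exact ENNReal.measurable_ofReal.comp (measurable_exp.comp
        (measurable_const.sub (((S.mX.div_const _).pow_const 2).div_const 2)))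
    have hΘ : Measurable[F] fun ω => XX H Λ D ω / (D * κ ^ 2) := S.mX.div_const _
    refine (emVar S.hF (S.ml.sub S.mL').aemeasurable S.sl hΘ hYm).trans ?_
    set K : ℝ := c3 * (1 + L) / (c1 * √τ') with hK
    have hK0 : 0 ≤ K := by positivity
    have h2 : ∫⁻ ω, A2.indicator (fun ω =>
        ENNReal.ofReal (exp (1 - (XX H Λ D ω / (D * κ)) ^ 2 / 2))) ω ∂P ≤
        ENNReal.ofReal K * ∫⁻ ω in {ω | XX H Λ D ω ≤ 0}, ENNReal.ofReal (H ω) ∂P := by
      have mA0 : MeasurableSet {ω | XX H Λ D ω ≤ 0} := measurableSet_le S.mX' measurable_const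
      rw [← lintegral_const_mul' _ _ ENNReal.ofReal_ne_top, ← lintegral_indicator mA0]
      refine lintegral_mono_ae ?_
      filter_upwards [s3] with ω hs3
      by_cases hω : ω ∈ A2
      · rw [Set.indicator_of_mem hω, Set.indicator_of_mem (show ω ∈ {ω | XX H Λ D ω ≤ 0} from hω.1.le),
          ← ENNReal.ofReal_mul hK0]
        apply ENNReal.ofReal_le_ofReal
        obtain ⟨hX0, hXL⟩ := hω
        set x := XX H Λ D ω with hx
        set a := -x / (D * κ) with ha
        have hxa : x = -(D * κ * a) := by rw [ha]; field_simp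
        have ha0 : 0 ≤ a := by
          rw [ha]; apply div_nonneg (by linarith) (by positivity)
        have haL : a ≤ L := by rw [ha, div_le_iff₀ (by positivity)]; linarith
        set y := -x / (D * √v) with hy
        have hya : y = a * (κ / √v) := by rw [hy, hxa]; field_simp
        have hy0 : 0 ≤ y := by rw [hya]; positivity
        have hy2 : y ^ 2 = a ^ 2 + a ^ 2 * (κ ^ 2 / v - 1) := by
          have : (κ / √v) ^ 2 = κ ^ 2 / v := by rw [div_pow, sq_sqrt hv.le]
          rw [hya, mul_pow, this]; ring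
        have hr0 : 0 ≤ κ ^ 2 / v - 1 := by
          rw [sub_nonneg, le_div_iff₀ hv, one_mul]; exact hv1
        have hy3 : y ^ 2 ≤ a ^ 2 + 2 := by
          have : a ^ 2 * (κ ^ 2 / v - 1) ≤ L ^ 2 * (κ ^ 2 / v - 1) := by gcongr
          linarith
        have hy4 : 1 + y ≤ 3 * (1 + L) := by
          have : y ≤ a + 2 := by
            refine le_of_sq_le_sq ?_ (by positivity)
            nlinarith
          linarith
        have h3 := tail_ge y hy0
        have h4 : (√(2 * π))⁻¹ * exp (-2) / (1 + y) * exp (-y ^ 2 / 2) ≤ γ.real (Set.Ici y) := by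
          rw [measureReal_def]
          exact (ENNReal.ofReal_le_iff_le_toReal (measure_ne_top _ _)).1 h3
        have h5 : (√(2 * π))⁻¹ * exp (-2) / (3 * (1 + L)) * exp (-a ^ 2 / 2 - 1) ≤
            γ.real (Set.Ici y) := by
          refine le_trans ?_ h4
          have : -a ^ 2 / 2 - 1 ≤ -y ^ 2 / 2 := by linarith
          gcongr
        have h6 : exp (1 - (x / (D * κ)) ^ 2 / 2) = (√(2 * π) * exp 3 * exp 1 * (3 * (1 + L))) *
            ((√(2 * π))⁻¹ * exp (-2) / (3 * (1 + L)) * exp (-a ^ 2 / 2 - 1)) := by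
          have h7 : (x / (D * κ)) ^ 2 = a ^ 2 := by rw [ha]; ring
          rw [h7]
          have h8 : (1 : ℝ) - a ^ 2 / 2 = 3 + 1 + -2 + (-a ^ 2 / 2 - 1) := by ring
          rw [h8, exp_add, exp_add, exp_add]
          field_simp
        have h9 : γ.real (Set.Ici y) ≤ H ω / (c1 * √τ') := by
          rw [le_div_iff₀ (by positivity)]; linarith
        rw [h6]
        calc (√(2 * π) * exp 3 * exp 1 * (3 * (1 + L))) *
            ((√(2 * π))⁻¹ * exp (-2) / (3 * (1 + L)) * exp (-a ^ 2 / 2 - 1))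
            ≤ (√(2 * π) * exp 3 * exp 1 * (3 * (1 + L))) * (H ω / (c1 * √τ')) :=
              mul_le_mul_of_nonneg_left (h5.trans h9) (by positivity)
          _ = K * H ω := by rw [hK]; unfold c3; ring
      · rw [Set.indicator_of_notMem hω]; exact bot_le
    refine h2.trans ((mul_le_mul_right S.L5 _).trans (le_of_eq ?_))
    rw [← ENNReal.ofReal_mul hK0, hK]
    congr 1
    field_simp
  · -- on X < - L D κ
    have h1 : P (E ∩ A3) ≤ ∫⁻ ω, A3.indicator (fun _ => ENNReal.ofReal (exp (1 - L ^ 2))) ω *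
        ENNReal.ofReal (exp ((-L / κ) * (l ω - Λ ω))) ∂P := by
      rw [← lintegral_indicator_one (mE.inter mA3)]
      refine lintegral_mono_ae ?_
      filter_upwards [hLX] with ω hLX
      by_cases hω : ω ∈ E ∩ A3
      · rw [Set.indicator_of_mem hω, Set.indicator_of_mem hω.2,
          ← ENNReal.ofReal_mul (exp_pos _).le, ← exp_add]
        simp only [Pi.one_apply]
        rw [← ENNReal.ofReal_one]
        apply ENNReal.ofReal_le_ofReal
        apply one_le_exp
        obtain ⟨⟨_, hhu⟩, hX⟩ := hω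
        have hX' : XX H Λ D ω < -(L * (D * κ)) := hX
        have h2 : L * κ ≤ Λ ω := by
          refine le_trans ?_ hLX
          rw [le_div_iff₀ hD]; nlinarith
        have e1 : (L / κ) * (L * κ - s) ≤ (L / κ) * (Λ ω - l ω) :=
          mul_le_mul_of_nonneg_left (by linarith) (by positivity)
        have e2 : L ^ 2 - 1 ≤ (L / κ) * (L * κ - s) := by
          have h3 : (L / κ) * s ≤ 1 := by
            calc (L / κ) * s ≤ (L / κ) * (κ / L) := mul_le_mul_of_nonneg_left hs (by positivity)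
              _ = 1 := by field_simp
          have h4 : (L / κ) * (L * κ) = L ^ 2 := by field_simp
          rw [mul_sub, h4]; linarith
        have e3 : -L / κ * (l ω - Λ ω) = (L / κ) * (Λ ω - l ω) := by ring
        rw [e3]; linarith
      · rw [Set.indicator_of_notMem hω]; exact bot_le
    refine h1.trans ?_
    have hYm : Measurable[F] (A3.indicator fun _ => ENNReal.ofReal (exp (1 - L ^ 2))) :=
      Measurable.indicator measurable_const fA3
    refine (emY S.hF (S.ml.sub S.mL').aemeasurable S.sl (-L / κ) hYm).trans ?_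
    have h2 : ∫⁻ ω, A3.indicator (fun _ => ENNReal.ofReal (exp (1 - L ^ 2))) ω ∂P ≤
        ENNReal.ofReal (exp (1 - L ^ 2)) := by
      rw [lintegral_indicator mA3, setLIntegral_const]
      have := S.prob
      calc ENNReal.ofReal (exp (1 - L ^ 2)) * P A3 ≤ ENNReal.ofReal (exp (1 - L ^ 2)) * 1 :=
            mul_le_mul_right prob_le_one _
        _ = _ := mul_one _
    refine (mul_le_mul_right h2 _).trans (le_of_eq ?_)
    rw [← ENNReal.ofReal_mul (exp_pos _).le, ← exp_add]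
    congr 2
    rw [div_pow]
    field_simp
    ring

end

end Crest.Agent.R146.Snap_778
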