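import Mathlib
import Crest.Agent.R146.LevE_4
import Crest.Agent.R146.ExpoA_778
import Crest.Agent.R146.SnapB_778

/-!
# Comparison of two times at a jamming minimiser (helper778), row 146

Frame `Lev2_576.Model`, `JamAsm_576.LCP` with `c = 0`.  `X_t = E_t h - D(t) E_t λ`.
* `s1_frame` : `E (X_t + √(1-t) g)₊ ≤ E_t h`;
* `tele`     : `X_{t'}/D(t') ≥ X_t/D(t) + ∑ D(t_i)⁻¹ (B_{i+1} - B_i) + error`;
* `s3_frame` : `c1 √(1-t') P(g ≥ -X_t/(D(t) √(K t - K t'))) ≤ E_t h`.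
-/

set_option autoImplicit false

open Set Filter Topology MeasureTheory ProbabilityTheory Crest.Agent.R146.Hilb
  Crest.Agent.R146.Lev_576 Crest.Agent.R146.Lev2_576 Crest.Agent.R146.JamAsm_576
open Crest.Agent.R146.LevC_4 Crest.Agent.R146.LevK_4 Crest.Agent.R146.LevE_4
open Crest.ProbabilityR.Perceptron
open scoped RealInnerProductSpace NNReal ENNReal

namespace Crest.Agent.R146.Expo_778
open Crest.Agent.R146.Gauss_778 Crest.Agent.R146.Snap_778

section Grid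

/-- the grid of `[s,s']` with `n+1` cells -/
noncomputable def gr (s s' : ℝ) (n i : ℕ) : ℝ := s + i * ((s' - s) / (n + 1))

lemma gr_zero (s s' : ℝ) (n : ℕ) : gr s s' n 0 = s := by simp [gr]

lemma gr_last (s s' : ℝ) (n : ℕ) : gr s s' n (n + 1) = s' := by
  have h : ((n : ℝ) + 1) ≠ 0 := by positivity
  simp only [gr]; push_cast; field_simp; ring

lemma gr_mono {s s' : ℝ} (h : s ≤ s') (n : ℕ) : Monotone (gr s s' n) := by
  intro i j hij
  have h1 : (i : ℝ) ≤ j := by exact_mod_cast hij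
  have h2 : 0 ≤ (s' - s) / ((n : ℝ) + 1) := div_nonneg (by linarith) (by positivity)
  simp only [gr]
  have := mul_le_mul_of_nonneg_right h1 h2
  linarith

lemma gr_succ (s s' : ℝ) (n i : ℕ) : gr s s' n (i + 1) - gr s s' n i = (s' - s) / (n + 1) := by
  simp only [gr]; push_cast; ring

lemma gr_mem {s s' : ℝ} (h : s ≤ s') {n i : ℕ} (hi : i ≤ n + 1) : gr s s' n i ∈ Icc s s' := by
  constructor
  · have := gr_mono h n (Nat.zero_le i)
    rwa [gr_zero] at this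
  · have := gr_mono h n hi
    rwa [gr_last] at this

end Grid

section Clock
variable {D : ℝ → ℝ}

lemma K_inc (H : Prf D) {s t : ℝ} (hs : 0 ≤ s) (hst : s ≤ t) (ht : t < 1) :
    K D s - K D t ≤ (t - s) * (D t)⁻¹ ^ 2 := by
  obtain ⟨M, hM, hi, _⟩ := H.K_bound
  rw [H.K_sub hs hst ht.le]
  have h1 : ∫ r in s..t, (D t)⁻¹ ^ 2 = (t - s) * (D t)⁻¹ ^ 2 := by simp
  rw [← h1]
  refine intervalIntegral.integral_mono_on hst (Prf.sub_int hi hs hst ht.le) (by simp)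
    fun r hr => ?_
  have h2 := H.inv_mono (hs.trans hr.1) hr.2 ht
  have h3 := (H.inv_pos' (hs.trans hr.1) (lt_of_le_of_lt hr.2 ht)).le
  gcongr

/-- variance of the Wiener sum -/
noncomputable def vs (D : ℝ → ℝ) (s s' : ℝ) (n : ℕ) : ℝ :=
  ∑ i ∈ Finset.range (n + 1), (D (gr s s' n i))⁻¹ ^ 2 * ((s' - s) / (n + 1))

lemma vs_pos (H : Prf D) {s s' : ℝ} (hs : 0 ≤ s) (hss : s < s') (hs' : s' < 1) (n : ℕ) :
    0 < vs D s s' n := by
  refine Finset.sum_pos (fun i hi => ?_) ⟨0, Finset.mem_range.2 (Nat.succ_pos n)⟩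
  have hi' := gr_mem hss.le (n := n) (Finset.mem_range.1 hi).le
  have h1 : 0 < D (gr s s' n i) := H.pos _ ⟨hs.trans hi'.1, lt_of_le_of_lt hi'.2 hs'⟩
  have h2 : 0 < s' - s := by linarith
  positivity

lemma vs_bounds (H : Prf D) {s s' : ℝ} (hs : 0 ≤ s) (hss : s < s') (hs' : s' < 1) (n : ℕ) :
    vs D s s' n ≤ K D s - K D s' ∧ K D s - K D s' ≤ vs D s s' n +
      ((D s')⁻¹ ^ 2 - (D s)⁻¹ ^ 2) * ((s' - s) / (n + 1)) := by
  set g := gr s s' n with hg
  have hmem : ∀ i ≤ n + 1, g i ∈ Icc s s' := fun i hi => gr_mem hss.le hi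
  have tel : K D s - K D s' = ∑ i ∈ Finset.range (n + 1), (K D (g i) - K D (g (i + 1))) := by
    rw [Finset.sum_range_sub' (fun i => K D (g i)), hg, gr_zero, gr_last]
  have tel2 : ((D s')⁻¹ ^ 2 - (D s)⁻¹ ^ 2) * ((s' - s) / (n + 1)) =
      ∑ i ∈ Finset.range (n + 1), ((D (g (i + 1)))⁻¹ ^ 2 - (D (g i))⁻¹ ^ 2) *
        ((s' - s) / (n + 1)) := by
    rw [← Finset.sum_mul, Finset.sum_range_sub (fun i => (D (g i))⁻¹ ^ 2), hg, gr_zero, gr_last]
  constructor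
  · rw [tel, vs]
    refine Finset.sum_le_sum fun i hi => ?_
    have h0 := hmem i (Finset.mem_range.1 hi).le
    have h1 := hmem (i + 1) (Finset.mem_range.1 hi)
    have h2 := H.K_dec (hs.trans h0.1) (gr_mono hss.le n i.le_succ) (lt_of_le_of_lt h1.2 hs')
    rw [Nat.succ_eq_add_one, gr_succ] at h2
    rw [mul_comm]; exact h2
  · rw [tel, vs, tel2, ← Finset.sum_add_distrib]
    refine Finset.sum_le_sum fun i hi => ?_
    have h0 := hmem i (Finset.mem_range.1 hi).le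
    have h1 := hmem (i + 1) (Finset.mem_range.1 hi)
    have h2 := K_inc H (hs.trans h0.1) (gr_mono hss.le n i.le_succ) (lt_of_le_of_lt h1.2 hs')
    rw [Nat.succ_eq_add_one, gr_succ] at h2
    refine h2.trans (le_of_eq ?_)
    rw [← hg]; ring

lemma tendsto_mesh (a : ℝ) : Tendsto (fun n : ℕ => a / ((n : ℝ) + 1)) atTop (𝓝 0) := by
  have h := (tendsto_one_div_add_atTop_nhds_zero_nat (𝕜 := ℝ)).const_mul a
  rw [mul_zero] at h
  refine h.congr fun n => ?_
  ring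

lemma vs_lim (H : Prf D) {s s' : ℝ} (hs : 0 ≤ s) (hss : s < s') (hs' : s' < 1) :
    Tendsto (vs D s s') atTop (𝓝 (K D s - K D s')) := by
  have h1 := (tendsto_mesh (s' - s)).const_mul ((D s')⁻¹ ^ 2 - (D s)⁻¹ ^ 2)
  rw [mul_zero] at h1
  have h2 := (tendsto_const_nhds (x := K D s - K D s')).sub h1
  rw [sub_zero] at h2
  refine tendsto_of_tendsto_of_tendsto_of_le_of_le h2 tendsto_const_nhds (fun n => ?_) fun n => ?_
  · have := (vs_bounds H hs hss hs' n).2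
    show K D s - K D s' - _ ≤ _
    linarith
  · exact (vs_bounds H hs hss hs' n).1

end Clock

section Frame

variable {H : Type*} [NormedAddCommGroup H] [InnerProductSpace ℝ H] [CompleteSpace H] {R : Res H}
  {Ω : Type*} {mΩ : MeasurableSpace Ω} {P : Measure Ω} {B : ℝ≥0 → Ω → ℝ}
  {hBm : ∀ t, Measurable (B t)} {M : Model R P B hBm} {ξ : H} {D : ℝ → ℝ} {x : H}

omit [CompleteSpace H] in
/-- integrals on the sets of `F_s` -/
lemma lint_cond [IsProbabilityMeasure P] (M : Model R P B hBm) (y : H) (hy : 0 ≤ᵐ[P] M.J y)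
    (s : ℝ) {A : Set Ω} (hA : MeasurableSet[Fl hBm s] A) :
    ∫⁻ ω in A, ENNReal.ofReal (M.J y ω) ∂P =
      ∫⁻ ω in A, ENNReal.ofReal ((P[M.J y | Fl hBm s]) ω) ∂P := by
  have hi : Integrable (M.J y) P := (M.memLp y).integrable (by norm_num)
  have hle : Fl hBm s ≤ mΩ := (brownianFiltration B hBm).le _
  rw [← ofReal_integral_eq_lintegral_ofReal hi.integrableOn (ae_restrict_of_ae hy),
    ← ofReal_integral_eq_lintegral_ofReal integrable_condExp.integrableOn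
      (ae_restrict_of_ae (condExp_nonneg hy)), setIntegral_condExp hle hi hA]

theorem s1_frame [IsProbabilityMeasure P] (hB : IsPreBrownianReal B P) {κ : ℝ}
    (hξ : M.J ξ =ᵐ[P] fun ω => κ + B 1 ω) (L : LCP M ξ 0 D x) (hD1 : 0 ≤ D 1) {s : ℝ}
    (hs : s ∈ Ico (0 : ℝ) 1) : ∀ᵐ ω ∂P,
      phi (1 - s) ((P[M.J (ξ + R.Dop D x) | Fl hBm s]) ω - D s * (P[M.J x | Fl hBm s]) ω) ≤
        (P[M.J (ξ + R.Dop D x) | Fl hBm s]) ω := by
  have hbm := bm_of_brown hBm hB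
  have hle : Fl hBm s ≤ mΩ := (brownianFiltration B hBm).le _
  have hh0 : 0 ≤ᵐ[P] M.J (ξ + R.Dop D x) := by
    have := L.h_nonneg
    rwa [zero_smul, add_zero] at this
  have hig := hbm.incr s 1 hs.1 hs.2.le le_rfl
  have mX : Measurable[Fl hBm s] fun ω =>
      (P[M.J (ξ + R.Dop D x) | Fl hBm s]) ω - D s * (P[M.J x | Fl hBm s]) ω :=
    stronglyMeasurable_condExp.measurable.sub (stronglyMeasurable_condExp.measurable.const_mul _)
  refine s1_abs (P := P) hle (h := M.J (ξ + R.Dop D x))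
    (Z := fun ω => B (1 : ℝ).toNNReal ω - B s.toNNReal ω) (sub_pos.2 hs.2)
    stronglyMeasurable_condExp.measurable mX ((hBm _).sub (hBm _)) hig
    (fun A hA => lint_cond M _ hh0 s hA) ?_ hh0 (condExp_nonneg hh0)
  filter_upwards [pos_frame hB hξ L hD1 (s := s) ⟨hs.1, hs.2.le⟩] with ω hω
  rw [Real.toNNReal_one]
  exact hω

variable (R) (D) (x) in
/-- the increments of the error -/
noncomputable def zz (s t : ℝ) : H := R.inc s t (R.Dop D x) - D s • R.inc s t x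

variable (R) (D) (x) in
/-- the error vector -/
noncomputable def SS (g : ℕ → ℝ) (k : ℕ) : H :=
  ∑ i ∈ Finset.range k, (D (g i))⁻¹ • zz R D x (g i) (g (i + 1))

omit [CompleteSpace H] in
lemma P_inc_high {a b T : ℝ} (hab : a ≤ b) (hb : b ≤ T) (y : H) :
    R.P T (R.inc a b y) = R.inc a b y := by
  rw [R.inc_apply, map_sub, R.mul' hb, R.mul' (hab.trans hb)]

omit [CompleteSpace H] in
lemma P_zz_low {s t : ℝ} (hst : s ≤ t) : R.P s (zz R D x s t) = 0 := by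
  rw [zz, map_sub, map_smul, R.P_inc hst, R.P_inc hst, smul_zero, sub_zero]

omit [CompleteSpace H] in
lemma P_zz_high {s t T : ℝ} (hst : s ≤ t) (ht : t ≤ T) : R.P T (zz R D x s t) = zz R D x s t := by
  rw [zz, map_sub, map_smul, P_inc_high hst ht, P_inc_high hst ht]

lemma SS_norm (hD : ContinuousOn D (Icc 0 1)) (ha : AntitoneOn D (Icc 0 1))
    (hpos : ∀ t ∈ Ico (0 : ℝ) 1, 0 < D t) {s s' : ℝ} (hs : 0 ≤ s) (hs' : s' < 1)
    {g : ℕ → ℝ} (hg : Monotone g) (hg0 : g 0 = s) {n : ℕ} (hgn : g n = s') {δ : ℝ}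
    (hδ : ∀ i < n, D (g i) - D (g (i + 1)) ≤ δ) :
    ∀ k ≤ n, ‖SS R D x g k‖ ^ 2 ≤ ((D s')⁻¹ * δ) ^ 2 * (‖R.P (g k) x‖ ^ 2 - ‖R.P s x‖ ^ 2) := by
  intro k
  induction k with
  | zero => intro _; simp [SS, hg0]
  | succ k ih =>
    intro hk
    have ih := ih (by omega)
    have hst : g k ≤ g (k + 1) := hg k.le_succ
    have hk0 : 0 ≤ g k := by have := hg (Nat.zero_le k); rw [hg0] at this; linarith
    have hk1 : g (k + 1) ≤ s' := by have := hg hk; rwa [hgn] at this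
    have hkI : g k ∈ Icc (0 : ℝ) 1 := ⟨hk0, (hst.trans hk1).trans hs'.le⟩
    have hk1I : g (k + 1) ∈ Icc (0 : ℝ) 1 := ⟨hk0.trans hst, hk1.trans hs'.le⟩
    have hs'I : s' ∈ Icc (0 : ℝ) 1 := ⟨hk0.trans (hst.trans hk1), hs'.le⟩
    set z := zz R D x (g k) (g (k + 1)) with hz
    have e1 : SS R D x g (k + 1) = SS R D x g k + (D (g k))⁻¹ • z := by
      rw [SS, Finset.sum_range_succ]; rfl
    -- `SS k` is measurable with respect to the past of `g k`
    have e2 : R.P (g k) (SS R D x g k) = SS R D x g k := by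
      rw [SS, map_sum]
      refine Finset.sum_congr rfl fun i hi => ?_
      rw [map_smul, P_zz_high (hg i.le_succ) (hg (Finset.mem_range.1 hi))]
    have e3 : ⟪SS R D x g k, (D (g k))⁻¹ • z⟫ = 0 := by
      rw [inner_smul_right, ← e2, R.symm, P_zz_low hst, inner_zero_right, mul_zero]
    have e4 : ‖SS R D x g (k + 1)‖ ^ 2 = ‖SS R D x g k‖ ^ 2 + ‖(D (g k))⁻¹ • z‖ ^ 2 := by
      rw [e1, norm_add_sq_real, e3]; ring
    have hDk : 0 < D (g k) := hpos _ ⟨hk0, lt_of_le_of_lt (hst.trans hk1) hs'⟩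
    have hDs' : 0 < D s' := hpos _ ⟨hs'I.1, hs'⟩
    have hEk : (D (g k))⁻¹ ≤ (D s')⁻¹ := inv_anti₀ hDs' (ha hkI hs'I (hst.trans hk1))
    have e5 : ‖z‖ ≤ δ * ‖R.inc (g k) (g (k + 1)) x‖ := by
      refine (rel_norm R hD ha hk0 hst hk1I.2 x).trans ?_
      have := hδ k (by omega)
      gcongr
    have hδ0 : 0 ≤ δ := le_trans (sub_nonneg.2 (ha hkI hk1I hst)) (hδ k (by omega))
    have e6 : ‖(D (g k))⁻¹ • z‖ ^ 2 ≤ ((D s')⁻¹ * δ) ^ 2 * ‖R.inc (g k) (g (k + 1)) x‖ ^ 2 := by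
      rw [norm_smul, Real.norm_of_nonneg (inv_pos.2 hDk).le, ← mul_pow]
      have h0 : 0 ≤ (D (g k))⁻¹ := (inv_pos.2 hDk).le
      have h1 : (D (g k))⁻¹ * ‖z‖ ≤ (D s')⁻¹ * (δ * ‖R.inc (g k) (g (k + 1)) x‖) :=
        mul_le_mul hEk e5 (norm_nonneg _) (inv_pos.2 hDs').le
      have h2 : (D s')⁻¹ * (δ * ‖R.inc (g k) (g (k + 1)) x‖) =
          (D s')⁻¹ * δ * ‖R.inc (g k) (g (k + 1)) x‖ := by ring
      rw [h2] at h1
      gcongr
    rw [e4]
    have e7 := R.norm_sq_inc hst x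
    calc ‖SS R D x g k‖ ^ 2 + ‖(D (g k))⁻¹ • z‖ ^ 2
        ≤ ((D s')⁻¹ * δ) ^ 2 * (‖R.P (g k) x‖ ^ 2 - ‖R.P s x‖ ^ 2) +
          ((D s')⁻¹ * δ) ^ 2 * ‖R.inc (g k) (g (k + 1)) x‖ ^ 2 := add_le_add ih e6
      _ = _ := by rw [e7]; ring

/-- telescoping -/
lemma tele [IsProbabilityMeasure P] (hB : IsPreBrownianReal B P) {κ : ℝ}
    (hξ : M.J ξ =ᵐ[P] fun ω => κ + B 1 ω) (L : LCP M ξ 0 D x)
    (hpos : ∀ t ∈ Ico (0 : ℝ) 1, 0 < D t) {s s' : ℝ} (hs : 0 ≤ s) (hs' : s' < 1)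
    {g : ℕ → ℝ} (hg : Monotone g) (hg0 : g 0 = s) {n : ℕ} (hgn : g n = s') :
    ∀ k ≤ n, ∀ᵐ ω ∂P,
      (D s)⁻¹ * ((P[M.J (ξ + R.Dop D x) | Fl hBm s]) ω - D s * (P[M.J x | Fl hBm s]) ω) +
      ∑ i ∈ Finset.range k, (D (g i))⁻¹ * (B (g (i + 1)).toNNReal ω - B (g i).toNNReal ω) +
      M.J (SS R D x g k) ω ≤
      (D (g k))⁻¹ * ((P[M.J (ξ + R.Dop D x) | Fl hBm (g k)]) ω -
        D (g k) * (P[M.J x | Fl hBm (g k)]) ω) := by
  intro k
  induction k with
  | zero =>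
    intro _
    have h0 : M.J (0 : H) =ᵐ[P] fun _ => 0 := by
      have := M.smul 0 (0 : H)
      rw [zero_smul] at this
      filter_upwards [this] with ω h
      rw [h, zero_mul]
    filter_upwards [h0] with ω h
    simp only [Finset.range_zero, Finset.sum_empty, SS, h, add_zero, hg0, le_refl]
  | succ k ih =>
    intro hk
    have ih := ih (by omega)
    have hst : g k ≤ g (k + 1) := hg k.le_succ
    have hk0 : 0 ≤ g k := by have := hg (Nat.zero_le k); rw [hg0] at this; linarith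
    have hk1 : g (k + 1) ≤ s' := by have := hg hk; rwa [hgn] at this
    have hkI : g k ∈ Icc (0 : ℝ) 1 := ⟨hk0, (hst.trans hk1).trans hs'.le⟩
    have hk1I : g (k + 1) ∈ Icc (0 : ℝ) 1 := ⟨hk0.trans hst, hk1.trans hs'.le⟩
    have hDk : 0 < D (g k) := hpos _ ⟨hk0, lt_of_le_of_lt (hst.trans hk1) hs'⟩
    have hDk1 : 0 < D (g (k + 1)) := hpos _ ⟨hk1I.1, lt_of_le_of_lt hk1 hs'⟩
    have hEk : (D (g k))⁻¹ ≤ (D (g (k + 1)))⁻¹ := inv_anti₀ hDk1 (L.anti hkI hk1I hst)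
    set h : H := ξ + R.Dop D x with hh
    set z := zz R D x (g k) (g (k + 1)) with hz
    have e1 : SS R D x g (k + 1) = SS R D x g k + (D (g k))⁻¹ • z := by
      rw [SS, Finset.sum_range_succ]; rfl
    have hh0 : 0 ≤ᵐ[P] M.J h := by
      have := L.h_nonneg
      rwa [zero_smul, add_zero] at this
    have j1 := J_inc M hkI hk1I x
    have j2 := J_inc M hkI hk1I h
    have j4 := M.sub (R.inc (g k) (g (k + 1)) (R.Dop D x)) (D (g k) • R.inc (g k) (g (k + 1)) x)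
    have j5 := M.smul (D (g k)) (R.inc (g k) (g (k + 1)) x)
    have j6 : M.J (R.inc (g k) (g (k + 1)) h) =ᵐ[P] fun ω =>
        M.J (R.inc (g k) (g (k + 1)) ξ) ω + M.J (R.inc (g k) (g (k + 1)) (R.Dop D x)) ω := by
      rw [hh, map_add]; exact M.add _ _
    have j7 := M.sub (R.P (g (k + 1)) ξ) (R.P (g k) ξ)
    have j8 := cond_xi M hB hξ hkI
    have j9 := cond_xi M hB hξ hk1I
    have j10 := M.add (SS R D x g k) ((D (g k))⁻¹ • z)
    have j11 := M.smul (D (g k))⁻¹ z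
    have j12 : 0 ≤ᵐ[P] P[M.J h | Fl hBm (g (k + 1))] := condExp_nonneg hh0
    filter_upwards [ih, j1, j2, j4, j5, j6, j7, j8, j9, j10, j11, j12] with ω ih j1 j2 j4 j5 j6 j7
      j8 j9 j10 j11 j12
    have j12 : 0 ≤ (P[M.J h | Fl hBm (g (k + 1))]) ω := j12
    have j7' : M.J (R.inc (g k) (g (k + 1)) ξ) ω =
        B (g (k + 1)).toNNReal ω - B (g k).toNNReal ω := by
      rw [R.inc_apply, j7, j8, j9]; ring
    have j13 : M.J z ω = ((P[M.J h | Fl hBm (g (k + 1))]) ω - (P[M.J h | Fl hBm (g k)]) ω) -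
        (B (g (k + 1)).toNNReal ω - B (g k).toNNReal ω) -
        D (g k) * ((P[M.J x | Fl hBm (g (k + 1))]) ω - (P[M.J x | Fl hBm (g k)]) ω) := by
      rw [hz, zz, j4, j5, ← j1, ← j2, j6, j7']; ring
    rw [e1, j10, j11, j13, Finset.sum_range_succ]
    set a := (P[M.J h | Fl hBm (g (k + 1))]) ω
    set b := (P[M.J h | Fl hBm (g k)]) ω
    set c := (P[M.J x | Fl hBm (g (k + 1))]) ω
    set d := (P[M.J x | Fl hBm (g k)]) ω
    have e2 : (D (g k))⁻¹ * (b - D (g k) * d) = (D (g k))⁻¹ * b - d := by field_simp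
    have e3 : (D (g (k + 1)))⁻¹ * (a - D (g (k + 1)) * c) = (D (g (k + 1)))⁻¹ * a - c := by
      field_simp
    rw [e2] at ih
    rw [e3]
    have e4 : (D (g k))⁻¹ * (a - b - (B (g (k + 1)).toNNReal ω - B (g k).toNNReal ω) -
        D (g k) * (c - d)) = (D (g k))⁻¹ * a - (D (g k))⁻¹ * b -
        (D (g k))⁻¹ * (B (g (k + 1)).toNNReal ω - B (g k).toNNReal ω) - (c - d) := by
      field_simp
    rw [e4]
    have e5 : (D (g k))⁻¹ * a ≤ (D (g (k + 1)))⁻¹ * a := mul_le_mul_of_nonneg_right hEk j12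
    linarith

/-- **comparison of two times** -/
theorem s3_frame [IsProbabilityMeasure P] (hB : IsPreBrownianReal B P) {κ : ℝ}
    (hξ : M.J ξ =ᵐ[P] fun ω => κ + B 1 ω) (L : LCP M ξ 0 D x) (hPrf : Prf D) (hD1 : 0 ≤ D 1)
    {s s' : ℝ} (hs : 0 ≤ s) (hss : s < s') (hs' : s' < 1) :
    ∀ᵐ ω ∂P, c1 * √(1 - s') * γ.real (Ici (-(XX (P[M.J (ξ + R.Dop D x) | Fl hBm s])
      (P[M.J x | Fl hBm s]) (D s) ω) / (D s * √(K D s - K D s')))) ≤
      (P[M.J (ξ + R.Dop D x) | Fl hBm s]) ω := by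
  have hbm := bm_of_brown hBm hB
  have hle : ∀ t, Fl hBm t ≤ mΩ := fun t => (brownianFiltration B hBm).le _
  set h : H := ξ + R.Dop D x with hh
  have hh0 : 0 ≤ᵐ[P] M.J h := by
    have := L.h_nonneg
    rwa [zero_smul, add_zero] at this
  have hhi : Integrable (M.J h) P := (M.memLp h).integrable (by norm_num)
  have hDs : 0 < D s := hPrf.pos s ⟨hs, hss.trans hs'⟩
  have hDs' : 0 < D s' := hPrf.pos s' ⟨hs.trans hss.le, hs'⟩
  set v : ℝ := K D s - K D s' with hv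
  have hv0 : 0 < v := by
    have h1 := hPrf.K_dec hs hss.le hs'
    have h2 : 0 < (s' - s) * (D s)⁻¹ ^ 2 := mul_pos (by linarith) (by positivity)
    linarith
  set X : Ω → ℝ := fun ω => (P[M.J h | Fl hBm s]) ω - D s * (P[M.J x | Fl hBm s]) ω with hX
  set X' : Ω → ℝ := fun ω => (P[M.J h | Fl hBm s']) ω - D s' * (P[M.J x | Fl hBm s']) ω with hX'
  set Y : Ω → ℝ := fun ω => (D s)⁻¹ * X ω with hY
  have mX : Measurable[Fl hBm s] X :=
    stronglyMeasurable_condExp.measurable.sub (stronglyMeasurable_condExp.measurable.const_mul _)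
  have mX' : Measurable[Fl hBm s'] X' :=
    stronglyMeasurable_condExp.measurable.sub (stronglyMeasurable_condExp.measurable.const_mul _)
  have mY : Measurable[Fl hBm s] Y := mX.const_mul _
  have iY : Integrable Y P :=
    ((integrable_condExp).sub ((integrable_condExp).const_mul _)).const_mul _
  set A' : Set Ω := {ω | 0 ≤ X' ω} with hA'
  have mA' : MeasurableSet A' := measurableSet_le measurable_const (mX'.mono (hle _) le_rfl)
  set N : ℕ → Ω → ℝ := fun n ω => ∑ i ∈ Finset.range (n + 1), (D (gr s s' n i))⁻¹ *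
    (B (gr s s' n (i + 1)).toNNReal ω - B (gr s s' n i).toNNReal ω) with hN
  set Rn : ℕ → Ω → ℝ := fun n => M.J (SS R D x (gr s s' n) (n + 1)) with hRn
  have mN : ∀ n, Measurable (N n) := fun n => by
    refine Finset.measurable_sum _ fun i _ => ?_
    exact ((hBm _).sub (hBm _)).const_mul _
  have igN : ∀ n, IG P (Fl hBm s) (N n) (vs D s s' n).toNNReal := by
    intro n
    have h1 := (IG_wsum hbm (gr_mono hss.le n) (by rw [gr_zero]; exact hs) (n := n + 1)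
      (by rw [gr_last]; exact hs'.le) (fun i => (D (gr s s' n i))⁻¹)).2
    rw [gr_zero] at h1
    have h2 : (∑ i ∈ Finset.range (n + 1), NNReal.mk ((D (gr s s' n i))⁻¹ ^ 2) (sq_nonneg _) *
        (gr s s' n (i + 1) - gr s s' n i).toNNReal) = (vs D s s' n).toNNReal := by
      rw [← NNReal.coe_inj, Real.coe_toNNReal _ (vs_pos hPrf hs hss hs' n).le, NNReal.coe_sum, vs]
      refine Finset.sum_congr rfl fun i _ => ?_
      rw [NNReal.coe_mul, gr_succ, Real.coe_toNNReal _ (div_nonneg (by linarith) (by positivity))]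
      rfl
    rw [h2] at h1
    exact h1
  -- the error tends to zero
  have lr : Tendsto (fun n => ‖SS R D x (gr s s' n) (n + 1)‖ ^ 2) atTop (𝓝 0) := by
    have huc : UniformContinuousOn D (Icc 0 1) :=
      isCompact_Icc.uniformContinuousOn_of_continuous L.cont
    rw [Metric.tendsto_atTop]
    intro ε hε
    set δ : ℝ := √(ε / 2) / ((D s')⁻¹ * (‖x‖ + 1)) with hδ
    have hE : 0 < (D s')⁻¹ := inv_pos.2 hDs'
    have hδ0 : 0 < δ := by positivity
    obtain ⟨ρ, hρ, huc⟩ := Metric.uniformContinuousOn_iff.1 huc δ hδ0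
    have hm := (tendsto_mesh (s' - s)).eventually_lt_const hρ
    obtain ⟨n0, hn0⟩ := eventually_atTop.1 hm
    refine ⟨n0, fun n hn => ?_⟩
    have hmesh := hn0 n hn
    have hmono := gr_mono hss.le n
    have hinc : ∀ i < n + 1, D (gr s s' n i) - D (gr s s' n (i + 1)) ≤ δ := by
      intro i hi
      have h0 := gr_mem hss.le (n := n) hi.le
      have h1 := gr_mem hss.le (n := n) (show i + 1 ≤ n + 1 from hi)
      have h2 := huc _ ⟨hs.trans h0.1, h0.2.trans hs'.le⟩ _ ⟨hs.trans h1.1, h1.2.trans hs'.le⟩ (by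
        rw [Real.dist_eq, abs_sub_comm, gr_succ, abs_of_nonneg (div_nonneg (by linarith)
          (by positivity))]
        exact hmesh)
      rw [Real.dist_eq] at h2
      exact (le_abs_self _).trans h2.le
    have h3 := SS_norm (R := R) (x := x) L.cont L.anti hPrf.pos hs hs' hmono (gr_zero s s' n)
      (n := n + 1) (gr_last s s' n) hinc (n + 1) le_rfl
    rw [Real.dist_eq, sub_zero, abs_of_nonneg (sq_nonneg _)]
    refine lt_of_le_of_lt h3 ?_
    have h4 : ‖R.P (gr s s' n (n + 1)) x‖ ^ 2 - ‖R.P s x‖ ^ 2 ≤ (‖x‖ + 1) ^ 2 := by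
      have h5 : ‖R.P (gr s s' n (n + 1)) x‖ ≤ ‖x‖ := by
        rw [gr_last]; exact R.norm_P_le hs'.le x
      have h6 : ‖R.P (gr s s' n (n + 1)) x‖ ^ 2 ≤ (‖x‖ + 1) ^ 2 := by
        have := norm_nonneg (R.P (gr s s' n (n + 1)) x)
        gcongr; linarith
      have := sq_nonneg ‖R.P s x‖
      linarith
    calc ((D s')⁻¹ * δ) ^ 2 * (‖R.P (gr s s' n (n + 1)) x‖ ^ 2 - ‖R.P s x‖ ^ 2)
        ≤ ((D s')⁻¹ * δ) ^ 2 * (‖x‖ + 1) ^ 2 := by gcongr
      _ = (((D s')⁻¹ * (‖x‖ + 1)) * δ) ^ 2 := by ring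
      _ = (√(ε / 2)) ^ 2 := by
          rw [hδ]
          congr 1
          have : (D s')⁻¹ * (‖x‖ + 1) ≠ 0 := by positivity
          field_simp
      _ = ε / 2 := Real.sq_sqrt (by positivity)
      _ < ε := by linarith
  have hRint : ∀ n, Integrable (fun ω => Rn n ω ^ 2) P := fun n => (M.memLp _).integrable_sq
  have hRbd : ∀ n, ∫ ω, Rn n ω ^ 2 ∂P ≤ ‖SS R D x (gr s s' n) (n + 1)‖ ^ 2 := fun n =>
    (M.norm_sq _).le
  have hA : ∀ n, ∀ᵐ ω ∂P, 0 ≤ Y ω + N n ω + Rn n ω → ω ∈ A' := by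
    intro n
    have h1 := tele hB hξ L hPrf.pos hs hs' (gr_mono hss.le n) (gr_zero s s' n)
      (n := n + 1) (gr_last s s' n) (n + 1) le_rfl
    filter_upwards [h1] with ω h1 h2
    rw [gr_last] at h1
    have h3 : 0 ≤ (D s')⁻¹ * X' ω := le_trans h2 h1
    exact nonneg_of_mul_nonneg_right h3 (inv_pos.2 hDs')
  have hprob : ∀ C, MeasurableSet[Fl hBm s] C →
      ∫ ω in C, γ.real (Ici (-(Y ω) / √v)) ∂P ≤ P.real (C ∩ A') := fun C hC =>
    s3_prob (hle s) mY iY mN igN hv0 (vs_pos hPrf hs hss hs') (vs_lim hPrf hs hss hs') hRint hRbd lr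
      hA hC
  have hHp : ∀ᵐ ω ∂P, ω ∈ A' → c1 * √(1 - s') ≤ (P[M.J h | Fl hBm s']) ω := by
    filter_upwards [s1_frame hB hξ L hD1 (s := s') ⟨hs.trans hss.le, hs'⟩] with ω h1 h2
    have h3 := phi_ge (1 - s') _ h2
    rw [mul_comm]
    exact h3.trans h1
  have hmono : Fl hBm s ≤ Fl hBm s' := hbm.mono s s' hs hss.le hs'.le
  have heq : ∀ C, MeasurableSet[Fl hBm s] C → ∫ ω in C, (P[M.J h | Fl hBm s']) ω ∂P =
      ∫ ω in C, (P[M.J h | Fl hBm s]) ω ∂P := by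
    intro C hC
    rw [setIntegral_condExp (hle s') hhi (hmono C hC), setIntegral_condExp (hle s) hhi hC]
  have hfin := s3_abs (hle s) (a := c1 * √(1 - s')) mY
    stronglyMeasurable_condExp.measurable integrable_condExp integrable_condExp hprob mA'
    (mul_nonneg c1_pos.le (Real.sqrt_nonneg _)) hHp (condExp_nonneg hh0) (condExp_nonneg hh0) heq
  filter_upwards [hfin] with ω h1
  have h2 : -(XX (P[M.J h | Fl hBm s]) (P[M.J x | Fl hBm s]) (D s) ω) / (D s * √v) =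
      -(Y ω) / √v := by
    have h3 : XX (P[M.J h | Fl hBm s]) (P[M.J x | Fl hBm s]) (D s) ω = X ω := rfl
    have hsv : 0 < √v := Real.sqrt_pos.2 hv0
    rw [h3, hY]
    field_simp
  rw [h2]
  exact h1

end Frame

end Crest.Agent.R146.Expo_778
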