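import Mathlib

/-!
# Real analysis for the exponents package of row 146 (helper778)

* `bounds_of_lim`, `lim_of_bounds`: `log f / log x → a` versus `x^(a+ε) ≤ f x ≤ x^(a-ε)`;
* `ev_const`, `ev_exp`: constants and `exp (-k x^(-b))` are absorbed by small powers;
* `ev_rpow`: substitution `x ↦ x^β`;
* `dyadic`: from dyadic shells to the distribution function.
-/

set_option autoImplicit false

open MeasureTheory Real Filter Topology
open scoped ENNReal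

namespace Crest.Agent.R146.Exps_778

lemma ev_lt (a : ℝ) (ha : 0 < a) : ∀ᶠ x in 𝓝[>] (0 : ℝ), 0 < x ∧ x < a := by
  filter_upwards [Ioo_mem_nhdsGT ha] with x hx using hx

lemma bounds_of_lim {f : ℝ → ℝ} {a : ℝ} (hf : ∀ᶠ x in 𝓝[>] (0 : ℝ), 0 < f x)
    (h : Tendsto (fun x => log (f x) / log x) (𝓝[>] 0) (𝓝 a)) {ε : ℝ} (hε : 0 < ε) :
    ∀ᶠ x in 𝓝[>] (0 : ℝ), x ^ (a + ε) ≤ f x ∧ f x ≤ x ^ (a - ε) := by
  have h1 : ∀ᶠ x in 𝓝[>] (0 : ℝ), log (f x) / log x ∈ Set.Ioo (a - ε) (a + ε) :=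
    h (Ioo_mem_nhds (by linarith) (by linarith))
  filter_upwards [hf, h1, ev_lt 1 one_pos] with x h2 h3 h4
  have hl : log x < 0 := log_neg h4.1 h4.2
  obtain ⟨h5, h6⟩ := h3
  rw [lt_div_iff_of_neg hl] at h5
  rw [div_lt_iff_of_neg hl] at h6
  constructor
  · rw [rpow_def_of_pos h4.1, ← exp_log h2]
    apply exp_le_exp.2
    linarith
  · rw [rpow_def_of_pos h4.1, ← exp_log h2]
    apply exp_le_exp.2
    linarith

lemma lim_of_bounds {f : ℝ → ℝ} {a : ℝ}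
    (h : ∀ ε : ℝ, 0 < ε → ∀ᶠ x in 𝓝[>] (0 : ℝ), x ^ (a + ε) ≤ f x ∧ f x ≤ x ^ (a - ε)) :
    Tendsto (fun x => log (f x) / log x) (𝓝[>] 0) (𝓝 a) := by
  rw [Metric.tendsto_nhds]
  intro ε hε
  filter_upwards [h (ε / 2) (by positivity), ev_lt 1 one_pos] with x h1 h4
  have hl : log x < 0 := log_neg h4.1 h4.2
  obtain ⟨h2, h3⟩ := h1
  have hp : 0 < x ^ (a + ε / 2) := rpow_pos_of_pos h4.1 _
  have hf : 0 < f x := hp.trans_le h2
  have h5 := log_le_log hp h2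
  have h6 := log_le_log hf h3
  rw [log_rpow h4.1] at h5 h6
  rw [Real.dist_eq, abs_lt]
  constructor
  · have : a - ε / 2 ≤ log (f x) / log x := by rw [le_div_iff_of_neg hl]; exact h6
    linarith
  · have : log (f x) / log x ≤ a + ε / 2 := by rw [div_le_iff_of_neg hl]; exact h5
    linarith

lemma ev_const (C : ℝ) {δ : ℝ} (hδ : 0 < δ) : ∀ᶠ x in 𝓝[>] (0 : ℝ), C ≤ x ^ (-δ) :=
  (tendsto_rpow_neg_nhdsGT_zero (neg_lt_zero.2 hδ)).eventually_ge_atTop C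

/-- `C x^b ≤ x^a` for small `x`, `a < b` -/
lemma ev_mul (C : ℝ) {a b : ℝ} (hab : a < b) : ∀ᶠ x in 𝓝[>] (0 : ℝ), C * x ^ b ≤ x ^ a := by
  filter_upwards [ev_const C (sub_pos.2 hab), ev_lt 1 one_pos] with x h1 h2
  have h3 : x ^ a = x ^ (-(b - a)) * x ^ b := by
    rw [← rpow_add h2.1]; congr 1; ring
  rw [h3]
  exact mul_le_mul_of_nonneg_right h1 (rpow_pos_of_pos h2.1 _).le

lemma ev_exp (C : ℝ) {k b : ℝ} (a : ℝ) (hk : 0 < k) (hb : 0 < b) :
    ∀ᶠ x in 𝓝[>] (0 : ℝ), C * exp (-(k * x ^ (-b))) ≤ x ^ a := by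
  have h1 := tendsto_rpow_mul_exp_neg_mul_atTop_nhds_zero (a / b) k hk
  have h2 : Tendsto (fun x : ℝ => C * (x ^ (a / b) * exp (-k * x))) atTop (𝓝 (C * 0)) :=
    h1.const_mul C
  rw [mul_zero] at h2
  have h3 : ∀ᶠ y in atTop, C * (y ^ (a / b) * exp (-k * y)) < 1 := h2.eventually_lt_const one_pos
  have h4 := (tendsto_rpow_neg_nhdsGT_zero (neg_lt_zero.2 hb)).eventually h3
  filter_upwards [h4, ev_lt 1 one_pos] with x h5 h6
  have h7 : (x ^ (-b)) ^ (a / b) = x ^ (-a) := by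
    rw [← rpow_mul h6.1.le]; congr 1; field_simp
  rw [h7] at h5
  have h8 : 0 < x ^ a := rpow_pos_of_pos h6.1 _
  have h9 : x ^ a * x ^ (-a) = 1 := by rw [← rpow_add h6.1]; simp
  calc C * exp (-(k * x ^ (-b))) = x ^ a * (C * (x ^ (-a) * exp (-k * x ^ (-b)))) := by
        rw [show -(k * x ^ (-b)) = -k * x ^ (-b) by ring]
        calc C * exp (-k * x ^ (-b)) = (x ^ a * x ^ (-a)) * (C * exp (-k * x ^ (-b))) := by
              rw [h9, one_mul]
          _ = _ := by ring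
    _ ≤ x ^ a * 1 := mul_le_mul_of_nonneg_left h5.le h8.le
    _ = x ^ a := mul_one _

lemma ev_rpow {p : ℝ → Prop} {β : ℝ} (hβ : 0 < β) (h : ∀ᶠ x in 𝓝[>] (0 : ℝ), p x) :
    ∀ᶠ x in 𝓝[>] (0 : ℝ), p (x ^ β) := by
  have h1 : Tendsto (fun x : ℝ => x ^ β) (𝓝[>] 0) (𝓝[>] 0) := by
    rw [tendsto_nhdsWithin_iff]
    constructor
    · have h2 : ContinuousAt (fun x : ℝ => x ^ β) 0 := continuousAt_rpow_const 0 β (Or.inr hβ.le)
      have h3 : Tendsto (fun x : ℝ => x ^ β) (𝓝 0) (𝓝 ((0 : ℝ) ^ β)) := h2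
      rw [zero_rpow hβ.ne'] at h3
      exact h3.mono_left nhdsWithin_le_nhds
    · filter_upwards [self_mem_nhdsWithin] with x hx
      exact rpow_pos_of_pos hx _
  exact h1.eventually h

/-- choice of a small parameter by continuity -/
lemma small_param {φ : ℝ → ℝ} (hφ : ContinuousAt φ 0) {ε δ1 : ℝ} (hε : 0 < ε) (hδ1 : 0 < δ1) :
    ∃ δ, 0 < δ ∧ δ < δ1 ∧ |φ δ - φ 0| < ε := by
  have h1 : ∀ᶠ x in 𝓝 (0 : ℝ), |φ x - φ 0| < ε := by
    have := Metric.tendsto_nhds.1 hφ ε hε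
    simpa [Real.dist_eq] using this
  have h2 : ∀ᶠ x in 𝓝[>] (0 : ℝ), |φ x - φ 0| < ε := h1.filter_mono nhdsWithin_le_nhds
  obtain ⟨x, h3, h4⟩ := (h2.and (ev_lt δ1 hδ1)).exists
  exact ⟨x, h4.1, h4.2, h3⟩

section
variable {Ω : Type*} [MeasurableSpace Ω] {P : Measure Ω} [IsFiniteMeasure P]

lemma dyadic {f : Ω → ℝ} {K a u0 : ℝ} (hK : 0 ≤ K) (ha : 0 < a)
    (hb : ∀ u, 0 < u → u < u0 → P.real {ω | u / 2 < f ω ∧ f ω ≤ u} ≤ K * u ^ a) :
    ∀ u, 0 < u → u < u0 → P.real {ω | 0 < f ω ∧ f ω ≤ u} ≤ K / (1 - (1 / 2) ^ a) * u ^ a := by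
  intro u hu hu0
  set r : ℝ := (1 / 2) ^ a with hr
  have hr0 : 0 < r := rpow_pos_of_pos (by norm_num) _
  have hr1 : r < 1 := rpow_lt_one (by norm_num) (by norm_num) ha
  have hsub : {ω | 0 < f ω ∧ f ω ≤ u} ⊆
      ⋃ k : ℕ, {ω | u * (1 / 2) ^ k / 2 < f ω ∧ f ω ≤ u * (1 / 2) ^ k} := by
    intro ω ⟨h1, h2⟩
    rw [Set.mem_iUnion]
    have hex : ∃ k : ℕ, u * (1 / 2) ^ k < f ω := by
      have h3 : Tendsto (fun k : ℕ => u * (1 / 2 : ℝ) ^ k) atTop (𝓝 (u * 0)) :=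
        (tendsto_pow_atTop_nhds_zero_of_lt_one (by norm_num) (by norm_num)).const_mul u
      rw [mul_zero] at h3
      exact (h3.eventually_lt_const h1).exists
    classical
    have hne : Nat.find hex ≠ 0 := by
      intro h0
      have := Nat.find_spec hex
      rw [h0] at this
      simp at this
      linarith
    obtain ⟨k, hk⟩ := Nat.exists_eq_succ_of_ne_zero hne
    refine ⟨k, ?_, ?_⟩
    · have h3 := Nat.find_spec hex
      rw [hk] at h3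
      calc u * (1 / 2) ^ k / 2 = u * (1 / 2) ^ (k.succ) := by rw [pow_succ]; ring
        _ < f ω := h3
    · have h3 : ¬ (u * (1 / 2) ^ k < f ω) := Nat.find_min hex (by omega)
      exact not_lt.1 h3
  have h1 : P {ω | 0 < f ω ∧ f ω ≤ u} ≤ ∑' k : ℕ, ENNReal.ofReal (K * u ^ a * r ^ k) := by
    refine (measure_mono hsub).trans ((measure_iUnion_le _).trans (ENNReal.tsum_le_tsum fun k => ?_))
    have hk0 : 0 < u * (1 / 2 : ℝ) ^ k := by positivity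
    have hk1 : u * (1 / 2 : ℝ) ^ k ≤ u := by
      have : (1 / 2 : ℝ) ^ k ≤ 1 := pow_le_one₀ (by norm_num) (by norm_num)
      nlinarith
    have h2 := hb (u * (1 / 2) ^ k) hk0 (hk1.trans_lt hu0)
    have h3 : P {ω | u * (1 / 2) ^ k / 2 < f ω ∧ f ω ≤ u * (1 / 2) ^ k} =
        ENNReal.ofReal (P.real {ω | u * (1 / 2) ^ k / 2 < f ω ∧ f ω ≤ u * (1 / 2) ^ k}) := by
      rw [measureReal_def, ENNReal.ofReal_toReal (measure_ne_top _ _)]
    rw [h3]
    refine ENNReal.ofReal_le_ofReal (h2.trans (le_of_eq ?_))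
    rw [mul_rpow hu.le (by positivity), ← rpow_natCast, ← rpow_mul (by norm_num), mul_comm (k : ℝ) a,
      rpow_mul (by norm_num), rpow_natCast]
    ring
  have hsum : Summable fun k : ℕ => K * u ^ a * r ^ k :=
    (summable_geometric_of_lt_one hr0.le hr1).mul_left _
  have hKu : 0 ≤ K * u ^ a := mul_nonneg hK (rpow_pos_of_pos hu _).le
  rw [← ENNReal.ofReal_tsum_of_nonneg (fun k => mul_nonneg hKu (pow_nonneg hr0.le _)) hsum,
    tsum_mul_left, tsum_geometric_of_lt_one hr0.le hr1] at h1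
  have h4 : P.real {ω | 0 < f ω ∧ f ω ≤ u} ≤ K * u ^ a * (1 - r)⁻¹ := by
    rw [measureReal_def]
    refine ENNReal.toReal_le_of_le_ofReal ?_ h1
    have : 0 < 1 - r := by linarith
    positivity
  refine h4.trans (le_of_eq ?_)
  ring

end

end Crest.Agent.R146.Exps_778
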