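import Mathlib
import Crest.Agent.R146.SnapB_778

/-!
# Snapshot estimates, lower bounds (helper778), exponents package of row 146

`Snap.G_low`: `c0 τ ≤ M κ (M² √τ · P(0<h≤M²√τ) + √τ e^{-M²/4}) + 2 C e^{-M²/4}`;
`Snap.F_low`: `c0 τ ≤ M √τ (M² κ · P(0<λ≤M²κ) + κ e^{-M²/4}) + 2 C e^{-M²/4}`.
-/

set_option autoImplicit false

open MeasureTheory ProbabilityTheory Real
open scoped ENNReal

namespace Crest.Agent.R146.Snap_778
open Gauss_778

section gen
variable {Ω : Type*} {F : MeasurableSpace Ω} [m0 : MeasurableSpace Ω] {P : Measure Ω}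

/-- the product `Hf · g` is negligible where the martingale `Hf` of `f` is large -/
lemma tail_gen (hF : F ≤ m0) {f g Hf : Ω → ℝ} {r C M : ℝ} (mf : Measurable f) (_mg : Measurable g)
    (mH : Measurable[F] Hf) (fg : ∀ᵐ ω ∂P, f ω * g ω = 0) (hr : 0 < r) (hM : 0 ≤ M) (hC : 0 ≤ C)
    (em : ∀ (θ : ℝ) A, MeasurableSet[F] A →
      ∫⁻ ω in A, ENNReal.ofReal (exp (θ * (f ω - Hf ω))) ∂P ≤
        ENNReal.ofReal (exp (θ ^ 2 * r ^ 2 / 2)) * P A)
    (bH : ∫⁻ ω, ENNReal.ofReal (Hf ω) ^ 2 ∂P ≤ ENNReal.ofReal C)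
    (bg : ∫⁻ ω, ENNReal.ofReal (g ω) ^ 2 ∂P ≤ ENNReal.ofReal C) :
    ∫⁻ ω in {ω | M * r ≤ Hf ω}, ENNReal.ofReal (Hf ω) * ENNReal.ofReal (g ω) ∂P ≤
      ENNReal.ofReal (C * exp (-M ^ 2 / 4)) := by
  have mH' : Measurable Hf := mH.mono hF le_rfl
  set A : Set Ω := {ω | M * r ≤ Hf ω} with hA
  have fA : MeasurableSet[F] A := by
    have := mH (measurableSet_Ici (a := M * r)); exact this
  have mA := hF _ fA
  set η : ℝ := exp (-M ^ 2 / 4) with hη
  have hη0 : 0 < η := exp_pos _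
  set Y : Ω → ℝ≥0∞ := A.indicator fun ω => ENNReal.ofReal (Hf ω) ^ 2 with hY
  have mY : Measurable[F] Y :=
    Measurable.indicator ((ENNReal.measurable_ofReal.comp mH).pow_const 2) fA
  have e0 := emY hF (P := P) (mf.sub mH').aemeasurable em (-M / r) mY
  have e1 : ∫⁻ ω, Y ω ∂P ≤ ENNReal.ofReal C := by
    refine le_trans (lintegral_mono fun ω => ?_) bH
    exact Set.indicator_le_self _ _ ω
  have e2 : ∫⁻ ω in A, ENNReal.ofReal (Hf ω) * ENNReal.ofReal (g ω) ∂P ≤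
      ∫⁻ ω, (ENNReal.ofReal (1 / (2 * η) * exp (-M ^ 2)) *
        (Y ω * ENNReal.ofReal (exp (-M / r * (f ω - Hf ω)))) +
        ENNReal.ofReal (η / 2) * ENNReal.ofReal (g ω) ^ 2) ∂P := by
    rw [← lintegral_indicator mA]
    refine lintegral_mono_ae ?_
    filter_upwards [fg] with ω hfg
    by_cases hω : ω ∈ A
    · rw [Set.indicator_of_mem hω]
      by_cases hg : g ω = 0
      · rw [hg]; simp
      have hf0 : f ω = 0 := by
        rcases mul_eq_zero.1 hfg with h | h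
        · exact h
        · exact absurd h hg
      have hHM : M * r ≤ Hf ω := hω
      have hH0 : 0 ≤ Hf ω := le_trans (by positivity) hHM
      rw [hY]
      simp only [Set.indicator_of_mem hω]
      rcases le_or_gt (g ω) 0 with hg0 | hg0
      · rw [ENNReal.ofReal_of_nonpos hg0]; simp
      rw [← ENNReal.ofReal_pow hH0, ← ENNReal.ofReal_pow hg0.le, ← ENNReal.ofReal_mul hH0,
        ← ENNReal.ofReal_mul (by positivity), ← ENNReal.ofReal_mul (by positivity),
        ← ENNReal.ofReal_mul (by positivity), ← ENNReal.ofReal_add (by positivity) (by positivity)]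
      apply ENNReal.ofReal_le_ofReal
      rw [hf0]
      have h1 : exp (-M ^ 2) * exp (-M / r * (0 - Hf ω)) ≥ 1 := by
        rw [← exp_add]
        apply one_le_exp
        have : -M / r * (0 - Hf ω) = (M / r) * Hf ω := by ring
        rw [this]
        have h2 : (M / r) * (M * r) ≤ (M / r) * Hf ω :=
          mul_le_mul_of_nonneg_left hHM (by positivity)
        have h3 : (M / r) * (M * r) = M ^ 2 := by field_simp
        linarith
      have h2 : Hf ω * g ω ≤ 1 / (2 * η) * (Hf ω) ^ 2 + η / 2 * g ω ^ 2 := by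
        have h3 : 0 ≤ (Hf ω - η * g ω) ^ 2 := sq_nonneg _
        have h4 : 1 / (2 * η) * (Hf ω - η * g ω) ^ 2 =
            1 / (2 * η) * (Hf ω) ^ 2 - Hf ω * g ω + η / 2 * g ω ^ 2 := by field_simp; ring
        have h5 : 0 ≤ 1 / (2 * η) * (Hf ω - η * g ω) ^ 2 := by positivity
        linarith
      have h6 : 1 / (2 * η) * (Hf ω) ^ 2 ≤
          1 / (2 * η) * exp (-M ^ 2) * (Hf ω ^ 2 * exp (-M / r * (0 - Hf ω))) := by
        have h7 : 0 ≤ 1 / (2 * η) * (Hf ω) ^ 2 := by positivity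
        calc 1 / (2 * η) * (Hf ω) ^ 2 = 1 / (2 * η) * (Hf ω) ^ 2 * 1 := (mul_one _).symm
          _ ≤ 1 / (2 * η) * (Hf ω) ^ 2 * (exp (-M ^ 2) * exp (-M / r * (0 - Hf ω))) :=
              mul_le_mul_of_nonneg_left h1 h7
          _ = _ := by ring
      linarith
    · rw [Set.indicator_of_notMem hω]; exact bot_le
  refine e2.trans ?_
  rw [lintegral_add_left' (by
      have := mY.mono hF le_rfl
      fun_prop), lintegral_const_mul' _ _ ENNReal.ofReal_ne_top,
    lintegral_const_mul' _ _ ENNReal.ofReal_ne_top]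
  refine (add_le_add (mul_le_mul_right (e0.trans (mul_le_mul_right e1 _)) _)
    (mul_le_mul_right bg _)).trans (le_of_eq ?_)
  rw [← ENNReal.ofReal_mul (by positivity), ← ENNReal.ofReal_mul (by positivity),
    ← ENNReal.ofReal_mul (by positivity), ← ENNReal.ofReal_add (by positivity) (by positivity)]
  congr 1
  have h1 : (-M / r) ^ 2 * r ^ 2 / 2 = M ^ 2 / 2 := by field_simp
  rw [h1]
  have h2 : exp (-M ^ 2) * exp (M ^ 2 / 2) = η * η := by
    rw [hη, ← exp_add, ← exp_add]; congr 1; ring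
  calc 1 / (2 * η) * exp (-M ^ 2) * (exp (M ^ 2 / 2) * C) + η / 2 * C
      = 1 / (2 * η) * (exp (-M ^ 2) * exp (M ^ 2 / 2)) * C + η / 2 * C := by ring
    _ = C * η := by rw [h2]; field_simp; ring

/-- large values of `f` where its martingale is small -/
lemma tail_gen2 (hF : F ≤ m0) [IsProbabilityMeasure P] {f Hf : Ω → ℝ} {r M : ℝ}
    (mf : Measurable f) (mH : Measurable[F] Hf) (hr : 0 < r) (hM : 4 ≤ M)
    (em : ∀ (θ : ℝ) A, MeasurableSet[F] A →
      ∫⁻ ω in A, ENNReal.ofReal (exp (θ * (f ω - Hf ω))) ∂P ≤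
        ENNReal.ofReal (exp (θ ^ 2 * r ^ 2 / 2)) * P A)
    {A : Set Ω} (fA : MeasurableSet[F] A) (hA : ∀ ω ∈ A, Hf ω ≤ M * r) :
    ∫⁻ ω in A ∩ {ω | M ^ 2 * r < f ω}, ENNReal.ofReal (f ω) ∂P ≤
      ENNReal.ofReal (r * exp (-M ^ 2 / 4)) := by
  have mH' : Measurable Hf := mH.mono hF le_rfl
  have mA := hF _ fA
  have mB : MeasurableSet {ω | M ^ 2 * r < f ω} := measurableSet_lt measurable_const mf
  set Y : Ω → ℝ≥0∞ := A.indicator fun _ => ENNReal.ofReal (r * exp (2 * M - M ^ 2)) with hY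
  have mY : Measurable[F] Y := Measurable.indicator measurable_const fA
  have e0 := emY hF (P := P) (mf.sub mH').aemeasurable em (2 / r) mY
  have e1 : ∫⁻ ω, Y ω ∂P ≤ ENNReal.ofReal (r * exp (2 * M - M ^ 2)) := by
    rw [hY, lintegral_indicator mA, setLIntegral_const]
    calc ENNReal.ofReal (r * exp (2 * M - M ^ 2)) * P A
        ≤ ENNReal.ofReal (r * exp (2 * M - M ^ 2)) * 1 := mul_le_mul_right prob_le_one _
      _ = _ := mul_one _
  have e2 : ∫⁻ ω in A ∩ {ω | M ^ 2 * r < f ω}, ENNReal.ofReal (f ω) ∂P ≤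
      ∫⁻ ω, Y ω * ENNReal.ofReal (exp (2 / r * (f ω - Hf ω))) ∂P := by
    rw [← lintegral_indicator (mA.inter mB)]
    refine lintegral_mono fun ω => ?_
    by_cases hω : ω ∈ A ∩ {ω | M ^ 2 * r < f ω}
    · rw [Set.indicator_of_mem hω, hY]
      simp only [Set.indicator_of_mem hω.1]
      rw [← ENNReal.ofReal_mul (by positivity)]
      apply ENNReal.ofReal_le_ofReal
      have h1 : Hf ω ≤ M * r := hA ω hω.1
      have h2 : M ^ 2 * r < f ω := hω.2
      have h3 : f ω / r + 1 ≤ exp (f ω / r) := add_one_le_exp _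
      have h4 : f ω ≤ r * exp (f ω / r) := by
        have : f ω = r * (f ω / r) := by field_simp
        calc f ω = r * (f ω / r) := this
          _ ≤ r * exp (f ω / r) := mul_le_mul_of_nonneg_left (by linarith) hr.le
      refine h4.trans ?_
      rw [mul_assoc, ← exp_add]
      refine mul_le_mul_of_nonneg_left (exp_le_exp.2 ?_) hr.le
      have h5 : M ^ 2 ≤ f ω / r := by rw [le_div_iff₀ hr]; exact h2.le
      have h6 : Hf ω / r ≤ M := by rw [div_le_iff₀ hr]; exact h1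
      have h7 : 2 / r * (f ω - Hf ω) = 2 * (f ω / r) - 2 * (Hf ω / r) := by ring
      rw [h7]; linarith
    · rw [Set.indicator_of_notMem hω]; exact bot_le
  refine e2.trans (e0.trans ((mul_le_mul_right e1 _).trans ?_))
  rw [← ENNReal.ofReal_mul (by positivity)]
  apply ENNReal.ofReal_le_ofReal
  have h1 : (2 / r) ^ 2 * r ^ 2 / 2 = 2 := by field_simp
  rw [h1]
  calc exp 2 * (r * exp (2 * M - M ^ 2)) = r * exp (2 + (2 * M - M ^ 2)) := by
        rw [exp_add]; ring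
    _ ≤ r * exp (-M ^ 2 / 4) := by
        refine mul_le_mul_of_nonneg_left (exp_le_exp.2 ?_) hr.le
        nlinarith

end gen

section
variable {Ω : Type*} {F : MeasurableSpace Ω} [m0 : MeasurableSpace Ω] {P : Measure Ω}
  {h l H Λ : Ω → ℝ} {D τ κ c0 C : ℝ}

lemma Snap.sh' (S : Snap F P h l H Λ D τ κ c0 C) : ∀ (θ : ℝ) A, MeasurableSet[F] A →
    ∫⁻ ω in A, ENNReal.ofReal (exp (θ * (h ω - H ω))) ∂P ≤
      ENNReal.ofReal (exp (θ ^ 2 * √τ ^ 2 / 2)) * P A := by
  rw [sq_sqrt S.τ0.le]; exact S.sh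

lemma Snap.tailH (S : Snap F P h l H Λ D τ κ c0 C) {M : ℝ} (hM : 0 ≤ M) :
    ∫⁻ ω in {ω | M * √τ ≤ H ω}, ENNReal.ofReal (H ω) * ENNReal.ofReal (Λ ω) ∂P ≤
      ENNReal.ofReal (C * exp (-M ^ 2 / 4)) := by
  have fA : MeasurableSet[F] {ω | M * √τ ≤ H ω} := by
    have := S.mH (measurableSet_Ici (a := M * √τ)); exact this
  have mA := S.hF _ fA
  have h1 := S.wl (Y := {ω | M * √τ ≤ H ω}.indicator fun ω => ENNReal.ofReal (H ω))
    (Measurable.indicator (ENNReal.measurable_ofReal.comp S.mH) fA)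
  have h2 := tail_gen S.hF S.mh S.ml S.mH S.hl (sqrt_pos.2 S.τ0) hM S.C0 S.sh' S.bH S.bl
  refine le_trans (le_of_eq ?_) h2
  rw [← lintegral_indicator mA, ← lintegral_indicator mA]
  calc _ = ∫⁻ ω, {ω | M * √τ ≤ H ω}.indicator (fun ω => ENNReal.ofReal (H ω)) ω *
        ENNReal.ofReal (Λ ω) ∂P := by
        refine lintegral_congr fun ω => ?_
        by_cases hω : ω ∈ {ω | M * √τ ≤ H ω}
        · simp [Set.indicator_of_mem hω]
        · simp [Set.indicator_of_notMem hω]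
    _ = _ := h1.symm
    _ = _ := by
        refine lintegral_congr fun ω => ?_
        by_cases hω : ω ∈ {ω | M * √τ ≤ H ω}
        · simp [Set.indicator_of_mem hω]
        · simp [Set.indicator_of_notMem hω]

lemma Snap.tailL (S : Snap F P h l H Λ D τ κ c0 C) {M : ℝ} (hM : 0 ≤ M) :
    ∫⁻ ω in {ω | M * κ ≤ Λ ω}, ENNReal.ofReal (H ω) * ENNReal.ofReal (Λ ω) ∂P ≤
      ENNReal.ofReal (C * exp (-M ^ 2 / 4)) := by
  have fA : MeasurableSet[F] {ω | M * κ ≤ Λ ω} := by
    have := S.mL (measurableSet_Ici (a := M * κ)); exact this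
  have mA := S.hF _ fA
  have h1 := S.wh (Y := {ω | M * κ ≤ Λ ω}.indicator fun ω => ENNReal.ofReal (Λ ω))
    (Measurable.indicator (ENNReal.measurable_ofReal.comp S.mL) fA)
  have h2 := tail_gen S.hF S.ml S.mh S.mL (by
    filter_upwards [S.hl] with ω h; rw [mul_comm]; exact h) S.κ0 hM S.C0 S.sl S.bL S.bh
  refine le_trans (le_of_eq ?_) h2
  rw [← lintegral_indicator mA, ← lintegral_indicator mA]
  calc _ = ∫⁻ ω, {ω | M * κ ≤ Λ ω}.indicator (fun ω => ENNReal.ofReal (Λ ω)) ω *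
        ENNReal.ofReal (H ω) ∂P := by
        refine lintegral_congr fun ω => ?_
        by_cases hω : ω ∈ {ω | M * κ ≤ Λ ω}
        · rw [Set.indicator_of_mem hω, Set.indicator_of_mem hω, mul_comm]
        · simp [Set.indicator_of_notMem hω]
    _ = _ := h1.symm
    _ = _ := by
        refine lintegral_congr fun ω => ?_
        by_cases hω : ω ∈ {ω | M * κ ≤ Λ ω}
        · simp [Set.indicator_of_mem hω]
        · simp [Set.indicator_of_notMem hω]

/-- common part of the two lower bounds -/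
lemma Snap.low (S : Snap F P h l H Λ D τ κ c0 C) {M : ℝ} (hM : 0 ≤ M) :
    ENNReal.ofReal (c0 * τ) ≤
      ∫⁻ ω in {ω | H ω < M * √τ} ∩ {ω | Λ ω < M * κ}, ENNReal.ofReal (H ω) * ENNReal.ofReal (Λ ω) ∂P
        + ENNReal.ofReal (2 * C * exp (-M ^ 2 / 4)) := by
  rw [← S.charge]
  have hC := S.C0
  have h1 : ∫⁻ ω, ENNReal.ofReal (H ω) * ENNReal.ofReal (Λ ω) ∂P ≤
      ∫⁻ ω in {ω | H ω < M * √τ} ∩ {ω | Λ ω < M * κ}, ENNReal.ofReal (H ω) * ENNReal.ofReal (Λ ω) ∂P
      + (∫⁻ ω in {ω | M * √τ ≤ H ω}, ENNReal.ofReal (H ω) * ENNReal.ofReal (Λ ω) ∂P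
      + ∫⁻ ω in {ω | M * κ ≤ Λ ω}, ENNReal.ofReal (H ω) * ENNReal.ofReal (Λ ω) ∂P) := by
    rw [← setLIntegral_univ (μ := P)]
    refine le_trans (lintegral_mono_set (t := ({ω | H ω < M * √τ} ∩ {ω | Λ ω < M * κ}) ∪
      ({ω | M * √τ ≤ H ω} ∪ {ω | M * κ ≤ Λ ω})) ?_) ?_
    · intro ω _
      rcases lt_or_ge (H ω) (M * √τ) with h1 | h1
      · rcases lt_or_ge (Λ ω) (M * κ) with h2 | h2
        · exact Or.inl ⟨h1, h2⟩
        · exact Or.inr (Or.inr h2)
      · exact Or.inr (Or.inl h1)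
    · refine (lintegral_union_le _ _ _).trans (add_le_add le_rfl ?_)
      exact lintegral_union_le _ _ _
  refine h1.trans (add_le_add le_rfl ((add_le_add (S.tailH hM) (S.tailL hM)).trans (le_of_eq ?_)))
  rw [← ENNReal.ofReal_add (by positivity) (by positivity)]
  congr 1; ring

lemma Snap.G_low (S : Snap F P h l H Λ D τ κ c0 C) {M : ℝ} (hM : 4 ≤ M) :
    c0 * τ ≤ M * κ * (M ^ 2 * √τ * P.real {ω | 0 < h ω ∧ h ω ≤ M ^ 2 * √τ} +
      √τ * exp (-M ^ 2 / 4)) + 2 * C * exp (-M ^ 2 / 4) := by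
  have := S.prob
  have hκ := S.κ0
  have hτ := S.τ0
  have hC := S.C0
  have hs : 0 < √τ := sqrt_pos.2 hτ
  have hM0 : 0 < M := by linarith
  set O : Set Ω := {ω | H ω < M * √τ} ∩ {ω | Λ ω < M * κ} with hO
  have fO : MeasurableSet[F] O := by
    have h1 := S.mH (measurableSet_Iio (a := M * √τ))
    have h2 := S.mL (measurableSet_Iio (a := M * κ))
    exact h1.inter h2
  have mO := S.hF _ fO
  set B : Set Ω := {ω | M ^ 2 * √τ < h ω} with hB
  have mB : MeasurableSet B := measurableSet_lt measurable_const S.mh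
  have e1 : ∫⁻ ω in O, ENNReal.ofReal (H ω) * ENNReal.ofReal (Λ ω) ∂P ≤
      ENNReal.ofReal (M * κ) * ∫⁻ ω in O, ENNReal.ofReal (h ω) ∂P := by
    rw [S.iH O fO, ← lintegral_const_mul' _ _ ENNReal.ofReal_ne_top]
    refine lintegral_mono_ae ?_
    filter_upwards [ae_restrict_mem mO] with ω hω
    rw [mul_comm]
    exact mul_le_mul_left (ENNReal.ofReal_le_ofReal (le_of_lt hω.2)) _
  have e2 : ∫⁻ ω in O, ENNReal.ofReal (h ω) ∂P ≤
      ENNReal.ofReal (M ^ 2 * √τ) * P {ω | 0 < h ω ∧ h ω ≤ M ^ 2 * √τ} +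
      ENNReal.ofReal (√τ * exp (-M ^ 2 / 4)) := by
    rw [← lintegral_inter_add_sdiff (μ := P) (fun ω => ENNReal.ofReal (h ω)) O mB, add_comm]
    refine add_le_add ?_ ?_
    · have mE : MeasurableSet {ω | 0 < h ω ∧ h ω ≤ M ^ 2 * √τ} :=
        (measurableSet_lt measurable_const S.mh).inter (measurableSet_le S.mh measurable_const)
      rw [← lintegral_indicator_one mE, ← lintegral_const_mul' _ _ ENNReal.ofReal_ne_top,
        ← lintegral_indicator (mO.diff mB)]
      refine lintegral_mono fun ω => ?_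
      by_cases hω : ω ∈ O \ B
      · rw [Set.indicator_of_mem hω]
        have hle : h ω ≤ M ^ 2 * √τ := not_lt.1 hω.2
        rcases le_or_gt (h ω) 0 with h0 | h0
        · rw [ENNReal.ofReal_of_nonpos h0]; exact bot_le
        · rw [Set.indicator_of_mem (show ω ∈ {ω | 0 < h ω ∧ h ω ≤ M ^ 2 * √τ} from ⟨h0, hle⟩)]
          simp only [Pi.one_apply, mul_one]
          exact ENNReal.ofReal_le_ofReal hle
      · rw [Set.indicator_of_notMem hω]; exact bot_le
    · exact tail_gen2 S.hF S.mh S.mH hs hM S.sh' fO fun ω hω => le_of_lt hω.1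
  have e3 := S.low (M := M) hM0.le
  have e4 : ENNReal.ofReal (c0 * τ) ≤ ENNReal.ofReal (M * κ) *
      (ENNReal.ofReal (M ^ 2 * √τ) * P {ω | 0 < h ω ∧ h ω ≤ M ^ 2 * √τ} +
      ENNReal.ofReal (√τ * exp (-M ^ 2 / 4))) + ENNReal.ofReal (2 * C * exp (-M ^ 2 / 4)) :=
    e3.trans (add_le_add (e1.trans (mul_le_mul_right e2 _)) le_rfl)
  have e5 : P {ω | 0 < h ω ∧ h ω ≤ M ^ 2 * √τ} =
      ENNReal.ofReal (P.real {ω | 0 < h ω ∧ h ω ≤ M ^ 2 * √τ}) := by
    rw [measureReal_def, ENNReal.ofReal_toReal (measure_ne_top _ _)]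
  rw [e5, ← ENNReal.ofReal_mul (by positivity), ← ENNReal.ofReal_add (by positivity) (by positivity),
    ← ENNReal.ofReal_mul (by positivity), ← ENNReal.ofReal_add (by positivity) (by positivity)] at e4
  exact (ENNReal.ofReal_le_ofReal_iff (by positivity)).1 e4

lemma Snap.F_low (S : Snap F P h l H Λ D τ κ c0 C) {M : ℝ} (hM : 4 ≤ M) :
    c0 * τ ≤ M * √τ * (M ^ 2 * κ * P.real {ω | 0 < l ω ∧ l ω ≤ M ^ 2 * κ} +
      κ * exp (-M ^ 2 / 4)) + 2 * C * exp (-M ^ 2 / 4) := by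
  have := S.prob
  have hκ := S.κ0
  have hτ := S.τ0
  have hC := S.C0
  have hs : 0 < √τ := sqrt_pos.2 hτ
  have hM0 : 0 < M := by linarith
  set O : Set Ω := {ω | H ω < M * √τ} ∩ {ω | Λ ω < M * κ} with hO
  have fO : MeasurableSet[F] O := by
    have h1 := S.mH (measurableSet_Iio (a := M * √τ))
    have h2 := S.mL (measurableSet_Iio (a := M * κ))
    exact h1.inter h2
  have mO := S.hF _ fO
  set B : Set Ω := {ω | M ^ 2 * κ < l ω} with hB
  have mB : MeasurableSet B := measurableSet_lt measurable_const S.ml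
  have e1 : ∫⁻ ω in O, ENNReal.ofReal (H ω) * ENNReal.ofReal (Λ ω) ∂P ≤
      ENNReal.ofReal (M * √τ) * ∫⁻ ω in O, ENNReal.ofReal (l ω) ∂P := by
    rw [S.iL O fO, ← lintegral_const_mul' _ _ ENNReal.ofReal_ne_top]
    refine lintegral_mono_ae ?_
    filter_upwards [ae_restrict_mem mO] with ω hω
    exact mul_le_mul_left (ENNReal.ofReal_le_ofReal (le_of_lt hω.1)) _
  have e2 : ∫⁻ ω in O, ENNReal.ofReal (l ω) ∂P ≤
      ENNReal.ofReal (M ^ 2 * κ) * P {ω | 0 < l ω ∧ l ω ≤ M ^ 2 * κ} +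
      ENNReal.ofReal (κ * exp (-M ^ 2 / 4)) := by
    rw [← lintegral_inter_add_sdiff (μ := P) (fun ω => ENNReal.ofReal (l ω)) O mB, add_comm]
    refine add_le_add ?_ ?_
    · have mE : MeasurableSet {ω | 0 < l ω ∧ l ω ≤ M ^ 2 * κ} :=
        (measurableSet_lt measurable_const S.ml).inter (measurableSet_le S.ml measurable_const)
      rw [← lintegral_indicator_one mE, ← lintegral_const_mul' _ _ ENNReal.ofReal_ne_top,
        ← lintegral_indicator (mO.diff mB)]
      refine lintegral_mono fun ω => ?_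
      by_cases hω : ω ∈ O \ B
      · rw [Set.indicator_of_mem hω]
        have hle : l ω ≤ M ^ 2 * κ := not_lt.1 hω.2
        rcases le_or_gt (l ω) 0 with h0 | h0
        · rw [ENNReal.ofReal_of_nonpos h0]; exact bot_le
        · rw [Set.indicator_of_mem (show ω ∈ {ω | 0 < l ω ∧ l ω ≤ M ^ 2 * κ} from ⟨h0, hle⟩)]
          simp only [Pi.one_apply, mul_one]
          exact ENNReal.ofReal_le_ofReal hle
      · rw [Set.indicator_of_notMem hω]; exact bot_le
    · exact tail_gen2 S.hF S.ml S.mL hκ hM S.sl fO fun ω hω => le_of_lt hω.2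
  have e3 := S.low (M := M) hM0.le
  have e4 : ENNReal.ofReal (c0 * τ) ≤ ENNReal.ofReal (M * √τ) *
      (ENNReal.ofReal (M ^ 2 * κ) * P {ω | 0 < l ω ∧ l ω ≤ M ^ 2 * κ} +
      ENNReal.ofReal (κ * exp (-M ^ 2 / 4))) + ENNReal.ofReal (2 * C * exp (-M ^ 2 / 4)) :=
    e3.trans (add_le_add (e1.trans (mul_le_mul_right e2 _)) le_rfl)
  have e5 : P {ω | 0 < l ω ∧ l ω ≤ M ^ 2 * κ} =
      ENNReal.ofReal (P.real {ω | 0 < l ω ∧ l ω ≤ M ^ 2 * κ}) := by
    rw [measureReal_def, ENNReal.ofReal_toReal (measure_ne_top _ _)]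
  rw [e5, ← ENNReal.ofReal_mul (by positivity), ← ENNReal.ofReal_add (by positivity) (by positivity),
    ← ENNReal.ofReal_mul (by positivity), ← ENNReal.ofReal_add (by positivity) (by positivity)] at e4
  exact (ENNReal.ofReal_le_ofReal_iff (by positivity)).1 e4

end

end Crest.Agent.R146.Snap_778
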