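import Mathlib
import Crest.Agent.R146.SnapC_778
import Crest.Agent.R146.ExpsA_778

/-!
# Exponents of the gap law and of the force law (helper778), row 146

`exponents`: from snapshots at all small `τ` (`Snap`), the comparison `s3` between two times,
`log D / log τ → ν` and `log κ / log τ → 1/2 - ν`, `0 < ν < 1/2`:
`log P(0 < h ≤ u) / log u → 2ν` and `log P(0 < λ ≤ s) / log s → 2ν / (1 - 2ν)`.
-/

set_option autoImplicit false

open MeasureTheory ProbabilityTheory Real Filter Topology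
open scoped ENNReal

namespace Crest.Agent.R146.Exps_778
open Gauss_778 Snap_778

section
variable {Ω : Type*} [m0 : MeasurableSpace Ω] {P : Measure Ω} {h l : Ω → ℝ}
  {F : ℝ → MeasurableSpace Ω} {H Λ : ℝ → Ω → ℝ} {D κ : ℝ → ℝ} {c0 C τ0 ν : ℝ}

/-- upper bound for the gap law -/
lemma G_upper (hτ0 : 0 < τ0) (hν : 0 < ν)
    (S : ∀ τ, 0 < τ → τ < τ0 → Snap (F τ) P h l (H τ) (Λ τ) (D τ) τ (κ τ) c0 C)
    (hD : Tendsto (fun τ => log (D τ) / log τ) (𝓝[>] 0) (𝓝 ν)) {ε : ℝ} (hε : 0 < ε) :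
    ∀ᶠ u in 𝓝[>] (0 : ℝ), P.real {ω | 0 < h ω ∧ h ω ≤ u} ≤ u ^ (2 * ν - ε) := by
  have hprob : IsProbabilityMeasure P := (S (τ0 / 2) (by linarith) (by linarith)).prob
  have hc0 : 0 < c0 := (S (τ0 / 2) (by linarith) (by linarith)).c00
  have hDpos : ∀ᶠ x in 𝓝[>] (0 : ℝ), 0 < D x := by
    filter_upwards [ev_lt τ0 hτ0] with x hx using (S x hx.1 hx.2).D0
  -- choose δ
  obtain ⟨δ, hδ0, hδ1, hδ2⟩ := small_param (φ := fun δ : ℝ => (2 - 2 * δ) * (ν - δ) - 2 * δ)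
    (by fun_prop) (ε := min (ε / 2) ν) (δ1 := 1 / 2) (lt_min (by positivity) hν) (by norm_num)
  have hφ0 : (2 - 2 * 0) * (ν - 0) - 2 * 0 = 2 * ν := by ring
  rw [hφ0] at hδ2
  set a : ℝ := (2 - 2 * δ) * (ν - δ) - 2 * δ with ha
  have ha1 : 2 * ν - ε / 2 < a := by
    have := (abs_lt.1 hδ2).1
    have h2 := min_le_left (ε / 2) ν
    linarith
  have ha0 : 0 < a := by
    have := (abs_lt.1 hδ2).1
    have h2 := min_le_right (ε / 2) ν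
    linarith
  have hc1 := c1_pos
  have hc2 := c2_pos
  set C1 : ℝ := 2 * c0 / c1 + exp 1 * 4 * c0 / (c1 * c2) with hC1
  have hC10 : 0 ≤ C1 := by positivity
  -- shells
  have hβ : 0 < 2 - 2 * δ := by linarith
  have shell : ∀ᶠ u in 𝓝[>] (0 : ℝ),
      P.real {ω | u / 2 < h ω ∧ h ω ≤ u} ≤ (C1 + 1) * u ^ a := by
    filter_upwards [ev_lt 1 one_pos, ev_rpow hβ (bounds_of_lim hDpos hD hδ0),
      ev_rpow hβ (ev_lt τ0 hτ0), ev_exp (exp 1) a (k := 1 / 2) (b := 2 * δ) (by norm_num)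
        (by linarith)] with u hu hDb hτ hex
    set τ : ℝ := u ^ (2 - 2 * δ) with hτdef
    set L : ℝ := u ^ (-δ) with hL
    have hL1 : 1 ≤ L := one_le_rpow_of_pos_of_le_one_of_nonpos hu.1 hu.2.le (by linarith)
    have hsq : √τ = u ^ (1 - δ) := by
      rw [hτdef, sqrt_eq_rpow, ← rpow_mul hu.1.le]; congr 1; ring
    have huL : √τ / L = u := by
      rw [hsq, hL, ← rpow_sub hu.1]
      have : 1 - δ - -δ = 1 := by ring
      rw [this, rpow_one]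
    have h1 := (S τ hτ.1 hτ.2).G_up hL1
    rw [huL] at h1
    have hD0 := (S τ hτ.1 hτ.2).D0
    rw [← ENNReal.ofReal_add (by positivity) (by positivity),
      ← ENNReal.ofReal_add (by positivity) (by positivity)] at h1
    have h2 : P.real {ω | u / 2 < h ω ∧ h ω ≤ u} ≤ 2 * L * D τ * c0 / c1 +
      exp 1 * (1 + L) ^ 2 * D τ * c0 / (c1 * c2) + exp (1 - L ^ 2 / 2) := by
      rw [measureReal_def]
      exact ENNReal.toReal_le_of_le_ofReal (by positivity) h1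
    have hLL : L ^ 2 = u ^ (-(2 * δ)) := by
      rw [hL, ← rpow_natCast, ← rpow_mul hu.1.le]; congr 1; push_cast; ring
    have h3 : 2 * L * D τ * c0 / c1 ≤ (2 * c0 / c1) * (L ^ 2 * D τ) := by
      have : L ≤ L ^ 2 := by nlinarith only [hL1]
      calc 2 * L * D τ * c0 / c1 = (2 * c0 / c1) * (L * D τ) := by ring
        _ ≤ _ := by gcongr
    have h4 : exp 1 * (1 + L) ^ 2 * D τ * c0 / (c1 * c2) ≤
        (exp 1 * 4 * c0 / (c1 * c2)) * (L ^ 2 * D τ) := by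
      have : (1 + L) ^ 2 ≤ 4 * L ^ 2 := by nlinarith only [hL1]
      calc exp 1 * (1 + L) ^ 2 * D τ * c0 / (c1 * c2) =
          (exp 1 * c0 / (c1 * c2)) * ((1 + L) ^ 2 * D τ) := by ring
        _ ≤ (exp 1 * c0 / (c1 * c2)) * (4 * L ^ 2 * D τ) := by gcongr
        _ = _ := by ring
    have h5 : L ^ 2 * D τ ≤ u ^ a := by
      calc L ^ 2 * D τ ≤ L ^ 2 * τ ^ (ν - δ) := by gcongr; exact hDb.2
        _ = u ^ a := by
          rw [hLL, hτdef, ← rpow_mul hu.1.le, ← rpow_add hu.1]; congr 1; rw [ha]; ring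
    have h6 : exp (1 - L ^ 2 / 2) ≤ u ^ a := by
      refine le_trans (le_of_eq ?_) hex
      rw [← exp_add, hLL]; congr 1; ring
    calc P.real {ω | u / 2 < h ω ∧ h ω ≤ u} ≤ _ := h2
      _ ≤ (2 * c0 / c1) * (L ^ 2 * D τ) + (exp 1 * 4 * c0 / (c1 * c2)) * (L ^ 2 * D τ) + u ^ a := by
          linarith
      _ = C1 * (L ^ 2 * D τ) + u ^ a := by rw [hC1]; ring
      _ ≤ C1 * u ^ a + u ^ a := by gcongr
      _ = (C1 + 1) * u ^ a := by ring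
  obtain ⟨u0, hu0, hsh⟩ : ∃ u0 > 0, ∀ u, 0 < u → u < u0 →
      P.real {ω | u / 2 < h ω ∧ h ω ≤ u} ≤ (C1 + 1) * u ^ a := by
    rw [eventually_nhdsWithin_iff] at shell
    obtain ⟨u0, hu0, hh⟩ := Metric.eventually_nhds_iff.1 shell
    refine ⟨u0, hu0, fun u h1 h2 => hh ?_ h1⟩
    rw [Real.dist_eq, sub_zero, abs_of_pos h1]; exact h2
  have hdy := dyadic (P := P) (f := h) (by positivity) ha0 hsh
  filter_upwards [ev_lt u0 hu0, ev_mul ((C1 + 1) / (1 - (1 / 2) ^ a)) (a := 2 * ν - ε) (b := a)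
    (by linarith)] with u hu hm
  exact (hdy u hu.1 hu.2).trans hm

set_option maxHeartbeats 1600000 in
/-- upper bound for the force law -/
lemma F_upper (hτ0 : 0 < τ0) (hν : 0 < ν) (hν' : ν < 1 / 2)
    (S : ∀ τ, 0 < τ → τ < τ0 → Snap (F τ) P h l (H τ) (Λ τ) (D τ) τ (κ τ) c0 C)
    (s3 : ∀ τ' τ, 0 < τ' → τ' < τ → τ < τ0 → κ τ' < κ τ → ∀ᵐ ω ∂P,
      c1 * √τ' * γ.real (Set.Ici (-(XX (H τ) (Λ τ) (D τ) ω) /
        (D τ * √(κ τ ^ 2 - κ τ' ^ 2)))) ≤ H τ ω)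
    (hD : Tendsto (fun τ => log (D τ) / log τ) (𝓝[>] 0) (𝓝 ν))
    (hκ : Tendsto (fun τ => log (κ τ) / log τ) (𝓝[>] 0) (𝓝 (1 / 2 - ν))) {ε : ℝ} (hε : 0 < ε) :
    ∀ᶠ s in 𝓝[>] (0 : ℝ), P.real {ω | 0 < l ω ∧ l ω ≤ s} ≤ s ^ (2 * ν / (1 - 2 * ν) - ε) := by
  have hprob : IsProbabilityMeasure P := (S (τ0 / 2) (by linarith) (by linarith)).prob
  have hc0 : 0 < c0 := (S (τ0 / 2) (by linarith) (by linarith)).c00
  have hDpos : ∀ᶠ x in 𝓝[>] (0 : ℝ), 0 < D x := by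
    filter_upwards [ev_lt τ0 hτ0] with x hx using (S x hx.1 hx.2).D0
  have hκpos : ∀ᶠ x in 𝓝[>] (0 : ℝ), 0 < κ x := by
    filter_upwards [ev_lt τ0 hτ0] with x hx using (S x hx.1 hx.2).κ0
  have hw : 0 < 1 - 2 * ν := by linarith
  have hw2 : 0 < 1 / 2 - ν := by linarith
  have hval : (ν - 2 * 0 - 12 * 0 / (1 - 2 * ν) / 2) / (1 / 2 - ν + 2 * 0) = 2 * ν / (1 - 2 * ν) := by
    field_simp
    ring
  have hpos : 0 < 2 * ν / (1 - 2 * ν) := by positivity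
  -- choose δ
  obtain ⟨δ, hδ0, hδ1, hδ2⟩ := small_param
    (φ := fun δ : ℝ => (ν - 2 * δ - 12 * δ / (1 - 2 * ν) / 2) / (1 / 2 - ν + 2 * δ))
    (by
      refine ContinuousAt.div (by fun_prop) (by fun_prop) ?_
      simp; linarith) (ε := min (ε / 2) (2 * ν / (1 - 2 * ν))) (δ1 := (1 - 2 * ν) / 4)
    (lt_min (by positivity) hpos) (by positivity)
  rw [hval] at hδ2
  set ρ : ℝ := 12 * δ / (1 - 2 * ν) with hρ
  have hρ0 : 0 < ρ := by positivity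
  have hβ0 : 0 < 1 / 2 - ν + 2 * δ := by linarith
  set a : ℝ := (ν - 2 * δ - ρ / 2) / (1 / 2 - ν + 2 * δ) with ha
  have ha1 : 2 * ν / (1 - 2 * ν) - ε / 2 < a := by
    have := (abs_lt.1 hδ2).1
    have h2 := min_le_left (ε / 2) (2 * ν / (1 - 2 * ν))
    linarith
  have ha0 : 0 < a := by
    have := (abs_lt.1 hδ2).1
    have h2 := min_le_right (ε / 2) (2 * ν / (1 - 2 * ν))
    linarith
  have hc1 := c1_pos
  have hc3 := c3_pos
  set C1 : ℝ := 2 * c0 / c1 + 2 * c3 * c0 / c1 ^ 2 with hC1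
  have hC10 : 0 ≤ C1 := by positivity
  -- events in τ
  have evτ : ∀ᶠ τ in 𝓝[>] (0 : ℝ), P.real {ω | τ ^ (1 / 2 - ν + 2 * δ) / 2 < l ω ∧
      l ω ≤ τ ^ (1 / 2 - ν + 2 * δ)} ≤ (C1 + 1) * τ ^ (ν - 2 * δ - ρ / 2) := by
    filter_upwards [ev_lt 1 one_pos, bounds_of_lim hDpos hD hδ0, bounds_of_lim hκpos hκ hδ0,
      ev_lt τ0 hτ0, ev_rpow (β := 1 + ρ) (by linarith) (bounds_of_lim hκpos hκ hδ0),
      ev_rpow (β := 1 + ρ) (by linarith) (ev_lt τ0 hτ0),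
      ev_exp (exp 1) (ν - 2 * δ - ρ / 2) (k := 1 / 2) (b := 2 * δ) (by norm_num) (by linarith),
      ev_const 2 (δ := 2 * δ) (by linarith)]
      with τ hu hDb hκb hτ hκb' hτ' hex h2L
    set τ' : ℝ := τ ^ (1 + ρ) with hτ'def
    set L : ℝ := τ ^ (-δ) with hL
    set s : ℝ := τ ^ (1 / 2 - ν + 2 * δ) with hs
    have hL1 : 1 ≤ L := one_le_rpow_of_pos_of_le_one_of_nonpos hu.1 hu.2.le (by linarith)
    have hL0 : 0 < L := by linarith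
    have hLL : L ^ 2 = τ ^ (-(2 * δ)) := by
      rw [hL, ← rpow_natCast, ← rpow_mul hu.1.le]; congr 1; push_cast; ring
    have hτ'lt : τ' < τ := by
      calc τ' = τ ^ (1 + ρ) := rfl
        _ < τ ^ (1 : ℝ) := rpow_lt_rpow_of_exponent_gt hu.1 hu.2 (by linarith)
        _ = τ := rpow_one τ
    have S1 := S τ hτ.1 hτ.2
    have hκ0 : 0 < κ τ := S1.κ0
    have hD0 : 0 < D τ := S1.D0
    have hκ0' : 0 < κ τ' := (S τ' hτ'.1 hτ'.2).κ0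
    have hs0 : 0 < s := rpow_pos_of_pos hu.1 _
    -- the ratio of the clocks
    have hη : κ τ' ^ 2 * L ^ 2 ≤ κ τ ^ 2 := by
      have h1 : κ τ' * L ≤ κ τ := by
        calc κ τ' * L ≤ τ' ^ (1 / 2 - ν - δ) * L := by gcongr; exact hκb'.2
          _ = τ ^ ((1 + ρ) * (1 / 2 - ν - δ) - δ) := by
              rw [hτ'def, hL, ← rpow_mul hu.1.le, ← rpow_add hu.1]; congr 1
          _ ≤ τ ^ (1 / 2 - ν + δ) := by
              apply rpow_le_rpow_of_exponent_ge hu.1 hu.2.le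
              have h2 : ρ * (1 - 2 * ν) = 12 * δ := by rw [hρ]; field_simp
              have h3 : ρ * δ ≤ ρ * ((1 - 2 * ν) / 4) := mul_le_mul_of_nonneg_left hδ1.le hρ0.le
              have h4 : ρ * ((1 - 2 * ν) / 4) = 3 * δ := by linear_combination (1 / 4) * h2
              have h5 : (1 + ρ) * (1 / 2 - ν - δ) - δ =
                  1 / 2 - ν - 2 * δ + (ρ * (1 - 2 * ν)) / 2 - ρ * δ := by ring
              rw [h5, h2]
              linarith only [h3, h4]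
          _ ≤ κ τ := hκb.1
      calc κ τ' ^ 2 * L ^ 2 = (κ τ' * L) ^ 2 := by ring
        _ ≤ κ τ ^ 2 := by gcongr
    have h2L' : 2 ≤ L ^ 2 := by rw [hLL]; exact h2L
    have h0' : 0 < κ τ' ^ 2 := by positivity
    have h2κ : κ τ' ^ 2 * 2 ≤ κ τ ^ 2 :=
      le_trans (mul_le_mul_of_nonneg_left h2L' h0'.le) hη
    have hκlt2 : κ τ' ^ 2 < κ τ ^ 2 := by linarith only [h0', h2κ]
    have hκlt : κ τ' < κ τ := lt_of_pow_lt_pow_left₀ 2 hκ0.le hκlt2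
    have hv : 0 < κ τ ^ 2 - κ τ' ^ 2 := by linarith
    have hv2 : L ^ 2 * (κ τ ^ 2 / (κ τ ^ 2 - κ τ' ^ 2) - 1) ≤ 2 := by
      have h1 : κ τ ^ 2 / (κ τ ^ 2 - κ τ' ^ 2) - 1 = κ τ' ^ 2 / (κ τ ^ 2 - κ τ' ^ 2) := by
        field_simp; ring
      rw [h1, ← mul_div_assoc, div_le_iff₀ hv]
      linarith only [hη, h2κ]
    have hsκ : s ≤ κ τ / L := by
      rw [le_div_iff₀ hL0]
      calc s * L = τ ^ (1 / 2 - ν + δ) := by
            rw [hs, hL, ← rpow_add hu.1]; congr 1; ring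
        _ ≤ κ τ := hκb.1
    have h1 := S1.F_up hL1 hs0 hsκ hτ'.1 hv (by linarith [sq_nonneg (κ τ')]) hv2
      (s3 τ' τ hτ'.1 hτ'lt hτ.2 hκlt)
    rw [← ENNReal.ofReal_add (by positivity) (by positivity),
      ← ENNReal.ofReal_add (by positivity) (by positivity)] at h1
    have h2 : P.real {ω | s / 2 < l ω ∧ l ω ≤ s} ≤ 2 * c0 * √τ / (c1 * s) +
      c3 * (1 + L) * c0 * D τ * √τ / (c1 ^ 2 * √τ') + exp (1 - L ^ 2 / 2) := by
      rw [measureReal_def]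
      exact ENNReal.toReal_le_of_le_ofReal (by positivity) h1
    have hsq : √τ = τ ^ (1 / 2 : ℝ) := sqrt_eq_rpow τ
    have hsq' : √τ' = τ ^ ((1 + ρ) / 2) := by
      rw [hτ'def, sqrt_eq_rpow, ← rpow_mul hu.1.le]; congr 1; ring
    have h3 : 2 * c0 * √τ / (c1 * s) ≤ (2 * c0 / c1) * τ ^ (ν - 2 * δ - ρ / 2) := by
      have h4 : √τ / s = τ ^ (ν - 2 * δ) := by
        rw [hsq, hs, ← rpow_sub hu.1]; congr 1; ring
      calc 2 * c0 * √τ / (c1 * s) = (2 * c0 / c1) * (√τ / s) := by field_simp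
        _ = (2 * c0 / c1) * τ ^ (ν - 2 * δ) := by rw [h4]
        _ ≤ _ := by
          have h5 : τ ^ (ν - 2 * δ) ≤ τ ^ (ν - 2 * δ - ρ / 2) :=
            rpow_le_rpow_of_exponent_ge hu.1 hu.2.le (by linarith)
          gcongr
    have h4 : c3 * (1 + L) * c0 * D τ * √τ / (c1 ^ 2 * √τ') ≤
        (2 * c3 * c0 / c1 ^ 2) * τ ^ (ν - 2 * δ - ρ / 2) := by
      have h5 : L * D τ * (√τ / √τ') ≤ τ ^ (ν - 2 * δ - ρ / 2) := by
        calc L * D τ * (√τ / √τ') ≤ L * τ ^ (ν - δ) * (√τ / √τ') := by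
              gcongr; exact hDb.2
          _ = τ ^ (ν - 2 * δ - ρ / 2) := by
              rw [hL, hsq, hsq', ← rpow_sub hu.1, ← rpow_add hu.1, ← rpow_add hu.1]
              congr 1; ring
      have hst' : 0 < √τ' := sqrt_pos.2 hτ'.1
      calc c3 * (1 + L) * c0 * D τ * √τ / (c1 ^ 2 * √τ')
          = (c3 * c0 / c1 ^ 2) * ((1 + L) * D τ * (√τ / √τ')) := by field_simp
        _ ≤ (c3 * c0 / c1 ^ 2) * (2 * L * D τ * (√τ / √τ')) := by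
            have : 1 + L ≤ 2 * L := by linarith
            gcongr
        _ = (2 * c3 * c0 / c1 ^ 2) * (L * D τ * (√τ / √τ')) := by ring
        _ ≤ _ := by gcongr
    have h6 : exp (1 - L ^ 2 / 2) ≤ τ ^ (ν - 2 * δ - ρ / 2) := by
      refine le_trans (le_of_eq ?_) hex
      rw [← exp_add, hLL]; congr 1; ring
    calc P.real {ω | s / 2 < l ω ∧ l ω ≤ s} ≤ _ := h2
      _ ≤ (2 * c0 / c1) * τ ^ (ν - 2 * δ - ρ / 2) + (2 * c3 * c0 / c1 ^ 2) *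
          τ ^ (ν - 2 * δ - ρ / 2) + τ ^ (ν - 2 * δ - ρ / 2) := by linarith
      _ = (C1 + 1) * τ ^ (ν - 2 * δ - ρ / 2) := by rw [hC1]; ring
  have shell : ∀ᶠ s in 𝓝[>] (0 : ℝ),
      P.real {ω | s / 2 < l ω ∧ l ω ≤ s} ≤ (C1 + 1) * s ^ a := by
    filter_upwards [ev_lt 1 one_pos, ev_rpow (β := 1 / (1 / 2 - ν + 2 * δ)) (by positivity) evτ]
      with s hs h1
    have e1 : (s ^ (1 / (1 / 2 - ν + 2 * δ))) ^ (1 / 2 - ν + 2 * δ) = s := by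
      rw [← rpow_mul hs.1.le, one_div_mul_cancel hβ0.ne', rpow_one]
    have e2 : (s ^ (1 / (1 / 2 - ν + 2 * δ))) ^ (ν - 2 * δ - ρ / 2) = s ^ a := by
      rw [← rpow_mul hs.1.le, ha]; congr 1; ring
    rw [e1, e2] at h1
    exact h1
  obtain ⟨u0, hu0, hsh⟩ : ∃ u0 > 0, ∀ u, 0 < u → u < u0 →
      P.real {ω | u / 2 < l ω ∧ l ω ≤ u} ≤ (C1 + 1) * u ^ a := by
    rw [eventually_nhdsWithin_iff] at shell
    obtain ⟨u0, hu0, hh⟩ := Metric.eventually_nhds_iff.1 shell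
    refine ⟨u0, hu0, fun u h1 h2 => hh ?_ h1⟩
    rw [Real.dist_eq, sub_zero, abs_of_pos h1]; exact h2
  have hdy := dyadic (P := P) (f := l) (by positivity) ha0 hsh
  filter_upwards [ev_lt u0 hu0, ev_mul ((C1 + 1) / (1 - (1 / 2) ^ a))
    (a := 2 * ν / (1 - 2 * ν) - ε) (b := a) (by linarith)] with u hu hm
  exact (hdy u hu.1 hu.2).trans hm

/-- common part of the lower bounds -/
lemma low_aux (hτ0 : 0 < τ0) (_hν : 0 < ν) (hν' : ν < 1 / 2)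
    (S : ∀ τ, 0 < τ → τ < τ0 → Snap (F τ) P h l (H τ) (Λ τ) (D τ) τ (κ τ) c0 C)
    (hκ : Tendsto (fun τ => log (κ τ) / log τ) (𝓝[>] 0) (𝓝 (1 / 2 - ν))) {δ : ℝ} (hδ0 : 0 < δ)
    (hδ1 : δ < 1 / 8) :
    ∀ᶠ τ in 𝓝[>] (0 : ℝ),
      c0 / 2 * τ ^ (ν + 4 * δ) ≤ P.real {ω | 0 < h ω ∧ h ω ≤ τ ^ (1 / 2 - 2 * δ)} ∧
      c0 / 2 * τ ^ (ν + 4 * δ) ≤ P.real {ω | 0 < l ω ∧ l ω ≤ τ ^ (1 / 2 - ν - 3 * δ)} := by
  have hprob : IsProbabilityMeasure P := (S (τ0 / 2) (by linarith) (by linarith)).prob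
  have hc0 : 0 < c0 := (S (τ0 / 2) (by linarith) (by linarith)).c00
  have hC : 0 ≤ C := (S (τ0 / 2) (by linarith) (by linarith)).C0
  have hκpos : ∀ᶠ x in 𝓝[>] (0 : ℝ), 0 < κ x := by
    filter_upwards [ev_lt τ0 hτ0] with x hx using (S x hx.1 hx.2).κ0
  filter_upwards [ev_lt 1 one_pos, bounds_of_lim hκpos hκ hδ0, ev_lt τ0 hτ0,
    ev_exp ((1 + 2 * C) * (2 / c0)) 1 (k := 1 / 4) (b := 2 * δ) (by norm_num) (by linarith),
    ev_const 4 hδ0] with τ hu hκb hτ hex hM4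
  set M : ℝ := τ ^ (-δ) with hM
  have hM0 : 0 < M := by linarith
  have S1 := S τ hτ.1 hτ.2
  have hκ0 : 0 < κ τ := S1.κ0
  have hst : 0 < √τ := sqrt_pos.2 hu.1
  have hMM : M ^ 2 = τ ^ (-(2 * δ)) := by
    rw [hM, ← rpow_natCast, ← rpow_mul hu.1.le]; congr 1; push_cast; ring
  have hsq : √τ = τ ^ (1 / 2 : ℝ) := sqrt_eq_rpow τ
  have hprod : M * κ τ * √τ ≤ 1 := by
    calc M * κ τ * √τ ≤ M * τ ^ (1 / 2 - ν - δ) * √τ := by gcongr; exact hκb.2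
      _ = τ ^ (-δ + (1 / 2 - ν - δ) + 1 / 2) := by
          rw [hM, hsq, ← rpow_add hu.1, ← rpow_add hu.1]
      _ ≤ 1 := rpow_le_one hu.1.le hu.2.le (by linarith)
  have hE0 : 0 < exp (-M ^ 2 / 4) := exp_pos _
  have hsmall : M * κ τ * (√τ * exp (-M ^ 2 / 4)) + 2 * C * exp (-M ^ 2 / 4) ≤ c0 * τ / 2 := by
    have h1 : (1 + 2 * C) * (2 / c0) * exp (-M ^ 2 / 4) ≤ τ := by
      have h2 : -M ^ 2 / 4 = -(1 / 4 * τ ^ (-(2 * δ))) := by rw [← hMM]; ring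
      rw [h2]
      calc _ ≤ τ ^ (1 : ℝ) := hex
        _ = τ := rpow_one τ
    calc M * κ τ * (√τ * exp (-M ^ 2 / 4)) + 2 * C * exp (-M ^ 2 / 4)
        = (M * κ τ * √τ) * exp (-M ^ 2 / 4) + 2 * C * exp (-M ^ 2 / 4) := by ring
      _ ≤ 1 * exp (-M ^ 2 / 4) + 2 * C * exp (-M ^ 2 / 4) := by gcongr
      _ = (c0 / 2) * ((1 + 2 * C) * (2 / c0) * exp (-M ^ 2 / 4)) := by field_simp
      _ ≤ (c0 / 2) * τ := by gcongr
      _ = c0 * τ / 2 := by ring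
  have hmain : c0 / 2 * τ ^ (ν + 4 * δ) * (M ^ 3 * κ τ * √τ) ≤ c0 * τ / 2 := by
    have h1 : M ^ 3 = τ ^ (-(3 * δ)) := by
      rw [hM, ← rpow_natCast, ← rpow_mul hu.1.le]; congr 1; push_cast; ring
    calc c0 / 2 * τ ^ (ν + 4 * δ) * (M ^ 3 * κ τ * √τ)
        ≤ c0 / 2 * τ ^ (ν + 4 * δ) * (M ^ 3 * τ ^ (1 / 2 - ν - δ) * √τ) := by
          have := hκb.2
          have hτpos := hu.1
          have h0 : 0 ≤ c0 / 2 * τ ^ (ν + 4 * δ) := by positivity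
          gcongr
      _ = c0 / 2 * τ ^ ((ν + 4 * δ) + ((-(3 * δ)) + (1 / 2 - ν - δ) + 1 / 2)) := by
          rw [h1, hsq, ← rpow_add hu.1, ← rpow_add hu.1, mul_assoc, ← rpow_add hu.1]
      _ = c0 * τ / 2 := by
          rw [show (ν + 4 * δ) + ((-(3 * δ)) + (1 / 2 - ν - δ) + 1 / 2) = 1 by ring, rpow_one]; ring
  have hK0 : 0 < M ^ 3 * κ τ * √τ := by positivity
  constructor
  · have h1 := S1.G_low hM4
    have h2 : c0 * τ / 2 ≤ (M ^ 3 * κ τ * √τ) * P.real {ω | 0 < h ω ∧ h ω ≤ M ^ 2 * √τ} := by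
      have h3 : M * κ τ * (M ^ 2 * √τ * P.real {ω | 0 < h ω ∧ h ω ≤ M ^ 2 * √τ} +
          √τ * exp (-M ^ 2 / 4)) = (M ^ 3 * κ τ * √τ) * P.real {ω | 0 < h ω ∧ h ω ≤ M ^ 2 * √τ} +
          M * κ τ * (√τ * exp (-M ^ 2 / 4)) := by ring
      rw [h3] at h1
      linarith
    have h4 : M ^ 2 * √τ = τ ^ (1 / 2 - 2 * δ) := by
      rw [hMM, hsq, ← rpow_add hu.1]; congr 1; ring
    rw [h4] at h2
    have h5 := hmain.trans h2
    rw [mul_comm (M ^ 3 * κ τ * √τ)] at h5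
    exact le_of_mul_le_mul_right h5 hK0
  · have h1 := S1.F_low hM4
    have h2 : c0 * τ / 2 ≤ (M ^ 3 * κ τ * √τ) * P.real {ω | 0 < l ω ∧ l ω ≤ M ^ 2 * κ τ} := by
      have h3 : M * √τ * (M ^ 2 * κ τ * P.real {ω | 0 < l ω ∧ l ω ≤ M ^ 2 * κ τ} +
          κ τ * exp (-M ^ 2 / 4)) = (M ^ 3 * κ τ * √τ) * P.real {ω | 0 < l ω ∧ l ω ≤ M ^ 2 * κ τ} +
          M * κ τ * (√τ * exp (-M ^ 2 / 4)) := by ring
      rw [h3] at h1
      linarith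
    have h4 : M ^ 2 * κ τ ≤ τ ^ (1 / 2 - ν - 3 * δ) := by
      calc M ^ 2 * κ τ ≤ M ^ 2 * τ ^ (1 / 2 - ν - δ) := by gcongr; exact hκb.2
        _ = τ ^ (1 / 2 - ν - 3 * δ) := by
          rw [hMM, ← rpow_add hu.1]; congr 1; ring
    have h6 : P.real {ω | 0 < l ω ∧ l ω ≤ M ^ 2 * κ τ} ≤
        P.real {ω | 0 < l ω ∧ l ω ≤ τ ^ (1 / 2 - ν - 3 * δ)} :=
      measureReal_mono (fun ω hω => ⟨hω.1, hω.2.trans h4⟩)
    have h5 := hmain.trans h2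
    rw [mul_comm (M ^ 3 * κ τ * √τ)] at h5
    exact (le_of_mul_le_mul_right h5 hK0).trans h6

lemma G_lower (hτ0 : 0 < τ0) (hν : 0 < ν) (hν' : ν < 1 / 2)
    (S : ∀ τ, 0 < τ → τ < τ0 → Snap (F τ) P h l (H τ) (Λ τ) (D τ) τ (κ τ) c0 C)
    (hκ : Tendsto (fun τ => log (κ τ) / log τ) (𝓝[>] 0) (𝓝 (1 / 2 - ν))) {ε : ℝ} (hε : 0 < ε) :
    ∀ᶠ u in 𝓝[>] (0 : ℝ), u ^ (2 * ν + ε) ≤ P.real {ω | 0 < h ω ∧ h ω ≤ u} := by
  have hc0 : 0 < c0 := (S (τ0 / 2) (by linarith) (by linarith)).c00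
  have hval : (ν + 4 * 0) / (1 / 2 - 2 * 0) = 2 * ν := by norm_num; ring
  obtain ⟨δ, hδ0, hδ1, hδ2⟩ := small_param
    (φ := fun δ : ℝ => (ν + 4 * δ) / (1 / 2 - 2 * δ))
    (by
      refine ContinuousAt.div (by fun_prop) (by fun_prop) ?_
      norm_num) (ε := ε / 2) (δ1 := 1 / 8) (by positivity) (by norm_num)
  rw [hval] at hδ2
  have hβ0 : 0 < 1 / 2 - 2 * δ := by linarith
  set a : ℝ := (ν + 4 * δ) / (1 / 2 - 2 * δ) with ha
  have ha1 : a < 2 * ν + ε / 2 := by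
    have := (abs_lt.1 hδ2).2
    linarith
  filter_upwards [ev_lt 1 one_pos, ev_rpow (β := 1 / (1 / 2 - 2 * δ)) (by positivity)
    (low_aux hτ0 hν hν' S hκ hδ0 hδ1), ev_mul (2 / c0) (a := a) (b := 2 * ν + ε) (by linarith)]
    with u hu h1 h2
  have e1 : (u ^ (1 / (1 / 2 - 2 * δ))) ^ (1 / 2 - 2 * δ) = u := by
    rw [← rpow_mul hu.1.le, one_div_mul_cancel hβ0.ne', rpow_one]
  have e2 : (u ^ (1 / (1 / 2 - 2 * δ))) ^ (ν + 4 * δ) = u ^ a := by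
    rw [← rpow_mul hu.1.le, ha]; congr 1; ring
  have h3 := h1.1
  rw [e1, e2] at h3
  refine le_trans ?_ h3
  calc u ^ (2 * ν + ε) = (c0 / 2) * (2 / c0 * u ^ (2 * ν + ε)) := by field_simp
    _ ≤ (c0 / 2) * u ^ a := by gcongr

lemma F_lower (hτ0 : 0 < τ0) (hν : 0 < ν) (hν' : ν < 1 / 2)
    (S : ∀ τ, 0 < τ → τ < τ0 → Snap (F τ) P h l (H τ) (Λ τ) (D τ) τ (κ τ) c0 C)
    (hκ : Tendsto (fun τ => log (κ τ) / log τ) (𝓝[>] 0) (𝓝 (1 / 2 - ν))) {ε : ℝ} (hε : 0 < ε) :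
    ∀ᶠ s in 𝓝[>] (0 : ℝ), s ^ (2 * ν / (1 - 2 * ν) + ε) ≤ P.real {ω | 0 < l ω ∧ l ω ≤ s} := by
  have hc0 : 0 < c0 := (S (τ0 / 2) (by linarith) (by linarith)).c00
  have hw : 0 < 1 - 2 * ν := by linarith
  have hw2 : 0 < 1 / 2 - ν := by linarith
  have hval : (ν + 4 * 0) / (1 / 2 - ν - 3 * 0) = 2 * ν / (1 - 2 * ν) := by
    field_simp
    ring
  obtain ⟨δ, hδ0, hδ1, hδ2⟩ := small_param
    (φ := fun δ : ℝ => (ν + 4 * δ) / (1 / 2 - ν - 3 * δ))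
    (by
      refine ContinuousAt.div (by fun_prop) (by fun_prop) ?_
      simp; linarith) (ε := ε / 2) (δ1 := min (1 / 8) ((1 / 2 - ν) / 4)) (by positivity)
    (lt_min (by norm_num) (by positivity))
  rw [hval] at hδ2
  have hδ3 : δ < 1 / 8 := hδ1.trans_le (min_le_left _ _)
  have hδ4 : δ < (1 / 2 - ν) / 4 := hδ1.trans_le (min_le_right _ _)
  have hβ0 : 0 < 1 / 2 - ν - 3 * δ := by linarith
  set a : ℝ := (ν + 4 * δ) / (1 / 2 - ν - 3 * δ) with ha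
  have ha1 : a < 2 * ν / (1 - 2 * ν) + ε / 2 := by
    have := (abs_lt.1 hδ2).2
    linarith
  filter_upwards [ev_lt 1 one_pos, ev_rpow (β := 1 / (1 / 2 - ν - 3 * δ)) (by positivity)
    (low_aux hτ0 hν hν' S hκ hδ0 hδ3), ev_mul (2 / c0) (a := a) (b := 2 * ν / (1 - 2 * ν) + ε)
      (by linarith)]
    with u hu h1 h2
  have e1 : (u ^ (1 / (1 / 2 - ν - 3 * δ))) ^ (1 / 2 - ν - 3 * δ) = u := by
    rw [← rpow_mul hu.1.le, one_div_mul_cancel hβ0.ne', rpow_one]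
  have e2 : (u ^ (1 / (1 / 2 - ν - 3 * δ))) ^ (ν + 4 * δ) = u ^ a := by
    rw [← rpow_mul hu.1.le, ha]; congr 1; ring
  have h3 := h1.2
  rw [e1, e2] at h3
  refine le_trans ?_ h3
  calc u ^ (2 * ν / (1 - 2 * ν) + ε) = (c0 / 2) * (2 / c0 * u ^ (2 * ν / (1 - 2 * ν) + ε)) := by
        field_simp
    _ ≤ (c0 / 2) * u ^ a := by gcongr

/-- **Exponents of the gap law and of the force law.** -/
theorem exponents (hτ0 : 0 < τ0) (hν : 0 < ν) (hν' : ν < 1 / 2)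
    (S : ∀ τ, 0 < τ → τ < τ0 → Snap (F τ) P h l (H τ) (Λ τ) (D τ) τ (κ τ) c0 C)
    (s3 : ∀ τ' τ, 0 < τ' → τ' < τ → τ < τ0 → κ τ' < κ τ → ∀ᵐ ω ∂P,
      c1 * √τ' * γ.real (Set.Ici (-(XX (H τ) (Λ τ) (D τ) ω) /
        (D τ * √(κ τ ^ 2 - κ τ' ^ 2)))) ≤ H τ ω)
    (hD : Tendsto (fun τ => log (D τ) / log τ) (𝓝[>] 0) (𝓝 ν))
    (hκ : Tendsto (fun τ => log (κ τ) / log τ) (𝓝[>] 0) (𝓝 (1 / 2 - ν))) :
    Tendsto (fun u => log (P.real {ω | 0 < h ω ∧ h ω ≤ u}) / log u) (𝓝[>] 0) (𝓝 (2 * ν)) ∧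
    Tendsto (fun s => log (P.real {ω | 0 < l ω ∧ l ω ≤ s}) / log s) (𝓝[>] 0)
      (𝓝 (2 * ν / (1 - 2 * ν))) := by
  constructor
  · refine lim_of_bounds fun ε hε => ?_
    filter_upwards [G_lower hτ0 hν hν' S hκ hε, G_upper hτ0 hν S hD hε] with u h1 h2
    exact ⟨h1, h2⟩
  · refine lim_of_bounds fun ε hε => ?_
    filter_upwards [F_lower hτ0 hν hν' S hκ hε, F_upper hτ0 hν hν' S s3 hD hκ hε] with u h1 h2
    exact ⟨h1, h2⟩

end

end Crest.Agent.R146.Exps_778
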