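import Mathlib
import Crest.Agent.R146.LevK_4
import Crest.Agent.R146.ExpsA_778

/-!
# The second clock (helper778), row 146

`kap_lim`: `log D(1-τ) / log τ → ν` implies `log √(K D (1-τ)) / log τ → 1/2 - ν`,
`K D s = ∫_s^1 1/D²`.
-/

set_option autoImplicit false

open MeasureTheory Real Filter Topology Set
open Crest.Agent.R146.LevK_4

namespace Crest.Agent.R146.Exps_778

lemma tendsto_one_sub : Tendsto (fun τ : ℝ => 1 - τ) (𝓝[>] 0) (𝓝[<] 1) := by
  rw [tendsto_nhdsWithin_iff]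
  constructor
  · have h : Tendsto (fun τ : ℝ => 1 - τ) (𝓝 0) (𝓝 (1 - 0)) :=
      (continuous_const.sub continuous_id).tendsto 0
    rw [sub_zero] at h
    exact h.mono_left nhdsWithin_le_nhds
  · filter_upwards [self_mem_nhdsWithin] with τ hτ
    have : (0 : ℝ) < τ := hτ
    simp; exact this

/-- change of variables in `K` -/
lemma K_eq (D : ℝ → ℝ) (τ : ℝ) : K D (1 - τ) = ∫ r in (0 : ℝ)..τ, (D (1 - r))⁻¹ ^ 2 := by
  have h := intervalIntegral.integral_comp_sub_left (a := 0) (b := τ) (fun x => (D x)⁻¹ ^ 2) 1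
  rw [sub_zero] at h
  rw [h]; rfl

lemma log_D_flip {D : ℝ → ℝ} {ν : ℝ}
    (h : Tendsto (fun t => log (D t) / log (1 - t)) (𝓝[<] 1) (𝓝 ν)) :
    Tendsto (fun τ => log (D (1 - τ)) / log τ) (𝓝[>] 0) (𝓝 ν) := by
  have h1 := h.comp tendsto_one_sub
  refine h1.congr fun τ => ?_
  simp only [Function.comp]
  rw [sub_sub_cancel]

lemma kap_lim {D : ℝ → ℝ} (H : Prf D) {ν : ℝ} (hν : ν < 1 / 2)
    (h : Tendsto (fun τ => log (D (1 - τ)) / log τ) (𝓝[>] 0) (𝓝 ν)) :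
    Tendsto (fun τ => log (√(K D (1 - τ))) / log τ) (𝓝[>] 0) (𝓝 (1 / 2 - ν)) := by
  refine lim_of_bounds fun ε hε => ?_
  have hw : 0 < 1 - 2 * ν := by linarith
  set δ : ℝ := min (ε / 2) ((1 - 2 * ν) / 4) with hδ
  have hδ0 : 0 < δ := lt_min (by positivity) (by positivity)
  have hδ1 : δ ≤ ε / 2 := min_le_left _ _
  have hδ2 : δ ≤ (1 - 2 * ν) / 4 := min_le_right _ _
  have hDpos : ∀ᶠ x in 𝓝[>] (0 : ℝ), 0 < D (1 - x) := by
    filter_upwards [ev_lt 1 one_pos] with x hx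
    exact H.pos _ ⟨by linarith [hx.2], by linarith [hx.1]⟩
  have hb := bounds_of_lim (f := fun x => D (1 - x)) hDpos h hδ0
  obtain ⟨u0, hu0, hh⟩ : ∃ u0 > 0, ∀ x, 0 < x → x < u0 →
      x ^ (ν + δ) ≤ D (1 - x) ∧ D (1 - x) ≤ x ^ (ν - δ) := by
    rw [eventually_nhdsWithin_iff] at hb
    obtain ⟨u0, hu0, hh⟩ := Metric.eventually_nhds_iff.1 hb
    refine ⟨u0, hu0, fun u h1 h2 => hh ?_ h1⟩
    rw [Real.dist_eq, sub_zero, abs_of_pos h1]; exact h2
  obtain ⟨M, hM, hi, -⟩ := H.K_bound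
  have hi' : IntervalIntegrable (fun r => (D (1 - r))⁻¹ ^ 2) volume 0 1 := by
    have := hi.comp_sub_left 1
    simpa using this.symm
  set p1 : ℝ := -(2 * ν) - 2 * δ with hp1
  set p2 : ℝ := -(2 * ν) + 2 * δ with hp2
  have hp1' : -1 < p1 := by rw [hp1]; linarith
  have hp2' : -1 < p2 := by rw [hp2]; linarith
  have ub : ∀ τ, 0 < τ → τ < u0 → τ < 1 → K D (1 - τ) ≤ 1 / (p1 + 1) * τ ^ (p1 + 1) := by
    intro τ h1 h2 h3
    rw [K_eq]
    have h4 : ∫ r in (0 : ℝ)..τ, (D (1 - r))⁻¹ ^ 2 ≤ ∫ r in (0 : ℝ)..τ, r ^ p1 := by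
      refine intervalIntegral.integral_mono_on_of_le_Ioo h1.le
        (hi'.mono_set (by rw [uIcc_of_le h1.le, uIcc_of_le zero_le_one]
                          exact Icc_subset_Icc_right h3.le))
        (intervalIntegral.intervalIntegrable_rpow' hp1') fun r hr => ?_
      have h5 := (hh r hr.1 (hr.2.trans h2)).1
      have h6 : 0 < r ^ (ν + δ) := rpow_pos_of_pos hr.1 _
      have h7 : 0 ≤ (D (1 - r))⁻¹ := inv_nonneg.2 (h6.le.trans h5)
      calc (D (1 - r))⁻¹ ^ 2 ≤ (r ^ (ν + δ))⁻¹ ^ 2 := by gcongr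
        _ = r ^ p1 := by
          rw [← rpow_neg hr.1.le, ← rpow_natCast, ← rpow_mul hr.1.le, hp1]
          congr 1; push_cast; ring
    refine h4.trans (le_of_eq ?_)
    rw [integral_rpow (Or.inl hp1'), zero_rpow (by linarith), sub_zero]
    ring
  have lb : ∀ τ, 0 < τ → τ < u0 → τ < 1 → 1 / (p2 + 1) * τ ^ (p2 + 1) ≤ K D (1 - τ) := by
    intro τ h1 h2 h3
    rw [K_eq]
    have h4 : ∫ r in (0 : ℝ)..τ, r ^ p2 ≤ ∫ r in (0 : ℝ)..τ, (D (1 - r))⁻¹ ^ 2 := by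
      refine intervalIntegral.integral_mono_on_of_le_Ioo h1.le
        (intervalIntegral.intervalIntegrable_rpow' hp2')
        (hi'.mono_set (by rw [uIcc_of_le h1.le, uIcc_of_le zero_le_one]
                          exact Icc_subset_Icc_right h3.le)) fun r hr => ?_
      have h5 := (hh r hr.1 (hr.2.trans h2)).2
      have h6 : 0 < D (1 - r) := H.pos _ ⟨by linarith [hr.2], by linarith [hr.1]⟩
      have h7 : 0 ≤ (r ^ (ν - δ))⁻¹ := inv_nonneg.2 (h6.le.trans h5)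
      calc r ^ p2 = (r ^ (ν - δ))⁻¹ ^ 2 := by
            rw [← rpow_neg hr.1.le, ← rpow_natCast, ← rpow_mul hr.1.le, hp2]
            congr 1; push_cast; ring
        _ ≤ (D (1 - r))⁻¹ ^ 2 := by gcongr
    refine le_trans (le_of_eq ?_) h4
    rw [integral_rpow (Or.inl hp2'), zero_rpow (by linarith), sub_zero]
    ring
  have hc1 : 0 < 1 / (p1 + 1) := by have : 0 < p1 + 1 := by linarith
                                    positivity
  have hc2 : 0 < 1 / (p2 + 1) := by have : 0 < p2 + 1 := by linarith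
                                    positivity
  filter_upwards [ev_lt u0 hu0, ev_lt 1 one_pos,
    ev_mul (√(1 / (p1 + 1))) (a := 1 / 2 - ν - ε) (b := (p1 + 1) / 2) (by rw [hp1]; linarith),
    ev_mul (1 / √(1 / (p2 + 1))) (a := (p2 + 1) / 2) (b := 1 / 2 - ν + ε) (by rw [hp2]; linarith)]
    with τ h1 h2 h3 h4
  have hsq : ∀ p : ℝ, √(τ ^ p) = τ ^ (p / 2) := by
    intro p
    rw [sqrt_eq_rpow, ← rpow_mul h1.1.le]; congr 1; ring
  constructor
  · have h5 := sqrt_le_sqrt (lb τ h1.1 h1.2 h2.2)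
    rw [sqrt_mul hc2.le, hsq] at h5
    refine le_trans ?_ h5
    have h6 : 0 < √(1 / (p2 + 1)) := sqrt_pos.2 hc2
    rw [div_mul_eq_mul_div, one_mul, div_le_iff₀ h6] at h4
    linarith
  · have h5 := sqrt_le_sqrt (ub τ h1.1 h1.2 h2.2)
    rw [sqrt_mul hc1.le, hsq] at h5
    exact h5.trans h3

end Crest.Agent.R146.Exps_778
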