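import Mathlib
import Crest.Agent.R146.ExpoB_778
import Crest.Agent.R146.ExpsB_778
import Crest.Agent.R146.Kap_778

/-!
# Exponents at a jamming minimiser, in the frame (helper778), row 146

`expo_frame`: LCP at `c = 0`, sub-Gaussian bounds (EMh), (EMl), charge, `log D(t)/log(1-t) → ν`
⟹ the exponents `2ν` and `2ν/(1-2ν)` of the gap law and of the force law.
-/

set_option autoImplicit false

open Set Filter Topology MeasureTheory ProbabilityTheory Crest.Agent.R146.Hilb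
  Crest.Agent.R146.Lev_576 Crest.Agent.R146.Lev2_576 Crest.Agent.R146.JamAsm_576
open Crest.Agent.R146.LevC_4 Crest.Agent.R146.LevK_4 Crest.Agent.R146.LevE_4
  Crest.Agent.R146.SubG_4
open Crest.ProbabilityR.Perceptron
open scoped RealInnerProductSpace NNReal ENNReal

namespace Crest.Agent.R146.Expo_778
open Crest.Agent.R146.Gauss_778 Crest.Agent.R146.Snap_778 Crest.Agent.R146.Exps_778

section Frame

variable {H : Type*} [NormedAddCommGroup H] [InnerProductSpace ℝ H] [CompleteSpace H] {R : Res H}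
  {Ω : Type*} {mΩ : MeasurableSpace Ω} {P : Measure Ω} {B : ℝ≥0 → Ω → ℝ}
  {hBm : ∀ t, Measurable (B t)} {M : Model R P B hBm} {ξ : H} {D : ℝ → ℝ} {x : H}

omit [CompleteSpace H] in
lemma lint_sq (M : Model R P B hBm) {y : H} {f : Ω → ℝ} (hf : f =ᵐ[P] M.J y) (h0 : 0 ≤ᵐ[P] f) :
    ∫⁻ ω, ENNReal.ofReal (f ω) ^ 2 ∂P = ENNReal.ofReal (‖y‖ ^ 2) := by
  rw [← M.norm_sq, ofReal_integral_eq_lintegral_ofReal (M.memLp y).integrable_sq
    (Eventually.of_forall fun ω => sq_nonneg _)]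
  refine lintegral_congr_ae ?_
  filter_upwards [hf, h0] with ω h1 h2
  have h2 : 0 ≤ f ω := h2
  rw [← ENNReal.ofReal_pow h2, h1]

omit [CompleteSpace H] in
lemma lint_mul (M : Model R P B hBm) {y z : H} {f g : Ω → ℝ} (hf : f =ᵐ[P] M.J y)
    (hg : g =ᵐ[P] M.J z) (h0 : 0 ≤ᵐ[P] f) (g0 : 0 ≤ᵐ[P] g) :
    ∫⁻ ω, ENNReal.ofReal (f ω) * ENNReal.ofReal (g ω) ∂P = ENNReal.ofReal ⟪y, z⟫ := by
  have hnn : 0 ≤ᵐ[P] fun ω => M.J y ω * M.J z ω := by
    filter_upwards [hf, hg, h0, g0] with ω h1 h2 h3 h4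
    have h3 : 0 ≤ f ω := h3
    have h4 : 0 ≤ g ω := h4
    show 0 ≤ M.J y ω * M.J z ω
    rw [← h1, ← h2]; exact mul_nonneg h3 h4
  have hint : Integrable (fun ω => M.J y ω * M.J z ω) P := (M.memLp y).integrable_mul (M.memLp z)
  rw [← M.inner, ofReal_integral_eq_lintegral_ofReal hint hnn]
  refine lintegral_congr_ae ?_
  filter_upwards [hf, hg, h0] with ω h1 h2 h3
  have h3 : 0 ≤ f ω := h3
  rw [← ENNReal.ofReal_mul h3, h1, h2]

/-- the snapshot at time `s` -/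
theorem snap_frame [IsProbabilityMeasure P] (hB : IsPreBrownianReal B P) {κ : ℝ}
    (hξ : M.J ξ =ᵐ[P] fun ω => κ + B 1 ω) (L : LCP M ξ 0 D x) (hPrf : Prf D) (hD1 : 0 ≤ D 1)
    {h' l' : Ω → ℝ} (mh : Measurable h') (ml : Measurable l')
    (eh : M.J (ξ + R.Dop D x) =ᵐ[P] h') (el : M.J x =ᵐ[P] l')
    (EMh : ∀ s ∈ Ico (0 : ℝ) 1, SubG P (Fl hBm s)
      (fun ω => M.J (ξ + R.Dop D x) ω - (P[M.J (ξ + R.Dop D x) | Fl hBm s]) ω) (1 - s))
    (EMl : ∀ s ∈ Ico (0 : ℝ) 1, SubG P (Fl hBm s)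
      (fun ω => M.J x ω - (P[M.J x | Fl hBm s]) ω) (K D s))
    {c0 : ℝ} (hc0 : 0 < c0) {s : ℝ} (hs : s ∈ Ico (0 : ℝ) 1)
    (hch : ⟪R.P s (ξ + R.Dop D x), x⟫ = c0 * (1 - s)) :
    Snap (Fl hBm s) P h' l' (P[M.J (ξ + R.Dop D x) | Fl hBm s]) (P[M.J x | Fl hBm s]) (D s)
      (1 - s) (√(K D s)) c0 (max (‖ξ + R.Dop D x‖ ^ 2) (‖x‖ ^ 2)) := by
  set h : H := ξ + R.Dop D x with hh
  have hle : Fl hBm s ≤ mΩ := (brownianFiltration B hBm).le _
  have hsI : s ∈ Icc (0 : ℝ) 1 := ⟨hs.1, hs.2.le⟩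
  have hh0 : 0 ≤ᵐ[P] M.J h := by
    have := L.h_nonneg
    rwa [zero_smul, add_zero] at this
  have hcomp : ∀ᵐ ω ∂P, M.J h ω * M.J x ω = 0 := by
    have := L.ae
    rwa [zero_smul, add_zero] at this
  have eH := (M.cond s hsI h).symm
  have eL := (M.cond s hsI x).symm
  have H0 : 0 ≤ᵐ[P] P[M.J h | Fl hBm s] := condExp_nonneg hh0
  have L0 : 0 ≤ᵐ[P] P[M.J x | Fl hBm s] := condExp_nonneg L.x_nonneg
  have h0' : 0 ≤ᵐ[P] h' := by
    filter_upwards [hh0, eh] with ω h1 h2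
    rw [← h2]; exact h1
  have l0' : 0 ≤ᵐ[P] l' := by
    filter_upwards [L.x_nonneg, el] with ω h1 h2
    rw [← h2]; exact h1
  have hK : 0 < K D s := hPrf.K_pos hs.1 hs.2
  refine
    { prob := inferInstance
      hF := hle
      mh := mh
      ml := ml
      h0 := h0'
      l0 := l0'
      hl := by
        filter_upwards [hcomp, eh, el] with ω h1 h2 h3
        rw [← h2, ← h3]; exact h1
      mH := stronglyMeasurable_condExp.measurable
      mL := stronglyMeasurable_condExp.measurable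
      H0 := H0
      L0 := L0
      iH := fun A hA => by
        rw [← lint_cond M h hh0 s hA]
        refine lintegral_congr_ae ?_
        filter_upwards [ae_restrict_of_ae eh] with ω h1
        rw [h1]
      iL := fun A hA => by
        rw [← lint_cond M x L.x_nonneg s hA]
        refine lintegral_congr_ae ?_
        filter_upwards [ae_restrict_of_ae el] with ω h1
        rw [h1]
      bh := by
        rw [lint_sq M eh.symm h0']
        exact ENNReal.ofReal_le_ofReal (le_max_left _ _)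
      bl := by
        rw [lint_sq M el.symm l0']
        exact ENNReal.ofReal_le_ofReal (le_max_right _ _)
      bH := by
        rw [lint_sq M eH H0]
        apply ENNReal.ofReal_le_ofReal
        refine le_max_of_le_left ?_
        have := R.norm_P_le hs.2.le h
        have h1 := norm_nonneg (R.P s h)
        gcongr
      bL := by
        rw [lint_sq M eL L0]
        apply ENNReal.ofReal_le_ofReal
        refine le_max_of_le_right ?_
        have := R.norm_P_le hs.2.le x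
        have h1 := norm_nonneg (R.P s x)
        gcongr
      sh := fun θ A hA => by
        have h1 := (EMh s hs).congr (Y := fun ω => h' ω - (P[M.J h | Fl hBm s]) ω) (by
          filter_upwards [eh] with ω h1
          rw [h1])
        exact h1 θ A hA
      sl := fun θ A hA => by
        have h1 := (EMl s hs).congr (Y := fun ω => l' ω - (P[M.J x | Fl hBm s]) ω) (by
          filter_upwards [el] with ω h1
          rw [h1])
        rw [Real.sq_sqrt hK.le]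
        exact h1 θ A hA
      s1 := s1_frame hB hξ L hD1 hs
      charge := by
        rw [lint_mul M eH eL H0 L0, ← R.P_inner, hch]
      D0 := hPrf.pos s hs
      τ0 := sub_pos.2 hs.2
      κ0 := Real.sqrt_pos.2 hK
      c00 := hc0
      C0 := le_max_of_le_left (sq_nonneg _) }

/-- **the exponents at a jamming minimiser** -/
theorem expo_frame [IsProbabilityMeasure P] (hB : IsPreBrownianReal B P) {κ : ℝ}
    (hξ : M.J ξ =ᵐ[P] fun ω => κ + B 1 ω) (L : LCP M ξ 0 D x) (hPrf : Prf D) (hD1 : 0 ≤ D 1)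
    (EMh : ∀ s ∈ Ico (0 : ℝ) 1, SubG P (Fl hBm s)
      (fun ω => M.J (ξ + R.Dop D x) ω - (P[M.J (ξ + R.Dop D x) | Fl hBm s]) ω) (1 - s))
    (EMl : ∀ s ∈ Ico (0 : ℝ) 1, SubG P (Fl hBm s)
      (fun ω => M.J x ω - (P[M.J x | Fl hBm s]) ω) (K D s))
    (hch : ∃ c0 : ℝ, 0 < c0 ∧ ∃ t1 ∈ Ico (0 : ℝ) 1, ∀ t ∈ Ico t1 1,
      ⟪R.P t (ξ + R.Dop D x), x⟫ = c0 * (1 - t)) {ν : ℝ} (hν : 0 < ν) (hν' : ν < 1 / 2)
    (hlog : Tendsto (fun t => Real.log (D t) / Real.log (1 - t)) (𝓝[<] 1) (𝓝 ν)) :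
    Tendsto (fun u : ℝ => Real.log (P.real {ω | 0 < M.J (ξ + R.Dop D x) ω ∧
      M.J (ξ + R.Dop D x) ω ≤ u}) / Real.log u) (𝓝[>] 0) (𝓝 (2 * ν)) ∧
    Tendsto (fun s : ℝ => Real.log (P.real {ω | 0 < M.J x ω ∧ M.J x ω ≤ s}) / Real.log s)
      (𝓝[>] 0) (𝓝 (2 * ν / (1 - 2 * ν))) := by
  obtain ⟨c0, hc0, t1, ht1, hch⟩ := hch
  set h : H := ξ + R.Dop D x with hh
  have ah := (M.memLp h).1
  have al := (M.memLp x).1
  set h' := ah.mk (M.J h) with hh'
  set l' := al.mk (M.J x) with hl'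
  have eh : M.J h =ᵐ[P] h' := ah.ae_eq_mk
  have el : M.J x =ᵐ[P] l' := al.ae_eq_mk
  have mh : Measurable h' := ah.stronglyMeasurable_mk.measurable
  have ml : Measurable l' := al.stronglyMeasurable_mk.measurable
  have hτ0 : 0 < 1 - t1 := sub_pos.2 ht1.2
  have S : ∀ τ, 0 < τ → τ < 1 - t1 → Snap (Fl hBm (1 - τ)) P h' l'
      (P[M.J h | Fl hBm (1 - τ)]) (P[M.J x | Fl hBm (1 - τ)]) (D (1 - τ)) τ
      (√(K D (1 - τ))) c0 (max (‖h‖ ^ 2) (‖x‖ ^ 2)) := by
    intro τ h1 h2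
    have hsI : 1 - τ ∈ Ico (0 : ℝ) 1 := ⟨by linarith [ht1.1], by linarith⟩
    have h3 := snap_frame hB hξ L hPrf hD1 mh ml eh el EMh EMl hc0 hsI
      (hch (1 - τ) ⟨by linarith, by linarith⟩)
    rw [sub_sub_cancel] at h3
    exact h3
  have s3 : ∀ τ' τ, 0 < τ' → τ' < τ → τ < 1 - t1 → √(K D (1 - τ')) < √(K D (1 - τ)) →
      ∀ᵐ ω ∂P, c1 * √τ' * γ.real (Set.Ici (-(XX (P[M.J h | Fl hBm (1 - τ)])
        (P[M.J x | Fl hBm (1 - τ)]) (D (1 - τ)) ω) /
        (D (1 - τ) * √(√(K D (1 - τ)) ^ 2 - √(K D (1 - τ')) ^ 2)))) ≤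
        (P[M.J h | Fl hBm (1 - τ)]) ω := by
    intro τ' τ h1 h2 h3 _
    have h4 := s3_frame hB hξ L hPrf hD1 (s := 1 - τ) (s' := 1 - τ') (by linarith [ht1.1])
      (by linarith) (by linarith)
    rw [sub_sub_cancel] at h4
    rw [Real.sq_sqrt (hPrf.K_nonneg (by linarith [ht1.1]) (by linarith)),
      Real.sq_sqrt (hPrf.K_nonneg (by linarith [ht1.1]) (by linarith))]
    exact h4
  have hD := log_D_flip hlog
  have hκ := kap_lim hPrf hν' hD
  have hfin := exponents (F := fun τ => Fl hBm (1 - τ)) (H := fun τ => P[M.J h | Fl hBm (1 - τ)])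
    (Λ := fun τ => P[M.J x | Fl hBm (1 - τ)]) (D := fun τ => D (1 - τ))
    (κ := fun τ => √(K D (1 - τ))) hτ0 hν hν' S s3 hD hκ
  have q1 : ∀ u : ℝ, P.real {ω | 0 < M.J h ω ∧ M.J h ω ≤ u} = P.real {ω | 0 < h' ω ∧ h' ω ≤ u} := by
    intro u
    rw [measureReal_def, measureReal_def]
    congr 1
    apply measure_congr
    filter_upwards [eh] with ω h1
    apply propext
    change (0 < M.J h ω ∧ M.J h ω ≤ u) ↔ (0 < h' ω ∧ h' ω ≤ u)
    rw [h1]
  have q2 : ∀ u : ℝ, P.real {ω | 0 < M.J x ω ∧ M.J x ω ≤ u} = P.real {ω | 0 < l' ω ∧ l' ω ≤ u} := by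
    intro u
    rw [measureReal_def, measureReal_def]
    congr 1
    apply measure_congr
    filter_upwards [el] with ω h1
    apply propext
    change (0 < M.J x ω ∧ M.J x ω ≤ u) ↔ (0 < l' ω ∧ l' ω ≤ u)
    rw [h1]
  simp only [q1, q2]
  exact hfin

end Frame

end Crest.Agent.R146.Expo_778
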