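import Crest.Agent.R146.ExpoC_778
import Crest.Agent.R146.S0205Asm_12

/-!
# Row 146: the node `EXPO` from the sub-Gaussian bounds (helper778)

`EMJ W` : (EMh), (EMl) between a time `s < 1` and the end, at a jamming minimiser with `TipOut`
(helper861, LipC); `expo_of_em : EMJ W → S0205Asm_12.EXPO W`.
-/

set_option autoImplicit false

open Set Filter Topology MeasureTheory ProbabilityTheory Crest.Agent.R146.Hilb
  Crest.Agent.R146.Lev_576 Crest.Agent.R146.Lev2_576 Crest.Agent.R146.JamAsm_576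
open Crest.Agent.R146.LevC_4 Crest.Agent.R146.LevK_4 Crest.Agent.R146.LevE_4
  Crest.Agent.R146.SubG_4
open Crest.ProbabilityR.Perceptron Crest.Agent.R146.P34_734 Crest.Agent.R146.DualG_256
open Crest.Agent.R146.JamIface_776 Crest.Agent.R146.P5Def_12 Crest.Agent.R146.P5Fin_12
open scoped RealInnerProductSpace NNReal ENNReal

namespace Crest.Agent.R146.Expo_778

/-- sub-Gaussian bounds at a jamming minimiser -/
def EMJ (W : BS) : Prop := ∀ αc : ℝ, 0 < αc → ∀ (x : HW W) (D : ℝ → ℝ) (ν : ℝ),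
  IsJam (RW W) (KW W) (xiW W) αc x D → TipOut (RW W) (xiW W) x D ν →
  (∀ s ∈ Ico (0 : ℝ) 1, SubG W.P (Fl W.meas s)
      (fun ω => (MW W).J (xiW W + (RW W).Dop D x) ω -
        (W.P[(MW W).J (xiW W + (RW W).Dop D x) | Fl W.meas s]) ω) (1 - s)) ∧
  (∀ s ∈ Ico (0 : ℝ) 1, SubG W.P (Fl W.meas s)
      (fun ω => (MW W).J x ω - (W.P[(MW W).J x | Fl W.meas s]) ω) (K D s))

theorem prf_of_jam {W : BS} {αc : ℝ} {x : HW W} {D : ℝ → ℝ} {ν : ℝ}
    (hJ : IsJam (RW W) (KW W) (xiW W) αc x D) (hT : TipOut (RW W) (xiW W) x D ν) : Prf D where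
  cont := hJ.adm.prof.cont
  anti := hJ.adm.prof.anti
  pos := hJ.adm.prof.pos
  low := low_of_log hJ.adm.prof.pos hT.log_D (by have := hT.ν_hi; linarith)

/-- **EXPO** from the sub-Gaussian bounds -/
theorem expo_of_em {W : BS} (hEM : EMJ W) : S0205Asm_12.EXPO W := by
  intro αc hαc x D ν hJ hT
  obtain ⟨h1, h2⟩ := hEM αc hαc x D ν hJ hT
  exact expo_frame W.br.toIsPreBrownianReal (modelB_xi W.meas W.br 1) (lcp_of_jam W hαc hJ)
    (prf_of_jam hJ hT) hJ.adm.prof.one h1 h2 hT.charge (by have := hT.ν_lo; linarith)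
    (by have := hT.ν_hi; linarith) hT.log_D

end Crest.Agent.R146.Expo_778
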