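import Crest.Agent.R146.LipG_861
import Crest.Agent.R146.LipG_491

/-!
Row 146, package P5 (helper861): `EMG` of `LipG_491`, hence `EMW`, `EML0`, `FLIM`, `LEVC`, `LEVD`.
-/

set_option autoImplicit false
set_option maxHeartbeats 400000

namespace Crest.Agent.R146.LipH_861

open Set Filter Topology MeasureTheory ProbabilityTheory Crest.ProbabilityR.Perceptron
open Crest.Agent.R146.Hilb Crest.Agent.R146.Lev2_576 Crest.Agent.R146.JamAsm_576
open Crest.Agent.R146.LipD_861 Crest.Agent.R146.LipF_861 Crest.Agent.R146.LipG_861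
open Crest.Agent.R146.P5Def_12 Crest.Agent.R146.P34_734 Crest.Agent.R146.DualG_256
open Crest.Agent.R146.SubG_4 Crest.Agent.R146.LevE_4 Crest.Agent.R146.LevF_4
open scoped RealInnerProductSpace NNReal ENNReal

theorem emg (W : BS) : LipG_491.EMG W := by
  intro c x D hc L hpos h1
  have hprob : IsProbabilityMeasure W.P := inferInstance
  have hB := W.br.toIsPreBrownianReal
  have hξ := modelB_xi W.meas W.br 1
  refine ⟨?_, ?_⟩
  · intro s u hs hsu hu θ A hA
    obtain ⟨s', hs'⟩ : ∃ w : ℝ≥0, (w : ℝ) = s := ⟨s.toNNReal, Real.coe_toNNReal _ hs⟩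
    obtain ⟨u', hu'⟩ : ∃ w : ℝ≥0, (w : ℝ) = u :=
      ⟨u.toNNReal, Real.coe_toNNReal _ (hs.trans hsu)⟩
    subst hs' hu'
    have hA' : MeasurableSet[brownianFiltration W.B W.meas s'] A := by
      have : (s' : ℝ).toNNReal = s' := Real.toNNReal_coe
      rw [← this]; exact hA
    exact lcp_gap hB hξ L (by linarith) (by exact_mod_cast hsu) (by exact_mod_cast hu) hA' θ
  · intro V hV hVc s u hs hsu hu θ A hA
    obtain ⟨s', hs'⟩ : ∃ w : ℝ≥0, (w : ℝ) = s := ⟨s.toNNReal, Real.coe_toNNReal _ hs⟩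
    obtain ⟨u', hu'⟩ : ∃ w : ℝ≥0, (w : ℝ) = u :=
      ⟨u.toNNReal, Real.coe_toNNReal _ (hs.trans hsu)⟩
    subst hs' hu'
    have hA' : MeasurableSet[brownianFiltration W.B W.meas s'] A := by
      have : (s' : ℝ).toNNReal = s' := Real.toNNReal_coe
      rw [← this]; exact hA
    refine lcp_force hB hξ L (by linarith) (fun t ht => by have := hpos t ht; linarith)
      (by exact_mod_cast hsu) (by exact_mod_cast hu) (V := V) ?_ hA' θ
    intro a b ha hab hb
    have ha0 : 0 ≤ a := hs.trans ha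
    have hb1 : b ≤ 1 := hb.trans hu
    have e : ∀ t : ℝ, (t - a) / (D a + c) ^ 2 = (t - a) * (c + D a)⁻¹ ^ 2 := fun t => by
      rw [add_comm, div_eq_mul_inv, inv_pow]
    rcases hb1.lt_or_eq with hb2 | hb2
    · rw [e]; exact hV a b ha0 hab hb2
    subst hb2
    rcases hab.lt_or_eq with h3 | h3
    · -- limit `t → 1-`
      have hl : Tendsto (fun t : ℝ => (t - a) / (D a + c) ^ 2) (𝓝[<] 1)
          (𝓝 ((1 - a) / (D a + c) ^ 2)) := by
        have : Continuous fun t : ℝ => (t - a) / (D a + c) ^ 2 := by fun_prop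
        exact (this.tendsto 1).mono_left nhdsWithin_le_nhds
      have hr : Tendsto (fun t : ℝ => V t - V a) (𝓝[<] 1) (𝓝 (V 1 - V a)) := by
        have h4 : Tendsto V (𝓝[Icc 0 1] 1) (𝓝 (V 1)) := hVc 1 (by simp)
        have h5 : 𝓝[<] (1 : ℝ) ≤ 𝓝[Icc 0 1] 1 := by
          rw [← nhdsWithin_Ico_eq_nhdsLT (one_pos : (0:ℝ) < 1)]
          exact nhdsWithin_mono _ Ico_subset_Icc_self
        exact (h4.mono_left h5).sub_const _
      refine le_of_tendsto_of_tendsto hl hr ?_
      have h6 : ∀ᶠ t in 𝓝[<] (1 : ℝ), t ∈ Ioo a 1 := Ioo_mem_nhdsLT h3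
      filter_upwards [h6] with t ht
      rw [e]; exact hV a t ha0 ht.1.le ht.2
    · rw [← h3]; simp

theorem emw (W : BS) : EMW W := LipG_491.emw W (emg W)

theorem eml0 (W : BS) : FLim_491.EML0 W := LipG_491.eml0 W (emg W)

theorem flim (W : BS) : FLIM W := LipG_491.flim W (emg W)

theorem levc (W : BS) : LEVC W := LevF_4.levc (emw W)

theorem levd (W : BS) : LEVD W := LevF_4.levd (emw W)

end Crest.Agent.R146.LipH_861
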