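import Crest.Agent.R146.ExpoD_778
import Crest.Agent.R146.LipH_861

/-!
# Row 146: the node `EXPO` (helper778), unconditional

`expo (W) : S0205Asm_12.EXPO W`.
-/

set_option autoImplicit false

open Set Filter Topology MeasureTheory ProbabilityTheory Crest.Agent.R146.Hilb
  Crest.Agent.R146.Lev2_576 Crest.Agent.R146.JamAsm_576
open Crest.Agent.R146.LevK_4 Crest.Agent.R146.LevE_4 Crest.Agent.R146.SubG_4
open Crest.Agent.R146.P34_734 Crest.Agent.R146.DualG_256
open Crest.Agent.R146.JamIface_776 Crest.Agent.R146.P5Def_12 Crest.Agent.R146.P5Fin_12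
open Crest.Agent.R146.LevF_4
open scoped RealInnerProductSpace NNReal ENNReal

namespace Crest.Agent.R146.Expo_778

/-- the sub-Gaussian bounds at a jamming minimiser, from `EMW` (helper4, helper861) -/
theorem emj_of_emw {W : BS} (hE : EMW W) : EMJ W := by
  intro αc hαc x D ν hJ hT
  have hprob : IsProbabilityMeasure W.P := inferInstance
  have L := lcp_of_jam W hαc hJ
  have hPrf := prf_of_jam hJ hT
  obtain ⟨hEh, h2⟩ := hE x D L hJ.adm.prof.pos hJ.adm.prof.one
  have hcont : ContinuousOn (K D) (Icc 0 1) := by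
    obtain ⟨M, hM, hi, hb⟩ := hPrf.K_bound
    have h1 : ContinuousOn (fun t => ∫ r in (0 : ℝ)..t, (D r)⁻¹ ^ 2) (Icc 0 1) := by
      have := intervalIntegral.continuousOn_primitive_interval' (a := 0) hi (by simp)
      rwa [uIcc_of_le zero_le_one] at this
    refine (continuousOn_const (c := K D 0)).sub h1 |>.congr fun t ht => ?_
    have := hPrf.K_sub le_rfl ht.1 ht.2
    change K D t = K D 0 - ∫ r in (0 : ℝ)..t, (D r)⁻¹ ^ 2
    linarith
  have hEl := h2 (fun t => -K D t) (fun s t hs hst ht => by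
      have := hPrf.K_dec hs hst ht
      linarith) hcont.neg
  have hK1 : K D 1 = 0 := by unfold K; simp
  refine ⟨fun s hs => ?_, fun s hs => ?_⟩
  · have h1 := hEh s 1 hs.1 hs.2.le le_rfl
    refine h1.congr ?_
    filter_upwards [(MW W).cond s ⟨hs.1, hs.2.le⟩ (xiW W + (RW W).Dop D x)] with ω h2
    rw [(RW W).one, h2]
  · have h1 := hEl s 1 hs.1 hs.2.le le_rfl
    have e : (fun t => -K D t) 1 - (fun t => -K D t) s = K D s := by
      beta_reduce; rw [hK1]; ring
    rw [e] at h1
    refine h1.congr ?_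
    filter_upwards [(MW W).cond s ⟨hs.1, hs.2.le⟩ x] with ω h2
    rw [(RW W).one, h2]

/-- **EXPO**, unconditional -/
theorem expo (W : BS) : S0205Asm_12.EXPO W := expo_of_em (emj_of_emw (LipH_861.emw W))

end Crest.Agent.R146.Expo_778
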