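import Crest.Agent.R146.S6U_988
import Crest.Agent.R146.SysA_52

/-!
# R146 (helper947): the fields cost at most `½ ∑ s²`

* `sum_coins_exp`: `E_coins exp (fieldE) ≤ exp (N ∑ s² / 2)` for every configuration;
* `FN_le_pC`: `FN C nc n f M s ≤ pC C f M` (companion of `JEN`).
-/

set_option autoImplicit false

open MeasureTheory ProbabilityTheory Filter Topology Finset
open Crest.Agent.R141 Crest.Agent.R146.S6Def_988 Crest.Agent.R146.S6U_988
open Crest.Agent.R146.SysA_52 Crest.Agent.R164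

namespace Crest.Agent.R146.FNup_947

/-- a sum over functions of a product is the product of the sums -/
theorem sum_prod_fun {ι β : Type*} [Fintype ι] [DecidableEq ι] [Fintype β] (F : ι → β → ℝ) :
    ∑ c : ι → β, ∏ i, F i (c i) = ∏ i, ∑ b, F i b := by
  rw [Finset.prod_univ_sum, Fintype.piFinset_univ]

theorem sum_sv_exp (a : ℝ) : ∑ b : Bool, Real.exp (a * sv b) ≤ 2 * Real.exp (a ^ 2 / 2) := by
  rw [Fintype.sum_bool]
  unfold sv
  simp only [if_true, mul_one]
  have h := Real.cosh_le_exp_half_sq a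
  rw [Real.cosh_eq] at h
  have h2 : (if (false : Bool) = true then (1 : ℝ) else -1) = -1 := by simp
  simp only [h2, mul_neg, mul_one]
  linarith

variable {N nc n : ℕ}

/-- the moment generating function of the coins -/
theorem sum_coins_exp (hn : 0 < n) (s : Fin nc → ℝ) (x : Fin N → ℝ) :
    (Fintype.card (Coins nc n N) : ℝ)⁻¹ * ∑ c : Coins nc n N,
      Real.exp (∑ g, s g * ∑ i, zf c g i * x i) ≤
      Real.exp (1 / 2 * (∑ g, s g ^ 2) * ∑ i, x i ^ 2) := by
  have hn' : (0 : ℝ) < n := by exact_mod_cast hn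
  have hsq : Real.sqrt n ^ 2 = n := Real.sq_sqrt hn'.le
  have hsp : 0 < Real.sqrt n := Real.sqrt_pos.2 hn'
  have e1 : ∀ c : Coins nc n N, Real.exp (∑ g, s g * ∑ i, zf c g i * x i) =
      ∏ g, ∏ t, ∏ i, Real.exp (((Real.sqrt n)⁻¹ * s g * x i) * sv (c g t i)) := by
    intro c
    simp_rw [← Real.exp_sum]
    congr 1
    refine Finset.sum_congr rfl fun g _ => ?_
    rw [Finset.sum_comm, Finset.mul_sum]
    refine Finset.sum_congr rfl fun i _ => ?_
    unfold zf
    rw [← Finset.mul_sum]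
    ring
  simp_rw [e1]
  have e2 : ∑ c : Coins nc n N, ∏ g, ∏ t, ∏ i,
      Real.exp (((Real.sqrt n)⁻¹ * s g * x i) * sv (c g t i)) =
      ∏ g, ∏ _t : Fin n, ∏ i, ∑ b : Bool, Real.exp (((Real.sqrt n)⁻¹ * s g * x i) * sv b) := by
    rw [sum_prod_fun (fun g (c : Fin n → Fin N → Bool) => ∏ t, ∏ i,
      Real.exp (((Real.sqrt n)⁻¹ * s g * x i) * sv (c t i)))]
    refine Finset.prod_congr rfl fun g _ => ?_
    rw [sum_prod_fun (fun _t (c : Fin N → Bool) => ∏ i,
      Real.exp (((Real.sqrt n)⁻¹ * s g * x i) * sv (c i)))]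
    refine Finset.prod_congr rfl fun t _ => ?_
    rw [sum_prod_fun (fun i (b : Bool) => Real.exp (((Real.sqrt n)⁻¹ * s g * x i) * sv b))]
  rw [e2]
  have hcard : (Fintype.card (Coins nc n N) : ℝ) = ∏ _g : Fin nc, ∏ _t : Fin n, ∏ _i : Fin N, (2 : ℝ) := by
    simp only [Fintype.card_pi, Fintype.card_bool, Finset.prod_const, Finset.card_univ,
      Fintype.card_fin, Nat.cast_pow, Nat.cast_ofNat]
  have hpos : 0 < ∏ _g : Fin nc, ∏ _t : Fin n, ∏ _i : Fin N, (2 : ℝ) := by positivity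
  rw [hcard, inv_mul_le_iff₀ hpos]
  have e3 : Real.exp (1 / 2 * (∑ g, s g ^ 2) * ∑ i, x i ^ 2) =
      ∏ g : Fin nc, ∏ _t : Fin n, ∏ i : Fin N, Real.exp (((Real.sqrt n)⁻¹ * s g * x i) ^ 2 / 2) := by
    simp_rw [← Real.exp_sum]
    congr 1
    have e4 : ∀ g : Fin nc, ∑ _t : Fin n, ∑ i : Fin N, ((Real.sqrt n)⁻¹ * s g * x i) ^ 2 / 2 =
        (1 / 2 * s g ^ 2) * ∑ i, x i ^ 2 := by
      intro g
      rw [Finset.sum_const, Finset.card_univ, Fintype.card_fin, nsmul_eq_mul, Finset.mul_sum,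
        Finset.mul_sum]
      refine Finset.sum_congr rfl fun i _ => ?_
      rw [mul_pow, mul_pow, inv_pow, hsq]
      field_simp
    simp_rw [e4]
    rw [← Finset.sum_mul, ← Finset.mul_sum]
  rw [e3, ← Finset.prod_mul_distrib]
  refine Finset.prod_le_prod (fun g _ => by positivity) fun g _ => ?_
  rw [← Finset.prod_mul_distrib]
  refine Finset.prod_le_prod (fun t _ => by positivity) fun t _ => ?_
  rw [← Finset.prod_mul_distrib]
  refine Finset.prod_le_prod (fun i _ => by positivity) fun i _ => ?_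
  exact sum_sv_exp _

variable (C : Cfg N)

/-- the hierarchical free energy is below the annealed-in-the-fields one -/
theorem Phi_le_log (hn : 0 < n) {M : ℕ} (f : ℕ → ℝ → ℝ) (G : Fin M → Fin N → ℝ)
    (s : Fin nc → ℝ) :
    Phi C nc n f G s ≤ Real.log (∑ y, C.q y * Real.exp (rowE f G (C.x y))) +
      1 / 2 * (∑ g, s g ^ 2) * N := by
  obtain ⟨ω⟩ : Nonempty (Om C nc n) := inferInstance
  rw [Phi_eq (C := C) (nc := nc) (n := n) G s ω]
  refine (A_le_log (prior_isProb C nc n) (xs_expo nc n) _ 0 ω).trans ?_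
  rw [← ObsConc.eE_eq_cE_top (fil_zero C nc n) (prior_isProb C nc n) _ ω]
  have hZ : 0 < ∑ y, C.q y * Real.exp (rowE f G (C.x y)) :=
    Finset.sum_pos (fun y _ => mul_pos (C.hq.pos y) (Real.exp_pos _)) Finset.univ_nonempty
  have h1 : eE (prior C nc n) (fun w => Real.exp (UU f G s w)) ≤
      (∑ y, C.q y * Real.exp (rowE f G (C.x y))) * Real.exp (1 / 2 * (∑ g, s g ^ 2) * N) := by
    unfold eE prior UU fieldE
    rw [Fintype.sum_prod_type, Finset.sum_mul]
    refine Finset.sum_le_sum fun y _ => ?_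
    have h2 := sum_coins_exp (nc := nc) hn s (C.x y)
    rw [C.hx] at h2
    calc ∑ c : Coins nc n N, C.q y * (Fintype.card (Coins nc n N) : ℝ)⁻¹ *
          Real.exp (rowE f G (C.x y) + ∑ g, s g * ∑ i, zf c g i * C.x y i)
        = (C.q y * Real.exp (rowE f G (C.x y))) * ((Fintype.card (Coins nc n N) : ℝ)⁻¹ *
          ∑ c : Coins nc n N, Real.exp (∑ g, s g * ∑ i, zf c g i * C.x y i)) := by
          rw [Finset.mul_sum, Finset.mul_sum]
          refine Finset.sum_congr rfl fun c _ => ?_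
          rw [Real.exp_add]; ring
      _ ≤ _ := mul_le_mul_of_nonneg_left h2 (mul_nonneg (C.hq.pos y).le (Real.exp_pos _).le)
  have h3 : 0 < eE (prior C nc n) (fun w => Real.exp (UU f G s w)) := by
    unfold eE
    exact Finset.sum_pos (fun w _ => mul_pos ((prior_isProb C nc n).pos w) (Real.exp_pos _))
      Finset.univ_nonempty
  calc Real.log (eE (prior C nc n) (fun w => Real.exp (UU f G s w)))
      ≤ Real.log ((∑ y, C.q y * Real.exp (rowE f G (C.x y))) *
        Real.exp (1 / 2 * (∑ g, s g ^ 2) * N)) := Real.log_le_log h3 h1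
    _ = _ := by rw [Real.log_mul hZ.ne' (Real.exp_pos _).ne', Real.log_exp]

/-- **the enriched free energy is below the pressure of the configuration space** -/
theorem FN_le_pC (hN : 0 < N) (hn : 0 < n) {K : ℝ} (f : ℕ → ℝ → ℝ) (M : ℕ)
    (hf : ∀ a, Measurable (f a)) (hK : ∀ a x, |f a x| ≤ K) (s : Fin nc → ℝ) :
    FN C nc n f M s ≤ pC C f M := by
  have hN' : (0 : ℝ) < N := by exact_mod_cast hN
  unfold FN pC
  have hm : Measurable fun G : Fin M → Fin N → ℝ =>
      Real.log (∑ y, C.q y * Real.exp (rowE f G (C.x y))) :=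
    Real.measurable_log.comp (Finset.measurable_fun_sum _ fun y _ =>
      (Real.measurable_exp.comp (measurable_rowE hf _)).const_mul _)
  have hbd : ∀ G : Fin M → Fin N → ℝ,
      |Real.log (∑ y, C.q y * Real.exp (rowE f G (C.x y)))| ≤ M * K := by
    intro G
    have hZ : 0 < ∑ y, C.q y * Real.exp (rowE f G (C.x y)) :=
      Finset.sum_pos (fun y _ => mul_pos (C.hq.pos y) (Real.exp_pos _)) Finset.univ_nonempty
    have hr : ∀ y, |rowE f G (C.x y)| ≤ M * K := fun y => rowE_abs_le hK G _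
    rw [abs_le]
    constructor
    · rw [← Real.log_exp (-(M * K))]
      apply Real.log_le_log (Real.exp_pos _)
      calc Real.exp (-(M * K)) = ∑ y, C.q y * Real.exp (-(M * K)) := by
            rw [← Finset.sum_mul, C.hq.sum, one_mul]
        _ ≤ _ := Finset.sum_le_sum fun y _ => mul_le_mul_of_nonneg_left
            (Real.exp_le_exp.2 (abs_le.1 (hr y)).1) (C.hq.pos y).le
    · rw [← Real.log_exp (M * K)]
      apply Real.log_le_log hZ
      calc _ ≤ ∑ y, C.q y * Real.exp (M * K) := Finset.sum_le_sum fun y _ =>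
            mul_le_mul_of_nonneg_left (Real.exp_le_exp.2 (abs_le.1 (hr y)).2) (C.hq.pos y).le
        _ = Real.exp (M * K) := by rw [← Finset.sum_mul, C.hq.sum, one_mul]
  have hi1 := integrable_Phi (C := C) (nc := nc) (n := n) (M := M) hf hK s
  have hi2 : Integrable (fun G : Fin M → Fin N → ℝ =>
      Real.log (∑ y, C.q y * Real.exp (rowE f G (C.x y)))) (gam M N) := integrable_bdd hm hbd
  have h1 : ∫ G, Phi C nc n (M := M) f G s ∂(gam M N) ≤
      ∫ G, Real.log (∑ y, C.q y * Real.exp (rowE (M := M) f G (C.x y))) ∂(gam M N) +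
        1 / 2 * (∑ g, s g ^ 2) * N := by
    calc _ ≤ ∫ G, (Real.log (∑ y, C.q y * Real.exp (rowE (M := M) f G (C.x y))) +
          1 / 2 * (∑ g, s g ^ 2) * N) ∂(gam M N) :=
          integral_mono hi1 (hi2.add (integrable_const _)) fun G => Phi_le_log C hn f G s
      _ = _ := by rw [integral_add hi2 (integrable_const _)]; simp
  have h2 : (N : ℝ)⁻¹ * ∫ G, Phi C nc n (M := M) f G s ∂(gam M N) ≤
      (N : ℝ)⁻¹ * (∫ G, Real.log (∑ y, C.q y * Real.exp (rowE (M := M) f G (C.x y))) ∂(gam M N) +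
        1 / 2 * (∑ g, s g ^ 2) * N) := mul_le_mul_of_nonneg_left h1 (inv_nonneg.2 hN'.le)
  have h3 : (N : ℝ)⁻¹ * (1 / 2 * (∑ g, s g ^ 2) * N) = 1 / 2 * ∑ g, s g ^ 2 := by
    field_simp
  rw [mul_add, h3] at h2
  linarith

end Crest.Agent.R146.FNup_947
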