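import Crest.Agent.R146.P34Def_393
import Crest.Agent.R146.DualL_256

/-!
Row 146, task 107: node (FIN) of `P34Def_393`: positive energy at margin `-1` for large density.

Profile `m_b = 1[t ≥ 1 - 1/b]`, `D(0) = 1/b`, `S(m_b) ≤ b/2`, and for every control
`E (∫ m v)² ≤ cost / b`, so the payoff is at most `-(b/4) E (-1 - B_1)_+²`.
-/

set_option autoImplicit false

namespace Crest.Agent.R146.Fin_810

open MeasureTheory ProbabilityTheory Filter Topology Set
open Crest.ProbabilityR.Perceptron
open Crest.Agent.R146.DualC1_256 Crest.Agent.R146.DualV_256 Crest.Agent.R146.DualL_256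
open Crest.Agent.R146.P34Def_393
open scoped NNReal ENNReal

noncomputable section

variable {Ω : Type*} [mΩ : MeasurableSpace Ω] {P : Measure Ω} [IsProbabilityMeasure P]

/-- `E (∫ w v)² ≤ (∫ w) · cost` -/
theorem integral_II_sq_le {𝓕 : Filtration ℝ≥0 mΩ} {w : ℝ → ℝ} (hw : Wt w) {v : ℝ≥0 → Ω → ℝ}
    (hv : Adm 𝓕 P w v) :
    ∫ ω, II w v ω ^ 2 ∂P ≤ (∫ t in Icc (0 : ℝ) 1, w t) * cost P w v := by
  have := isFinite_wm hw
  have hL := memLp_vh hw hv
  have hi : Integrable (fun p => vh v p ^ 2) ((wm w).prod P) := hL.integrable_sq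
  rw [cost_eq hw hv, ← wm_real_univ hw, integral_prod_symm _ hi, ← integral_const_mul]
  refine integral_mono_ae (memLp_II hw hv).integrable_sq
    ((hi.integral_prod_right).const_mul _) ?_
  filter_upwards [hi.prod_left_ae] with ω hω
  have hmω : Measurable fun t => vh v (t, ω) := (measurable_vh hv.prog).comp measurable_prodMk_right
  exact sq_integral_le _ ((memLp_two_iff_integrable_sq hmω.aestronglyMeasurable).2 hω)

/-- the profile `1[t ≥ 1 - 1/b]` -/
def prof (b : ℝ) : OverlapProfile where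
  toFun t := if 1 - 1 / b ≤ t then 1 else 0
  mono := by
    intro s t h
    dsimp only
    split_ifs with h1 h2 h2
    · exact le_rfl
    · exact absurd (h1.trans h) h2
    · exact zero_le_one
    · exact le_rfl
  nonneg t _ := by split_ifs <;> norm_num
  le_one t _ := by split_ifs <;> norm_num

theorem prof_tail_lt {b : ℝ} (hb : 1 ≤ b) {t : ℝ} (ht : t ≤ 1 - 1 / b) :
    (prof b).tail t = 1 / b := by
  have hb0 : 0 < b := by linarith
  have hb1 : 0 < 1 / b := by positivity
  have hb2 : 1 / b ≤ 1 := by rw [div_le_one hb0]; exact hb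
  unfold OverlapProfile.tail
  have hint : ∀ s r : ℝ, IntervalIntegrable (prof b).toFun volume s r :=
    fun s r => (prof b).mono.intervalIntegrable
  rw [← intervalIntegral.integral_add_adjacent_intervals (hint t (1 - 1 / b))
    (hint (1 - 1 / b) 1)]
  have h1 : ∫ s in t..(1 - 1 / b), (prof b).toFun s = 0 := by
    rw [intervalIntegral.integral_of_le ht, integral_Ioc_eq_integral_Ioo]
    rw [setIntegral_congr_fun (g := fun _ => (0 : ℝ)) measurableSet_Ioo]
    · simp
    · intro s hs
      show (if 1 - 1 / b ≤ s then (1 : ℝ) else 0) = 0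
      rw [if_neg (not_le.2 hs.2)]
  have h2 : ∫ s in (1 - 1 / b)..1, (prof b).toFun s = 1 / b := by
    rw [intervalIntegral.integral_congr (g := fun _ => (1 : ℝ))]
    · simp
    · intro s hs
      rw [uIcc_of_le (by linarith)] at hs
      show (if 1 - 1 / b ≤ s then (1 : ℝ) else 0) = 1
      rw [if_pos hs.1]
  rw [h1, h2, zero_add]

theorem prof_tail_ge {b : ℝ} {t : ℝ} (ht : 1 - 1 / b ≤ t) (ht1 : t ≤ 1) :
    (prof b).tail t = 1 - t := by
  unfold OverlapProfile.tail
  rw [intervalIntegral.integral_congr (g := fun _ => (1 : ℝ))]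
  · simp
  · intro s hs
    rw [uIcc_of_le ht1] at hs
    show (if 1 - 1 / b ≤ s then (1 : ℝ) else 0) = 1
    rw [if_pos (ht.trans hs.1)]

theorem prof_entropy_le {b : ℝ} (hb : 1 ≤ b) :
    (prof b).entropy ≤ ENNReal.ofReal (b / 2) := by
  have hb0 : 0 < b := by linarith
  have h1 : ∫⁻ t in Icc (0 : ℝ) 1,
      ((ENNReal.ofReal ((prof b).tail t))⁻¹ - (ENNReal.ofReal (1 - t))⁻¹) ≤ ENNReal.ofReal b := by
    calc ∫⁻ t in Icc (0 : ℝ) 1,
          ((ENNReal.ofReal ((prof b).tail t))⁻¹ - (ENNReal.ofReal (1 - t))⁻¹)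
        ≤ ∫⁻ t in Icc (0 : ℝ) 1, ENNReal.ofReal b := by
          refine setLIntegral_mono' measurableSet_Icc fun t ht => ?_
          rcases le_total t (1 - 1 / b) with h | h
          · rw [prof_tail_lt hb h, ← ENNReal.ofReal_inv_of_pos (by positivity)]
            simp
          · rw [prof_tail_ge h ht.2, tsub_self]
            exact zero_le
      _ = ENNReal.ofReal b := by simp
  unfold OverlapProfile.entropy
  calc (∫⁻ t in Icc (0 : ℝ) 1,
          ((ENNReal.ofReal ((prof b).tail t))⁻¹ - (ENNReal.ofReal (1 - t))⁻¹)) / 2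
      ≤ ENNReal.ofReal b / 2 := ENNReal.div_le_div_right h1 2
    _ = ENNReal.ofReal (b / 2) := by
        rw [ENNReal.ofReal_div_of_pos (by norm_num)]; simp

theorem prof_mass {b : ℝ} (hb : 1 ≤ b) : ∫ t in Icc (0 : ℝ) 1, (prof b).toFun t = 1 / b := by
  have hb0 : 0 < b := by linarith
  have hb2 : 1 / b ≤ 1 := by rw [div_le_one hb0]; exact hb
  have h := prof_tail_lt hb (by linarith : (0 : ℝ) ≤ 1 - 1 / b)
  unfold OverlapProfile.tail at h
  rwa [intervalIntegral.integral_of_le zero_le_one, ← integral_Icc_eq_integral_Ioc] at h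

/-- the pointwise inequality -/
theorem pt_ineq {b : ℝ} (hb : 0 ≤ b) (x y : ℝ) :
    qp b (-1) (x + y) - b / 2 * y ^ 2 ≤ -(b / 4) * max (-1 - x) 0 ^ 2 := by
  unfold qp
  have key : 1 / 2 * max (-1 - x) 0 ^ 2 ≤ max (-1 - (x + y)) 0 ^ 2 + y ^ 2 := by
    rcases le_total (-1 - x) 0 with h | h
    · rw [max_eq_right h]
      nlinarith [sq_nonneg (max (-1 - (x + y)) 0), sq_nonneg y]
    · rw [max_eq_left h]
      rcases le_total (-1 - (x + y)) 0 with h' | h'
      · rw [max_eq_right h']
        nlinarith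
      · rw [max_eq_left h']
        nlinarith [sq_nonneg (-1 - x - 2 * y)]
  nlinarith [mul_le_mul_of_nonneg_left key hb]

theorem integrable_qp {b : ℝ} {X : Ω → ℝ} (hX : MemLp X 2 P) :
    Integrable (fun ω => qp b (-1) (X ω)) P := by
  have hm : AEStronglyMeasurable (fun ω => qp b (-1) (X ω)) P := by
    have hc : Continuous (qp b (-1)) := by unfold qp; fun_prop
    exact hc.comp_aestronglyMeasurable hX.aestronglyMeasurable
  have h2 := hX.integrable_sq
  refine (((integrable_const (1 : ℝ)).add h2).const_mul |b|).mono' hm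
    (Eventually.of_forall fun ω => ?_)
  simp only [Pi.add_apply]
  rw [Real.norm_eq_abs]
  unfold qp
  rw [abs_mul, abs_neg, abs_div, abs_two, abs_of_nonneg (sq_nonneg (max (-1 - X ω) 0))]
  have h3 : max (-1 - X ω) 0 ^ 2 ≤ 2 * (1 + X ω ^ 2) := by
    rcases le_total (-1 - X ω) 0 with h | h
    · rw [max_eq_right h]; nlinarith [sq_nonneg (X ω)]
    · rw [max_eq_left h]; nlinarith [sq_nonneg (X ω - 1)]
  have h4 : 0 ≤ |b| := abs_nonneg b
  nlinarith [mul_le_mul_of_nonneg_left h3 h4]

variable {B : ℝ≥0 → Ω → ℝ}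

/-- the constant `E (-1 - B_1)_+²` -/
def cc (P : Measure Ω) (B : ℝ≥0 → Ω → ℝ) : ℝ := ∫ ω, max (-1 - B 1 ω) 0 ^ 2 ∂P

theorem integrable_cc (hb : IsBrownianReal B P) :
    Integrable (fun ω => max (-1 - B 1 ω) 0 ^ 2) P := by
  have h := integrable_qp (b := -2) (memLp_B hb 1)
  refine h.congr (Eventually.of_forall fun ω => ?_)
  simp [qp]

theorem cc_pos (hb : IsBrownianReal B P) : 0 < cc P B := by
  unfold cc
  rw [integral_pos_iff_support_of_nonneg (fun ω => sq_nonneg _) (integrable_cc hb)]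
  have hlaw := hb.toIsPreBrownianReal.hasLaw_eval 1
  have hsup : B 1 ⁻¹' (Iio (-1)) ⊆ Function.support fun ω => max (-1 - B 1 ω) 0 ^ 2 := by
    intro ω hω
    have h1 : 0 < -1 - B 1 ω := by
      have : B 1 ω < -1 := hω
      linarith
    rw [Function.mem_support, max_eq_left h1.le]
    positivity
  refine lt_of_lt_of_le ?_ (measure_mono hsup)
  rw [← Measure.map_apply_of_aemeasurable hlaw.aemeasurable measurableSet_Iio, hlaw.map_eq]
  rw [pos_iff_ne_zero]
  intro h0
  have h1 : (1 : ℝ≥0) ≠ 0 := one_ne_zero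
  have h2 := gaussianReal_absolutelyContinuous' 0 h1 h0
  simp at h2

theorem value_le_fin (hB : ∀ t, Measurable (B t)) (hb : IsBrownianReal B P) {b : ℝ} (hb1 : 1 ≤ b) :
    controlValue P B hB (qp b (-1)) (prof b) ≤ -(b / 4) * cc P B := by
  have hb0 : 0 < b := by linarith
  refine value_le fun v hv => ?_
  have hw := wt_profile (prof b)
  have hI := memLp_II hw hv
  have hX : MemLp (fun ω => B 1 ω + II (prof b).toFun v ω) 2 P := (memLp_B hb 1).add hI
  have h1 := integral_II_sq_le hw hv
  rw [prof_mass hb1] at h1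
  have h2 : b / 2 * ∫ ω, II (prof b).toFun v ω ^ 2 ∂P ≤ cost P (prof b).toFun v / 2 := by
    have := mul_le_mul_of_nonneg_left h1 hb0.le
    have e : b * (1 / b * cost P (prof b).toFun v) = cost P (prof b).toFun v := by
      field_simp
    rw [e] at this
    linarith
  unfold pay
  have h3 : ∫ ω, (qp b (-1) (B 1 ω + II (prof b).toFun v ω) -
      b / 2 * II (prof b).toFun v ω ^ 2) ∂P ≤ ∫ ω, -(b / 4) * max (-1 - B 1 ω) 0 ^ 2 ∂P := by
    refine integral_mono ((integrable_qp hX).sub (hI.integrable_sq.const_mul _))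
      ((integrable_cc hb).const_mul _) fun ω => ?_
    exact pt_ineq hb0.le _ _
  rw [integral_sub (integrable_qp hX) (hI.integrable_sq.const_mul _), integral_const_mul,
    integral_const_mul] at h3
  unfold cc
  linarith

/-- **(FIN)** -/
theorem fin {Ω : Type} [MeasurableSpace Ω] (P : Measure Ω) [IsProbabilityMeasure P]
    (B : ℝ≥0 → Ω → ℝ) (hB : ∀ t, Measurable (B t)) (hb : IsBrownianReal B P) : FIN P B hB := by
  have hc := cc_pos hb
  refine ⟨4 / cc P B, by positivity, fun hz => ?_⟩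
  obtain ⟨b0, _, h⟩ := hz (1 / 4) (by norm_num)
  set b := max b0 1 with hbdef
  have hb1 : 1 ≤ b := le_max_right _ _
  have hb0 : 0 < b := by linarith
  have hent := prof_entropy_le hb1
  have hne : (prof b).entropy ≠ ⊤ := ne_top_of_le_ne_top ENNReal.ofReal_ne_top hent
  have hreal : (prof b).entropy.toReal ≤ b / 2 := by
    have := ENNReal.toReal_mono ENNReal.ofReal_ne_top hent
    rwa [ENNReal.toReal_ofReal (by positivity)] at this
  have h1 := h b (le_max_left _ _) (prof b) hne
  unfold FF at h1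
  have h2 := value_le_fin hB hb hb1
  have h3 : 4 / cc P B * controlValue P B hB (qp b (-1)) (prof b) ≤ -b := by
    have := mul_le_mul_of_nonneg_left h2 (by positivity : 0 ≤ 4 / cc P B)
    have e : 4 / cc P B * (-(b / 4) * cc P B) = -b := by field_simp
    rw [e] at this
    exact this
  linarith

end

end Crest.Agent.R146.Fin_810
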