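import Crest.Agent.R146.VSpace_371

/-!
Positions as integrals of the slope (row 146, helper371): for the backward system,
`x + u = ∫_{(0,V)} v / I(t,v) dv`, `u = ∫_{(V,1)} (1-v) / I(t,v) dv`, given a decay of the terminal value.
-/

set_option autoImplicit false

open Set Filter Topology MeasureTheory

namespace Crest.Agent.R146.Pos_371

open MaxP_371 MaxP2_371 MaxPCmp_371 MaxPCmp2_371 VSpace_371

/-- `σ(x) = x + √(1+x²)`: positive, increasing, `~ 1/(2|x|)` at `-∞`, `~ 2x` at `+∞`. -/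
noncomputable def sg (x : ℝ) : ℝ := x + Real.sqrt (1 + x ^ 2)

lemma sqrt_pos' (x : ℝ) : 0 < Real.sqrt (1 + x ^ 2) := Real.sqrt_pos.2 (by positivity)

lemma sqrt_sq' (x : ℝ) : Real.sqrt (1 + x ^ 2) ^ 2 = 1 + x ^ 2 := Real.sq_sqrt (by positivity)

lemma abs_lt_sqrt (x : ℝ) : |x| < Real.sqrt (1 + x ^ 2) := by
  rw [← Real.sqrt_sq_eq_abs]
  exact Real.sqrt_lt_sqrt (sq_nonneg x) (by linarith)

lemma sqrt_le (x : ℝ) : Real.sqrt (1 + x ^ 2) ≤ 1 + |x| := by
  rw [Real.sqrt_le_left (by positivity)]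
  rw [← sq_abs x]; nlinarith [abs_nonneg x]

lemma one_le_sqrt (x : ℝ) : 1 ≤ Real.sqrt (1 + x ^ 2) := by
  rw [Real.one_le_sqrt]; nlinarith [sq_nonneg x]

lemma sg_pos (x : ℝ) : 0 < sg x := by
  have := abs_lt_sqrt x
  have := neg_abs_le x
  unfold sg; linarith

lemma sg_mul (x : ℝ) : sg x * (Real.sqrt (1 + x ^ 2) - x) = 1 := by
  unfold sg
  have := sqrt_sq' x
  nlinarith

lemma sg_le (x : ℝ) : sg x ≤ 2 * (1 + |x|) := by
  have h1 := sqrt_le x
  have h2 := le_abs_self x
  unfold sg; linarith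

lemma hasDerivAt_sqrt' (x : ℝ) :
    HasDerivAt (fun y : ℝ => Real.sqrt (1 + y ^ 2)) (x / Real.sqrt (1 + x ^ 2)) x := by
  have h1 : HasDerivAt (fun y : ℝ => 1 + y ^ 2) (2 * x) x := by
    have := (hasDerivAt_pow 2 x).const_add 1
    simpa using this
  have h2 := h1.sqrt (by positivity)
  refine h2.congr_deriv ?_
  have := (sqrt_pos' x).ne'
  field_simp

lemma hasDerivAt_sg (x : ℝ) : HasDerivAt sg (sg x / Real.sqrt (1 + x ^ 2)) x := by
  have h := (hasDerivAt_id x).add (hasDerivAt_sqrt' x)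
  refine h.congr_deriv ?_
  have := (sqrt_pos' x).ne'
  unfold sg
  field_simp
  ring

lemma hasDerivAt_sg' (x : ℝ) : HasDerivAt (fun y => sg y / Real.sqrt (1 + y ^ 2))
    (1 / Real.sqrt (1 + x ^ 2) ^ 3) x := by
  have hs := (sqrt_pos' x).ne'
  have h := (hasDerivAt_sg x).div (hasDerivAt_sqrt' x) hs
  refine h.congr_deriv ?_
  have h2 := sqrt_sq' x
  have h3 := sg_mul x
  field_simp
  nlinarith

lemma sg_cont : Continuous sg := by
  unfold sg; fun_prop

lemma sg_lower (x : ℝ) : 1 ≤ sg x * (2 * Real.sqrt (1 + x ^ 2)) := by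
  have h1 := sg_mul x
  have h2 := abs_lt_sqrt x
  have h3 := neg_abs_le x
  have h4 := sg_pos x
  nlinarith

lemma tendsto_sg_bot : Tendsto sg atBot (𝓝 0) := by
  have h1 : ∀ᶠ x : ℝ in atBot, sg x ≤ 1 / (-x) := by
    filter_upwards [eventually_lt_atBot (0:ℝ)] with x hx
    have h2 := sg_mul x
    have h3 := sqrt_pos' x
    have h4 : sg x = 1 / (Real.sqrt (1 + x ^ 2) - x) := by
      field_simp [show Real.sqrt (1 + x ^ 2) - x ≠ 0 by linarith]
      exact h2
    rw [h4]
    apply one_div_le_one_div_of_le <;> linarith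
  have h2 : Tendsto (fun x : ℝ => 1 / (-x)) atBot (𝓝 0) := by
    have := tendsto_inv_atTop_zero.comp (tendsto_neg_atBot_atTop (G := ℝ))
    refine this.congr fun y => ?_
    simp only [Function.comp_apply, one_div]
  exact tendsto_of_tendsto_of_tendsto_of_le_of_le' tendsto_const_nhds h2
    (Eventually.of_forall fun x => (sg_pos x).le) h1

section

variable {t0 t1 : ℝ} {b : ℝ → ℝ} {u V P Px Pxx : ℝ → ℝ → ℝ} {M : ℝ}

/-- decay of `w = x + u` at `-∞` propagates backward. -/
theorem w_le (h : BSys t0 t1 b u V P Px Pxx M) {C : ℝ} (hC : 0 ≤ C)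
    (hterm : ∀ x, x + u t1 x ≤ C * sg x) :
    ∀ t ∈ Icc t0 t1, ∀ x,
      x + u t x ≤ C * Real.exp ((1 + 2 * M ^ 2) * (t1 - t)) * sg x := by
  set κ : ℝ := 1 + 2 * M ^ 2 with hκ
  have key := backward_strip (t0 := t0) (t1 := t1)
    (w := fun t x => x + u t x - C * Real.exp (κ * (t1 - t)) * sg x)
    ?_ (A := 1) (B := M * M) (C := 0) (M := M + 1) ?_ ?_ ?_
  · intro t ht x
    have := key t ht x
    linarith
  · refine ContinuousOn.sub ((continuous_snd.continuousOn).add h.cu) ?_
    have : Continuous (fun p : ℝ × ℝ => C * Real.exp (κ * (t1 - p.1)) * sg p.2) := by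
      have := sg_cont
      fun_prop
    exact this.continuousOn
  · intro t ht x
    have h3 := h.u_le t ht x
    have h4 : 0 ≤ C * Real.exp (κ * (t1 - t)) * sg x := by have := sg_pos x; positivity
    have h5 := le_abs_self x
    have h6 := abs_nonneg x
    linarith
  · intro x; have := hterm x; simp; linarith
  · intro t ht x hpos
    have htI : t ∈ Icc t0 t1 := ⟨ht.1, ht.2.le⟩
    have hM0 : 0 ≤ M := (h.b_nonneg t htI).trans (h.b_le t htI)
    set S : ℝ := C * Real.exp (κ * (t1 - t)) with hS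
    have hS0 : 0 ≤ S := by positivity
    have hSt : HasDerivAt (fun s => C * Real.exp (κ * (t1 - s)) * sg x) (-κ * S * sg x) t := by
      have h1 : HasDerivAt (fun s : ℝ => κ * (t1 - s)) (-κ) t := by
        have := ((hasDerivAt_const t t1).sub (hasDerivAt_id t)).const_mul κ
        simpa using this
      have h2 := (h1.exp.const_mul C).mul_const (sg x)
      refine h2.congr_deriv ?_
      rw [hS]; ring
    refine ⟨_, P t x - S * (1 / Real.sqrt (1 + x ^ 2) ^ 3), 1/2, b t * u t x, 0,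
      fun y => 1 + (V t y - 1) - S * (sg y / Real.sqrt (1 + y ^ 2)),
      ((h.hut t ht x).const_add x).sub hSt.hasDerivWithinAt,
      Eventually.of_forall fun y =>
        ((hasDerivAt_id y).add (h.hux t ht y)).sub ((hasDerivAt_sg y).const_mul S), ?_, by norm_num,
      ?_, h.drift_le htI x, le_refl _, ?_⟩
    · apply HasSide.of_hasDerivAt
      have h1 := ((h.hVx t ht x).sub_const 1).const_add 1
      exact h1.sub ((hasDerivAt_sg' x).const_mul S)
    · nlinarith [sq_nonneg x]
    · have e1 := h.b_nonneg t htI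
      have e2 := h.b_le t htI
      have e3 := h.u_nonneg t htI x
      have e4 := h.u_le t htI x
      have hq := sqrt_pos' x
      have hq1 := one_le_sqrt x
      have hσ := sg_pos x
      set q := Real.sqrt (1 + x ^ 2) with hqdef
      -- b u ≤ 2 M² q
      have e5 : b t * u t x ≤ M * (M * (1 + |x|)) := mul_le_mul e2 e4 e3 hM0
      have e6 : 1 + |x| ≤ 2 * q := by have := abs_lt_sqrt x; linarith
      have e7 : b t * u t x ≤ 2 * M ^ 2 * q := by nlinarith [mul_nonneg hM0 hM0]
      -- 1/(2 q³) ≤ sg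
      have e8 : 1 / q ^ 3 ≤ 2 * sg x := by
        have h1 := sg_lower x
        rw [div_le_iff₀ (by positivity)]
        have h2 : q ≤ q ^ 3 := by nlinarith [sq_nonneg (q - 1), sq_nonneg q]
        have h3 : sg x * (2 * q) ≤ sg x * (2 * q ^ 3) :=
          mul_le_mul_of_nonneg_left (by linarith) hσ.le
        nlinarith
      have e9 : b t * u t x * (sg x / q) ≤ 2 * M ^ 2 * sg x := by
        have h1 : b t * u t x * (sg x / q) ≤ 2 * M ^ 2 * q * (sg x / q) :=
          mul_le_mul_of_nonneg_right e7 (by positivity)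
        have h2 : 2 * M ^ 2 * q * (sg x / q) = 2 * M ^ 2 * sg x := by field_simp
        linarith
      have e10 : S * (1 / q ^ 3) ≤ S * (2 * sg x) := mul_le_mul_of_nonneg_left e8 hS0
      have e11 : S * (b t * u t x * (sg x / q)) ≤ S * (2 * M ^ 2 * sg x) :=
        mul_le_mul_of_nonneg_left e9 hS0
      have e12 : -(P t x / 2 + b t * u t x * V t x) - -κ * S * sg x
          + 1 / 2 * (P t x - S * (1 / q ^ 3))
          + b t * u t x * (1 + (V t x - 1) - S * (sg x / q))
          + 0 * (x + u t x - S * sg x)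
          = κ * S * sg x - (1/2) * (S * (1 / q ^ 3)) - S * (b t * u t x * (sg x / q)) := by ring
      rw [e12, hκ]
      nlinarith

/-- decay of `u` at `+∞` propagates backward. -/
theorem u_le_sg (h : BSys t0 t1 b u V P Px Pxx M) {C : ℝ} (hC : 0 ≤ C)
    (hterm : ∀ x, u t1 x ≤ C * sg (-x)) :
    ∀ t ∈ Icc t0 t1, ∀ x, u t x ≤ C * Real.exp ((1 + M) * (t1 - t)) * sg (-x) := by
  set κ : ℝ := 1 + M with hκ
  have hd1 : ∀ y : ℝ, HasDerivAt (fun y => sg (-y)) (-(sg (-y) / Real.sqrt (1 + y ^ 2))) y := by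
    intro y
    have h1 := HasDerivAt.comp y (hasDerivAt_sg (-y)) (hasDerivAt_neg y)
    refine h1.congr_deriv ?_
    rw [neg_sq]; ring
  have hd2 : ∀ y : ℝ, HasDerivAt (fun y => -(sg (-y) / Real.sqrt (1 + y ^ 2)))
      (1 / Real.sqrt (1 + y ^ 2) ^ 3) y := by
    intro y
    have h1 := (HasDerivAt.comp y (hasDerivAt_sg' (-y)) (hasDerivAt_neg y)).neg
    have e : (fun y : ℝ => -(sg (-y) / Real.sqrt (1 + y ^ 2))) =
        fun y : ℝ => -((fun y => sg y / Real.sqrt (1 + y ^ 2)) ∘ fun y => -y) y := by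
      funext z; simp [neg_sq]
    rw [e]
    refine h1.congr_deriv ?_
    rw [neg_sq]; ring
  have key := backward_strip (t0 := t0) (t1 := t1)
    (w := fun t x => u t x - C * Real.exp (κ * (t1 - t)) * sg (-x))
    ?_ (A := 1) (B := 0) (C := M) (M := M) ?_ ?_ ?_
  · intro t ht x
    have := key t ht x
    linarith
  · refine ContinuousOn.sub h.cu ?_
    have : Continuous (fun p : ℝ × ℝ => C * Real.exp (κ * (t1 - p.1)) * sg (-p.2)) := by
      have := sg_cont
      fun_prop
    exact this.continuousOn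
  · intro t ht x
    have h3 := h.u_le t ht x
    have h4 : 0 ≤ C * Real.exp (κ * (t1 - t)) * sg (-x) := by have := sg_pos (-x); positivity
    linarith
  · intro x; have := hterm x; simp; linarith
  · intro t ht x hpos
    have htI : t ∈ Icc t0 t1 := ⟨ht.1, ht.2.le⟩
    have hM0 : 0 ≤ M := (h.b_nonneg t htI).trans (h.b_le t htI)
    set S : ℝ := C * Real.exp (κ * (t1 - t)) with hS
    have hS0 : 0 ≤ S := by positivity
    have hSt : HasDerivAt (fun s => C * Real.exp (κ * (t1 - s)) * sg (-x)) (-κ * S * sg (-x)) t := by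
      have h1 : HasDerivAt (fun s : ℝ => κ * (t1 - s)) (-κ) t := by
        have := ((hasDerivAt_const t t1).sub (hasDerivAt_id t)).const_mul κ
        simpa using this
      have h2 := (h1.exp.const_mul C).mul_const (sg (-x))
      refine h2.congr_deriv ?_
      rw [hS]; ring
    refine ⟨_, P t x - S * (1 / Real.sqrt (1 + x ^ 2) ^ 3), 1/2, 0, b t * V t x,
      fun y => (V t y - 1) - S * (-(sg (-y) / Real.sqrt (1 + y ^ 2))),
      (h.hut t ht x).sub hSt.hasDerivWithinAt,
      Eventually.of_forall fun y => (h.hux t ht y).sub ((hd1 y).const_mul S), ?_, by norm_num,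
      ?_, by simp, ?_, ?_⟩
    · apply HasSide.of_hasDerivAt
      exact ((h.hVx t ht x).sub_const 1).sub ((hd2 x).const_mul S)
    · nlinarith [sq_nonneg x]
    · have h1 := h.b_nonneg t htI
      have h5 := h.b_le t htI
      have h6 := h.V_pos t htI x
      have h7 := h.V_lt t htI x
      nlinarith
    · have e1 := h.b_nonneg t htI
      have e2 := h.b_le t htI
      have e3 := h.V_pos t htI x
      have e4 := h.V_lt t htI x
      have hq := sqrt_pos' x
      have hq1 := one_le_sqrt x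
      have hσ := sg_pos (-x)
      have h1 := sg_lower (-x)
      rw [neg_sq] at h1
      set q := Real.sqrt (1 + x ^ 2) with hqdef
      have e8 : 1 / q ^ 3 ≤ 2 * sg (-x) := by
        rw [div_le_iff₀ (by positivity)]
        have h2 : q ≤ q ^ 3 := by nlinarith [sq_nonneg (q - 1), sq_nonneg q]
        have h3 : sg (-x) * (2 * q) ≤ sg (-x) * (2 * q ^ 3) :=
          mul_le_mul_of_nonneg_left (by linarith) hσ.le
        nlinarith
      have e9 : b t * V t x ≤ M := by nlinarith
      have e10 : S * (1 / q ^ 3) ≤ S * (2 * sg (-x)) := mul_le_mul_of_nonneg_left e8 hS0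
      have e11 : b t * V t x * (S * sg (-x)) ≤ M * (S * sg (-x)) :=
        mul_le_mul_of_nonneg_right e9 (mul_nonneg hS0 hσ.le)
      have e12 : -(P t x / 2 + b t * u t x * V t x) - -κ * S * sg (-x)
          + 1 / 2 * (P t x - S * (1 / q ^ 3))
          + 0 * ((V t x - 1) - S * (-(sg (-x) / q)))
          + b t * V t x * (u t x - S * sg (-x))
          = κ * S * sg (-x) - (1/2) * (S * (1 / q ^ 3)) - b t * V t x * (S * sg (-x)) := by ring
      rw [e12, hκ]
      nlinarith

end

section pos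

variable {t0 t1 : ℝ} {b : ℝ → ℝ} {u V P Px Pxx : ℝ → ℝ → ℝ} {M : ℝ}

lemma I_V (h : BSysV t0 t1 b u V P Px Pxx M) {t : ℝ} (ht : t ∈ Ico t0 t1) (x : ℝ) :
    BSysV.I V P t (V t x) = P t x := by
  unfold BSysV.I; rw [h.X_V ht x]

lemma image_Iio (h : BSysV t0 t1 b u V P Px Pxx M) {t : ℝ} (ht : t ∈ Ico t0 t1) (x : ℝ) :
    V t '' Iio x = Ioo 0 (V t x) := by
  ext v; constructor
  · rintro ⟨y, hy, rfl⟩; exact ⟨(h.V_mem ht y).1, h.strictMono ht hy⟩
  · intro hv
    obtain ⟨y, hy⟩ := h.surj ht (v := v) ⟨hv.1, hv.2.trans (h.V_mem ht x).2⟩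
    exact ⟨y, (h.strictMono ht).lt_iff_lt.1 (by rw [hy]; exact hv.2), hy⟩

lemma image_Ioi (h : BSysV t0 t1 b u V P Px Pxx M) {t : ℝ} (ht : t ∈ Ico t0 t1) (x : ℝ) :
    V t '' Ioi x = Ioo (V t x) 1 := by
  ext v; constructor
  · rintro ⟨y, hy, rfl⟩; exact ⟨h.strictMono ht hy, (h.V_mem ht y).2⟩
  · intro hv
    obtain ⟨y, hy⟩ := h.surj ht (v := v) ⟨(h.V_mem ht x).1.trans hv.1, hv.2⟩
    exact ⟨y, (h.strictMono ht).lt_iff_lt.1 (by rw [hy]; exact hv.1), hy⟩

/-- `x + u = ∫_{(0,V)} v / I dv` -/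
theorem w_eq (h : BSysV t0 t1 b u V P Px Pxx M) {t : ℝ} (ht : t ∈ Ico t0 t1)
    (hlim : Tendsto (fun x => x + u t x) atBot (𝓝 0)) (x : ℝ) :
    IntegrableOn (fun v => v / BSysV.I V P t v) (Ioo 0 (V t x)) ∧
    x + u t x = ∫ v in Ioo 0 (V t x), v / BSysV.I V P t v := by
  have hw : ∀ y, HasDerivAt (fun y => y + u t y) (V t y) y := by
    intro y
    have h1 := (hasDerivAt_id y).add (h.hux t ht y)
    refine h1.congr_deriv ?_
    ring
  have hVpos : ∀ y, 0 ≤ V t y := fun y => (h.V_mem ht y).1.le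
  have hint : IntegrableOn (V t) (Iic x) := by
    have hw' : ∀ y, HasDerivAt (fun y => -(-y + u t (-y))) (V t (-y)) y := by
      intro y
      have h1 := ((hw (-y)).comp y (hasDerivAt_neg y)).neg
      refine h1.congr_deriv ?_
      ring
    have hlim' : Tendsto (fun y => -(-y + u t (-y))) atTop (𝓝 0) := by
      have h1 := (hlim.comp (tendsto_neg_atTop_atBot (G := ℝ))).neg
      simpa [Function.comp_def] using h1
    have hint' : IntegrableOn (fun y => V t (-y)) (Ioi (-x)) :=
      integrableOn_Ioi_deriv_of_nonneg' (g := fun y => -(-y + u t (-y)))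
        (fun y _ => hw' y) (fun y _ => hVpos (-y)) hlim'
    have h2 : IntegrableOn (V t) (Iio x) := by
      have h3 := (Measure.measurePreserving_neg (volume : Measure ℝ)).integrableOn_comp_preimage
        (Homeomorph.neg ℝ).measurableEmbedding (f := V t) (s := Iio x)
      apply h3.1
      have h4 : (Neg.neg ⁻¹' Iio x : Set ℝ) = Ioi (-x) := by
        ext y; simp only [mem_preimage, mem_Iio, mem_Ioi]; constructor <;> intro h5 <;> linarith
      rw [h4]; exact hint'
    exact (integrableOn_Iic_iff_integrableOn_Iio).2 h2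
  have hI : ∫ y in Iic x, V t y = (x + u t x) - 0 :=
    integral_Iic_of_hasDerivAt_of_tendsto' (fun y _ => hw y) hint hlim
  have h1 := integral_image_eq_integral_abs_deriv_smul (s := Iio x) (f := V t)
    (f' := P t) measurableSet_Iio (fun y _ => (h.hVx t ht y).hasDerivWithinAt)
    (h.strictMono ht).injective.injOn (fun v => v / BSysV.I V P t v)
  have h2 := integrableOn_image_iff_integrableOn_abs_deriv_smul (s := Iio x) (f := V t)
    (f' := P t) measurableSet_Iio (fun y _ => (h.hVx t ht y).hasDerivWithinAt)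
    (h.strictMono ht).injective.injOn (fun v => v / BSysV.I V P t v)
  rw [image_Iio h ht] at h1 h2
  have e : ∀ y, |P t y| • (V t y / BSysV.I V P t (V t y)) = V t y := by
    intro y
    rw [I_V h ht, abs_of_pos (h.P_pos t ht y), smul_eq_mul]
    have := (h.P_pos t ht y).ne'
    field_simp
  simp only [e] at h1 h2
  refine ⟨h2.2 (hint.mono_set Iio_subset_Iic_self), ?_⟩
  rw [h1, ← integral_Iic_eq_integral_Iio, hI, sub_zero]

/-- `u = ∫_{(V,1)} (1-v) / I dv` -/
theorem u_eq (h : BSysV t0 t1 b u V P Px Pxx M) {t : ℝ} (ht : t ∈ Ico t0 t1)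
    (hlim : Tendsto (u t) atTop (𝓝 0)) (x : ℝ) :
    IntegrableOn (fun v => (1 - v) / BSysV.I V P t v) (Ioo (V t x) 1) ∧
    u t x = ∫ v in Ioo (V t x) 1, (1 - v) / BSysV.I V P t v := by
  have hw : ∀ y, HasDerivAt (fun y => -u t y) (1 - V t y) y := by
    intro y
    have h1 := (h.hux t ht y).neg
    refine h1.congr_deriv ?_
    ring
  have hVpos : ∀ y, 0 ≤ 1 - V t y := fun y => by linarith [(h.V_mem ht y).2]
  have hlim' : Tendsto (fun y => -u t y) atTop (𝓝 0) := by simpa using hlim.neg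
  have hint : IntegrableOn (fun y => 1 - V t y) (Ioi x) :=
    integrableOn_Ioi_deriv_of_nonneg' (g := fun y => -u t y)
      (fun y _ => hw y) (fun y _ => hVpos y) hlim'
  have hI : ∫ y in Ioi x, (1 - V t y) = 0 - -u t x :=
    integral_Ioi_of_hasDerivAt_of_tendsto' (fun y _ => hw y) hint hlim'
  have h1 := integral_image_eq_integral_abs_deriv_smul (s := Ioi x) (f := V t)
    (f' := P t) measurableSet_Ioi (fun y _ => (h.hVx t ht y).hasDerivWithinAt)
    (h.strictMono ht).injective.injOn (fun v => (1 - v) / BSysV.I V P t v)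
  have h2 := integrableOn_image_iff_integrableOn_abs_deriv_smul (s := Ioi x) (f := V t)
    (f' := P t) measurableSet_Ioi (fun y _ => (h.hVx t ht y).hasDerivWithinAt)
    (h.strictMono ht).injective.injOn (fun v => (1 - v) / BSysV.I V P t v)
  rw [image_Ioi h ht] at h1 h2
  have e : ∀ y, |P t y| • ((1 - V t y) / BSysV.I V P t (V t y)) = 1 - V t y := by
    intro y
    rw [I_V h ht, abs_of_pos (h.P_pos t ht y), smul_eq_mul]
    have := (h.P_pos t ht y).ne'
    field_simp
  simp only [e] at h1 h2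
  refine ⟨h2.2 hint, ?_⟩
  rw [h1, hI]; ring

end pos

end Crest.Agent.R146.Pos_371
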