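import Crest.Agent.R146.Abs_423
import Crest.Agent.R146.Back_847
import Crest.Agent.R146.StepClk_900
import Crest.Agent.R146.StepStart_483
import Crest.Agent.R146.Pos_371

/-!
Row 146, PT-CMP (helper423): the step system at a fixed time is a `Fix` (see `Abs_423`), in the new clock
(`s = χ^{-1/2}`, unconditional) and in the old clock (`s = τ^{-1/2}`, `ν ≤ 1`).

The universal lower slope band `√χ V_x ≥ (3/4) V^{3/2} (1-V)`.
-/

set_option autoImplicit false

open Set Filter Topology MeasureTheory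

namespace Crest.Agent.R146.FixA_423

open MaxP_371 MaxP2_371 MaxPCmp_371 StepDef_791 StepCmp_371 Abs_423
open Crest.Agent.R146.StepStart_483 (ph Phi)

/-- `K v = (3/4) v √v (1-v)` -/
noncomputable def Ku (v : ℝ) : ℝ := 3 / 4 * (v * Real.sqrt v) * (1 - v)
noncomputable def Ku' (v : ℝ) : ℝ := 3 / 4 * Real.sqrt v * (3 / 2 - 5 / 2 * v)
noncomputable def Ku'' (v : ℝ) : ℝ := 3 / 4 * ((3 / 2 - 5 / 2 * v) / (2 * Real.sqrt v) - 5 / 2 * Real.sqrt v)

lemma Ku_deriv {v : ℝ} (hv : 0 < v) : HasDerivAt Ku (Ku' v) v := by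
  have hq : 0 < Real.sqrt v := Real.sqrt_pos.2 hv
  have hs : Real.sqrt v ^ 2 = v := Real.sq_sqrt hv.le
  have h1 : HasDerivAt (fun v => v * Real.sqrt v) (1 * Real.sqrt v + v * (1 / (2 * Real.sqrt v))) v :=
    (hasDerivAt_id v).mul ((hasDerivAt_id v).sqrt hv.ne')
  have h2 := (h1.const_mul (3 / 4)).mul ((hasDerivAt_id v).const_sub 1)
  refine h2.congr_deriv ?_
  unfold Ku'
  have h3 : v * (1 / (2 * Real.sqrt v)) = Real.sqrt v / 2 := by
    field_simp; rw [hs]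
  rw [h3]
  simp only [id]
  ring

lemma Ku'_deriv {v : ℝ} (hv : 0 < v) : HasDerivAt Ku' (Ku'' v) v := by
  have hq : 0 < Real.sqrt v := Real.sqrt_pos.2 hv
  have h1 : HasDerivAt (fun v => 3 / 4 * Real.sqrt v) (3 / 4 * (1 / (2 * Real.sqrt v))) v :=
    ((hasDerivAt_id v).sqrt hv.ne').const_mul _
  have h2 : HasDerivAt (fun v : ℝ => 3 / 2 - 5 / 2 * v) (-(5 / 2 * 1)) v :=
    ((hasDerivAt_id v).const_mul (5 / 2)).const_sub (3 / 2)
  refine (h1.mul h2).congr_deriv ?_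
  unfold Ku''
  field_simp
  ring

lemma Ku_KK {v : ℝ} (hv : 0 < v) :
    Ku v * Ku'' v = 27 / 64 * (v * (1 - v) * (1 - 5 * v)) := by
  have hq : 0 < Real.sqrt v := Real.sqrt_pos.2 hv
  have hs : Real.sqrt v ^ 2 = v := Real.sq_sqrt hv.le
  unfold Ku Ku''
  have h1 : Real.sqrt v * ((3 / 2 - 5 / 2 * v) / (2 * Real.sqrt v) - 5 / 2 * Real.sqrt v) =
      (3 / 2 - 5 / 2 * v) / 2 - 5 / 2 * v := by
    rw [mul_sub]
    have h2 : Real.sqrt v * ((3 / 2 - 5 / 2 * v) / (2 * Real.sqrt v)) = (3 / 2 - 5 / 2 * v) / 2 := by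
      field_simp
    rw [h2]
    have h3 : Real.sqrt v * (5 / 2 * Real.sqrt v) = 5 / 2 * (Real.sqrt v ^ 2) := by ring
    rw [h3, hs]
  calc 3 / 4 * (v * Real.sqrt v) * (1 - v) *
      (3 / 4 * ((3 / 2 - 5 / 2 * v) / (2 * Real.sqrt v) - 5 / 2 * Real.sqrt v))
      = 9 / 16 * v * (1 - v) * (Real.sqrt v * ((3 / 2 - 5 / 2 * v) / (2 * Real.sqrt v) -
        5 / 2 * Real.sqrt v)) := by ring
    _ = 27 / 64 * (v * (1 - v) * (1 - 5 * v)) := by rw [h1]; ring

lemma Ku_K' {v : ℝ} (_hv : 0 < v) : v * (1 - v) * Ku' v = Ku v * (3 / 2 - 5 / 2 * v) := by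
  unfold Ku Ku'; ring

lemma Ku_pos {v : ℝ} (hv : v ∈ Ioo (0:ℝ) 1) : 0 < Ku v := by
  unfold Ku
  have := Real.sqrt_pos.2 hv.1
  have := sub_pos.2 hv.2
  have := hv.1
  positivity

lemma Ku_le {v : ℝ} (hv : v ∈ Ioo (0:ℝ) 1) : Ku v ≤ 1 := by
  unfold Ku
  have h1 : Real.sqrt v ≤ 1 := by
    rw [show (1:ℝ) = Real.sqrt 1 by simp]
    exact Real.sqrt_le_sqrt hv.2.le
  have h2 := Real.sqrt_nonneg v
  have h3 := hv.1
  have h4 := hv.2
  have h5 : v * Real.sqrt v ≤ 1 := by nlinarith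
  have h6 : 0 ≤ v * Real.sqrt v := by positivity
  nlinarith

/-- **universal lower slope band** -/
theorem univ_band {t0 t1 : ℝ} {b : ℝ → ℝ} {u V P Px Pxx : ℝ → ℝ → ℝ} {M : ℝ}
    (h : BSys t0 t1 b u V P Px Pxx M) {g Yb : ℝ → ℝ} {om G : ℝ} (hom : 0 ≤ om)
    (hg : ∀ t ∈ Ico t0 t1, HasDerivWithinAt g ((1 + om * Yb t) / 2 * g t ^ 3) (Ici t) t)
    (hgc : ContinuousOn g (Icc t0 t1)) (hg0 : ∀ t ∈ Icc t0 t1, 0 < g t)
    (hgG : ∀ t ∈ Icc t0 t1, g t ≤ G)
    (hb : ∀ t ∈ Ico t0 t1, b t = Yb t * g t ^ 2) (hY0 : ∀ t ∈ Ico t0 t1, 0 ≤ Yb t)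
    (hY1 : ∀ t ∈ Ico t0 t1, Yb t ≤ 1 + om * Yb t)
    (hterm : ∀ x, g t1 * Ku (V t1 x) ≤ P t1 x) :
    ∀ t ∈ Icc t0 t1, ∀ x, g t * Ku (V t x) ≤ P t x := by
  have hVI : ∀ t ∈ Icc t0 t1, ∀ y, V t y ∈ Ioo (0:ℝ) 1 :=
    fun t ht y => ⟨h.V_pos t ht y, h.V_lt t ht y⟩
  have hKc : ContinuousOn Ku (Ioo 0 1) := fun v hv => (Ku_deriv hv.1).continuousAt.continuousWithinAt
  have key := backward_strip (t0 := t0) (t1 := t1) (w := fun t x => g t * Ku (V t x) - P t x)
    ?_ (A := 1) (B := M * M) (C := G ^ 2 + M) (M := G) ?_ ?_ ?_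
  · intro t ht x
    have := key t ht x
    linarith
  · refine ContinuousOn.sub (ContinuousOn.mul ?_ ?_) h.cP
    · exact hgc.comp continuous_fst.continuousOn (fun p hp => hp.1)
    · exact hKc.comp h.cV (fun p hp => hVI p.1 hp.1 p.2)
  · intro t ht x
    have hG := (hg0 t ht).le.trans (hgG t ht)
    have h1 : g t * Ku (V t x) ≤ G * 1 :=
      mul_le_mul (hgG t ht) (Ku_le (hVI t ht x)) (Ku_pos (hVI t ht x)).le hG
    have h3 := h.P_nonneg t ht x
    have h4 : 0 ≤ |x| := abs_nonneg x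
    nlinarith
  · intro x; have := hterm x; linarith
  · intro t ht x hpos
    have htI : t ∈ Icc t0 t1 := ⟨ht.1, ht.2.le⟩
    set v := V t x with hv
    have hvI : v ∈ Ioo (0:ℝ) 1 := hVI t htI x
    have hgt := hg0 t htI
    have hG := hgt.le.trans (hgG t htI)
    obtain ⟨d1, d2, d3⟩ := h.slope_data ht x (hg t ht) (K := Ku) (K' := Ku')
      (fun v hv => Ku_deriv hv.1) (HasSide.of_hasDerivAt (Ku'_deriv hvI.1))
    have e1 : (fun s => g s * Ku (V s x) - P s x) = fun s => -(P s x - g s * Ku (V s x)) := by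
      funext s; ring
    have e2 : (fun y => g t * Ku (V t y) - P t y) = fun y => -(P t y - g t * Ku (V t y)) := by
      funext s; ring
    refine ⟨_, _, 1/2, b t * u t x,
      g t * Ku'' v * (P t x + g t * Ku v) / 2 - b t * (2 - 3 * v),
      fun y => -(Px t y - g t * (Ku' (V t y) * P t y)), by rw [e1]; exact d1.neg,
      by rw [e2]; filter_upwards [d2] with y hy; exact hy.neg, MaxPCmp2_371.HasSide.neg d3,
      by norm_num, ?_, h.drift_le htI x, ?_, ?_⟩
    · nlinarith [sq_nonneg x]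
    · have h1 := h.b_nonneg t htI
      have h5 := h.b_le t htI
      have h8 : -(b t * (2 - 3 * v)) ≤ b t := by nlinarith [hvI.1, hvI.2]
      have hP0 := h.P_nonneg t htI x
      have h6 : g t * Ku'' v * (P t x + g t * Ku v) / 2 ≤ G ^ 2 := by
        rcases le_total (Ku'' v) 0 with h7 | h7
        · have : g t * Ku'' v * (P t x + g t * Ku v) ≤ 0 :=
            mul_nonpos_of_nonpos_of_nonneg (mul_nonpos_of_nonneg_of_nonpos hgt.le h7)
              (add_nonneg hP0 (mul_nonneg hgt.le (Ku_pos hvI).le))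
          nlinarith [sq_nonneg G]
        · have h9 : P t x + g t * Ku v ≤ 2 * (g t * Ku v) := by linarith
          have h10 : g t * Ku'' v * (P t x + g t * Ku v) ≤
              g t * Ku'' v * (2 * (g t * Ku v)) :=
            mul_le_mul_of_nonneg_left h9 (mul_nonneg hgt.le h7)
          have h11 : g t * Ku'' v * (2 * (g t * Ku v)) = 2 * g t ^ 2 * (Ku v * Ku'' v) := by ring
          rw [h11, Ku_KK hvI.1] at h10
          have h12 : 27 / 64 * (v * (1 - v) * (1 - 5 * v)) ≤ 1 := by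
            have h13 : v * (1 - v) * (1 - 5 * v) ≤ 1 := by
              have h14 : v * (1 - v) ≤ 1 / 4 := by nlinarith [sq_nonneg (v - 1 / 2)]
              have h15 : 0 ≤ v * (1 - v) := mul_nonneg hvI.1.le (by linarith [hvI.2])
              have h16 : 1 - 5 * v ≤ 1 := by linarith [hvI.1]
              nlinarith
            linarith
          have h13 : 2 * g t ^ 2 * (27 / 64 * (v * (1 - v) * (1 - 5 * v))) ≤ 2 * g t ^ 2 * 1 :=
            mul_le_mul_of_nonneg_left h12 (by positivity)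
          have h14 : g t ^ 2 ≤ G ^ 2 := pow_le_pow_left₀ hgt.le (hgG t htI) 2
          linarith
      linarith
    · have hb' := hb t ht
      have h1 := hY0 t ht
      have h2 := hY1 t ht
      set Y := Yb t with hYdef
      have hK0 := Ku_pos hvI
      -- the stationary expression
      have hst : 0 ≤ (1 + om * Y) / 2 * g t ^ 3 * Ku v + g t ^ 3 * (Ku v ^ 2 * Ku'' v) / 2
          + b t * g t * (v * (1 - v) * Ku' v - (2 - 3 * v) * Ku v) := by
        rw [hb', Ku_K' hvI.1]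
        have e : (1 + om * Y) / 2 * g t ^ 3 * Ku v + g t ^ 3 * (Ku v ^ 2 * Ku'' v) / 2 +
            Y * g t ^ 2 * g t * (Ku v * (3 / 2 - 5 / 2 * v) - (2 - 3 * v) * Ku v) =
            g t ^ 3 * Ku v * ((1 + om * Y) / 2 + (Ku v * Ku'' v) / 2 +
              Y * (-1 / 2 + v / 2)) := by ring
        rw [e, Ku_KK hvI.1]
        refine mul_nonneg (mul_nonneg (pow_nonneg hgt.le 3) hK0.le) ?_
        have hv0 := hvI.1
        have hv1 := hvI.2
        have h4 : v / 2 ≤ (1 + om * Y - Y) / 2 + Y * v / 2 := by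
          have h5 : 0 ≤ (1 + om * Y - Y) * (1 - v) + om * Y * v :=
            add_nonneg (mul_nonneg (by linarith) (by linarith))
              (mul_nonneg (mul_nonneg hom h1) hv0.le)
          nlinarith
        have h6 : -(v / 2) ≤ 27 / 64 * (v * (1 - v) * (1 - 5 * v)) / 2 := by
          have h7 : (1 - v) * (5 * v - 1) ≤ 1 := by nlinarith [sq_nonneg (v - 3 / 5)]
          have h8 : v * ((1 - v) * (5 * v - 1)) ≤ v * 1 := mul_le_mul_of_nonneg_left h7 hv0.le
          nlinarith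
        linarith
      simp only [← hv]
      nlinarith

/-! ### the Gaussian start -/

/-- Mills: `(3/4)(1 - Φ(z)) ≤ φ(z)` for `z ≥ 0`. -/
lemma mills {z : ℝ} (hz : 0 ≤ z) : 3 / 4 * (1 - Phi z) ≤ ph z := by
  have hd : ∀ y, HasDerivAt (fun y => ph y - 3 / 4 * (1 - Phi y)) (-y * ph y - 3 / 4 * (0 - ph y)) y :=
    fun y => (StepStart_483.ph_deriv y).sub
      (((hasDerivAt_const y (1:ℝ)).sub (StepStart_483.Phi_deriv y)).const_mul (3 / 4))
  have hc : Continuous (fun y => ph y - 3 / 4 * (1 - Phi y)) :=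
    continuous_iff_continuousAt.2 fun y => (hd y).continuousAt
  have hd' : ∀ y, deriv (fun y => ph y - 3 / 4 * (1 - Phi y)) y = (3 / 4 - y) * ph y := by
    intro y; rw [(hd y).deriv]; ring
  rcases le_total z (3 / 4) with h | h
  · have hmono : MonotoneOn (fun y => ph y - 3 / 4 * (1 - Phi y)) (Icc 0 (3 / 4)) := by
      apply monotoneOn_of_deriv_nonneg (convex_Icc 0 (3 / 4)) hc.continuousOn
      · intro y _; exact (hd y).differentiableAt.differentiableWithinAt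
      · intro y hy
        rw [interior_Icc] at hy
        rw [hd']
        exact mul_nonneg (by linarith [hy.2]) (StepStart_483.ph_pos y).le
    have h1 := hmono (left_mem_Icc.2 (by norm_num)) ⟨hz, h⟩ hz
    simp only at h1
    have hP0 : Phi 0 = 1 / 2 := by
      have := StepStart_483.Phi_neg 0
      rw [neg_zero] at this
      linarith
    have hph0 : 3 / 8 ≤ ph 0 := by
      rw [StepStart_483.ph_eq]
      simp only [ne_eq, OfNat.ofNat_ne_zero, not_false_eq_true, zero_pow, neg_zero, zero_div,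
        Real.exp_zero, mul_one]
      rw [le_inv_comm₀ (by norm_num) (Real.sqrt_pos.2 (by positivity))]
      rw [show ((3:ℝ) / 8)⁻¹ = 8 / 3 by norm_num]
      rw [show (8:ℝ) / 3 = Real.sqrt ((8 / 3) ^ 2) by rw [Real.sqrt_sq (by norm_num)]]
      apply Real.sqrt_le_sqrt
      have := Real.pi_lt_d2
      norm_num
      linarith
    rw [hP0] at h1
    linarith
  · have hanti : AntitoneOn (fun y => ph y - 3 / 4 * (1 - Phi y)) (Ici (3 / 4)) := by
      apply antitoneOn_of_deriv_nonpos (convex_Ici (3 / 4)) hc.continuousOn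
      · intro y _; exact (hd y).differentiableAt.differentiableWithinAt
      · intro y hy
        rw [interior_Ici] at hy
        rw [hd']
        have hy' : 3 / 4 < y := hy
        exact mul_nonpos_of_nonpos_of_nonneg (by linarith) (StepStart_483.ph_pos y).le
    have hlim : Tendsto (fun y => ph y - 3 / 4 * (1 - Phi y)) atTop (𝓝 0) := by
      have h1 : Tendsto (fun y => ph (-y) - 3 / 4 * Phi (-y)) atTop (𝓝 (0 - 3 / 4 * 0)) :=
        (StepStart_483.ph_tendsto_atBot.comp tendsto_neg_atTop_atBot).sub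
          ((StepStart_483.Phi_tendsto_atBot.comp tendsto_neg_atTop_atBot).const_mul _)
      have h2 : (fun y => ph y - 3 / 4 * (1 - Phi y)) = fun y => ph (-y) - 3 / 4 * Phi (-y) := by
        funext y; rw [StepStart_483.ph_neg, StepStart_483.Phi_neg]
      rw [h2]; simpa using h1
    have h1 : 0 ≤ ph z - 3 / 4 * (1 - Phi z) := by
      refine le_of_tendsto hlim ?_
      filter_upwards [eventually_ge_atTop z] with y hy
      exact hanti (mem_Ici.2 h) (mem_Ici.2 (h.trans hy)) hy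
    linarith

/-- `K(Φ(z)) ≤ φ(z)` -/
lemma Ku_Phi (z : ℝ) : Ku (Phi z) ≤ ph z := by
  have hP : Phi z ∈ Ioo (0:ℝ) 1 := ⟨StepStart_483.Phi_pos z, StepStart_483.Phi_lt_one z⟩
  have hq1 : Real.sqrt (Phi z) ≤ 1 := by
    rw [show (1:ℝ) = Real.sqrt 1 by simp]
    exact Real.sqrt_le_sqrt hP.2.le
  have hq0 := Real.sqrt_nonneg (Phi z)
  have h1 : Phi z * Real.sqrt (Phi z) ≤ 1 := by nlinarith [hP.1, hP.2]
  have h2 : 0 ≤ Phi z * Real.sqrt (Phi z) := mul_nonneg hP.1.le hq0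
  have h3 : 0 < 1 - Phi z := by linarith [hP.2]
  rcases le_total 0 z with h | h
  · refine le_trans ?_ (mills h)
    unfold Ku
    nlinarith
  · have h4 := mills (z := -z) (by linarith)
    rw [StepStart_483.Phi_neg, StepStart_483.ph_neg] at h4
    refine le_trans ?_ h4
    unfold Ku
    have h5 : Phi z * Real.sqrt (Phi z) ≤ Phi z := by nlinarith [hP.1]
    nlinarith

/-! ### decay of the start profile -/

open Crest.Agent.R146.Pos_371 (sg sg_pos sg_lower tendsto_sg_bot)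

lemma sqrt_le_half (z : ℝ) : Real.sqrt (1 + z ^ 2) ≤ 1 + z ^ 2 / 2 := by
  have h : 1 + z ^ 2 ≤ (1 + z ^ 2 / 2) ^ 2 := by nlinarith [sq_nonneg (z ^ 2)]
  calc Real.sqrt (1 + z ^ 2) ≤ Real.sqrt ((1 + z ^ 2 / 2) ^ 2) := Real.sqrt_le_sqrt h
    _ = 1 + z ^ 2 / 2 := Real.sqrt_sq (by positivity)

lemma ph_sqrt_le (z : ℝ) : ph z * Real.sqrt (1 + z ^ 2) ≤ 1 := by
  have h1 : ph z ≤ Real.exp (-z ^ 2 / 2) := by
    rw [StepStart_483.ph_eq]
    have h2 : (Real.sqrt (2 * Real.pi))⁻¹ ≤ 1 := by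
      apply inv_le_one_of_one_le₀
      rw [show (1:ℝ) = Real.sqrt 1 by simp]
      apply Real.sqrt_le_sqrt
      have := Real.pi_gt_three
      linarith
    have := Real.exp_pos (-z ^ 2 / 2)
    nlinarith
  have h2 : 1 + z ^ 2 / 2 ≤ Real.exp (z ^ 2 / 2) := by
    have := Real.add_one_le_exp (z ^ 2 / 2); linarith
  have h3 : Real.exp (-z ^ 2 / 2) * Real.exp (z ^ 2 / 2) = 1 := by
    rw [← Real.exp_add, show -z ^ 2 / 2 + z ^ 2 / 2 = 0 by ring, Real.exp_zero]
  have h4 := Real.sqrt_nonneg (1 + z ^ 2)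
  calc ph z * Real.sqrt (1 + z ^ 2) ≤ Real.exp (-z ^ 2 / 2) * (1 + z ^ 2 / 2) :=
        mul_le_mul h1 (sqrt_le_half z) h4 (Real.exp_pos _).le
    _ ≤ Real.exp (-z ^ 2 / 2) * Real.exp (z ^ 2 / 2) := by gcongr
    _ = 1 := h3

/-- `U0 z ≤ 2 sg(-z)` -/
lemma U0_le_sg (z : ℝ) : U0 z ≤ 2 * sg (-z) := by
  have hpos : ∀ y : ℝ, 0 ≤ y → U0 y ≤ ph y := by
    intro y hy
    rw [StepStart_483.U0_eq]
    have := mul_nonneg hy (sub_nonneg.2 (StepStart_483.Phi_le_one y))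
    linarith
  have hq : 0 < Real.sqrt (1 + z ^ 2) := Real.sqrt_pos.2 (by positivity)
  rcases le_total 0 z with h | h
  · have h1 := sg_lower (-z)
    rw [neg_sq] at h1
    have h2 := ph_sqrt_le z
    have h3 : ph z * Real.sqrt (1 + z ^ 2) ≤ 2 * sg (-z) * Real.sqrt (1 + z ^ 2) := by linarith
    exact (hpos z h).trans (le_of_mul_le_mul_right h3 hq)
  · have h1 := StepStart_483.add_U0 z
    have h2 : U0 (-z) ≤ 1 := by
      refine (hpos (-z) (by linarith)).trans (StepStart_483.ph_le_one _)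
    have h3 : (1:ℝ) ≤ Real.sqrt (1 + z ^ 2) := Real.one_le_sqrt.2 (by nlinarith [sq_nonneg z])
    have h4 : sg (-z) = -z + Real.sqrt (1 + z ^ 2) := by unfold sg; rw [neg_sq]
    rw [h4]; linarith

lemma scale_sg {r : ℝ} (hr : 0 < r) (hr1 : r ≤ 1) (x : ℝ) : r * sg (x / r) ≤ sg x := by
  unfold sg
  have h1 : r * (x / r + Real.sqrt (1 + (x / r) ^ 2)) = x + r * Real.sqrt (1 + (x / r) ^ 2) := by
    field_simp
  have h2 : r * Real.sqrt (1 + (x / r) ^ 2) ≤ Real.sqrt (1 + x ^ 2) := by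
    apply Real.le_sqrt_of_sq_le
    rw [mul_pow, Real.sq_sqrt (by positivity)]
    have h3 : r ^ 2 * (1 + (x / r) ^ 2) = r ^ 2 + x ^ 2 := by field_simp
    rw [h3]
    nlinarith
  linarith

variable (A : SD)

lemma u_T_le (x : ℝ) : A.u A.T x ≤ 2 * sg (-x) := by
  have hr : 0 < Real.sqrt A.dl := Real.sqrt_pos.2 A.dl_pos
  have hr1 : Real.sqrt A.dl ≤ 1 := by
    rw [show (1:ℝ) = Real.sqrt 1 by simp]
    apply Real.sqrt_le_sqrt
    unfold SD.dl; linarith [A.hT0]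
  rw [StepStart_483.u_T]
  have h1 := U0_le_sg (x / Real.sqrt A.dl)
  have h2 := scale_sg hr hr1 (-x)
  rw [neg_div] at h2
  calc Real.sqrt A.dl * U0 (x / Real.sqrt A.dl) ≤
        Real.sqrt A.dl * (2 * sg (-(x / Real.sqrt A.dl))) := by gcongr
    _ = 2 * (Real.sqrt A.dl * sg (-(x / Real.sqrt A.dl))) := by ring
    _ ≤ 2 * sg (-x) := by gcongr

lemma w_T_le (x : ℝ) : x + A.u A.T x ≤ 2 * sg x := by
  have hr : 0 < Real.sqrt A.dl := Real.sqrt_pos.2 A.dl_pos
  have hr1 : Real.sqrt A.dl ≤ 1 := by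
    rw [show (1:ℝ) = Real.sqrt 1 by simp]
    apply Real.sqrt_le_sqrt
    unfold SD.dl; linarith [A.hT0]
  rw [StepStart_483.u_T]
  have h0 := StepStart_483.add_U0 (x / Real.sqrt A.dl)
  have h1 := U0_le_sg (-(x / Real.sqrt A.dl))
  rw [neg_neg] at h1
  have h2 := scale_sg hr hr1 x
  have h3 : x + Real.sqrt A.dl * U0 (x / Real.sqrt A.dl) =
      Real.sqrt A.dl * U0 (-(x / Real.sqrt A.dl)) := by
    rw [← h0, mul_add]; field_simp
  rw [h3]
  calc Real.sqrt A.dl * U0 (-(x / Real.sqrt A.dl)) ≤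
        Real.sqrt A.dl * (2 * sg (x / Real.sqrt A.dl)) := by gcongr
    _ = 2 * (Real.sqrt A.dl * sg (x / Real.sqrt A.dl)) := by ring
    _ ≤ 2 * sg x := by gcongr

lemma u_top {t : ℝ} (ht : t ∈ Icc 0 A.T) : Tendsto (A.u t) atTop (𝓝 0) := by
  have hB := Back_847.back A
  obtain ⟨M, h⟩ := hB.bsys
  have h1 := Pos_371.u_le_sg h (C := 2) (by norm_num) (u_T_le A) t ht
  have h2 : Tendsto (fun x : ℝ => 2 * Real.exp ((1 + M) * (A.T - t)) * sg (-x)) atTop
      (𝓝 (2 * Real.exp ((1 + M) * (A.T - t)) * 0)) :=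
    (tendsto_sg_bot.comp tendsto_neg_atTop_atBot).const_mul _
  rw [mul_zero] at h2
  exact tendsto_of_tendsto_of_tendsto_of_le_of_le tendsto_const_nhds h2
    (fun x => (hB.u_pos t ht x).le) h1

lemma w_bot {t : ℝ} (ht : t ∈ Icc 0 A.T) : Tendsto (fun x => x + A.u t x) atBot (𝓝 0) := by
  have hB := Back_847.back A
  obtain ⟨M, h⟩ := hB.bsys
  have h1 := Pos_371.w_le h (C := 2) (by norm_num) (w_T_le A) t ht
  have h2 : Tendsto (fun x : ℝ => 2 * Real.exp ((1 + 2 * M ^ 2) * (A.T - t)) * sg x) atBot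
      (𝓝 (2 * Real.exp ((1 + 2 * M ^ 2) * (A.T - t)) * 0)) :=
    tendsto_sg_bot.const_mul _
  rw [mul_zero] at h2
  exact tendsto_of_tendsto_of_tendsto_of_le_of_le tendsto_const_nhds h2
    (fun x => (hB.w_pos t ht x).le) h1

/-- `Fix` from a band -/
theorem fix_of {t : ℝ} (ht : t ∈ Icc 0 A.T) {s : ℝ} (hs : 0 < s)
    (band : ∀ x, s * Ku (A.V t x) ≤ A.P t x) : Fix s (A.V t) (A.P t) (A.u t) := by
  have hB := Back_847.back A
  obtain ⟨M, h⟩ := hB.bsys
  exact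
  { s_pos := hs
    hu := hB.u_x t ht
    hV := hB.V_x t ht
    cP := continuous_iff_continuousAt.2 fun x => (hB.P_x t ht x).continuousAt
    P_pos := hB.P_pos t ht
    V_pos := h.V_pos t ht
    V_lt := h.V_lt t ht
    u_pos := hB.u_pos t ht
    w_pos := hB.w_pos t ht
    u_top := u_top A ht
    w_bot := w_bot A ht
    lo := fun x => by
      have := band x
      unfold Ku at this
      have e : s * (3 / 4) * (A.V t x * Real.sqrt (A.V t x)) * (1 - A.V t x) =
        s * (3 / 4 * (A.V t x * Real.sqrt (A.V t x)) * (1 - A.V t x)) := by ring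
      rw [e]; exact this }

lemma term_band (x : ℝ) : (Real.sqrt A.dl)⁻¹ * Ku (A.V A.T x) ≤ A.P A.T x := by
  rw [StepStart_483.V_T_fun, StepStart_483.P_T]
  have h1 := Ku_Phi (x / Real.sqrt A.dl)
  have hr : 0 < Real.sqrt A.dl := Real.sqrt_pos.2 A.dl_pos
  rw [div_eq_inv_mul]
  exact mul_le_mul_of_nonneg_left h1 (inv_pos.2 hr).le

lemma inv_sqrt_deriv {χ : ℝ → ℝ} {c t : ℝ} (hχ : 0 < χ t)
    (h : HasDerivWithinAt χ (-c) (Ici t) t) :
    HasDerivWithinAt (fun s => (Real.sqrt (χ s))⁻¹) (c / 2 * ((Real.sqrt (χ t))⁻¹) ^ 3) (Ici t) t := by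
  have hq : 0 < Real.sqrt (χ t) := Real.sqrt_pos.2 hχ
  have h1 := (h.sqrt hχ.ne').inv hq.ne'
  refine h1.congr_deriv ?_
  field_simp

/-- **universal band, new clock** (unconditional) -/
theorem band_chi {t : ℝ} (ht : t ∈ Icc 0 A.T) (x : ℝ) :
    (Real.sqrt (A.chi t))⁻¹ * Ku (A.V t x) ≤ A.P t x := by
  have hB := Back_847.back A
  have hC := StepClk_900.clock A
  obtain ⟨M, h⟩ := hB.bsys
  have hlt : ∀ t ∈ Icc 0 A.T, t < 1 := fun t ht => ht.2.trans_lt A.hT1
  have hcont : ContinuousOn (fun t => (Real.sqrt (A.chi t))⁻¹) (Icc 0 A.T) := by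
    refine ContinuousOn.inv₀ ?_ ?_
    · exact (Real.continuous_sqrt.comp (StepClk_900.chi_cont A)).continuousOn
    · intro t ht; exact (Real.sqrt_pos.2 (hC.chi_pos t (hlt t ht))).ne'
  refine univ_band h (g := fun t => (Real.sqrt (A.chi t))⁻¹) (Yb := fun t => A.m t * A.K0 t)
    (om := 1) (G := (Real.sqrt A.dl)⁻¹) zero_le_one ?_ hcont ?_ ?_ ?_ ?_ ?_ ?_ t ht x
  · intro t ht
    have := inv_sqrt_deriv (hC.chi_pos t (ht.2.trans A.hT1)) (hC.chi_t t ht)
    refine this.congr_deriv ?_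
    ring
  · intro t ht; exact inv_pos.2 (Real.sqrt_pos.2 (hC.chi_pos t (hlt t ht)))
  · intro t ht
    apply inv_anti₀ (Real.sqrt_pos.2 A.dl_pos)
    apply Real.sqrt_le_sqrt
    rw [← hC.chi_T]
    exact StepClk_900.chi_anti A ht.2
  · intro t ht
    have h1 := hC.chi_pos t (ht.2.trans A.hT1)
    have h2 := A.D_pos t
    have h3 := hC.K0_pos t (ht.2.trans A.hT1)
    have h4 : ((Real.sqrt (A.chi t))⁻¹) ^ 2 = (A.chi t)⁻¹ := by
      rw [inv_pow, Real.sq_sqrt h1.le]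
    rw [h4]
    unfold SD.b SD.chi
    field_simp
  · intro t ht
    exact mul_nonneg (A.m_nonneg t) (hC.K0_pos t (ht.2.trans A.hT1)).le
  · intro t ht; linarith
  · intro x
    simp only [hC.chi_T]
    exact term_band A x

/-- **universal band, old clock** (`ν = (1-t) b ≤ 1`) -/
theorem band_tau (hν : ∀ t ∈ Ico 0 A.T, (1 - t) * A.b t ≤ 1) {t : ℝ} (ht : t ∈ Icc 0 A.T) (x : ℝ) :
    (Real.sqrt (1 - t))⁻¹ * Ku (A.V t x) ≤ A.P t x := by
  have hB := Back_847.back A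
  obtain ⟨M, h⟩ := hB.bsys
  have hlt : ∀ t ∈ Icc 0 A.T, 0 < 1 - t := fun t ht => by linarith [ht.2, A.hT1]
  have hcont : ContinuousOn (fun t : ℝ => (Real.sqrt (1 - t))⁻¹) (Icc 0 A.T) := by
    refine ContinuousOn.inv₀ ?_ ?_
    · exact (Real.continuous_sqrt.comp (continuous_const.sub continuous_id)).continuousOn
    · intro t ht; exact (Real.sqrt_pos.2 (hlt t ht)).ne'
  refine univ_band h (g := fun t => (Real.sqrt (1 - t))⁻¹) (Yb := fun t => (1 - t) * A.b t)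
    (om := 0) (G := (Real.sqrt A.dl)⁻¹) le_rfl ?_ hcont ?_ ?_ ?_ ?_ ?_ ?_ t ht x
  · intro t ht
    have h1 : HasDerivWithinAt (fun s : ℝ => 1 - s) (-1) (Ici t) t := by
      simpa using ((hasDerivAt_id t).const_sub 1).hasDerivWithinAt
    have := inv_sqrt_deriv (hlt t ⟨ht.1, ht.2.le⟩) h1
    refine this.congr_deriv ?_
    ring
  · intro t ht; exact inv_pos.2 (Real.sqrt_pos.2 (hlt t ht))
  · intro t ht
    apply inv_anti₀ (Real.sqrt_pos.2 A.dl_pos)
    apply Real.sqrt_le_sqrt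
    unfold SD.dl
    linarith [ht.2]
  · intro t ht
    have h1 := hlt t ⟨ht.1, ht.2.le⟩
    have h4 : ((Real.sqrt (1 - t))⁻¹) ^ 2 = (1 - t)⁻¹ := by
      rw [inv_pow, Real.sq_sqrt h1.le]
    rw [h4]
    field_simp
  · intro t ht
    exact mul_nonneg (hlt t ⟨ht.1, ht.2.le⟩).le (A.b_nonneg t)
  · intro t ht; have := hν t ht; linarith
  · intro x
    have : (Real.sqrt (1 - A.T))⁻¹ = (Real.sqrt A.dl)⁻¹ := rfl
    simp only [this]
    exact term_band A x

/-- **the step system in the new clock is a `Fix`** -/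
theorem fix_chi {t : ℝ} (ht : t ∈ Icc 0 A.T) :
    Fix (Real.sqrt (A.chi t))⁻¹ (A.V t) (A.P t) (A.u t) :=
  fix_of A ht (inv_pos.2 (Real.sqrt_pos.2 ((StepClk_900.clock A).chi_pos t
    (ht.2.trans_lt A.hT1)))) (band_chi A ht)

/-- the step system in the old clock is a `Fix` (if `ν ≤ 1` on `[0,T)`) -/
theorem fix_tau (hν : ∀ t ∈ Ico 0 A.T, (1 - t) * A.b t ≤ 1) {t : ℝ} (ht : t ∈ Icc 0 A.T) :
    Fix (Real.sqrt (1 - t))⁻¹ (A.V t) (A.P t) (A.u t) :=
  fix_of A ht (inv_pos.2 (Real.sqrt_pos.2 (by linarith [ht.2, A.hT1]))) (band_tau A hν ht)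

end Crest.Agent.R146.FixA_423
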