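import Crest.Agent.R146.Apri_384
import Crest.Agent.R146.StepClk_900

/-!
Law transients on the step system (row 146, helper384; posts 1008, 1085, 1213).

* `FF`        : `x + u ≤ (D - x) V` on `x ≤ 0`;
* `start_up`, `start_low` : bounds of `Y` on `(0,t0]` from the first-cell formula, explicit constants;
* `hpt_low`   : the pointwise condition of `Flat_384.add_le_Y` for `S = 0`;
* `law_low`   : `-C E (15 + σ(-xE)) ≤ Y` on `[t0,T]`, `C = Cst x0 t0 B e0` explicit;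
* `law_start_up` : `Y(t0,x) ≤ C E(t0) (15 + σ(x E(t0)))`, the same constant.
-/

set_option autoImplicit false

open Set Filter Topology

namespace Crest.Agent.R146.FlatStep_384

open MaxP_371 MaxP2_371 MaxPCmp_371 MaxPCmp2_371 Pos_371 Mills_384 StepStart_483 StepDef_791
open Flat_384 Apri_384

noncomputable section

open MeasureTheory ProbabilityTheory Crest.Agent.R146.Hg_534 Crest.Agent.R146.PB_534 in
lemma U0_le_sqrt (z : ℝ) : U0 z ≤ (√(z ^ 2 + 1) - z) / 2 := by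
  set c := √(z ^ 2 + 1) with hc
  have hcp : 0 < c := Real.sqrt_pos.2 (by positivity)
  have hcs : c ^ 2 = z ^ 2 + 1 := Real.sq_sqrt (by positivity)
  have hi1 : Integrable (fun g : ℝ => (z + 1 * g) ^ 2) (gaussianReal 0 1) :=
    (PG.id.pow 2).eg.int 1 z
  have hi2 : Integrable (fun g : ℝ => z + 1 * g) (gaussianReal 0 1) := PG.id.eg.int 1 z
  have hi3 : Integrable (fun g : ℝ => g) (gaussianReal 0 1) :=
    (memLp_id_gaussianReal 1).integrable le_rfl
  have e2 : ∫ g : ℝ, (z + 1 * g) ∂gaussianReal 0 1 = z := by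
    rw [integral_add (integrable_const _) (hi3.const_mul 1), integral_const_mul]
    simp
  have e1 := int_sq_shift 1 z
  have hi4 := hi1.const_mul (1 / (4 * c))
  have hi5 := hi2.const_mul (1 / 2)
  have hi6 : Integrable (fun _ : ℝ => c / 4) (gaussianReal 0 1) := integrable_const _
  have hi46 : Integrable (fun g : ℝ => (1 / (4 * c)) * (z + 1 * g) ^ 2 + c / 4)
      (gaussianReal 0 1) := hi4.add hi6
  have e3 : ∫ g : ℝ, ((1 / (4 * c)) * (z + 1 * g) ^ 2 + c / 4 - (1 / 2) * (z + 1 * g))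
      ∂gaussianReal 0 1 = (c - z) / 2 := by
    rw [integral_sub hi46 hi5, integral_add hi4 hi6, integral_const_mul,
      integral_const_mul, e1, e2]
    simp only [integral_const, probReal_univ, one_smul]
    field_simp
    nlinarith
  have h1 : U0 z ≤ ∫ g : ℝ, ((1 / (4 * c)) * (z + 1 * g) ^ 2 + c / 4 - (1 / 2) * (z + 1 * g))
      ∂gaussianReal 0 1 := by
    unfold U0 H
    refine integral_mono (EG_neg_part.int 1 z) (hi46.sub hi5) fun g => ?_
    simp only
    set y := z + 1 * g with hy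
    have e4 : 1 / (4 * c) * y ^ 2 + c / 4 - 1 / 2 * y - max (-y) 0 =
        (c - |y|) ^ 2 / (4 * c) + ((|y| - y) / 2 - max (-y) 0) := by
      have := sq_abs y
      field_simp
      nlinarith
    have e5 : (|y| - y) / 2 - max (-y) 0 = 0 := by
      rcases le_total 0 y with h | h
      · rw [abs_of_nonneg h, max_eq_right (by linarith)]; ring
      · rw [abs_of_nonpos h, max_eq_left (by linarith)]; ring
    have h2 : 0 ≤ (c - |y|) ^ 2 / (4 * c) := by positivity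
    linarith
  linarith

section gen

variable {t0 t1 : ℝ} {b D : ℝ → ℝ} {u V P Px Pxx : ℝ → ℝ → ℝ} {M : ℝ}

/-- the half strip `[t0,t1] × (-∞,0]` -/
def half (t0 t1 : ℝ) : Set (ℝ × ℝ) := Icc t0 t1 ×ˢ Iic (0:ℝ)

/-- `x + u ≤ (D - x) V` on `x ≤ 0`. -/
theorem FF (h : BSys t0 t1 b u V P Px Pxx M)
    (hDc : ContinuousOn D (Icc t0 t1)) (hD0 : ∀ t ∈ Icc t0 t1, 0 < D t)
    (hD : ∀ t ∈ Ico t0 t1, HasDerivWithinAt D (-(b t * D t)) (Ici t) t)
    (hw : ∀ t ∈ Icc t0 t1, ∀ x, 0 ≤ x + u t x)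
    (hbd : ∀ t ∈ Icc t0 t1, u t 0 ≤ D t * V t 0)
    (hterm : ∀ x ≤ 0, x + u t1 x ≤ (D t1 - x) * V t1 x) :
    ∀ t ∈ Icc t0 t1, ∀ x ≤ 0, x + u t x ≤ (D t - x) * V t x := by
  have key := backward_max1 (K := half t0 t1) (isClosed_Icc.prod isClosed_Iic) (t0 := t0) (t1 := t1)
    (fun p hp => hp.1) (w := fun t x => (x + u t x) - (D t - x) * V t x) ?_
    (A := 1) (B := M * M) (C := 0) (M := M) ?_ ?_
  · intro t ht x hx
    have := key t x ⟨ht, hx⟩
    linarith
  · have hsub : half t0 t1 ⊆ strip t0 t1 := fun p hp => ⟨hp.1, mem_univ _⟩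
    have h1 : ContinuousOn (fun p : ℝ × ℝ => D p.1) (half t0 t1) :=
      hDc.comp continuousOn_fst fun p hp => hp.1
    exact (continuousOn_snd.add (h.cu.mono hsub)).sub
      ((h1.sub continuousOn_snd).mul (h.cV.mono hsub))
  · rintro ⟨t, x⟩ ⟨ht, hx⟩
    simp only at ht hx ⊢
    have h1 := h.u_le t ht x
    have h2 := h.V_pos t ht x
    have h3 := hD0 t ht
    have hx' : x ≤ 0 := hx
    have h4 : 0 ≤ (D t - x) * V t x := mul_nonneg (by linarith) h2.le
    linarith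
  · rintro t x ⟨ht, hx⟩ hpos
    simp only at ht hpos
    have hx' : x ≤ 0 := hx
    have htlt : t < t1 := by
      rcases lt_or_eq_of_le ht.2 with h1 | h1
      · exact h1
      · exfalso
        rw [h1] at hpos
        have := hterm x hx'
        linarith
    have hxlt : x < 0 := by
      rcases lt_or_eq_of_le hx' with h1 | h1
      · exact h1
      · exfalso
        rw [h1] at hpos
        have := hbd t ht
        linarith
    have htI : t ∈ Ico t0 t1 := ⟨ht.1, htlt⟩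
    refine ⟨_, 2 * P t x + P t x - (D t - x) * Px t x, 1/2, b t * u t x, 0,
      fun y => V t y + V t y - (D t - y) * P t y, ?_, ?_,
      ((h.hut t htI x).const_add x).sub (((hD t htI).sub_const x).mul (h.hVt t htI x)), ?_, ?_,
      by norm_num, ?_, h.drift_le ht x, le_refl _, ?_⟩
    · have h1 : ∀ᶠ s in 𝓝[>] t, s < t1 := (eventually_lt_nhds htlt).filter_mono nhdsWithin_le_nhds
      filter_upwards [h1, self_mem_nhdsWithin] with s hs hst
      exact ⟨⟨ht.1.trans (le_of_lt hst), hs.le⟩, hx'⟩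
    · filter_upwards [eventually_lt_nhds hxlt] with y hy
      exact ⟨ht, hy.le⟩
    · refine Eventually.of_forall fun y => ?_
      have h1 := ((hasDerivAt_id y).add (h.hux t htI y)).sub
        (((hasDerivAt_id y).const_sub (D t)).mul (h.hVx t htI y))
      refine h1.congr_deriv ?_
      simp only [id]
      ring
    · have h1 := ((h.hVx t htI x).add (h.hVx t htI x)).sub
        (((hasDerivAt_id x).const_sub (D t)).mul (h.hPx t htI x))
      refine HasSide.of_hasDerivAt (h1.congr_deriv ?_)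
      simp only [id]
      ring
    · nlinarith [sq_nonneg x]
    · have h1 := h.b_nonneg t ht
      have h2 := h.V_pos t ht x
      have h3 := hD0 t ht
      have h4 := hw t ht x
      have h5 := h.P_nonneg t ht x
      have h6 : 0 ≤ b t * V t x * (D t * V t x + (x + u t x) - x * V t x) := by
        apply mul_nonneg (mul_nonneg h1 h2.le)
        have h7 : 0 ≤ D t * V t x := mul_nonneg h3.le h2.le
        have h8 : 0 ≤ -x * V t x := mul_nonneg (by linarith) h2.le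
        linarith
      simp only
      nlinarith

/-- the pointwise condition for the lower side with `S = 0` -/
lemma hpt_low {x e β : ℝ} {uu VV : ℝ → ℝ} (hβ : 0 ≤ β) (he : 0 < e)
    (hneg : x ≤ 0 → e * (x + uu x) ≤ (1 - x * e) * VV x)
    (hpos : 0 ≤ x → e * (x + uu x) ≤ x * e + 1 / 21 ∧ 1 / 25 ≤ VV x)
    (hV : 0 ≤ VV x) :
    0 ≤ β * (VV x * (15 + sg (-(x * e))) - e * (x + uu x) * sg1 (-(x * e))) := by
  apply mul_nonneg hβ
  set y := x * e with hy
  have hs := sqrt_pos' (-y)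
  have hsq := sqrt_sq' (-y)
  have h1s := one_le_sqrt (-y)
  set s := Real.sqrt (1 + (-y) ^ 2) with hsd
  have hsg : sg (-y) = -y + s := rfl
  have hsg1 : sg1 (-y) = (-y + s) / s := rfl
  have hpos1 := sg1_pos (-y)
  rcases le_total x 0 with hx | hx
  · have hy0 : y ≤ 0 := mul_nonpos_of_nonpos_of_nonneg hx he.le
    have h1 := hneg hx
    have h2 : e * (x + uu x) * sg1 (-y) ≤ (1 - y) * VV x * sg1 (-y) :=
      mul_le_mul_of_nonneg_right h1 hpos1.le
    have h3 : (1 - y) * sg1 (-y) ≤ 15 + sg (-y) := by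
      rw [hsg1, hsg, mul_div_assoc', div_le_iff₀ hs]
      have h4 : -y ≤ s := by
        have := abs_lt_sqrt (-y)
        exact (le_abs_self _).trans this.le
      nlinarith
    have h5 : VV x * ((1 - y) * sg1 (-y)) ≤ VV x * (15 + sg (-y)) :=
      mul_le_mul_of_nonneg_left h3 hV
    linarith
  · have hy0 : 0 ≤ y := mul_nonneg hx he.le
    obtain ⟨h1, h2⟩ := hpos hx
    have hms : sg (-y) * (s + y) = 1 := by
      rw [hsg]; nlinarith
    have hsgp := sg_pos (-y)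
    have h3 : sg1 (-y) ≤ 1 := by
      rw [hsg1, div_le_one hs]; linarith
    have h4 : y * sg1 (-y) ≤ 1 / 2 := by
      rw [hsg1, ← hsg, mul_div_assoc', div_le_iff₀ hs]
      nlinarith
    have h5 : e * (x + uu x) * sg1 (-y) ≤ (y + 1 / 21) * sg1 (-y) :=
      mul_le_mul_of_nonneg_right h1 hpos1.le
    have h6 : (y + 1 / 21) * sg1 (-y) ≤ 1 / 2 + 1 / 21 := by nlinarith
    have h7 : (1 / 25 : ℝ) * 15 ≤ VV x * (15 + sg (-y)) :=
      mul_le_mul h2 (by linarith) (by norm_num) hV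
    norm_num at h7
    linarith

end gen

/-- restriction of `YSys` to a shorter interval -/
lemma YSys.mono' {t0 t1 s0 s1 : ℝ} {b : ℝ → ℝ} {u V P Y Yx Yxx : ℝ → ℝ → ℝ} {M : ℝ}
    (h : YSys t0 t1 b u V P Y Yx Yxx M) (h0 : t0 ≤ s0) (h1 : s1 ≤ t1) :
    YSys s0 s1 b u V P Y Yx Yxx M where
  cY := h.cY.mono fun _ hp => ⟨⟨h0.trans hp.1.1, hp.1.2.trans h1⟩, hp.2⟩
  hYt := fun t ht => h.hYt t ⟨h0.trans_lt ht.1, ht.2.trans h1⟩
  hYx := fun t ht => h.hYx t ⟨h0.trans_lt ht.1, ht.2.trans h1⟩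
  hYxx := fun t ht => h.hYxx t ⟨h0.trans_lt ht.1, ht.2.trans h1⟩
  b_nonneg := fun t ht => h.b_nonneg t ⟨h0.trans ht.1, ht.2.trans h1⟩
  b_le := fun t ht => h.b_le t ⟨h0.trans ht.1, ht.2.trans h1⟩
  V_pos := fun t ht => h.V_pos t ⟨h0.trans ht.1, ht.2.trans h1⟩
  drift := fun t ht => h.drift t ⟨h0.trans ht.1, ht.2.trans h1⟩
  Y_le := fun t ht => h.Y_le t ⟨h0.trans ht.1, ht.2.trans h1⟩

/-- restriction of `BSys` to a shorter interval -/
lemma BSys.mono' {t0 t1 s0 s1 : ℝ} {b : ℝ → ℝ} {u V P Px Pxx : ℝ → ℝ → ℝ} {M : ℝ}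
    (h : BSys t0 t1 b u V P Px Pxx M) (h0 : t0 ≤ s0) (h1 : s1 ≤ t1) :
    BSys s0 s1 b u V P Px Pxx M where
  hux := fun t ht => h.hux t ⟨h0.trans ht.1, ht.2.trans_le h1⟩
  hVx := fun t ht => h.hVx t ⟨h0.trans ht.1, ht.2.trans_le h1⟩
  hPx := fun t ht => h.hPx t ⟨h0.trans ht.1, ht.2.trans_le h1⟩
  hPxx := fun t ht => h.hPxx t ⟨h0.trans ht.1, ht.2.trans_le h1⟩
  hut := fun t ht => h.hut t ⟨h0.trans ht.1, ht.2.trans_le h1⟩
  hVt := fun t ht => h.hVt t ⟨h0.trans ht.1, ht.2.trans_le h1⟩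
  hPt := fun t ht => h.hPt t ⟨h0.trans ht.1, ht.2.trans_le h1⟩
  cu := h.cu.mono fun _ hp => ⟨⟨h0.trans hp.1.1, hp.1.2.trans h1⟩, hp.2⟩
  cV := h.cV.mono fun _ hp => ⟨⟨h0.trans hp.1.1, hp.1.2.trans h1⟩, hp.2⟩
  cP := h.cP.mono fun _ hp => ⟨⟨h0.trans hp.1.1, hp.1.2.trans h1⟩, hp.2⟩
  b_nonneg := fun t ht => h.b_nonneg t ⟨h0.trans ht.1, ht.2.trans h1⟩
  b_le := fun t ht => h.b_le t ⟨h0.trans ht.1, ht.2.trans h1⟩
  V_pos := fun t ht => h.V_pos t ⟨h0.trans ht.1, ht.2.trans h1⟩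
  V_lt := fun t ht => h.V_lt t ⟨h0.trans ht.1, ht.2.trans h1⟩
  u_nonneg := fun t ht => h.u_nonneg t ⟨h0.trans ht.1, ht.2.trans h1⟩
  u_le := fun t ht => h.u_le t ⟨h0.trans ht.1, ht.2.trans h1⟩
  P_nonneg := fun t ht => h.P_nonneg t ⟨h0.trans ht.1, ht.2.trans h1⟩
  P_le := fun t ht => h.P_le t ⟨h0.trans ht.1, ht.2.trans h1⟩

section step

variable {A : SD}

/-- facts of `Back` at every `t ∈ [0,T]` -/
lemma V_mono (hB : Back A) {t : ℝ} (ht : t ∈ Icc 0 A.T) : Monotone (A.V t) := by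
  apply monotone_of_deriv_nonneg
  · intro x; exact (hB.V_x t ht x).differentiableAt
  · intro x; rw [(hB.V_x t ht x).deriv]; exact (hB.P_pos t ht x).le

lemma V_01 (hB : Back A) {t : ℝ} (ht : t ∈ Icc 0 A.T) (x : ℝ) : 0 < A.V t x ∧ A.V t x < 1 := by
  obtain ⟨M, h⟩ := hB.bsys
  exact ⟨h.V_pos t ht x, h.V_lt t ht x⟩

/-- tangent line: `u(x) - (1-V(x))(x0 - x) ≤ u(x0)` -/
lemma u_tangent (hB : Back A) {t : ℝ} (ht : t ∈ Icc 0 A.T) (x x0 : ℝ) :
    A.u t x + (A.V t x - 1) * (x0 - x) ≤ A.u t x0 := by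
  have hd : ∀ y, HasDerivAt (A.u t) (A.V t y - 1) y := fun y => hB.u_x t ht y
  have hm := V_mono hB ht
  rcases le_total x x0 with hx | hx
  · have h1 := (convex_Ici x).mul_sub_le_image_sub_of_le_deriv (f := A.u t) (C := A.V t x - 1)
      (fun y _ => (hd y).continuousAt.continuousWithinAt)
      (fun y _ => (hd y).differentiableAt.differentiableWithinAt) (fun y hy => by
        rw [(hd y).deriv]
        rw [interior_Ici] at hy
        have := hm (le_of_lt hy)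
        linarith) x (le_refl x) x0 hx hx
    linarith
  · have h1 := (convex_Iic x).image_sub_le_mul_sub_of_deriv_le (f := A.u t) (C := A.V t x - 1)
      (fun y _ => (hd y).continuousAt.continuousWithinAt)
      (fun y _ => (hd y).differentiableAt.differentiableWithinAt) (fun y hy => by
        rw [(hd y).deriv]
        rw [interior_Iic] at hy
        have := hm (le_of_lt hy)
        linarith) x0 hx x (le_refl x) hx
    linarith

/-- the growing constant of the start bounds -/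
def mst (B P0 t : ℝ) : ℝ := (B * P0 + B + 1) * Real.exp ((P0 + 2 * B + 1) * t)

lemma mst_deriv (B P0 t : ℝ) : HasDerivAt (mst B P0) ((P0 + 2 * B + 1) * mst B P0 t) t := by
  have h1 : HasDerivAt (fun t : ℝ => (P0 + 2 * B + 1) * t) (P0 + 2 * B + 1) t := by
    simpa using (hasDerivAt_id t).const_mul (P0 + 2 * B + 1)
  have h2 := (h1.exp).const_mul (B * P0 + B + 1)
  refine h2.congr_deriv ?_
  unfold mst; ring

lemma mst_ge {B P0 t : ℝ} (hB : 0 ≤ B) (hP : 0 ≤ P0) (ht : 0 ≤ t) : B * P0 + B + 1 ≤ mst B P0 t := by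
  have h1 : 1 ≤ Real.exp ((P0 + 2 * B + 1) * t) := Real.one_le_exp (by positivity)
  have h2 : 0 ≤ B * P0 + B + 1 := by positivity
  unfold mst
  nlinarith

variable {x0 t0 B P0 : ℝ} {Y Yx Yxx : ℝ → ℝ → ℝ}

/-- **Start, upper bound.** -/
theorem start_up (hBk : Back A)
    (hY : ∀ t0 ∈ Ioo 0 A.T, ∃ M, YSys t0 A.T A.bl A.u A.V A.P Y Yx Yxx M)
    (hfirst : ∃ s1, 0 < s1 ∧ ∀ t ∈ Ioc 0 s1, ∀ x, Y t x = (x - x0) / t - A.bl t * A.u t x)
    (ht0 : t0 ≤ A.T) (hB0 : 0 ≤ B) (hBt : ∀ t ∈ Ioc 0 t0, A.bl t ≤ B)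
    (hP0 : 0 ≤ P0) (hP : ∀ t ∈ Ioc 0 t0, ∀ x, A.P t x ≤ P0)
    (hU : ∀ t ∈ Ioc 0 t0, A.u t x0 ≤ 1) :
    ∀ t ∈ Ioc 0 t0, ∀ x, Y t x ≤ (x - x0) / t + mst B P0 t := by
  intro T1 hT1 x1
  obtain ⟨s1, hs1, hf⟩ := hfirst
  set ε := min s1 T1 / 2 with hε
  have hm : 0 < min s1 T1 := lt_min hs1 hT1.1
  have hε0 : 0 < ε := by rw [hε]; linarith
  have hεs : ε ≤ s1 := by rw [hε]; linarith [min_le_left s1 T1]
  have hεT : ε < T1 := by rw [hε]; linarith [min_le_right s1 T1]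
  obtain ⟨M, hM⟩ := hY ε ⟨hε0, hεT.trans_le (hT1.2.trans ht0)⟩
  have hM' := YSys.mono' hM (le_refl ε) ht0
  have hbar : FBar ε t0 (fun t x => (x - x0) / t + mst B P0 t)
      (fun t x => -((x - x0) / t ^ 2) + (P0 + 2 * B + 1) * mst B P0 t)
      (fun t _ => 1 / t) (fun _ _ => 0) := by
    constructor
    · have h1 : ContinuousOn (fun p : ℝ × ℝ => (p.2 - x0) / p.1) (strip ε t0) :=
        (continuousOn_snd.sub continuousOn_const).div continuousOn_fst
          fun p hp => (hε0.trans_le hp.1.1).ne'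
      have h2 : ContinuousOn (fun p : ℝ × ℝ => mst B P0 p.1) (strip ε t0) := by
        unfold mst; fun_prop
      exact h1.add h2
    · intro t ht x
      have ht' : 0 < t := hε0.trans ht.1
      have h1 : HasDerivAt (fun s : ℝ => (x - x0) / s) (-((x - x0) / t ^ 2)) t := by
        have := (hasDerivAt_inv ht'.ne').const_mul (x - x0)
        refine this.congr_deriv ?_
        field_simp
      exact (h1.add (mst_deriv B P0 t)).hasDerivWithinAt
    · intro t ht x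
      have h1 := (((hasDerivAt_id x).sub_const x0).div_const t).add_const (mst B P0 t)
      exact h1
    · intro t ht x
      exact HasSide.of_hasDerivAt (hasDerivAt_const x (1 / t))
  refine Y_le_bar hM' hbar (L := |x0| / ε + 1 / ε) ?_ ?_ ?_ ?_ T1 ⟨hεT.le, hT1.2⟩ x1
  · intro t ht x
    have ht' : 0 < t := hε0.trans_le ht.1
    have h1 : 0 ≤ mst B P0 t := by unfold mst; positivity
    have h2 : -((|x| + |x0|) / ε) ≤ (x - x0) / t := by
      have h3 : -(|x| + |x0|) ≤ x - x0 := by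
        have := neg_abs_le x
        have := le_abs_self x0
        linarith
      have h4 : -((|x| + |x0|) / t) ≤ (x - x0) / t := by
        rw [← neg_div]; exact div_le_div_of_nonneg_right h3 ht'.le
      have h5 : (|x| + |x0|) / t ≤ (|x| + |x0|) / ε :=
        div_le_div_of_nonneg_left (by positivity) hε0 ht.1
      linarith
    have e1 : (|x0| / ε + 1 / ε) * (1 + |x|) =
        (|x| + |x0|) / ε + (|x0| * |x| + 1) / ε := by
      field_simp; ring
    have h6 : 0 ≤ (|x0| * |x| + 1) / ε := by positivity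
    rw [e1]; linarith
  · intro t ht x
    have ht' : 0 < t := hε0.trans ht.1
    have : 0 ≤ |x0| / ε + 1 / ε := by positivity
    have : 0 ≤ 1 / t := by positivity
    linarith
  · intro t ht x
    have ht' : 0 < t := hε0.trans ht.1
    have htI : t ∈ Icc 0 A.T := ⟨ht'.le, ht.2.trans ht0⟩
    have hb1 := A.bl_nonneg t
    have hb2 := hBt t ⟨ht', ht.2⟩
    have hP1 := hP t ⟨ht', ht.2⟩ x
    have hP2 := (hBk.P_pos t htI x).le
    have hU1 := hU t ⟨ht', ht.2⟩
    have hV := V_01 hBk htI x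
    have hu := (hBk.u_pos t htI x).le
    have htan := u_tangent hBk htI x x0
    have hmg := mst_ge (t := t) hB0 hP0 ht'.le
    set m := mst B P0 t with hmd
    set bb := A.bl t with hbb
    set R := 1 - A.V t x with hR
    have hBP : 0 ≤ B * P0 := mul_nonneg hB0 hP0
    have hm0 : 0 ≤ m := by linarith
    -- b [R(x-x0) - u]/t ≤ m / t
    have h1 : bb * (R * (x - x0) - A.u t x) ≤ m := by
      have h2 : R * (x - x0) - A.u t x ≤ 1 := by
        have : (A.V t x - 1) * (x0 - x) = R * (x - x0) := by rw [hR]; ring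
        linarith
      have h3 : bb * (R * (x - x0) - A.u t x) ≤ bb * 1 := mul_le_mul_of_nonneg_left h2 hb1
      linarith
    have h1' : (bb * (R * (x - x0) - A.u t x) - m) / t ≤ 0 :=
      div_nonpos_of_nonpos_of_nonneg (by linarith) ht'.le
    have h4 : bb * R * m ≤ B * m := by
      have hR1 : R ≤ 1 := by rw [hR]; linarith
      have hR0 : 0 ≤ R := by rw [hR]; linarith
      have : bb * R ≤ B := by nlinarith
      exact mul_le_mul_of_nonneg_right this hm0
    have h5 : bb * A.P t x ≤ B * P0 := mul_le_mul hb2 hP1 hP2 hB0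
    have e : (0:ℝ) / 2 - ((x - x0) / t + m + bb * A.u t x) * (1 / t) + bb * R * ((x - x0) / t + m)
        + bb * A.P t x = -((x - x0) / t ^ 2) + (bb * (R * (x - x0) - A.u t x) - m) / t
          + bb * R * m + bb * A.P t x := by
      field_simp
      ring
    rw [e]
    nlinarith [mul_nonneg hP0 hm0, mul_nonneg hB0 hm0]
  · intro x
    have h1 := hf ε ⟨hε0, hεs⟩ x
    have htI : ε ∈ Icc 0 A.T := ⟨hε0.le, (hεT.le.trans hT1.2).trans ht0⟩
    have h2 := A.bl_nonneg ε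
    have h3 := (hBk.u_pos ε htI x).le
    have h4 : 0 ≤ mst B P0 ε := by unfold mst; positivity
    have h5 := mul_nonneg h2 h3
    rw [h1]; linarith

/-- **Start, lower bound.** -/
theorem start_low (hBk : Back A)
    (hY : ∀ t0 ∈ Ioo 0 A.T, ∃ M, YSys t0 A.T A.bl A.u A.V A.P Y Yx Yxx M)
    (hfirst : ∃ s1, 0 < s1 ∧ ∀ t ∈ Ioc 0 s1, ∀ x, Y t x = (x - x0) / t - A.bl t * A.u t x)
    (ht0 : t0 ≤ A.T) (hB0 : 0 ≤ B) (hBt : ∀ t ∈ Ioc 0 t0, A.bl t ≤ B)
    (hP0 : 0 ≤ P0) (hP : ∀ t ∈ Ioc 0 t0, ∀ x, A.P t x ≤ P0)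
    (hU : ∀ t ∈ Ioc 0 t0, A.u t x0 ≤ 1) :
    ∀ t ∈ Ioc 0 t0, ∀ x, (x - x0) / t - mst B P0 t * (1 + A.u t x) ≤ Y t x := by
  intro T1 hT1 x1
  obtain ⟨s1, hs1, hf⟩ := hfirst
  set ε := min s1 T1 / 2 with hε
  have hm : 0 < min s1 T1 := lt_min hs1 hT1.1
  have hε0 : 0 < ε := by rw [hε]; linarith
  have hεs : ε ≤ s1 := by rw [hε]; linarith [min_le_left s1 T1]
  have hεT : ε < T1 := by rw [hε]; linarith [min_le_right s1 T1]
  obtain ⟨M, hM⟩ := hY ε ⟨hε0, hεT.trans_le (hT1.2.trans ht0)⟩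
  obtain ⟨MB, hMB⟩ := hBk.bsys
  have hM' := YSys.mono' hM (le_refl ε) ht0
  have hsub : strip ε t0 ⊆ strip 0 A.T := fun p hp =>
    ⟨⟨hε0.le.trans hp.1.1, hp.1.2.trans ht0⟩, mem_univ _⟩
  have hbar : FBar ε t0 (fun t x => (x - x0) / t - mst B P0 t * (1 + A.u t x))
      (fun t x => -((x - x0) / t ^ 2) - (((P0 + 2 * B + 1) * mst B P0 t) * (1 + A.u t x) +
        mst B P0 t * (-(A.P t x / 2 + A.bl t * A.u t x * A.V t x))))
      (fun t x => 1 / t - mst B P0 t * (A.V t x - 1)) (fun t x => 0 - mst B P0 t * A.P t x) := by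
    constructor
    · have h1 : ContinuousOn (fun p : ℝ × ℝ => (p.2 - x0) / p.1) (strip ε t0) :=
        (continuousOn_snd.sub continuousOn_const).div continuousOn_fst
          fun p hp => (hε0.trans_le hp.1.1).ne'
      have h2 : ContinuousOn (fun p : ℝ × ℝ => mst B P0 p.1) (strip ε t0) := by
        unfold mst; fun_prop
      exact h1.sub (h2.mul (continuousOn_const.add (hMB.cu.mono hsub)))
    · intro t ht x
      have ht' : 0 < t := hε0.trans ht.1
      have h1 : HasDerivAt (fun s : ℝ => (x - x0) / s) (-((x - x0) / t ^ 2)) t := by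
        have := (hasDerivAt_inv ht'.ne').const_mul (x - x0)
        refine this.congr_deriv ?_
        field_simp
      exact h1.hasDerivWithinAt.sub ((mst_deriv B P0 t).hasDerivWithinAt.mul
        ((hBk.u_tl t ⟨ht', ht.2.trans ht0⟩ x).const_add 1))
    · intro t ht x
      have ht' : 0 < t := hε0.trans ht.1
      exact (((hasDerivAt_id x).sub_const x0).div_const t).sub
        (((hBk.u_x t ⟨ht'.le, ht.2.trans ht0⟩ x).const_add 1).const_mul (mst B P0 t))
    · intro t ht x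
      have ht' : 0 < t := hε0.trans ht.1
      exact HasSide.of_hasDerivAt ((hasDerivAt_const x (1 / t)).sub
        (((hBk.V_x t ⟨ht'.le, ht.2.trans ht0⟩ x).sub_const 1).const_mul (mst B P0 t)))
  refine bar_le_Y hM' hbar (L := |x0| / ε + 1 / ε) ?_ ?_ ?_ ?_ T1 ⟨hεT.le, hT1.2⟩ x1
  · intro t ht x
    have ht' : 0 < t := hε0.trans_le ht.1
    have htI : t ∈ Icc 0 A.T := ⟨ht'.le, ht.2.trans ht0⟩
    have h1 : 0 ≤ mst B P0 t * (1 + A.u t x) := by
      have := (hBk.u_pos t htI x).le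
      unfold mst; positivity
    have h2 : (x - x0) / t ≤ (|x| + |x0|) / ε := by
      have h3 : x - x0 ≤ |x| + |x0| := by
        have := le_abs_self x
        have := neg_abs_le x0
        linarith
      have h4 : (x - x0) / t ≤ (|x| + |x0|) / t := div_le_div_of_nonneg_right h3 ht'.le
      have h5 : (|x| + |x0|) / t ≤ (|x| + |x0|) / ε :=
        div_le_div_of_nonneg_left (by positivity) hε0 ht.1
      linarith
    have e1 : (|x0| / ε + 1 / ε) * (1 + |x|) =
        (|x| + |x0|) / ε + (|x0| * |x| + 1) / ε := by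
      field_simp; ring
    have h6 : 0 ≤ (|x0| * |x| + 1) / ε := by positivity
    rw [e1]; linarith
  · intro t ht x
    have ht' : 0 < t := hε0.trans ht.1
    have htI : t ∈ Icc 0 A.T := ⟨ht'.le, ht.2.trans ht0⟩
    have h0 : 0 ≤ |x0| / ε + 1 / ε := by positivity
    have h1 : 0 ≤ 1 / t := by positivity
    have h2 : 0 ≤ mst B P0 t := by unfold mst; positivity
    have h3 := (V_01 hBk htI x).2
    nlinarith
  · intro t ht x
    have ht' : 0 < t := hε0.trans ht.1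
    have htI : t ∈ Icc 0 A.T := ⟨ht'.le, ht.2.trans ht0⟩
    have hb1 := A.bl_nonneg t
    have hb2 := hBt t ⟨ht', ht.2⟩
    have hP1 := hP t ⟨ht', ht.2⟩ x
    have hP2 := (hBk.P_pos t htI x).le
    have hU1 := hU t ⟨ht', ht.2⟩
    have hV := V_01 hBk htI x
    have hu := (hBk.u_pos t htI x).le
    have htan := u_tangent hBk htI x x0
    have hmg := mst_ge (t := t) hB0 hP0 ht'.le
    set m := mst B P0 t with hmd
    set bb := A.bl t with hbb
    set u := A.u t x with hud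
    set V := A.V t x with hVd
    have hBP : 0 ≤ B * P0 := mul_nonneg hB0 hP0
    have hm0 : 0 ≤ m := by linarith
    have hmb : bb ≤ m := by linarith
    have hR0 : 0 < 1 - V := by linarith
    have hR1 : 1 - V ≤ 1 := by linarith
    -- (m-b)(u - R(x-x0)) + m ≥ 0
    have h1 : 0 ≤ (m - bb) * (u - (1 - V) * (x - x0)) + m := by
      have h2 : -1 ≤ u - (1 - V) * (x - x0) := by
        have : (V - 1) * (x0 - x) = (1 - V) * (x - x0) := by ring
        linarith
      nlinarith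
    have h1' : 0 ≤ ((m - bb) * (u - (1 - V) * (x - x0)) + m) / t := div_nonneg h1 ht'.le
    have h3 : m * A.P t x ≤ m * P0 := mul_le_mul_of_nonneg_left hP1 hm0
    have h4 : bb * m * ((1 - V) * (1 + 2 * u) + u * V) ≤ B * m * (2 * (1 + u)) := by
      apply mul_le_mul _ _ _ (mul_nonneg hB0 hm0)
      · exact mul_le_mul_of_nonneg_right hb2 hm0
      · nlinarith [mul_nonneg hu hR0.le, mul_nonneg hu hV.1.le]
      · have := mul_nonneg hu hV.1.le
        have := mul_nonneg hR0.le (show (0:ℝ) ≤ 1 + 2 * u by linarith)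
        linarith
    have h5 : 0 ≤ m ^ 2 * (1 - V) * (1 + u) := by positivity
    have h6 : 0 ≤ bb * A.P t x := mul_nonneg hb1 hP2
    have h7 : 0 ≤ m * P0 * u := by positivity
    have e : ((0 - m * A.P t x) / 2 - ((x - x0) / t - m * (1 + u) + bb * u) *
          (1 / t - m * (V - 1)) + bb * (1 - V) * ((x - x0) / t - m * (1 + u)) + bb * A.P t x) -
        (-((x - x0) / t ^ 2) - (((P0 + 2 * B + 1) * m) * (1 + u) +
          m * (-(A.P t x / 2 + bb * u * V)))) =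
        (bb - m) * A.P t x + ((m - bb) * (u - (1 - V) * (x - x0)) + m) / t +
          m ^ 2 * (1 - V) * (1 + u) - bb * m * ((1 - V) * (1 + 2 * u) + u * V) +
          (P0 + 2 * B + 1) * m * (1 + u) := by
      field_simp
      ring
    have h8 : 0 ≤ (bb - m) * A.P t x + ((m - bb) * (u - (1 - V) * (x - x0)) + m) / t +
          m ^ 2 * (1 - V) * (1 + u) - bb * m * ((1 - V) * (1 + 2 * u) + u * V) +
          (P0 + 2 * B + 1) * m * (1 + u) := by
      have h9 : 0 ≤ m * (1 + u) := mul_nonneg hm0 (by linarith)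
      nlinarith
    linarith
  · intro x
    have h1 := hf ε ⟨hε0, hεs⟩ x
    have htI : ε ∈ Icc 0 A.T := ⟨hε0.le, (hεT.le.trans hT1.2).trans ht0⟩
    have h2 := A.bl_nonneg ε
    have h3 := (hBk.u_pos ε htI x).le
    have h4 := mst_ge (t := ε) hB0 hP0 hε0.le
    have h5 := hBt ε ⟨hε0, hεT.le.trans hT1.2⟩
    have h6 : A.bl ε * A.u ε x ≤ mst B P0 ε * A.u ε x :=
      mul_le_mul_of_nonneg_right (by nlinarith [mul_nonneg hB0 hP0]) h3
    have h7 : 0 ≤ mst B P0 ε := by unfold mst; positivity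
    rw [h1]; nlinarith

/-! ### A priori bounds on the step system, `b τ ≤ 1` -/

/-- `u ≤ √τ hz(x/√τ)` -/
theorem step_u_le (hB : Back A) (hν : ∀ t ∈ Ico 0 A.T, A.b t * (1 - t) ≤ 1) :
    ∀ t ∈ Icc 0 A.T, ∀ x, A.u t x ≤ √(1 - t) * hz (x / √(1 - t)) := by
  obtain ⟨M, h⟩ := hB.bsys
  refine u_le_hz h (le_refl 0) A.hT1 hν fun x => ?_
  rw [hB.u_T x]
  exact mul_le_mul_of_nonneg_left (U0_le_hz _) (Real.sqrt_nonneg _)

/-- `√τ U0(x/√τ) ≤ u` -/
theorem step_le_u (hB : Back A) :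
    ∀ t ∈ Icc 0 A.T, ∀ x, √(1 - t) * U0 (x / √(1 - t)) ≤ A.u t x := by
  obtain ⟨M, h⟩ := hB.bsys
  refine U0_le_u h (le_refl 0) A.hT1 fun x => ?_
  rw [hB.u_T x]
  exact le_refl _

/-- `u ≤ (√(x²+χ) - x)/2`, all `b`. -/
theorem step_u_le_chi (hB : Back A) :
    ∀ t ∈ Icc 0 A.T, ∀ x, A.u t x ≤ (√(x ^ 2 + A.chi t) - x) / 2 := by
  obtain ⟨M, h⟩ := hB.bsys
  have hc : Continuous A.chi := (StepClk_900.D_cont A).mul (StepClk_900.K0_cont A)
  obtain ⟨L, hL⟩ := (isCompact_Icc (a := (0:ℝ)) (b := A.T)).exists_bound_of_continuousOn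
    (f := fun t => √(A.chi t)) (by fun_prop)
  refine u_le_k h (k := A.chi) (k' := fun t => -(1 + A.m t * A.K0 t)) (L := max L 1)
    hc.continuousOn (fun t ht => StepClk_900.chi_pos A (ht.2.trans_lt A.hT1)) ?_
    (le_max_right _ _) (fun t _ => StepClk_900.chi_r A t) ?_ ?_
  · intro t ht
    have := hL t ht
    rw [Real.norm_eq_abs] at this
    exact (le_abs_self _).trans (this.trans (le_max_left _ _))
  · intro t _
    have : A.b t * A.chi t = A.m t * A.K0 t := by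
      unfold SD.b SD.chi
      have := (A.D_pos t).ne'
      field_simp
    rw [this]
  · intro x
    rw [hB.u_T x, StepClk_900.chi_T A]
    have hs : 0 < √A.dl := Real.sqrt_pos.2 A.dl_pos
    have hsq : √A.dl ^ 2 = A.dl := Real.sq_sqrt A.dl_pos.le
    set s := √A.dl with hsd
    have h1 := U0_le_sqrt
    have h5 := h1 (x / s)
    have h6 : √(x ^ 2 + A.dl) = s * √((x / s) ^ 2 + 1) := by
      rw [← hsq, ← Real.sqrt_sq hs.le, ← Real.sqrt_mul (by positivity), Real.sqrt_sq hs.le]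
      congr 1
      field_simp
    rw [h6]
    have h7 : s * U0 (x / s) ≤ s * ((√((x / s) ^ 2 + 1) - x / s) / 2) :=
      mul_le_mul_of_nonneg_left h5 hs.le
    have h8 : s * ((√((x / s) ^ 2 + 1) - x / s) / 2) = (s * √((x / s) ^ 2 + 1) - x) / 2 := by
      field_simp
    linarith

/-- `V(t,0) ≥ 1/25` -/
theorem step_V_zero (hB : Back A) (hν : ∀ t ∈ Ico 0 A.T, A.b t * (1 - t) ≤ 1) :
    ∀ t ∈ Icc 0 A.T, 1 / 25 ≤ A.V t 0 := by
  intro t ht
  rcases lt_or_eq_of_le ht.2 with h1 | h1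
  · obtain ⟨M, h⟩ := hB.bsys
    exact V_zero_ge h ⟨ht.1, h1⟩ (h1.trans A.hT1) (step_u_le hB hν t ht) (step_le_u hB t ht)
  · rw [h1, hB.V_T 0, zero_div]
    have : (ProbabilityTheory.gaussianReal 0 1).real (Iic (0:ℝ)) = Phi 0 := rfl
    rw [this, Phi_zero]
    norm_num

/-- `V_x ≤ √(V(1-V))/√τ` -/
theorem step_P_le (hB : Back A) (hν : ∀ t ∈ Ico 0 A.T, A.b t * (1 - t) ≤ 1) :
    ∀ t ∈ Icc 0 A.T, ∀ x, A.P t x ≤ (√(1 - t))⁻¹ * √(A.V t x * (1 - A.V t x)) := by
  obtain ⟨M, h⟩ := hB.bsys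
  refine P_le_root h A.hT1 hν fun x => ?_
  have e1 : A.V A.T x = Phi (x / √A.dl) := hB.V_T x
  rw [hB.P_T x, e1, div_eq_inv_mul]
  refine mul_le_mul_of_nonneg_left ?_ (by positivity)
  apply Real.le_sqrt_of_sq_le
  exact ph_sq_le _

lemma step_P_le' (hB : Back A) (hν : ∀ t ∈ Ico 0 A.T, A.b t * (1 - t) ≤ 1) {t0 : ℝ}
    (ht0 : t0 ≤ A.T) : ∀ t ∈ Ioc 0 t0, ∀ x, A.P t x ≤ (√(1 - t0))⁻¹ := by
  intro t ht x
  have htI : t ∈ Icc 0 A.T := ⟨ht.1.le, ht.2.trans ht0⟩
  have h1 := step_P_le hB hν t htI x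
  have hV := V_01 hB htI x
  have h2 : √(A.V t x * (1 - A.V t x)) ≤ 1 := by
    have := Real.sqrt_le_sqrt (show A.V t x * (1 - A.V t x) ≤ 1 by nlinarith)
    rwa [Real.sqrt_one] at this
  have ht0' : t0 < 1 := ht0.trans_lt A.hT1
  have h3 : (√(1 - t))⁻¹ ≤ (√(1 - t0))⁻¹ :=
    inv_anti₀ (sqrt_tau_pos ht0') (Real.sqrt_le_sqrt (by linarith [ht.2]))
  have h4 : 0 < (√(1 - t))⁻¹ := inv_pos.2 (sqrt_tau_pos (ht.2.trans_lt ht0'))
  calc A.P t x ≤ (√(1 - t))⁻¹ * √(A.V t x * (1 - A.V t x)) := h1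
    _ ≤ (√(1 - t))⁻¹ * 1 := mul_le_mul_of_nonneg_left h2 h4.le
    _ ≤ (√(1 - t0))⁻¹ := by rw [mul_one]; exact h3

/-- `u(t,0) ≤ .8 √τ` -/
lemma step_u_zero (hB : Back A) (hν : ∀ t ∈ Ico 0 A.T, A.b t * (1 - t) ≤ 1) {t : ℝ}
    (ht : t ∈ Icc 0 A.T) : A.u t 0 ≤ 0.8 * √(1 - t) := by
  have h1 := step_u_le hB hν t ht 0
  rw [zero_div] at h1
  have h2 := hz_zero_le
  have h3 := Real.sqrt_nonneg (1 - t)
  nlinarith

lemma u_anti (hB : Back A) {t : ℝ} (ht : t ∈ Icc 0 A.T) : Antitone (A.u t) := by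
  apply antitone_of_deriv_nonpos
  · intro x; exact (hB.u_x t ht x).differentiableAt
  · intro x
    rw [(hB.u_x t ht x).deriv]
    have := (V_01 hB ht x).2
    linarith

/-- `u(t,x0) ≤ 1` for `x0 ≥ 0` -/
lemma step_u_x0 (hB : Back A) (hν : ∀ t ∈ Ico 0 A.T, A.b t * (1 - t) ≤ 1) {t : ℝ}
    (ht : t ∈ Icc 0 A.T) {x0 : ℝ} (hx0 : 0 ≤ x0) : A.u t x0 ≤ 1 := by
  have h1 := step_u_zero hB hν ht
  have h2 := u_anti hB ht hx0
  have h3 : √(1 - t) ≤ 1 := by
    have := Real.sqrt_le_sqrt (show 1 - t ≤ 1 by linarith [ht.1])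
    rwa [Real.sqrt_one] at this
  have h4 := Real.sqrt_nonneg (1 - t)
  nlinarith

/-- `x + u ≤ (D - x) V` on `x ≤ 0`, late times -/
theorem step_FF (hB : Back A) (hν : ∀ t ∈ Ico 0 A.T, A.b t * (1 - t) ≤ 1) {t0 : ℝ}
    (ht0 : 0 ≤ t0) (ht0T : t0 ≤ A.T) (hD : ∀ t ∈ Icc t0 A.T, 21 * √(1 - t) ≤ A.D t) :
    ∀ t ∈ Icc t0 A.T, ∀ x ≤ 0, A.w t x ≤ (A.D t - x) * A.V t x := by
  obtain ⟨M, h⟩ := hB.bsys
  refine FF (BSys.mono' h ht0 (le_refl _)) (StepClk_900.D_cont A).continuousOn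
    (fun t _ => A.D_pos t) ?_ ?_ ?_ ?_
  · intro t ht
    have h1 := StepClk_900.D_r A t
    have e : -(A.b t * A.D t) = -A.m t := by
      unfold SD.b
      have := (A.D_pos t).ne'
      field_simp
    rw [e]; exact h1
  · intro t ht x
    exact (hB.w_pos t ⟨ht0.trans ht.1, ht.2⟩ x).le
  · intro t ht
    have htI : t ∈ Icc 0 A.T := ⟨ht0.trans ht.1, ht.2⟩
    have h1 := step_u_zero hB hν htI
    have h2 := step_V_zero hB hν t htI
    have h3 := hD t ht
    have h4 := Real.sqrt_nonneg (1 - t)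
    have h5 : 21 * √(1 - t) * (1 / 25) ≤ A.D t * A.V t 0 :=
      mul_le_mul h3 h2 (by norm_num) (A.D_pos t).le
    linarith
  · intro x hx
    have hs : 0 < √A.dl := Real.sqrt_pos.2 A.dl_pos
    have e1 : A.V A.T x = Phi (x / √A.dl) := hB.V_T x
    have hd := hD A.T ⟨ht0T, le_refl _⟩
    have hDT : A.D A.T = A.d := StepStart_483.D_T A
    rw [hB.u_T x, e1, hDT]
    rw [hDT] at hd
    have e2 : √(1 - A.T) = √A.dl := rfl
    rw [e2] at hd
    set s := √A.dl with hsd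
    set z := x / s with hz'
    have hxz : x = s * z := by rw [hz']; field_simp
    have hz0 : z ≤ 0 := div_nonpos_of_nonpos_of_nonneg hx hs.le
    have hm := U0_eq z
    have hle := hz_le z
    rw [abs_of_nonpos hz0] at hle
    have hph : ph z ≤ (1 - z) * Phi z := by
      have := Phi_pos z
      have h1 : ph z = hz z * Phi z := by unfold hz; field_simp
      rw [h1]
      exact mul_le_mul_of_nonneg_right (by linarith) this.le
    rw [hm]
    have hP := Phi_pos z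
    have h1 : s * ph z ≤ s * ((1 - z) * Phi z) := mul_le_mul_of_nonneg_left hph hs.le
    have h2 : s * Phi z ≤ A.d * Phi z := mul_le_mul_of_nonneg_right (by linarith) hP.le
    have h3 : 0 ≤ s * (-z) * Phi z := mul_nonneg (mul_nonneg hs.le (by linarith)) hP.le
    have e4 : x + s * (ph z - z * (1 - Phi z)) = s * ph z + s * z * Phi z := by
      rw [hxz]; ring
    rw [e4]
    have e5 : (A.d - x) * Phi z = A.d * Phi z - s * z * Phi z := by rw [hxz]; ring
    rw [e5]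
    nlinarith

/-- the explicit constant -/
def Cst (x0 t0 B e0 : ℝ) : ℝ :=
  (x0 / t0 + 2 * mst B (√(1 - t0))⁻¹ t0) / e0 + (1 / t0 + mst B (√(1 - t0))⁻¹ t0) / e0 ^ 2 + 1

lemma Cst_ge_one {x0 t0 B e0 : ℝ} (hx0 : 0 ≤ x0) (ht0 : 0 < t0) (hB : 0 ≤ B) (he : 0 < e0) :
    1 ≤ Cst x0 t0 B e0 := by
  have h1 : 0 ≤ (√(1 - t0))⁻¹ := by positivity
  have h2 : 0 ≤ mst B (√(1 - t0))⁻¹ t0 := by unfold mst; positivity
  have h3 : 0 ≤ (x0 / t0 + 2 * mst B (√(1 - t0))⁻¹ t0) / e0 := by positivity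
  have h4 : 0 ≤ (1 / t0 + mst B (√(1 - t0))⁻¹ t0) / e0 ^ 2 := by positivity
  unfold Cst; linarith

/-- `a + c y ≤ C E (15 + σ(y E))` for `y ≥ 0` and `a ≤ C E·15`-type bounds -/
lemma start_alg {a c C E e0 y : ℝ} (ha : 0 ≤ a) (hc : 0 ≤ c) (he0 : 0 < e0) (hE : e0 ≤ E)
    (hC : a / e0 + c / e0 ^ 2 ≤ C) (hy : 0 ≤ y) : a + c * y ≤ C * E * (15 + sg (y * E)) := by
  have hE0 : 0 < E := he0.trans_le hE
  have hC0 : 0 ≤ C := le_trans (by positivity) hC
  have h1 : y * E ≤ sg (y * E) := by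
    have := Real.sqrt_nonneg (1 + (y * E) ^ 2)
    unfold sg; linarith
  have h2 : a ≤ C * E := by
    have h3 : a / e0 ≤ C := by
      have : 0 ≤ c / e0 ^ 2 := by positivity
      linarith
    have h4 : a = a / e0 * e0 := by field_simp
    rw [h4]
    exact mul_le_mul h3 hE he0.le hC0
  have h5 : c * y ≤ C * E * (y * E) := by
    have h3 : c / e0 ^ 2 ≤ C := by
      have : 0 ≤ a / e0 := by positivity
      linarith
    have h4 : c = c / e0 ^ 2 * e0 ^ 2 := by field_simp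
    have h6 : e0 ^ 2 ≤ E ^ 2 := pow_le_pow_left₀ he0.le hE 2
    have h7 : c ≤ C * E ^ 2 := by
      rw [h4]; exact mul_le_mul h3 h6 (by positivity) hC0
    have h8 := mul_le_mul_of_nonneg_right h7 hy
    nlinarith
  have h6 : C * E * (y * E) ≤ C * E * sg (y * E) := mul_le_mul_of_nonneg_left h1 (by positivity)
  have h7 : 0 ≤ C * E := by positivity
  nlinarith

variable {e0 : ℝ}

/-- **Start, upper side, in the form of `Flat_384`.** -/
theorem law_start_up (hBk : Back A) (hν : ∀ t ∈ Ico 0 A.T, A.b t * (1 - t) ≤ 1)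
    (hY : ∀ t0 ∈ Ioo 0 A.T, ∃ M, YSys t0 A.T A.bl A.u A.V A.P Y Yx Yxx M)
    (hfirst : ∃ s1, 0 < s1 ∧ ∀ t ∈ Ioc 0 s1, ∀ x, Y t x = (x - x0) / t - A.bl t * A.u t x)
    (hx0 : 0 ≤ x0) (ht0 : 0 < t0) (ht0T : t0 ≤ A.T) (hB0 : 0 ≤ B)
    (hBt : ∀ t ∈ Ioc 0 t0, A.bl t ≤ B) (he0 : 0 < e0) (he : e0 ≤ A.E t0) (x : ℝ) :
    Y t0 x ≤ G (Cst x0 t0 B e0) 15 A.E t0 x := by
  have hP0 : 0 ≤ (√(1 - t0))⁻¹ := by positivity
  have h1 := start_up hBk hY hfirst ht0T hB0 hBt hP0 (step_P_le' hBk hν ht0T)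
    (fun t ht => step_u_x0 hBk hν ⟨ht.1.le, ht.2.trans ht0T⟩ hx0) t0 ⟨ht0, le_refl _⟩ x
  set m := mst B (√(1 - t0))⁻¹ t0 with hm
  have hm0 : 0 ≤ m := by rw [hm]; unfold mst; positivity
  have hE : 0 < A.E t0 := A.E_pos t0
  unfold G
  rcases le_total 0 x with hx | hx
  · have h2 := start_alg (a := x0 / t0 + 2 * m) (c := 1 / t0 + m) (C := Cst x0 t0 B e0)
      (by positivity) (by positivity) he0 he (by unfold Cst; rw [← hm]; linarith) hx
    have h3 : (x - x0) / t0 + m ≤ (x0 / t0 + 2 * m) + (1 / t0 + m) * x := by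
      have h4 : (x - x0) / t0 ≤ 1 / t0 * x := by
        rw [sub_div]
        have : 0 ≤ x0 / t0 := by positivity
        have e : x / t0 = 1 / t0 * x := by ring
        linarith
      have h5 : 0 ≤ x0 / t0 := by positivity
      have h6 : 0 ≤ m * x := mul_nonneg hm0 hx
      nlinarith
    linarith
  · have h2 := start_alg (a := x0 / t0 + 2 * m) (c := 1 / t0 + m) (C := Cst x0 t0 B e0) (y := 0)
      (by positivity) (by positivity) he0 he (by unfold Cst; rw [← hm]; linarith) (le_refl _)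
    have hC1 := Cst_ge_one (x0 := x0) (t0 := t0) (B := B) (e0 := e0) hx0 ht0 hB0 he0
    -- at x ≤ 0: C E (15 + σ) ≥ C E 15
    have h3 : (x - x0) / t0 + m ≤ x0 / t0 + 2 * m := by
      have h4 : (x - x0) / t0 ≤ 0 := div_nonpos_of_nonpos_of_nonneg (by linarith) ht0.le
      have h5 : 0 ≤ x0 / t0 := by positivity
      linarith
    have h7 : x0 / t0 + 2 * m ≤ Cst x0 t0 B e0 * A.E t0 := by
      have h8 : (x0 / t0 + 2 * m) / e0 ≤ Cst x0 t0 B e0 := by
        have : 0 ≤ (1 / t0 + m) / e0 ^ 2 := by positivity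
        unfold Cst; rw [← hm]; linarith
      have h9 : x0 / t0 + 2 * m = (x0 / t0 + 2 * m) / e0 * e0 := by field_simp
      rw [h9]
      exact mul_le_mul h8 he he0.le (by linarith)
    have h10 := sg_pos (x * A.E t0)
    have h11 : 0 ≤ Cst x0 t0 B e0 * A.E t0 := mul_nonneg (by linarith) hE.le
    have h12 : 0 ≤ Cst x0 t0 B e0 * A.E t0 * sg (x * A.E t0) := mul_nonneg h11 h10.le
    nlinarith

/-- **Start, lower side, in the form of `Flat_384`.** -/
theorem law_start_low (hBk : Back A) (hν : ∀ t ∈ Ico 0 A.T, A.b t * (1 - t) ≤ 1)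
    (hY : ∀ t0 ∈ Ioo 0 A.T, ∃ M, YSys t0 A.T A.bl A.u A.V A.P Y Yx Yxx M)
    (hfirst : ∃ s1, 0 < s1 ∧ ∀ t ∈ Ioc 0 s1, ∀ x, Y t x = (x - x0) / t - A.bl t * A.u t x)
    (hx0 : 0 ≤ x0) (ht0 : 0 < t0) (ht0T : t0 ≤ A.T) (hB0 : 0 ≤ B)
    (hBt : ∀ t ∈ Ioc 0 t0, A.bl t ≤ B) (he0 : 0 < e0) (he : e0 ≤ A.E t0) (x : ℝ) :
    -(Q (Cst x0 t0 B e0) 15 A.E t0 x) ≤ Y t0 x := by
  have hP0 : 0 ≤ (√(1 - t0))⁻¹ := by positivity
  have htI : t0 ∈ Icc 0 A.T := ⟨ht0.le, ht0T⟩
  have h1 := start_low hBk hY hfirst ht0T hB0 hBt hP0 (step_P_le' hBk hν ht0T)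
    (fun t ht => step_u_x0 hBk hν ⟨ht.1.le, ht.2.trans ht0T⟩ hx0) t0 ⟨ht0, le_refl _⟩ x
  set m := mst B (√(1 - t0))⁻¹ t0 with hm
  have hm0 : 0 ≤ m := by rw [hm]; unfold mst; positivity
  have hE : 0 < A.E t0 := A.E_pos t0
  have ht01 : t0 < 1 := ht0T.trans_lt A.hT1
  have hu := step_u_le hBk hν t0 htI x
  have hs := sqrt_tau_pos ht01
  have hs1 : √(1 - t0) ≤ 1 := by
    have := Real.sqrt_le_sqrt (show 1 - t0 ≤ 1 by linarith)
    rwa [Real.sqrt_one] at this
  have hC1 := Cst_ge_one (x0 := x0) (t0 := t0) (B := B) (e0 := e0) hx0 ht0 hB0 he0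
  unfold Q
  rcases le_total x 0 with hx | hx
  · have h2 := start_alg (a := x0 / t0 + 2 * m) (c := 1 / t0 + m) (C := Cst x0 t0 B e0) (y := -x)
      (by positivity) (by positivity) he0 he (by unfold Cst; rw [← hm]; linarith) (by linarith)
    rw [neg_mul] at h2
    have hu2 : A.u t0 x ≤ 1 + (-x) := by
      have h3 := hz_le (x / √(1 - t0))
      have h4 : √(1 - t0) * hz (x / √(1 - t0)) ≤ √(1 - t0) * (1 + |x / √(1 - t0)|) :=
        mul_le_mul_of_nonneg_left h3 hs.le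
      have h5 : √(1 - t0) * (1 + |x / √(1 - t0)|) = √(1 - t0) + |x| := by
        rw [abs_div, abs_of_pos hs]; field_simp
      rw [abs_of_nonpos hx] at h5
      linarith
    have h6 : (x - x0) / t0 = -(1 / t0 * (-x)) - x0 / t0 := by
      ring
    have h7 : m * (1 + A.u t0 x) ≤ m * (2 + (-x)) := mul_le_mul_of_nonneg_left (by linarith) hm0
    nlinarith
  · have hu2 : A.u t0 x ≤ 1 := step_u_x0 hBk hν htI hx
    have h3 : -(x0 / t0) ≤ (x - x0) / t0 := by
      rw [sub_div]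
      have : 0 ≤ x / t0 := by positivity
      linarith
    have h4 : m * (1 + A.u t0 x) ≤ m * 2 := mul_le_mul_of_nonneg_left (by linarith) hm0
    have h7 : x0 / t0 + 2 * m ≤ Cst x0 t0 B e0 * A.E t0 := by
      have h8 : (x0 / t0 + 2 * m) / e0 ≤ Cst x0 t0 B e0 := by
        have : 0 ≤ (1 / t0 + m) / e0 ^ 2 := by positivity
        unfold Cst; rw [← hm]; linarith
      have h9 : x0 / t0 + 2 * m = (x0 / t0 + 2 * m) / e0 * e0 := by field_simp
      rw [h9]
      exact mul_le_mul h8 he he0.le (by linarith)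
    have h10 := sg_pos (-(x * A.E t0))
    have h11 : 0 ≤ Cst x0 t0 B e0 * A.E t0 := mul_nonneg (by linarith) hE.le
    have h12 : 0 ≤ Cst x0 t0 B e0 * A.E t0 * sg (-(x * A.E t0)) := mul_nonneg h11 h10.le
    nlinarith

/-- **LOW**: the law is almost nonincreasing, explicit constant, `[t0,T]`. -/
theorem law_low (hBk : Back A) (hν : ∀ t ∈ Ico 0 A.T, A.b t * (1 - t) ≤ 1)
    (hY : ∀ t0 ∈ Ioo 0 A.T, ∃ M, YSys t0 A.T A.bl A.u A.V A.P Y Yx Yxx M)
    (hfirst : ∃ s1, 0 < s1 ∧ ∀ t ∈ Ioc 0 s1, ∀ x, Y t x = (x - x0) / t - A.bl t * A.u t x)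
    (hx0 : 0 ≤ x0) (ht0 : 0 < t0) (ht0T : t0 < A.T) (hB0 : 0 ≤ B)
    (hBt : ∀ t ∈ Ioc 0 t0, A.bl t ≤ B) (he0 : 0 < e0) (he : e0 ≤ A.E t0)
    (hD : ∀ t ∈ Icc t0 A.T, 21 * √(1 - t) ≤ A.D t) :
    ∀ t ∈ Icc t0 A.T, ∀ x, -(Cst x0 t0 B e0 * A.E t * (15 + sg (-(x * A.E t)))) ≤ Y t x := by
  obtain ⟨M, hM⟩ := hY t0 ⟨ht0, ht0T⟩
  have hC1 := Cst_ge_one (x0 := x0) (t0 := t0) (B := B) (e0 := e0) hx0 ht0 hB0 he0
  have hbar : FBar t0 A.T (fun _ _ => (0:ℝ)) (fun _ _ => 0) (fun _ _ => 0) (fun _ _ => 0) :=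
    { cS := continuousOn_const
      hSt := fun t _ x => hasDerivWithinAt_const t _ 0
      hSx := fun t _ x => hasDerivAt_const x 0
      hSxx := fun t _ x => HasSide.of_hasDerivAt (hasDerivAt_const x 0) }
  have key := add_le_Y (E := A.E) (C := Cst x0 t0 B e0) (c0 := 15) (L := 0) hM hbar
    (StepClk_900.E_cont A).continuousOn (fun t _ => A.E_pos t) (fun t _ => StepClk_900.E_l A t)
    (by linarith) (by linarith) (fun t _ x => by simp) (fun t _ x => by simp) ?_ ?_ ?_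
  · intro t ht x
    have := key t ht x
    unfold Q at this
    linarith
  · intro t ht x
    have htI : t ∈ Icc 0 A.T := ⟨ht0.le.trans ht.1.le, ht.2⟩
    have h1 := mul_nonneg (A.bl_nonneg t) (hBk.P_pos t htI x).le
    simp only [mul_zero, zero_div, sub_zero, zero_add, add_zero]
    linarith
  · intro t ht x
    have htI : t ∈ Icc 0 A.T := ⟨ht0.le.trans ht.1.le, ht.2⟩
    have htI' : t ∈ Icc t0 A.T := ⟨ht.1.le, ht.2⟩
    have hE := A.E_pos t
    have hDE : A.D t * A.E t = 1 := by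
      unfold SD.E; exact mul_inv_cancel₀ (A.D_pos t).ne'
    have hcond := hpt_low (x := x) (e := A.E t) (β := A.bl t) (uu := A.u t) (VV := A.V t)
      (A.bl_nonneg t) hE ?_ ?_ (V_01 hBk htI x).1.le
    · simp only [mul_zero, sub_zero, add_zero]
      exact hcond
    · intro hx
      have h1 := step_FF hBk hν ht0.le ht0T.le hD t htI' x hx
      have h2 := mul_le_mul_of_nonneg_left h1 hE.le
      have e1 : A.E t * ((A.D t - x) * A.V t x) = (1 - x * A.E t) * A.V t x := by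
        have : A.E t * ((A.D t - x) * A.V t x) = (A.D t * A.E t - x * A.E t) * A.V t x := by ring
        rw [this, hDE]
      rw [e1] at h2
      exact h2
    · intro hx
      refine ⟨?_, ?_⟩
      · have h1 := u_anti hBk htI hx
        have h2 := step_u_zero hBk hν htI
        have h3 := hD t htI'
        have h4 : A.E t * (21 * √(1 - t)) ≤ 1 := by
          have := mul_le_mul_of_nonneg_left h3 hE.le
          linarith
        have h5 : A.E t * (x + A.u t x) ≤ A.E t * (x + 0.8 * √(1 - t)) :=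
          mul_le_mul_of_nonneg_left (by linarith) hE.le
        have h6 := mul_nonneg hE.le (Real.sqrt_nonneg (1 - t))
        nlinarith
      · exact (step_V_zero hBk hν t htI).trans (V_mono hBk htI hx)
  · intro x
    have := law_start_low hBk hν hY hfirst hx0 ht0 ht0T.le hB0 hBt he0 he x
    linarith

end step

end

end Crest.Agent.R146.FlatStep_384
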