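import Mathlib

/-!
# R146 (helper947): row-wise tools for log partition functions (abstract)

* `integral_resample`: resampling one coordinate of a finite product law.
* `var_le`: variance of a function with bounded differences on a finite product, `Var f ≤ ∑ c_i^2`.
* `tail_le`: the corresponding Chebyshev bound.
* `logZ`: `log ∫ exp (∑_a u_a(x_a, y)) ρ(dy)`; bounds, measurability, bounded differences,
  stability in the potentials (`abs_integral_logZ_sub_le`).
-/

set_option autoImplicit false
set_option linter.unusedSectionVars false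

open MeasureTheory ProbabilityTheory Filter Topology

namespace Crest.Agent.R146.WrapA_947

section basic

lemma integrable_of_bound {Ω : Type*} [MeasurableSpace Ω] (μ : Measure Ω) [IsFiniteMeasure μ]
    {f : Ω → ℝ} (hf : Measurable f) {C : ℝ} (hb : ∀ x, |f x| ≤ C) : Integrable f μ :=
  Integrable.of_bound hf.aestronglyMeasurable C (Eventually.of_forall fun x => by
    rw [Real.norm_eq_abs]; exact hb x)

lemma abs_integral_le {Ω : Type*} [MeasurableSpace Ω] (μ : Measure Ω) [IsProbabilityMeasure μ]
    {f : Ω → ℝ} {C : ℝ} (hb : ∀ x, |f x| ≤ C) : |∫ x, f x ∂μ| ≤ C := by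
  have := norm_integral_le_of_norm_le_const (μ := μ) (f := f) (C := C)
    (Eventually.of_forall fun x => by rw [Real.norm_eq_abs]; exact hb x)
  simpa using this

end basic

section prod

variable {X : Type*} [MeasurableSpace X]

/-- splitting off the coordinate `i` of a finite product law -/
theorem integral_split {n : ℕ} (μ : Fin (n + 1) → Measure X) [∀ i, IsProbabilityMeasure (μ i)]
    (i : Fin (n + 1)) {F : (Fin (n + 1) → X) → ℝ} (hF : Measurable F) {C : ℝ}
    (hb : ∀ x, |F x| ≤ C) :
    ∫ x, F x ∂(Measure.pi μ) =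
      ∫ y, ∫ t, F (i.insertNth t y) ∂(μ i) ∂(Measure.pi fun j => μ (i.succAbove j)) := by
  have hmp := measurePreserving_piFinSuccAbove μ i
  have h1 : ∫ x, F x ∂(Measure.pi μ) =
      ∫ p, F ((MeasurableEquiv.piFinSuccAbove (fun _ => X) i).symm p)
        ∂((μ i).prod (Measure.pi fun j => μ (i.succAbove j))) := by
    rw [← hmp.integral_comp (MeasurableEquiv.measurableEmbedding _)]
    refine integral_congr_ae (Eventually.of_forall fun x => ?_)
    show F x = F ((MeasurableEquiv.piFinSuccAbove (fun _ => X) i).symm
      ((MeasurableEquiv.piFinSuccAbove (fun _ => X) i) x))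
    rw [MeasurableEquiv.symm_apply_apply]
  rw [h1, integral_prod_symm]
  · rfl
  · refine integrable_of_bound _ (C := C) ?_ (fun _ => hb _)
    exact hF.comp (MeasurableEquiv.measurable _)

lemma measurable_insertNth {n : ℕ} (i : Fin (n + 1)) :
    Measurable (fun p : X × (Fin n → X) => (i.insertNth p.1 p.2 : Fin (n + 1) → X)) :=
  (MeasurableEquiv.piFinSuccAbove (fun _ => X) i).symm.measurable

/-- resampling the coordinate `i` -/
theorem integral_resample {n : ℕ} (μ : Fin n → Measure X) [∀ i, IsProbabilityMeasure (μ i)]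
    (i : Fin n) {F : (Fin n → X) → ℝ} (hF : Measurable F) {C : ℝ} (hb : ∀ x, |F x| ≤ C) :
    ∫ x, F x ∂(Measure.pi μ) =
      ∫ x, ∫ t, F (Function.update x i t) ∂(μ i) ∂(Measure.pi μ) := by
  cases n with
  | zero => exact i.elim0
  | succ n =>
    have hG : Measurable (fun x : Fin (n + 1) → X => ∫ t, F (Function.update x i t) ∂(μ i)) := by
      have h : Measurable (fun p : (Fin (n + 1) → X) × X => F (Function.update p.1 i p.2)) :=
        hF.comp measurable_update'
      exact (h.stronglyMeasurable.integral_prod_right').measurable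
    have hGb : ∀ x : Fin (n + 1) → X, |∫ t, F (Function.update x i t) ∂(μ i)| ≤ C :=
      fun x => abs_integral_le _ fun t => hb _
    rw [integral_split μ i hF hb, integral_split μ i hG hGb]
    refine integral_congr_ae (Eventually.of_forall fun y => ?_)
    simp only [Fin.update_insertNth]
    rw [integral_const]
    simp

/-- **variance bound by bounded differences** on a finite product -/
theorem var_le : ∀ (n : ℕ) (μ : Fin n → Measure X) [∀ i, IsProbabilityMeasure (μ i)]
    (f : (Fin n → X) → ℝ) (c : Fin n → ℝ), Measurable f → ∀ C : ℝ, (∀ x, |f x| ≤ C) →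
    (∀ x i t, |f (Function.update x i t) - f x| ≤ c i) →
    ∫ x, (f x - ∫ z, f z ∂(Measure.pi μ)) ^ 2 ∂(Measure.pi μ) ≤ ∑ i, c i ^ 2 := by
  intro n
  induction n with
  | zero =>
    intro μ _ f c hf C hb hc
    have h : ∀ x, f x = f (fun i => i.elim0) := fun x => by
      congr 1; funext i; exact i.elim0
    have h2 : ∫ z, f z ∂(Measure.pi μ) = f (fun i => i.elim0) := by
      simp_rw [fun z => h z]
      simp
    rw [h2]
    simp_rw [fun z => h z]
    simp
  | succ n ih =>
    intro μ _ f c hf C hb hc
    set P := Measure.pi μ with hP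
    set Q := Measure.pi (fun j => μ ((0 : Fin (n + 1)).succAbove j)) with hQ
    set g : (Fin n → X) → ℝ := fun y => ∫ t, f ((0 : Fin (n + 1)).insertNth t y) ∂(μ 0) with hg
    have hfm : Measurable (fun p : X × (Fin n → X) =>
        f ((0 : Fin (n + 1)).insertNth p.1 p.2)) := hf.comp (measurable_insertNth 0)
    have hfm' : Measurable (fun p : (Fin n → X) × X =>
        f ((0 : Fin (n + 1)).insertNth p.2 p.1)) := hfm.comp measurable_swap
    have hgm : Measurable g := (hfm'.stronglyMeasurable.integral_prod_right').measurable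
    have hgb : ∀ y, |g y| ≤ C := fun y => abs_integral_le _ fun t => hb _
    have hfy : ∀ y, Measurable (fun t => f ((0 : Fin (n + 1)).insertNth t y)) := fun y =>
      hfm.comp (measurable_id.prodMk measurable_const)
    have hC : 0 ≤ C := (abs_nonneg _).trans (hgb (fun j => Classical.choice
      (by
        have : IsProbabilityMeasure (μ 0) := inferInstance
        exact nonempty_of_isProbabilityMeasure (μ 0))))
    have hsmall : ∀ y t, |f ((0 : Fin (n + 1)).insertNth t y) - g y| ≤ c 0 := by
      intro y t
      have h1 : f ((0 : Fin (n + 1)).insertNth t y) - g y =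
          ∫ s, (f ((0 : Fin (n + 1)).insertNth t y) - f ((0 : Fin (n + 1)).insertNth s y))
            ∂(μ 0) := by
        rw [integral_sub (integrable_const _) (integrable_of_bound _ (hfy y) fun _ => hb _)]
        simp [hg]
      rw [h1]
      refine abs_integral_le _ fun s => ?_
      have := hc ((0 : Fin (n + 1)).insertNth s y) 0 t
      rwa [Fin.update_insertNth] at this
    have hint : ∫ z, f z ∂P = ∫ y, g y ∂Q := integral_split μ 0 hf hb
    have hgv : ∫ y, (g y - ∫ z, g z ∂Q) ^ 2 ∂Q ≤ ∑ i : Fin n, c i.succ ^ 2 := by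
      refine ih (fun j => μ ((0 : Fin (n + 1)).succAbove j)) g (fun i => c i.succ) hgm C hgb ?_
      intro y i t
      have h1 : g (Function.update y i t) - g y =
          ∫ s, (f ((0 : Fin (n + 1)).insertNth s (Function.update y i t)) -
            f ((0 : Fin (n + 1)).insertNth s y)) ∂(μ 0) := by
        rw [integral_sub (integrable_of_bound _ (hfy _) fun _ => hb _)
          (integrable_of_bound _ (hfy _) fun _ => hb _)]
      rw [h1]
      refine abs_integral_le _ fun s => ?_
      have := hc ((0 : Fin (n + 1)).insertNth s y) i.succ t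
      have h2 : Function.update ((0 : Fin (n + 1)).insertNth s y : Fin (n + 1) → X) i.succ t =
          (0 : Fin (n + 1)).insertNth s (Function.update y i t) := by
        rw [Fin.insertNth_zero, Fin.insertNth_zero]
        exact (Fin.cons_update (α := fun _ => X) s y i t).symm
      rwa [h2] at this
    set A := ∫ z, g z ∂Q with hA
    have hAC : |A| ≤ C := abs_integral_le _ hgb
    have hsq : ∀ a : ℝ, |a| ≤ C → |(a - A) ^ 2| ≤ (2 * C) ^ 2 := by
      intro a ha
      rw [abs_pow]
      gcongr
      calc |a - A| ≤ |a| + |A| := abs_sub a A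
        _ ≤ 2 * C := by linarith
    rw [hint, integral_split μ 0 (F := fun x => (f x - A) ^ 2) ((hf.sub_const A).pow_const 2)
      (C := (2 * C) ^ 2) (fun x => hsq _ (hb x))]
    have hin : ∀ y, ∫ t, (f ((0 : Fin (n + 1)).insertNth t y) - A) ^ 2 ∂(μ 0) ≤
        c 0 ^ 2 + (g y - A) ^ 2 := by
      intro y
      have h1 : ∀ t, (f ((0 : Fin (n + 1)).insertNth t y) - A) ^ 2 =
          (f ((0 : Fin (n + 1)).insertNth t y) - g y) ^ 2 +
            (2 * (g y - A)) * (f ((0 : Fin (n + 1)).insertNth t y) - g y) + (g y - A) ^ 2 := by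
        intro t; ring
      simp_rw [h1]
      have i1 : Integrable (fun t => (f ((0 : Fin (n + 1)).insertNth t y) - g y) ^ 2) (μ 0) := by
        refine integrable_of_bound _ (((hfy y).sub_const _).pow_const 2) (C := c 0 ^ 2) ?_
        intro t
        rw [abs_pow]
        gcongr
        exact hsmall y t
      have i2 : Integrable (fun t => f ((0 : Fin (n + 1)).insertNth t y) - g y) (μ 0) :=
        integrable_of_bound _ ((hfy y).sub_const _) (hsmall y)
      have i3 : Integrable (fun t => (2 * (g y - A)) *
          (f ((0 : Fin (n + 1)).insertNth t y) - g y)) (μ 0) := i2.const_mul _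
      have i4 : Integrable (fun t => (f ((0 : Fin (n + 1)).insertNth t y) - g y) ^ 2 +
          (2 * (g y - A)) * (f ((0 : Fin (n + 1)).insertNth t y) - g y)) (μ 0) := i1.add i3
      rw [integral_add i4 (integrable_const _), integral_add i1 i3, integral_const_mul]
      have h0 : ∫ t, (f ((0 : Fin (n + 1)).insertNth t y) - g y) ∂(μ 0) = 0 := by
        rw [integral_sub (integrable_of_bound _ (hfy _) fun _ => hb _) (integrable_const _)]
        simp [hg]
      rw [h0]
      have h2 : ∫ t, (f ((0 : Fin (n + 1)).insertNth t y) - g y) ^ 2 ∂(μ 0) ≤ c 0 ^ 2 := by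
        calc _ ≤ ∫ _t, c 0 ^ 2 ∂(μ 0) := by
              refine integral_mono i1 (integrable_const _) fun t => ?_
              have := hsmall y t
              calc _ = |f ((0 : Fin (n + 1)).insertNth t y) - g y| ^ 2 := (sq_abs _).symm
                _ ≤ c 0 ^ 2 := by gcongr
          _ = c 0 ^ 2 := by simp
      simp only [mul_zero, add_zero, integral_const, probReal_univ, smul_eq_mul, one_mul]
      linarith
    have hm1 : Integrable (fun y => ∫ t, (f ((0 : Fin (n + 1)).insertNth t y) - A) ^ 2 ∂(μ 0)) Q := by
      refine integrable_of_bound _ (C := (2 * C) ^ 2) ?_ ?_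
      · have h : Measurable (fun p : (Fin n → X) × X =>
            (f ((0 : Fin (n + 1)).insertNth p.2 p.1) - A) ^ 2) := (hfm'.sub_const A).pow_const 2
        exact (h.stronglyMeasurable.integral_prod_right').measurable
      · intro y
        exact abs_integral_le _ fun t => hsq _ (hb _)
    have hm2 : Integrable (fun y => (g y - A) ^ 2) Q :=
      integrable_of_bound _ ((hgm.sub_const A).pow_const 2) (fun y => hsq _ (hgb y))
    calc _ ≤ ∫ y, (c 0 ^ 2 + (g y - A) ^ 2) ∂Q :=
          integral_mono hm1 ((integrable_const _).add hm2) hin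
      _ = c 0 ^ 2 + ∫ y, (g y - A) ^ 2 ∂Q := by
          rw [integral_add (integrable_const _) hm2]; simp
      _ ≤ c 0 ^ 2 + ∑ i : Fin n, c i.succ ^ 2 := by linarith
      _ = ∑ i, c i ^ 2 := (Fin.sum_univ_succ (fun i => c i ^ 2)).symm

/-- Chebyshev bound for functions with bounded differences -/
theorem tail_le {n : ℕ} (μ : Fin n → Measure X) [∀ i, IsProbabilityMeasure (μ i)]
    (f : (Fin n → X) → ℝ) (c : Fin n → ℝ) (hf : Measurable f) (C : ℝ) (hb : ∀ x, |f x| ≤ C)
    (hc : ∀ x i t, |f (Function.update x i t) - f x| ≤ c i) {ε : ℝ} (hε : 0 < ε) :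
    (Measure.pi μ) {x | ε < |f x - ∫ z, f z ∂(Measure.pi μ)|} ≤
      ENNReal.ofReal ((∑ i, c i ^ 2) / ε ^ 2) := by
  set A := ∫ z, f z ∂(Measure.pi μ) with hA
  have hAC : |A| ≤ C := abs_integral_le _ hb
  have hint : Integrable (fun x => (f x - A) ^ 2) (Measure.pi μ) := by
    refine integrable_of_bound _ ((hf.sub_const A).pow_const 2) (C := (2 * C) ^ 2) fun x => ?_
    rw [abs_pow]
    have h0 : |f x - A| ≤ 2 * C := by
      calc |f x - A| ≤ |f x| + |A| := abs_sub _ _
        _ ≤ 2 * C := by linarith [hb x]
    gcongr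
  have h1 := mul_meas_ge_le_integral_of_nonneg (μ := Measure.pi μ)
    (f := fun x => (f x - A) ^ 2) (Eventually.of_forall fun x => sq_nonneg _) hint (ε ^ 2)
  have h2 := var_le n μ f c hf C hb hc
  have h3 : (Measure.pi μ).real {x | ε < |f x - A|} ≤ (∑ i, c i ^ 2) / ε ^ 2 := by
    rw [le_div_iff₀ (by positivity)]
    calc (Measure.pi μ).real {x | ε < |f x - A|} * ε ^ 2
        ≤ (Measure.pi μ).real {x | ε ^ 2 ≤ (f x - A) ^ 2} * ε ^ 2 := by
          gcongr
          · exact measure_ne_top _ _
          · rename_i x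
            intro hx
            rw [← sq_abs (f x - A)]
            gcongr
      _ = ε ^ 2 * (Measure.pi μ).real {x | ε ^ 2 ≤ (f x - A) ^ 2} := mul_comm _ _
      _ ≤ _ := h1.trans h2
  rw [← ENNReal.ofReal_toReal (measure_ne_top (Measure.pi μ) {x | ε < |f x - A|})]
  exact ENNReal.ofReal_le_ofReal h3

end prod

end Crest.Agent.R146.WrapA_947
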