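import Crest.Agent.R146.LocCore_508

/-!
Row 146, node G7 (LOCUB from LOCCORE, post 960): exact Props of the pieces (helper393).
Nothing is proved here.

* `POT`  : the smooth potential of (d)                       (helper947)
* `QLOWP`: the truncated energy of a mixture row, (b)         (helper559)
* `G7A`  : numerical inequality (a)+(b)                       (helper734)
-/

set_option autoImplicit false

open MeasureTheory ProbabilityTheory Filter Crest.ProbabilityR.Perceptron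
open scoped Topology

namespace Crest.Agent.R146.G7Def_393

open Crest.Agent.R146.LocRec_508 (MidLo MidHi)
open Crest.Agent.R146.P34_734
open Crest.Agent.R146.LocCore_508 (Tcut QLow)

noncomputable section

/-- (POT) a smooth potential `F` between the truncated quadratic penalties, with second differences
in `[-b, 1/4]`, below `d - (b/2) Tcut R ^ 2`.

Construction: `F0 = fq b (-1)` on `x ≥ -1 - R2`; for `x = -1 - R2 - t`, `t ≥ 0`:
`F0 = - b R2^2/2 - b R2 t + t^2/8` for `t ≤ 4 b R2`, constant `- b R2^2/2 - 2 b^2 R2^2` afterwards;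
`F = F0 * rho + b R2 d'` (mollification by a smooth bump of support `[-d', d']`, `2 b R2 d' ≤ d`). -/
def POT : Prop := ∀ b R R2 d : ℝ, 0 < b → 0 ≤ R → R ≤ R2 → 0 < d → ∃ F : ℝ → ℝ,
  Test F ∧ MidLo b F ∧ MidHi (1 / 4) F ∧
  (∀ x, F x ≤ d - b / 2 * Tcut R x ^ 2) ∧
  (∀ x, F x ≤ fqL (b * R2 ^ 2 / 2) b (-1) x + d) ∧
  ∃ L0 : ℝ, ∀ L, L0 ≤ L → ∀ x, fqL L b (-1) x ≤ F x

/-- (QLOWP) the truncated energy of a row of the mixture is almost the Gaussian energy. -/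
def QLOWP : Prop := ∀ δ : ℝ, 0 < δ → ∃ R ε0 : ℝ, 0 ≤ R ∧ 0 < ε0 ∧ ε0 ≤ 1 / 2 ∧
  ∀ ε : ℝ, 0 ≤ ε → ε < ε0 →
    QLow ε R (∫ z, (max (-1 - z) 0) ^ 2 ∂(gaussianReal 0 1) - δ)

/-- (G7A) the energy bound of the high region is below the Gaussian value, for every `b`. -/
def G7A (W : BS) : Prop := ∀ αc : ℝ, 0 < αc → (∀ α, 0 < α → α < αc → W.ZeroE α (-1)) →
  ∀ C : ℝ, 0 < C → ∃ η s ε0 R q : ℝ, 0 < η ∧ η ≤ αc ∧ 0 < s ∧ s < 1 ∧ 0 < ε0 ∧ ε0 ≤ 1 / 2 ∧
    2 * αc * ε0 ≤ s ∧ 0 ≤ R ∧ 0 ≤ q ∧ (∀ ε : ℝ, 0 ≤ ε → ε < ε0 → QLow ε R q) ∧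
    ∀ α : ℝ, αc < α → α < αc + η → ∀ b : ℝ, 0 < b →
      -(b / 2) * (max (√(α * q) - C * √s) 0) ^ 2 + 1 / 2 * Real.log s ≤
        W.Pv α (fq b (-1)) - 1

end

end Crest.Agent.R146.G7Def_393
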