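import Crest.Agent.R146.S6U_988
import Crest.Agent.R146.AsmP_663

/-!
# R146 (helper947): S0206 from the Props of `S6U_988`

* `SP_nonneg`: the entropy of a step profile is nonnegative;
* `le_mP_Icc`: a profile below the step profile on `(0,1)` is below it on `[0,1]`;
* `s0206_of`: LIT, CHG, SMOOTH, VID, VL, VC, ENT, APX, UB, LB imply the literal statement S0206
  (concentration is `AsmP_663`).
-/

set_option autoImplicit false

open MeasureTheory ProbabilityTheory Filter Topology
open Crest.ProbabilityR.Perceptron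
open Crest.Agent.R146.S6Def_988 Crest.Agent.R146.S6U_988

namespace Crest.Agent.R146.Wrap_947

section entropy

variable {J : ℕ} {P : ℕ → ℝ}

lemma DP_self (J : ℕ) (P : ℕ → ℝ) : DP J P J = 1 - P J := by
  unfold DP
  simp

lemma DP_pred {j : ℕ} (hj : 1 ≤ j) (hjJ : j ≤ J) :
    DP J P (j - 1) = DP J P j + ((j : ℝ) / ((J : ℝ) + 1)) * (P j - P (j - 1)) := by
  unfold DP
  have h1 : j - 1 + 1 = j := by omega
  rw [h1, Finset.sum_eq_sum_Ico_succ_bot (by omega)]
  ring

lemma DP_bounds (hP : Lev J P) (hlt : P J < 1) :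
    ∀ j, j ≤ J → 0 < DP J P j ∧ DP J P j ≤ 1 - P j := by
  have key : ∀ d, d ≤ J → 0 < DP J P (J - d) ∧ DP J P (J - d) ≤ 1 - P (J - d) := by
    intro d
    induction d with
    | zero =>
      intro _
      rw [Nat.sub_zero, DP_self]
      exact ⟨by linarith, le_rfl⟩
    | succ d ih =>
      intro hd
      obtain ⟨h1, h2⟩ := ih (by omega)
      have h3 : J - (d + 1) = (J - d) - 1 := by omega
      rw [h3, DP_pred (by omega) (by omega)]
      have hm : P (J - d - 1) ≤ P (J - d) := hP.mono _ _ (by omega) (by omega)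
      have hc : (((J - d : ℕ) : ℝ) / ((J : ℝ) + 1)) ≤ 1 := by
        rw [div_le_one (by positivity)]
        have : ((J - d : ℕ) : ℝ) ≤ J := by exact_mod_cast Nat.sub_le _ _
        linarith
      have hc0 : 0 ≤ (((J - d : ℕ) : ℝ) / ((J : ℝ) + 1)) := by positivity
      have hΔ : 0 ≤ P (J - d) - P (J - d - 1) := by linarith
      constructor
      · have := mul_nonneg hc0 hΔ
        linarith
      · have := mul_le_mul_of_nonneg_right hc hΔ
        linarith
  intro j hj
  have := key (J - j) (by omega)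
  rwa [show J - (J - j) = j by omega] at this

/-- one cell of the entropy -/
lemma cell_le {x D Δ c : ℝ} (hx : 0 < x) (hx1 : x ≤ 1) (hD : 0 < D) (hΔ : 0 ≤ Δ) (hc : D ≤ c) :
    Real.log ((c + Δ) / c) ≤ (1 / x) * Real.log ((D + x * Δ) / D) := by
  have hc0 : 0 < c := hD.trans_le hc
  -- Bernoulli: (1 + Δ/D)^x ≤ 1 + x Δ/D
  have hΔD : 0 ≤ Δ / D := by positivity
  have hB : (1 + Δ / D) ^ x ≤ 1 + x * (Δ / D) :=
    rpow_one_add_le_one_add_mul_self (by linarith) hx.le hx1
  have hp : 0 < 1 + Δ / D := by positivity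
  have h1 : x * Real.log (1 + Δ / D) ≤ Real.log (1 + x * (Δ / D)) := by
    rw [← Real.log_rpow hp]
    exact Real.log_le_log (Real.rpow_pos_of_pos hp _) hB
  have h2 : Real.log ((c + Δ) / c) ≤ Real.log (1 + Δ / D) := by
    apply Real.log_le_log (by positivity)
    have h3 : (c + Δ) / c = 1 + Δ / c := by field_simp
    rw [h3]
    have : Δ / c ≤ Δ / D := div_le_div_of_nonneg_left hΔ hD hc
    linarith
  have h4 : (D + x * Δ) / D = 1 + x * (Δ / D) := by field_simp
  rw [h4]
  calc Real.log ((c + Δ) / c) ≤ Real.log (1 + Δ / D) := h2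
    _ = (1 / x) * (x * Real.log (1 + Δ / D)) := by field_simp
    _ ≤ _ := by gcongr

/-- the entropy of a step profile is nonnegative -/
theorem SP_nonneg (hP : Lev J P) (hlt : P J < 1) : 0 ≤ SP J P := by
  have hb := DP_bounds hP hlt
  have hPle : ∀ j, j ≤ J → P j < 1 := fun j hj => (hP.mono j J hj le_rfl).trans_lt hlt
  have hsum : ∀ d, d ≤ J → Real.log ((1 - P 0) / (1 - P d)) ≤
      ∑ j ∈ Finset.Ico 1 (d + 1), (((J : ℝ) + 1) / j) * Real.log (DP J P (j - 1) / DP J P j) := by
    intro d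
    induction d with
    | zero =>
      intro _
      simp [div_self (show (1 - P 0) ≠ 0 by have := hPle 0 (Nat.zero_le _); linarith)]
    | succ d ih =>
      intro hd
      rw [Finset.sum_Ico_succ_top (by omega)]
      have h0 := ih (by omega)
      have h1 := hPle d (by omega)
      have h2 := hPle (d + 1) hd
      have h3 := hPle 0 (by omega)
      have hcell := cell_le (x := ((d + 1 : ℕ) : ℝ) / ((J : ℝ) + 1)) (D := DP J P (d + 1))
        (Δ := P (d + 1) - P d) (c := 1 - P (d + 1)) (by positivity)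
        (by
          rw [div_le_one (by positivity)]
          have : ((d + 1 : ℕ) : ℝ) ≤ J := by exact_mod_cast hd
          linarith) (hb (d + 1) hd).1
        (by have := hP.mono d (d + 1) (by omega) hd; linarith) (hb (d + 1) hd).2
      have h4 : DP J P (d + 1 - 1) = DP J P (d + 1) +
          ((d + 1 : ℕ) : ℝ) / ((J : ℝ) + 1) * (P (d + 1) - P d) := by
        have := DP_pred (J := J) (P := P) (j := d + 1) (by omega) hd
        simpa using this
      rw [h4]
      have h5 : (1 : ℝ) / (((d + 1 : ℕ) : ℝ) / ((J : ℝ) + 1)) = ((J : ℝ) + 1) / ((d + 1 : ℕ) : ℝ) := by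
        rw [one_div_div]
      rw [h5] at hcell
      have h6 : 1 - P (d + 1) + (P (d + 1) - P d) = 1 - P d := by ring
      rw [h6] at hcell
      have h7 : Real.log ((1 - P 0) / (1 - P (d + 1))) =
          Real.log ((1 - P 0) / (1 - P d)) + Real.log ((1 - P d) / (1 - P (d + 1))) := by
        rw [← Real.log_mul]
        · congr 1
          have : (1 - P d) ≠ 0 := by linarith
          field_simp
        · exact (div_pos (by linarith) (by linarith)).ne'
        · exact (div_pos (by linarith) (by linarith)).ne'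
      rw [h7]
      linarith
  have h := hsum J le_rfl
  have h0 := hPle 0 (Nat.zero_le _)
  have hP0 : 0 ≤ P 0 := hP.nonneg
  have hlog : Real.log ((1 - P 0) / (1 - P J)) = Real.log (1 - P 0) - Real.log (1 - P J) :=
    Real.log_div (by linarith) (by linarith)
  have h1 : P 0 / (1 - P 0) ≤ P 0 / DP J P 0 :=
    div_le_div_of_nonneg_left hP0 (hb 0 (Nat.zero_le _)).1 (hb 0 (Nat.zero_le _)).2
  have h2 : -Real.log (1 - P 0) ≤ P 0 / (1 - P 0) := by
    have hpos : 0 < (1 - P 0)⁻¹ := inv_pos.2 (by linarith)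
    have := Real.log_le_sub_one_of_pos hpos
    rw [Real.log_inv] at this
    have h3 : (1 - P 0)⁻¹ - 1 = P 0 / (1 - P 0) := by
      have : (1 - P 0) ≠ 0 := by linarith
      field_simp
      ring
    linarith
  unfold SP
  rw [DP_self]
  have : 0 ≤ P 0 / DP J P 0 +
      ∑ j ∈ Finset.Ico 1 (J + 1), (((J : ℝ) + 1) / j) * Real.log (DP J P (j - 1) / DP J P j) +
      Real.log (1 - P J) := by linarith
  linarith

end entropy

section icc

variable {J : ℕ} {P : ℕ → ℝ}

lemma mP_toFun_one (hP : Lev J P) : (mP J P).toFun 1 = 1 := by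
  classical
  show ((((Finset.range (J + 1)).filter fun j => P j ≤ 1).card : ℝ) / ((J : ℝ) + 1)) = 1
  have h : (Finset.range (J + 1)).filter (fun j => P j ≤ 1) = Finset.range (J + 1) := by
    refine Finset.filter_true_of_mem fun j hj => ?_
    have hj' := Finset.mem_range.1 hj
    exact (hP.mono j J (by omega) le_rfl).trans hP.le_one
  rw [h, Finset.card_range]
  push_cast
  exact div_self (by positivity)

lemma exists_mP_eq_zero : ∃ t ∈ Set.Ioo (0 : ℝ) 1, (mP J P).toFun t = (mP J P).toFun 0 := by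
  classical
  have h : ∀ j ∈ Finset.range (J + 1), ∀ᶠ t in 𝓝[>] (0 : ℝ), (P j ≤ t ↔ P j ≤ 0) := by
    intro j _
    by_cases hj : P j ≤ 0
    · filter_upwards [self_mem_nhdsWithin] with t ht
      exact ⟨fun _ => hj, fun _ => hj.trans (le_of_lt ht)⟩
    · have hj' : 0 < P j := not_le.1 hj
      have : ∀ᶠ t in 𝓝[>] (0 : ℝ), t < P j :=
        mem_nhdsWithin_of_mem_nhds (Iio_mem_nhds hj')
      filter_upwards [this] with t ht
      exact ⟨fun h => absurd h (not_le.2 ht), fun h => absurd h hj⟩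
  have h2 : ∀ᶠ t in 𝓝[>] (0 : ℝ), ∀ j ∈ Finset.range (J + 1), (P j ≤ t ↔ P j ≤ 0) :=
    (Filter.eventually_all_finset _).2 h
  have h3 : ∀ᶠ t in 𝓝[>] (0 : ℝ), t ∈ Set.Ioo (0 : ℝ) 1 :=
    Ioo_mem_nhdsGT one_pos
  obtain ⟨t, ht1, ht2⟩ := (h2.and h3).exists
  refine ⟨t, ht2, ?_⟩
  show ((((Finset.range (J + 1)).filter fun j => P j ≤ t).card : ℝ) / ((J : ℝ) + 1)) =
    ((((Finset.range (J + 1)).filter fun j => P j ≤ 0).card : ℝ) / ((J : ℝ) + 1))
  rw [Finset.filter_congr ht1]

/-- below on `(0,1)` implies below on `[0,1]` -/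
lemma le_mP_Icc (hP : Lev J P) (m : OverlapProfile)
    (h : ∀ t ∈ Set.Ioo (0 : ℝ) 1, m.toFun t ≤ (mP J P).toFun t) :
    ∀ t ∈ Set.Icc (0 : ℝ) 1, m.toFun t ≤ (mP J P).toFun t := by
  intro t ht
  rcases eq_or_lt_of_le ht.1 with h0 | h0
  · obtain ⟨s, hs, hs2⟩ := exists_mP_eq_zero (J := J) (P := P)
    rw [← h0, ← hs2]
    exact (m.mono hs.1.le).trans (h s hs)
  · rcases eq_or_lt_of_le ht.2 with h1 | h1
    · rw [h1, mP_toFun_one hP]
      exact m.le_one 1 (by simp)
    · exact h t ⟨h0, h1⟩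

end icc

section main

lemma numPatterns_le {N : ℕ} {α : ℝ} (hα : 0 < α) : (numPatterns N α : ℝ) ≤ α * N := by
  unfold numPatterns
  exact Nat.floor_le (by positivity)

lemma lt_numPatterns {N : ℕ} {α : ℝ} : α * N < (numPatterns N α : ℝ) + 1 := by
  unfold numPatterns
  exact Nat.lt_floor_add_one _

/-- **S0206 from the nodes** (upper and lower bound for step profiles, control values,
approximation of profiles, smoothing). -/
theorem s0206_of (hLIT : LIT) (hCHG : CHG) (hSM : SMOOTH) (hVID : VID) (hVL : VL) (hVC : VC)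
    (hENT : ENT) (hAPX : APX) (hUB : UB) (hLB : LB)
    (Ω : Type) [MeasurableSpace Ω] (P : Measure Ω) [IsProbabilityMeasure P]
    (B : NNReal → Ω → ℝ) (hBm : ∀ t, Measurable (B t)) (hB : IsBrownianReal B P)
    (α β : ℝ) (hα : 0 < α) (_hβ : 0 < β)
    (φ : ℝ → ℝ) (hφc : Continuous φ) (hφb : ∃ K : ℝ, ∀ x, abs (φ x) ≤ K) :
    ∃ p : ℝ,
      ⨅ m : OverlapProfile, variationalFunctional P B hBm α β φ m = (p : EReal) ∧
      Filter.Tendsto (fun N : ℕ => expectedPressure N α β φ) Filter.atTop (nhds p) ∧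
      ∀ ε : ℝ, 0 < ε →
        Filter.Tendsto (fun N : ℕ => pressureTailProb N α β φ p ε) Filter.atTop (nhds 0) := by
  have hlit : ∀ N : ℕ, expectedPressure N α β φ =
      pN N (fun _ x => β * φ x) (numPatterns N α) := fun N => hLIT N α β φ hφc hφb
  obtain ⟨K0, hK0⟩ := hφb
  set f : ℝ → ℝ := fun x => β * φ x with hf
  have hfc : Continuous f := continuous_const.mul hφc
  set K : ℝ := |β| * K0 with hKdef
  have hfK : ∀ x, |f x| ≤ K := fun x => by
    rw [hf, hKdef]
    show |β * φ x| ≤ |β| * K0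
    rw [abs_mul]
    exact mul_le_mul_of_nonneg_left (hK0 x) (abs_nonneg _)
  have hK : 0 ≤ K := (abs_nonneg _).trans (hfK 0)
  -- smooth approximation
  have happrox : ∀ ε : ℝ, 0 < ε → ∃ f' : ℝ → ℝ, (∀ n : ℕ, ContDiff ℝ n f') ∧ (∀ x, |f' x| ≤ K) ∧
      (∀ k : ℕ, ∃ C, ∀ x, |iteratedDeriv k f' x| ≤ C) ∧
      (∀ (N M : ℕ), 0 < N → |pN N (fun _ => f) M - pN N (fun _ => f') M| ≤ ε * M / N) ∧
      (∀ m : OverlapProfile, |controlValue P B hBm f m - controlValue P B hBm f' m| ≤ ε) := by
    intro ε hε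
    obtain ⟨R1, δ1, hR1, hδ1, h1⟩ := hCHG K ε hε
    obtain ⟨R2, δ2, hR2, hδ2, h2⟩ := hVC K ε hε
    obtain ⟨f', hs, hb, hclose, hder⟩ := hSM f K hfc hfK (max R1 R2) (min δ1 δ2) (lt_min hδ1 hδ2)
    have hf'c : Continuous f' := (hs 0).continuous
    refine ⟨f', hs, hb, hder, ?_, ?_⟩
    · intro N M hN
      exact h1 N (fun _ => f) (fun _ => f') M hN (fun _ => hfc.measurable)
        (fun _ => hf'c.measurable) (fun _ => hfK) (fun _ => hb)
        (fun _ x hx => (hclose x (hx.trans (le_max_left _ _))).trans (min_le_left _ _))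
    · intro m
      exact h2 Ω P B hBm hB f f' hfc hf'c hfK hb
        (fun x hx => (hclose x (hx.trans (le_max_right _ _))).trans (min_le_right _ _)) m
  -- control value bounds
  have hVK : ∀ {f' : ℝ → ℝ}, (∀ x, |f' x| ≤ K) → ∀ m : OverlapProfile,
      |controlValue P B hBm f' m| ≤ K := fun hb m =>
    abs_le.2 ⟨AsmP_663.neg_le_controlValue B hBm hb m, AsmP_663.controlValue_le B hBm hb m⟩
  -- VID for smooth functions
  have hvid : ∀ {f' : ℝ → ℝ}, (∀ n : ℕ, ContDiff ℝ n f') →
      (∀ k : ℕ, ∃ C, ∀ x, |iteratedDeriv k f' x| ≤ C) → ∀ (J : ℕ) (Pl : ℕ → ℝ), Lev J Pl →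
      controlValue P B hBm f' (mP J Pl) = Th J f' Pl := by
    intro f' hs hder J Pl hPl
    refine hVID Ω P B hBm hB f' (by exact_mod_cast hs 2) ?_ J Pl hPl
    obtain ⟨C0, h0⟩ := hder 0
    obtain ⟨C1, h1⟩ := hder 1
    obtain ⟨C2, h2⟩ := hder 2
    refine ⟨max C0 (max C1 C2), fun x => ⟨?_, ?_, ?_⟩⟩
    · have := h0 x
      rw [iteratedDeriv_zero] at this
      exact this.trans (le_max_left _ _)
    · have := h1 x
      rw [iteratedDeriv_one] at this
      exact this.trans ((le_max_left _ _).trans (le_max_right _ _))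
    · have := h2 x
      rw [show (2 : ℕ) = 1 + 1 from rfl, iteratedDeriv_succ, iteratedDeriv_one] at this
      exact this.trans ((le_max_right _ _).trans (le_max_right _ _))
  have hentR : ∀ (J : ℕ) (Pl : ℕ → ℝ), Lev J Pl → Pl J < 1 →
      (mP J Pl).entropy ≠ ⊤ ∧ (mP J Pl).entropy.toReal = SP J Pl := by
    intro J Pl hPl hlt
    rw [hENT J Pl hPl hlt]
    exact ⟨ENNReal.ofReal_ne_top, ENNReal.toReal_ofReal (SP_nonneg hPl hlt)⟩
  refine AsmP_663.S0206_of_bounds B hBm α β hα φ hφc ⟨K0, hK0⟩ ?_ ?_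
  · -- upper bound
    intro m hm ε hε
    obtain ⟨f', hs, hb, hder, hpf, hvf⟩ := happrox (ε / (8 * (α + 1))) (by positivity)
    obtain ⟨L0, hL0⟩ := hder 1
    set L : ℝ := max L0 0 with hLdef
    have hBL : BL K L f' := by
      refine ⟨hb, fun x y => ?_⟩
      have hd : Differentiable ℝ f' := (hs 1).differentiable (by norm_num)
      have := Convex.norm_image_sub_le_of_norm_deriv_le (f := f') (C := L) (s := Set.univ)
        (x := y) (y := x) (fun z _ => hd z) (fun z _ => by
          have := hL0 z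
          rw [iteratedDeriv_one] at this
          rw [Real.norm_eq_abs]
          exact this.trans (le_max_left _ _)) convex_univ (Set.mem_univ _) (Set.mem_univ _)
      simpa [Real.norm_eq_abs] using this
    obtain ⟨J0, hJ0⟩ := hUB K L α (ε / 8) (by positivity)
    obtain ⟨J1, hJ1⟩ := hAPX m hm (ε / (8 * (α * L ^ 2 + 1))) (by positivity)
    set J := max J0 J1 with hJ
    obtain ⟨Pl, hPl, hlt, hent, hle, hint⟩ := hJ1 J (le_max_right _ _)
    obtain ⟨N0, hN0⟩ := hJ0 J (le_max_left _ _) Pl hPl hlt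
    have hev : ∀ᶠ N : ℕ in atTop, K / (N : ℝ) ≤ ε / 8 := by
      have : Tendsto (fun N : ℕ => K / (N : ℝ)) atTop (𝓝 0) :=
        tendsto_const_div_atTop_nhds_zero_nat K
      exact this.eventually (ge_mem_nhds (by positivity))
    filter_upwards [hev, eventually_ge_atTop N0, eventually_gt_atTop 0] with N hKN hN hNpos
    have hNR : (0 : ℝ) < N := by exact_mod_cast hNpos
    have hub := hN0 N hN (numPatterns N α) (numPatterns_le hα) (fun _ => f') (fun _ => hBL)
    rw [Finset.sum_const, Finset.card_range, nsmul_eq_mul, ← hvid hs hder J Pl hPl] at hub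
    set V' := controlValue P B hBm f' (mP J Pl) with hV'
    have hV'K : |V'| ≤ K := hVK hb _
    set M := numPatterns N α with hM
    have hM1 : (M : ℝ) ≤ α * N := numPatterns_le hα
    have hM2 : α * N < (M : ℝ) + 1 := lt_numPatterns
    -- (M/N) V' ≤ α V' + K/N
    have h1 : (N : ℝ)⁻¹ * (M * V') ≤ α * V' + K / N := by
      have h2 : (N : ℝ)⁻¹ * (M * V') = α * V' + (N : ℝ)⁻¹ * ((M - α * N) * V') := by
        field_simp
        ring
      rw [h2]
      have h3 : ((M : ℝ) - α * N) * V' ≤ K := by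
        calc ((M : ℝ) - α * N) * V' ≤ |((M : ℝ) - α * N) * V'| := le_abs_self _
          _ = |(M : ℝ) - α * N| * |V'| := abs_mul _ _
          _ ≤ 1 * K := by
            gcongr
            rw [abs_le]; constructor <;> linarith
          _ = K := one_mul _
      have h4 : (N : ℝ)⁻¹ * ((M - α * N) * V') ≤ (N : ℝ)⁻¹ * K := by gcongr
      rw [div_eq_inv_mul]
      linarith
    -- pressure of f versus f'
    have h5 : pN N (fun _ => f) M ≤ pN N (fun _ => f') M + ε / 8 := by
      have h6 := (abs_le.1 (hpf N M hNpos)).2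
      have h7 : ε / (8 * (α + 1)) * M / N ≤ ε / 8 := by
        rw [div_le_iff₀ hNR]
        calc ε / (8 * (α + 1)) * M ≤ ε / (8 * (α + 1)) * (α * N) := by gcongr
          _ = (ε / 8) * (α / (α + 1)) * N := by field_simp
          _ ≤ (ε / 8) * 1 * N := by
            gcongr
            rw [div_le_one (by positivity)]; linarith
          _ = ε / 8 * N := by ring
      linarith
    -- control values
    have h8 : V' ≤ controlValue P B hBm f m + ε / (8 * (α + 1)) + L ^ 2 * (ε / (8 * (α * L ^ 2 + 1))) := by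
      have h9 := (hVL Ω P B hBm hB f' K L hBL m (mP J Pl) (le_mP_Icc hPl m hle)).2
      have h10 : L ^ 2 * ∫ t in (0:ℝ)..1, ((mP J Pl).toFun t - m.toFun t) ≤
          L ^ 2 * (ε / (8 * (α * L ^ 2 + 1))) := by gcongr
      have h11 := (abs_le.1 (hvf m)).1
      linarith
    have h12 : α * V' ≤ α * controlValue P B hBm f m + ε / 8 + ε / 8 := by
      have h13 : α * (ε / (8 * (α + 1))) ≤ ε / 8 := by
        calc α * (ε / (8 * (α + 1))) = (ε / 8) * (α / (α + 1)) := by field_simp
          _ ≤ (ε / 8) * 1 := by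
            gcongr
            rw [div_le_one (by positivity)]; linarith
          _ = ε / 8 := mul_one _
      have h14 : α * (L ^ 2 * (ε / (8 * (α * L ^ 2 + 1)))) ≤ ε / 8 := by
        calc α * (L ^ 2 * (ε / (8 * (α * L ^ 2 + 1)))) =
            (ε / 8) * ((α * L ^ 2) / (α * L ^ 2 + 1)) := by
              have : (α * L ^ 2 + 1) ≠ 0 := by positivity
              field_simp
          _ ≤ (ε / 8) * 1 := by
            gcongr
            rw [div_le_one (by positivity)]; linarith
          _ = ε / 8 := mul_one _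
      have h15 := mul_le_mul_of_nonneg_left h8 hα.le
      have h16 : α * (controlValue P B hBm f m + ε / (8 * (α + 1)) +
          L ^ 2 * (ε / (8 * (α * L ^ 2 + 1)))) = α * controlValue P B hBm f m +
          α * (ε / (8 * (α + 1))) + α * (L ^ 2 * (ε / (8 * (α * L ^ 2 + 1)))) := by ring
      linarith
    -- entropies
    have h17 : SP J Pl ≤ m.entropy.toReal + ε / 8 := by
      have hE := hentR J Pl hPl hlt
      have h18 : (mP J Pl).entropy.toReal ≤
          (m.entropy + ENNReal.ofReal (ε / (8 * (α * L ^ 2 + 1)))).toReal :=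
        ENNReal.toReal_mono (ENNReal.add_ne_top.2 ⟨hm, ENNReal.ofReal_ne_top⟩) hent
      rw [hE.2, ENNReal.toReal_add hm ENNReal.ofReal_ne_top,
        ENNReal.toReal_ofReal (by positivity)] at h18
      have h19 : ε / (8 * (α * L ^ 2 + 1)) ≤ ε / 8 := by
        apply div_le_div_of_nonneg_left hε.le (by norm_num)
        have : 0 ≤ α * L ^ 2 := by positivity
        linarith
      linarith
    rw [hlit N]
    linarith
  · -- lower bound
    intro ε hε
    obtain ⟨f', hs, hb, hder, hpf, hvf⟩ := happrox (ε / (4 * (α + 1))) (by positivity)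
    obtain ⟨N0, hN0⟩ := hLB f' hs hder α (ε / 4) hα (by positivity)
    filter_upwards [eventually_ge_atTop N0, eventually_gt_atTop 0] with N hN hNpos
    have hNR : (0 : ℝ) < N := by exact_mod_cast hNpos
    obtain ⟨J, Pl, hPl, hlt, hlb⟩ := hN0 N hN
    have hE := hentR J Pl hPl hlt
    refine ⟨mP J Pl, hE.1, ?_⟩
    rw [hE.2, hlit N]
    rw [← hvid hs hder J Pl hPl] at hlb
    set M := numPatterns N α with hM
    have hM1 : (M : ℝ) ≤ α * N := numPatterns_le hα
    have h5 : pN N (fun _ => f') M ≤ pN N (fun _ => f) M + ε / 4 := by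
      have h6 := (abs_le.1 (hpf N M hNpos)).1
      have h7 : ε / (4 * (α + 1)) * M / N ≤ ε / 4 := by
        rw [div_le_iff₀ hNR]
        calc ε / (4 * (α + 1)) * M ≤ ε / (4 * (α + 1)) * (α * N) := by gcongr
          _ = (ε / 4) * (α / (α + 1)) * N := by field_simp
          _ ≤ (ε / 4) * 1 * N := by
            gcongr
            rw [div_le_one (by positivity)]; linarith
          _ = ε / 4 * N := by ring
      linarith
    have h8 : α * controlValue P B hBm f (mP J Pl) ≤
        α * controlValue P B hBm f' (mP J Pl) + ε / 4 := by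
      have h9 := (abs_le.1 (hvf (mP J Pl))).2
      have h13 : α * (ε / (4 * (α + 1))) ≤ ε / 4 := by
        calc α * (ε / (4 * (α + 1))) = (ε / 4) * (α / (α + 1)) := by field_simp
          _ ≤ (ε / 4) * 1 := by
            gcongr
            rw [div_le_one (by positivity)]; linarith
          _ = ε / 4 := mul_one _
      have h15 := mul_le_mul_of_nonneg_left
        (show controlValue P B hBm f (mP J Pl) ≤
          controlValue P B hBm f' (mP J Pl) + ε / (4 * (α + 1)) by linarith) hα.le
      rw [mul_add] at h15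
      linarith
    linarith

end main

end Crest.Agent.R146.Wrap_947
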