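import Crest.Agent.R146.G7Def_393
import Crest.Agent.R146.Asm0204_734
import Crest.Agent.R146.S6U_988
import Crest.Agent.R146.Wrap_947
import Crest.Agent.R146.VTr_468

/-!
Row 146, node G7 (helper393): `P34_734.LOCUB` from `LocCore_508.LOCCORE`, `G7A`, `POT` and the
literal nodes `VID`, `VL`, `APX`, `ENT` of S0206.
-/

set_option autoImplicit false

open MeasureTheory ProbabilityTheory Filter Crest.ProbabilityR.Perceptron
open scoped Topology ENNReal

namespace Crest.Agent.R146.G7b_393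

open Crest.Agent.R146.LocRec_508 (MidLo MidHi)
open Crest.Agent.R146.P34_734
open Crest.Agent.R146.LocCore_508 (Tcut QLow LOCCORE)
open Crest.Agent.R146.G7Def_393
open Crest.Agent.R146.S6Def_988 (Lev Th SP mP BL)
open Crest.Agent.R146.S6U_988 (VID VL APX ENT)
open Crest.Agent.R146.VTr_468

/-! ### Test functions -/

lemma test_cont {ψ : ℝ → ℝ} (h : Test ψ) : Continuous ψ := (h.smooth 0).continuous

lemma test_bdd {ψ : ℝ → ℝ} (h : Test ψ) : ∃ K : ℝ, 0 ≤ K ∧ ∀ x, |ψ x| ≤ K := by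
  obtain ⟨K, hK⟩ := h.bd 0
  exact ⟨K, (abs_nonneg _).trans (hK 0), fun x => by simpa using hK x⟩

lemma test_diff {ψ : ℝ → ℝ} (h : Test ψ) : Differentiable ℝ ψ :=
  (h.smooth 1).differentiable (by norm_num)

lemma test_lip {ψ : ℝ → ℝ} (h : Test ψ) : ∃ C : ℝ, 0 ≤ C ∧ ∀ x y, |ψ x - ψ y| ≤ C * |x - y| := by
  obtain ⟨C, hC⟩ := h.bd 1
  refine ⟨C, (abs_nonneg _).trans (hC 0), fun x y => ?_⟩
  have := Convex.norm_image_sub_le_of_norm_hasDerivWithin_le (f := ψ) (f' := deriv ψ) (C := C)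
    (s := Set.univ) (fun x _ => (test_diff h x).hasDerivAt.hasDerivWithinAt) (fun x _ => by
      have := hC x; rw [iteratedDeriv_one] at this; simpa using this) convex_univ
      (Set.mem_univ y) (Set.mem_univ x)
  simpa [Real.norm_eq_abs] using this

lemma test_deriv {ψ : ℝ → ℝ} (h : Test ψ) : Test (deriv ψ) := by
  refine ⟨fun n => ?_, fun n => ?_⟩
  · have := h.smooth (n + 1)
    exact ((contDiff_succ_iff_deriv (n := n)).1 (by exact_mod_cast this)).2.2
  · obtain ⟨C, hC⟩ := h.bd (n + 1)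
    refine ⟨C, fun x => ?_⟩
    have := hC x
    rwa [iteratedDeriv_succ'] at this

lemma test_smul {ψ : ℝ → ℝ} (h : Test ψ) (c : ℝ) : Test fun x => c * ψ x := by
  refine ⟨fun n => contDiff_const.mul (h.smooth n), fun n => ?_⟩
  obtain ⟨C, hC⟩ := h.bd n
  refine ⟨|c| * C, fun x => ?_⟩
  have : iteratedDeriv n (fun x => c * ψ x) x = c * iteratedDeriv n ψ x := by simp
  rw [this, abs_mul]
  exact mul_le_mul_of_nonneg_left (hC x) (abs_nonneg c)

lemma test_add {ψ φ : ℝ → ℝ} (h : Test ψ) (h' : Test φ) : Test fun x => ψ x + φ x := by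
  refine ⟨fun n => (h.smooth n).add (h'.smooth n), fun n => ?_⟩
  obtain ⟨C, hC⟩ := h.bd n
  obtain ⟨C', hC'⟩ := h'.bd n
  refine ⟨C + C', fun x => ?_⟩
  have : iteratedDeriv n (fun x => ψ x + φ x) x = iteratedDeriv n ψ x + iteratedDeriv n φ x := by
    exact iteratedDeriv_fun_add ((h.smooth n).contDiffAt) ((h'.smooth n).contDiffAt)
  rw [this]
  exact (abs_add_le _ _).trans (add_le_add (hC x) (hC' x))

/-- second differences of a test function -/
lemma test_second {ψ : ℝ → ℝ} (h : Test ψ) : ∃ T : ℝ, 0 ≤ T ∧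
    ∀ y t, |ψ (y + t) + ψ (y - t) - 2 * ψ y| ≤ T * t ^ 2 := by
  obtain ⟨C, hC0, hC⟩ := test_lip (test_deriv h)
  refine ⟨2 * C, by positivity, fun y t => ?_⟩
  have hd : ∀ s : ℝ, HasDerivAt (fun s => ψ (y + s) + ψ (y - s))
      (deriv ψ (y + s) - deriv ψ (y - s)) s := by
    intro s
    have h1 : HasDerivAt (fun s => ψ (y + s)) (deriv ψ (y + s)) s :=
      (test_diff h (y + s)).hasDerivAt.comp_const_add y s
    have h2 : HasDerivAt (fun s => ψ (y - s)) (-deriv ψ (y - s)) s :=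
      (test_diff h (y - s)).hasDerivAt.comp_const_sub y s
    exact (h1.add h2)
  have hb : ∀ s ∈ Set.uIcc 0 t, |deriv ψ (y + s) - deriv ψ (y - s)| ≤ 2 * C * |t| := by
    intro s hs
    have h1 := hC (y + s) (y - s)
    have h2 : |y + s - (y - s)| = 2 * |s| := by
      rw [show y + s - (y - s) = 2 * s by ring, abs_mul, abs_two]
    have h3 : |s| ≤ |t| := by
      rcases le_total 0 t with h0 | h0
      · rw [Set.uIcc_of_le h0] at hs
        rw [abs_of_nonneg hs.1, abs_of_nonneg h0]; exact hs.2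
      · rw [Set.uIcc_of_ge h0] at hs
        rw [abs_of_nonpos hs.2, abs_of_nonpos h0]; linarith [hs.1]
    rw [h2] at h1
    nlinarith
  have := Convex.norm_image_sub_le_of_norm_hasDerivWithin_le
    (f := fun s => ψ (y + s) + ψ (y - s)) (f' := fun s => deriv ψ (y + s) - deriv ψ (y - s))
    (C := 2 * C * |t|) (s := Set.uIcc 0 t) (fun s _ => (hd s).hasDerivWithinAt)
    (fun s hs => by rw [Real.norm_eq_abs]; exact hb s hs) (convex_uIcc 0 t)
    Set.left_mem_uIcc Set.right_mem_uIcc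
  rw [Real.norm_eq_abs, Real.norm_eq_abs, sub_zero, add_zero, sub_zero] at this
  have e : ψ (y + t) + ψ (y - t) - (ψ y + ψ y) = ψ (y + t) + ψ (y - t) - 2 * ψ y := by ring
  rw [e] at this
  refine this.trans (le_of_eq ?_)
  rw [mul_assoc, abs_mul_abs_self]; ring

/-! ### The literal control value -/

variable {W : BS}

/-- the control value of `f + d` -/
theorem value_add_const_le {f : ℝ → ℝ} (hf : QG f) {K : ℝ} (hK : ∀ x, f x ≤ K) (d : ℝ)
    (m : OverlapProfile) : W.V (fun x => f x + d) m ≤ W.V f m + d := by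
  unfold BS.V controlValue
  refine csSup_le ⟨_, _, Mono_930.isAdmissible_zero W.P W.B W.meas m, rfl⟩ ?_
  rintro x ⟨v, hv, rfl⟩
  have i1 := hf.integrable (memLp_end (memLp_B1 W) hv)
  have e : controlPayoff W.P W.B (fun x => f x + d) m v = controlPayoff W.P W.B f m v + d := by
    rw [payoff_eq, payoff_eq, integral_add i1 (integrable_const _)]
    simp
    ring
  rw [e]
  have := le_csSup (Mono_930.bddAbove_payoffs W.P W.B W.meas hK m) ⟨v, hv, rfl⟩
  linarith

/-- `VID` for test functions -/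
theorem vid_test (hVID : VID) {F : ℝ → ℝ} (hF : Test F) (J : ℕ) {P : ℕ → ℝ} (hP : Lev J P) :
    W.V F (mP J P) = Th J F P := by
  refine hVID W.Ω W.P W.B W.meas W.br F (by exact_mod_cast hF.smooth 2) ?_ J P hP
  obtain ⟨C0, -, h0⟩ := test_bdd hF
  obtain ⟨C1, -, h1⟩ := test_bdd (test_deriv hF)
  obtain ⟨C2, -, h2⟩ := test_bdd (test_deriv (test_deriv hF))
  exact ⟨max C0 (max C1 C2), fun x => ⟨(h0 x).trans (le_max_left _ _),
    (h1 x).trans ((le_max_left _ _).trans (le_max_right _ _)),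
    (h2 x).trans ((le_max_right _ _).trans (le_max_right _ _))⟩⟩

/-- step profiles of every high resolution for a test function: the value is almost attained. -/
theorem step_approx (hVID : VID) (hVL : VL) (hAPX : APX) (hENT : ENT) {F : ℝ → ℝ} (hF : Test F)
    {α : ℝ} (hα : 0 < α) (m : OverlapProfile) (hm : m.entropy ≠ ⊤) {δ : ℝ} (hδ : 0 < δ) :
    ∃ J0 : ℕ, ∀ J, J0 ≤ J → ∃ P : ℕ → ℝ, Lev J P ∧ P J < 1 ∧
      α * Th J F P + SP J P ≤ α * W.V F m + m.entropy.toReal + δ := by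
  obtain ⟨K, hK0, hK⟩ := test_bdd hF
  obtain ⟨L, hL0, hL⟩ := test_lip hF
  have hden : 0 < α * L ^ 2 + 1 := by positivity
  obtain ⟨J0, hJ0⟩ := hAPX m hm (δ / (α * L ^ 2 + 1)) (by positivity)
  refine ⟨J0, fun J hJ => ?_⟩
  obtain ⟨P, hP, hP1, hent, hle, hint⟩ := hJ0 J hJ
  refine ⟨P, hP, hP1, ?_⟩
  have hval := (hVL W.Ω W.P W.B W.meas W.br F K L ⟨hK, hL⟩ m (mP J P)
    (Wrap_947.le_mP_Icc hP m hle)).2
  have hval' : W.V F (mP J P) ≤ W.V F m + L ^ 2 * (δ / (α * L ^ 2 + 1)) := by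
    refine hval.trans ?_
    have := mul_le_mul_of_nonneg_left hint (sq_nonneg L)
    exact add_le_add le_rfl this
  rw [vid_test hVID hF J hP] at hval'
  have hS : SP J P ≤ m.entropy.toReal + δ / (α * L ^ 2 + 1) := by
    rw [hENT J P hP hP1] at hent
    have h1 : ENNReal.ofReal (SP J P) ≤
        ENNReal.ofReal (m.entropy.toReal + δ / (α * L ^ 2 + 1)) := by
      rw [ENNReal.ofReal_add ENNReal.toReal_nonneg (by positivity), ENNReal.ofReal_toReal hm]
      exact hent
    exact (ENNReal.ofReal_le_ofReal_iff (by positivity)).1 h1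
  have h3 := mul_le_mul_of_nonneg_left hval' hα.le
  have h4 : α * (L ^ 2 * (δ / (α * L ^ 2 + 1))) + δ / (α * L ^ 2 + 1) = δ := by
    field_simp
  linarith

/-- **(e)** the value of the smooth potential. -/
theorem value (hVID : VID) (hVL : VL) (hAPX : APX) (hENT : ENT) {α b : ℝ} (hα : 0 < α)
    (hb : 0 < b) {θ : ℝ → ℝ} (hθ : Test θ) {T c : ℝ} (hT : ∀ x, |θ x| ≤ T) (hc : 0 ≤ c)
    (hθl : ∀ x y, |θ x - θ y| ≤ c * |x - y|) {L d : ℝ} (hL : 0 ≤ L) {F : ℝ → ℝ} (hF : Test F)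
    (hFle : ∀ x, F x ≤ fqL L b (-1) x + d) {δ : ℝ} (hδ : 0 < δ) :
    ∃ J0 : ℕ, ∀ J, J0 ≤ J → ∃ P : ℕ → ℝ, Lev J P ∧ P J < 1 ∧
      α * Th J (fun x => F x + θ x) P + SP J P ≤ W.Pv α (fun x => fq b (-1) x + θ x) +
        α * (∫ z, (fqL L b (-1) (z - c) - fq b (-1) (z - c)) ∂(gaussianReal 0 1)) + α * d + δ := by
  -- a near minimiser
  have hne : (W.vals α (fun x => fq b (-1) x + θ x)).Nonempty :=
    Asm0204_734.vals_nonempty W α _
  obtain ⟨x, ⟨m, hm, rfl⟩, hx⟩ := exists_lt_of_csInf_lt hne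
    (lt_add_of_pos_right (sInf (W.vals α fun x => fq b (-1) x + θ x)) (half_pos hδ))
  obtain ⟨J0, hJ0⟩ := step_approx (W := W) hVID hVL hAPX hENT (test_add hF hθ) hα m hm
    (half_pos hδ)
  refine ⟨J0, fun J hJ => ?_⟩
  obtain ⟨P, hP, hP1, hval⟩ := hJ0 J hJ
  refine ⟨P, hP, hP1, hval.trans ?_⟩
  have hθm : Measurable θ := (test_cont hθ).measurable
  have q1 : QG (fun x => F x + θ x) := by
    obtain ⟨K, hK0, hK⟩ := test_bdd hF
    refine ⟨(test_cont hF).measurable.add hθm, K + T, fun x => ?_⟩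
    have h1 : |F x + θ x| ≤ K + T := (abs_add_le _ _).trans (add_le_add (hK x) (hT x))
    have h2 : 0 ≤ K + T := (abs_nonneg _).trans h1
    nlinarith [sq_nonneg x]
  have q2 : QG (fun x => fqL L b (-1) x + θ x) := (qg_fqL L hb).add_bdd hθm hT
  have q3 : QG (fun x => (fqL L b (-1) x + θ x) + d) := by
    exact q2.add_bdd measurable_const (K := |d|) fun x => le_rfl
  have hup : ∀ x, fqL L b (-1) x + θ x ≤ T := fun x => by
    have h1 : fqL L b (-1) x ≤ 0 := max_le (fq_nonpos hb x) (by linarith)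
    have h2 := (abs_le.1 (hT x)).2
    linarith
  have v1 : W.V (fun x => F x + θ x) m ≤ W.V (fun x => (fqL L b (-1) x + θ x) + d) m := by
    unfold BS.V
    refine controlValue_mono (memLp_B1 W) q1 q3 (fun x => ?_) (K := T + d) (fun x => ?_) m
    · have := hFle x
      linarith
    · have := hup x
      linarith
  have v2 := value_add_const_le (W := W) q2 hup d m
  have v3 := vtr W b (-1) L c hb hL hc θ ⟨T, hT⟩ hθl m
  have v4 := mul_le_mul_of_nonneg_left (v1.trans (v2.trans (add_le_add v3 le_rfl))) hα.le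
  have hx' : α * W.V (fun x => fq b (-1) x + θ x) m + m.entropy.toReal <
      W.Pv α (fun x => fq b (-1) x + θ x) + δ / 2 := hx
  rw [mul_add, mul_add] at v4
  linarith

/-- perturbation of the value by a bounded function -/
theorem Pv_pert {α b : ℝ} (hα : 0 < α) (hb : 0 < b) {θ : ℝ → ℝ} (hθ : Test θ) {T : ℝ}
    (hT : ∀ x, |θ x| ≤ T) :
    W.Pv α (fq b (-1)) ≤ W.Pv α (fun x => fq b (-1) x + θ x) + α * T := by
  have hθm : Measurable θ := (test_cont hθ).measurable
  have h1 : W.Pv α (fq b (-1)) - α * T ≤ W.Pv α (fun x => fq b (-1) x + θ x) := by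
    refine le_csInf (Asm0204_734.vals_nonempty W α _) ?_
    rintro x ⟨m, hm, rfl⟩
    have h2 : W.Pv α (fq b (-1)) ≤ α * W.V (fq b (-1)) m + m.entropy.toReal :=
      csInf_le (Asm0204_734.bddBelow_vals W (vzero W) hα.le hb) ⟨m, hm, rfl⟩
    have q2 : QG (fun x => fq b (-1) x + θ x) := (qg_fq hb).add_bdd hθm hT
    have hup : ∀ x, fq b (-1) x + θ x ≤ T := fun x => by
      have h1 := fq_nonpos (k := -1) hb x
      have h2 := (abs_le.1 (hT x)).2
      linarith
    have v1 : W.V (fq b (-1)) m ≤ W.V (fun x => (fq b (-1) x + θ x) + T) m := by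
      unfold BS.V
      refine controlValue_mono (memLp_B1 W) (qg_fq hb)
        (q2.add_bdd measurable_const (K := |T|) fun x => le_rfl) (fun x => ?_) (K := T + T)
        (fun x => ?_) m
      · have := (abs_le.1 (hT x)).1
        linarith
      · have := hup x
        linarith
    have v2 := value_add_const_le (W := W) q2 hup T m
    have v3 := mul_le_mul_of_nonneg_left (v1.trans v2) hα.le
    rw [mul_add] at v3
    linarith
  linarith

/-! ### Second differences -/

lemma midLo_add {κ T : ℝ} {F θ : ℝ → ℝ} (hF : MidLo κ F)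
    (hθ : ∀ y t, |θ (y + t) + θ (y - t) - 2 * θ y| ≤ T * t ^ 2) :
    MidLo (κ + T) fun x => F x + θ x := by
  intro y t
  have h1 := hF y t
  have h2 := (abs_le.1 (hθ y t)).1
  simp only
  nlinarith

lemma midHi_add {κ T : ℝ} {F θ : ℝ → ℝ} (hF : MidHi κ F)
    (hθ : ∀ y t, |θ (y + t) + θ (y - t) - 2 * θ y| ≤ T * t ^ 2) :
    MidHi (κ + T) fun x => F x + θ x := by
  intro y t
  have h1 := hF y t
  have h2 := (abs_le.1 (hθ y t)).2
  simp only
  nlinarith

/-- monotonicity of the averaged pressure in a bounded potential -/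
theorem pM_mono {N : ℕ} (hN : 0 < N) {α ε : ℝ} (hα : 0 ≤ α) (h0 : 0 ≤ ε) (h1 : ε ≤ 1)
    {φ φ' : ℝ → ℝ} (hφ : Measurable φ) (hφ' : Measurable φ') {K K' : ℝ} (hK : ∀ x, |φ x| ≤ K)
    (hK' : ∀ x, |φ' x| ≤ K') (h : ∀ x, φ x ≤ φ' x) : pM N α ε φ ≤ pM N α ε φ' := by
  have := Asm0204_734.isProb_patternLawMix (N := N) (α := α) h0 h1
  exact integral_mono (PressC_663.integrable_spherePressure hN hα hφ hK _)
    (PressC_663.integrable_spherePressure hN hα hφ' hK' _) fun A =>
      Asm0204_734.spherePressure_mono hφ hφ' (fun x => (abs_le.1 (hK' x)).2) h A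

/-- **G7**: `LOCUB` from `LOCCORE`. -/
theorem locub_of (W : BS) (hCore : LOCCORE) (hA : G7A W) (hPot : POT) (hVID : VID) (hVL : VL)
    (hAPX : APX) (hENT : ENT) : LOCUB W := by
  intro αc hαc hZ
  obtain ⟨C, hC, core⟩ := hCore (2 * αc) (by positivity)
  obtain ⟨η, s, ε0, R, q, hη, hηc, hs0, hs1, hε0, hε01, hsε, hR, hq, hQ, hH⟩ :=
    hA αc hαc hZ C hC
  refine ⟨ε0, hε0, by linarith, η, hη, fun ε he0 he α hα1 hα2 b hb θ hθ => ?_⟩
  have hα : 0 < α := hαc.trans hα1
  obtain ⟨T, hT0, hT⟩ := test_bdd hθ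
  obtain ⟨T2, hT20, hT2⟩ := test_second hθ
  obtain ⟨Cl, hCl0, hCl⟩ := test_lip hθ
  have hden : 0 < 8 * (T2 + 1) + 8 * α * (T + 1) := by positivity
  set h0 : ℝ := 1 / (8 * (T2 + 1) + 8 * α * (T + 1)) with hh0
  have hh0p : 0 < h0 := by positivity
  have e0 : h0 * (8 * (T2 + 1) + 8 * α * (T + 1)) = 1 := by rw [hh0]; field_simp
  have e1 : h0 * T2 ≤ 1 / 4 := by
    have h1 : 0 ≤ h0 * (α * (T + 1)) := by positivity
    nlinarith
  have e2 : α * (h0 * T) ≤ 1 / 8 := by
    have h1 : 0 ≤ h0 * (T2 + 1) := by positivity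
    have h2 : 0 ≤ h0 * α := by positivity
    nlinarith
  refine ⟨h0, hh0p, fun h hh δ hδ => ?_⟩
  -- the perturbation
  have hθ' : Test fun x => h * θ x := test_smul hθ h
  have hT' : ∀ x, |h * θ x| ≤ h0 * T := fun x => by
    rw [abs_mul]
    exact mul_le_mul hh (hT x) (abs_nonneg _) hh0p.le
  have hl' : ∀ x y, |h * θ x - h * θ y| ≤ |h| * Cl * |x - y| := fun x y => by
    rw [← mul_sub, abs_mul, mul_assoc]
    exact mul_le_mul_of_nonneg_left (hCl x y) (abs_nonneg _)
  have hs' : ∀ y t, |h * θ (y + t) + h * θ (y - t) - 2 * (h * θ y)| ≤ 1 / 4 * t ^ 2 := by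
    intro y t
    have e : h * θ (y + t) + h * θ (y - t) - 2 * (h * θ y) =
        h * (θ (y + t) + θ (y - t) - 2 * θ y) := by ring
    rw [e, abs_mul]
    calc |h| * |θ (y + t) + θ (y - t) - 2 * θ y| ≤ h0 * (T2 * t ^ 2) :=
          mul_le_mul hh (hT2 y t) (abs_nonneg _) hh0p.le
      _ = h0 * T2 * t ^ 2 := by ring
      _ ≤ 1 / 4 * t ^ 2 := mul_le_mul_of_nonneg_right e1 (sq_nonneg t)
  -- the truncation level
  have htail : Tendsto (fun R2 : ℝ => ∫ z, (fqL (b * R2 ^ 2 / 2) b (-1) (z - |h| * Cl) -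
      fq b (-1) (z - |h| * Cl)) ∂(gaussianReal 0 1)) atTop (𝓝 0) := by
    have h1 : Tendsto (fun R2 : ℝ => b * R2 ^ 2 / 2) atTop atTop :=
      ((tendsto_pow_atTop two_ne_zero).const_mul_atTop hb).atTop_div_const two_pos
    exact (dtail b (-1) (|h| * Cl) hb).comp h1
  obtain ⟨R2, hR2, hRR⟩ := ((htail.eventually (gt_mem_nhds (show (0 : ℝ) < δ / (8 * α) by
    positivity))).and (eventually_ge_atTop R)).exists
  set d : ℝ := min (δ / (8 * α)) (1 / (4 * α)) with hd
  have hdp : 0 < d := lt_min (by positivity) (by positivity)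
  have hd1 : α * d ≤ δ / 8 := by
    calc α * d ≤ α * (δ / (8 * α)) := mul_le_mul_of_nonneg_left (min_le_left _ _) hα.le
      _ = δ / 8 := by field_simp
  have hd2 : α * d ≤ 1 / 4 := by
    calc α * d ≤ α * (1 / (4 * α)) := mul_le_mul_of_nonneg_left (min_le_right _ _) hα.le
      _ = 1 / 4 := by field_simp
  obtain ⟨F, hF, hlo, hhi, hup, hup2, L0, hL0⟩ := hPot b R R2 d hb hR hRR hdp
  have hψ : Test fun x => F x + h * θ x := test_add hF hθ'
  obtain ⟨J1, hJ1⟩ := value (W := W) hVID hVL hAPX hENT hα hb hθ' hT'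
    (show 0 ≤ |h| * Cl by positivity) hl' (show 0 ≤ b * R2 ^ 2 / 2 by positivity) hF hup2
    (show 0 < δ / 8 by positivity)
  obtain ⟨J0, hJ0⟩ := core α ε s hα (by linarith) he0 (by linarith) hs0 hs1 (by nlinarith)
    (fun x => F x + h * θ x) hψ (b + 1 / 4) (by positivity) (midLo_add (θ := fun x => h * θ x) hlo hs')
    (by
      have := midHi_add (θ := fun x => h * θ x) hhi hs'
      rwa [show (1 : ℝ) / 4 + 1 / 4 = 1 / 2 by norm_num] at this)
    b (d + h0 * T) R q hb.le hR hq (fun x => by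
      have h1 := hup x
      have h2 := (abs_le.1 (hT' x)).2
      linarith) (hQ ε he0 he) (δ / 2) (half_pos hδ)
  obtain ⟨P, hP, hP1, hval⟩ := hJ1 (max J0 J1) (le_max_right _ _)
  have hev := hJ0 (max J0 J1) (le_max_left _ _) P hP hP1
  refine ⟨max L0 0, fun L hL => ?_⟩
  filter_upwards [hev, eventually_gt_atTop 0] with N hN hN0
  obtain ⟨KF, hKF0, hKF⟩ := test_bdd hψ
  have hL' : 0 ≤ L := (le_max_right _ _).trans hL
  have hbd : ∀ x, |fqL L b (-1) x + h * θ x| ≤ L + h0 * T := fun x =>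
    (abs_add_le _ _).trans (add_le_add (Asm0204_734.fqL_bdd hb hL' x) (hT' x))
  have hmono : pM N α ε (fun x => fqL L b (-1) x + h * θ x) ≤
      pM N α ε (fun x => F x + h * θ x) := by
    refine pM_mono hN0 hα.le he0 (by linarith)
      ((Asm0204_734.fqL_measurable L b (-1)).add (test_cont hθ').measurable)
      (test_cont hψ).measurable hbd hKF fun x => ?_
    have := hL0 L ((le_max_left _ _).trans hL) x
    linarith
  refine hmono.trans (hN.trans ?_)
  have hmax : max (α * Th (max J0 J1) (fun x => F x + h * θ x) P + SP (max J0 J1) P)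
      (α * (d + h0 * T) - b / 2 * (max (√(α * q) - C * √s) 0) ^ 2 + 1 / 2 * Real.log s) ≤
      W.Pv α (fun x => fq b (-1) x + h * θ x) + δ / 2 := by
    refine max_le ?_ ?_
    · refine hval.trans ?_
      have h1 : α * (∫ z, (fqL (b * R2 ^ 2 / 2) b (-1) (z - |h| * Cl) -
          fq b (-1) (z - |h| * Cl)) ∂(gaussianReal 0 1)) ≤ δ / 8 := by
        calc _ ≤ α * (δ / (8 * α)) := mul_le_mul_of_nonneg_left hR2.le hα.le
          _ = δ / 8 := by field_simp
      linarith
    · have h1 := hH α hα1 hα2 b hb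
      have h2 := Pv_pert (W := W) hα hb hθ' hT'
      have h3 : α * (d + h0 * T) = α * d + α * (h0 * T) := by ring
      rw [h3]
      linarith
  linarith

end Crest.Agent.R146.G7b_393
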