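import Crest.Agent.R146.PB_534

/-!
Row 146 (TIP-REG, helper534): heat calculus in the class `GG κ` of continuous functions with
`|φ x| ≤ K exp (κ/2 (min x 0)^2 + A |x|)` : `H t φ` is well defined and smooth as long as `κ t^2 < 1`.
`SG κ` : all derivatives in `GG κ`.
-/

set_option autoImplicit false

namespace Crest.Agent.R146.GG_534

open MeasureTheory ProbabilityTheory Filter Topology Set
open Crest.Agent.R146.Hg_534 Crest.Agent.R146.PB_534

noncomputable section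

theorem integrable_gauss_iff {f : ℝ → ℝ} : Integrable f (gaussianReal 0 1) ↔
    Integrable (fun g => gaussianPDFReal 0 1 g * f g) volume := by
  have hv : (1 : NNReal) ≠ 0 := one_ne_zero
  rw [gaussianReal_of_var_ne_zero 0 hv]
  rw [integrable_withDensity_iff_integrable_smul₀'
      (measurable_gaussianPDF 0 1).aemeasurable
      (Eventually.of_forall fun g => gaussianPDF_lt_top)]
  simp only [toReal_gaussianPDF, smul_eq_mul]

theorem integrable_exp_quad {c : ℝ} (hc : c < 1) (a : ℝ) :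
    Integrable (fun g : ℝ => Real.exp (c / 2 * g ^ 2 + a * |g|)) (gaussianReal 0 1) := by
  rw [integrable_gauss_iff]
  have hb : 0 < (1 - c) / 4 := by linarith
  refine Integrable.mono' ((integrable_exp_neg_mul_sq hb).const_mul
    ((√(2 * Real.pi * ((1 : NNReal) : ℝ)))⁻¹ * Real.exp (a ^ 2 / (1 - c)))) ?_
    (Eventually.of_forall fun g => ?_)
  · exact ((measurable_gaussianPDFReal 0 1).aestronglyMeasurable).mul
      (by fun_prop : Continuous fun g : ℝ => Real.exp (c / 2 * g ^ 2 + a * |g|)).aestronglyMeasurable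
  · have hn : 0 ≤ gaussianPDFReal 0 1 g * Real.exp (c / 2 * g ^ 2 + a * |g|) :=
      mul_nonneg (gaussianPDFReal_nonneg 0 1 g) (Real.exp_pos _).le
    rw [Real.norm_eq_abs, abs_of_nonneg hn]
    unfold gaussianPDFReal
    have hN : 0 ≤ (√(2 * Real.pi * ((1 : NNReal) : ℝ)))⁻¹ := by positivity
    have hE : Real.exp (-(g - 0) ^ 2 / (2 * ((1 : NNReal) : ℝ))) *
        Real.exp (c / 2 * g ^ 2 + a * |g|) ≤
        Real.exp (a ^ 2 / (1 - c)) * Real.exp (-((1 - c) / 4) * g ^ 2) := ?_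
    · have := mul_le_mul_of_nonneg_left hE hN
      linarith
    rw [← Real.exp_add, ← Real.exp_add]
    refine Real.exp_le_exp.2 ?_
    have h1 : a * |g| ≤ (1 - c) / 4 * g ^ 2 + a ^ 2 / (1 - c) := by
      have h2 : 0 ≤ (1 - c) / 4 * (|g| - 2 * a / (1 - c)) ^ 2 := by positivity
      have h3 : (1 - c) / 4 * (|g| - 2 * a / (1 - c)) ^ 2 =
          (1 - c) / 4 * |g| ^ 2 - a * |g| + a ^ 2 / (1 - c) := by
        have : 1 - c ≠ 0 := by linarith
        field_simp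
        ring
      rw [sq_abs] at h3
      linarith
    have h4 : -(g - 0) ^ 2 / (2 * ((1 : NNReal) : ℝ)) = -(1 / 2) * g ^ 2 := by
      rw [NNReal.coe_one]; ring
    rw [h4]
    nlinarith

theorem integrable_mul_exp_quad {c : ℝ} (hc : c < 1) (a : ℝ) :
    Integrable (fun g : ℝ => |g| * Real.exp (c / 2 * g ^ 2 + a * |g|)) (gaussianReal 0 1) := by
  refine Integrable.mono' (integrable_exp_quad hc (a + 1)) (by fun_prop)
    (Eventually.of_forall fun g => ?_)
  rw [Real.norm_eq_abs, abs_of_nonneg (by positivity)]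
  have h1 : |g| ≤ Real.exp |g| := by
    have := Real.add_one_le_exp |g|
    linarith
  calc |g| * Real.exp (c / 2 * g ^ 2 + a * |g|)
      ≤ Real.exp |g| * Real.exp (c / 2 * g ^ 2 + a * |g|) :=
        mul_le_mul_of_nonneg_right h1 (Real.exp_pos _).le
    _ = _ := by rw [← Real.exp_add]; ring_nf

theorem integral_exp_quad {c : ℝ} (hc : c < 1) (β : ℝ) :
    ∫ g, Real.exp (c / 2 * g ^ 2 + β * g) ∂gaussianReal 0 1 =
      (√(1 - c))⁻¹ * Real.exp (β ^ 2 / (2 * (1 - c))) := by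
  have h0 : 0 < 1 - c := by linarith
  set v : NNReal := ⟨1 / (1 - c), by positivity⟩ with hv
  have hvc : ((v : NNReal) : ℝ) = 1 / (1 - c) := rfl
  have hv0 : v ≠ 0 := by
    intro h
    have : ((v : NNReal) : ℝ) = 0 := by rw [h]; rfl
    rw [hvc] at this
    have : 0 < 1 / (1 - c) := by positivity
    linarith
  have h1 : mgf id (gaussianReal 0 v) β = Real.exp (0 * β + v * β ^ 2 / 2) :=
    mgf_gaussianReal (by simp) β
  unfold mgf at h1
  simp only [id] at h1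
  rw [integral_gaussianReal_eq_integral_smul hv0] at h1
  rw [integral_gaussianReal_eq_integral_smul one_ne_zero]
  have h2 : ∀ g : ℝ, gaussianPDFReal 0 1 g • Real.exp (c / 2 * g ^ 2 + β * g) =
      (√(1 - c))⁻¹ * (gaussianPDFReal 0 v g • Real.exp (β * g)) := by
    intro g
    unfold gaussianPDFReal
    simp only [smul_eq_mul]
    have e1 : (√(2 * Real.pi * ((1 : NNReal) : ℝ)))⁻¹ =
        (√(1 - c))⁻¹ * (√(2 * Real.pi * (v : ℝ)))⁻¹ := by
      rw [← mul_inv, ← Real.sqrt_mul h0.le, hvc]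
      congr 2
      rw [NNReal.coe_one]
      field_simp
    have e2 : Real.exp (-(g - 0) ^ 2 / (2 * ((1 : NNReal) : ℝ))) *
        Real.exp (c / 2 * g ^ 2 + β * g) =
        Real.exp (-(g - 0) ^ 2 / (2 * (v : ℝ))) * Real.exp (β * g) := by
      rw [← Real.exp_add, ← Real.exp_add]
      congr 1
      rw [hvc, NNReal.coe_one]
      field_simp
      ring
    rw [e1]
    linear_combination (√(1 - c))⁻¹ * (√(2 * Real.pi * (v : ℝ)))⁻¹ * e2
  simp_rw [h2]
  rw [integral_const_mul, h1, hvc]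
  congr 2
  field_simp
  ring

/-- the weight -/
def wt (κ A x : ℝ) : ℝ := Real.exp (κ / 2 * (min x 0) ^ 2 + A * |x|)

theorem wt_pos (κ A x : ℝ) : 0 < wt κ A x := Real.exp_pos _

theorem wt_mul (κ A κ' A' x : ℝ) : wt κ A x * wt κ' A' x = wt (κ + κ') (A + A') x := by
  unfold wt
  rw [← Real.exp_add]
  ring_nf

theorem wt_mono {κ A κ' A' : ℝ} (h : κ ≤ κ') (h' : A ≤ A') (x : ℝ) : wt κ A x ≤ wt κ' A' x := by
  unfold wt
  refine Real.exp_le_exp.2 (add_le_add ?_ (mul_le_mul_of_nonneg_right h' (abs_nonneg x)))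
  exact mul_le_mul_of_nonneg_right (by linarith) (sq_nonneg _)

/-- continuous functions of growth `exp (κ/2 (min x 0)^2 + A |x|)` -/
structure GG (κ : ℝ) (φ : ℝ → ℝ) : Prop where
  cont : Continuous φ
  bd : ∃ K A : ℝ, 0 ≤ K ∧ 0 ≤ A ∧ ∀ x, |φ x| ≤ K * wt κ A x

theorem GG.mono {κ κ' : ℝ} (h : κ ≤ κ') {φ : ℝ → ℝ} (hφ : GG κ φ) : GG κ' φ := by
  obtain ⟨K, A, hK, hA, hb⟩ := hφ.bd
  exact ⟨hφ.cont, K, A, hK, hA, fun x => (hb x).trans
    (mul_le_mul_of_nonneg_left (wt_mono h le_rfl x) hK)⟩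

theorem GG.of_eg {φ : ℝ → ℝ} (hφ : EG φ) : GG 0 φ := by
  obtain ⟨K, A, hK, hA, hb⟩ := hφ.bd
  refine ⟨hφ.cont, K, A, hK, hA, fun x => (hb x).trans_eq ?_⟩
  unfold wt
  simp

theorem GG.const {κ : ℝ} (h : 0 ≤ κ) (c : ℝ) : GG κ (fun _ => c) :=
  (GG.of_eg (EG.const c)).mono h

theorem GG.add {κ : ℝ} {φ ψ : ℝ → ℝ} (hφ : GG κ φ) (hψ : GG κ ψ) : GG κ (fun x => φ x + ψ x) := by
  obtain ⟨K, A, hK, hA, h⟩ := hφ.bd
  obtain ⟨K', A', hK', hA', h'⟩ := hψ.bd
  refine ⟨hφ.cont.add hψ.cont, K + K', A + A', by positivity, by positivity, fun x => ?_⟩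
  calc |φ x + ψ x| ≤ |φ x| + |ψ x| := abs_add_le _ _
    _ ≤ K * wt κ A x + K' * wt κ A' x := add_le_add (h x) (h' x)
    _ ≤ K * wt κ (A + A') x + K' * wt κ (A + A') x :=
        add_le_add (mul_le_mul_of_nonneg_left (wt_mono le_rfl (by linarith) x) hK)
          (mul_le_mul_of_nonneg_left (wt_mono le_rfl (by linarith) x) hK')
    _ = _ := by ring

theorem GG.mul {κ κ' : ℝ} {φ ψ : ℝ → ℝ} (hφ : GG κ φ) (hψ : GG κ' ψ) :
    GG (κ + κ') (fun x => φ x * ψ x) := by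
  obtain ⟨K, A, hK, hA, h⟩ := hφ.bd
  obtain ⟨K', A', hK', hA', h'⟩ := hψ.bd
  refine ⟨hφ.cont.mul hψ.cont, K * K', A + A', by positivity, by positivity, fun x => ?_⟩
  calc |φ x * ψ x| = |φ x| * |ψ x| := abs_mul _ _
    _ ≤ (K * wt κ A x) * (K' * wt κ' A' x) :=
        mul_le_mul (h x) (h' x) (abs_nonneg _) (mul_nonneg hK (wt_pos _ _ _).le)
    _ = K * K' * (wt κ A x * wt κ' A' x) := by ring
    _ = _ := by rw [wt_mul]

theorem GG.pg_mul {κ : ℝ} {φ ψ : ℝ → ℝ} (hφ : PG φ) (hψ : GG κ ψ) :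
    GG κ (fun x => φ x * ψ x) := by
  have := (GG.of_eg hφ.eg).mul hψ
  rwa [zero_add] at this

theorem GG.const_mul {κ : ℝ} {φ : ℝ → ℝ} (hφ : GG κ φ) (c : ℝ) : GG κ (fun x => c * φ x) :=
  GG.pg_mul (PG.const c) hφ

theorem GG.neg {κ : ℝ} {φ : ℝ → ℝ} (hφ : GG κ φ) : GG κ (fun x => -φ x) := by
  have := hφ.const_mul (-1)
  simpa using this

theorem GG.sub {κ : ℝ} {φ ψ : ℝ → ℝ} (hφ : GG κ φ) (hψ : GG κ ψ) :
    GG κ (fun x => φ x - ψ x) := by
  have := hφ.add hψ.neg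
  simpa [sub_eq_add_neg] using this

theorem GG.of_abs_le {κ : ℝ} {φ ψ : ℝ → ℝ} (hc : Continuous φ) (hψ : GG κ ψ)
    (h : ∀ x, |φ x| ≤ |ψ x|) : GG κ φ := by
  obtain ⟨K, A, hK, hA, h'⟩ := hψ.bd
  exact ⟨hc, K, A, hK, hA, fun x => (h x).trans (h' x)⟩

/-- bound for the shifted function -/
theorem shift_bd {κ : ℝ} (hκ : 0 ≤ κ) {φ : ℝ → ℝ} {K A : ℝ} (hK : 0 ≤ K) (hA : 0 ≤ A)
    (h : ∀ x, |φ x| ≤ K * wt κ A x) {x t X T : ℝ} (hx : |x| ≤ X) (ht : |t| ≤ T) (g : ℝ) :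
    |φ (x + t * g)| ≤ K * Real.exp (κ / 2 * X ^ 2 + A * X) *
      Real.exp (κ * T ^ 2 / 2 * g ^ 2 + (κ * X * T + A * T) * |g|) := by
  refine (h _).trans ?_
  unfold wt
  rw [mul_assoc, ← Real.exp_add]
  refine mul_le_mul_of_nonneg_left (Real.exp_le_exp.2 ?_) hK
  have h1 : |x + t * g| ≤ X + T * |g| := by
    refine (abs_add_le _ _).trans (add_le_add hx ?_)
    rw [abs_mul]
    exact mul_le_mul_of_nonneg_right ht (abs_nonneg g)
  have h0 : (min (x + t * g) 0) ^ 2 ≤ (x + t * g) ^ 2 := by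
    rcases le_total (x + t * g) 0 with h2 | h2
    · rw [min_eq_left h2]
    · rw [min_eq_right h2, zero_pow two_ne_zero]
      positivity
  have h2 : (x + t * g) ^ 2 ≤ (X + T * |g|) ^ 2 := by
    rw [← sq_abs (x + t * g)]
    exact pow_le_pow_left₀ (abs_nonneg _) h1 2
  have h3 : A * |x + t * g| ≤ A * (X + T * |g|) := mul_le_mul_of_nonneg_left h1 hA
  have h4 : κ / 2 * (min (x + t * g) 0) ^ 2 ≤ κ / 2 * (X + T * |g|) ^ 2 :=
    mul_le_mul_of_nonneg_left (h0.trans h2) (by positivity)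
  have h5 : (X + T * |g|) ^ 2 = X ^ 2 + 2 * X * T * |g| + T ^ 2 * g ^ 2 := by
    rw [← sq_abs g]; ring
  rw [h5] at h4
  linarith

theorem GG.int {κ : ℝ} (hκ : 0 ≤ κ) {φ : ℝ → ℝ} (hφ : GG κ φ) {t : ℝ} (ht : κ * t ^ 2 < 1) (x : ℝ) :
    Integrable (fun g : ℝ => φ (x + t * g)) (gaussianReal 0 1) := by
  obtain ⟨K, A, hK, hA, h⟩ := hφ.bd
  have hc := hφ.cont
  have ht' : κ * |t| ^ 2 < 1 := by rwa [sq_abs]
  refine Integrable.mono' ((integrable_exp_quad ht' (κ * |x| * |t| + A * |t|)).const_mul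
    (K * Real.exp (κ / 2 * |x| ^ 2 + A * |x|))) (by fun_prop) (Eventually.of_forall fun g => ?_)
  rw [Real.norm_eq_abs]
  exact shift_bd hκ hK hA h le_rfl le_rfl g

theorem GG.int_mul {κ : ℝ} (hκ : 0 ≤ κ) {φ : ℝ → ℝ} (hφ : GG κ φ) {t : ℝ} (ht : κ * t ^ 2 < 1)
    (x : ℝ) : Integrable (fun g : ℝ => g * φ (x + t * g)) (gaussianReal 0 1) := by
  obtain ⟨K, A, hK, hA, h⟩ := hφ.bd
  have hc := hφ.cont
  have ht' : κ * |t| ^ 2 < 1 := by rwa [sq_abs]
  refine Integrable.mono' ((integrable_mul_exp_quad ht' (κ * |x| * |t| + A * |t|)).const_mul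
    (K * Real.exp (κ / 2 * |x| ^ 2 + A * |x|))) (by fun_prop) (Eventually.of_forall fun g => ?_)
  rw [Real.norm_eq_abs, abs_mul]
  have := mul_le_mul_of_nonneg_left (shift_bd hκ hK hA h (le_refl |x|) (le_refl |t|) g)
    (abs_nonneg g)
  linarith

theorem H_add {κ : ℝ} (hκ : 0 ≤ κ) {φ ψ : ℝ → ℝ} (hφ : GG κ φ) (hψ : GG κ ψ) {t : ℝ}
    (ht : κ * t ^ 2 < 1) (x : ℝ) : H t (fun y => φ y + ψ y) x = H t φ x + H t ψ x :=
  integral_add (hφ.int hκ ht x) (hψ.int hκ ht x)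

theorem H_sub {κ : ℝ} (hκ : 0 ≤ κ) {φ ψ : ℝ → ℝ} (hφ : GG κ φ) (hψ : GG κ ψ) {t : ℝ}
    (ht : κ * t ^ 2 < 1) (x : ℝ) : H t (fun y => φ y - ψ y) x = H t φ x - H t ψ x :=
  integral_sub (hφ.int hκ ht x) (hψ.int hκ ht x)

theorem H_mono {κ : ℝ} (hκ : 0 ≤ κ) {φ ψ : ℝ → ℝ} (hφ : GG κ φ) (hψ : GG κ ψ)
    (h : ∀ y, φ y ≤ ψ y) {t : ℝ} (ht : κ * t ^ 2 < 1) (x : ℝ) : H t φ x ≤ H t ψ x :=
  integral_mono (hφ.int hκ ht x) (hψ.int hκ ht x) fun _ => h _

theorem H_pos {κ : ℝ} (hκ : 0 ≤ κ) {φ : ℝ → ℝ} (hφ : GG κ φ) (h : ∀ y, 0 < φ y) {t : ℝ}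
    (ht : κ * t ^ 2 < 1) (x : ℝ) : 0 < H t φ x := by
  unfold H
  rw [integral_pos_iff_support_of_nonneg (fun _ => (h _).le) (hφ.int hκ ht x)]
  have : Function.support (fun g : ℝ => φ (x + t * g)) = univ := by
    ext g
    simp [(h (x + t * g)).ne']
  rw [this, measure_univ]
  exact one_pos

/-- a radius slightly bigger than `|t|` -/
theorem exists_radius {κ t : ℝ} (_hκ : 0 ≤ κ) (ht : κ * t ^ 2 < 1) :
    ∃ ε > 0, κ * (|t| + ε) ^ 2 < 1 := by
  have hc : Continuous (fun e : ℝ => κ * (|t| + e) ^ 2) := by fun_prop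
  have h0 : κ * (|t| + 0) ^ 2 < 1 := by rw [add_zero, sq_abs]; exact ht
  have h1 : ∀ᶠ e in 𝓝 (0 : ℝ), κ * (|t| + e) ^ 2 < 1 :=
    hc.continuousAt.eventually (gt_mem_nhds h0)
  obtain ⟨ε, hε, h2⟩ := Metric.eventually_nhds_iff.1 h1
  refine ⟨ε / 2, by positivity, h2 ?_⟩
  rw [Real.dist_eq, sub_zero, abs_of_pos (by positivity)]
  linarith

/-- joint continuity -/
theorem H_continuousAt {κ : ℝ} (hκ : 0 ≤ κ) {φ : ℝ → ℝ} (hφ : GG κ φ) {p : ℝ × ℝ}
    (hp : κ * p.1 ^ 2 < 1) : ContinuousAt (fun p : ℝ × ℝ => H p.1 φ p.2) p := by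
  obtain ⟨K, A, hK, hA, h⟩ := hφ.bd
  have hc := hφ.cont
  obtain ⟨ε, hε, hT⟩ := exists_radius hκ hp
  refine continuousAt_of_dominated (bound := fun g =>
    K * Real.exp (κ / 2 * (|p.2| + ε) ^ 2 + A * (|p.2| + ε)) *
      Real.exp (κ * (|p.1| + ε) ^ 2 / 2 * g ^ 2 +
        (κ * (|p.2| + ε) * (|p.1| + ε) + A * (|p.1| + ε)) * |g|)) ?_ ?_ ?_ ?_
  · exact Eventually.of_forall fun q => (by fun_prop :
      Continuous fun g : ℝ => φ (q.2 + q.1 * g)).aestronglyMeasurable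
  · have hb : Metric.ball p ε ∈ 𝓝 p := Metric.ball_mem_nhds p hε
    filter_upwards [hb] with q hq
    rw [Metric.mem_ball, Prod.dist_eq, max_lt_iff, Real.dist_eq, Real.dist_eq] at hq
    refine Eventually.of_forall fun g => ?_
    rw [Real.norm_eq_abs]
    refine shift_bd hκ hK hA h ?_ ?_ g
    · have := abs_sub_abs_le_abs_sub q.2 p.2
      linarith [hq.2]
    · have := abs_sub_abs_le_abs_sub q.1 p.1
      linarith [hq.1]
  · exact (integrable_exp_quad hT _).const_mul _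
  · refine Eventually.of_forall fun g => ?_
    have : Continuous (fun q : ℝ × ℝ => φ (q.2 + q.1 * g)) := by fun_prop
    exact this.continuousAt

theorem H_cont {κ : ℝ} (hκ : 0 ≤ κ) {φ : ℝ → ℝ} (hφ : GG κ φ) {t : ℝ}
    (ht : κ * t ^ 2 < 1) : Continuous (fun x : ℝ => H t φ x) := by
  rw [continuous_iff_continuousAt]
  intro x
  have h1 : ContinuousAt (fun p : ℝ × ℝ => H p.1 φ p.2) (t, x) := H_continuousAt hκ hφ ht
  have h2 : ContinuousAt (fun x : ℝ => ((t, x) : ℝ × ℝ)) x := by fun_prop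
  exact ContinuousAt.comp (f := fun x : ℝ => ((t, x) : ℝ × ℝ))
    (g := fun p : ℝ × ℝ => H p.1 φ p.2) h1 h2

/-- derivative in the position -/
theorem H_deriv_x {κ : ℝ} (hκ : 0 ≤ κ) {φ φ1 : ℝ → ℝ} (hφ : GG κ φ) (hφ1 : GG κ φ1)
    (hd : ∀ x, HasDerivAt φ (φ1 x) x) {t : ℝ} (ht : κ * t ^ 2 < 1) (x : ℝ) :
    HasDerivAt (fun x => H t φ x) (H t φ1 x) x := by
  obtain ⟨K, A, hK, hA, h⟩ := hφ1.bd
  have hc := hφ.cont
  have hc1 := hφ1.cont
  have ht' : κ * |t| ^ 2 < 1 := by rwa [sq_abs]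
  refine (hasDerivAt_integral_of_dominated_loc_of_deriv_le
    (bound := fun g => K * Real.exp (κ / 2 * (|x| + 1) ^ 2 + A * (|x| + 1)) *
      Real.exp (κ * |t| ^ 2 / 2 * g ^ 2 + (κ * (|x| + 1) * |t| + A * |t|) * |g|))
    (F' := fun x g => φ1 (x + t * g)) (Metric.ball_mem_nhds x one_pos) ?_ (hφ.int hκ ht x) ?_ ?_ ?_
    ?_).2
  · exact Eventually.of_forall fun q => (by fun_prop :
      Continuous fun g : ℝ => φ (q + t * g)).aestronglyMeasurable
  · exact (by fun_prop : Continuous fun g : ℝ => φ1 (x + t * g)).aestronglyMeasurable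
  · refine Eventually.of_forall fun g q hq => ?_
    rw [Metric.mem_ball, Real.dist_eq] at hq
    rw [Real.norm_eq_abs]
    refine shift_bd hκ hK hA h ?_ le_rfl g
    have := abs_sub_abs_le_abs_sub q x
    linarith
  · exact (integrable_exp_quad ht' _).const_mul _
  · refine Eventually.of_forall fun g q _ => ?_
    have h1 : HasDerivAt (fun q : ℝ => q + t * g) 1 q := (hasDerivAt_id q).add_const _
    have := (hd (q + t * g)).comp q h1
    rw [mul_one] at this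
    exact this

/-- derivative in the standard deviation, before integration by parts -/
theorem H_deriv_t' {κ : ℝ} (hκ : 0 ≤ κ) {φ φ1 : ℝ → ℝ} (hφ : GG κ φ) (hφ1 : GG κ φ1)
    (hd : ∀ x, HasDerivAt φ (φ1 x) x) {t : ℝ} (ht : κ * t ^ 2 < 1) (x : ℝ) :
    HasDerivAt (fun t => H t φ x) (∫ g, g * φ1 (x + t * g) ∂gaussianReal 0 1) t := by
  obtain ⟨K, A, hK, hA, h⟩ := hφ1.bd
  have hc := hφ.cont
  have hc1 := hφ1.cont
  obtain ⟨ε, hε, hT⟩ := exists_radius hκ ht
  refine (hasDerivAt_integral_of_dominated_loc_of_deriv_le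
    (bound := fun g => K * Real.exp (κ / 2 * |x| ^ 2 + A * |x|) *
      (|g| * Real.exp (κ * (|t| + ε) ^ 2 / 2 * g ^ 2 +
        (κ * |x| * (|t| + ε) + A * (|t| + ε)) * |g|)))
    (F' := fun t g => g * φ1 (x + t * g)) (Metric.ball_mem_nhds t hε) ?_ (hφ.int hκ ht x) ?_ ?_ ?_
    ?_).2
  · exact Eventually.of_forall fun q => (by fun_prop :
      Continuous fun g : ℝ => φ (x + q * g)).aestronglyMeasurable
  · exact (by fun_prop : Continuous fun g : ℝ => g * φ1 (x + t * g)).aestronglyMeasurable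
  · refine Eventually.of_forall fun g q hq => ?_
    rw [Metric.mem_ball, Real.dist_eq] at hq
    rw [Real.norm_eq_abs, abs_mul]
    have hq2 : |q| ≤ |t| + ε := by
      have := abs_sub_abs_le_abs_sub q t
      linarith
    have := mul_le_mul_of_nonneg_left (shift_bd hκ hK hA h (le_refl |x|) hq2 g) (abs_nonneg g)
    linarith
  · exact (integrable_mul_exp_quad hT _).const_mul _
  · refine Eventually.of_forall fun g q _ => ?_
    have h1 : HasDerivAt (fun q : ℝ => x + q * g) g q := by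
      have := ((hasDerivAt_id q).mul_const g).const_add x
      simpa using this
    have := (hd (x + q * g)).comp q h1
    rw [mul_comm] at this
    exact this

/-- **Stein's identity** -/
theorem stein {κ : ℝ} (hκ : 0 ≤ κ) {φ φ1 : ℝ → ℝ} (hφ : GG κ φ) (hφ1 : GG κ φ1)
    (hd : ∀ x, HasDerivAt φ (φ1 x) x) {t : ℝ} (ht : κ * t ^ 2 < 1) (x : ℝ) :
    ∫ g, g * φ (x + t * g) ∂gaussianReal 0 1 = t * H t φ1 x := by
  unfold H
  have hv : (1 : NNReal) ≠ 0 := one_ne_zero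
  have hpdf : ∀ g : ℝ, HasDerivAt (fun g => -gaussianPDFReal 0 1 g)
      (g * gaussianPDFReal 0 1 g) g := by
    intro g
    unfold gaussianPDFReal
    have h1 : HasDerivAt (fun g : ℝ => -(g - 0) ^ 2 / (2 * ((1 : NNReal) : ℝ))) (-g) g := by
      have h2 : HasDerivAt (fun g : ℝ => (g - 0) ^ 2) (2 * g) g := by
        have := ((hasDerivAt_id' g).sub_const 0).fun_pow 2
        simpa using this
      have h3 := (h2.fun_neg).div_const (2 * ((1 : NNReal) : ℝ))
      have e : -(2 * g) / (2 * ((1 : NNReal) : ℝ)) = -g := by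
        rw [NNReal.coe_one]; ring
      rw [e] at h3
      exact h3
    have h4 := (h1.exp.const_mul ((√(2 * Real.pi * ((1 : NNReal) : ℝ)))⁻¹)).fun_neg
    have e : -((√(2 * Real.pi * ((1 : NNReal) : ℝ)))⁻¹ *
        (Real.exp (-(g - 0) ^ 2 / (2 * ((1 : NNReal) : ℝ))) * -g)) =
        g * ((√(2 * Real.pi * ((1 : NNReal) : ℝ)))⁻¹ *
        Real.exp (-(g - 0) ^ 2 / (2 * ((1 : NNReal) : ℝ)))) := by ring
    rw [e] at h4
    exact h4
  have hd' : ∀ g : ℝ, HasDerivAt (fun g => φ (x + t * g)) (t * φ1 (x + t * g)) g := by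
    intro g
    have h1 : HasDerivAt (fun g : ℝ => x + t * g) t g := by
      have := ((hasDerivAt_id g).const_mul t).const_add x
      simpa using this
    have := (hd (x + t * g)).comp g h1
    rw [mul_comm] at this
    exact this
  have I1 := integrable_gauss_iff.1 (hφ.int_mul hκ ht x)
  have I2 := integrable_gauss_iff.1 ((hφ1.int hκ ht x).const_mul t)
  have I3 := integrable_gauss_iff.1 (hφ.int hκ ht x)
  have key := integral_mul_deriv_eq_deriv_mul_of_integrable (A := ℝ)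
    (u := fun g => φ (x + t * g)) (v := fun g => -gaussianPDFReal 0 1 g)
    (u' := fun g => t * φ1 (x + t * g)) (v' := fun g => g * gaussianPDFReal 0 1 g)
    (fun g _ => hd' g) (fun g _ => hpdf g)
    (by
      refine I1.congr (Eventually.of_forall fun g => ?_)
      simp only [Pi.mul_apply]; ring)
    (by
      refine I2.neg.congr (Eventually.of_forall fun g => ?_)
      simp only [Pi.mul_apply, Pi.neg_apply]; ring)
    (by
      refine I3.neg.congr (Eventually.of_forall fun g => ?_)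
      simp only [Pi.mul_apply, Pi.neg_apply]; ring)
  rw [integral_gaussianReal_eq_integral_smul hv, integral_gaussianReal_eq_integral_smul hv]
  have e1 : ∫ g, gaussianPDFReal 0 1 g • (g * φ (x + t * g)) =
      ∫ g, φ (x + t * g) * (g * gaussianPDFReal 0 1 g) := by
    refine integral_congr_ae (Eventually.of_forall fun g => ?_)
    simp only [smul_eq_mul]; ring
  have e2 : t * ∫ g, gaussianPDFReal 0 1 g • φ1 (x + t * g) =
      - ∫ g, t * φ1 (x + t * g) * -gaussianPDFReal 0 1 g := by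
    rw [← integral_const_mul, ← integral_neg]
    refine integral_congr_ae (Eventually.of_forall fun g => ?_)
    simp only [smul_eq_mul]; ring
  rw [e1, e2]
  exact key

/-- derivative in the standard deviation -/
theorem H_deriv_t {κ : ℝ} (hκ : 0 ≤ κ) {φ φ1 φ2 : ℝ → ℝ} (hφ : GG κ φ) (hφ1 : GG κ φ1)
    (hφ2 : GG κ φ2) (hd : ∀ x, HasDerivAt φ (φ1 x) x) (hd1 : ∀ x, HasDerivAt φ1 (φ2 x) x)
    {t : ℝ} (ht : κ * t ^ 2 < 1) (x : ℝ) :
    HasDerivAt (fun t => H t φ x) (t * H t φ2 x) t := by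
  rw [← stein hκ hφ1 hφ2 hd1 ht x]
  exact H_deriv_t' hκ hφ hφ1 hd ht x

/-- derivative in the variance -/
theorem H_deriv_v {κ : ℝ} (hκ : 0 ≤ κ) {φ φ1 φ2 : ℝ → ℝ} (hφ : GG κ φ) (hφ1 : GG κ φ1)
    (hφ2 : GG κ φ2) (hd : ∀ x, HasDerivAt φ (φ1 x) x) (hd1 : ∀ x, HasDerivAt φ1 (φ2 x) x)
    {v : ℝ} (hv : 0 < v) (hvκ : κ * v < 1) (x : ℝ) :
    HasDerivAt (fun v => H (Real.sqrt v) φ x) (1 / 2 * H (Real.sqrt v) φ2 x) v := by
  have ht : κ * Real.sqrt v ^ 2 < 1 := by rwa [Real.sq_sqrt hv.le]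
  have h1 := H_deriv_t hκ hφ hφ1 hφ2 hd hd1 ht x
  have h2 := Real.hasDerivAt_sqrt hv.ne'
  have h3 := h1.comp v h2
  have hs : Real.sqrt v ≠ 0 := (Real.sqrt_pos.2 hv).ne'
  have e : Real.sqrt v * H (Real.sqrt v) φ2 x * (1 / (2 * Real.sqrt v)) =
      1 / 2 * H (Real.sqrt v) φ2 x := by
    field_simp
  rw [e] at h3
  exact h3

/-- growth of `H t φ` -/
theorem H_growth {κ : ℝ} (hκ : 0 ≤ κ) {φ : ℝ → ℝ} {K A : ℝ} (hK : 0 ≤ K) (hA : 0 ≤ A)
    (h : ∀ x, |φ x| ≤ K * wt κ A x) {t : ℝ} (ht : κ * t ^ 2 < 1) (x : ℝ) :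
    |H t φ x| ≤ K * (2 * (√(1 - κ * t ^ 2))⁻¹ * Real.exp ((A * |t|) ^ 2 / (2 * (1 - κ * t ^ 2)))) *
      wt (κ / (1 - κ * t ^ 2)) (A + κ * A * t ^ 2 / (1 - κ * t ^ 2)) x := by
  have h0 : 0 < 1 - κ * t ^ 2 := by linarith
  set c := κ * t ^ 2 with hc
  have hc0 : 0 ≤ c := by positivity
  set a := A * |t| with ha
  have ha0 : 0 ≤ a := by positivity
  -- pointwise bound
  have key : ∀ g : ℝ, |φ (x + t * g)| ≤ K * Real.exp (κ / 2 * (min x 0) ^ 2 + A * |x|) *
      (Real.exp (c / 2 * g ^ 2 + (κ * (min x 0) * t + a) * g) +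
        Real.exp (c / 2 * g ^ 2 + (κ * (min x 0) * t - a) * g)) := by
    intro g
    have e1 : |φ (x + t * g)| ≤ K * Real.exp (κ / 2 * (min x 0) ^ 2 + A * |x| +
        (c / 2 * g ^ 2 + κ * (min x 0) * t * g + a * |g|)) := by
      refine (h _).trans (mul_le_mul_of_nonneg_left (Real.exp_le_exp.2 ?_) hK)
      have h1 : |x + t * g| ≤ |x| + |t| * |g| := by
        refine (abs_add_le _ _).trans (add_le_add le_rfl ?_)
        rw [abs_mul]
      have h3 : A * |x + t * g| ≤ A * (|x| + |t| * |g|) := mul_le_mul_of_nonneg_left h1 hA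
      have h4 : (min (x + t * g) 0) ^ 2 ≤ (min x 0 + t * g) ^ 2 := by
        rcases le_total (x + t * g) 0 with h5 | h5
        · rw [min_eq_left h5]
          rcases le_total x 0 with h6 | h6
          · rw [min_eq_left h6]
          · rw [min_eq_right h6]
            nlinarith
        · rw [min_eq_right h5, zero_pow two_ne_zero]
          positivity
      have h5 : κ / 2 * (min (x + t * g) 0) ^ 2 ≤ κ / 2 * (min x 0 + t * g) ^ 2 :=
        mul_le_mul_of_nonneg_left h4 (by positivity)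
      have h6 : κ / 2 * (min x 0 + t * g) ^ 2 =
          κ / 2 * (min x 0) ^ 2 + κ * (min x 0) * t * g + c / 2 * g ^ 2 := by
        rw [hc]; ring
      have h7 : A * (|x| + |t| * |g|) = A * |x| + a * |g| := by rw [ha]; ring
      linarith
    refine e1.trans ?_
    rw [Real.exp_add, ← mul_assoc]
    refine mul_le_mul_of_nonneg_left ?_ (mul_nonneg hK (Real.exp_pos _).le)
    rcases le_total 0 g with hg | hg
    · rw [abs_of_nonneg hg]
      have e : c / 2 * g ^ 2 + κ * (min x 0) * t * g + a * g =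
          c / 2 * g ^ 2 + (κ * (min x 0) * t + a) * g := by ring
      rw [e]
      have := Real.exp_pos (c / 2 * g ^ 2 + (κ * (min x 0) * t - a) * g)
      linarith
    · rw [abs_of_nonpos hg]
      have e : c / 2 * g ^ 2 + κ * (min x 0) * t * g + a * -g =
          c / 2 * g ^ 2 + (κ * (min x 0) * t - a) * g := by ring
      rw [e]
      have := Real.exp_pos (c / 2 * g ^ 2 + (κ * (min x 0) * t + a) * g)
      linarith
  have hint : ∀ β : ℝ, Integrable (fun g : ℝ => Real.exp (c / 2 * g ^ 2 + β * g))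
      (gaussianReal 0 1) := by
    intro β
    refine Integrable.mono' (integrable_exp_quad ht |β|) (by fun_prop)
      (Eventually.of_forall fun g => ?_)
    rw [Real.norm_eq_abs, abs_of_pos (Real.exp_pos _)]
    refine Real.exp_le_exp.2 (add_le_add le_rfl ?_)
    rw [← abs_mul]
    exact le_abs_self _
  unfold H
  have step1 : |∫ g, φ (x + t * g) ∂gaussianReal 0 1| ≤
      ∫ g, K * Real.exp (κ / 2 * (min x 0) ^ 2 + A * |x|) *
      (Real.exp (c / 2 * g ^ 2 + (κ * (min x 0) * t + a) * g) +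
        Real.exp (c / 2 * g ^ 2 + (κ * (min x 0) * t - a) * g)) ∂gaussianReal 0 1 := by
    rw [← Real.norm_eq_abs]
    refine norm_integral_le_of_norm_le (((hint _).add (hint _)).const_mul _)
      (Eventually.of_forall fun g => ?_)
    rw [Real.norm_eq_abs]
    exact key g
  refine step1.trans ?_
  rw [integral_const_mul, integral_add (hint _) (hint _), integral_exp_quad ht,
    integral_exp_quad ht]
  -- both exponents
  have hb : ∀ s : ℝ, s = 1 ∨ s = -1 →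
      Real.exp ((κ * (min x 0) * t + s * a) ^ 2 / (2 * (1 - c))) ≤
      Real.exp ((κ * (min x 0) * t) ^ 2 / (2 * (1 - c)) +
        κ * A * t ^ 2 / (1 - c) * |x| + a ^ 2 / (2 * (1 - c))) := by
    intro s hs
    refine Real.exp_le_exp.2 ?_
    have h1 : (κ * (min x 0) * t + s * a) ^ 2 ≤
        (κ * (min x 0) * t) ^ 2 + 2 * (κ * A * t ^ 2 * |x|) + a ^ 2 := by
      have h2 : s * (κ * (min x 0) * t) ≤ κ * |x| * |t| := by
        have h3 : |s * (κ * (min x 0) * t)| ≤ κ * |x| * |t| := by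
          have hs1 : |s| = 1 := by rcases hs with rfl | rfl <;> simp
          rw [abs_mul, hs1, one_mul, abs_mul, abs_mul, abs_of_nonneg hκ]
          refine mul_le_mul_of_nonneg_right (mul_le_mul_of_nonneg_left ?_ hκ) (abs_nonneg t)
          rcases le_total x 0 with h6 | h6
          · rw [min_eq_left h6]
          · rw [min_eq_right h6, abs_zero]
            exact abs_nonneg x
        exact (le_abs_self _).trans h3
      have hs2 : s ^ 2 = 1 := by rcases hs with rfl | rfl <;> norm_num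
      have h4 : (κ * (min x 0) * t + s * a) ^ 2 =
          (κ * (min x 0) * t) ^ 2 + 2 * a * (s * (κ * (min x 0) * t)) + s ^ 2 * a ^ 2 := by ring
      have h5 : 2 * a * (s * (κ * (min x 0) * t)) ≤ 2 * a * (κ * |x| * |t|) :=
        mul_le_mul_of_nonneg_left h2 (by positivity)
      have h6 : 2 * a * (κ * |x| * |t|) = 2 * (κ * A * t ^ 2 * |x|) := by
        rw [ha, ← sq_abs t]; ring
      rw [h4, hs2, one_mul]
      linarith
    have h2 : (κ * (min x 0) * t) ^ 2 / (2 * (1 - c)) +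
        κ * A * t ^ 2 / (1 - c) * |x| + a ^ 2 / (2 * (1 - c)) =
        ((κ * (min x 0) * t) ^ 2 + 2 * (κ * A * t ^ 2 * |x|) + a ^ 2) / (2 * (1 - c)) := by
      field_simp
    rw [h2]
    exact div_le_div_of_nonneg_right h1 (by positivity)
  have hb1 := hb 1 (Or.inl rfl)
  have hb2 := hb (-1) (Or.inr rfl)
  rw [one_mul] at hb1
  have e2 : κ * (min x 0) * t + -1 * a = κ * (min x 0) * t - a := by ring
  rw [e2] at hb2
  have hfin : K * Real.exp (κ / 2 * (min x 0) ^ 2 + A * |x|) *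
      ((√(1 - c))⁻¹ * Real.exp ((κ * (min x 0) * t + a) ^ 2 / (2 * (1 - c))) +
        (√(1 - c))⁻¹ * Real.exp ((κ * (min x 0) * t - a) ^ 2 / (2 * (1 - c)))) ≤
      K * Real.exp (κ / 2 * (min x 0) ^ 2 + A * |x|) *
      ((√(1 - c))⁻¹ * Real.exp ((κ * (min x 0) * t) ^ 2 / (2 * (1 - c)) +
        κ * A * t ^ 2 / (1 - c) * |x| + a ^ 2 / (2 * (1 - c))) +
        (√(1 - c))⁻¹ * Real.exp ((κ * (min x 0) * t) ^ 2 / (2 * (1 - c)) +
        κ * A * t ^ 2 / (1 - c) * |x| + a ^ 2 / (2 * (1 - c)))) := by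
    refine mul_le_mul_of_nonneg_left (add_le_add ?_ ?_) (by positivity)
    · exact mul_le_mul_of_nonneg_left hb1 (by positivity)
    · exact mul_le_mul_of_nonneg_left hb2 (by positivity)
  refine hfin.trans_eq ?_
  unfold wt
  have e3 : Real.exp (κ / (1 - c) / 2 * (min x 0) ^ 2 +
      (A + κ * A * t ^ 2 / (1 - c)) * |x|) =
      Real.exp (κ / 2 * (min x 0) ^ 2 + A * |x|) *
      Real.exp ((κ * (min x 0) * t) ^ 2 / (2 * (1 - c)) + κ * A * t ^ 2 / (1 - c) * |x|) := by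
    rw [← Real.exp_add]
    congr 1
    have h7 : κ / (1 - c) / 2 * (min x 0) ^ 2 = κ / 2 * (min x 0) ^ 2 +
        (κ * (min x 0) * t) ^ 2 / (2 * (1 - c)) := by
      field_simp
      rw [hc]
      ring
    rw [h7]
    ring
  rw [e3, Real.exp_add (_ + _) (a ^ 2 / (2 * (1 - c)))]
  ring

theorem GG.H {κ : ℝ} (hκ : 0 ≤ κ) {φ : ℝ → ℝ} (hφ : GG κ φ) {t : ℝ} (ht : κ * t ^ 2 < 1) :
    GG (κ / (1 - κ * t ^ 2)) (H t φ) := by
  obtain ⟨K, A, hK, hA, h⟩ := hφ.bd
  have h0 : 0 < 1 - κ * t ^ 2 := by linarith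
  exact ⟨H_cont hκ hφ ht, _, _, by positivity, by positivity, H_growth hκ hK hA h ht⟩

end

end Crest.Agent.R146.GG_534
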