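import Crest.Agent.R253.Mills_37

/-!
# Row 146, helper889: Gaussian functions in the level coordinate, certified enclosures (analysis part)

`ph` = standard normal density, `Q` = upper tail (`R253/Mills_37`), `Ph y = Q (-y)` = distribution
function, `mm = Ph * Q / ph`.

* `Ph_eq`, `ph_eq` : the same functions as `(gaussianReal 0 1).real (Iic x)`, `gaussianPDFReal 0 1`;
* `Ph_hasDerivAt`, `mm_hasDerivAt : mm' = 1 - 2 Ph + y mm`, symmetry, positivity, Mills bounds;
* `encl_ph`, `encl_Ph`, `encl_mm` : from residual bounds of approximations to error bounds.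
-/

set_option autoImplicit false

namespace Crest.Agent.R146.GaussA_889

open MeasureTheory Set Filter Topology Real ProbabilityTheory
open Crest.Agent.R253.Mills37

noncomputable section

/-- standard normal distribution function -/
def Ph (y : ℝ) : ℝ := Q (-y)

/-- `Φ(y) Φ(-y) / φ(y)` -/
def mm (y : ℝ) : ℝ := Ph y * Q y / ph y

lemma Ph_add (y : ℝ) : Ph y + Q y = 1 := by
  unfold Ph; rw [Q_neg]; ring

lemma Ph_eq_sub (y : ℝ) : Ph y = 1 - Q y := by linarith [Ph_add y]

lemma Ph_neg (y : ℝ) : Ph (-y) = 1 - Ph y := by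
  unfold Ph; rw [neg_neg, Q_neg]; ring

lemma Ph_pos (y : ℝ) : 0 < Ph y := Q_pos _

lemma Ph_lt_one (y : ℝ) : Ph y < 1 := Q_lt_one _

lemma Ph_hasDerivAt (y : ℝ) : HasDerivAt Ph (ph y) y := by
  have h : Ph = fun y => 1 - Q y := funext Ph_eq_sub
  rw [h]
  exact ((Q_hasDerivAt y).const_sub 1).congr_deriv (by ring)

lemma Ph_zero : Ph 0 = 1 / 2 := by
  have := Ph_neg 0
  rw [neg_zero] at this
  linarith

lemma Ph_mono : StrictMono Ph := strictMono_of_hasDerivAt_pos Ph_hasDerivAt ph_pos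

lemma ph_eq (y : ℝ) : ph y = gaussianPDFReal 0 1 y := by
  unfold ph gaussianPDFReal
  simp

lemma Ph_eq (y : ℝ) : Ph y = (gaussianReal 0 1).real (Iic y) := by
  have h1 : Ph y = ∫ t in Iic y, ph t := by
    rw [Ph_eq_sub]
    unfold Q
    have := integral_add_compl (μ := volume) (s := Iic y) measurableSet_Iic ph_integrable
    rw [compl_Iic, integral_ph] at this
    linarith
  rw [h1, Measure.real, gaussianReal_apply_eq_integral _ (by norm_num) (Iic y),
    ENNReal.toReal_ofReal (setIntegral_nonneg measurableSet_Iic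
      fun x _ => gaussianPDFReal_nonneg 0 1 x)]
  exact setIntegral_congr_fun measurableSet_Iic fun x _ => ph_eq x

lemma mm_pos (y : ℝ) : 0 < mm y := div_pos (mul_pos (Ph_pos y) (Q_pos y)) (ph_pos y)

lemma mm_neg (y : ℝ) : mm (-y) = mm y := by
  unfold mm
  rw [Ph_neg, ph_neg, show Q (-y) = Ph y from rfl, Ph_eq_sub y]
  ring

lemma mm_hasDerivAt (y : ℝ) : HasDerivAt mm (1 - 2 * Ph y + y * mm y) y := by
  have h := ((Ph_hasDerivAt y).mul (Q_hasDerivAt y)).div (ph_hasDerivAt y) (ph_pos y).ne'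
  refine h.congr_deriv ?_
  unfold mm
  have hp := (ph_pos y).ne'
  have h2 := Ph_eq_sub y
  simp only [Pi.mul_apply]
  rw [h2]
  field_simp
  ring

/-- Mills: `Q y < ph y / y` for `y > 0` -/
lemma mul_Q_lt (y : ℝ) : y * Q y < ph y := by
  have := M1_pos y
  unfold M1 at this
  linarith

/-- Mills: `y ph y < (1 + y ^ 2) Q y` -/
lemma mul_ph_lt (y : ℝ) : y * ph y < (1 + y ^ 2) * Q y := by
  have := M2_pos y
  unfold M2 M1 at this
  nlinarith

lemma mm_mul_lt_one (y : ℝ) : y * mm y < 1 := by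
  have h1 := mul_Q_lt y
  have h2 := ph_pos y
  have h3 := Ph_pos y
  have h4 := Ph_lt_one y
  have h5 : y * mm y = Ph y * (y * Q y) / ph y := by unfold mm; ring
  rw [h5, div_lt_one h2]
  nlinarith [mul_lt_mul_of_pos_left h1 h3]

lemma mm_lower {y : ℝ} : y ^ 2 / (1 + y ^ 2) * Ph y ≤ y * mm y ∨ y < 0 := by
  rcases lt_or_ge y 0 with h | h
  · exact Or.inr h
  · left
    have h1 := mul_ph_lt y
    have h2 := ph_pos y
    have h3 := Ph_pos y
    have h5 : y * mm y = Ph y * (y * Q y) / ph y := by unfold mm; ring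
    rw [h5, div_mul_eq_mul_div, div_le_div_iff₀ (by positivity) h2]
    nlinarith [mul_le_mul_of_nonneg_left h1.le (mul_nonneg h3.le h)]

lemma mm_lower' {y : ℝ} (h : 0 ≤ y) : y ^ 2 / (1 + y ^ 2) * Ph y ≤ y * mm y := by
  rcases mm_lower (y := y) with h' | h'
  · exact h'
  · exact absurd h' (not_lt.2 h)

/-! ### enclosures -/

/-- a generic one-sided estimate: `|f'| ≤ g'` and `|f 0| ≤ g 0` give `|f| ≤ g` to the right -/
lemma abs_le_right {a b : ℝ} {f f' g g' : ℝ → ℝ}
    (hf : ∀ y ∈ Icc a b, HasDerivAt f (f' y) y) (hg : ∀ y ∈ Icc a b, HasDerivAt g (g' y) y)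
    (h : ∀ y ∈ Icc a b, |f' y| ≤ g' y) (h0 : |f a| ≤ g a) :
    ∀ y ∈ Icc a b, |f y| ≤ g y := by
  intro y hy
  have hsub : ∀ z ∈ Icc a y, z ∈ Icc a b := fun z hz => ⟨hz.1, hz.2.trans hy.2⟩
  have hint : ∀ z ∈ interior (Icc a y), z ∈ Icc a b := fun z hz => hsub z (interior_subset hz)
  have m1 : MonotoneOn (fun z => g z - f z) (Icc a y) := by
    refine monotoneOn_of_deriv_nonneg (convex_Icc a y) ?_ ?_ ?_
    · exact fun z hz => ((hg z (hsub z hz)).sub (hf z (hsub z hz))).continuousAt.continuousWithinAt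
    · exact fun z hz =>
        ((hg z (hint z hz)).sub (hf z (hint z hz))).differentiableAt.differentiableWithinAt
    · intro z hz
      have hd := ((hg z (hint z hz)).sub (hf z (hint z hz))).deriv
      have : deriv (fun z => g z - f z) z = g' z - f' z := hd
      rw [this]
      linarith [le_abs_self (f' z), h z (hint z hz)]
  have m2 : MonotoneOn (fun z => g z + f z) (Icc a y) := by
    refine monotoneOn_of_deriv_nonneg (convex_Icc a y) ?_ ?_ ?_
    · exact fun z hz => ((hg z (hsub z hz)).add (hf z (hsub z hz))).continuousAt.continuousWithinAt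
    · exact fun z hz =>
        ((hg z (hint z hz)).add (hf z (hint z hz))).differentiableAt.differentiableWithinAt
    · intro z hz
      have hd := ((hg z (hint z hz)).add (hf z (hint z hz))).deriv
      have : deriv (fun z => g z + f z) z = g' z + f' z := hd
      rw [this]
      linarith [neg_abs_le (f' z), h z (hint z hz)]
  have ha : a ∈ Icc a y := ⟨le_rfl, hy.1⟩
  have hy' : y ∈ Icc a y := ⟨hy.1, le_rfl⟩
  have e1 := m1 ha hy' hy.1
  have e2 := m2 ha hy' hy.1
  simp only at e1 e2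
  rw [abs_le] at h0 ⊢
  constructor <;> linarith

lemma encl_ph_right {b c δ : ℝ} {p p1 : ℝ → ℝ} (hδ : 0 ≤ δ)
    (hp : ∀ y ∈ Icc 0 b, HasDerivAt p (p1 y) y) (h : ∀ y ∈ Icc 0 b, |p1 y + y * p y| ≤ δ)
    (h0 : |p 0 - ph 0| ≤ c) : ∀ y ∈ Icc 0 b, |p y - ph y| ≤ c + δ * y := by
  intro y hy
  have key := abs_le_right (a := 0) (b := b) (f := fun y => (p y - ph y) * rexp (y ^ 2 / 2))
    (f' := fun y => (p1 y + y * p y) * rexp (y ^ 2 / 2))
    (g := fun y => c + δ * (y * rexp (y ^ 2 / 2)))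
    (g' := fun y => δ * ((1 + y ^ 2) * rexp (y ^ 2 / 2)))
    (fun z hz => by
      have h2 : HasDerivAt (fun z : ℝ => z ^ 2 / 2) z z := by
        have := (hasDerivAt_pow 2 z).div_const 2
        refine this.congr_deriv ?_
        norm_num
      refine (((hp z hz).sub (ph_hasDerivAt z)).mul h2.exp).congr_deriv ?_
      simp only [Pi.sub_apply]
      ring)
    (fun z hz => by
      have h2 : HasDerivAt (fun z : ℝ => z ^ 2 / 2) z z := by
        have := (hasDerivAt_pow 2 z).div_const 2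
        refine this.congr_deriv ?_
        norm_num
      refine ((((hasDerivAt_id z).mul h2.exp).const_mul δ).const_add c).congr_deriv ?_
      simp only [id]
      ring)
    (fun z hz => by
      have h1 := h z hz
      rw [abs_mul, abs_of_pos (exp_pos _)]
      have h3 : 0 < rexp (z ^ 2 / 2) := exp_pos _
      nlinarith [mul_le_mul_of_nonneg_right h1 h3.le, mul_nonneg hδ (mul_nonneg (sq_nonneg z) h3.le)])
    (by simpa using h0) y hy
  simp only [abs_mul, abs_of_pos (exp_pos _)] at key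
  have h3 : 1 ≤ rexp (y ^ 2 / 2) := one_le_exp (by positivity)
  have h4 : 0 ≤ c := (abs_nonneg _).trans h0
  have h5 : 0 < rexp (y ^ 2 / 2) := exp_pos _
  have h6 : |p y - ph y| * rexp (y ^ 2 / 2) ≤ (c + δ * y) * rexp (y ^ 2 / 2) := by
    nlinarith [mul_le_mul_of_nonneg_left h3 h4]
  exact le_of_mul_le_mul_right h6 h5

lemma encl_ph {a b c δ : ℝ} {p p1 : ℝ → ℝ} (hδ : 0 ≤ δ)
    (hp : ∀ y, HasDerivAt p (p1 y) y) (h : ∀ y ∈ Icc a b, |p1 y + y * p y| ≤ δ) (ha : a ≤ 0)
    (hb : 0 ≤ b) (h0 : |p 0 - ph 0| ≤ c) : ∀ y ∈ Icc a b, |p y - ph y| ≤ c + δ * |y| := by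
  intro y hy
  rcases le_total 0 y with h1 | h1
  · rw [abs_of_nonneg h1]
    exact encl_ph_right hδ (fun z _ => hp z) (fun z hz => h z ⟨ha.trans hz.1, hz.2⟩) h0 y
      ⟨h1, hy.2⟩
  · rw [abs_of_nonpos h1]
    have := encl_ph_right (b := -a) (p := fun z => p (-z)) (p1 := fun z => -p1 (-z)) hδ
      (fun z _ => by
        have := (hp (-z)).comp z (hasDerivAt_neg z)
        simpa [Function.comp_def] using this)
      (fun z hz => by
        have := h (-z) ⟨by linarith [hz.2], by linarith [hz.1]⟩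
        rw [show -p1 (-z) + z * p (-z) = -(p1 (-z) + -z * p (-z)) by ring, abs_neg]
        exact this)
      (by simpa using h0) (-y) ⟨by linarith, by linarith [hy.1]⟩
    simpa [ph_neg] using this

lemma encl_Ph {a b c ε δ : ℝ} {p P P1 : ℝ → ℝ}
    (hP : ∀ y, HasDerivAt P (P1 y) y) (he : ∀ y ∈ Icc a b, |p y - ph y| ≤ ε)
    (h : ∀ y ∈ Icc a b, |P1 y - p y| ≤ δ) (ha : a ≤ 0) (hb : 0 ≤ b) (h0 : |P 0 - 1 / 2| ≤ c) :
    ∀ y ∈ Icc a b, |P y - Ph y| ≤ c + (δ + ε) * |y| := by
  have hd : ∀ y ∈ Icc a b, |P1 y - ph y| ≤ δ + ε := fun y hy => by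
    have := abs_add_le (P1 y - p y) (p y - ph y)
    rw [show P1 y - p y + (p y - ph y) = P1 y - ph y by ring] at this
    linarith [he y hy, h y hy]
  intro y hy
  rcases le_total 0 y with h1 | h1
  · rw [abs_of_nonneg h1]
    exact abs_le_right (a := 0) (b := b) (f := fun y => P y - Ph y) (f' := fun y => P1 y - ph y)
      (g := fun y => c + (δ + ε) * y) (g' := fun _ => δ + ε)
      (fun z _ => (hP z).sub (Ph_hasDerivAt z))
      (fun z _ => by simpa using ((hasDerivAt_id z).const_mul (δ + ε)).const_add c)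
      (fun z hz => hd z ⟨ha.trans hz.1, hz.2⟩) (by simpa [Ph_zero] using h0) y ⟨h1, hy.2⟩
  · rw [abs_of_nonpos h1]
    have := abs_le_right (a := 0) (b := -a) (f := fun y => P (-y) - Ph (-y))
      (f' := fun y => -(P1 (-y) - ph (-y)))
      (g := fun y => c + (δ + ε) * y) (g' := fun _ => δ + ε)
      (fun z _ => by
        have := ((hP (-z)).sub (Ph_hasDerivAt (-z))).comp z (hasDerivAt_neg z)
        simpa [Function.comp_def] using this)
      (fun z _ => by simpa using ((hasDerivAt_id z).const_mul (δ + ε)).const_add c)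
      (fun z hz => by
        rw [abs_neg]
        exact hd (-z) ⟨by linarith [hz.2], by linarith [hz.1]⟩)
      (by simpa [Ph_zero] using h0) (-y) ⟨by linarith, by linarith [hy.1]⟩
    simpa using this

/-- the Mills ratio is at most `√(π/2)`; crude form -/
lemma Q_le_two_ph {y : ℝ} (hy : 0 ≤ y) : Q y ≤ 2 * ph y := by
  -- `2 ph - Q` : at `y ≥ 1/2` Mills; on `[0, 1/2]` convexity-free crude bound
  rcases le_total (1 / 2) y with h | h
  · have h1 := mul_Q_lt y
    have h2 := Q_pos y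
    nlinarith [mul_le_mul_of_nonneg_right h h2.le]
  · have h1 : Q y ≤ Q 0 := Q_anti.antitone hy
    have h2 : Q 0 = 1 / 2 := by
      have := Ph_add 0
      rw [Ph_zero] at this
      linarith
    have h3 : (1 : ℝ) / 4 ≤ ph y := by
      unfold ph
      have e1 : √(2 * π) ≤ 51 / 20 := by
        rw [show (51 / 20 : ℝ) = √((51 / 20) ^ 2) from (sqrt_sq (by norm_num)).symm]
        apply sqrt_le_sqrt
        have := pi_lt_d2
        norm_num
        linarith
      have e0 : (0 : ℝ) < √(2 * π) := by positivity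
      have e2 : (20 / 51 : ℝ) ≤ (√(2 * π))⁻¹ := by
        rw [le_inv_comm₀ (by norm_num) e0]
        rw [show ((20 / 51 : ℝ))⁻¹ = 51 / 20 by norm_num]
        exact e1
      have e3 : (7 / 8 : ℝ) ≤ rexp (-(y ^ 2) / 2) := by
        have := add_one_le_exp (-(y ^ 2) / 2)
        have h5 : y ^ 2 ≤ 1 / 4 := by nlinarith
        linarith
      have e4 : (0 : ℝ) ≤ rexp (-(y ^ 2) / 2) := (exp_pos _).le
      calc (1 / 4 : ℝ) ≤ 20 / 51 * (7 / 8) := by norm_num
        _ ≤ (√(2 * π))⁻¹ * rexp (-(y ^ 2) / 2) := mul_le_mul e2 e3 (by norm_num) (by positivity)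
    linarith

lemma encl_mm_right {b B ε δ : ℝ} {P M M1 : ℝ → ℝ}
    (hM : ∀ y ∈ Icc 0 b, HasDerivAt M (M1 y) y) (he : ∀ y ∈ Icc 0 b, |P y - Ph y| ≤ ε)
    (h : ∀ y ∈ Icc 0 b, |M1 y - (1 - 2 * P y + y * M y)| ≤ δ) (hb : 0 ≤ b)
    (h0 : |M b - mm b| ≤ B) :
    ∀ y ∈ Icc 0 b, |M y - mm y| ≤ B * rexp ((y ^ 2 - b ^ 2) / 2) + 2 * (δ + 2 * ε) := by
  intro y hy
  have hB : 0 ≤ B := (abs_nonneg _).trans h0
  -- residual of the true function
  have hr : ∀ z ∈ Icc 0 b, |M1 z - (1 - 2 * Ph z + z * mm z) - z * (M z - mm z)| ≤ δ + 2 * ε := by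
    intro z hz
    have e1 := abs_add_le (M1 z - (1 - 2 * P z + z * M z)) (-2 * (P z - Ph z))
    rw [show M1 z - (1 - 2 * P z + z * M z) + -2 * (P z - Ph z)
      = M1 z - (1 - 2 * Ph z + z * mm z) - z * (M z - mm z) by ring] at e1
    have e2 : |-2 * (P z - Ph z)| ≤ 2 * ε := by
      rw [abs_mul]
      norm_num
      exact he z hz
    linarith [h z hz]
  have hδε : 0 ≤ δ + 2 * ε := (abs_nonneg _).trans (hr b ⟨hb, le_rfl⟩)
  -- run backwards from `b`
  have key := abs_le_right (a := 0) (b := b)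
    (f := fun t => (M (b - t) - mm (b - t)) * rexp (-((b - t) ^ 2) / 2))
    (f' := fun t => -((M1 (b - t) - (1 - 2 * Ph (b - t) + (b - t) * mm (b - t))
      - (b - t) * (M (b - t) - mm (b - t))) * rexp (-((b - t) ^ 2) / 2)))
    (g := fun t => B * rexp (-(b ^ 2) / 2) + (δ + 2 * ε) * (√(2 * π) * Q (b - t)))
    (g' := fun t => (δ + 2 * ε) * (√(2 * π) * ph (b - t)))
    (fun t ht => by
      have hs : HasDerivAt (fun t : ℝ => b - t) (-1) t := by
        simpa using (hasDerivAt_id t).const_sub b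
      have ht' : b - t ∈ Icc 0 b := ⟨by linarith [ht.2], by linarith [ht.1]⟩
      have h2 : HasDerivAt (fun z : ℝ => -(z ^ 2) / 2) (-(b - t)) (b - t) := by
        have := ((hasDerivAt_pow 2 (b - t)).neg).div_const 2
        refine this.congr_deriv ?_
        norm_num
        try ring
      have h3 := (((hM _ ht').sub (mm_hasDerivAt (b - t))).mul h2.exp).comp t hs
      refine h3.congr_deriv ?_
      simp only [Pi.sub_apply]
      ring)
    (fun t ht => by
      have hs : HasDerivAt (fun t : ℝ => b - t) (-1) t := by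
        simpa using (hasDerivAt_id t).const_sub b
      have h3 := ((((Q_hasDerivAt (b - t)).comp t hs).const_mul (√(2 * π))).const_mul
        (δ + 2 * ε)).const_add (B * rexp (-(b ^ 2) / 2))
      refine h3.congr_deriv ?_
      ring)
    (fun t ht => by
      have ht' : b - t ∈ Icc 0 b := ⟨by linarith [ht.2], by linarith [ht.1]⟩
      have e0 : (0 : ℝ) < √(2 * π) := by positivity
      have e1 : √(2 * π) * ph (b - t) = rexp (-((b - t) ^ 2) / 2) := by
        unfold ph
        field_simp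
      rw [abs_neg, abs_mul, abs_of_pos (exp_pos _), e1]
      exact mul_le_mul_of_nonneg_right (hr _ ht') (exp_pos _).le)
    (by
      simp only [sub_zero, abs_mul, abs_of_pos (exp_pos _)]
      have : 0 ≤ (δ + 2 * ε) * (√(2 * π) * Q b) :=
        mul_nonneg hδε (mul_nonneg (sqrt_nonneg _) (Q_pos b).le)
      have := mul_le_mul_of_nonneg_right h0 (exp_pos (-(b ^ 2) / 2)).le
      linarith)
    (b - y) ⟨by linarith [hy.2], by linarith [hy.1]⟩
  simp only [sub_sub_cancel, abs_mul, abs_of_pos (exp_pos _)] at key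
  have e1 : √(2 * π) * Q y ≤ 2 * rexp (-(y ^ 2) / 2) := by
    have h1 := Q_le_two_ph hy.1
    have h2 := mul_le_mul_of_nonneg_left h1 (sqrt_nonneg (2 * π))
    have e0 : (0 : ℝ) < √(2 * π) := by positivity
    have e1 : √(2 * π) * ph y = rexp (-(y ^ 2) / 2) := by
      unfold ph
      field_simp
    linarith
  have e2 : rexp (-(b ^ 2) / 2) = rexp ((y ^ 2 - b ^ 2) / 2) * rexp (-(y ^ 2) / 2) := by
    rw [← exp_add]
    congr 1
    ring
  have e3 : 0 < rexp (-(y ^ 2) / 2) := exp_pos _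
  have e4 : |M y - mm y| * rexp (-(y ^ 2) / 2)
      ≤ (B * rexp ((y ^ 2 - b ^ 2) / 2) + 2 * (δ + 2 * ε)) * rexp (-(y ^ 2) / 2) := by
    have := mul_le_mul_of_nonneg_left e1 hδε
    rw [e2] at key
    nlinarith
  exact le_of_mul_le_mul_right e4 e3

end

end Crest.Agent.R146.GaussA_889
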