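import Crest.Agent.R146.GaussA_889
import Crest.Agent.R146.PP_865

/-!
# Row 146, helper889: Gaussian functions, enclosures by piecewise polynomials (format of `PP_865`)

For a certificate `p :: ps` whose columns `k0, k1, k2` approximate `ph, Ph, mm` on `[-b, b]`, the
Boolean tests `ckRes` (residuals of the three differential equations) and `atHi` (values at `0` and
at `b`) give certified error bounds (`encl_all`).
-/

set_option autoImplicit false

namespace Crest.Agent.R146.GaussB_889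

open Set Real
open Crest.Agent.R253.Mills37
open Crest.Agent.R146.GaussA_889
open Crest.Agent.R146.PP865 Crest.Agent.R146.PP865.Ex

/-- `|e| < d / 2 ^ E` on all pieces -/
def ckAbs (P n : ℕ) (e : Ex) (d : ℤ) (E : ℕ) (p : Pc) (ps : List Pc) : Bool :=
  check P n (cst d E + e) p ps && check P n (cst d E - e) p ps

theorem ckAbs_sound {P n : ℕ} {e : Ex} {d : ℤ} {E : ℕ} {p : Pc} {ps : List Pc}
    (ha : chain adj p ps = true) (h : ckAbs P n e d E p ps = true) {z : ℝ}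
    (h1 : p.lo ≤ z) (h2 : z ≤ hiL p ps) :
    |e.evR (fun i => val (fun k => Fn P k p ps) (fun k => Fn1 P k p ps)
      (fun k => Fn2 P k p ps) i z)| ≤ (d : ℝ) / 2 ^ E := by
  simp only [ckAbs, Bool.and_eq_true] at h
  have e1 := check_sound ha h.1 z h1 h2
  have e2 := check_sound ha h.2 z h1 h2
  simp only [evR_add, evR_sub, evR_cst] at e1 e2
  rw [abs_le]
  constructor <;> linarith

/-- the scaled value of column `k` at the point `a / 2 ^ J`, the right end of a piece -/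
def atHi (k : ℕ) (a : ℤ) (J : ℕ) : Pc → List Pc → Option ℤ
  | p, [] => if (p.c + 1) * 2 ^ J = a * 2 ^ p.j then some (evZ (p.f.getD k []) 1) else none
  | p, q :: ps => if (p.c + 1) * 2 ^ J = a * 2 ^ p.j then some (evZ (p.f.getD k []) 1)
      else if (p.c + 1) * 2 ^ J < a * 2 ^ p.j then atHi k a J q ps else none

theorem hi_eq {p : Pc} {a : ℤ} {J : ℕ} (h : (p.c + 1) * 2 ^ J = a * 2 ^ p.j) :
    (a : ℝ) / 2 ^ J = p.hi := by
  have h' : ((p.c : ℝ) + 1) * 2 ^ J = (a : ℝ) * 2 ^ p.j := by exact_mod_cast h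
  unfold Pc.hi
  rw [div_eq_div_iff (by positivity) (by positivity)]
  exact h'.symm

theorem atHi_sound {P k : ℕ} {a : ℤ} {J : ℕ} {N : ℤ} : ∀ {p : Pc} {ps : List Pc},
    atHi k a J p ps = some N → Fn P k p ps ((a : ℝ) / 2 ^ J) = (N : ℝ) / 2 ^ P
  | p, [], h => by
    unfold atHi at h
    split_ifs at h with h1
    rw [hi_eq h1]
    simp only [Option.some.injEq] at h
    show Pc.v0 P k p p.hi = _
    unfold Pc.v0
    rw [p.loc_hi, ← h]
    have e1 := ev_intCast (p.f.getD k []) 1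
    push_cast at e1
    rw [e1]
  | p, q :: ps, h => by
    unfold atHi at h
    split_ifs at h with h1 h2
    · rw [hi_eq h1]
      simp only [Option.some.injEq] at h
      show sel (Pc.v0 P k) p (q :: ps) p.hi = _
      rw [sel_of_le le_rfl]
      unfold Pc.v0
      rw [p.loc_hi, ← h]
      have e1 := ev_intCast (p.f.getD k []) 1
      push_cast at e1
      rw [e1]
    · have ih := atHi_sound (P := P) h
      have h3 : p.hi < (a : ℝ) / 2 ^ J := by
        have h' : ((p.c : ℝ) + 1) * 2 ^ J < (a : ℝ) * 2 ^ p.j := by exact_mod_cast h2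
        unfold Pc.hi
        rw [div_lt_div_iff₀ (by positivity) (by positivity)]
        exact h'
      rw [← ih]
      show sel (Pc.v0 P k) p (q :: ps) _ = sel (Pc.v0 P k) q ps _
      simp [sel, not_le.2 h3]

/-! ### numerical values -/

lemma ph_zero_bounds : |ph 0 - 398942280401432678 / 10 ^ 18| ≤ 1 / 10 ^ 18 := by
  have e : ph 0 = (√(2 * π))⁻¹ := by unfold ph; simp
  have h1 := pi_gt_d20
  have h2 := pi_lt_d20
  have e0 : (0 : ℝ) < √(2 * π) := by positivity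
  have hs : √(2 * π) ^ 2 = 2 * π := sq_sqrt (by positivity)
  have a1 : √(2 * π) ≤ (398942280401432677 / 10 ^ 18)⁻¹ := by
    rw [show ((398942280401432677 / 10 ^ 18 : ℝ))⁻¹ = √(((398942280401432677 / 10 ^ 18)⁻¹) ^ 2) from
      (sqrt_sq (by positivity)).symm]
    apply sqrt_le_sqrt
    norm_num at h2 ⊢
    linarith
  have a2 : (398942280401432679 / 10 ^ 18 : ℝ)⁻¹ ≤ √(2 * π) := by
    rw [show ((398942280401432679 / 10 ^ 18 : ℝ))⁻¹ = √(((398942280401432679 / 10 ^ 18)⁻¹) ^ 2) from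
      (sqrt_sq (by positivity)).symm]
    apply sqrt_le_sqrt
    norm_num at h1 ⊢
    linarith
  rw [e]
  have b1 : (398942280401432677 / 10 ^ 18 : ℝ) ≤ (√(2 * π))⁻¹ := by
    rw [le_inv_comm₀ (by norm_num) e0]
    exact a1
  have b2 : (√(2 * π))⁻¹ ≤ (398942280401432679 / 10 ^ 18 : ℝ) := by
    rw [inv_le_comm₀ e0 (by norm_num)]
    exact a2
  rw [abs_le]
  constructor
  · norm_num at b1 ⊢
    linarith
  · norm_num at b2 ⊢
    linarith

/-- sharper Mills bound: `(y^3 + 3y) Q < (y^2 + 2) ph` -/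
lemma M3_form (y : ℝ) : (y ^ 3 + 3 * y) * Q y < (y ^ 2 + 2) * ph y := by
  have := M3_pos y
  unfold M3 M2 M1 at this
  nlinarith

lemma Q_small {y : ℝ} (hy : 8 ≤ y) : Q y ≤ 1 / 10 ^ 9 := by
  have h1 := mul_Q_lt y
  have h2 := Q_pos y
  have h3 : ph y ≤ 1 / 10 ^ 9 := by
    unfold ph
    have e0 : (√(2 * π))⁻¹ ≤ 1 := by
      apply inv_le_one_of_one_le₀
      rw [show (1 : ℝ) = √1 by simp]
      apply sqrt_le_sqrt
      have := pi_gt_three
      linarith
    have e1 : rexp (-(y ^ 2) / 2) ≤ rexp (-32) := exp_le_exp.2 (by nlinarith)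
    have e2 : rexp (-32) ≤ 1 / 10 ^ 9 := by
      rw [exp_neg, show (32 : ℝ) = ((32 : ℕ) : ℝ) * 1 by norm_num, exp_nat_mul, one_div]
      apply inv_anti₀ (by norm_num)
      have := exp_one_gt_d9
      calc (10 : ℝ) ^ 9 ≤ 2 ^ 32 := by norm_num
        _ ≤ rexp 1 ^ 32 := by gcongr; linarith
    have e3 : 0 < rexp (-(y ^ 2) / 2) := exp_pos _
    calc (√(2 * π))⁻¹ * rexp (-(y ^ 2) / 2) ≤ 1 * rexp (-(y ^ 2) / 2) := by gcongr
      _ ≤ _ := by linarith
  nlinarith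

/-- `mm 8` to `3e-5` -/
lemma mm_eight : |mm 8 - 6155 / 50000| ≤ 1 / 20000 := by
  have h1 := mul_ph_lt 8
  have h2 := M3_form 8
  have h3 := ph_pos 8
  have h4 := Q_small (le_refl (8 : ℝ))
  have h5 := Q_pos 8
  have e : mm 8 = (1 - Q 8) * (Q 8 / ph 8) := by unfold mm; rw [Ph_eq_sub]; ring
  have a1 : Q 8 / ph 8 ≤ 66 / 536 := by
    rw [div_le_div_iff₀ h3 (by norm_num)]
    norm_num at h2
    linarith
  have a2 : 8 / 65 ≤ Q 8 / ph 8 := by
    rw [div_le_div_iff₀ (by norm_num) h3]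
    norm_num at h1
    linarith
  rw [e, abs_le]
  norm_num at h4 a1 a2 ⊢
  constructor <;> nlinarith

/-- tests for the residuals; `d/2^E` bounds all three residuals -/
def ckRes (P n k0 k1 k2 : ℕ) (d : ℤ) (E : ℕ) (p : Pc) (ps : List Pc) : Bool :=
  ckAbs P n (var (3 * k0 + 2) + var 0 * var (3 * k0 + 1)) d E p ps &&
  ckAbs P n (var (3 * k1 + 2) - var (3 * k0 + 1)) d E p ps &&
  ckAbs P n (var (3 * k2 + 2) - (1 - 2 * var (3 * k1 + 1) + var 0 * var (3 * k2 + 1))) d E p ps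

lemma val1 (g0 g1 g2 : ℕ → ℝ → ℝ) (k : ℕ) (z : ℝ) : val g0 g1 g2 (3 * k + 1) z = g0 k z := by
  unfold val
  have : (3 * k) % 3 = 0 := by omega
  have h : (3 * k) / 3 = k := by omega
  simp only [this, h]

lemma val2 (g0 g1 g2 : ℕ → ℝ → ℝ) (k : ℕ) (z : ℝ) : val g0 g1 g2 (3 * k + 2) z = g1 k z := by
  unfold val
  have : (3 * k + 1) % 3 = 1 := by omega
  have h : (3 * k + 1) / 3 = k := by omega
  simp only [this, h]

/-- Error bounds for the three columns on `[-8, 8]`. -/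
theorem encl_all {P n K k0 k1 k2 : ℕ} {d : ℤ} {E : ℕ} {p : Pc} {ps : List Pc} {N0 N1 N2 N3 : ℤ}
    (hs : smooth K p ps = true) (h0 : k0 < K) (h1 : k1 < K) (h2 : k2 < K)
    (hlo : p.lo = -8) (hhi : hiL p ps = 8)
    (hr : ckRes P n k0 k1 k2 d E p ps = true)
    (hN0 : atHi k0 0 0 p ps = some N0) (hN1 : atHi k1 0 0 p ps = some N1)
    (hN2 : atHi k2 8 0 p ps = some N2) (hN3 : evZ (p.f.getD k2 []) (-1) = N3)
    {c : ℝ} (hc0 : |(N0 : ℝ) / 2 ^ P - ph 0| ≤ c) (hc1 : |(N1 : ℝ) / 2 ^ P - 1 / 2| ≤ c)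
    {B : ℝ} (hc2 : |(N2 : ℝ) / 2 ^ P - mm 8| ≤ B) (hc3 : |(N3 : ℝ) / 2 ^ P - mm 8| ≤ B) :
    (∀ y ∈ Icc (-8 : ℝ) 8, |Fn P k0 p ps y - ph y| ≤ c + 8 * (d / 2 ^ E)) ∧
    (∀ y ∈ Icc (-8 : ℝ) 8, |Fn P k1 p ps y - Ph y| ≤ 9 * c + 72 * (d / 2 ^ E)) ∧
    (∀ y ∈ Icc (-8 : ℝ) 8, |Fn P k2 p ps y - mm y| ≤
      B * rexp ((y ^ 2 - 64) / 2) + 2 * ((d / 2 ^ E) + 2 * (9 * c + 72 * (d / 2 ^ E)))) := by
  have hadj : chain adj p ps = true := by
    simp only [smooth, Bool.and_eq_true] at hs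
    exact hs.1
  simp only [ckRes, Bool.and_eq_true] at hr
  have hin : ∀ y ∈ Icc (-8 : ℝ) 8, p.lo ≤ y ∧ y ≤ hiL p ps := fun y hy => by
    rw [hlo, hhi]; exact ⟨hy.1, hy.2⟩
  have hδ : 0 ≤ (d : ℝ) / 2 ^ E := by
    have := ckAbs_sound hadj hr.1.1 (z := 0) (hin 0 (by norm_num)).1 (hin 0 (by norm_num)).2
    exact (abs_nonneg _).trans this
  have r0 : ∀ y ∈ Icc (-8 : ℝ) 8, |Fn1 P k0 p ps y + y * Fn P k0 p ps y| ≤ (d : ℝ) / 2 ^ E := by
    intro y hy
    have := ckAbs_sound hadj hr.1.1 (hin y hy).1 (hin y hy).2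
    simp only [evR_add, evR_mul, evR_var, val1, val2] at this
    exact this
  have r1 : ∀ y ∈ Icc (-8 : ℝ) 8, |Fn1 P k1 p ps y - Fn P k0 p ps y| ≤ (d : ℝ) / 2 ^ E := by
    intro y hy
    have := ckAbs_sound hadj hr.1.2 (hin y hy).1 (hin y hy).2
    simp only [evR_sub, evR_var, val1, val2] at this
    exact this
  have r2 : ∀ y ∈ Icc (-8 : ℝ) 8, |Fn1 P k2 p ps y - (1 - 2 * Fn P k1 p ps y
      + y * Fn P k2 p ps y)| ≤ (d : ℝ) / 2 ^ E := by
    intro y hy
    have := ckAbs_sound hadj hr.2 (hin y hy).1 (hin y hy).2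
    simp only [evR_sub, evR_add, evR_mul, evR_var, val1, val2] at this
    have e1 : (1 : Ex).evR (fun i => val (fun k => Fn P k p ps) (fun k => Fn1 P k p ps)
      (fun k => Fn2 P k p ps) i y) = 1 := by
      have := evR_ofNat (fun i => val (fun k => Fn P k p ps) (fun k => Fn1 P k p ps)
        (fun k => Fn2 P k p ps) i y) 1
      simpa using this
    have e2 : (2 : Ex).evR (fun i => val (fun k => Fn P k p ps) (fun k => Fn1 P k p ps)
      (fun k => Fn2 P k p ps) i y) = 2 := by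
      have := evR_ofNat (fun i => val (fun k => Fn P k p ps) (fun k => Fn1 P k p ps)
        (fun k => Fn2 P k p ps) i y) 2
      simpa using this
    rw [e1, e2] at this
    exact this
  have s0 := smooth_sound hs h0 P
  have s1 := smooth_sound hs h1 P
  have s2 := smooth_sound hs h2 P
  have v0 : Fn P k0 p ps 0 = N0 / 2 ^ P := by simpa using atHi_sound (P := P) hN0
  have v1 : Fn P k1 p ps 0 = N1 / 2 ^ P := by simpa using atHi_sound (P := P) hN1
  have v2 : Fn P k2 p ps 8 = N2 / 2 ^ P := by simpa using atHi_sound (P := P) hN2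
  have v3 : Fn P k2 p ps (-8) = N3 / 2 ^ P := by
    rw [← hlo]
    show sel (Pc.v0 P k2) p ps p.lo = _
    rw [sel_of_le p.lo_lt_hi.le]
    unfold Pc.v0
    rw [p.loc_lo, ← hN3]
    have e1 := ev_intCast (p.f.getD k2 []) (-1)
    push_cast at e1
    rw [e1]
  have hc : 0 ≤ c := (abs_nonneg _).trans hc0
  have E0 : ∀ y ∈ Icc (-8 : ℝ) 8, |Fn P k0 p ps y - ph y| ≤ c + 8 * (d / 2 ^ E) := by
    intro y hy
    have := encl_ph (c := c) hδ (fun z => (s0 z).1) r0 (by norm_num) (by norm_num)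
      (by rw [v0]; exact hc0) y hy
    have hy8 : |y| ≤ 8 := abs_le.2 ⟨hy.1, hy.2⟩
    nlinarith [mul_le_mul_of_nonneg_left hy8 hδ]
  have E1 : ∀ y ∈ Icc (-8 : ℝ) 8, |Fn P k1 p ps y - Ph y| ≤ 9 * c + 72 * (d / 2 ^ E) := by
    intro y hy
    have := encl_Ph (c := c) (fun z => (s1 z).1) E0 r1 (by norm_num) (by norm_num)
      (by rw [v1]; exact hc1) y hy
    have hy8 : |y| ≤ 8 := abs_le.2 ⟨hy.1, hy.2⟩
    nlinarith [mul_le_mul_of_nonneg_left hy8 hδ, mul_le_mul_of_nonneg_left hy8 hc]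
  refine ⟨E0, E1, fun y hy => ?_⟩
  rcases le_total 0 y with hy0 | hy0
  · have hsub : ∀ z ∈ Icc (0 : ℝ) 8, z ∈ Icc (-8 : ℝ) 8 := fun z hz => ⟨by linarith [hz.1], hz.2⟩
    have := encl_mm_right (b := 8) (B := B) (fun z _ => (s2 z).1) (fun z hz => E1 z (hsub z hz))
      (fun z hz => r2 z (hsub z hz)) (by norm_num) (by rw [v2]; exact hc2) y ⟨hy0, hy.2⟩
    convert this using 4
    norm_num
  · have hsub : ∀ z ∈ Icc (0 : ℝ) 8, -z ∈ Icc (-8 : ℝ) 8 := fun z hz =>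
      ⟨by linarith [hz.2], by linarith [hz.1]⟩
    have := encl_mm_right (b := 8) (B := B) (M := fun z => Fn P k2 p ps (-z))
      (M1 := fun z => -Fn1 P k2 p ps (-z)) (P := fun z => 1 - Fn P k1 p ps (-z))
      (ε := 9 * c + 72 * (d / 2 ^ E)) (δ := d / 2 ^ E)
      (fun z _ => by
        have := (s2 (-z)).1.comp z (hasDerivAt_neg z)
        simpa [Function.comp_def] using this)
      (fun z hz => by
        have := E1 (-z) (hsub z hz)
        rw [Ph_neg] at this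
        rw [show 1 - Fn P k1 p ps (-z) - Ph z = -(Fn P k1 p ps (-z) - (1 - Ph z)) by ring, abs_neg]
        exact this)
      (fun z hz => by
        have := r2 (-z) (hsub z hz)
        rw [show -Fn1 P k2 p ps (-z) - (1 - 2 * (1 - Fn P k1 p ps (-z)) + z * Fn P k2 p ps (-z))
          = -(Fn1 P k2 p ps (-z) - (1 - 2 * Fn P k1 p ps (-z) + -z * Fn P k2 p ps (-z))) by ring,
          abs_neg]
        exact this)
      (by norm_num) (by rw [v3]; exact hc3) (-y) ⟨by linarith, by linarith [hy.1]⟩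
    simp only [neg_neg, mm_neg] at this
    convert this using 4
    norm_num

/-- The tail factor on `[-6, 6]`. -/
lemma tail_factor {y : ℝ} (hy : |y| ≤ 6) : rexp ((y ^ 2 - 64) / 2) ≤ 1 / 10 ^ 6 := by
  have h1 : y ^ 2 ≤ 36 := by
    have := sq_abs y
    nlinarith [abs_nonneg y]
  have e1 : rexp ((y ^ 2 - 64) / 2) ≤ rexp (-14) := exp_le_exp.2 (by linarith)
  have e2 : rexp (-14) ≤ 1 / 10 ^ 6 := by
    rw [exp_neg, show (14 : ℝ) = ((14 : ℕ) : ℝ) * 1 by norm_num, exp_nat_mul, one_div]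
    apply inv_anti₀ (by norm_num)
    have := exp_one_gt_d9
    calc (10 : ℝ) ^ 6 ≤ (27 / 10) ^ 14 := by norm_num
      _ ≤ rexp 1 ^ 14 := by gcongr; linarith
  exact e1.trans e2

end Crest.Agent.R146.GaussB_889
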