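import Crest.Agent.R146.McD_840
import Crest.Agent.R146.Large_840

/-!
# Row 146, node (H1) of LOCUB: the high region (helper840)

No unit vector whose mass is concentrated on few coordinates has small truncated quadratic energy.
The constant depends on the density only, uniformly over all good coordinate laws.
-/

set_option autoImplicit false

open MeasureTheory ProbabilityTheory Set Filter Crest.Agent.R146.RepairLaw_840
  Crest.Agent.R146.RepairNet_840 Crest.Agent.R146.Large_840 Crest.Agent.R146.McD_840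
  Crest.ProbabilityR.Perceptron
open scoped ENNReal NNReal Topology

namespace Crest.Agent.R146.High_840

/-- truncated penalty at margin `-1` -/
noncomputable def TR (R x : ℝ) : ℝ := min (max (-1 - x) 0) R

lemma TR_nonneg {R : ℝ} (hR : 0 ≤ R) (x : ℝ) : 0 ≤ TR R x := le_min (le_max_right _ _) hR

lemma TR_le {R : ℝ} (x : ℝ) : TR R x ≤ R := min_le_right _ _

lemma TR_sub_le (R x y : ℝ) : TR R x - TR R y ≤ |x - y| := by
  have h1 : -1 - x ≤ -1 - y + |x - y| := by
    have := neg_abs_le (x - y)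
    linarith
  have h0 : 0 ≤ |x - y| := abs_nonneg _
  have h2 : max (-1 - x) 0 ≤ max (-1 - y) 0 + |x - y| := by
    refine max_le ?_ ?_
    · have := le_max_left (-1 - y) 0
      linarith
    · have := le_max_right (-1 - y) 0
      linarith
  have h3 : TR R x ≤ TR R y + |x - y| := by
    unfold TR
    rcases le_total (max (-1 - y) 0) R with h | h
    · rw [min_eq_left h]
      exact (min_le_left _ _).trans h2
    · rw [min_eq_right h]
      exact (min_le_right _ _).trans (by linarith)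
  linarith

lemma abs_TR_sub_le (R x y : ℝ) : |TR R x - TR R y| ≤ |x - y| := by
  rw [abs_le]
  constructor
  · have := TR_sub_le R y x
    rw [abs_sub_comm y x] at this
    linarith
  · exact TR_sub_le R x y

lemma measurable_TR (R : ℝ) : Measurable (TR R) :=
  ((measurable_const.sub measurable_id).max measurable_const).min measurable_const

section fixed

variable {κ J : Type*} [Fintype κ] [Fintype J]

/-- one direction: lower tail of the truncated energy -/
lemma fixed_direction {ν : Measure ℝ} [IsProbabilityMeasure ν] (u : J → ℝ) (R q t x : ℝ)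
    (hR : 0 < R) (ht : 0 ≤ t)
    (hq : q ≤ ∫ z, TR R (lin u z) ^ 2 ∂(Measure.pi fun _ : J => ν))
    (hx : x ≤ Fintype.card κ * q - t) :
    (Measure.pi fun _ : κ × J => ν) {A | ∑ a, TR R (lin u (fun j => A (a, j))) ^ 2 ≤ x}
      ≤ ENNReal.ofReal (Real.exp (-2 * t ^ 2 / (Fintype.card κ * (R ^ 2) ^ 2))) := by
  classical
  set G : Measure (J → ℝ) := Measure.pi fun _ : J => ν with hG
  have hTm : Measurable fun z : J → ℝ => TR R (lin u z) ^ 2 :=
    ((measurable_TR R).comp (measurable_lin u)).pow_const 2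
  have hTb : ∀ z : J → ℝ, 0 ≤ TR R (lin u z) ^ 2 ∧ TR R (lin u z) ^ 2 ≤ R ^ 2 := fun z =>
    ⟨sq_nonneg _, pow_le_pow_left₀ (TR_nonneg hR.le _) (TR_le _) 2⟩
  set F : (κ → J → ℝ) → ℝ := fun B => ∑ a, TR R (lin u (B a)) ^ 2 with hF
  have hFm : Measurable F := Finset.measurable_sum _ fun a _ => hTm.comp (measurable_pi_apply a)
  have hFB : ∀ B, |F B| ≤ Fintype.card κ * R ^ 2 := by
    intro B
    rw [abs_of_nonneg (Finset.sum_nonneg fun a _ => (hTb _).1)]
    calc F B ≤ ∑ _a : κ, R ^ 2 := Finset.sum_le_sum fun a _ => (hTb _).2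
      _ = Fintype.card κ * R ^ 2 := by rw [Finset.sum_const, Finset.card_univ, nsmul_eq_mul]
  have hFc : ∀ (B : κ → J → ℝ) (i : κ) (z : J → ℝ), F B - F (Function.update B i z) ≤ R ^ 2 := by
    intro B i z
    have h1 : F B - F (Function.update B i z) = TR R (lin u (B i)) ^ 2 - TR R (lin u z) ^ 2 := by
      rw [hF]
      simp only
      rw [← Finset.sum_sub_distrib]
      rw [Finset.sum_eq_single i]
      · simp
      · intro b _ hb
        rw [Function.update_of_ne hb, sub_self]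
      · intro h
        exact absurd (Finset.mem_univ i) h
    rw [h1]
    have h2 := (hTb (B i)).2
    have h3 := (hTb z).1
    linarith
  have hmcd := mcdiarmid_lower G (R ^ 2) (by positivity) (Fintype.card κ * R ^ 2) F hFm hFB hFc t ht
  have hint : Integrable (fun z : J → ℝ => TR R (lin u z) ^ 2) G :=
    Integrable.of_bound hTm.aestronglyMeasurable (R ^ 2) (Eventually.of_forall fun z => by
      rw [Real.norm_of_nonneg (hTb z).1]; exact (hTb z).2)
  have hmean : Fintype.card κ * q ≤ ∫ B, F B ∂(Measure.pi fun _ : κ => G) := by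
    rw [hF]
    simp only
    rw [integral_finsetSum]
    · have h1 : ∀ a : κ, ∫ B : κ → J → ℝ, TR R (lin u (B a)) ^ 2 ∂(Measure.pi fun _ : κ => G)
          = ∫ z, TR R (lin u z) ^ 2 ∂G := by
        intro a
        have hmp := measurePreserving_eval (fun _ : κ => G) a
        have h2 : ∫ z, TR R (lin u z) ^ 2 ∂((Measure.pi fun _ : κ => G).map (Function.eval a))
            = ∫ B : κ → J → ℝ, TR R (lin u (B a)) ^ 2 ∂(Measure.pi fun _ : κ => G) :=
          integral_map (measurable_pi_apply a).aemeasurable hTm.aestronglyMeasurable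
        rw [← h2, hmp.map_eq]
      simp_rw [h1]
      rw [Finset.sum_const, Finset.card_univ, nsmul_eq_mul]
      gcongr
    · intro a _
      have hmp := measurePreserving_eval (fun _ : κ => G) a
      exact hmp.integrable_comp_of_integrable hint
  have hm : Measurable (fun B : κ → J → ℝ => fun p : κ × J => B p.1 p.2) :=
    measurable_pi_lambda _ fun p => (measurable_pi_apply p.2).comp (measurable_pi_apply p.1)
  have hset : MeasurableSet {A : κ × J → ℝ | ∑ a, TR R (lin u (fun j => A (a, j))) ^ 2 ≤ x} := by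
    refine measurableSet_le (Finset.measurable_sum _ fun a _ => hTm.comp ?_) measurable_const
    exact measurable_pi_lambda _ fun j => measurable_pi_apply _
  rw [pi_eq_map_rows ν, Measure.map_apply hm hset]
  refine le_trans (measure_mono ?_) hmcd
  intro B hB
  have hB' : F B ≤ x := hB
  show F B ≤ (∫ B, F B ∂(Measure.pi fun _ : κ => G)) - t
  linarith

/-- Minkowski for the truncated energies -/
lemma sqrt_energy_le (A : κ × J → ℝ) (R K : ℝ) (hK : 0 ≤ K)
    (hop : ∀ l : κ → ℝ, ‖vec A l‖ ≤ K * √(∑ a, l a ^ 2)) (y z : J → ℝ) :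
    √(∑ a, TR R (lin z (fun j => A (a, j))) ^ 2)
      ≤ √(∑ a, TR R (lin y (fun j => A (a, j))) ^ 2) + K * √(∑ j, (z j - y j) ^ 2) := by
  set v : EuclideanSpace ℝ κ := WithLp.toLp 2 fun a => TR R (lin z (fun j => A (a, j))) with hv
  set w : EuclideanSpace ℝ κ := WithLp.toLp 2 fun a => TR R (lin y (fun j => A (a, j))) with hw
  have h1 : ‖v‖ = √(∑ a, TR R (lin z (fun j => A (a, j))) ^ 2) := by
    rw [EuclideanSpace.norm_eq]; simp [hv]
  have h2 : ‖w‖ = √(∑ a, TR R (lin y (fun j => A (a, j))) ^ 2) := by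
    rw [EuclideanSpace.norm_eq]; simp [hw]
  rw [← h1, ← h2]
  have h3 : ‖v‖ ≤ ‖w‖ + ‖v - w‖ := by
    have := norm_add_le w (v - w)
    simpa using this
  refine h3.trans (add_le_add le_rfl ?_)
  have h4 : ‖v - w‖ = √(∑ a, (TR R (lin z (fun j => A (a, j)))
      - TR R (lin y (fun j => A (a, j)))) ^ 2) := by
    rw [EuclideanSpace.norm_eq]; simp [hv, hw]
  rw [h4, Real.sqrt_le_left (by positivity), mul_pow,
    Real.sq_sqrt (Finset.sum_nonneg fun _ _ => sq_nonneg _)]
  refine le_trans (Finset.sum_le_sum fun a _ => ?_) (sum_lin_sq_le A K hop fun j => z j - y j)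
  have h5 := abs_TR_sub_le R (lin z (fun j => A (a, j))) (lin y (fun j => A (a, j)))
  have h6 : lin (fun j => z j - y j) (fun j => A (a, j))
      = lin z (fun j => A (a, j)) - lin y (fun j => A (a, j)) := by
    simp only [lin]
    rw [← Finset.sum_sub_distrib]
    exact Finset.sum_congr rfl fun i _ => by ring
  rw [h6]
  rw [← sq_abs (TR R (lin z (fun j => A (a, j))) - TR R (lin y (fun j => A (a, j)))),
    ← sq_abs (lin z (fun j => A (a, j)) - lin y (fun j => A (a, j)))]
  exact pow_le_pow_left₀ (abs_nonneg _) h5 2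

end fixed

/-- a net point close to a vector with small mass outside `I` -/
lemma net_point {N : ℕ} (y : Fin N → ℝ) (hy : ∑ i, y i ^ 2 = 1) (I : Finset (Fin N)) {s : ℝ}
    (hyI : ∑ i ∈ Iᶜ, y i ^ 2 ≤ s) (hs1 : s < 1) {j : ℕ} (hj2 : (1 / 2 : ℝ) ^ j ≤ 1 / 2)
    (S : Finset (EuclideanSpace ℝ I))
    (hS : ∀ x : EuclideanSpace ℝ I, ‖x‖ ≤ 1 → ∃ c ∈ S, ‖x - c‖ ≤ (1 / 2) ^ j) :
    ∃ c ∈ S, 1 / 2 ≤ ‖c‖ ∧
      √(∑ i, (‖c‖⁻¹ * ext0 I c i - y i) ^ 2) ≤ √2 * √s + 2 * (1 / 2) ^ j := by
  set w : EuclideanSpace ℝ I := WithLp.toLp 2 fun i => y i with hw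
  have hwsq : ‖w‖ ^ 2 = ∑ i ∈ I, y i ^ 2 := by
    rw [EuclideanSpace.norm_sq_eq, ← Finset.sum_coe_sort I]
    refine Finset.sum_congr rfl fun i _ => ?_
    simp [hw]
  have hsplit : ‖w‖ ^ 2 + ∑ i ∈ Iᶜ, y i ^ 2 = 1 := by
    rw [hwsq, Finset.sum_add_sum_compl, hy]
  have hout0 : 0 ≤ ∑ i ∈ Iᶜ, y i ^ 2 := Finset.sum_nonneg fun _ _ => sq_nonneg _
  have hwle : ‖w‖ ≤ 1 := by
    have : ‖w‖ ^ 2 ≤ 1 := by linarith
    have h0 := norm_nonneg w
    nlinarith
  have hwpos : 0 < ‖w‖ := by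
    have h1 : 0 < ‖w‖ ^ 2 := by linarith
    rcases (norm_nonneg w).lt_or_eq with h | h
    · exact h
    · rw [← h] at h1
      norm_num at h1
  set u : EuclideanSpace ℝ I := ‖w‖⁻¹ • w with hu
  have hun : ‖u‖ = 1 := by
    rw [hu, norm_smul, norm_inv, norm_norm, inv_mul_cancel₀ hwpos.ne']
  obtain ⟨c, hc, huc⟩ := hS u hun.le
  have hchalf : 1 / 2 ≤ ‖c‖ := by
    have h1 : ‖u‖ ≤ ‖u - c‖ + ‖c‖ := by
      have := norm_add_le (u - c) c
      simpa using this
    linarith
  have hcpos : 0 < ‖c‖ := by linarith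
  refine ⟨c, hc, hchalf, ?_⟩
  set z : Fin N → ℝ := fun i => ‖c‖⁻¹ * ext0 I c i with hz
  -- three points in Euclidean space
  set Y : EuclideanSpace ℝ (Fin N) := WithLp.toLp 2 y with hY
  set Z : EuclideanSpace ℝ (Fin N) := WithLp.toLp 2 z with hZ
  set V : EuclideanSpace ℝ (Fin N) := WithLp.toLp 2 (ext0 I u) with hV
  have h1 : √(∑ i, (z i - y i) ^ 2) = ‖Z - Y‖ := by
    rw [EuclideanSpace.norm_eq]; simp [hZ, hY]
  show √(∑ i, (z i - y i) ^ 2) ≤ _
  rw [h1]
  have h2 : ‖Z - Y‖ ≤ ‖V - Y‖ + ‖Z - V‖ := by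
    have := norm_add_le (V - Y) (Z - V)
    have e : V - Y + (Z - V) = Z - Y := by abel
    rw [e] at this
    exact this
  have h3 : ‖V - Y‖ ≤ √2 * √s := by
    rw [← Real.sqrt_mul (by norm_num)]
    refine Real.le_sqrt_of_sq_le ?_
    have h4 : ‖V - Y‖ ^ 2 = ∑ i, (ext0 I u i - y i) ^ 2 := by
      rw [EuclideanSpace.norm_sq_eq]; simp [hV, hY]
    rw [h4, ← Finset.sum_add_sum_compl I]
    have h5 : ∑ i ∈ Iᶜ, (ext0 I u i - y i) ^ 2 = ∑ i ∈ Iᶜ, y i ^ 2 := by
      refine Finset.sum_congr rfl fun i hi => ?_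
      have : i ∉ I := Finset.mem_compl.1 hi
      simp [ext0, this]
    have h6 : ∑ i ∈ I, (ext0 I u i - y i) ^ 2 = (1 - ‖w‖) ^ 2 := by
      have h7 : ∑ i ∈ I, (ext0 I u i - y i) ^ 2 = ∑ i ∈ I, (‖w‖⁻¹ - 1) ^ 2 * y i ^ 2 := by
        refine Finset.sum_congr rfl fun i hi => ?_
        have : ext0 I u i = ‖w‖⁻¹ * y i := by
          simp [ext0, hi, hu, hw]
        rw [this]
        ring
      rw [h7, ← Finset.mul_sum, ← hwsq, ← mul_pow]
      congr 1
      rw [sub_mul, inv_mul_cancel₀ hwpos.ne', one_mul]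
    rw [h5, h6]
    nlinarith
  have h8 : ‖Z - V‖ ≤ 2 * (1 / 2) ^ j := by
    have h9 : ‖Z - V‖ = ‖‖c‖⁻¹ • c - u‖ := by
      have e1 : ‖Z - V‖ ^ 2 = ‖‖c‖⁻¹ • c - u‖ ^ 2 := by
        rw [EuclideanSpace.norm_sq_eq, ← sum_ext0_sq I]
        refine Finset.sum_congr rfl fun i _ => ?_
        rw [Real.norm_eq_abs, sq_abs]
        congr 1
        by_cases hi : i ∈ I
        · simp [hZ, hV, hz, ext0, hi]
        · simp [hZ, hV, hz, ext0, hi]
      rw [← Real.sqrt_sq (norm_nonneg (Z - V)), e1, Real.sqrt_sq (norm_nonneg _)]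
    rw [h9]
    have h10 : ‖‖c‖⁻¹ • c - c‖ = |1 - ‖c‖| := by
      have e2 : ‖c‖⁻¹ • c - c = (‖c‖⁻¹ - 1) • c := by rw [sub_smul, one_smul]
      rw [e2, norm_smul, Real.norm_eq_abs]
      have e3 : |‖c‖⁻¹ - 1| * ‖c‖ = |(‖c‖⁻¹ - 1) * ‖c‖| := by
        rw [abs_mul, abs_of_pos hcpos]
      rw [e3, sub_mul, inv_mul_cancel₀ hcpos.ne', one_mul]
    have h11 : |1 - ‖c‖| ≤ ‖u - c‖ := by
      rw [← hun]
      exact abs_norm_sub_norm_le u c
    have h12 : ‖‖c‖⁻¹ • c - u‖ ≤ ‖‖c‖⁻¹ • c - c‖ + ‖c - u‖ := by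
      have := norm_add_le (‖c‖⁻¹ • c - c) (c - u)
      simpa using this
    rw [norm_sub_rev c u] at h12
    linarith
  linarith

set_option maxHeartbeats 2000000 in
/-- **Node (H1) of LOCUB.** -/
theorem high_region (αm : ℝ) (hαm : 0 < αm) : ∃ C : ℝ, 0 < C ∧ ∀ ν : Measure ℝ, Good ν →
    ∀ α R q : ℝ, 0 < α → α ≤ αm → 0 < R → 0 ≤ q →
    (∀ (n : ℕ) (u : Fin n → ℝ), ∑ i, u i ^ 2 = 1 →
      q ≤ ∫ x, (min (max (-1 - ∑ i, u i * x i) 0) R) ^ 2 ∂(Measure.pi fun _ : Fin n => ν)) →
    ∀ s δ : ℝ, 0 < s → s < 1 → 0 < δ → ∀ k : ℕ → ℕ,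
      Tendsto (fun N : ℕ => (k N : ℝ) * Real.log N / N) atTop (𝓝 0) →
      Tendsto (fun N : ℕ => (Measure.pi fun _ : Fin (numPatterns N α) × Fin N => ν)
        {A : Patterns N α | ∃ y : Fin N → ℝ, ∑ i, y i ^ 2 = 1 ∧ ∃ I : Finset (Fin N),
          I.card ≤ k N ∧ ∑ i ∈ Iᶜ, y i ^ 2 ≤ s ∧
          √(∑ a, (min (max (-1 - ∑ i, A (a, i) * y i) 0) R) ^ 2)
            < √(α * q * N) - C * √(s * N) - δ * √N}) atTop (𝓝 0) := by
  classical
  set K₀ : ℝ := 8 * √(αm + 1) with hK₀
  have hK₀pos : 0 < K₀ := by positivity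
  refine ⟨K₀ * √2, by positivity, ?_⟩
  intro ν hν α R q hα hααm hR hq hqI s δ hs hs1 hδ k hk
  have hprob := hν.prob
  set d : ℝ := δ / 2 with hd
  have hdpos : 0 < d := by positivity
  obtain ⟨j, hj⟩ : ∃ j : ℕ, (1 / 2 : ℝ) ^ j < min (d / (2 * K₀)) (1 / 2) :=
    exists_pow_lt_of_lt_one (lt_min (by positivity) (by norm_num)) (by norm_num)
  have hj1 : (1 / 2 : ℝ) ^ j ≤ d / (2 * K₀) := (hj.trans_le (min_le_left _ _)).le
  have hj2 : (1 / 2 : ℝ) ^ j ≤ 1 / 2 := (hj.trans_le (min_le_right _ _)).le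
  set L : ℝ := (5 : ℝ) ^ j with hL
  set c₁ : ℝ := d ^ 4 / (2 * α * R ^ 4) with hc₁
  have hc₁pos : 0 < c₁ := by positivity
  -- the bound for one `N`
  have hbound : ∀ᶠ N : ℕ in atTop, (Measure.pi fun _ : Fin (numPatterns N α) × Fin N => ν)
        {A : Patterns N α | ∃ y : Fin N → ℝ, ∑ i, y i ^ 2 = 1 ∧ ∃ I : Finset (Fin N),
          I.card ≤ k N ∧ ∑ i ∈ Iᶜ, y i ^ 2 ≤ s ∧
          √(∑ a, (min (max (-1 - ∑ i, A (a, i) * y i) 0) R) ^ 2)
            < √(α * q * N) - K₀ * √2 * √(s * N) - δ * √N}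
      ≤ ENNReal.ofReal (Real.exp (-(N : ℝ))
          + Real.exp (N * ((k N : ℝ) * Real.log N / N + L / N - c₁))) := by
    have hN1 : ∀ᶠ N : ℕ in atTop, max (max 1 (2 * q / d ^ 2)) (1 / α) ≤ (N : ℝ) :=
      tendsto_natCast_atTop_atTop.eventually_ge_atTop _
    filter_upwards [hN1] with N hN
    have hn1 : (1 : ℝ) ≤ N := ((le_max_left _ _).trans (le_max_left _ _)).trans hN
    have hnq : 2 * q / d ^ 2 ≤ (N : ℝ) := ((le_max_right _ _).trans (le_max_left _ _)).trans hN
    have hnα : 1 / α ≤ (N : ℝ) := (le_max_right _ _).trans hN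
    set n : ℝ := (N : ℝ) with hn
    have hn0 : 0 < n := by linarith
    set M : ℕ := numPatterns N α with hM
    have hMle : (M : ℝ) ≤ α * n := Nat.floor_le (by positivity)
    have hMge : α * n - 1 ≤ M := by
      have h1 : α * n < M + 1 := Nat.lt_floor_add_one _
      linarith
    have hM1 : (1 : ℝ) ≤ M := by
      have h1 : 1 ≤ α * n := by
        rw [div_le_iff₀ hα] at hnα
        linarith
      have h2 : 1 ≤ M := (Nat.one_le_floor_iff _).2 h1
      exact_mod_cast h2
    set P := (Measure.pi fun _ : Fin M × Fin N => ν) with hP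
    have hnets : ∀ U : Finset (Fin N), ∃ S : Finset (EuclideanSpace ℝ U),
        S.card ≤ (5 ^ j) ^ U.card ∧ ∀ x : EuclideanSpace ℝ U, ‖x‖ ≤ 1 → ∃ c ∈ S,
          ‖x - c‖ ≤ (1 / 2) ^ j := by
      intro U
      obtain ⟨S, hS, hS2⟩ := exists_net (EuclideanSpace ℝ U) j
      refine ⟨S, ?_, hS2⟩
      simpa using hS
    choose S hSc hS using hnets
    set small : Finset (Finset (Fin N)) :=
      (Finset.univ : Finset (Fin N)).powerset.filter (fun U => (U.card : ℝ) ≤ k N) with hsmall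
    set B : ℝ := 8 * √(α + 1) * √n with hB
    set bad0 : Set (Fin M × Fin N → ℝ) :=
      {A | ¬ ∀ l : Fin M → ℝ, ‖vec A l‖ ≤ B * √(∑ a, l a ^ 2)} with hbad0
    set x₀ : ℝ := α * q * n - d ^ 2 * n with hx₀
    set bad1 : Set (Fin M × Fin N → ℝ) :=
      ⋃ U ∈ small, ⋃ c ∈ (S U).filter (fun c => 1 / 2 ≤ ‖c‖),
        {A | ∑ a, TR R (lin (fun i => ‖c‖⁻¹ * ext0 U c i) (fun j => A (a, j))) ^ 2 ≤ x₀} with hbad1
    have hBle : B ≤ K₀ * √n := by
      rw [hB, hK₀]
      gcongr
    have hincl : {A : Patterns N α | ∃ y : Fin N → ℝ, ∑ i, y i ^ 2 = 1 ∧ ∃ I : Finset (Fin N),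
          I.card ≤ k N ∧ ∑ i ∈ Iᶜ, y i ^ 2 ≤ s ∧
          √(∑ a, (min (max (-1 - ∑ i, A (a, i) * y i) 0) R) ^ 2)
            < √(α * q * n) - K₀ * √2 * √(s * n) - δ * √n} ⊆ bad0 ∪ bad1 := by
      rintro A ⟨y, hy, I, hI, hyI, hlt⟩
      by_cases hA0 : A ∈ bad0
      · exact Or.inl hA0
      right
      have hop : ∀ l : Fin M → ℝ, ‖vec A l‖ ≤ B * √(∑ a, l a ^ 2) := by
        by_contra hcon
        exact hA0 hcon
      obtain ⟨c, hc, hchalf, hdist⟩ := net_point y hy I hyI hs1 hj2 (S I) (hS I)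
      have hIsmall : I ∈ small := Finset.mem_filter.2 ⟨by simp, by exact_mod_cast hI⟩
      refine Set.mem_iUnion₂.2 ⟨I, hIsmall, Set.mem_iUnion₂.2
        ⟨c, Finset.mem_filter.2 ⟨hc, hchalf⟩, ?_⟩⟩
      show ∑ a, TR R (lin (fun i => ‖c‖⁻¹ * ext0 I c i) (fun j => A (a, j))) ^ 2 ≤ x₀
      set z : Fin N → ℝ := fun i => ‖c‖⁻¹ * ext0 I c i with hz
      -- energies
      have hE := sqrt_energy_le A R B (by positivity) hop y z
      have hlin : ∀ a, lin y (fun j => A (a, j)) = ∑ i, A (a, i) * y i := fun a =>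
        Finset.sum_congr rfl fun i _ => mul_comm _ _
      have hEy : √(∑ a, TR R (lin y (fun j => A (a, j))) ^ 2)
          = √(∑ a, (min (max (-1 - ∑ i, A (a, i) * y i) 0) R) ^ 2) := by
        simp_rw [hlin]
        rfl
      rw [hEy] at hE
      have hBd : B * √(∑ i, (z i - y i) ^ 2) ≤ K₀ * √2 * √(s * n) + d * √n := by
        calc B * √(∑ i, (z i - y i) ^ 2) ≤ (K₀ * √n) * (√2 * √s + 2 * (1 / 2) ^ j) := by
              gcongr
          _ = K₀ * √2 * (√s * √n) + (2 * K₀ * (1 / 2) ^ j) * √n := by ring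
          _ ≤ K₀ * √2 * √(s * n) + d * √n := by
              rw [Real.sqrt_mul hs.le]
              gcongr
              rw [le_div_iff₀ (by positivity)] at hj1
              linarith
      have hfin : √(∑ a, TR R (lin z (fun j => A (a, j))) ^ 2) < √(α * q * n) - d * √n := by
        have : δ * √n = 2 * (d * √n) := by rw [hd]; ring
        linarith
      set a₀ : ℝ := √(α * q) with ha₀
      have ha₀n : √(α * q * n) = a₀ * √n := by rw [Real.sqrt_mul (by positivity)]
      rw [ha₀n] at hfin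
      have hsq0 : 0 ≤ √(∑ a, TR R (lin z (fun j => A (a, j))) ^ 2) := Real.sqrt_nonneg _
      have hsn : 0 < √n := Real.sqrt_pos.2 hn0
      have had : d < a₀ := by
        by_contra hcon
        push Not at hcon
        have : (a₀ - d) * √n ≤ 0 := mul_nonpos_of_nonpos_of_nonneg (by linarith) hsn.le
        linarith
      have hS0 : 0 ≤ ∑ a, TR R (lin z (fun j => A (a, j))) ^ 2 :=
        Finset.sum_nonneg fun _ _ => sq_nonneg _
      calc ∑ a, TR R (lin z (fun j => A (a, j))) ^ 2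
          = √(∑ a, TR R (lin z (fun j => A (a, j))) ^ 2) ^ 2 := (Real.sq_sqrt hS0).symm
        _ ≤ ((a₀ - d) * √n) ^ 2 := by
            apply pow_le_pow_left₀ hsq0
            linarith
        _ = (a₀ - d) ^ 2 * n := by rw [mul_pow, Real.sq_sqrt hn0.le]
        _ ≤ (a₀ ^ 2 - d ^ 2) * n := by
            gcongr
            nlinarith
        _ = x₀ := by
            rw [ha₀, Real.sq_sqrt (by positivity), hx₀]
            ring
    have hP0 : P bad0 ≤ ENNReal.ofReal (Real.exp (-n)) := by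
      have h1 := opnorm_event (κ := Fin M) (J := Fin N) hν α hα.le (by simpa using hMle)
      simpa [hbad0, hB, hn] using h1
    have hP1 : P bad1 ≤ ENNReal.ofReal (Real.exp (n * ((k N : ℝ) * Real.log n / n + L / n - c₁))) := by
      have hone : ∀ U ∈ small, ∀ c ∈ (S U).filter (fun c => 1 / 2 ≤ ‖c‖),
          P {A | ∑ a, TR R (lin (fun i => ‖c‖⁻¹ * ext0 U c i) (fun j => A (a, j))) ^ 2 ≤ x₀}
            ≤ ENNReal.ofReal (Real.exp (-(c₁ * n))) := by
        intro U _ c hc
        have hc2 : 1 / 2 ≤ ‖c‖ := (Finset.mem_filter.1 hc).2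
        have hcpos : 0 < ‖c‖ := by linarith
        have hunit : ∑ i, (‖c‖⁻¹ * ext0 U c i) ^ 2 = 1 := by
          simp_rw [mul_pow]
          rw [← Finset.mul_sum, sum_ext0_sq, ← mul_pow, inv_mul_cancel₀ hcpos.ne', one_pow]
        have h1 := fixed_direction (κ := Fin M) (J := Fin N) (ν := ν)
          (fun i => ‖c‖⁻¹ * ext0 U c i) R q (d ^ 2 * n / 2) x₀ hR (by positivity)
          (by
            refine (hqI N _ hunit).trans (le_of_eq ?_)
            rfl)
          (by
            rw [Fintype.card_fin, hx₀]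
            have h2 : q ≤ d ^ 2 * n / 2 := by
              rw [div_le_iff₀ (by positivity)] at hnq
              linarith
            have h3 : (α * n - 1) * q ≤ M * q := by gcongr
            nlinarith)
        refine h1.trans (ENNReal.ofReal_le_ofReal (Real.exp_le_exp.2 ?_))
        rw [Fintype.card_fin]
        have h4 : -2 * (d ^ 2 * n / 2) ^ 2 / ((M : ℝ) * (R ^ 2) ^ 2)
            = -((d ^ 4 * n ^ 2 / 2) / (M * R ^ 4)) := by
          ring
        rw [h4, neg_le_neg_iff, hc₁]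
        rw [div_mul_eq_mul_div, div_le_div_iff₀ (by positivity) (by positivity)]
        have h5 : d ^ 4 * n * (M * R ^ 4) ≤ d ^ 4 * n * (α * n * R ^ 4) := by gcongr
        nlinarith
      calc P bad1 ≤ ∑ U ∈ small, P (⋃ c ∈ (S U).filter (fun c => 1 / 2 ≤ ‖c‖),
              {A | ∑ a, TR R (lin (fun i => ‖c‖⁻¹ * ext0 U c i) (fun j => A (a, j))) ^ 2 ≤ x₀}) :=
            measure_biUnion_finset_le _ _
        _ ≤ ∑ U ∈ small, ENNReal.ofReal (L ^ U.card * Real.exp (-(c₁ * n))) := by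
            refine Finset.sum_le_sum fun U hU => ?_
            calc P (⋃ c ∈ (S U).filter (fun c => 1 / 2 ≤ ‖c‖),
                  {A | ∑ a, TR R (lin (fun i => ‖c‖⁻¹ * ext0 U c i) (fun j => A (a, j))) ^ 2 ≤ x₀})
                ≤ ∑ c ∈ (S U).filter (fun c => 1 / 2 ≤ ‖c‖), P {A | ∑ a, TR R
                    (lin (fun i => ‖c‖⁻¹ * ext0 U c i) (fun j => A (a, j))) ^ 2 ≤ x₀} :=
                  measure_biUnion_finset_le _ _
              _ ≤ ∑ _c ∈ (S U).filter (fun c => 1 / 2 ≤ ‖c‖),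
                    ENNReal.ofReal (Real.exp (-(c₁ * n))) :=
                  Finset.sum_le_sum fun c hc => hone U hU c hc
              _ = (((S U).filter (fun c => 1 / 2 ≤ ‖c‖)).card : ℝ≥0∞) *
                    ENNReal.ofReal (Real.exp (-(c₁ * n))) := by
                  rw [Finset.sum_const, nsmul_eq_mul]
              _ ≤ ENNReal.ofReal (L ^ U.card) * ENNReal.ofReal (Real.exp (-(c₁ * n))) := by
                  gcongr
                  rw [← ENNReal.ofReal_natCast]
                  refine ENNReal.ofReal_le_ofReal ?_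
                  have h1 : ((S U).filter (fun c => 1 / 2 ≤ ‖c‖)).card ≤ (5 ^ j) ^ U.card :=
                    (Finset.card_filter_le _ _).trans (hSc U)
                  rw [hL]
                  exact_mod_cast h1
              _ = ENNReal.ofReal (L ^ U.card * Real.exp (-(c₁ * n))) := by
                  rw [← ENNReal.ofReal_mul (by positivity)]
        _ = ENNReal.ofReal (∑ U ∈ small, L ^ U.card * Real.exp (-(c₁ * n))) := by
            rw [ENNReal.ofReal_sum_of_nonneg]
            intro U _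
            positivity
        _ ≤ ENNReal.ofReal (Real.exp (n * ((k N : ℝ) * Real.log n / n + L / n - c₁))) := by
            refine ENNReal.ofReal_le_ofReal ?_
            rw [← Finset.sum_mul]
            have h1 := sum_small_subsets (κ := Fin N) L (Real.log n) (k N) (by positivity)
              (Real.log_nonneg hn1)
            calc (∑ U ∈ small, L ^ U.card) * Real.exp (-(c₁ * n))
                ≤ Real.exp (Real.log n * k N + L * Real.exp (-Real.log n) * Fintype.card (Fin N)) *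
                    Real.exp (-(c₁ * n)) := by gcongr
              _ = Real.exp (Real.log n * k N + L * Real.exp (-Real.log n) * n - c₁ * n) := by
                  rw [← Real.exp_add, Fintype.card_fin]
                  congr 1
              _ = Real.exp (n * ((k N : ℝ) * Real.log n / n + L / n - c₁)) := by
                  congr 1
                  rw [Real.exp_neg, Real.exp_log hn0]
                  field_simp
    calc P _ ≤ P (bad0 ∪ bad1) := measure_mono hincl
      _ ≤ P bad0 + P bad1 := measure_union_le _ _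
      _ ≤ ENNReal.ofReal (Real.exp (-n)) +
            ENNReal.ofReal (Real.exp (n * ((k N : ℝ) * Real.log n / n + L / n - c₁))) :=
          add_le_add hP0 hP1
      _ = _ := by rw [ENNReal.ofReal_add (by positivity) (by positivity)]
  -- the bound tends to zero
  have hlim : Tendsto (fun N : ℕ => ENNReal.ofReal (Real.exp (-(N : ℝ))
          + Real.exp (N * ((k N : ℝ) * Real.log N / N + L / N - c₁)))) atTop (𝓝 0) := by
    rw [← ENNReal.ofReal_zero]
    refine ENNReal.tendsto_ofReal ?_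
    have h1 : Tendsto (fun N : ℕ => Real.exp (-(N : ℝ))) atTop (𝓝 0) :=
      Real.tendsto_exp_atBot.comp (tendsto_neg_atTop_atBot.comp tendsto_natCast_atTop_atTop)
    have h2 : Tendsto (fun N : ℕ => L / (N : ℝ)) atTop (𝓝 0) :=
      tendsto_const_nhds.div_atTop tendsto_natCast_atTop_atTop
    have h3 : Tendsto (fun N : ℕ => (k N : ℝ) * Real.log N / N + L / N - c₁) atTop
        (𝓝 (0 + 0 - c₁)) := (hk.add h2).sub_const c₁
    have h4 : Tendsto (fun N : ℕ => (N : ℝ) * ((k N : ℝ) * Real.log N / N + L / N - c₁)) atTop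
        atBot := by
      refine Tendsto.atTop_mul_neg (C := 0 + 0 - c₁) (by linarith) tendsto_natCast_atTop_atTop h3
    have h5 := Real.tendsto_exp_atBot.comp h4
    have h6 := h1.add h5
    simpa using h6
  exact tendsto_of_tendsto_of_tendsto_of_le_of_le' tendsto_const_nhds hlim
    (Eventually.of_forall fun _ => zero_le) hbound

end Crest.Agent.R146.High_840
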