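import Crest.Agent.R146.ILog_371

/-!
Row 146 (helper355).  REF slope barrier in LINEAR form (engine form 1195(2) of helper865, 146-355-2).

Reference `c, I, I1, I2` on `(0,1)` as in `ILog_371.RefI`.  Barrier `K = I (1 ± δ e)`.  With
`T = 1 ± δ e`, `l = I1/I`, `s = sc`, `J = Jc = 1 + 2 c s`:
`Stat 1 y v K K' K'' = ± I δ ( (1/2) T² (I² (e'' + 2 l e') - J e) + (± (y-c)/δ s - (1/2) J e) T + y v(1-v) e' )`,
an exact polynomial identity.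
-/

set_option autoImplicit false

open Set Filter Topology

namespace Crest.Agent.R146.ILin_355

open MaxP_371 MaxP2_371 MaxPCmp_371 SlopeT_371 ILog_371

/-- barrier `K = I (1 + a e)` (`a = ± δ`) and its two derivatives -/
noncomputable def LL (a : ℝ) (I e : ℝ → ℝ) (v : ℝ) : ℝ := I v * (1 + a * e v)

noncomputable def LL1 (a : ℝ) (I I1 e e1 : ℝ → ℝ) (v : ℝ) : ℝ :=
  I1 v * (1 + a * e v) + I v * (a * e1 v)

noncomputable def LL2 (a : ℝ) (I I1 I2 e e1 e2 : ℝ → ℝ) (v : ℝ) : ℝ :=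
  I2 v * (1 + a * e v) + 2 * (I1 v * (a * e1 v)) + I v * (a * e2 v)

/-- the polynomial test expression; `τ = ± (y-c)/δ`, `T = 1 ± δ e` -/
noncomputable def Ex (c y τ T : ℝ) (I I1 e e1 e2 : ℝ → ℝ) (v : ℝ) : ℝ :=
  1 / 2 * T ^ 2 * (I v ^ 2 * (e2 v + 2 * (I1 v / I v) * e1 v) - Jc c I I1 v * e v)
    + (τ * sc I I1 v - 1 / 2 * Jc c I I1 v * e v) * T + y * (v * (1 - v)) * e1 v

variable {c : ℝ} {I I1 I2 e e1 e2 : ℝ → ℝ} {a v : ℝ}

lemma LL_hasDerivAt (h : RefI c I I1 I2) (hv : v ∈ Ioo (0:ℝ) 1) (he : HasDerivAt e (e1 v) v) :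
    HasDerivAt (LL a I e) (LL1 a I I1 e e1 v) v := by
  have h1 := (h.d1 v hv).mul ((he.const_mul a).const_add 1)
  refine h1.congr_deriv ?_
  unfold LL1; ring

lemma LL1_hasSide (h : RefI c I I1 I2) (hv : v ∈ Ioo (0:ℝ) 1) (he : HasDerivAt e (e1 v) v)
    (he1 : HasSide e1 (e2 v) v) : HasSide (LL1 a I I1 e e1) (LL2 a I I1 I2 e e1 e2 v) v := by
  have hI := h.d1 v hv
  have s1 := HasSide.mul_of he1 (hI.const_mul a)
  have h1 := (h.d2 v hv).mul ((he.const_mul a).const_add 1)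
  have s2 := HasSide.add_of s1 h1
  have e3 : LL1 a I I1 e e1 = fun y => I1 y * (1 + a * e y) + a * I y * e1 y := by
    funext y; unfold LL1; ring
  rw [e3]
  refine HasSide.congr_deriv s2 ?_
  unfold LL2; ring

/-- the algebraic identity behind the linear form -/
lemma stat_eq (h : RefI c I I1 I2) (hv : v ∈ Ioo (0:ℝ) 1) {y : ℝ} (ha : a ≠ 0) :
    Stat 1 y v (LL a I e v) (LL1 a I I1 e e1 v) (LL2 a I I1 I2 e e1 e2 v) =
      I v * a * Ex c y ((y - c) / a) (1 + a * e v) I I1 e e1 e2 v := by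
  have hI := h.pos v hv
  have hJ := h.J_eq hv
  unfold Stat LL LL1 LL2 Ex
  have hI2 : I2 v = -Jc c I I1 v / I v := by field_simp; linarith
  rw [hI2]
  unfold Jc sc
  field_simp
  ring

/-- `K K''` -/
lemma LLLL_eq (h : RefI c I I1 I2) (hv : v ∈ Ioo (0:ℝ) 1) :
    LL a I e v * LL2 a I I1 I2 e e1 e2 v =
      -Jc c I I1 v * (1 + a * e v) ^ 2 + a * (1 + a * e v) *
            (I v ^ 2 * (e2 v + 2 * (I1 v / I v) * e1 v)) := by
  have hI := h.pos v hv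
  have hJ := h.J_eq hv
  unfold LL LL2
  have hI2 : I2 v = -Jc c I I1 v / I v := by field_simp; linarith
  rw [hI2]
  field_simp
  ring

lemma affine_nonpos {A B yl yu y : ℝ} (h1 : A + B * yl ≤ 0) (h2 : A + B * yu ≤ 0)
    (hy : y ∈ Icc yl yu) : A + B * y ≤ 0 := by
  obtain ⟨ha, hb⟩ := hy
  rcases le_total 0 B with h | h
  · nlinarith [mul_le_mul_of_nonneg_left hb h]
  · nlinarith [mul_le_mul_of_nonpos_left ha h]

/-- data of the linear barrier `e` for radius `δ`; `yl, yu` the ends of the window -/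
structure LBar (c δ : ℝ) (I I1 e e1 e2 : ℝ → ℝ) (yl yu : ℝ) : Prop where
  d1 : ∀ v ∈ Ioo (0:ℝ) 1, HasDerivAt e (e1 v) v
  d2 : ∀ v ∈ Ioo (0:ℝ) 1, HasSide e1 (e2 v) v
  nonneg : ∀ v ∈ Ioo (0:ℝ) 1, 0 ≤ e v
  lt : ∀ v ∈ Ioo (0:ℝ) 1, δ * e v < 1
  up : ∀ v ∈ Ioo (0:ℝ) 1, ∀ y, (y = yl ∨ y = yu) →
    Ex c y ((y - c) / δ) (1 + δ * e v) I I1 e e1 e2 v ≤ 0
  low : ∀ v ∈ Ioo (0:ℝ) 1, ∀ y, (y = yl ∨ y = yu) →
    Ex c y (-((y - c) / δ)) (1 - δ * e v) I I1 e e1 e2 v ≤ 0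

lemma Ex_vertices {δ' yl yu y T : ℝ}
    (hl : Ex c yl ((yl - c) / δ') T I I1 e e1 e2 v ≤ 0)
    (hu : Ex c yu ((yu - c) / δ') T I I1 e e1 e2 v ≤ 0) (hy : y ∈ Icc yl yu) :
    Ex c y ((y - c) / δ') T I I1 e e1 e2 v ≤ 0 := by
  set A : ℝ := 1 / 2 * T ^ 2 * (I v ^ 2 * (e2 v + 2 * (I1 v / I v) * e1 v) - Jc c I I1 v * e v)
    + (-c / δ' * sc I I1 v - 1 / 2 * Jc c I I1 v * e v) * T with hA
  set B : ℝ := 1 / δ' * sc I I1 v * T + (v * (1 - v)) * e1 v with hB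
  have key : ∀ z, Ex c z ((z - c) / δ') T I I1 e e1 e2 v = A + B * z := by
    intro z; rw [hA, hB]; unfold Ex; ring
  rw [key] at hl hu ⊢
  exact affine_nonpos hl hu hy

/-- upper barrier: the hypothesis `hineq` of `slope_trans_le` -/
theorem stat_up (h : RefI c I I1 I2) {δ yl yu : ℝ} (hδ : 0 < δ)
    (hE : LBar c δ I I1 e e1 e2 yl yu) (hv : v ∈ Ioo (0:ℝ) 1) {y : ℝ} (hy : y ∈ Icc yl yu) :
    Stat 1 y v (LL δ I e v) (LL1 δ I I1 e e1 v) (LL2 δ I I1 I2 e e1 e2 v) ≤ 0 := by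
  rw [stat_eq h hv hδ.ne']
  refine mul_nonpos_of_nonneg_of_nonpos (mul_pos (h.pos v hv) hδ).le ?_
  exact Ex_vertices (hE.up v hv yl (Or.inl rfl)) (hE.up v hv yu (Or.inr rfl)) hy

/-- lower barrier: the hypothesis `hineq` of `le_slope_trans` -/
theorem stat_low (h : RefI c I I1 I2) {δ yl yu : ℝ} (hδ : 0 < δ)
    (hE : LBar c δ I I1 e e1 e2 yl yu) (hv : v ∈ Ioo (0:ℝ) 1) {y : ℝ} (hy : y ∈ Icc yl yu) :
    0 ≤ Stat 1 y v (LL (-δ) I e v) (LL1 (-δ) I I1 e e1 v) (LL2 (-δ) I I1 I2 e e1 e2 v) := by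
  rw [stat_eq h hv (neg_ne_zero.2 hδ.ne')]
  have e0 : ∀ z : ℝ, (z - c) / (-δ) = -((z - c) / δ) := fun z => by rw [div_neg]
  have e1' : 1 + -δ * e v = 1 - δ * e v := by ring
  have hl := hE.low v hv yl (Or.inl rfl)
  have hu := hE.low v hv yu (Or.inr rfl)
  rw [← e0] at hl hu
  have key := Ex_vertices hl hu hy
  rw [e1']
  refine mul_nonneg_of_nonpos_of_nonpos ?_ key
  have := h.pos v hv
  nlinarith

/-- concavity of the upper barrier from its own inequality at `y = c` -/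
theorem conc_up (h : RefI c I I1 I2) {δ yl yu κ : ℝ} (hδ : 0 < δ)
    (hE : LBar c δ I I1 e e1 e2 yl yu) (hv : v ∈ Ioo (0:ℝ) 1) (hc : c ∈ Icc yl yu)
    (hκ : κ ≤ Jc c I I1 v + 2 * δ * c * (v * (1 - v)) * e1 v / (1 + δ * e v)) :
    LL δ I e v * LL2 δ I I1 I2 e e1 e2 v ≤ -κ := by
  have hT : 0 < 1 + δ * e v := by have := hE.nonneg v hv; positivity
  have h1 := Ex_vertices (hE.up v hv yl (Or.inl rfl)) (hE.up v hv yu (Or.inr rfl)) hc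
  rw [LLLL_eq h hv]
  set T := 1 + δ * e v with hTdef
  set Q := I v ^ 2 * (e2 v + 2 * (I1 v / I v) * e1 v) with hQ
  have h2 : 1 / 2 * T ^ 2 * (Q - Jc c I I1 v * e v)
      + (0 - 1 / 2 * Jc c I I1 v * e v) * T + c * (v * (1 - v)) * e1 v ≤ 0 := by
    have h3 : (c - c) / δ = 0 := by simp
    unfold Ex at h1
    rw [h3, ← hQ, zero_mul] at h1
    exact h1
  -- multiply by 2 δ / T
  have h3 : δ * T * Q ≤ δ * (Jc c I I1 v * e v) * (T + 1)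
      - 2 * δ * c * (v * (1 - v)) * e1 v / T := by
    rw [← sub_nonneg]
    have e4 : δ * (Jc c I I1 v * e v) * (T + 1) - 2 * δ * c * (v * (1 - v)) * e1 v / T - δ * T * Q
        = (2 * δ / T) * (-(1 / 2 * T ^ 2 * (Q - Jc c I I1 v * e v)
      + (0 - 1 / 2 * Jc c I I1 v * e v) * T + c * (v * (1 - v)) * e1 v)) := by
      field_simp
      ring
    rw [e4]
    exact mul_nonneg (by positivity) (by linarith)
  have h4 : δ * (Jc c I I1 v * e v) * (T + 1) = Jc c I I1 v * (T ^ 2 - 1) := by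
    rw [hTdef]; ring
  have h5 : -Jc c I I1 v * T ^ 2 + δ * T * Q ≤ -(Jc c I I1 v
      + 2 * δ * c * (v * (1 - v)) * e1 v / T) := by linarith
  linarith

theorem conc_low (h : RefI c I I1 I2) {δ κ : ℝ} (hv : v ∈ Ioo (0:ℝ) 1)
    (hκ : κ ≤ Jc c I I1 v * (1 - δ * e v) ^ 2 + δ * (1 - δ * e v) *
            (I v ^ 2 * (e2 v + 2 * (I1 v / I v) * e1 v))) :
    LL (-δ) I e v * LL2 (-δ) I I1 I2 e e1 e2 v ≤ -κ := by
  rw [LLLL_eq h hv]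
  have : 1 + -δ * e v = 1 - δ * e v := by ring
  rw [this]
  linarith

variable {t0 t1 : ℝ} {b : ℝ → ℝ} {u V P Px Pxx : ℝ → ℝ → ℝ} {M : ℝ}

/-- **REF, upper slope bound, linear form** : `V_x ≤ (1+ε) s I_c(V) (1 + δ e(V))`. -/
theorem lin_P_le (h : BSys t0 t1 b u V P Px Pxx M) {s ε : ℝ → ℝ} {κ δ yl yu : ℝ}
    (hs : ∀ t ∈ Ico t0 t1,
      HasDerivWithinAt s ((1 + 1 * (b t / s t ^ 2)) / 2 * s t ^ 3) (Ici t) t)
    (hsc : ContinuousOn s (Icc t0 t1)) (hs0 : ∀ t ∈ Icc t0 t1, 0 < s t)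
    (hε : ∀ t ∈ Ico t0 t1, HasDerivWithinAt ε (κ * ε t * s t ^ 2) (Ici t) t)
    (hεc : ContinuousOn ε (Icc t0 t1)) (hε0 : ∀ t ∈ Icc t0 t1, 0 ≤ ε t)
    (href : RefI c I I1 I2) (hδ : 0 < δ) (hE : LBar c δ I I1 e e1 e2 yl yu)
    (hy : ∀ t ∈ Ico t0 t1, b t / s t ^ 2 ∈ Icc yl yu) (hc : c ∈ Icc yl yu) (hκ0 : 0 ≤ κ)
    (hκ : ∀ v ∈ Ioo (0:ℝ) 1,
      κ ≤ Jc c I I1 v + 2 * δ * c * (v * (1 - v)) * e1 v / (1 + δ * e v))
    (hterm : ∀ x, P t1 x ≤ (1 + ε t1) * s t1 * (I (V t1 x) * (1 + δ * e (V t1 x)))) :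
    ∀ t ∈ Icc t0 t1, ∀ x, P t x ≤ (1 + ε t) * s t * (I (V t x) * (1 + δ * e (V t x))) := by
  refine slope_trans_le h hs hsc hs0 hε hεc hε0 (K := LL δ I e) (K' := LL1 δ I I1 e e1)
    (K'' := LL2 δ I I1 I2 e e1 e2)
    (fun v hv => (LL_hasDerivAt href hv (hE.d1 v hv)).continuousAt.continuousWithinAt)
    (fun v hv => ?_) (fun v hv => LL_hasDerivAt href hv (hE.d1 v hv))
    (fun v hv => LL1_hasSide href hv (hE.d1 v hv) (hE.d2 v hv)) hκ0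
    (fun v hv => conc_up href hδ hE hv hc (hκ v hv)) (fun t ht v hv => stat_up href hδ hE hv (hy t ht))
    hterm
  have h1 := href.pos v hv
  have h2 := hE.nonneg v hv
  unfold LL
  positivity

/-- **REF, lower slope bound, linear form** : `(1-ε) s I_c(V) (1 - δ e(V)) ≤ V_x`. -/
theorem lin_le_P (h : BSys t0 t1 b u V P Px Pxx M) {s ε : ℝ → ℝ} {κ κ1 ε1 G KM δ yl yu : ℝ}
    (hs : ∀ t ∈ Ico t0 t1,
      HasDerivWithinAt s ((1 + 1 * (b t / s t ^ 2)) / 2 * s t ^ 3) (Ici t) t)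
    (hsc : ContinuousOn s (Icc t0 t1)) (hs0 : ∀ t ∈ Icc t0 t1, 0 < s t)
    (hsG : ∀ t ∈ Icc t0 t1, s t ≤ G)
    (hε : ∀ t ∈ Ico t0 t1, HasDerivWithinAt ε (κ * ε t * s t ^ 2) (Ici t) t)
    (hεc : ContinuousOn ε (Icc t0 t1)) (hε0 : ∀ t ∈ Icc t0 t1, 0 ≤ ε t)
    (hεε1 : ∀ t ∈ Icc t0 t1, ε t ≤ ε1) (hε1 : ε1 < 1)
    (href : RefI c I I1 I2) (hδ : 0 < δ) (hE : LBar c δ I I1 e e1 e2 yl yu)
    (hy : ∀ t ∈ Ico t0 t1, b t / s t ^ 2 ∈ Icc yl yu) (hκ0 : 0 ≤ κ) (hκ1 : 2 * κ ≤ κ1 * (1 - ε1))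
    (hκ : ∀ v ∈ Ioo (0:ℝ) 1, κ1 ≤ Jc c I I1 v * (1 - δ * e v) ^ 2 + δ * (1 - δ * e v) *
            (I v ^ 2 * (e2 v + 2 * (I1 v / I v) * e1 v)))
    (hKM : ∀ v ∈ Ioo (0:ℝ) 1, I v * (1 - δ * e v) ≤ KM)
    (hterm : ∀ x, (1 - ε t1) * s t1 * (I (V t1 x) * (1 - δ * e (V t1 x))) ≤ P t1 x) :
    ∀ t ∈ Icc t0 t1, ∀ x, (1 - ε t) * s t * (I (V t x) * (1 - δ * e (V t x))) ≤ P t x := by
  have e0 : ∀ v, LL (-δ) I e v = I v * (1 - δ * e v) := fun v => by unfold LL; ring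
  have key := le_slope_trans h hs hsc hs0 hsG hε hεc hε0 hεε1 hε1 (K := LL (-δ) I e)
    (K' := LL1 (-δ) I I1 e e1) (K'' := LL2 (-δ) I I1 I2 e e1 e2) (KM := KM)
    (fun v hv => (LL_hasDerivAt href hv (hE.d1 v hv)).continuousAt.continuousWithinAt)
    (fun v hv => by
      rw [e0]; exact mul_pos (href.pos v hv) (by have := hE.lt v hv; linarith))
    (fun v hv => by rw [e0]; exact hKM v hv) (fun v hv => LL_hasDerivAt href hv (hE.d1 v hv))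
    (fun v hv => LL1_hasSide href hv (hE.d1 v hv) (hE.d2 v hv)) hκ0 hκ1
    (fun v hv => conc_low href hv (hκ v hv)) (fun t ht v hv => stat_low href hδ hE hv (hy t ht))
    (fun x => by rw [e0]; exact hterm x)
  intro t ht x
  have := key t ht x
  rwa [e0] at this

end Crest.Agent.R146.ILin_355
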