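import Crest.Agent.R146.SlopeT_371

/-!
Row 146 (helper371).  REF slope barrier in logarithmic form (914 P1, 846 (S1±), 575 NUM-C (C1)).

Reference `c, I, I1, I2` on `(0,1)`: `I > 0`, `I' = I1`, `I1' = I2` and
`I I2 + 1 + 2 c s = 0`, `s = v(1-v) I1/I + 3v - 3/2`  (stationary slope equation in the clock `dr = dt/χ`).
Barrier `K = I exp(σ δ e)`, `σ = ±1`.  Then for `y ∈ [c-δ, c+δ]`, `Stat 1 y v K K' K''` has the sign needed by
`slope_trans_le` / `le_slope_trans` as soon as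
(up)  `(1/2) exp(2δe) I² (e'' + 2 l e' + δ e'²) + y v(1-v) e' + |s| - (1+2cs) (exp(2δe)-1)/(2δ) ≤ 0`,
(low) `(1/2) exp(-2δe) I² (e'' + 2 l e' - δ e'²) + y v(1-v) e' + |s| - (1+2cs) (1-exp(-2δe))/(2δ) ≤ 0`
at the two vertices `y = c ± δ`.
-/

set_option autoImplicit false

open Set Filter Topology

namespace Crest.Agent.R146.ILog_371

open MaxP_371 MaxP2_371 MaxPCmp_371 SlopeT_371

/-- reference slope function: the stationary pair at constant `c` (only its first component) -/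
structure RefI (c : ℝ) (I I1 I2 : ℝ → ℝ) : Prop where
  pos : ∀ v ∈ Ioo (0:ℝ) 1, 0 < I v
  d1 : ∀ v ∈ Ioo (0:ℝ) 1, HasDerivAt I (I1 v) v
  d2 : ∀ v ∈ Ioo (0:ℝ) 1, HasDerivAt I1 (I2 v) v
  eq : ∀ v ∈ Ioo (0:ℝ) 1, Stat 1 c v (I v) (I1 v) (I2 v) = 0

/-- `s_c(v) = v(1-v) I'/I + 3v - 3/2` -/
noncomputable def sc (I I1 : ℝ → ℝ) (v : ℝ) : ℝ := v * (1 - v) * (I1 v / I v) + 3 * v - 3 / 2

/-- `J_c = 1 + 2 c s_c = - I I''` -/
noncomputable def Jc (c : ℝ) (I I1 : ℝ → ℝ) (v : ℝ) : ℝ := 1 + 2 * c * sc I I1 v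

/-- barrier `K = I exp(a e)` (`a = σ δ`) and its two derivatives -/
noncomputable def KK (a : ℝ) (I e : ℝ → ℝ) (v : ℝ) : ℝ := I v * Real.exp (a * e v)

noncomputable def KK1 (a : ℝ) (I I1 e e1 : ℝ → ℝ) (v : ℝ) : ℝ :=
  (I1 v + a * I v * e1 v) * Real.exp (a * e v)

noncomputable def KK2 (a : ℝ) (I I1 I2 e e1 e2 : ℝ → ℝ) (v : ℝ) : ℝ :=
  (I2 v + a * (I1 v * e1 v + I v * e2 v) + (I1 v + a * I v * e1 v) * (a * e1 v)) *
    Real.exp (a * e v)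

variable {c : ℝ} {I I1 I2 e e1 e2 : ℝ → ℝ} {a v : ℝ}

lemma RefI.J_eq (h : RefI c I I1 I2) (hv : v ∈ Ioo (0:ℝ) 1) : I v * I2 v = -Jc c I I1 v := by
  have h1 := h.eq v hv
  have h2 := h.pos v hv
  unfold Stat at h1
  unfold Jc sc
  have h3 : I v * I2 v * I v = (-(1 + 2 * c * (v * (1 - v) * (I1 v / I v) + 3 * v - 3 / 2))) * I v := by
    field_simp
    nlinarith
  exact mul_right_cancel₀ h2.ne' h3

lemma KK_pos (h : RefI c I I1 I2) (hv : v ∈ Ioo (0:ℝ) 1) : 0 < KK a I e v :=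
  mul_pos (h.pos v hv) (Real.exp_pos _)

lemma KK_hasDerivAt (h : RefI c I I1 I2) (hv : v ∈ Ioo (0:ℝ) 1) (he : HasDerivAt e (e1 v) v) :
    HasDerivAt (KK a I e) (KK1 a I I1 e e1 v) v := by
  have h1 := (h.d1 v hv).mul ((he.const_mul a).exp)
  refine h1.congr_deriv ?_
  unfold KK1; ring

/-- `HasSide` version of the product rule with a differentiable factor -/
lemma HasSide.mul_of {f' : ℝ → ℝ} {f'' x : ℝ} (h : HasSide f' f'' x) {g : ℝ → ℝ} {g' : ℝ}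
    (hg : HasDerivAt g g' x) : HasSide (fun y => g y * f' y) (g' * f' x + g x * f'') x := by
  rcases h with h | h
  · exact Or.inl (hg.hasDerivWithinAt.mul h)
  · exact Or.inr (hg.hasDerivWithinAt.mul h)

lemma HasSide.add_of {f' : ℝ → ℝ} {f'' x : ℝ} (h : HasSide f' f'' x) {g : ℝ → ℝ} {g' : ℝ}
    (hg : HasDerivAt g g' x) : HasSide (fun y => g y + f' y) (g' + f'') x := by
  rcases h with h | h
  · exact Or.inl (hg.hasDerivWithinAt.add h)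
  · exact Or.inr (hg.hasDerivWithinAt.add h)

lemma HasSide.congr_deriv {f : ℝ → ℝ} {A B x : ℝ} (h : HasSide f A x) (e : A = B) :
    HasSide f B x := e ▸ h

lemma KK1_hasSide (h : RefI c I I1 I2) (hv : v ∈ Ioo (0:ℝ) 1) (he : HasDerivAt e (e1 v) v)
    (he1 : HasSide e1 (e2 v) v) : HasSide (KK1 a I I1 e e1) (KK2 a I I1 I2 e e1 e2 v) v := by
  have hE := (he.const_mul a).exp
  have hI := h.d1 v hv
  -- a * I * e1
  have s1 := HasSide.mul_of he1 (hI.const_mul a)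
  have s2 := HasSide.add_of s1 (h.d2 v hv)
  have s3 := HasSide.mul_of s2 hE
  have e3 : KK1 a I I1 e e1 = fun y => Real.exp (a * e y) * (I1 y + a * I y * e1 y) := by
    funext y; unfold KK1; ring
  rw [e3]
  refine HasSide.congr_deriv s3 ?_
  unfold KK2; ring

/-- the algebraic identity behind the log form -/
lemma stat_eq (h : RefI c I I1 I2) (hv : v ∈ Ioo (0:ℝ) 1) (y : ℝ) :
    Stat 1 y v (KK a I e v) (KK1 a I I1 e e1 v) (KK2 a I I1 I2 e e1 e2 v) =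
      KK a I e v * ((1 / 2) * (Jc c I I1 v * (1 - Real.exp (2 * (a * e v)))
          + 2 * (y - c) * sc I I1 v)
        + a * (y * (v * (1 - v)) * e1 v
          + (1 / 2) * Real.exp (2 * (a * e v)) * I v ^ 2 *
            (e2 v + 2 * (I1 v / I v) * e1 v + a * e1 v ^ 2))) := by
  have hI := h.pos v hv
  have hJ := h.J_eq hv
  have hexp : Real.exp (2 * (a * e v)) = Real.exp (a * e v) ^ 2 := by
    rw [← Real.exp_nat_mul]; push_cast; ring_nf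
  rw [hexp]
  unfold Stat KK KK1 KK2 
  have hI2 : I2 v = -Jc c I I1 v / I v := by field_simp; linarith
  rw [hI2]
  unfold Jc sc
  field_simp
  ring

/-- `K K'' ≤ -κ`: same expression -/
lemma KKKK_eq (h : RefI c I I1 I2) (hv : v ∈ Ioo (0:ℝ) 1) :
    KK a I e v * KK2 a I I1 I2 e e1 e2 v =
      Real.exp (2 * (a * e v)) * (-Jc c I I1 v + a * I v ^ 2 *
            (e2 v + 2 * (I1 v / I v) * e1 v + a * e1 v ^ 2)) := by
  have hI := h.pos v hv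
  have hJ := h.J_eq hv
  have hexp : Real.exp (2 * (a * e v)) = Real.exp (a * e v) ^ 2 := by
    rw [← Real.exp_nat_mul]; push_cast; ring_nf
  rw [hexp]
  unfold KK KK2
  have hI2 : I2 v = -Jc c I I1 v / I v := by field_simp; linarith
  rw [hI2]
  field_simp
  ring

/-- data of the logarithmic barrier `e` for radius `δ` -/
structure EBar (c δ : ℝ) (I I1 e e1 e2 : ℝ → ℝ) (yl yu : ℝ) : Prop where
  d1 : ∀ v ∈ Ioo (0:ℝ) 1, HasDerivAt e (e1 v) v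
  d2 : ∀ v ∈ Ioo (0:ℝ) 1, HasSide e1 (e2 v) v
  up : ∀ v ∈ Ioo (0:ℝ) 1, ∀ y, (y = yl ∨ y = yu) →
    (1 / 2) * Real.exp (2 * (δ * e v)) * I v ^ 2 * (e2 v + 2 * (I1 v / I v) * e1 v + δ * e1 v ^ 2)
      + y * (v * (1 - v)) * e1 v + (y - c) / δ * sc I I1 v
      - Jc c I I1 v * ((Real.exp (2 * (δ * e v)) - 1) / (2 * δ)) ≤ 0
  low : ∀ v ∈ Ioo (0:ℝ) 1, ∀ y, (y = yl ∨ y = yu) →
    (1 / 2) * Real.exp (-(2 * (δ * e v))) * I v ^ 2 *
        (e2 v + 2 * (I1 v / I v) * e1 v - δ * e1 v ^ 2)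
      + y * (v * (1 - v)) * e1 v - (y - c) / δ * sc I I1 v
      - Jc c I I1 v * ((1 - Real.exp (-(2 * (δ * e v)))) / (2 * δ)) ≤ 0

/-- upper barrier: the hypothesis `hineq` of `slope_trans_le` -/
theorem stat_up (h : RefI c I I1 I2) {δ yl yu : ℝ} (hδ : 0 < δ)
    (hE : EBar c δ I I1 e e1 e2 yl yu) (hv : v ∈ Ioo (0:ℝ) 1) {y : ℝ} (hy : y ∈ Icc yl yu) :
    Stat 1 y v (KK δ I e v) (KK1 δ I I1 e e1 v) (KK2 δ I I1 I2 e e1 e2 v) ≤ 0 := by
  rw [stat_eq h hv y]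
  apply mul_nonpos_of_nonneg_of_nonpos (KK_pos h hv).le
  have key : ∀ z, (z = yl ∨ z = yu) → (1 / 2) * (Jc c I I1 v * (1 - Real.exp (2 * (δ * e v)))
          + 2 * (z - c) * sc I I1 v)
        + δ * (z * (v * (1 - v)) * e1 v
          + (1 / 2) * Real.exp (2 * (δ * e v)) * I v ^ 2 *
            (e2 v + 2 * (I1 v / I v) * e1 v + δ * e1 v ^ 2)) ≤ 0 := by
    intro z hz
    have h1 := hE.up v hv z hz
    have h2 := mul_nonpos_of_nonneg_of_nonpos hδ.le h1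
    refine le_of_eq_of_le ?_ h2
    field_simp
    ring
  have kl := key yl (Or.inl rfl)
  have ku := key yu (Or.inr rfl)
  rcases eq_or_lt_of_le (hy.1.trans hy.2) with heq | hlt
  · have : y = yl := le_antisymm (hy.2.trans heq.ge) hy.1
    rw [this]; exact kl
  · set t := (y - yl) / (yu - yl) with ht
    have hd : 0 < yu - yl := by linarith
    have ht0 : 0 ≤ t := div_nonneg (by linarith [hy.1]) hd.le
    have ht1 : t ≤ 1 := (div_le_one hd).2 (by linarith [hy.2])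
    have hy2 : y = (1 - t) * yl + t * yu := by rw [ht]; field_simp; ring
    have e1' : (1 / 2) * (Jc c I I1 v * (1 - Real.exp (2 * (δ * e v)))
          + 2 * (y - c) * sc I I1 v)
        + δ * (y * (v * (1 - v)) * e1 v
          + (1 / 2) * Real.exp (2 * (δ * e v)) * I v ^ 2 *
            (e2 v + 2 * (I1 v / I v) * e1 v + δ * e1 v ^ 2)) =
        (1 - t) * ((1 / 2) * (Jc c I I1 v * (1 - Real.exp (2 * (δ * e v)))
          + 2 * (yl - c) * sc I I1 v)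
        + δ * (yl * (v * (1 - v)) * e1 v
          + (1 / 2) * Real.exp (2 * (δ * e v)) * I v ^ 2 *
            (e2 v + 2 * (I1 v / I v) * e1 v + δ * e1 v ^ 2))) +
        t * ((1 / 2) * (Jc c I I1 v * (1 - Real.exp (2 * (δ * e v)))
          + 2 * (yu - c) * sc I I1 v)
        + δ * (yu * (v * (1 - v)) * e1 v
          + (1 / 2) * Real.exp (2 * (δ * e v)) * I v ^ 2 *
            (e2 v + 2 * (I1 v / I v) * e1 v + δ * e1 v ^ 2))) := by
      rw [hy2]; ring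
    rw [e1']
    have := mul_nonpos_of_nonneg_of_nonpos (sub_nonneg.2 ht1) kl
    have := mul_nonpos_of_nonneg_of_nonpos ht0 ku
    linarith

/-- lower barrier: the hypothesis `hineq` of `le_slope_trans` -/
theorem stat_low (h : RefI c I I1 I2) {δ yl yu : ℝ} (hδ : 0 < δ)
    (hE : EBar c δ I I1 e e1 e2 yl yu) (hv : v ∈ Ioo (0:ℝ) 1) {y : ℝ} (hy : y ∈ Icc yl yu) :
    0 ≤ Stat 1 y v (KK (-δ) I e v) (KK1 (-δ) I I1 e e1 v) (KK2 (-δ) I I1 I2 e e1 e2 v) := by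
  rw [stat_eq h hv y]
  apply mul_nonneg (KK_pos h hv).le
  have hexp : Real.exp (2 * (-δ * e v)) = Real.exp (-(2 * (δ * e v))) := by ring_nf
  rw [hexp]
  have key : ∀ z, (z = yl ∨ z = yu) → 0 ≤ (1 / 2) * (Jc c I I1 v * (1 - Real.exp (-(2 * (δ * e v))))
          + 2 * (z - c) * sc I I1 v)
        + -δ * (z * (v * (1 - v)) * e1 v
          + (1 / 2) * Real.exp (-(2 * (δ * e v))) * I v ^ 2 *
            (e2 v + 2 * (I1 v / I v) * e1 v + -δ * e1 v ^ 2)) := by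
    intro z hz
    have h1 := hE.low v hv z hz
    have h2 := mul_nonpos_of_nonneg_of_nonpos hδ.le h1
    rw [← neg_nonneg] at h2
    refine le_of_le_of_eq h2 ?_
    field_simp
    ring
  have kl := key yl (Or.inl rfl)
  have ku := key yu (Or.inr rfl)
  rcases eq_or_lt_of_le (hy.1.trans hy.2) with heq | hlt
  · have : y = yl := le_antisymm (hy.2.trans heq.ge) hy.1
    rw [this]; exact kl
  · set t := (y - yl) / (yu - yl) with ht
    have hd : 0 < yu - yl := by linarith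
    have ht0 : 0 ≤ t := div_nonneg (by linarith [hy.1]) hd.le
    have ht1 : t ≤ 1 := (div_le_one hd).2 (by linarith [hy.2])
    have hy2 : y = (1 - t) * yl + t * yu := by rw [ht]; field_simp; ring
    have e1' : (1 / 2) * (Jc c I I1 v * (1 - Real.exp (-(2 * (δ * e v))))
          + 2 * (y - c) * sc I I1 v)
        + -δ * (y * (v * (1 - v)) * e1 v
          + (1 / 2) * Real.exp (-(2 * (δ * e v))) * I v ^ 2 *
            (e2 v + 2 * (I1 v / I v) * e1 v + -δ * e1 v ^ 2)) =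
        (1 - t) * ((1 / 2) * (Jc c I I1 v * (1 - Real.exp (-(2 * (δ * e v))))
          + 2 * (yl - c) * sc I I1 v)
        + -δ * (yl * (v * (1 - v)) * e1 v
          + (1 / 2) * Real.exp (-(2 * (δ * e v))) * I v ^ 2 *
            (e2 v + 2 * (I1 v / I v) * e1 v + -δ * e1 v ^ 2))) +
        t * ((1 / 2) * (Jc c I I1 v * (1 - Real.exp (-(2 * (δ * e v))))
          + 2 * (yu - c) * sc I I1 v)
        + -δ * (yu * (v * (1 - v)) * e1 v
          + (1 / 2) * Real.exp (-(2 * (δ * e v))) * I v ^ 2 *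
            (e2 v + 2 * (I1 v / I v) * e1 v + -δ * e1 v ^ 2))) := by
      rw [hy2]; ring
    rw [e1']
    have := mul_nonneg (sub_nonneg.2 ht1) kl
    have := mul_nonneg ht0 ku
    linarith

/-- concavity of the upper barrier from its own inequality at `y = c` -/
theorem conc_up (h : RefI c I I1 I2) {δ yl yu κ : ℝ} (hδ : 0 < δ)
    (hE : EBar c δ I I1 e e1 e2 yl yu) (hv : v ∈ Ioo (0:ℝ) 1) {y : ℝ} (hy : y ∈ Icc yl yu)
    (hκ : κ ≤ 1 + 2 * y * sc I I1 v + 2 * δ * y * (v * (1 - v)) * e1 v) :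
    KK δ I e v * KK2 δ I I1 I2 e e1 e2 v ≤ -κ := by
  have h1 := stat_up h hδ hE hv hy
  have h0 := KK_pos (a := δ) (e := e) h hv
  rw [stat_eq h hv y] at h1
  have h2 := nonpos_of_mul_nonpos_right h1 h0
  rw [KKKK_eq h hv]
  have h3 : Jc c I I1 v = 1 + 2 * c * sc I I1 v := rfl
  nlinarith

theorem conc_low (h : RefI c I I1 I2) {δ κ : ℝ} (hv : v ∈ Ioo (0:ℝ) 1)
    (hκ : κ ≤ Real.exp (-(2 * (δ * e v))) * (Jc c I I1 v + δ * I v ^ 2 *
            (e2 v + 2 * (I1 v / I v) * e1 v - δ * e1 v ^ 2))) :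
    KK (-δ) I e v * KK2 (-δ) I I1 I2 e e1 e2 v ≤ -κ := by
  rw [KKKK_eq h hv]
  have hexp : Real.exp (2 * (-δ * e v)) = Real.exp (-(2 * (δ * e v))) := by ring_nf
  rw [hexp]
  nlinarith

variable {t0 t1 : ℝ} {b : ℝ → ℝ} {u V P Px Pxx : ℝ → ℝ → ℝ} {M : ℝ}

/-- **REF, upper slope bound** : `V_x ≤ (1+ε) s I_c(V) exp(δ e(V))`. -/
theorem ref_P_le (h : BSys t0 t1 b u V P Px Pxx M) {s ε : ℝ → ℝ} {κ δ yl yu : ℝ}
    (hs : ∀ t ∈ Ico t0 t1,
      HasDerivWithinAt s ((1 + 1 * (b t / s t ^ 2)) / 2 * s t ^ 3) (Ici t) t)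
    (hsc : ContinuousOn s (Icc t0 t1)) (hs0 : ∀ t ∈ Icc t0 t1, 0 < s t)
    (hε : ∀ t ∈ Ico t0 t1, HasDerivWithinAt ε (κ * ε t * s t ^ 2) (Ici t) t)
    (hεc : ContinuousOn ε (Icc t0 t1)) (hε0 : ∀ t ∈ Icc t0 t1, 0 ≤ ε t)
    (href : RefI c I I1 I2) (hδ : 0 < δ) (hE : EBar c δ I I1 e e1 e2 yl yu)
    (hy : ∀ t ∈ Ico t0 t1, b t / s t ^ 2 ∈ Icc yl yu) (hc : c ∈ Icc yl yu) (hκ0 : 0 ≤ κ)
    (hκ : ∀ v ∈ Ioo (0:ℝ) 1, κ ≤ Jc c I I1 v + 2 * δ * c * (v * (1 - v)) * e1 v)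
    (hterm : ∀ x, P t1 x ≤ (1 + ε t1) * s t1 * (I (V t1 x) * Real.exp (δ * e (V t1 x)))) :
    ∀ t ∈ Icc t0 t1, ∀ x, P t x ≤ (1 + ε t) * s t * (I (V t x) * Real.exp (δ * e (V t x))) := by
  refine slope_trans_le h hs hsc hs0 hε hεc hε0 (K := KK δ I e) (K' := KK1 δ I I1 e e1)
    (K'' := KK2 δ I I1 I2 e e1 e2)
    (fun v hv => (KK_hasDerivAt href hv (hE.d1 v hv)).continuousAt.continuousWithinAt)
    (fun v hv => KK_pos href hv) (fun v hv => KK_hasDerivAt href hv (hE.d1 v hv))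
    (fun v hv => KK1_hasSide href hv (hE.d1 v hv) (hE.d2 v hv)) hκ0
    (fun v hv => conc_up href hδ hE hv hc ?_) (fun t ht v hv => stat_up href hδ hE hv (hy t ht)) hterm
  have := hκ v hv
  unfold Jc at this
  linarith

/-- **REF, lower slope bound** : `(1-ε) s I_c(V) exp(-δ e(V)) ≤ V_x`. -/
theorem ref_le_P (h : BSys t0 t1 b u V P Px Pxx M) {s ε : ℝ → ℝ} {κ κ1 ε1 G KM δ yl yu : ℝ}
    (hs : ∀ t ∈ Ico t0 t1,
      HasDerivWithinAt s ((1 + 1 * (b t / s t ^ 2)) / 2 * s t ^ 3) (Ici t) t)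
    (hsc : ContinuousOn s (Icc t0 t1)) (hs0 : ∀ t ∈ Icc t0 t1, 0 < s t)
    (hsG : ∀ t ∈ Icc t0 t1, s t ≤ G)
    (hε : ∀ t ∈ Ico t0 t1, HasDerivWithinAt ε (κ * ε t * s t ^ 2) (Ici t) t)
    (hεc : ContinuousOn ε (Icc t0 t1)) (hε0 : ∀ t ∈ Icc t0 t1, 0 ≤ ε t)
    (hεε1 : ∀ t ∈ Icc t0 t1, ε t ≤ ε1) (hε1 : ε1 < 1)
    (href : RefI c I I1 I2) (hδ : 0 < δ) (hE : EBar c δ I I1 e e1 e2 yl yu)
    (hy : ∀ t ∈ Ico t0 t1, b t / s t ^ 2 ∈ Icc yl yu) (hκ0 : 0 ≤ κ) (hκ1 : 2 * κ ≤ κ1 * (1 - ε1))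
    (hκ : ∀ v ∈ Ioo (0:ℝ) 1, κ1 ≤ Real.exp (-(2 * (δ * e v))) * (Jc c I I1 v + δ * I v ^ 2 *
            (e2 v + 2 * (I1 v / I v) * e1 v - δ * e1 v ^ 2)))
    (hKM : ∀ v ∈ Ioo (0:ℝ) 1, I v * Real.exp (-δ * e v) ≤ KM)
    (hterm : ∀ x, (1 - ε t1) * s t1 * (I (V t1 x) * Real.exp (-δ * e (V t1 x))) ≤ P t1 x) :
    ∀ t ∈ Icc t0 t1, ∀ x, (1 - ε t) * s t * (I (V t x) * Real.exp (-δ * e (V t x))) ≤ P t x :=
  le_slope_trans h hs hsc hs0 hsG hε hεc hε0 hεε1 hε1 (K := KK (-δ) I e)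
    (K' := KK1 (-δ) I I1 e e1) (K'' := KK2 (-δ) I I1 I2 e e1 e2)
    (fun v hv => (KK_hasDerivAt href hv (hE.d1 v hv)).continuousAt.continuousWithinAt)
    (fun v hv => KK_pos href hv) hKM (fun v hv => KK_hasDerivAt href hv (hE.d1 v hv))
    (fun v hv => KK1_hasSide href hv (hE.d1 v hv) (hE.d2 v hv)) hκ0 hκ1
    (fun v hv => conc_low href hv (hκ v hv)) (fun t ht v hv => stat_low href hδ hE hv (hy t ht)) hterm

end Crest.Agent.R146.ILog_371
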