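import Crest.Agent.R146.IvG_261

/-!
Row 146, package CERT (helper261): kernel-checked interval arithmetic, part 4: expressions in
arbitrarily many real variables, interval evaluation, symbolic derivative, positivity checker
(bisection / uniform partition, disjunctions of conjunctions, mean-value form).

Typical use:
```
def e : Ex := .exp (.v 0) - .v 0 * .v 1
theorem e_pos {x y : ℝ} (hx : 0 ≤ x ∧ x ≤ 1) (hy : ...) : 0 < e.val (rl [x, y]) :=
  chk_pos (by decide +kernel : chk cfg [] [[e]] (List.replicate 6 0) [box 0 1, box 0 1] = true) ...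
```
-/

set_option autoImplicit false

namespace Crest.Agent.R146.Iv_261

/-- precision parameters: scale `S`, number `M` of terms of the exponential series, number `K` of
extra terms of the series for `Phi` -/
structure Cfg where
  /-- scale -/
  S : ℕ
  /-- terms of the exponential series -/
  M : ℕ
  /-- extra terms of the series of `Phi` -/
  K : ℕ

/-- expressions -/
inductive Ex where
  | c (n : ℤ) (d : ℕ)
  | v (i : ℕ)
  | neg (a : Ex)
  | add (a b : Ex)
  | sub (a b : Ex)
  | mul (a b : Ex)
  | inv (a : Ex)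
  | sq (a : Ex)
  | exp (a : Ex)
  | sqrt (a : Ex)
  | abs (a : Ex)
  | gs (a : Ex)
  | ph (a : Ex)
  | mn (a b : Ex)
  | mx (a b : Ex)

namespace Ex

instance : Add Ex := ⟨Ex.add⟩
instance : Sub Ex := ⟨Ex.sub⟩
instance : Mul Ex := ⟨Ex.mul⟩
instance : Neg Ex := ⟨Ex.neg⟩
instance : Div Ex := ⟨fun a b => Ex.mul a (Ex.inv b)⟩

/-- natural powers -/
def pw (a : Ex) : ℕ → Ex
  | 0 => .c 1 1
  | 1 => a
  | k + 2 => .mul (.sq a) (pw a k)

/-- real value -/
noncomputable def val (ρ : ℕ → ℝ) : Ex → ℝ
  | .c n d => (n : ℝ) / (d : ℝ)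
  | .v i => ρ i
  | .neg a => -a.val ρ
  | .add a b => a.val ρ + b.val ρ
  | .sub a b => a.val ρ - b.val ρ
  | .mul a b => a.val ρ * b.val ρ
  | .inv a => (a.val ρ)⁻¹
  | .sq a => a.val ρ ^ 2
  | .exp a => Real.exp (a.val ρ)
  | .sqrt a => Real.sqrt (a.val ρ)
  | .abs a => |a.val ρ|
  | .gs a => gauss (a.val ρ)
  | .ph a => Phi (a.val ρ)
  | .mn a b => min (a.val ρ) (b.val ρ)
  | .mx a b => max (a.val ρ) (b.val ρ)

@[simp] theorem val_c (ρ : ℕ → ℝ) (n : ℤ) (d : ℕ) : (Ex.c n d).val ρ = (n : ℝ) / (d : ℝ) := rfl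
@[simp] theorem val_v (ρ : ℕ → ℝ) (i : ℕ) : (Ex.v i).val ρ = ρ i := rfl
@[simp] theorem val_neg (ρ : ℕ → ℝ) (a : Ex) : (Ex.neg a).val ρ = -a.val ρ := rfl
@[simp] theorem val_add (ρ : ℕ → ℝ) (a b : Ex) : (Ex.add a b).val ρ = a.val ρ + b.val ρ := rfl
@[simp] theorem val_sub (ρ : ℕ → ℝ) (a b : Ex) : (Ex.sub a b).val ρ = a.val ρ - b.val ρ := rfl
@[simp] theorem val_mul (ρ : ℕ → ℝ) (a b : Ex) : (Ex.mul a b).val ρ = a.val ρ * b.val ρ := rfl
@[simp] theorem val_inv (ρ : ℕ → ℝ) (a : Ex) : (Ex.inv a).val ρ = (a.val ρ)⁻¹ := rfl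
@[simp] theorem val_sq (ρ : ℕ → ℝ) (a : Ex) : (Ex.sq a).val ρ = a.val ρ ^ 2 := rfl
@[simp] theorem val_exp (ρ : ℕ → ℝ) (a : Ex) : (Ex.exp a).val ρ = Real.exp (a.val ρ) := rfl
@[simp] theorem val_sqrt (ρ : ℕ → ℝ) (a : Ex) : (Ex.sqrt a).val ρ = Real.sqrt (a.val ρ) := rfl
@[simp] theorem val_abs (ρ : ℕ → ℝ) (a : Ex) : (Ex.abs a).val ρ = |a.val ρ| := rfl
@[simp] theorem val_gs (ρ : ℕ → ℝ) (a : Ex) : (Ex.gs a).val ρ = gauss (a.val ρ) := rfl
@[simp] theorem val_ph (ρ : ℕ → ℝ) (a : Ex) : (Ex.ph a).val ρ = Phi (a.val ρ) := rfl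
@[simp] theorem val_mn (ρ : ℕ → ℝ) (a b : Ex) : (Ex.mn a b).val ρ = min (a.val ρ) (b.val ρ) := rfl
@[simp] theorem val_mx (ρ : ℕ → ℝ) (a b : Ex) : (Ex.mx a b).val ρ = max (a.val ρ) (b.val ρ) := rfl
@[simp] theorem val_hadd (ρ : ℕ → ℝ) (a b : Ex) : (a + b).val ρ = a.val ρ + b.val ρ := rfl
@[simp] theorem val_hsub (ρ : ℕ → ℝ) (a b : Ex) : (a - b).val ρ = a.val ρ - b.val ρ := rfl
@[simp] theorem val_hmul (ρ : ℕ → ℝ) (a b : Ex) : (a * b).val ρ = a.val ρ * b.val ρ := rfl
@[simp] theorem val_hneg (ρ : ℕ → ℝ) (a : Ex) : (-a).val ρ = -a.val ρ := rfl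
@[simp] theorem val_hdiv (ρ : ℕ → ℝ) (a b : Ex) : (a / b).val ρ = a.val ρ / b.val ρ := by
  show a.val ρ * (b.val ρ)⁻¹ = _
  rw [div_eq_mul_inv]

@[simp] theorem val_pw (ρ : ℕ → ℝ) (a : Ex) : ∀ k : ℕ, (a.pw k).val ρ = a.val ρ ^ k
  | 0 => by simp [pw]
  | 1 => by simp [pw]
  | k + 2 => by
      simp only [pw, val_mul, val_sq, val_pw ρ a k]
      ring

end Ex

/-- lookup -/
def nth : List Iv → ℕ → Option Iv
  | [], _ => none
  | I :: _, 0 => some I
  | _ :: l, n + 1 => nth l n

/-- replace the `i`-th interval -/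
def upd : List Iv → ℕ → Iv → List Iv
  | [], _, _ => []
  | _ :: l, 0, J => J :: l
  | I :: l, n + 1, J => I :: upd l n J

theorem nth_upd (l : List Iv) (i : ℕ) (J : Iv) (j : ℕ) :
    nth (upd l i J) j = if j = i then (nth l i).map (fun _ => J) else nth l j := by
  induction l generalizing i j with
  | nil => simp [upd, nth]
  | cons I l ih =>
    rcases i with _ | i <;> rcases j with _ | j <;> simp [upd, nth, ih]

/-- all variables lie in their intervals -/
def EnvMem (S : ℕ) (env : List Iv) (ρ : ℕ → ℝ) : Prop :=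
  ∀ (i : ℕ) (I : Iv), nth env i = some I → I.mem S (ρ i)

theorem EnvMem.updMem {S : ℕ} {env : List Iv} {ρ : ℕ → ℝ} (h : EnvMem S env ρ) {i : ℕ} {J : Iv} {x : ℝ}
    (hx : J.mem S x) : EnvMem S (upd env i J) (Function.update ρ i x) := by
  intro j I hj
  rw [nth_upd] at hj
  by_cases hji : j = i
  · subst hji
    rw [if_pos rfl] at hj
    simp only [Function.update_self]
    cases hn : nth env j with
    | none => rw [hn] at hj; simp at hj
    | some K =>
      rw [hn] at hj
      simp only [Option.map_some, Option.some.injEq] at hj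
      subst hj
      exact hx
  · rw [if_neg hji] at hj
    rw [Function.update_of_ne hji]
    exact h j I hj

theorem EnvMem.updSelf {S : ℕ} {env : List Iv} {ρ : ℕ → ℝ} (h : EnvMem S env ρ) {i : ℕ} {J : Iv}
    (hx : J.mem S (ρ i)) : EnvMem S (upd env i J) ρ := by
  have := h.updMem (i := i) hx
  rwa [Function.update_eq_self] at this

/-! ### interval evaluation -/

/-- lift a unary operation -/
def o1 (a : Option Iv) (f : Iv → Iv) : Option Iv :=
  match a with
  | some I => some (f I)
  | none => none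
/-- lift a partial unary operation -/
def o1p (a : Option Iv) (f : Iv → Option Iv) : Option Iv :=
  match a with
  | some I => f I
  | none => none
/-- lift a binary operation -/
def o2 (a b : Option Iv) (f : Iv → Iv → Iv) : Option Iv :=
  match a, b with
  | some I, some J => some (f I J)
  | _, _ => none

theorem o1_some {a : Option Iv} {f : Iv → Iv} {J : Iv} (h : o1 a f = some J) :
    ∃ I, a = some I ∧ f I = J := by
  cases a with
  | none => simp [o1] at h
  | some I => exact ⟨I, rfl, by simpa [o1] using h⟩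

theorem o1p_some {a : Option Iv} {f : Iv → Option Iv} {J : Iv} (h : o1p a f = some J) :
    ∃ I, a = some I ∧ f I = some J := by
  cases a with
  | none => simp [o1p] at h
  | some I => exact ⟨I, rfl, by simpa [o1p] using h⟩

theorem o2_some {a b : Option Iv} {f : Iv → Iv → Iv} {J : Iv} (h : o2 a b f = some J) :
    ∃ I K, a = some I ∧ b = some K ∧ f I K = J := by
  cases a with
  | none => simp [o2] at h
  | some I =>
    cases b with
    | none => simp [o2] at h
    | some K => exact ⟨I, K, rfl, rfl, by simpa [o2] using h⟩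

/-- interval value -/
def Ex.iv (c : Cfg) (env : List Iv) : Ex → Option Iv
  | .c _ 0 => none
  | .c n (d + 1) => some (Iv.const c.S n (d + 1))
  | .v i => nth env i
  | .neg a => o1 (a.iv c env) Iv.neg
  | .add a b => o2 (a.iv c env) (b.iv c env) Iv.add
  | .sub a b => o2 (a.iv c env) (b.iv c env) Iv.sub
  | .mul a b => o2 (a.iv c env) (b.iv c env) (Iv.mul c.S)
  | .inv a => o1p (a.iv c env) (Iv.inv c.S)
  | .sq a => o1 (a.iv c env) (Iv.sqr c.S)
  | .exp a => o1 (a.iv c env) (expIv c.S c.M)
  | .sqrt a => o1p (a.iv c env) (sqrtIv c.S)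
  | .abs a => o1 (a.iv c env) Iv.abs'
  | .gs a => o1 (a.iv c env) (gaussIv c.S c.M)
  | .ph a => o1 (a.iv c env) (PhiIv c.S c.M c.K)
  | .mn a b => o2 (a.iv c env) (b.iv c env) Iv.min'
  | .mx a b => o2 (a.iv c env) (b.iv c env) Iv.max'

theorem Ex.mem_iv {c : Cfg} (hS : 0 < c.S) {env : List Iv} {ρ : ℕ → ℝ} (hρ : EnvMem c.S env ρ) :
    ∀ (e : Ex) (J : Iv), e.iv c env = some J → J.mem c.S (e.val ρ)
  | .c _ 0, J, h => by simp [Ex.iv] at h
  | .c n (d + 1), J, h => by
      simp only [Ex.iv, Option.some.injEq] at h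
      subst h
      exact Iv.mem_const n (Nat.succ_pos d)
  | .v i, J, h => hρ i J h
  | .neg a, J, h => by
      obtain ⟨I, h1, rfl⟩ := o1_some h
      exact Iv.mem_neg (Ex.mem_iv hS hρ a I h1)
  | .add a b, J, h => by
      obtain ⟨I, K, h1, h2, rfl⟩ := o2_some h
      exact Iv.mem_add (Ex.mem_iv hS hρ a I h1) (Ex.mem_iv hS hρ b K h2)
  | .sub a b, J, h => by
      obtain ⟨I, K, h1, h2, rfl⟩ := o2_some h
      exact Iv.mem_sub (Ex.mem_iv hS hρ a I h1) (Ex.mem_iv hS hρ b K h2)
  | .mul a b, J, h => by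
      obtain ⟨I, K, h1, h2, rfl⟩ := o2_some h
      exact Iv.mem_mul hS (Ex.mem_iv hS hρ a I h1) (Ex.mem_iv hS hρ b K h2)
  | .inv a, J, h => by
      obtain ⟨I, h1, h2⟩ := o1p_some h
      exact (Iv.mem_inv hS (Ex.mem_iv hS hρ a I h1) h2).1
  | .sq a, J, h => by
      obtain ⟨I, h1, rfl⟩ := o1_some h
      exact Iv.mem_sqr hS (Ex.mem_iv hS hρ a I h1)
  | .exp a, J, h => by
      obtain ⟨I, h1, rfl⟩ := o1_some h
      exact mem_expIv hS (Ex.mem_iv hS hρ a I h1)
  | .sqrt a, J, h => by
      obtain ⟨I, h1, h2⟩ := o1p_some h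
      exact (mem_sqrtIv hS (Ex.mem_iv hS hρ a I h1) h2).1
  | .abs a, J, h => by
      obtain ⟨I, h1, rfl⟩ := o1_some h
      exact Iv.mem_abs (Ex.mem_iv hS hρ a I h1)
  | .gs a, J, h => by
      obtain ⟨I, h1, rfl⟩ := o1_some h
      exact mem_gaussIv hS (Ex.mem_iv hS hρ a I h1)
  | .ph a, J, h => by
      obtain ⟨I, h1, rfl⟩ := o1_some h
      exact mem_PhiIv hS (Ex.mem_iv hS hρ a I h1)
  | .mn a b, J, h => by
      obtain ⟨I, K, h1, h2, rfl⟩ := o2_some h
      exact Iv.mem_min (Ex.mem_iv hS hρ a I h1) (Ex.mem_iv hS hρ b K h2)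
  | .mx a b, J, h => by
      obtain ⟨I, K, h1, h2, rfl⟩ := o2_some h
      exact Iv.mem_max (Ex.mem_iv hS hρ a I h1) (Ex.mem_iv hS hρ b K h2)

/-! ### symbolic derivative -/

/-- is the expression the literal zero `c 0 1` -/
def Ex.isZ : Ex → Bool
  | .c (.ofNat 0) 1 => true
  | _ => false

/-- is the expression the literal one `c 1 1` -/
def Ex.isO : Ex → Bool
  | .c (.ofNat 1) 1 => true
  | _ => false

theorem Ex.isZ_spec {e : Ex} (h : e.isZ = true) : e = .c 0 1 := by
  unfold Ex.isZ at h
  split at h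
  · rfl
  · simp at h

theorem Ex.isO_spec {e : Ex} (h : e.isO = true) : e = .c 1 1 := by
  unfold Ex.isO at h
  split at h
  · rfl
  · simp at h

/-- product with shortcuts in the first factor -/
def Ex.sm (a b : Ex) : Ex := bif a.isZ then .c 0 1 else bif a.isO then b else .mul a b
/-- sum with shortcuts -/
def Ex.sa (a b : Ex) : Ex := bif a.isZ then b else bif b.isZ then a else .add a b
/-- difference with shortcuts -/
def Ex.ss (a b : Ex) : Ex := bif b.isZ then a else bif a.isZ then .neg b else .sub a b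
/-- negation with shortcut -/
def Ex.sn (a : Ex) : Ex := bif a.isZ then a else .neg a

theorem Ex.val_sm (ρ : ℕ → ℝ) (a b : Ex) : (Ex.sm a b).val ρ = a.val ρ * b.val ρ := by
  unfold Ex.sm
  cases h : a.isZ
  · cases h2 : a.isO
    · rfl
    · rw [Ex.isO_spec h2]; simp
  · rw [Ex.isZ_spec h]; simp

theorem Ex.val_sa (ρ : ℕ → ℝ) (a b : Ex) : (Ex.sa a b).val ρ = a.val ρ + b.val ρ := by
  unfold Ex.sa
  cases h : a.isZ
  · cases h2 : b.isZ
    · rfl
    · rw [Ex.isZ_spec h2]; simp
  · rw [Ex.isZ_spec h]; simp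

theorem Ex.val_ss (ρ : ℕ → ℝ) (a b : Ex) : (Ex.ss a b).val ρ = a.val ρ - b.val ρ := by
  unfold Ex.ss
  cases h : b.isZ
  · cases h2 : a.isZ
    · rfl
    · rw [Ex.isZ_spec h2]; simp
  · rw [Ex.isZ_spec h]; simp

theorem Ex.val_sn (ρ : ℕ → ℝ) (a : Ex) : (Ex.sn a).val ρ = -a.val ρ := by
  unfold Ex.sn
  cases h : a.isZ
  · rfl
  · rw [Ex.isZ_spec h]; simp

theorem Ex.iv_zero (c : Cfg) (env : List Iv) : ((Ex.c 0 1).iv c env).isSome = true := rfl
theorem Ex.iv_one' (c : Cfg) (env : List Iv) : ((Ex.c 1 1).iv c env).isSome = true := rfl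

theorem o1_isSome {a : Option Iv} {f : Iv → Iv} (h : (o1 a f).isSome = true) : a.isSome = true := by
  cases a with
  | none => simp [o1] at h
  | some I => rfl

theorem o1p_isSome {a : Option Iv} {f : Iv → Option Iv} (h : (o1p a f).isSome = true) :
    a.isSome = true := by
  cases a with
  | none => simp [o1p] at h
  | some I => rfl

theorem o2_isSome {a b : Option Iv} {f : Iv → Iv → Iv} (h : (o2 a b f).isSome = true) :
    a.isSome = true ∧ b.isSome = true := by
  cases a with
  | none => simp [o2] at h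
  | some I =>
    cases b with
    | none => simp [o2] at h
    | some K => exact ⟨rfl, rfl⟩

theorem Ex.sm_isSome {c : Cfg} {env : List Iv} {a b : Ex} (h : ((Ex.sm a b).iv c env).isSome = true) :
    (a.iv c env).isSome = true := by
  unfold Ex.sm at h
  cases h1 : a.isZ
  · rw [h1] at h
    cases h2 : a.isO
    · rw [h2] at h
      exact (o2_isSome h).1
    · rw [Ex.isO_spec h2]; exact Ex.iv_one' c env
  · rw [Ex.isZ_spec h1]; exact Ex.iv_zero c env

theorem Ex.sa_isSome {c : Cfg} {env : List Iv} {a b : Ex} (h : ((Ex.sa a b).iv c env).isSome = true) :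
    (a.iv c env).isSome = true ∧ (b.iv c env).isSome = true := by
  unfold Ex.sa at h
  cases h1 : a.isZ
  · rw [h1] at h
    cases h2 : b.isZ
    · rw [h2] at h
      exact o2_isSome h
    · rw [h2] at h
      refine ⟨h, ?_⟩
      rw [Ex.isZ_spec h2]; exact Ex.iv_zero c env
  · rw [h1] at h
    refine ⟨?_, h⟩
    rw [Ex.isZ_spec h1]; exact Ex.iv_zero c env

theorem Ex.ss_isSome {c : Cfg} {env : List Iv} {a b : Ex} (h : ((Ex.ss a b).iv c env).isSome = true) :
    (a.iv c env).isSome = true ∧ (b.iv c env).isSome = true := by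
  unfold Ex.ss at h
  cases h1 : b.isZ
  · rw [h1] at h
    cases h2 : a.isZ
    · rw [h2] at h
      exact o2_isSome h
    · rw [h2] at h
      refine ⟨?_, o1_isSome h⟩
      rw [Ex.isZ_spec h2]; exact Ex.iv_zero c env
  · rw [h1] at h
    refine ⟨h, ?_⟩
    rw [Ex.isZ_spec h1]; exact Ex.iv_zero c env

theorem Ex.sn_isSome {c : Cfg} {env : List Iv} {a : Ex} (h : ((Ex.sn a).iv c env).isSome = true) :
    (a.iv c env).isSome = true := by
  unfold Ex.sn at h
  cases h1 : a.isZ
  · rw [h1] at h
    exact o1_isSome h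
  · rw [h1] at h
    exact h

/-- derivation with `D (v i) = d i` -/
def Ex.D (d : ℕ → Ex) : Ex → Ex
  | .c _ _ => .c 0 1
  | .v i => d i
  | .neg a => .sn (a.D d)
  | .add a b => .sa (a.D d) (b.D d)
  | .sub a b => .ss (a.D d) (b.D d)
  | .mul a b => .sa (.sm (a.D d) b) (.sm (b.D d) a)
  | .inv a => .sm (a.D d) (.neg (.sq (.inv a)))
  | .sq a => .sm (a.D d) (.mul (.c 2 1) a)
  | .exp a => .sm (a.D d) (.exp a)
  | .sqrt a => .mul (a.D d) (.inv (.mul (.c 2 1) (.sqrt a)))
  | .abs a => .mul (a.D d) (.mul a (.inv (.abs a)))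
  | .gs a => .sm (a.D d) (.neg (.mul a (.gs a)))
  | .ph a => .sm (a.D d) (.gs a)
  | .mn _ _ => .inv (.c 0 1)
  | .mx _ _ => .inv (.c 0 1)

/-- domain of differentiability -/
def Ex.ok (ρ : ℕ → ℝ) : Ex → Prop
  | .c _ _ => True
  | .v _ => True
  | .neg a => a.ok ρ
  | .add a b => a.ok ρ ∧ b.ok ρ
  | .sub a b => a.ok ρ ∧ b.ok ρ
  | .mul a b => a.ok ρ ∧ b.ok ρ
  | .inv a => a.ok ρ ∧ a.val ρ ≠ 0
  | .sq a => a.ok ρ
  | .exp a => a.ok ρ
  | .sqrt a => a.ok ρ ∧ 0 < a.val ρ
  | .abs a => a.ok ρ ∧ a.val ρ ≠ 0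
  | .gs a => a.ok ρ
  | .ph a => a.ok ρ
  | .mn _ _ => False
  | .mx _ _ => False

theorem Ex.ok_of_iv {c : Cfg} (hS : 0 < c.S) {env : List Iv} {ρ : ℕ → ℝ} (hρ : EnvMem c.S env ρ)
    (d : ℕ → Ex) : ∀ e : Ex, (e.iv c env).isSome = true → ((e.D d).iv c env).isSome = true → e.ok ρ
  | .c _ _, _, _ => trivial
  | .v _, _, _ => trivial
  | .neg a, h, hD => Ex.ok_of_iv hS hρ d a (o1_isSome h) (Ex.sn_isSome hD)
  | .add a b, h, hD => by
      have h' := o2_isSome h
      have hD' := Ex.sa_isSome hD
      exact ⟨Ex.ok_of_iv hS hρ d a h'.1 hD'.1, Ex.ok_of_iv hS hρ d b h'.2 hD'.2⟩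
  | .sub a b, h, hD => by
      have h' := o2_isSome h
      have hD' := Ex.ss_isSome hD
      exact ⟨Ex.ok_of_iv hS hρ d a h'.1 hD'.1, Ex.ok_of_iv hS hρ d b h'.2 hD'.2⟩
  | .mul a b, h, hD => by
      have h' := o2_isSome h
      have hD' := Ex.sa_isSome hD
      exact ⟨Ex.ok_of_iv hS hρ d a h'.1 (Ex.sm_isSome hD'.1),
        Ex.ok_of_iv hS hρ d b h'.2 (Ex.sm_isSome hD'.2)⟩
  | .inv a, h, hD => by
      refine ⟨Ex.ok_of_iv hS hρ d a (o1p_isSome h) (Ex.sm_isSome hD), ?_⟩
      obtain ⟨J, hJ⟩ := Option.isSome_iff_exists.mp h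
      obtain ⟨I, h1, h2⟩ := o1p_some hJ
      exact (Iv.mem_inv hS (Ex.mem_iv hS hρ a I h1) h2).2
  | .sq a, h, hD => Ex.ok_of_iv hS hρ d a (o1_isSome h) (Ex.sm_isSome hD)
  | .exp a, h, hD => Ex.ok_of_iv hS hρ d a (o1_isSome h) (Ex.sm_isSome hD)
  | .sqrt a, h, hD => by
      have hD' := o2_isSome hD
      refine ⟨Ex.ok_of_iv hS hρ d a (o1p_isSome h) hD'.1, ?_⟩
      obtain ⟨J, hJ⟩ := Option.isSome_iff_exists.mp hD'.2
      obtain ⟨I, h1, h2⟩ := o1p_some hJ
      have h3 := (Iv.mem_inv hS (Ex.mem_iv hS hρ _ I h1) h2).2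
      simp only [Ex.val_mul, Ex.val_c, Ex.val_sqrt] at h3
      have h4 : Real.sqrt (a.val ρ) ≠ 0 := by
        intro h0; apply h3; rw [h0]; simp
      by_contra hc
      exact h4 (Real.sqrt_eq_zero_of_nonpos (not_lt.mp hc))
  | .abs a, h, hD => by
      have hD' := o2_isSome hD
      refine ⟨Ex.ok_of_iv hS hρ d a (o1_isSome h) hD'.1, ?_⟩
      have hD'' := o2_isSome hD'.2
      obtain ⟨J, hJ⟩ := Option.isSome_iff_exists.mp hD''.2
      obtain ⟨I, h1, h2⟩ := o1p_some hJ
      have h3 := (Iv.mem_inv hS (Ex.mem_iv hS hρ _ I h1) h2).2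
      simp only [Ex.val_abs] at h3
      exact fun h0 => h3 (by rw [h0]; simp)
  | .gs a, h, hD => Ex.ok_of_iv hS hρ d a (o1_isSome h) (Ex.sm_isSome hD)
  | .ph a, h, hD => Ex.ok_of_iv hS hρ d a (o1_isSome h) (Ex.sm_isSome hD)
  | .mn _ _, _, hD => by
      exfalso
      obtain ⟨J, hJ⟩ := Option.isSome_iff_exists.mp hD
      obtain ⟨I, h1, h2⟩ := o1p_some hJ
      have h3 := (Iv.mem_inv hS (Ex.mem_iv hS hρ _ I h1) h2).2
      simp at h3
  | .mx _ _, _, hD => by
      exfalso
      obtain ⟨J, hJ⟩ := Option.isSome_iff_exists.mp hD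
      obtain ⟨I, h1, h2⟩ := o1p_some hJ
      have h3 := (Iv.mem_inv hS (Ex.mem_iv hS hρ _ I h1) h2).2
      simp at h3

theorem Ex.hasDerivAt_val {d : ℕ → Ex} {ρ : ℝ → ℕ → ℝ} {t : ℝ}
    (hρ : ∀ i, HasDerivAt (fun s => ρ s i) ((d i).val (ρ t)) t) :
    ∀ e : Ex, e.ok (ρ t) → HasDerivAt (fun s => e.val (ρ s)) ((e.D d).val (ρ t)) t
  | .c n k, _ => by
      have := hasDerivAt_const t ((n : ℝ) / (k : ℝ))
      refine this.congr_deriv ?_
      simp [Ex.D]
  | .v i, _ => hρ i
  | .neg a, h => by
      refine (Ex.hasDerivAt_val hρ a h).fun_neg.congr_deriv ?_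
      simp [Ex.D, Ex.val_sn]
  | .add a b, h => by
      refine ((Ex.hasDerivAt_val hρ a h.1).fun_add (Ex.hasDerivAt_val hρ b h.2)).congr_deriv ?_
      simp [Ex.D, Ex.val_sa]
  | .sub a b, h => by
      refine ((Ex.hasDerivAt_val hρ a h.1).fun_sub (Ex.hasDerivAt_val hρ b h.2)).congr_deriv ?_
      simp [Ex.D, Ex.val_ss]
  | .mul a b, h => by
      refine ((Ex.hasDerivAt_val hρ a h.1).fun_mul (Ex.hasDerivAt_val hρ b h.2)).congr_deriv ?_
      simp [Ex.D, Ex.val_sa, Ex.val_sm]
      ring
  | .inv a, h => by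
      refine ((Ex.hasDerivAt_val hρ a h.1).fun_inv h.2).congr_deriv ?_
      simp [Ex.D, Ex.val_sm]
      field_simp
  | .sq a, h => by
      refine ((Ex.hasDerivAt_val hρ a h).fun_pow 2).congr_deriv ?_
      simp [Ex.D, Ex.val_sm]
      ring
  | .exp a, h => by
      refine ((Ex.hasDerivAt_val hρ a h).exp).congr_deriv ?_
      simp [Ex.D, Ex.val_sm]
      ring
  | .sqrt a, h => by
      refine ((Ex.hasDerivAt_val hρ a h.1).sqrt h.2.ne').congr_deriv ?_
      simp [Ex.D]
      ring
  | .abs a, h => by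
      have ha := Ex.hasDerivAt_val hρ a h.1
      rcases lt_or_gt_of_ne h.2 with h1 | h1
      · have h2 := (hasDerivAt_abs_neg h1).comp t ha
        refine h2.congr_deriv ?_
        simp only [Ex.D, Ex.val_mul, Ex.val_inv, Ex.val_abs, abs_of_neg h1]
        have : a.val (ρ t) ≠ 0 := h1.ne
        field_simp
      · have h2 := (hasDerivAt_abs_pos h1).comp t ha
        refine h2.congr_deriv ?_
        simp only [Ex.D, Ex.val_mul, Ex.val_inv, Ex.val_abs, abs_of_pos h1]
        have : a.val (ρ t) ≠ 0 := h1.ne'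
        field_simp
  | .gs a, h => by
      refine ((hasDerivAt_gauss _).comp t (Ex.hasDerivAt_val hρ a h)).congr_deriv ?_
      simp [Ex.D, Ex.val_sm]
      ring
  | .ph a, h => by
      refine ((hasDerivAt_Phi _).comp t (Ex.hasDerivAt_val hρ a h)).congr_deriv ?_
      simp [Ex.D, Ex.val_sm]
      ring
  | .mn _ _, h => h.elim
  | .mx _ _, h => h.elim

/-! ### one distinguished variable -/

/-- partial derivative with respect to variable `i` -/
def Ex.Dv (i : ℕ) (e : Ex) : Ex := e.D (fun j => bif Nat.beq j i then .c 1 1 else .c 0 1)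

theorem Ex.hasDerivAt_upd {e : Ex} {i : ℕ} {ρ : ℕ → ℝ} {x : ℝ} (h : e.ok (Function.update ρ i x)) :
    HasDerivAt (fun s => e.val (Function.update ρ i s)) ((e.Dv i).val (Function.update ρ i x)) x := by
  refine Ex.hasDerivAt_val (ρ := fun s => Function.update ρ i s) (t := x) ?_ e h
  intro j
  by_cases hj : j = i
  · subst hj
    simp only [Function.update_self, Nat.beq_refl, cond_true, Ex.val_c, Int.cast_one, Nat.cast_one,
      div_one]
    exact hasDerivAt_id x
  · have hb : Nat.beq j i = false := by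
      rw [← Bool.not_eq_true, Nat.beq_eq]; exact hj
    simp only [Function.update_of_ne hj, hb, cond_false, Ex.val_c, Int.cast_zero, zero_div]
    exact hasDerivAt_const x _

/-- one-variable reading of an expression (all variables equal) -/
noncomputable def Ex.fn (e : Ex) (x : ℝ) : ℝ := e.val (fun _ => x)

/-- derivative of the one-variable reading -/
def Ex.D1 (e : Ex) : Ex := e.D (fun _ => .c 1 1)

theorem Ex.hasDerivAt_fn {e : Ex} {x : ℝ} (h : e.ok (fun _ => x)) :
    HasDerivAt e.fn (e.D1.fn x) x := by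
  refine Ex.hasDerivAt_val (ρ := fun s _ => s) (t := x) ?_ e h
  intro j
  simp only [Ex.val_c, Int.cast_one, Nat.cast_one, div_one]
  exact hasDerivAt_id x

/-! ### positivity -/

/-- the expression is certified positive on the box -/
def posB (c : Cfg) (env : List Iv) (e : Ex) : Bool :=
  match e.iv c env with
  | some I => ble 1 I.lo
  | none => false

theorem Iv.pos_of_lo {S : ℕ} {I : Iv} {v : ℝ} (h : I.mem S v) (h0 : 1 ≤ I.lo) : 0 < v := by
  have h1 : (1 : ℝ) ≤ (I.lo : ℝ) := by exact_mod_cast h0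
  have h2 : 0 < v * S := lt_of_lt_of_le one_pos (h1.trans h.1)
  exact pos_of_mul_pos_left h2 (Nat.cast_nonneg S)

theorem posB_sound {c : Cfg} (hS : 0 < c.S) {env : List Iv} {ρ : ℕ → ℝ} (hρ : EnvMem c.S env ρ)
    {e : Ex} (h : posB c env e = true) : 0 < e.val ρ := by
  unfold posB at h
  cases hi : e.iv c env with
  | none => rw [hi] at h; simp at h
  | some I =>
    rw [hi] at h
    simp only [ble_iff] at h
    exact Iv.pos_of_lo (Ex.mem_iv hS hρ e I hi) h

/-- mean value form in the listed variables -/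
def ivM (c : Cfg) : List ℕ → List Iv → Ex → Option Iv
  | [], env, e => e.iv c env
  | i :: is, env, e =>
    match nth env i, e.iv c env, (e.Dv i).iv c env with
    | some X, some C, some B =>
      let m := (X.lo + X.hi) / 2
      match ivM c is (upd env i ⟨m, m⟩) e with
      | some A => some (Iv.inter C (Iv.add A (Iv.mul c.S B ⟨X.lo - m, X.hi - m⟩)))
      | none => some C
    | _, o, _ => o

theorem mem_ivM {c : Cfg} (hS : 0 < c.S) (e : Ex) : ∀ (is : List ℕ) (env : List Iv) (ρ : ℕ → ℝ)
    (_ : EnvMem c.S env ρ) (J : Iv), ivM c is env e = some J → J.mem c.S (e.val ρ)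
  | [], env, ρ, hρ, J, h => Ex.mem_iv hS hρ e J h
  | i :: is, env, ρ, hρ, J, h => by
      have hS' : (0 : ℝ) < (c.S : ℝ) := by exact_mod_cast hS
      unfold ivM at h
      cases hX : nth env i with
      | none => rw [hX] at h; exact Ex.mem_iv hS hρ e J h
      | some X =>
        cases hC : e.iv c env with
        | none => rw [hX, hC] at h; simp at h
        | some C =>
          cases hB : (e.Dv i).iv c env with
          | none =>
            rw [hX, hC, hB] at h
            simp only [Option.some.injEq] at h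
            subst h
            exact Ex.mem_iv hS hρ e _ hC
          | some B =>
            rw [hX, hC, hB] at h
            simp only at h
            set m := (X.lo + X.hi) / 2 with hm
            cases hA : ivM c is (upd env i ⟨m, m⟩) e with
            | none =>
              rw [hA] at h
              simp only [Option.some.injEq] at h
              subst h
              exact Ex.mem_iv hS hρ e _ hC
            | some A =>
              rw [hA] at h
              simp only [Option.some.injEq] at h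
              subst h
              have hCm := Ex.mem_iv hS hρ e _ hC
              refine Iv.mem_inter hCm ?_
              have hXm := hρ i X hX
              set x := ρ i with hx
              set y : ℝ := (m : ℝ) / c.S with hy
              have hym : (Iv.mk m m).mem c.S y := by
                have e1 : y * c.S = m := by rw [hy]; field_simp
                constructor <;> simp [e1]
              have hAm := mem_ivM hS e is (upd env i ⟨m, m⟩) (Function.update ρ i y)
                (hρ.updMem hym) A hA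
              have hXlh : X.lo ≤ X.hi := by
                have := hXm.1.trans hXm.2
                exact_mod_cast this
              have hyX : X.mem c.S y := by
                have e1 : y * c.S = m := by rw [hy]; field_simp
                have a1 : X.lo ≤ m := by omega
                have a2 : m ≤ X.hi := by omega
                constructor
                · rw [e1]; exact_mod_cast a1
                · rw [e1]; exact_mod_cast a2
              have hdm : (Iv.mk (X.lo - m) (X.hi - m)).mem c.S (x - y) := by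
                have := Iv.mem_sub hXm hym
                simpa [Iv.sub] using this
              -- derivative on the segment
              have hder : ∀ z : ℝ, X.mem c.S z →
                  HasDerivAt (fun s => e.val (Function.update ρ i s))
                    ((e.Dv i).val (Function.update ρ i z)) z ∧
                  B.mem c.S ((e.Dv i).val (Function.update ρ i z)) := by
                intro z hz
                have hez : EnvMem c.S env (Function.update ρ i z) := by
                  intro j I hj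
                  by_cases hji : j = i
                  · subst hji
                    rw [hX] at hj
                    simp only [Option.some.injEq] at hj
                    subst hj
                    simpa using hz
                  · rw [Function.update_of_ne hji]
                    exact hρ j I hj
                refine ⟨Ex.hasDerivAt_upd ?_, Ex.mem_iv hS hez _ B hB⟩
                refine Ex.ok_of_iv hS hez (fun j => bif Nat.beq j i then .c 1 1 else .c 0 1) e ?_ ?_
                · rw [hC]; rfl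
                · have : ((e.Dv i).iv c env).isSome = true := by rw [hB]; rfl
                  exact this
              have hmvt : ∃ z, X.mem c.S z ∧ e.val (Function.update ρ i x) -
                  e.val (Function.update ρ i y) = (e.Dv i).val (Function.update ρ i z) * (x - y) := by
                rcases lt_trichotomy x y with hxy | hxy | hxy
                · have hseg : ∀ z ∈ Set.Icc x y, X.mem c.S z := fun z hz =>
                    Iv.mem_conv hXm hyX hz.1 hz.2
                  obtain ⟨z, hz, hzz⟩ := exists_hasDerivAt_eq_slope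
                    (fun s => e.val (Function.update ρ i s))
                    (fun z => (e.Dv i).val (Function.update ρ i z)) hxy
                    (fun z hz => ((hder z (hseg z hz)).1).continuousAt.continuousWithinAt)
                    (fun z hz => (hder z (hseg z (Set.Ioo_subset_Icc_self hz))).1)
                  refine ⟨z, hseg z (Set.Ioo_subset_Icc_self hz), ?_⟩
                  rw [hzz]
                  have : y - x ≠ 0 := by linarith
                  field_simp
                  ring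
                · refine ⟨x, hXm, ?_⟩
                  rw [hxy]; simp
                · have hseg : ∀ z ∈ Set.Icc y x, X.mem c.S z := fun z hz =>
                    Iv.mem_conv hyX hXm hz.1 hz.2
                  obtain ⟨z, hz, hzz⟩ := exists_hasDerivAt_eq_slope
                    (fun s => e.val (Function.update ρ i s))
                    (fun z => (e.Dv i).val (Function.update ρ i z)) hxy
                    (fun z hz => ((hder z (hseg z hz)).1).continuousAt.continuousWithinAt)
                    (fun z hz => (hder z (hseg z (Set.Ioo_subset_Icc_self hz))).1)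
                  refine ⟨z, hseg z (Set.Ioo_subset_Icc_self hz), ?_⟩
                  rw [hzz]
                  have : x - y ≠ 0 := by linarith
                  field_simp
              obtain ⟨z, hz, hzz⟩ := hmvt
              have hBm := (hder z hz).2
              have hfin := Iv.mem_add hAm (Iv.mem_mul hS hBm hdm)
              have e2 : Function.update ρ i x = ρ := by rw [hx]; exact Function.update_eq_self i ρ
              rw [e2] at hzz
              have e3 : e.val (Function.update ρ i y) +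
                  (e.Dv i).val (Function.update ρ i z) * (x - y) = e.val ρ := by
                rw [← hzz]; ring
              rw [e3] at hfin
              exact hfin

/-- certified positive, with mean value form in the variables `mv` -/
def posM (c : Cfg) (mv : List ℕ) (env : List Iv) (e : Ex) : Bool :=
  match ivM c mv env e with
  | some I => ble 1 I.lo
  | none => false

theorem posM_sound {c : Cfg} (hS : 0 < c.S) {mv : List ℕ} {env : List Iv} {ρ : ℕ → ℝ}
    (hρ : EnvMem c.S env ρ) {e : Ex} (h : posM c mv env e = true) : 0 < e.val ρ := by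
  unfold posM at h
  cases hi : ivM c mv env e with
  | none => rw [hi] at h; simp at h
  | some I =>
    rw [hi] at h
    simp only [ble_iff] at h
    exact Iv.pos_of_lo (mem_ivM hS e mv env ρ hρ I hi) h

/-- all expressions of a clause are certified positive on the box -/
def clauseOk (c : Cfg) (mv : List ℕ) (env : List Iv) : List Ex → Bool
  | [] => true
  | e :: es => posM c mv env e && clauseOk c mv env es

/-- some clause is certified on the box -/
def boxOk (c : Cfg) (mv : List ℕ) (env : List Iv) : List (List Ex) → Bool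
  | [] => false
  | cl :: cls => clauseOk c mv env cl || boxOk c mv env cls

/-- bisection along the list of variables `l` -/
def chk (c : Cfg) (mv : List ℕ) (cls : List (List Ex)) : List ℕ → List Iv → Bool
  | [], env => boxOk c mv env cls
  | i :: l, env => boxOk c mv env cls ||
      (match nth env i with
       | some X =>
         let m := (X.lo + X.hi) / 2
         chk c mv cls l (upd env i ⟨X.lo, m⟩) && chk c mv cls l (upd env i ⟨m, X.hi⟩)
       | none => false)

theorem clauseOk_sound {c : Cfg} (hS : 0 < c.S) {mv : List ℕ} {env : List Iv} {ρ : ℕ → ℝ}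
    (hρ : EnvMem c.S env ρ) :
    ∀ cl : List Ex, clauseOk c mv env cl = true → ∀ e ∈ cl, 0 < e.val ρ
  | [], _ => by simp
  | e :: es, h => by
      simp only [clauseOk, Bool.and_eq_true] at h
      intro e' he'
      rcases List.mem_cons.mp he' with rfl | he'
      · exact posM_sound hS hρ h.1
      · exact clauseOk_sound hS hρ es h.2 e' he'

theorem boxOk_sound {c : Cfg} (hS : 0 < c.S) {mv : List ℕ} {env : List Iv} {ρ : ℕ → ℝ}
    (hρ : EnvMem c.S env ρ) :
    ∀ cls : List (List Ex), boxOk c mv env cls = true → ∃ cl ∈ cls, ∀ e ∈ cl, 0 < e.val ρ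
  | [], h => by simp [boxOk] at h
  | cl :: cls, h => by
      simp only [boxOk, Bool.or_eq_true] at h
      rcases h with h | h
      · exact ⟨cl, by simp, clauseOk_sound hS hρ cl h⟩
      · obtain ⟨cl', h1, h2⟩ := boxOk_sound hS hρ cls h
        exact ⟨cl', by simp [h1], h2⟩

theorem mem_split {S : ℕ} {v : ℝ} {I : Iv} (h : I.mem S v) (k : ℤ) :
    Iv.mem S ⟨I.lo, k⟩ v ∨ Iv.mem S ⟨k, I.hi⟩ v := by
  rcases le_total (v * (S : ℝ)) (k : ℝ) with hk | hk
  · exact Or.inl ⟨h.1, hk⟩
  · exact Or.inr ⟨hk, h.2⟩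

/-- **soundness of the checker** -/
theorem chk_sound {c : Cfg} (hS : 0 < c.S) {mv : List ℕ} {cls : List (List Ex)} :
    ∀ (l : List ℕ) (env : List Iv), chk c mv cls l env = true → ∀ ρ : ℕ → ℝ, EnvMem c.S env ρ →
      ∃ cl ∈ cls, ∀ e ∈ cl, 0 < e.val ρ
  | [], env, h, ρ, hρ => boxOk_sound hS hρ cls h
  | i :: l, env, h, ρ, hρ => by
      simp only [chk, Bool.or_eq_true] at h
      rcases h with h | h
      · exact boxOk_sound hS hρ cls h
      · cases hX : nth env i with
        | none => rw [hX] at h; simp at h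
        | some X =>
          rw [hX] at h
          simp only [Bool.and_eq_true] at h
          rcases mem_split (hρ i X hX) ((X.lo + X.hi) / 2) with h' | h'
          · exact chk_sound hS l _ h.1 ρ (hρ.updSelf h')
          · exact chk_sound hS l _ h.2 ρ (hρ.updSelf h')

/-- uniform partition of variable `i`: `n` boxes of width `w` starting at `a`; each box may be
bisected further along `l` -/
def chkU (c : Cfg) (mv : List ℕ) (cls : List (List Ex)) (l : List ℕ) (i : ℕ) (w : ℤ)
    (env : List Iv) : ℕ → ℤ → Bool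
  | 0, _ => true
  | n + 1, a => chk c mv cls l (upd env i ⟨a, a + w⟩) && chkU c mv cls l i w env n (a + w)

theorem chkU_sound {c : Cfg} (hS : 0 < c.S) {mv : List ℕ} {cls : List (List Ex)} {l : List ℕ}
    {i : ℕ} {w : ℤ} {env : List Iv} :
    ∀ (n : ℕ) (a : ℤ), chkU c mv cls l i w env n a = true → ∀ ρ : ℕ → ℝ, EnvMem c.S env ρ →
      0 < n → (Iv.mk a (a + n * w)).mem c.S (ρ i) → ∃ cl ∈ cls, ∀ e ∈ cl, 0 < e.val ρ
  | 0, _, _, _, _, h0, _ => absurd h0 (lt_irrefl 0)
  | n + 1, a, h, ρ, hρ, _, hx => by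
      simp only [chkU, Bool.and_eq_true] at h
      rcases mem_split hx (a + w) with h' | h'
      · exact chk_sound hS l _ h.1 ρ (hρ.updSelf h')
      · rcases Nat.eq_zero_or_pos n with hn | hn
        · subst hn
          refine chk_sound hS l _ h.1 ρ (hρ.updSelf ?_)
          have h2 := h'.2
          simp only [zero_add, Nat.cast_one, one_mul] at h2
          exact ⟨hx.1, h2⟩
        · refine chkU_sound hS n (a + w) h.2 ρ hρ hn ?_
          have e : a + w + n * w = a + ((n + 1 : ℕ) : ℤ) * w := by push_cast; ring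
          rw [e]
          exact h'

/-! ### convenience -/

/-- environment given by a list -/
def rl (l : List ℝ) : ℕ → ℝ := fun i => l.getD i 0

/-- the box `[n₁/d, n₂/d]` (exact if `d ∣ S n`) -/
def bx (c : Cfg) (n₁ n₂ : ℤ) (d : ℕ) : Iv :=
  ⟨fd (n₁ * Int.ofNat c.S) d, cd (n₂ * Int.ofNat c.S) d⟩

theorem mem_bx {c : Cfg} {n₁ n₂ : ℤ} {d : ℕ} (hd : 0 < d) {x : ℝ}
    (h1 : (n₁ : ℝ) / (d : ℝ) ≤ x) (h2 : x ≤ (n₂ : ℝ) / (d : ℝ)) : (bx c n₁ n₂ d).mem c.S x := by
  have hS : (0 : ℝ) ≤ (c.S : ℝ) := Nat.cast_nonneg _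
  have a1 := Iv.mem_const (S := c.S) n₁ hd
  have a2 := Iv.mem_const (S := c.S) n₂ hd
  exact ⟨a1.1.trans (mul_le_mul_of_nonneg_right h1 hS), (mul_le_mul_of_nonneg_right h2 hS).trans a2.2⟩

theorem envMem_nil {S : ℕ} {ρ : ℕ → ℝ} : EnvMem S [] ρ := by
  intro i I h; simp [nth] at h

theorem envMem_cons {S : ℕ} {I : Iv} {l : List Iv} {x : ℝ} {xs : List ℝ} (h : I.mem S x)
    (hl : EnvMem S l (rl xs)) : EnvMem S (I :: l) (rl (x :: xs)) := by
  intro i J hJ
  rcases i with _ | i
  · simp only [nth, Option.some.injEq] at hJ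
    subst hJ
    simpa [rl] using h
  · have := hl i J (by simpa [nth] using hJ)
    simpa [rl] using this

/-- environment for one-variable readings -/
theorem envMem_one {S : ℕ} {I : Iv} {x : ℝ} (h : I.mem S x) : EnvMem S [I] (fun _ => x) := by
  intro i J hJ
  rcases i with _ | i
  · simp only [nth, Option.some.injEq] at hJ
    subst hJ
    exact h
  · simp [nth] at hJ

end Crest.Agent.R146.Iv_261
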