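import Crest.Agent.R146.Iv_261

/-!
Row 146, package CERT (helper261): kernel-checked interval arithmetic, part 2: exponential, square
root, Gaussian density and Gaussian distribution function at fixed-point arguments.
-/

set_option autoImplicit false

namespace Crest.Agent.R146.Iv_261

open Finset

/-! ### exponential -/

/-- Horner form of the exponential series -/
noncomputable def tr (x : ℝ) : ℕ → ℕ → ℝ
  | _, 0 => 1
  | j, n + 1 => 1 + x * tr x (j + 1) n / ((j + 1 : ℕ) : ℝ)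

theorem tr_eq (x : ℝ) : ∀ n j : ℕ, x ^ j / (j.factorial : ℝ) * tr x j n =
    ∑ i ∈ range (n + 1), x ^ (j + i) / ((j + i).factorial : ℝ)
  | 0, j => by simp [tr]
  | n + 1, j => by
      have ih := tr_eq x n (j + 1)
      rw [sum_range_succ']
      have e : x ^ j / (j.factorial : ℝ) * tr x j (n + 1) =
          x ^ (j + 1) / ((j + 1).factorial : ℝ) * tr x (j + 1) n + x ^ j / (j.factorial : ℝ) := by
        have h1 : ((j + 1).factorial : ℝ) = ((j : ℝ) + 1) * (j.factorial : ℝ) := by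
          rw [Nat.factorial_succ]; push_cast; ring
        have h2 : (j.factorial : ℝ) ≠ 0 := by positivity
        have h3 : (j : ℝ) + 1 ≠ 0 := by positivity
        simp only [tr, h1]
        push_cast
        field_simp
        ring
      rw [e, ih]
      congr 1
      refine sum_congr rfl fun i _ => ?_
      rw [show j + 1 + i = j + (i + 1) by ring]

theorem tr_pos {x : ℝ} (hx : 0 ≤ x) : ∀ n j : ℕ, 1 ≤ tr x j n
  | 0, _ => le_rfl
  | n + 1, j => by
      have := tr_pos hx n (j + 1)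
      simp only [tr, le_add_iff_nonneg_right]
      positivity

/-- Horner evaluation rounded down (`x` and the value at scale `S`) -/
def hl (S x : ℕ) : ℕ → ℕ → ℕ
  | _, 0 => S
  | j, n + 1 => Nat.add S (Nat.div (Nat.mul x (hl S x (Nat.succ j) n)) (Nat.mul S (Nat.succ j)))

/-- Horner evaluation rounded up -/
def hu (S x : ℕ) : ℕ → ℕ → ℕ
  | _, 0 => S
  | j, n + 1 => Nat.succ (Nat.add S (Nat.div (Nat.mul x (hu S x (Nat.succ j) n)) (Nat.mul S (Nat.succ j))))

theorem hl_ge (S x : ℕ) : ∀ n j : ℕ, S ≤ hl S x j n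
  | 0, _ => le_rfl
  | _ + 1, _ => Nat.le_add_right S _

theorem hl_le {S x : ℕ} (hS : 0 < S) {y : ℝ} (h : (x : ℝ) ≤ y * S) :
    ∀ n j : ℕ, (hl S x j n : ℝ) ≤ tr y j n * S
  | 0, _ => by simp [hl, tr]
  | n + 1, j => by
      have hS' : (0 : ℝ) < (S : ℝ) := by exact_mod_cast hS
      have hy : 0 ≤ y := Iv.nonneg_of_mul_S hS h
      have ih := hl_le hS h n (j + 1)
      show (((S + x * hl S x (j + 1) n / (S * (j + 1)) : ℕ)) : ℝ) ≤ _
      have h1 : ((x * hl S x (j + 1) n / (S * (j + 1)) : ℕ) : ℝ) ≤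
          y * tr y (j + 1) n / ((j + 1 : ℕ) : ℝ) * S := by
        refine Nat.cast_div_le.trans ?_
        have h2 : ((x * hl S x (j + 1) n : ℕ) : ℝ) ≤ (y * S) * (tr y (j + 1) n * S) := by
          push_cast
          exact mul_le_mul h ih (Nat.cast_nonneg _) (by positivity)
        have h3 : (0 : ℝ) < ((S * (j + 1) : ℕ) : ℝ) := by positivity
        rw [div_le_iff₀ h3]
        refine h2.trans (le_of_eq ?_)
        push_cast
        field_simp
      push_cast at h1 ⊢
      simp only [tr, add_mul, one_mul]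
      push_cast
      linarith

theorem hu_ge {S x : ℕ} (hS : 0 < S) {y : ℝ} (hy : 0 ≤ y) (h : y * S ≤ (x : ℝ)) :
    ∀ n j : ℕ, tr y j n * S ≤ (hu S x j n : ℝ)
  | 0, _ => by simp [hu, tr]
  | n + 1, j => by
      have hS' : (0 : ℝ) < (S : ℝ) := by exact_mod_cast hS
      have ih := hu_ge hS hy h n (j + 1)
      have htr := tr_pos hy n (j + 1)
      show _ ≤ (((S + x * hu S x (j + 1) n / (S * (j + 1))) + 1 : ℕ) : ℝ)
      have hpos : 0 < S * (j + 1) := by positivity
      have h5 : x * hu S x (j + 1) n ≤ (x * hu S x (j + 1) n / (S * (j + 1)) + 1) * (S * (j + 1)) := by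
        have := Nat.lt_div_mul_add (a := x * hu S x (j + 1) n) hpos
        rw [Nat.add_mul, Nat.one_mul]
        exact this.le
      have h6 : (x : ℝ) * (hu S x (j + 1) n : ℝ) ≤
          ((x * hu S x (j + 1) n / (S * (j + 1)) + 1 : ℕ) : ℝ) * ((S : ℝ) * ((j + 1 : ℕ) : ℝ)) := by
        exact_mod_cast h5
      have h2 : (y * S) * (tr y (j + 1) n * S) ≤ (x : ℝ) * (hu S x (j + 1) n : ℝ) :=
        mul_le_mul h ih (by positivity) (Nat.cast_nonneg _)
      have h1 : y * tr y (j + 1) n / ((j + 1 : ℕ) : ℝ) * S ≤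
          ((x * hu S x (j + 1) n / (S * (j + 1)) + 1 : ℕ) : ℝ) := by
        have h3 : (0 : ℝ) < (S : ℝ) * ((j + 1 : ℕ) : ℝ) := by positivity
        refine le_of_mul_le_mul_right ?_ h3
        refine le_trans (le_of_eq ?_) (h2.trans h6)
        push_cast
        field_simp
      simp only [tr, add_mul, one_mul]
      push_cast at h1 ⊢
      linarith

/-- repeated squaring rounded down -/
def sqL (S : ℕ) : ℕ → ℕ → ℕ
  | 0, v => v
  | k + 1, v => sqL S k (Nat.div (Nat.mul v v) S)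

/-- repeated squaring rounded up -/
def sqU (S : ℕ) : ℕ → ℕ → ℕ
  | 0, v => v
  | k + 1, v => sqU S k (Nat.succ (Nat.div (Nat.mul v v) S))

theorem sqL_ge {S : ℕ} (hS : 0 < S) : ∀ (k v : ℕ), S ≤ v → S ≤ sqL S k v
  | 0, _, h => h
  | k + 1, v, h => by
      refine sqL_ge hS k _ ?_
      show S ≤ v * v / S
      rw [Nat.le_div_iff_mul_le hS]
      exact Nat.mul_le_mul h h

theorem sqL_le {S : ℕ} (hS : 0 < S) : ∀ (k v : ℕ) (y : ℝ), (v : ℝ) ≤ y * S →
    (sqL S k v : ℝ) ≤ y ^ 2 ^ k * S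
  | 0, v, y, h => by simpa [sqL] using h
  | k + 1, v, y, h => by
      have e : y ^ 2 ^ (k + 1) = (y * y) ^ 2 ^ k := by
        rw [← sq, ← pow_mul]; congr 1; ring
      rw [e]
      exact sqL_le hS k _ (y * y) (Iv.nn_lo hS h h)

theorem sqU_ge {S : ℕ} (hS : 0 < S) : ∀ (k v : ℕ) (y : ℝ), 0 ≤ y → y * S ≤ (v : ℝ) →
    y ^ 2 ^ k * S ≤ (sqU S k v : ℝ)
  | 0, v, y, _, h => by simpa [sqU] using h
  | k + 1, v, y, hy, h => by
      have e : y ^ 2 ^ (k + 1) = (y * y) ^ 2 ^ k := by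
        rw [← sq, ← pow_mul]; congr 1; ring
      rw [e]
      exact sqU_ge hS k _ (y * y) (mul_nonneg hy hy) (Iv.nn_hi hS hy hy h h)

/-- remainder bound of the exponential series (`n + 1` terms), at scale `S` -/
def remN (S n : ℕ) : ℕ := Nat.succ (Nat.div (Nat.mul S (n + 2)) (Nat.mul ((n + 1).factorial) (n + 1)))

theorem remN_spec (S n : ℕ) :
    ((n + 1 : ℕ).succ : ℝ) / (((n + 1).factorial : ℝ) * ((n + 1 : ℕ) : ℝ)) * S ≤ (remN S n : ℝ) := by
  show _ ≤ (((S * (n + 2) / ((n + 1).factorial * (n + 1)) + 1 : ℕ)) : ℝ)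
  have hpos : 0 < (n + 1).factorial * (n + 1) := by positivity
  have h := Nat.lt_div_mul_add (a := S * (n + 2)) hpos
  have h' : S * (n + 2) ≤ (S * (n + 2) / ((n + 1).factorial * (n + 1)) + 1) *
      ((n + 1).factorial * (n + 1)) := by
    rw [Nat.add_mul, Nat.one_mul]; exact h.le
  have h2 : ((S : ℝ) * (n + 2)) ≤ ((S * (n + 2) / ((n + 1).factorial * (n + 1)) + 1 : ℕ) : ℝ) *
      (((n + 1).factorial : ℝ) * ((n + 1 : ℕ) : ℝ)) := by
    exact_mod_cast h'
  have hpos' : (0 : ℝ) < ((n + 1).factorial : ℝ) * ((n + 1 : ℕ) : ℝ) := by positivity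
  rw [div_mul_eq_mul_div, div_le_iff₀ hpos']
  refine le_trans (le_of_eq ?_) h2
  push_cast
  ring

/-- number of halvings used for the exponential of `n / S` -/
def halv (S n : ℕ) : ℕ := Nat.succ (Nat.log2 (Nat.succ (Nat.div n S)))

theorem halv_spec {S : ℕ} (hS : 0 < S) (n : ℕ) : n < S * 2 ^ halv S n := by
  have h1 : n / S + 1 < 2 ^ halv S n := Nat.lt_log2_self
  have h2 : n < S * (n / S + 1) := Nat.lt_mul_div_succ n hS
  exact h2.trans (Nat.mul_lt_mul_of_pos_left h1 hS)

/-- lower bound of `S exp (n / S)` for natural `n` -/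
def exL (S M n : ℕ) : ℕ :=
  sqL S (halv S n) (hl S (Nat.div n (Nat.pow 2 (halv S n))) 0 M)

/-- upper bound of `S exp (n / S)` for natural `n` -/
def exU (S M n : ℕ) : ℕ :=
  sqU S (halv S n) (Nat.add (hu S (Nat.succ (Nat.div n (Nat.pow 2 (halv S n)))) 0 M) (remN S M))

theorem exL_ge {S : ℕ} (hS : 0 < S) (M n : ℕ) : S ≤ exL S M n :=
  sqL_ge hS _ _ (hl_ge S _ M 0)

theorem exp_pow_aux {S : ℕ} (hS : 0 < S) (n k : ℕ) :
    Real.exp ((n : ℝ) / S / ((2 ^ k : ℕ) : ℝ)) ^ 2 ^ k = Real.exp ((n : ℝ) / S) := by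
  rw [← Real.exp_nat_mul]
  congr 1
  have : ((2 ^ k : ℕ) : ℝ) ≠ 0 := by positivity
  field_simp

theorem exL_le {S : ℕ} (hS : 0 < S) (M n : ℕ) : (exL S M n : ℝ) ≤ Real.exp ((n : ℝ) / S) * S := by
  have hS' : (0 : ℝ) < (S : ℝ) := by exact_mod_cast hS
  set k := halv S n with hk
  set y : ℝ := (n : ℝ) / S / ((2 ^ k : ℕ) : ℝ) with hy
  have hk0 : (0 : ℝ) < ((2 ^ k : ℕ) : ℝ) := by positivity
  have hy0 : 0 ≤ y := by positivity
  have h1 : ((n / 2 ^ k : ℕ) : ℝ) ≤ y * S := by
    refine Nat.cast_div_le.trans (le_of_eq ?_)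
    rw [hy]; field_simp
  have h2 := hl_le hS h1 M 0
  have htr : tr y 0 M = ∑ i ∈ range (M + 1), y ^ i / (i.factorial : ℝ) := by
    have := tr_eq y M 0
    simpa using this
  have h3 : tr y 0 M ≤ Real.exp y := by
    rw [htr]; exact Real.sum_le_exp_of_nonneg hy0 _
  have h4 : (hl S (n / 2 ^ k) 0 M : ℝ) ≤ Real.exp y * S :=
    h2.trans (mul_le_mul_of_nonneg_right h3 hS'.le)
  have h5 := sqL_le hS k _ _ h4
  rw [hy, exp_pow_aux hS n k] at h5
  exact h5

theorem exU_ge {S : ℕ} (hS : 0 < S) (M n : ℕ) : Real.exp ((n : ℝ) / S) * S ≤ (exU S M n : ℝ) := by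
  have hS' : (0 : ℝ) < (S : ℝ) := by exact_mod_cast hS
  set k := halv S n with hk
  set y : ℝ := (n : ℝ) / S / ((2 ^ k : ℕ) : ℝ) with hy
  have hk0 : (0 : ℝ) < ((2 ^ k : ℕ) : ℝ) := by positivity
  have hy0 : 0 ≤ y := by positivity
  have hy1 : y ≤ 1 := by
    have h := halv_spec hS n
    have h' : (n : ℝ) ≤ S * ((2 ^ k : ℕ) : ℝ) := by exact_mod_cast h.le
    rw [hy, div_div, div_le_one (by positivity)]
    exact h'
  have h1 : y * S ≤ ((n / 2 ^ k + 1 : ℕ) : ℝ) := by
    have hpos : 0 < 2 ^ k := by positivity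
    have h := (Nat.lt_div_mul_add (a := n) hpos).le
    have h' : n ≤ (n / 2 ^ k + 1) * 2 ^ k := by rw [Nat.add_mul, Nat.one_mul]; exact h
    have h'' : (n : ℝ) ≤ ((n / 2 ^ k + 1 : ℕ) : ℝ) * ((2 ^ k : ℕ) : ℝ) := by exact_mod_cast h'
    have e : y * S = n / ((2 ^ k : ℕ) : ℝ) := by rw [hy]; field_simp
    rw [e, div_le_iff₀ hk0]
    exact h''
  have h2 := hu_ge hS hy0 h1 M 0
  have htr : tr y 0 M = ∑ i ∈ range (M + 1), y ^ i / (i.factorial : ℝ) := by
    have := tr_eq y M 0
    simpa using this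
  have hbd := Real.exp_bound (show |y| ≤ 1 by rw [abs_of_nonneg hy0]; exact hy1) (n := M + 1)
    (Nat.succ_pos M)
  have hR : (Real.exp y - tr y 0 M) * S ≤ (remN S M : ℝ) := by
    rw [htr]
    have hx1 : |y| ^ (M + 1) ≤ 1 := pow_le_one₀ (abs_nonneg _) (by rw [abs_of_nonneg hy0]; exact hy1)
    have hpos : (0 : ℝ) ≤ ((M + 1 : ℕ).succ : ℝ) / (((M + 1).factorial : ℝ) * ((M + 1 : ℕ) : ℝ)) := by
      positivity
    have h3 := (le_abs_self _).trans (hbd.trans (mul_le_of_le_one_left hpos hx1))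
    exact (mul_le_mul_of_nonneg_right h3 hS'.le).trans (remN_spec S M)
  have h4 : Real.exp y * S ≤ ((hu S (n / 2 ^ k + 1) 0 M + remN S M : ℕ) : ℝ) := by
    push_cast
    rw [sub_mul] at hR
    linarith
  have h5 := sqU_ge hS k _ _ (Real.exp_pos y).le h4
  rw [hy, exp_pow_aux hS n k] at h5
  exact h5

/-- lower bound of `S exp (n / S)` for integers -/
def expLo (S M : ℕ) : ℤ → ℕ
  | .ofNat n => exL S M n
  | .negSucc n => Nat.div (Nat.mul S S) (exU S M (Nat.succ n))

/-- upper bound of `S exp (n / S)` for integers -/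
def expHi (S M : ℕ) : ℤ → ℕ
  | .ofNat n => exU S M n
  | .negSucc n => Nat.succ (Nat.div (Nat.mul S S) (exL S M (Nat.succ n)))

theorem exp_neg_aux {S n : ℕ} (hS : 0 < S) :
    Real.exp (((Int.negSucc n : ℤ) : ℝ) / S) * S = S * S / (Real.exp (((n + 1 : ℕ) : ℝ) / S) * S) := by
  have hS' : (0 : ℝ) < (S : ℝ) := by exact_mod_cast hS
  rw [Iv.negSucc_cast, neg_div, Real.exp_neg]
  have := Real.exp_pos (((n + 1 : ℕ) : ℝ) / S)
  field_simp

theorem expLo_le {S : ℕ} (hS : 0 < S) (M : ℕ) (n : ℤ) :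
    (expLo S M n : ℝ) ≤ Real.exp ((n : ℝ) / S) * S := by
  have hS' : (0 : ℝ) < (S : ℝ) := by exact_mod_cast hS
  rcases n with n | n
  · have := exL_le hS M n
    simpa [expLo] using this
  · rw [exp_neg_aux hS]
    have h := exU_ge hS M (n + 1)
    have hpos : 0 < Real.exp (((n + 1 : ℕ) : ℝ) / S) * S := by positivity
    show (((S * S / exU S M (n + 1) : ℕ)) : ℝ) ≤ _
    refine Nat.cast_div_le.trans ?_
    push_cast
    exact div_le_div_of_nonneg_left (by positivity) (by exact_mod_cast hpos) (by exact_mod_cast h)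

theorem expHi_ge {S : ℕ} (hS : 0 < S) (M : ℕ) (n : ℤ) :
    Real.exp ((n : ℝ) / S) * S ≤ (expHi S M n : ℝ) := by
  have hS' : (0 : ℝ) < (S : ℝ) := by exact_mod_cast hS
  rcases n with n | n
  · have := exU_ge hS M n
    simpa [expHi] using this
  · rw [exp_neg_aux hS]
    have h := exL_le hS M (n + 1)
    have h0 := exL_ge hS M (n + 1)
    have hpos : 0 < exL S M (n + 1) := hS.trans_le h0
    have hpos' : (0 : ℝ) < (exL S M (n + 1) : ℝ) := by exact_mod_cast hpos
    show _ ≤ (((S * S / exL S M (n + 1) + 1 : ℕ)) : ℝ)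
    refine (div_le_div_of_nonneg_left (by positivity) hpos' h).trans ?_
    rw [div_le_iff₀ hpos']
    have h2 := (Nat.lt_div_mul_add (a := S * S) hpos).le
    have h3 : S * S ≤ (S * S / exL S M (n + 1) + 1) * exL S M (n + 1) := by
      rw [Nat.add_mul, Nat.one_mul]; exact h2
    exact_mod_cast h3

/-- exponential of an interval -/
def expIv (S M : ℕ) (I : Iv) : Iv := ⟨.ofNat (expLo S M I.lo), .ofNat (expHi S M I.hi)⟩

theorem mem_expIv {S M : ℕ} (hS : 0 < S) {I : Iv} {u : ℝ} (hu : I.mem S u) :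
    (expIv S M I).mem S (Real.exp u) := by
  have hS' : (0 : ℝ) < (S : ℝ) := by exact_mod_cast hS
  constructor
  · refine (expLo_le hS M I.lo).trans (mul_le_mul_of_nonneg_right (Real.exp_le_exp.mpr ?_) hS'.le)
    rw [div_le_iff₀ hS']; exact hu.1
  · refine le_trans (mul_le_mul_of_nonneg_right (Real.exp_le_exp.mpr ?_) hS'.le) (expHi_ge hS M I.hi)
    rw [le_div_iff₀ hS']; exact hu.2

/-! ### square root -/

/-- Newton iteration with fuel -/
def sqrtGo (n : ℕ) : ℕ → ℕ → ℕ
  | 0, r => r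
  | k + 1, r => let r' := (r + n / r) / 2; bif Nat.blt r' r then sqrtGo n k r' else r

/-- checked integer square root (floor) -/
def sqrtN (n : ℕ) : Option ℕ :=
  let r := sqrtGo n 100 (2 ^ (Nat.log2 n / 2 + 1))
  bif Nat.ble (r * r) n && Nat.blt n ((r + 1) * (r + 1)) then some r else none

theorem sqrtN_spec {n r : ℕ} (h : sqrtN n = some r) : r * r ≤ n ∧ n < (r + 1) * (r + 1) := by
  unfold sqrtN at h
  simp only at h
  set r0 := sqrtGo n 100 (2 ^ (Nat.log2 n / 2 + 1)) with hr0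
  cases hb : (Nat.ble (r0 * r0) n && Nat.blt n ((r0 + 1) * (r0 + 1)))
  · rw [hb] at h; simp at h
  · rw [hb] at h
    simp only [cond_true, Option.some.injEq] at h
    subst h
    simp only [Bool.and_eq_true, Nat.ble_eq, Nat.blt_eq] at hb
    exact hb

/-- square root of an interval with nonnegative left end -/
def sqrtIv (S : ℕ) (I : Iv) : Option Iv :=
  match I with
  | ⟨.ofNat a, .ofNat b⟩ =>
    match sqrtN (a * S), sqrtN (b * S) with
    | some r, some s => some ⟨.ofNat r, .ofNat (s + 1)⟩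
    | _, _ => none
  | _ => none

theorem mem_sqrtIv {S : ℕ} (hS : 0 < S) {I J : Iv} {u : ℝ} (hu : I.mem S u)
    (h : sqrtIv S I = some J) : J.mem S (Real.sqrt u) ∧ 0 ≤ u := by
  have hS' : (0 : ℝ) < (S : ℝ) := by exact_mod_cast hS
  rcases I with ⟨a | a, b | b⟩
  · unfold sqrtIv at h
    simp only at h
    cases hr : sqrtN (a * S) with
    | none => rw [hr] at h; simp at h
    | some r =>
      cases hs : sqrtN (b * S) with
      | none => rw [hr, hs] at h; simp at h
      | some s =>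
        rw [hr, hs] at h
        simp only [Option.some.injEq] at h
        subst h
        obtain ⟨h1, h2⟩ := hu
        simp only [Int.ofNat_eq_natCast, Int.cast_natCast] at h1 h2
        have hu0 : 0 ≤ u := by
          have : 0 ≤ u * S := le_trans (Nat.cast_nonneg a) h1
          exact nonneg_of_mul_nonneg_left this hS'
        have h3 := (sqrtN_spec hr).1
        have h4 := (sqrtN_spec hs).2
        have h3' : ((r : ℝ)) * r ≤ a * S := by exact_mod_cast h3
        have h4' : (b : ℝ) * S < ((s : ℝ) + 1) * (s + 1) := by exact_mod_cast h4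
        have e : (Real.sqrt u * S) * (Real.sqrt u * S) = u * S * S := by
          have := Real.mul_self_sqrt hu0
          calc (Real.sqrt u * S) * (Real.sqrt u * S) = (Real.sqrt u * Real.sqrt u) * S * S := by ring
            _ = u * S * S := by rw [this]
        have hq : 0 ≤ Real.sqrt u * S := by positivity
        refine ⟨⟨?_, ?_⟩, hu0⟩
        · simp only [Int.ofNat_eq_natCast, Int.cast_natCast]
          refine abs_le_of_sq_le_sq' ?_ hq |>.2
          rw [sq, sq, e]
          exact h3'.trans (mul_le_mul_of_nonneg_right h1 hS'.le)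
        · simp only [Int.ofNat_eq_natCast, Int.cast_natCast]
          refine abs_le_of_sq_le_sq' ?_ (by positivity) |>.2
          rw [sq, sq, e]
          push_cast
          exact (mul_le_mul_of_nonneg_right h2 hS'.le).trans h4'.le
  · simp [sqrtIv] at h
  · simp [sqrtIv] at h
  · simp [sqrtIv] at h

end Crest.Agent.R146.Iv_261
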