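import Crest.Agent.R146.IvF_261

/-!
Row 146, package CERT (helper261): kernel-checked interval arithmetic, part 3: the Gaussian density
`gauss` and the Gaussian distribution function `Phi`.
-/

set_option autoImplicit false

namespace Crest.Agent.R146.Iv_261

open Finset MeasureTheory intervalIntegral

/-- `1 / √(2π)` -/
noncomputable def cG : ℝ := (Real.sqrt (2 * Real.pi))⁻¹

/-- standard Gaussian density -/
noncomputable def gauss (x : ℝ) : ℝ := cG * Real.exp (-(x ^ 2) / 2)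

/-- `∫_0^x e^{-t²/2} dt` -/
noncomputable def eI (x : ℝ) : ℝ := ∫ t in (0 : ℝ)..x, Real.exp (-(t ^ 2) / 2)

/-- standard Gaussian distribution function -/
noncomputable def Phi (x : ℝ) : ℝ := 1 / 2 + cG * eI x

theorem cG_pos : 0 < cG := by
  unfold cG; positivity

theorem gauss_pos (x : ℝ) : 0 < gauss x := mul_pos cG_pos (Real.exp_pos _)

theorem hasDerivAt_eI (x : ℝ) : HasDerivAt eI (Real.exp (-(x ^ 2) / 2)) x := by
  have hc : Continuous fun t : ℝ => Real.exp (-(t ^ 2) / 2) := by fun_prop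
  exact intervalIntegral.integral_hasDerivAt_right (hc.intervalIntegrable _ _)
    hc.stronglyMeasurable.stronglyMeasurableAtFilter hc.continuousAt

theorem hasDerivAt_Phi (x : ℝ) : HasDerivAt Phi (gauss x) x :=
  ((hasDerivAt_eI x).const_mul cG).const_add _

theorem hasDerivAt_halfsq (x : ℝ) : HasDerivAt (fun t : ℝ => -(t ^ 2) / 2) (-x) x := by
  have h1 := ((hasDerivAt_pow 2 x).neg).div_const 2
  refine h1.congr_deriv ?_
  simp
  ring

theorem hasDerivAt_gauss (x : ℝ) : HasDerivAt gauss (-x * gauss x) x := by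
  have h2 := ((hasDerivAt_halfsq x).exp).const_mul cG
  refine h2.congr_deriv ?_
  unfold gauss
  ring

theorem eI_neg (x : ℝ) : eI (-x) = -eI x := by
  unfold eI
  have h := intervalIntegral.integral_comp_neg (fun t : ℝ => Real.exp (-(t ^ 2) / 2)) (a := 0) (b := x)
  simp only [neg_zero, even_two, Even.neg_pow] at h
  rw [h, intervalIntegral.integral_symm]

theorem Phi_neg (x : ℝ) : Phi (-x) = 1 - Phi x := by
  unfold Phi; rw [eI_neg]; ring

theorem Phi_strictMono : StrictMono Phi := by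
  refine strictMono_of_deriv_pos fun x => ?_
  rw [(hasDerivAt_Phi x).deriv]
  exact gauss_pos x

theorem Phi_mono : Monotone Phi := Phi_strictMono.monotone

/-! ### the series for `e^{x²/2} ∫_0^x e^{-t²/2} dt` -/

/-- Horner form of `∑ x^{2k} (2j+1)!! / (2j+2k+1)!!` with last term `η` -/
noncomputable def gr (y η : ℝ) : ℕ → ℕ → ℝ
  | _, 0 => η
  | j, n + 1 => 1 + y * gr y η (j + 1) n / ((2 * j + 3 : ℕ) : ℝ)

/-- odd double factorial `1·3·…·(2j+1)` -/
def dfo : ℕ → ℕ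
  | 0 => 1
  | j + 1 => (2 * j + 3) * dfo j

theorem dfo_pos (j : ℕ) : 0 < dfo j := by
  induction j with
  | zero => simp [dfo]
  | succ j ih => simp only [dfo]; positivity

/-- derivative identity of the truncated series -/
theorem gr_deriv (η : ℝ) : ∀ (n j : ℕ) (x : ℝ),
    HasDerivAt (fun x : ℝ => x ^ (2 * j + 1) / (dfo j : ℝ) * gr (x ^ 2) η j n)
      (x * (x ^ (2 * j + 1) / (dfo j : ℝ) * gr (x ^ 2) η j n) +
        ((2 * j + 1 : ℕ) : ℝ) * x ^ (2 * j) / (dfo j : ℝ) -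
        (1 - η) * (((2 * (j + n) + 1 : ℕ) : ℝ) * x ^ (2 * (j + n)) / (dfo (j + n) : ℝ)) -
        η * (x ^ (2 * (j + n) + 2) / (dfo (j + n) : ℝ))) x
  | 0, j, x => by
      have h : HasDerivAt (fun x : ℝ => x ^ (2 * j + 1) / (dfo j : ℝ) * η)
          (((2 * j + 1 : ℕ) : ℝ) * x ^ (2 * j) / (dfo j : ℝ) * η) x := by
        have h1 := ((hasDerivAt_pow (2 * j + 1) x).div_const (dfo j : ℝ)).mul_const η
        simpa using h1
      simp only [gr, add_zero]
      refine h.congr_deriv ?_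
      have hd : (dfo j : ℝ) ≠ 0 := by exact_mod_cast (dfo_pos j).ne'
      field_simp
      ring
  | n + 1, j, x => by
      have ih := gr_deriv η n (j + 1) x
      have hd : (dfo j : ℝ) ≠ 0 := by exact_mod_cast (dfo_pos j).ne'
      have h3 : ((2 * j + 3 : ℕ) : ℝ) ≠ 0 := by positivity
      have hs : (dfo (j + 1) : ℝ) = ((2 * j + 3 : ℕ) : ℝ) * (dfo j : ℝ) := by
        simp only [dfo]; push_cast; ring
      have e : (fun x : ℝ => x ^ (2 * j + 1) / (dfo j : ℝ) * gr (x ^ 2) η j (n + 1)) =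
          fun x : ℝ => x ^ (2 * j + 1) / (dfo j : ℝ) +
            x ^ (2 * (j + 1) + 1) / (dfo (j + 1) : ℝ) * gr (x ^ 2) η (j + 1) n := by
        funext y
        rw [hs]
        simp only [gr]
        field_simp
        ring
      rw [e]
      have h1 : HasDerivAt (fun x : ℝ => x ^ (2 * j + 1) / (dfo j : ℝ))
          (((2 * j + 1 : ℕ) : ℝ) * x ^ (2 * j) / (dfo j : ℝ)) x := by
        have h1 := (hasDerivAt_pow (2 * j + 1) x).div_const (dfo j : ℝ)
        simpa using h1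
      refine (h1.add ih).congr_deriv ?_
      have e2 : x ^ (2 * j + 1) / (dfo j : ℝ) * gr (x ^ 2) η j (n + 1) =
          x ^ (2 * j + 1) / (dfo j : ℝ) +
            x ^ (2 * (j + 1) + 1) / (dfo (j + 1) : ℝ) * gr (x ^ 2) η (j + 1) n := congrFun e x
      rw [e2]
      have e3 : j + 1 + n = j + (n + 1) := by ring
      rw [e3]
      have e4 : ((2 * (j + 1) + 1 : ℕ) : ℝ) * x ^ (2 * (j + 1)) / (dfo (j + 1) : ℝ) =
          x * (x ^ (2 * j + 1) / (dfo j : ℝ)) := by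
        rw [hs]
        have : (2 * (j + 1) + 1 : ℕ) = 2 * j + 3 := by ring
        rw [this]
        field_simp
        ring
      rw [e4]
      ring

/-- lower and upper bounds for `∫_0^x e^{-t²/2}` -/
theorem eI_lower {n : ℕ} {x : ℝ} (hx : 0 ≤ x) :
    Real.exp (-(x ^ 2) / 2) * (x * gr (x ^ 2) 0 0 n) ≤ eI x := by
  set g : ℝ → ℝ := fun x => eI x - Real.exp (-(x ^ 2) / 2) * (x ^ (2 * 0 + 1) / (dfo 0 : ℝ) * gr (x ^ 2) 0 0 n)
    with hg
  have hexp : ∀ x : ℝ, HasDerivAt (fun t : ℝ => Real.exp (-(t ^ 2) / 2))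
      (-x * Real.exp (-(x ^ 2) / 2)) x := by
    intro x
    refine (hasDerivAt_halfsq x).exp.congr_deriv ?_
    ring
  have hd : ∀ x : ℝ, HasDerivAt g (Real.exp (-(x ^ 2) / 2) *
      (((2 * n + 1 : ℕ) : ℝ) * x ^ (2 * n) / (dfo n : ℝ))) x := by
    intro x
    refine ((hasDerivAt_eI x).sub ((hexp x).mul (gr_deriv 0 n 0 x))).congr_deriv ?_
    simp [dfo]
    ring
  have hmono : MonotoneOn g (Set.Ici 0) := by
    refine monotoneOn_of_deriv_nonneg (convex_Ici 0)
      (fun y _ => (hd y).continuousAt.continuousWithinAt)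
      (fun y _ => (hd y).differentiableAt.differentiableWithinAt) ?_
    intro y hy
    rw [(hd y).deriv]
    have hy' : 0 ≤ y := by
      rw [interior_Ici] at hy; exact hy.le
    positivity
  have h0 : g 0 = 0 := by simp [hg, eI]
  have h1 := hmono (Set.mem_Ici.mpr le_rfl) (Set.mem_Ici.mpr hx) hx
  rw [h0] at h1
  simp only [hg, mul_zero, zero_add, pow_one, dfo, Nat.cast_one, div_one, sub_nonneg] at h1
  exact h1

theorem eI_upper {n : ℕ} {η x : ℝ} (hx : 0 ≤ x) (hη : ((2 * n + 1 : ℕ) : ℝ) ≤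
    η * (((2 * n + 1 : ℕ) : ℝ) - x ^ 2)) (hη0 : 0 ≤ η) :
    eI x ≤ Real.exp (-(x ^ 2) / 2) * (x * gr (x ^ 2) η 0 n) := by
  set g : ℝ → ℝ := fun x => Real.exp (-(x ^ 2) / 2) * (x ^ (2 * 0 + 1) / (dfo 0 : ℝ) * gr (x ^ 2) η 0 n)
    - eI x with hg
  have hexp : ∀ x : ℝ, HasDerivAt (fun t : ℝ => Real.exp (-(t ^ 2) / 2))
      (-x * Real.exp (-(x ^ 2) / 2)) x := by
    intro x
    refine (hasDerivAt_halfsq x).exp.congr_deriv ?_
    ring
  have hd : ∀ x : ℝ, HasDerivAt g (Real.exp (-(x ^ 2) / 2) * (x ^ (2 * n) / (dfo n : ℝ)) *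
      (η * (((2 * n + 1 : ℕ) : ℝ) - x ^ 2) - ((2 * n + 1 : ℕ) : ℝ))) x := by
    intro x
    refine (((hexp x).mul (gr_deriv η n 0 x)).sub (hasDerivAt_eI x)).congr_deriv ?_
    simp [dfo]
    have hdn : (dfo n : ℝ) ≠ 0 := by exact_mod_cast (dfo_pos n).ne'
    field_simp
    ring
  have hmono : MonotoneOn g (Set.Icc 0 x) := by
    refine monotoneOn_of_deriv_nonneg (convex_Icc 0 x)
      (fun y _ => (hd y).continuousAt.continuousWithinAt)
      (fun y _ => (hd y).differentiableAt.differentiableWithinAt) ?_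
    intro y hy
    rw [(hd y).deriv]
    rw [interior_Icc] at hy
    have hy' : 0 ≤ y := hy.1.le
    have hyx : y ^ 2 ≤ x ^ 2 := by
      have := hy.2.le
      nlinarith
    have h2 : 0 ≤ η * (((2 * n + 1 : ℕ) : ℝ) - y ^ 2) - ((2 * n + 1 : ℕ) : ℝ) := by
      have := mul_le_mul_of_nonneg_left hyx hη0
      nlinarith
    positivity
  have h0 : g 0 = 0 := by simp [hg, eI]
  have h1 := hmono (Set.mem_Icc.mpr ⟨le_rfl, hx⟩) (Set.mem_Icc.mpr ⟨hx, le_rfl⟩) hx
  rw [h0] at h1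
  simp only [hg, mul_zero, zero_add, pow_one, dfo, Nat.cast_one, div_one, sub_nonneg] at h1
  exact h1

/-! ### interval versions -/

theorem gr_nonneg {y η : ℝ} (hy : 0 ≤ y) (hη : 0 ≤ η) : ∀ n j : ℕ, 0 ≤ gr y η j n
  | 0, _ => hη
  | n + 1, j => by
      have := gr_nonneg hy hη n (j + 1)
      simp only [gr]
      positivity

/-- Horner evaluation of `gr _ 0` rounded down -/
def gl (S y : ℕ) : ℕ → ℕ → ℕ
  | _, 0 => 0
  | j, n + 1 => Nat.add S (Nat.div (Nat.mul y (gl S y (Nat.succ j) n)) (Nat.mul S (Nat.add (Nat.mul 2 j) 3)))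

/-- Horner evaluation of `gr _ η` rounded up (`E ≥ η S`) -/
def gu (S y E : ℕ) : ℕ → ℕ → ℕ
  | _, 0 => E
  | j, n + 1 => Nat.succ (Nat.add S (Nat.div (Nat.mul y (gu S y E (Nat.succ j) n))
      (Nat.mul S (Nat.add (Nat.mul 2 j) 3))))

theorem gl_le {S y : ℕ} (hS : 0 < S) {x : ℝ} (h : (y : ℝ) ≤ x * S) :
    ∀ n j : ℕ, (gl S y j n : ℝ) ≤ gr x 0 j n * S
  | 0, _ => by simp [gl, gr]
  | n + 1, j => by
      have hS' : (0 : ℝ) < (S : ℝ) := by exact_mod_cast hS
      have hx : 0 ≤ x := Iv.nonneg_of_mul_S hS h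
      have ih := gl_le hS h n (j + 1)
      have hg := gr_nonneg hx le_rfl n (j + 1)
      show (((S + y * gl S y (j + 1) n / (S * (2 * j + 3)) : ℕ)) : ℝ) ≤ _
      have h1 : ((y * gl S y (j + 1) n / (S * (2 * j + 3)) : ℕ) : ℝ) ≤
          x * gr x 0 (j + 1) n / ((2 * j + 3 : ℕ) : ℝ) * S := by
        refine Nat.cast_div_le.trans ?_
        have h2 : ((y * gl S y (j + 1) n : ℕ) : ℝ) ≤ (x * S) * (gr x 0 (j + 1) n * S) := by
          push_cast
          exact mul_le_mul h ih (Nat.cast_nonneg _) (by positivity)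
        have h3 : (0 : ℝ) < ((S * (2 * j + 3) : ℕ) : ℝ) := by positivity
        rw [div_le_iff₀ h3]
        refine h2.trans (le_of_eq ?_)
        push_cast
        field_simp
      simp only [gr, add_mul, one_mul]
      push_cast at h1 ⊢
      linarith

theorem gu_ge {S y E : ℕ} (hS : 0 < S) {x η : ℝ} (hx : 0 ≤ x) (hη : 0 ≤ η) (h : x * S ≤ (y : ℝ))
    (hE : η * S ≤ (E : ℝ)) : ∀ n j : ℕ, gr x η j n * S ≤ (gu S y E j n : ℝ)
  | 0, _ => by simpa [gu, gr] using hE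
  | n + 1, j => by
      have hS' : (0 : ℝ) < (S : ℝ) := by exact_mod_cast hS
      have ih := gu_ge hS hx hη h hE n (j + 1)
      have hg := gr_nonneg hx hη n (j + 1)
      show _ ≤ (((S + y * gu S y E (j + 1) n / (S * (2 * j + 3))) + 1 : ℕ) : ℝ)
      have hpos : 0 < S * (2 * j + 3) := by positivity
      have h5 : y * gu S y E (j + 1) n ≤
          (y * gu S y E (j + 1) n / (S * (2 * j + 3)) + 1) * (S * (2 * j + 3)) := by
        have := Nat.lt_div_mul_add (a := y * gu S y E (j + 1) n) hpos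
        rw [Nat.add_mul, Nat.one_mul]
        exact this.le
      have h6 : (y : ℝ) * (gu S y E (j + 1) n : ℝ) ≤
          ((y * gu S y E (j + 1) n / (S * (2 * j + 3)) + 1 : ℕ) : ℝ) *
            ((S : ℝ) * ((2 * j + 3 : ℕ) : ℝ)) := by
        exact_mod_cast h5
      have h2 : (x * S) * (gr x η (j + 1) n * S) ≤ (y : ℝ) * (gu S y E (j + 1) n : ℝ) :=
        mul_le_mul h ih (by positivity) (Nat.cast_nonneg _)
      have h1 : x * gr x η (j + 1) n / ((2 * j + 3 : ℕ) : ℝ) * S ≤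
          ((y * gu S y E (j + 1) n / (S * (2 * j + 3)) + 1 : ℕ) : ℝ) := by
        have h3 : (0 : ℝ) < (S : ℝ) * ((2 * j + 3 : ℕ) : ℝ) := by positivity
        refine le_of_mul_le_mul_right ?_ h3
        refine le_trans (le_of_eq ?_) (h2.trans h6)
        field_simp
      simp only [gr, add_mul, one_mul]
      push_cast at h1 ⊢
      linarith

theorem cG_bounds : (3989422804014326779 : ℝ) / 10000000000000000000 ≤ cG ∧
    cG ≤ (3989422804014326780 : ℝ) / 10000000000000000000 := by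
  have h1 := Real.pi_gt_d20
  have h2 := Real.pi_lt_d20
  have hpos : (0 : ℝ) < Real.sqrt (2 * Real.pi) := by positivity
  unfold cG
  constructor
  · rw [le_inv_comm₀ (by norm_num) hpos]
    refine Real.sqrt_le_iff.mpr ⟨by norm_num, ?_⟩
    norm_num at h2 ⊢
    linarith
  · rw [inv_le_comm₀ hpos (by norm_num)]
    refine Real.le_sqrt_of_sq_le ?_
    norm_num at h1 ⊢
    linarith

/-- lower bound of `S gauss (n / S)`, from a lower bound `E` of `S exp (-x²/2)` -/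
def cLo (E : ℕ) : ℕ := Nat.div (Nat.mul 3989422804014326779 E) 10000000000000000000
/-- upper bound of `S gauss (n / S)`, from an upper bound `E` of `S exp (-x²/2)` -/
def cHi (E : ℕ) : ℕ := Nat.succ (Nat.div (Nat.mul 3989422804014326780 E) 10000000000000000000)

theorem cLo_le {S E : ℕ} {t : ℝ} (h : (E : ℝ) ≤ t * S) : (cLo E : ℝ) ≤ cG * t * S := by
  show (((3989422804014326779 * E / 10000000000000000000 : ℕ)) : ℝ) ≤ _
  refine Nat.cast_div_le.trans ?_
  have h1 := cG_bounds.1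
  have h2 : cG * (E : ℝ) ≤ cG * (t * S) := mul_le_mul_of_nonneg_left h cG_pos.le
  have h3 := mul_le_mul_of_nonneg_right h1 (Nat.cast_nonneg (α := ℝ) E)
  push_cast
  linarith

theorem cHi_ge {S E : ℕ} {t : ℝ} (h : t * S ≤ (E : ℝ)) : cG * t * S ≤ (cHi E : ℝ) := by
  show _ ≤ (((3989422804014326780 * E / 10000000000000000000 + 1 : ℕ)) : ℝ)
  have h1 := cG_bounds.2
  have h2 : cG * (t * S) ≤ cG * (E : ℝ) := mul_le_mul_of_nonneg_left h cG_pos.le
  have h3 := mul_le_mul_of_nonneg_right h1 (Nat.cast_nonneg (α := ℝ) E)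
  have h5 : 3989422804014326780 * E ≤
      (3989422804014326780 * E / 10000000000000000000 + 1) * 10000000000000000000 := by omega
  have h6 : (3989422804014326780 : ℝ) * (E : ℝ) ≤
      ((3989422804014326780 * E / 10000000000000000000 + 1 : ℕ) : ℝ) * 10000000000000000000 := by
    exact_mod_cast h5
  linarith

/-- enclosure of the density on an interval -/
def gaussIv (S M : ℕ) (I : Iv) : Iv :=
  let J := Iv.sqr S I
  ⟨.ofNat (cLo (expLo S M (fd (Int.neg J.hi) 2))), .ofNat (cHi (expHi S M (cd (Int.neg J.lo) 2)))⟩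

theorem mem_gaussIv {S M : ℕ} (hS : 0 < S) {I : Iv} {u : ℝ} (hu : I.mem S u) :
    (gaussIv S M I).mem S (gauss u) := by
  have hS' : (0 : ℝ) < (S : ℝ) := by exact_mod_cast hS
  have h1 := Iv.mem_divN (d := 2) (by norm_num) (Iv.mem_neg (Iv.mem_sqr hS hu))
  have h2 := mem_expIv (M := M) hS h1
  have e : ((-(u ^ 2)) / ((2 : ℕ) : ℝ)) = -(u ^ 2) / 2 := by norm_num
  rw [e] at h2
  have h3 := h2.1
  have h4 := h2.2
  constructor
  · exact cLo_le h3
  · exact cHi_ge h4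

/-- lower bound of `S Phi (n / S)` for natural `n` -/
def PhL (S M K n : ℕ) : ℕ :=
  let y := Nat.div (Nat.mul n n) S
  Nat.add (Nat.div S 2) (Nat.div (Nat.mul
    (cLo (expLo S M (Int.negSucc (Nat.div y 2))))
    (Nat.div (Nat.mul n (gl S y 0 (Nat.add (Nat.div y S) K))) S)) S)

/-- upper bound of `S Phi (n / S)` for natural `n` -/
def PhU (S M K n : ℕ) : ℕ :=
  let y := Nat.succ (Nat.div (Nat.mul n n) S)
  let N := Nat.succ (Nat.add (Nat.div y S) K)
  let q := Nat.mul (Nat.succ (Nat.mul 2 N)) S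
  let E := Nat.succ (Nat.div (Nat.mul q S) (Nat.sub q y))
  Nat.succ (Nat.succ (Nat.add (Nat.div S 2) (Nat.div (Nat.mul
    (cHi (expHi S M (Int.neg (Int.ofNat (Nat.div (Nat.mul n n) (Nat.mul 2 S))))))
    (Nat.succ (Nat.div (Nat.mul n (gu S y E 0 N)) S))) S)))

theorem PhL_le {S M K : ℕ} (hS : 0 < S) (n : ℕ) : (PhL S M K n : ℝ) ≤ Phi ((n : ℝ) / S) * S := by
  have hS' : (0 : ℝ) < (S : ℝ) := by exact_mod_cast hS
  set x : ℝ := (n : ℝ) / S with hx
  have hx0 : 0 ≤ x := by positivity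
  have hxS : x * S = n := by rw [hx]; field_simp
  have hy : ((n * n / S : ℕ) : ℝ) ≤ x ^ 2 * S := by
    refine Nat.cast_div_le.trans (le_of_eq ?_)
    rw [hx]; push_cast; field_simp
  set y := n * n / S with hyd
  set N := y / S + K with hN
  have h1 := gl_le hS hy N 0
  have h2 := Iv.nn_lo hS (le_of_eq hxS.symm) h1
  -- exponential
  have h3 : (expLo S M (Int.negSucc (y / 2)) : ℝ) ≤ Real.exp (-(x ^ 2) / 2) * S := by
    refine (expLo_le hS M _).trans (mul_le_mul_of_nonneg_right (Real.exp_le_exp.mpr ?_) hS'.le)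
    rw [Iv.negSucc_cast, div_le_iff₀ hS']
    have h5 : x ^ 2 * S ≤ ((y + 1 : ℕ) : ℝ) := by
      have h6 := (Nat.lt_div_mul_add (a := n * n) hS).le
      have h7 : n * n ≤ (y + 1) * S := by rw [Nat.add_mul, Nat.one_mul]; exact h6
      have h8 : (n : ℝ) * n ≤ ((y + 1 : ℕ) : ℝ) * S := by exact_mod_cast h7
      refine le_of_mul_le_mul_right ?_ hS'
      refine le_trans (le_of_eq ?_) h8
      rw [hx]; field_simp
    have h9 : y + 1 ≤ 2 * (y / 2 + 1) := by omega
    have h10 : ((y + 1 : ℕ) : ℝ) ≤ 2 * ((y / 2 + 1 : ℕ) : ℝ) := by exact_mod_cast h9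
    linarith
  have h4 := cLo_le (S := S) h3
  have hlo := eI_lower (n := N) hx0
  have h11 := Iv.nn_lo hS h4 h2
  have h12 : cG * Real.exp (-(x ^ 2) / 2) * (x * gr (x ^ 2) 0 0 N) ≤ cG * eI x := by
    have := mul_le_mul_of_nonneg_left hlo cG_pos.le
    linarith
  have h13 : ((S / 2 : ℕ) : ℝ) ≤ 1 / 2 * S := by
    refine Nat.cast_div_le.trans (le_of_eq ?_)
    push_cast; ring
  show ((S / 2 + cLo (expLo S M (Int.negSucc (y / 2))) * (n * gl S y 0 N / S) / S : ℕ) : ℝ) ≤ _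
  rw [Nat.cast_add]
  have h14 := mul_le_mul_of_nonneg_right h12 hS'.le
  unfold Phi
  rw [add_mul]
  linarith

theorem PhU_ge {S M K : ℕ} (hS : 0 < S) (n : ℕ) : Phi ((n : ℝ) / S) * S ≤ (PhU S M K n : ℝ) := by
  have hS' : (0 : ℝ) < (S : ℝ) := by exact_mod_cast hS
  set x : ℝ := (n : ℝ) / S with hx
  have hx0 : 0 ≤ x := by positivity
  have hxS : x * S = n := by rw [hx]; field_simp
  have hxx : x ^ 2 * S * S = (n : ℝ) * n := by rw [hx]; field_simp
  set y := n * n / S + 1 with hyd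
  set N := y / S + K + 1 with hN
  set q := (2 * N + 1) * S with hq
  set E := q * S / (q - y) + 1 with hE
  have hy : x ^ 2 * S ≤ (y : ℝ) := by
    have h6 := (Nat.lt_div_mul_add (a := n * n) hS).le
    have h7 : n * n ≤ y * S := by rw [hyd, Nat.add_mul, Nat.one_mul]; exact h6
    have h8 : (n : ℝ) * n ≤ (y : ℝ) * S := by exact_mod_cast h7
    refine le_of_mul_le_mul_right ?_ hS'
    rw [hxx]; exact h8
  have hyq' : y < q := by
    have h1 : y < S * (y / S + 1) := Nat.lt_mul_div_succ y hS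
    have h2 : S * (y / S + 1) ≤ q := by
      rw [hq, Nat.mul_comm]
      refine Nat.mul_le_mul_right S ?_
      omega
    exact h1.trans_le h2
  have hqr : (q : ℝ) = ((2 * N + 1 : ℕ) : ℝ) * S := by rw [hq]; push_cast; ring
  have hyq : (y : ℝ) < (q : ℝ) := by exact_mod_cast hyq'
  have hqy : (0 : ℝ) < (q : ℝ) - (y : ℝ) := by linarith
  set η : ℝ := (q : ℝ) / ((q : ℝ) - y) with hη
  have hη0 : 0 ≤ η := by rw [hη]; positivity
  have hη1 : ((2 * N + 1 : ℕ) : ℝ) ≤ η * (((2 * N + 1 : ℕ) : ℝ) - x ^ 2) := by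
    have h6 : (q : ℝ) - y ≤ (((2 * N + 1 : ℕ) : ℝ) - x ^ 2) * S := by
      rw [sub_mul, ← hqr]; linarith
    have h7 : (q : ℝ) ≤ η * ((((2 * N + 1 : ℕ) : ℝ) - x ^ 2) * S) := by
      calc (q : ℝ) = η * ((q : ℝ) - y) := by rw [hη]; field_simp
        _ ≤ _ := mul_le_mul_of_nonneg_left h6 hη0
    rw [hqr] at h7
    have h8 : ((2 * N + 1 : ℕ) : ℝ) * S ≤ (η * (((2 * N + 1 : ℕ) : ℝ) - x ^ 2)) * S := by
      linarith
    exact le_of_mul_le_mul_right h8 hS'
  have hEη : η * S ≤ (E : ℝ) := by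
    rw [hη, div_mul_eq_mul_div, div_le_iff₀ hqy]
    have hpos : 0 < q - y := by omega
    have h9 := (Nat.lt_div_mul_add (a := q * S) hpos).le
    have h10 : q * S ≤ E * (q - y) := by
      rw [hE, Nat.add_mul, Nat.one_mul]; exact h9
    have h11 : ((q : ℝ) * S) ≤ (E : ℝ) * (((q - y : ℕ)) : ℝ) := by
      exact_mod_cast h10
    rw [Nat.cast_sub hyq'.le] at h11
    exact h11
  have hxsq : 0 ≤ x ^ 2 := by positivity
  have h1 := gu_ge hS hxsq hη0 hy hEη N 0
  have hgr := gr_nonneg hxsq hη0 N 0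
  have h2 := Iv.nn_hi hS hx0 hgr (le_of_eq hxS) h1
  have h3 : Real.exp (-(x ^ 2) / 2) * S ≤ (expHi S M (-((n * n / (2 * S) : ℕ) : ℤ)) : ℝ) := by
    refine le_trans (mul_le_mul_of_nonneg_right (Real.exp_le_exp.mpr ?_) hS'.le) (expHi_ge hS M _)
    rw [le_div_iff₀ hS', Int.cast_neg, Int.cast_natCast]
    have h5 : ((n * n / (2 * S) : ℕ) : ℝ) ≤ x ^ 2 * S / 2 := by
      refine Nat.cast_div_le.trans (le_of_eq ?_)
      rw [hx]; push_cast; field_simp
    linarith
  have h4 := cHi_ge (S := S) h3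
  have hup := eI_upper (n := N) hx0 hη1 hη0
  have hgp : 0 ≤ cG * Real.exp (-(x ^ 2) / 2) := by
    have := cG_pos
    positivity
  have h11 := Iv.nn_hi hS hgp (mul_nonneg hx0 hgr) h4 h2
  have h12 : cG * eI x ≤ cG * Real.exp (-(x ^ 2) / 2) * (x * gr (x ^ 2) η 0 N) := by
    have := mul_le_mul_of_nonneg_left hup cG_pos.le
    linarith
  have h13 : 1 / 2 * (S : ℝ) ≤ ((S / 2 + 1 : ℕ) : ℝ) := by
    have h14 : S ≤ 2 * (S / 2 + 1) := by omega
    have h15 : (S : ℝ) ≤ 2 * ((S / 2 + 1 : ℕ) : ℝ) := by exact_mod_cast h14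
    linarith
  have h14 := mul_le_mul_of_nonneg_right h12 hS'.le
  show _ ≤ ((S / 2 + cHi (expHi S M (-((n * n / (2 * S) : ℕ) : ℤ))) *
    (n * gu S y E 0 N / S + 1) / S + 1 + 1 : ℕ) : ℝ)
  have h16 : ((S / 2 + cHi (expHi S M (-((n * n / (2 * S) : ℕ) : ℤ))) *
    (n * gu S y E 0 N / S + 1) / S + 1 + 1 : ℕ) : ℝ) = ((S / 2 + 1 : ℕ) : ℝ) +
      ((cHi (expHi S M (-((n * n / (2 * S) : ℕ) : ℤ))) * (n * gu S y E 0 N / S + 1) / S + 1 : ℕ) : ℝ) := by
    push_cast; ring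
  rw [h16]
  unfold Phi
  rw [add_mul]
  linarith

/-- lower bound of `S Phi (n / S)` -/
def PhiLo (S M K : ℕ) : ℤ → ℤ
  | .ofNat n => .ofNat (PhL S M K n)
  | .negSucc n => Int.sub (Int.ofNat S) (Int.ofNat (PhU S M K (Nat.succ n)))

/-- upper bound of `S Phi (n / S)` -/
def PhiHi (S M K : ℕ) : ℤ → ℤ
  | .ofNat n => .ofNat (PhU S M K n)
  | .negSucc n => Int.sub (Int.ofNat S) (Int.ofNat (PhL S M K (Nat.succ n)))

theorem PhiLo_le {S M K : ℕ} (hS : 0 < S) (n : ℤ) : (PhiLo S M K n : ℝ) ≤ Phi ((n : ℝ) / S) * S := by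
  rcases n with n | n
  · have := PhL_le (M := M) (K := K) hS n
    simpa [PhiLo] using this
  · have h := PhU_ge (M := M) (K := K) hS (n + 1)
    have e : ((Int.negSucc n : ℤ) : ℝ) / S = -(((n + 1 : ℕ) : ℝ) / S) := by
      rw [Iv.negSucc_cast]; ring
    rw [e, Phi_neg]
    show (((S : ℤ) - (PhU S M K (n + 1) : ℤ) : ℤ) : ℝ) ≤ _
    push_cast at h ⊢
    linarith

theorem PhiHi_ge {S M K : ℕ} (hS : 0 < S) (n : ℤ) : Phi ((n : ℝ) / S) * S ≤ (PhiHi S M K n : ℝ) := by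
  rcases n with n | n
  · have := PhU_ge (M := M) (K := K) hS n
    simpa [PhiHi] using this
  · have h := PhL_le (M := M) (K := K) hS (n + 1)
    have e : ((Int.negSucc n : ℤ) : ℝ) / S = -(((n + 1 : ℕ) : ℝ) / S) := by
      rw [Iv.negSucc_cast]; ring
    rw [e, Phi_neg]
    show _ ≤ (((S : ℤ) - (PhL S M K (n + 1) : ℤ) : ℤ) : ℝ)
    push_cast at h ⊢
    linarith

/-- distribution function of an interval -/
def PhiIv (S M K : ℕ) (I : Iv) : Iv := ⟨PhiLo S M K I.lo, PhiHi S M K I.hi⟩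

theorem mem_PhiIv {S M K : ℕ} (hS : 0 < S) {I : Iv} {u : ℝ} (hu : I.mem S u) :
    (PhiIv S M K I).mem S (Phi u) := by
  have hS' : (0 : ℝ) < (S : ℝ) := by exact_mod_cast hS
  constructor
  · refine (PhiLo_le hS I.lo).trans (mul_le_mul_of_nonneg_right (Phi_mono ?_) hS'.le)
    rw [div_le_iff₀ hS']; exact hu.1
  · refine le_trans (mul_le_mul_of_nonneg_right (Phi_mono ?_) hS'.le) (PhiHi_ge hS I.hi)
    rw [le_div_iff₀ hS']; exact hu.2

end Crest.Agent.R146.Iv_261
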