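import Crest.Agent.R146.IvE_261

/-!
Row 146, package CERT (helper261): kernel-checked interval arithmetic, part 5: certified integrals
(box rule and midpoint rule with second derivative) and one-variable conveniences.
-/

set_option autoImplicit false

namespace Crest.Agent.R146.Iv_261

open MeasureTheory intervalIntegral

/-! ### definedness on a uniform partition -/

/-- `e` and its `i`-derivative are defined on each of the `n` boxes -/
def defU (c : Cfg) (e : Ex) (i : ℕ) (w : ℤ) (env : List Iv) : ℕ → ℤ → Bool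
  | 0, _ => true
  | n + 1, a => (e.iv c (upd env i ⟨a, a + w⟩)).isSome && ((e.Dv i).iv c (upd env i ⟨a, a + w⟩)).isSome
      && defU c e i w env n (a + w)

theorem defU_sound {c : Cfg} (hS : 0 < c.S) {e : Ex} {i : ℕ} {w : ℤ} {env : List Iv} :
    ∀ (n : ℕ) (a : ℤ), defU c e i w env n a = true → ∀ ρ : ℕ → ℝ, EnvMem c.S env ρ →
      0 < n → (Iv.mk a (a + n * w)).mem c.S (ρ i) → e.ok ρ
  | 0, _, _, _, _, h0, _ => absurd h0 (lt_irrefl 0)
  | n + 1, a, h, ρ, hρ, _, hx => by
      simp only [defU, Bool.and_eq_true] at h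
      rcases mem_split hx (a + w) with h' | h'
      · exact Ex.ok_of_iv hS (hρ.updSelf h') _ e h.1.1 h.1.2
      · rcases Nat.eq_zero_or_pos n with hn | hn
        · subst hn
          have h2 : (Iv.mk a (a + w)).mem c.S (ρ i) := by
            have h2 := h'.2
            simp only [zero_add, Nat.cast_one, one_mul] at h2
            exact ⟨hx.1, h2⟩
          exact Ex.ok_of_iv hS (hρ.updSelf h2) _ e h.1.1 h.1.2
        · refine defU_sound hS n (a + w) h.2 ρ hρ hn ?_
          have e : a + w + n * w = a + ((n + 1 : ℕ) : ℤ) * w := by push_cast; ring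
          rw [e]
          exact h'

/-! ### midpoint rule -/

/-- two-sided quadratic bound -/
theorem quad_lower {f f' f'' : ℝ → ℝ} {α β μ L : ℝ} (hμ : μ ∈ Set.Icc α β)
    (h1 : ∀ s ∈ Set.Icc α β, HasDerivAt f (f' s) s) (h2 : ∀ s ∈ Set.Icc α β, HasDerivAt f' (f'' s) s)
    (hL : ∀ s ∈ Set.Icc α β, L ≤ f'' s) {s : ℝ} (hs : s ∈ Set.Icc α β) :
    f μ + f' μ * (s - μ) + L * ((s - μ) ^ 2 / 2) ≤ f s := by
  set h : ℝ → ℝ := fun s => f s - f μ - f' μ * (s - μ) - L * ((s - μ) ^ 2 / 2) with hh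
  set h' : ℝ → ℝ := fun s => f' s - f' μ - L * (s - μ) with hh'
  have d1 : ∀ s ∈ Set.Icc α β, HasDerivAt h (h' s) s := by
    intro s hs
    have a1 : HasDerivAt (fun s : ℝ => (s - μ) ^ 2 / 2) (s - μ) s := by
      refine ((((hasDerivAt_id s).sub_const μ).fun_pow 2).div_const 2).congr_deriv ?_
      simp
    have a2 : HasDerivAt (fun s : ℝ => s - μ) 1 s := (hasDerivAt_id s).sub_const μ
    refine ((((h1 s hs).sub_const (f μ)).sub (a2.const_mul (f' μ))).sub (a1.const_mul L)).congr_deriv ?_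
    simp [hh']
  have d2 : ∀ s ∈ Set.Icc α β, HasDerivAt h' (f'' s - L) s := by
    intro s hs
    have a2 : HasDerivAt (fun s : ℝ => s - μ) 1 s := (hasDerivAt_id s).sub_const μ
    refine (((h2 s hs).sub_const (f' μ)).sub (a2.const_mul L)).congr_deriv ?_
    simp
  have m1 : MonotoneOn h' (Set.Icc α β) := by
    refine monotoneOn_of_deriv_nonneg (convex_Icc α β)
      (fun y hy => (d2 y hy).continuousAt.continuousWithinAt)
      (fun y hy => (d2 y (interior_subset hy)).differentiableAt.differentiableWithinAt) ?_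
    intro y hy
    rw [(d2 y (interior_subset hy)).deriv]
    linarith [hL y (interior_subset hy)]
  have h0 : h μ = 0 := by simp [hh]
  have h0' : h' μ = 0 := by simp [hh']
  have key : 0 ≤ h s := by
    rcases lt_trichotomy s μ with hlt | heq | hgt
    · obtain ⟨z, hz, hzz⟩ := exists_hasDerivAt_eq_slope h h' hlt
        (fun z hz => (d1 z ⟨hs.1.trans hz.1, hz.2.trans hμ.2⟩).continuousAt.continuousWithinAt)
        (fun z hz => d1 z ⟨hs.1.trans hz.1.le, hz.2.le.trans hμ.2⟩)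
      have h3 : h' z ≤ h' μ := m1 ⟨hs.1.trans hz.1.le, hz.2.le.trans hμ.2⟩ hμ hz.2.le
      rw [hzz, h0, h0', div_le_iff₀ (by linarith)] at h3
      linarith
    · rw [heq, h0]
    · obtain ⟨z, hz, hzz⟩ := exists_hasDerivAt_eq_slope h h' hgt
        (fun z hz => (d1 z ⟨hμ.1.trans hz.1, hz.2.trans hs.2⟩).continuousAt.continuousWithinAt)
        (fun z hz => d1 z ⟨hμ.1.trans hz.1.le, hz.2.le.trans hs.2⟩)
      have h3 : h' μ ≤ h' z := m1 hμ ⟨hμ.1.trans hz.1.le, hz.2.le.trans hs.2⟩ hz.1.le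
      rw [hzz, h0, h0', le_div_iff₀ (by linarith)] at h3
      linarith
  simp only [hh] at key
  linarith

theorem integral_quad (A B L μ δ : ℝ) :
    ∫ s in (μ - δ)..(μ + δ), (A + B * (s - μ) + L * ((s - μ) ^ 2 / 2)) = A * (2 * δ) + L * (δ ^ 3 / 3) := by
  have h : ∀ s : ℝ, HasDerivAt (fun s => A * (s - μ) + B * ((s - μ) ^ 2 / 2) + L * ((s - μ) ^ 3 / 6))
      (A + B * (s - μ) + L * ((s - μ) ^ 2 / 2)) s := by
    intro s
    have a2 : HasDerivAt (fun s : ℝ => s - μ) 1 s := (hasDerivAt_id s).sub_const μ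
    have a3 := ((a2.fun_pow 2).div_const 2).const_mul B
    have a4 := ((a2.fun_pow 3).div_const 6).const_mul L
    refine (((a2.const_mul A).add a3).add a4).congr_deriv ?_
    push_cast
    simp only [pow_one]
    ring
  rw [integral_eq_sub_of_hasDerivAt (fun s _ => h s) (by
    apply Continuous.intervalIntegrable; fun_prop)]
  ring

theorem mid_lower {f f' f'' : ℝ → ℝ} {μ δ L : ℝ} (hδ : 0 ≤ δ)
    (h1 : ∀ s ∈ Set.Icc (μ - δ) (μ + δ), HasDerivAt f (f' s) s)
    (h2 : ∀ s ∈ Set.Icc (μ - δ) (μ + δ), HasDerivAt f' (f'' s) s)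
    (hL : ∀ s ∈ Set.Icc (μ - δ) (μ + δ), L ≤ f'' s) :
    f μ * (2 * δ) + L * (δ ^ 3 / 3) ≤ ∫ s in (μ - δ)..(μ + δ), f s := by
  rw [← integral_quad (f μ) (f' μ) L μ δ]
  have hle : μ - δ ≤ μ + δ := by linarith
  refine intervalIntegral.integral_mono_on hle (by apply Continuous.intervalIntegrable; fun_prop) ?_ ?_
  · refine ContinuousOn.intervalIntegrable ?_
    rw [Set.uIcc_of_le hle]
    exact fun s hs => (h1 s hs).continuousAt.continuousWithinAt
  · intro s hs
    exact quad_lower ⟨by linarith, by linarith⟩ h1 h2 hL hs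

theorem mid_upper {f f' f'' : ℝ → ℝ} {μ δ U : ℝ} (hδ : 0 ≤ δ)
    (h1 : ∀ s ∈ Set.Icc (μ - δ) (μ + δ), HasDerivAt f (f' s) s)
    (h2 : ∀ s ∈ Set.Icc (μ - δ) (μ + δ), HasDerivAt f' (f'' s) s)
    (hU : ∀ s ∈ Set.Icc (μ - δ) (μ + δ), f'' s ≤ U) :
    ∫ s in (μ - δ)..(μ + δ), f s ≤ f μ * (2 * δ) + U * (δ ^ 3 / 3) := by
  have := mid_lower (f := fun s => -f s) (f' := fun s => -f' s) (f'' := fun s => -f'' s) (μ := μ)
    (δ := δ) (L := -U) hδ (fun s hs => (h1 s hs).neg) (fun s hs => (h2 s hs).neg)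
    (fun s hs => neg_le_neg (hU s hs))
  rw [intervalIntegral.integral_neg] at this
  linarith

/-- one cell of the midpoint rule: box `[a, a + 2r]` -/
def cellM (c : Cfg) (e e1 e2 : Ex) (i : ℕ) (r : ℕ) (env : List Iv) (a : ℤ) : Option Iv :=
  let B := upd env i ⟨a, a + 2 * Int.ofNat r⟩
  let m := a + Int.ofNat r
  match e.iv c (upd env i ⟨m, m⟩), e.iv c B, e1.iv c B, e2.iv c B with
  | some A, some _, some _, some F =>
    some (Iv.add (Iv.mul c.S A ⟨2 * Int.ofNat r, 2 * Int.ofNat r⟩)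
      (Iv.mul c.S F ⟨fd (Int.ofNat (r * r * r)) (3 * c.S * c.S), cd (Int.ofNat (r * r * r)) (3 * c.S * c.S)⟩))
  | _, _, _, _ => none

theorem cellM_sound {c : Cfg} (hS : 0 < c.S) {e : Ex} {i : ℕ} {r : ℕ} {env : List Iv} {a : ℤ}
    {J : Iv} (h : cellM c e (e.Dv i) ((e.Dv i).Dv i) i r env a = some J) {ρ : ℕ → ℝ}
    (hρ : EnvMem c.S env ρ) :
    J.mem c.S (∫ s in ((a : ℝ) / c.S)..(((a + 2 * Int.ofNat r : ℤ) : ℝ) / c.S),
        e.val (Function.update ρ i s)) ∧
      IntervalIntegrable (fun s => e.val (Function.update ρ i s)) volume ((a : ℝ) / c.S)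
        (((a + 2 * Int.ofNat r : ℤ) : ℝ) / c.S) := by
  have hS' : (0 : ℝ) < (c.S : ℝ) := by exact_mod_cast hS
  unfold cellM at h
  simp only at h
  set B := upd env i ⟨a, a + 2 * Int.ofNat r⟩ with hB
  set m := a + Int.ofNat r with hm
  cases hA : e.iv c (upd env i ⟨m, m⟩) with
  | none => rw [hA] at h; simp at h
  | some A =>
  cases h0 : e.iv c B with
  | none => rw [hA, h0] at h; simp at h
  | some A0 =>
  cases h1 : (e.Dv i).iv c B with
  | none => rw [hA, h0, h1] at h; simp at h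
  | some A1 =>
  cases h2 : ((e.Dv i).Dv i).iv c B with
  | none => rw [hA, h0, h1, h2] at h; simp at h
  | some F =>
  rw [hA, h0, h1, h2] at h
  simp only [Option.some.injEq] at h
  subst h
  set μ : ℝ := (m : ℝ) / c.S with hμ
  set δ : ℝ := (r : ℝ) / c.S with hδ
  have hδ0 : 0 ≤ δ := by positivity
  have ea : (a : ℝ) / c.S = μ - δ := by
    rw [hμ, hδ, hm]; simp only [Int.ofNat_eq_natCast]; push_cast; ring
  have eb : (((a + 2 * Int.ofNat r : ℤ) : ℝ)) / c.S = μ + δ := by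
    rw [hμ, hδ, hm]; simp only [Int.ofNat_eq_natCast]; push_cast; ring
  rw [ea, eb]
  have hBm : ∀ s ∈ Set.Icc (μ - δ) (μ + δ), EnvMem c.S B (Function.update ρ i s) := by
    intro s hs
    refine hρ.updMem ?_
    rw [← ea, ← eb] at hs
    constructor
    · have := hs.1
      rw [div_le_iff₀ hS'] at this
      exact this
    · have := hs.2
      rw [le_div_iff₀ hS'] at this
      exact this
  have hok0 : ∀ s ∈ Set.Icc (μ - δ) (μ + δ), e.ok (Function.update ρ i s) := by
    intro s hs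
    refine Ex.ok_of_iv hS (hBm s hs) (fun j => bif Nat.beq j i then .c 1 1 else .c 0 1) e ?_ ?_
    · rw [h0]; rfl
    · have : ((e.Dv i).iv c B).isSome = true := by rw [h1]; rfl
      exact this
  have hok1 : ∀ s ∈ Set.Icc (μ - δ) (μ + δ), (e.Dv i).ok (Function.update ρ i s) := by
    intro s hs
    refine Ex.ok_of_iv hS (hBm s hs) (fun j => bif Nat.beq j i then .c 1 1 else .c 0 1) (e.Dv i) ?_ ?_
    · rw [h1]; rfl
    · have : (((e.Dv i).Dv i).iv c B).isSome = true := by rw [h2]; rfl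
      exact this
  set f : ℝ → ℝ := fun s => e.val (Function.update ρ i s) with hf
  set f1 : ℝ → ℝ := fun s => (e.Dv i).val (Function.update ρ i s) with hf1
  set f2 : ℝ → ℝ := fun s => ((e.Dv i).Dv i).val (Function.update ρ i s) with hf2
  have d1 : ∀ s ∈ Set.Icc (μ - δ) (μ + δ), HasDerivAt f (f1 s) s :=
    fun s hs => Ex.hasDerivAt_upd (hok0 s hs)
  have d2 : ∀ s ∈ Set.Icc (μ - δ) (μ + δ), HasDerivAt f1 (f2 s) s :=
    fun s hs => Ex.hasDerivAt_upd (hok1 s hs)
  have hFm : ∀ s ∈ Set.Icc (μ - δ) (μ + δ), F.mem c.S (f2 s) :=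
    fun s hs => Ex.mem_iv hS (hBm s hs) _ F h2
  have hle : μ - δ ≤ μ + δ := by linarith
  have hint : IntervalIntegrable f volume (μ - δ) (μ + δ) := by
    refine ContinuousOn.intervalIntegrable ?_
    rw [Set.uIcc_of_le hle]
    exact fun s hs => (d1 s hs).continuousAt.continuousWithinAt
  refine ⟨?_, hint⟩
  have hl := mid_lower (L := (F.lo : ℝ) / c.S) hδ0 d1 d2 (fun s hs => by
    rw [div_le_iff₀ hS']; exact (hFm s hs).1)
  have hu := mid_upper (U := (F.hi : ℝ) / c.S) hδ0 d1 d2 (fun s hs => by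
    rw [le_div_iff₀ hS']; exact (hFm s hs).2)
  have hAm : A.mem c.S (f μ) := by
    refine Ex.mem_iv hS (hρ.updMem ?_) e A hA
    have e1 : μ * c.S = m := by rw [hμ]; field_simp
    constructor <;> simp [e1]
  have hw : (Iv.mk (2 * Int.ofNat r) (2 * Int.ofNat r)).mem c.S (2 * δ) := by
    have e1 : 2 * δ * c.S = 2 * (r : ℝ) := by rw [hδ]; field_simp
    constructor <;> simp [e1]
  have hcube : (Iv.mk (fd (Int.ofNat (r * r * r)) (3 * c.S * c.S))
      (cd (Int.ofNat (r * r * r)) (3 * c.S * c.S))).mem c.S (δ ^ 3 / 3) := by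
    have hpos : 0 < 3 * c.S * c.S := by positivity
    have hpos' : (0 : ℝ) < ((3 * c.S * c.S : ℕ) : ℝ) := by exact_mod_cast hpos
    have e1 : δ ^ 3 / 3 * c.S * ((3 * c.S * c.S : ℕ) : ℝ) = ((Int.ofNat (r * r * r) : ℤ) : ℝ) := by
      simp only [hδ, Int.ofNat_eq_natCast]
      push_cast
      field_simp
    constructor
    · have e2 := fd_le (Int.ofNat (r * r * r)) hpos
      rw [← e1] at e2
      exact le_of_mul_le_mul_right e2 hpos'
    · have e2 := le_cd (Int.ofNat (r * r * r)) hpos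
      rw [← e1] at e2
      exact le_of_mul_le_mul_right e2 hpos'
  have hFlo : F.mem c.S ((F.lo : ℝ) / c.S) := by
    have hh := hFm μ ⟨by linarith, by linarith⟩
    have e1 : (F.lo : ℝ) / c.S * c.S = F.lo := by field_simp
    constructor
    · rw [e1]
    · rw [e1]; exact hh.1.trans hh.2
  have hFhi : F.mem c.S ((F.hi : ℝ) / c.S) := by
    have hh := hFm μ ⟨by linarith, by linarith⟩
    have e1 : (F.hi : ℝ) / c.S * c.S = F.hi := by field_simp
    constructor
    · rw [e1]; exact hh.1.trans hh.2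
    · rw [e1]
  exact Iv.mem_conv (Iv.mem_add (Iv.mem_mul hS hAm hw) (Iv.mem_mul hS hFlo hcube))
    (Iv.mem_add (Iv.mem_mul hS hAm hw) (Iv.mem_mul hS hFhi hcube)) hl hu

/-- midpoint rule on `n` cells of width `2r` starting at `a` (integration variable `i`) -/
def intM (c : Cfg) (e e1 e2 : Ex) (i : ℕ) (r : ℕ) (env : List Iv) : ℕ → ℤ → Option Iv
  | 0, _ => some ⟨0, 0⟩
  | n + 1, a => o2 (cellM c e e1 e2 i r env a) (intM c e e1 e2 i r env n (a + 2 * Int.ofNat r)) Iv.add

/-- **soundness of the certified integral** -/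
theorem intM_sound {c : Cfg} (hS : 0 < c.S) {e : Ex} {i : ℕ} {r : ℕ} {env : List Iv}
    {ρ : ℕ → ℝ} (hρ : EnvMem c.S env ρ) :
    ∀ (n : ℕ) (a : ℤ) (J : Iv), intM c e (e.Dv i) ((e.Dv i).Dv i) i r env n a = some J →
    J.mem c.S (∫ s in ((a : ℝ) / c.S)..(((a + n * (2 * Int.ofNat r) : ℤ) : ℝ) / c.S),
        e.val (Function.update ρ i s)) ∧
      IntervalIntegrable (fun s => e.val (Function.update ρ i s)) volume ((a : ℝ) / c.S)
        (((a + n * (2 * Int.ofNat r) : ℤ) : ℝ) / c.S)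
  | 0, a, J, h => by
      simp only [intM, Option.some.injEq] at h
      subst h
      simp only [Nat.cast_zero, zero_mul, add_zero, intervalIntegral.integral_same]
      refine ⟨⟨by simp, by simp⟩, IntervalIntegrable.refl⟩
  | n + 1, a, J, h => by
      obtain ⟨I, K, h1, h2, rfl⟩ := o2_some h
      have ih := intM_sound hS hρ n _ K h2
      have hc := cellM_sound hS h1 hρ
      have e1 : (a + 2 * Int.ofNat r + n * (2 * Int.ofNat r) : ℤ) =
          a + ((n + 1 : ℕ) : ℤ) * (2 * Int.ofNat r) := by push_cast; ring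
      rw [e1] at ih
      refine ⟨?_, hc.2.trans ih.2⟩
      rw [← intervalIntegral.integral_add_adjacent_intervals hc.2 ih.2]
      exact Iv.mem_add hc.1 ih.1

/-! ### one-variable conveniences -/

/-- positivity of a one-variable expression on `[a/S, (a + n w)/S]` -/
theorem pos_fn {c : Cfg} (hS : 0 < c.S) {mv : List ℕ} {e : Ex} {l : List ℕ} {w : ℤ} {n : ℕ} {a : ℤ}
    (hn : 0 < n) (h : chkU c mv [[e]] l 0 w [⟨a, a + n * w⟩] n a = true) {x : ℝ}
    (h1 : (a : ℝ) / c.S ≤ x) (h2 : x ≤ ((a + n * w : ℤ) : ℝ) / c.S) : 0 < e.fn x := by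
  have hS' : (0 : ℝ) < (c.S : ℝ) := by exact_mod_cast hS
  have hx : (Iv.mk a (a + n * w)).mem c.S x := by
    rw [div_le_iff₀ hS'] at h1
    rw [le_div_iff₀ hS'] at h2
    exact ⟨h1, h2⟩
  obtain ⟨cl, hcl, hpos⟩ := chkU_sound hS n a h (fun _ => x) (envMem_one hx) hn hx
  simp only [List.mem_singleton] at hcl
  subst hcl
  exact hpos e (by simp)

end Crest.Agent.R146.Iv_261
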