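import Mathlib

/-!
Row 146, package CERT (helper261): kernel-checked interval arithmetic, part 1: fixed-point intervals
over the integers (scale `S`), basic operations, exponential, square root, all with soundness lemmas.
Everything here is meant to be run by `decide +kernel`.
-/

set_option autoImplicit false

namespace Crest.Agent.R146.Iv_261

/-! ### integer helpers -/

/-- fast comparison of integers -/
def ble : ℤ → ℤ → Bool
  | .ofNat a, .ofNat b => Nat.ble a b
  | .negSucc a, .negSucc b => Nat.ble b a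
  | .negSucc _, .ofNat _ => true
  | .ofNat _, .negSucc _ => false

theorem ble_iff (a b : ℤ) : ble a b = true ↔ a ≤ b := by
  rcases a with a | a <;> rcases b with b | b
  · simp [ble]
  · simp only [ble, Int.ofNat_eq_natCast, Bool.false_eq_true, false_iff, not_le]
    have := Int.negSucc_lt_zero b
    omega
  · simp only [ble, Int.ofNat_eq_natCast, true_iff]
    have := Int.negSucc_lt_zero a
    omega
  · simp only [ble, Nat.ble_eq, Int.negSucc_eq]
    omega

theorem ble_false_iff (a b : ℤ) : ble a b = false ↔ b < a := by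
  rw [← not_iff_not]
  simp only [Bool.not_eq_false, ble_iff, not_lt]

/-- minimum of integers -/
def zmin (a b : ℤ) : ℤ := bif ble a b then a else b
/-- maximum of integers -/
def zmax (a b : ℤ) : ℤ := bif ble a b then b else a

theorem zmin_eq (a b : ℤ) : zmin a b = min a b := by
  unfold zmin
  cases h : ble a b
  · rw [ble_false_iff] at h
    simp [min_eq_right h.le]
  · rw [ble_iff] at h
    simp [min_eq_left h]

theorem zmax_eq (a b : ℤ) : zmax a b = max a b := by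
  unfold zmax
  cases h : ble a b
  · rw [ble_false_iff] at h
    simp [max_eq_left h.le]
  · rw [ble_iff] at h
    simp [max_eq_right h]

/-- floor division by a natural number -/
def fd (a : ℤ) (d : ℕ) : ℤ := a / Int.ofNat d
/-- ceiling division by a natural number -/
def cd (a : ℤ) (d : ℕ) : ℤ := -((-a) / Int.ofNat d)

theorem fd_le (a : ℤ) {d : ℕ} (hd : 0 < d) : ((fd a d : ℤ) : ℝ) * d ≤ a := by
  have h : (a / (d : ℤ)) * d ≤ a := Int.ediv_mul_le a (by omega)
  exact_mod_cast h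

theorem le_cd (a : ℤ) {d : ℕ} (hd : 0 < d) : (a : ℝ) ≤ ((cd a d : ℤ) : ℝ) * d := by
  have h : ((-a) / (d : ℤ)) * d ≤ -a := Int.ediv_mul_le (-a) (by omega)
  have h2 : a ≤ cd a d * d := by
    have e : cd a d = -((-a) / (d : ℤ)) := rfl
    rw [e]; linarith
  exact_mod_cast h2

/-! ### intervals -/

/-- the interval `[lo / S, hi / S]` -/
structure Iv where
  /-- left end -/
  lo : ℤ
  /-- right end -/
  hi : ℤ

/-- membership of a real in a fixed-point interval at scale `S` -/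
def Iv.mem (S : ℕ) (I : Iv) (v : ℝ) : Prop := (I.lo : ℝ) ≤ v * S ∧ v * S ≤ (I.hi : ℝ)

namespace Iv

/-- negation -/
def neg (I : Iv) : Iv := ⟨-I.hi, -I.lo⟩
/-- addition -/
def add (I J : Iv) : Iv := ⟨I.lo + J.lo, I.hi + J.hi⟩
/-- subtraction -/
def sub (I J : Iv) : Iv := ⟨I.lo - J.hi, I.hi - J.lo⟩
/-- general product -/
def mulG (S : ℕ) (I J : Iv) : Iv :=
  ⟨fd (zmin (zmin (I.lo * J.lo) (I.lo * J.hi)) (zmin (I.hi * J.lo) (I.hi * J.hi))) S,
   cd (zmax (zmax (I.lo * J.lo) (I.lo * J.hi)) (zmax (I.hi * J.lo) (I.hi * J.hi))) S⟩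
/-- product with fast paths for intervals of constant sign -/
def mul (S : ℕ) : Iv → Iv → Iv
  | ⟨.ofNat a, .ofNat b⟩, ⟨.ofNat c, .ofNat d⟩ =>
      ⟨.ofNat (Nat.div (Nat.mul a c) S), .ofNat (Nat.succ (Nat.div (Nat.mul b d) S))⟩
  | ⟨.ofNat a, .ofNat b⟩, ⟨.negSucc c, .negSucc d⟩ =>
      ⟨.negSucc (Nat.div (Nat.mul b (Nat.succ c)) S), Int.neg (.ofNat (Nat.div (Nat.mul a (Nat.succ d)) S))⟩
  | ⟨.negSucc a, .negSucc b⟩, ⟨.ofNat c, .ofNat d⟩ =>
      ⟨.negSucc (Nat.div (Nat.mul (Nat.succ a) d) S), Int.neg (.ofNat (Nat.div (Nat.mul (Nat.succ b) c) S))⟩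
  | ⟨.negSucc a, .negSucc b⟩, ⟨.negSucc c, .negSucc d⟩ =>
      ⟨.ofNat (Nat.div (Nat.mul (Nat.succ b) (Nat.succ d)) S),
        .ofNat (Nat.succ (Nat.div (Nat.mul (Nat.succ a) (Nat.succ c)) S))⟩
  | I, J => mulG S I J
/-- minimum -/
def min' (I J : Iv) : Iv := ⟨zmin I.lo J.lo, zmin I.hi J.hi⟩
/-- maximum -/
def max' (I J : Iv) : Iv := ⟨zmax I.lo J.lo, zmax I.hi J.hi⟩
/-- intersection -/
def inter (I J : Iv) : Iv := ⟨zmax I.lo J.lo, zmin I.hi J.hi⟩
/-- absolute value -/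
def abs' (I : Iv) : Iv :=
  bif ble 0 I.lo then I else bif ble I.hi 0 then neg I else ⟨0, zmax (-I.lo) I.hi⟩
/-- square -/
def sqr (S : ℕ) (I : Iv) : Iv :=
  let J := abs' I
  ⟨fd (J.lo * J.lo) S, cd (J.hi * J.hi) S⟩
/-- the rational number `n / d` -/
def const (S : ℕ) (n : ℤ) (d : ℕ) : Iv := ⟨fd (n * Int.ofNat S) d, cd (n * Int.ofNat S) d⟩
/-- inverse (only for intervals not containing zero) -/
def inv (S : ℕ) (I : Iv) : Option Iv :=
  match I with
  | ⟨.ofNat (a + 1), .ofNat b⟩ =>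
      some ⟨fd (Int.ofNat (S * S)) b, cd (Int.ofNat (S * S)) (a + 1)⟩
  | ⟨.negSucc a, .negSucc b⟩ =>
      some ⟨fd (-Int.ofNat (S * S)) (b + 1), cd (-Int.ofNat (S * S)) (a + 1)⟩
  | _ => none

variable {S : ℕ} {I J : Iv} {u v : ℝ}

theorem mem_neg (h : I.mem S v) : (neg I).mem S (-v) := by
  obtain ⟨h1, h2⟩ := h
  refine ⟨?_, ?_⟩ <;> simp only [neg, Int.cast_neg, neg_mul] <;> linarith

theorem mem_add (hu : I.mem S u) (hv : J.mem S v) : (add I J).mem S (u + v) := by
  obtain ⟨h1, h2⟩ := hu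
  obtain ⟨h3, h4⟩ := hv
  refine ⟨?_, ?_⟩ <;> simp only [add, Int.cast_add, add_mul] <;> linarith

theorem mem_sub (hu : I.mem S u) (hv : J.mem S v) : (sub I J).mem S (u - v) := by
  obtain ⟨h1, h2⟩ := hu
  obtain ⟨h3, h4⟩ := hv
  refine ⟨?_, ?_⟩ <;> simp only [sub, Int.cast_sub, sub_mul] <;> linarith

theorem mul_bounds {a b c d u v : ℝ} (h1 : a ≤ u) (h2 : u ≤ b) (h3 : c ≤ v) (h4 : v ≤ d) :
    min (min (a * c) (a * d)) (min (b * c) (b * d)) ≤ u * v ∧
      u * v ≤ max (max (a * c) (a * d)) (max (b * c) (b * d)) := by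
  constructor
  · rcases le_total 0 v with hv | hv
    · have e1 : a * v ≤ u * v := mul_le_mul_of_nonneg_right h1 hv
      refine le_trans ?_ e1
      rcases le_total 0 a with ha | ha
      · exact (min_le_left _ _).trans ((min_le_left _ _).trans (mul_le_mul_of_nonneg_left h3 ha))
      · exact (min_le_left _ _).trans ((min_le_right _ _).trans (mul_le_mul_of_nonpos_left h4 ha))
    · have e1 : b * v ≤ u * v := mul_le_mul_of_nonpos_right h2 hv
      refine le_trans ?_ e1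
      rcases le_total 0 b with hb | hb
      · exact (min_le_right _ _).trans ((min_le_left _ _).trans (mul_le_mul_of_nonneg_left h3 hb))
      · exact (min_le_right _ _).trans ((min_le_right _ _).trans (mul_le_mul_of_nonpos_left h4 hb))
  · rcases le_total 0 v with hv | hv
    · have e1 : u * v ≤ b * v := mul_le_mul_of_nonneg_right h2 hv
      refine le_trans e1 ?_
      rcases le_total 0 b with hb | hb
      · exact (mul_le_mul_of_nonneg_left h4 hb).trans ((le_max_right _ _).trans (le_max_right _ _))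
      · exact (mul_le_mul_of_nonpos_left h3 hb).trans ((le_max_left _ _).trans (le_max_right _ _))
    · have e1 : u * v ≤ a * v := mul_le_mul_of_nonpos_right h1 hv
      refine le_trans e1 ?_
      rcases le_total 0 a with ha | ha
      · exact (mul_le_mul_of_nonneg_left h4 ha).trans ((le_max_right _ _).trans (le_max_left _ _))
      · exact (mul_le_mul_of_nonpos_left h3 ha).trans ((le_max_left _ _).trans (le_max_left _ _))

theorem mem_mulG (hS : 0 < S) (hu : I.mem S u) (hv : J.mem S v) : (mulG S I J).mem S (u * v) := by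
  obtain ⟨h1, h2⟩ := hu
  obtain ⟨h3, h4⟩ := hv
  have hb := mul_bounds h1 h2 h3 h4
  have hS' : (0 : ℝ) < (S : ℝ) := by exact_mod_cast hS
  constructor
  · have e := fd_le (zmin (zmin (I.lo * J.lo) (I.lo * J.hi)) (zmin (I.hi * J.lo) (I.hi * J.hi))) hS
    have e2 : ((zmin (zmin (I.lo * J.lo) (I.lo * J.hi)) (zmin (I.hi * J.lo) (I.hi * J.hi)) : ℤ) : ℝ)
        ≤ u * S * (v * S) := by
      refine le_trans (le_of_eq ?_) hb.1
      simp only [zmin_eq]
      push_cast
      rfl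
    have e3 := e.trans e2
    have e4 : u * S * (v * S) = (u * v * S) * S := by ring
    rw [e4] at e3
    exact le_of_mul_le_mul_right e3 hS'
  · have e := le_cd (zmax (zmax (I.lo * J.lo) (I.lo * J.hi)) (zmax (I.hi * J.lo) (I.hi * J.hi))) hS
    have e2 : u * S * (v * S) ≤
        ((zmax (zmax (I.lo * J.lo) (I.lo * J.hi)) (zmax (I.hi * J.lo) (I.hi * J.hi)) : ℤ) : ℝ) := by
      refine le_trans hb.2 (le_of_eq ?_)
      simp only [zmax_eq]
      push_cast
      rfl
    have e3 := e2.trans e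
    have e4 : u * S * (v * S) = (u * v * S) * S := by ring
    rw [e4] at e3
    exact le_of_mul_le_mul_right e3 hS'

/-- product of nonnegative numbers, lower bound -/
theorem nn_lo (hS : 0 < S) {a c : ℕ} {x y : ℝ} (h1 : (a : ℝ) ≤ x * S) (h3 : (c : ℝ) ≤ y * S) :
    ((a * c / S : ℕ) : ℝ) ≤ x * y * S := by
  have hS' : (0 : ℝ) < (S : ℝ) := by exact_mod_cast hS
  have ha : (0 : ℝ) ≤ (a : ℝ) := Nat.cast_nonneg a
  have hc : (0 : ℝ) ≤ (c : ℝ) := Nat.cast_nonneg c
  have e : x * y * (S : ℝ) = (x * S) * (y * S) / S := by field_simp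
  rw [e]
  refine (Nat.cast_div_le).trans ?_
  rw [Nat.cast_mul]
  exact div_le_div_of_nonneg_right (mul_le_mul h1 h3 hc (ha.trans h1)) hS'.le

/-- product of nonnegative numbers, upper bound -/
theorem nn_hi (hS : 0 < S) {b d : ℕ} {x y : ℝ} (hx : 0 ≤ x) (hy : 0 ≤ y) (h2 : x * S ≤ (b : ℝ))
    (h4 : y * S ≤ (d : ℝ)) : x * y * S ≤ ((b * d / S + 1 : ℕ) : ℝ) := by
  have hS' : (0 : ℝ) < (S : ℝ) := by exact_mod_cast hS
  have e : x * y * (S : ℝ) = (x * S) * (y * S) / S := by field_simp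
  rw [e]
  have h5 : b * d ≤ (b * d / S + 1) * S := by
    have := Nat.lt_div_mul_add (a := b * d) hS
    rw [Nat.add_mul, Nat.one_mul]
    exact this.le
  have h6 : (b : ℝ) * (d : ℝ) ≤ ((b * d / S + 1 : ℕ) : ℝ) * (S : ℝ) := by
    exact_mod_cast h5
  rw [div_le_iff₀ hS']
  refine le_trans ?_ h6
  exact mul_le_mul h2 h4 (by positivity) ((by positivity : (0:ℝ) ≤ x * S).trans h2)

theorem negSucc_cast (n : ℕ) : ((Int.negSucc n : ℤ) : ℝ) = -((n + 1 : ℕ) : ℝ) := by
  rw [Int.negSucc_eq]; push_cast; ring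

theorem nonneg_of_mul_S (hS : 0 < S) {a : ℕ} {x : ℝ} (h : (a : ℝ) ≤ x * S) : 0 ≤ x := by
  have hS' : (0 : ℝ) < (S : ℝ) := by exact_mod_cast hS
  exact nonneg_of_mul_nonneg_left ((Nat.cast_nonneg a).trans h) hS'

theorem mem_mul (hS : 0 < S) (hu : I.mem S u) (hv : J.mem S v) : (mul S I J).mem S (u * v) := by
  rcases I with ⟨a | a, b | b⟩ <;> rcases J with ⟨c | c, d | d⟩ <;>
    first
    | exact mem_mulG hS hu hv
    | skip
  · obtain ⟨h1, h2⟩ := hu
    obtain ⟨h3, h4⟩ := hv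
    simp only [Int.ofNat_eq_natCast, Int.cast_natCast] at h1 h2 h3 h4
    exact ⟨nn_lo hS h1 h3, nn_hi hS (nonneg_of_mul_S hS h1) (nonneg_of_mul_S hS h3) h2 h4⟩
  · obtain ⟨h1, h2⟩ := hu
    obtain ⟨h3, h4⟩ := hv
    simp only [Int.ofNat_eq_natCast, Int.cast_natCast] at h1 h2
    rw [negSucc_cast] at h3 h4
    have h3' : (-v) * S ≤ ((c + 1 : ℕ) : ℝ) := by linarith
    have h4' : ((d + 1 : ℕ) : ℝ) ≤ (-v) * S := by linarith
    have e1 := nn_lo hS h1 h4'
    have e2 := nn_hi hS (nonneg_of_mul_S hS h1) (nonneg_of_mul_S hS h4') h2 h3'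
    constructor
    · show ((Int.negSucc (b * (c + 1) / S) : ℤ) : ℝ) ≤ _
      rw [negSucc_cast]
      linarith
    · show _ ≤ (((-((a * (d + 1) / S : ℕ) : ℤ)) : ℤ) : ℝ)
      rw [Int.cast_neg, Int.cast_natCast]
      linarith
  · obtain ⟨h1, h2⟩ := hu
    obtain ⟨h3, h4⟩ := hv
    simp only [Int.ofNat_eq_natCast, Int.cast_natCast] at h3 h4
    rw [negSucc_cast] at h1 h2
    have h1' : (-u) * S ≤ ((a + 1 : ℕ) : ℝ) := by linarith
    have h2' : ((b + 1 : ℕ) : ℝ) ≤ (-u) * S := by linarith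
    have e1 := nn_lo hS h2' h3
    have e2 := nn_hi hS (nonneg_of_mul_S hS h2') (nonneg_of_mul_S hS h3) h1' h4
    constructor
    · show ((Int.negSucc ((a + 1) * d / S) : ℤ) : ℝ) ≤ _
      rw [negSucc_cast]
      linarith
    · show _ ≤ (((-(((b + 1) * c / S : ℕ) : ℤ)) : ℤ) : ℝ)
      rw [Int.cast_neg, Int.cast_natCast]
      linarith
  · obtain ⟨h1, h2⟩ := hu
    obtain ⟨h3, h4⟩ := hv
    rw [negSucc_cast] at h1 h2 h3 h4
    have h1' : (-u) * S ≤ ((a + 1 : ℕ) : ℝ) := by linarith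
    have h2' : ((b + 1 : ℕ) : ℝ) ≤ (-u) * S := by linarith
    have h3' : (-v) * S ≤ ((c + 1 : ℕ) : ℝ) := by linarith
    have h4' : ((d + 1 : ℕ) : ℝ) ≤ (-v) * S := by linarith
    have e1 := nn_lo hS h2' h4'
    have e2 := nn_hi hS (nonneg_of_mul_S hS h2') (nonneg_of_mul_S hS h4') h1' h3'
    constructor
    · show (((b + 1) * (d + 1) / S : ℕ) : ℝ) ≤ _
      linarith
    · show _ ≤ ((((a + 1) * (c + 1) / S + 1 : ℕ)) : ℝ)
      linarith

theorem mem_min (hu : I.mem S u) (hv : J.mem S v) : (min' I J).mem S (min u v) := by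
  obtain ⟨h1, h2⟩ := hu
  obtain ⟨h3, h4⟩ := hv
  have hS : (0 : ℝ) ≤ (S : ℝ) := Nat.cast_nonneg S
  have e : min u v * (S : ℝ) = min (u * S) (v * S) := min_mul_of_nonneg u v hS
  refine ⟨?_, ?_⟩ <;> simp only [min', zmin_eq, Int.cast_min, e]
  · exact min_le_min h1 h3
  · exact min_le_min h2 h4

theorem mem_max (hu : I.mem S u) (hv : J.mem S v) : (max' I J).mem S (max u v) := by
  obtain ⟨h1, h2⟩ := hu
  obtain ⟨h3, h4⟩ := hv
  have hS : (0 : ℝ) ≤ (S : ℝ) := Nat.cast_nonneg S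
  have e : max u v * (S : ℝ) = max (u * S) (v * S) := max_mul_of_nonneg u v hS
  refine ⟨?_, ?_⟩ <;> simp only [max', zmax_eq, Int.cast_max, e]
  · exact max_le_max h1 h3
  · exact max_le_max h2 h4

theorem mem_inter (hu : I.mem S u) (hv : J.mem S u) : (inter I J).mem S u := by
  obtain ⟨h1, h2⟩ := hu
  obtain ⟨h3, h4⟩ := hv
  refine ⟨?_, ?_⟩
  · simp only [inter, zmax_eq, Int.cast_max]; exact max_le h1 h3
  · simp only [inter, zmin_eq, Int.cast_min]; exact le_min h2 h4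

theorem mem_abs (hu : I.mem S u) : (abs' I).mem S |u| := by
  have hS : (0 : ℝ) ≤ (S : ℝ) := Nat.cast_nonneg S
  obtain ⟨h1, h2⟩ := hu
  have e : |u| * (S : ℝ) = |u * S| := by rw [abs_mul, abs_of_nonneg hS]
  unfold abs'
  cases hb : ble 0 I.lo
  · cases hb2 : ble I.hi 0
    · simp only [cond_false, Iv.mem, zmax_eq, Int.cast_max, Int.cast_neg, Int.cast_zero, e]
      refine ⟨abs_nonneg _, ?_⟩
      rw [abs_le']
      exact ⟨h2.trans (le_max_right _ _), (neg_le_neg h1).trans (le_max_left _ _)⟩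
    · rw [ble_iff] at hb2
      have h0 : (I.hi : ℝ) ≤ 0 := by exact_mod_cast hb2
      have h3 : u * S ≤ 0 := h2.trans h0
      simp only [cond_false, cond_true, Iv.mem, neg, Int.cast_neg, e, abs_of_nonpos h3]
      exact ⟨neg_le_neg h2, neg_le_neg h1⟩
  · rw [ble_iff] at hb
    have h0 : (0 : ℝ) ≤ (I.lo : ℝ) := by exact_mod_cast hb
    have h3 : 0 ≤ u * S := h0.trans h1
    simp only [cond_true, Iv.mem, e, abs_of_nonneg h3]
    exact ⟨h1, h2⟩

theorem abs_lo_nonneg (I : Iv) : 0 ≤ (abs' I).lo := by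
  unfold abs'
  cases hb : ble 0 I.lo
  · cases hb2 : ble I.hi 0
    · simp
    · rw [ble_iff] at hb2
      simp [neg, hb2]
  · rw [ble_iff] at hb
    simp [hb]

theorem mem_sqr (hS : 0 < S) (hu : I.mem S u) : (sqr S I).mem S (u ^ 2) := by
  have hS' : (0 : ℝ) < (S : ℝ) := by exact_mod_cast hS
  have ha := mem_abs hu
  have h0 := abs_lo_nonneg I
  obtain ⟨h1, h2⟩ := ha
  have h0' : (0 : ℝ) ≤ ((abs' I).lo : ℝ) := by exact_mod_cast h0
  have e : u ^ 2 * S * S = (|u| * S) * (|u| * S) := by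
    rw [← sq_abs]; ring
  have hp : 0 ≤ |u| * S := by positivity
  constructor
  · have e1 := fd_le ((abs' I).lo * (abs' I).lo) hS
    have e2 : (((abs' I).lo * (abs' I).lo : ℤ) : ℝ) ≤ u ^ 2 * S * S := by
      rw [e]; push_cast
      exact mul_le_mul h1 h1 h0' hp
    exact le_of_mul_le_mul_right (e1.trans e2) hS'
  · have e1 := le_cd ((abs' I).hi * (abs' I).hi) hS
    have e2 : u ^ 2 * S * S ≤ (((abs' I).hi * (abs' I).hi : ℤ) : ℝ) := by
      rw [e]; push_cast
      exact mul_le_mul h2 h2 hp (hp.trans h2)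
    exact le_of_mul_le_mul_right (e2.trans e1) hS'

theorem mem_const (n : ℤ) {d : ℕ} (hd : 0 < d) : (const S n d).mem S ((n : ℝ) / (d : ℝ)) := by
  have hd' : (0 : ℝ) < (d : ℝ) := by exact_mod_cast hd
  have e : (n : ℝ) / (d : ℝ) * (S : ℝ) * d = ((n * Int.ofNat S : ℤ) : ℝ) := by
    simp only [Int.ofNat_eq_natCast]
    push_cast
    field_simp
  constructor
  · have e1 := fd_le (n * Int.ofNat S) hd
    rw [← e] at e1
    exact le_of_mul_le_mul_right e1 hd'
  · have e1 := le_cd (n * Int.ofNat S) hd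
    rw [← e] at e1
    exact le_of_mul_le_mul_right e1 hd'

/-- bounds of the inverse on the positive side -/
theorem inv_pos_aux {a b : ℤ} {x s : ℝ} (hs : 0 < s) (ha : 0 < a) (h1 : (a : ℝ) ≤ x * s)
    (h2 : x * s ≤ b) : s * s / b ≤ x⁻¹ * s ∧ x⁻¹ * s ≤ s * s / a := by
  have ha' : (0 : ℝ) < (a : ℝ) := by exact_mod_cast ha
  have hxs : 0 < x * s := lt_of_lt_of_le ha' h1
  have hx : 0 < x := pos_of_mul_pos_left hxs hs.le
  have e : x⁻¹ * s = s * s / (x * s) := by field_simp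
  rw [e]
  constructor
  · exact div_le_div_of_nonneg_left (by positivity) hxs h2
  · exact div_le_div_of_nonneg_left (by positivity) ha' h1

theorem mem_inv (hS : 0 < S) (hu : I.mem S u) (h : inv S I = some J) : J.mem S u⁻¹ ∧ u ≠ 0 := by
  have hS' : (0 : ℝ) < (S : ℝ) := by exact_mod_cast hS
  rcases I with ⟨a | a, b | b⟩
  · rcases a with _ | a
    · simp [inv] at h
    · simp only [inv, Option.some.injEq] at h
      subst h
      obtain ⟨h1, h2⟩ := hu
      simp only [Int.ofNat_eq_natCast] at h1 h2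
      have ha : (0 : ℤ) < ((a + 1 : ℕ) : ℤ) := by omega
      have hb := inv_pos_aux hS' ha h1 h2
      have ha' : (0 : ℝ) < (((a + 1 : ℕ) : ℤ) : ℝ) := by exact_mod_cast ha
      have hxs : 0 < u * S := lt_of_lt_of_le ha' h1
      have hx : 0 < u := pos_of_mul_pos_left hxs hS'.le
      refine ⟨⟨?_, ?_⟩, hx.ne'⟩
      · have hb0 : 0 < b := by
          have : (0 : ℝ) < ((b : ℤ) : ℝ) := lt_of_lt_of_le hxs h2
          exact_mod_cast this
        have e1 := fd_le (Int.ofNat (S * S)) hb0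
        have hb' : (0 : ℝ) < (b : ℝ) := by exact_mod_cast hb0
        have e2 : ((fd (Int.ofNat (S * S)) b : ℤ) : ℝ) ≤ S * S / b := by
          rw [le_div_iff₀ hb']
          refine e1.trans (le_of_eq ?_)
          simp
        exact e2.trans (by simpa using hb.1)
      · have e1 := le_cd (Int.ofNat (S * S)) (Nat.succ_pos a)
        have hb' : (0 : ℝ) < ((a + 1 : ℕ) : ℝ) := by positivity
        have e2 : (S : ℝ) * S / ((a + 1 : ℕ) : ℝ) ≤ ((cd (Int.ofNat (S * S)) (a + 1) : ℤ) : ℝ) := by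
          rw [div_le_iff₀ hb']
          refine le_trans (le_of_eq ?_) e1
          simp
        refine le_trans ?_ e2
        have := hb.2
        simpa using this
  · simp [inv] at h
  · simp [inv] at h
  · simp only [inv, Option.some.injEq] at h
    subst h
    obtain ⟨h1, h2⟩ := hu
    have hb0 : (0 : ℤ) < ((b + 1 : ℕ) : ℤ) := by omega
    have h1' : ((((b + 1 : ℕ) : ℤ)) : ℝ) ≤ (-u) * S := by
      have e : ((Int.negSucc b : ℤ) : ℝ) = -(((b + 1 : ℕ) : ℤ) : ℝ) := by
        rw [Int.negSucc_eq]; push_cast; ring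
      rw [e] at h2
      linarith
    have h2' : (-u) * S ≤ ((((a + 1 : ℕ) : ℤ)) : ℝ) := by
      have e : ((Int.negSucc a : ℤ) : ℝ) = -(((a + 1 : ℕ) : ℤ) : ℝ) := by
        rw [Int.negSucc_eq]; push_cast; ring
      rw [e] at h1
      linarith
    have hb := inv_pos_aux hS' hb0 h1' h2'
    have hb' : (0 : ℝ) < (((b + 1 : ℕ) : ℤ) : ℝ) := by exact_mod_cast hb0
    have hxs : 0 < (-u) * S := lt_of_lt_of_le hb' h1'
    have hx : 0 < -u := pos_of_mul_pos_left hxs hS'.le
    have hne : u ≠ 0 := by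
      intro h0; rw [h0] at hx; simp at hx
    rw [inv_neg] at hb
    refine ⟨⟨?_, ?_⟩, hne⟩
    · have e1 := fd_le (-Int.ofNat (S * S)) (Nat.succ_pos b)
      have hb' : (0 : ℝ) < ((b + 1 : ℕ) : ℝ) := by positivity
      have e2 : ((fd (-Int.ofNat (S * S)) (b + 1) : ℤ) : ℝ) ≤ -((S : ℝ) * S / ((b + 1 : ℕ) : ℝ)) := by
        rw [← neg_div, le_div_iff₀ hb']
        refine e1.trans (le_of_eq ?_)
        simp
      refine e2.trans ?_
      have h3 := hb.2
      simp only [Int.cast_natCast] at h3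
      linarith
    · have e1 := le_cd (-Int.ofNat (S * S)) (Nat.succ_pos a)
      have hb' : (0 : ℝ) < ((a + 1 : ℕ) : ℝ) := by positivity
      have e2 : -((S : ℝ) * S / ((a + 1 : ℕ) : ℝ)) ≤ ((cd (-Int.ofNat (S * S)) (a + 1) : ℤ) : ℝ) := by
        rw [← neg_div, div_le_iff₀ hb']
        refine le_trans (le_of_eq ?_) e1
        simp
      refine le_trans ?_ e2
      have h3 := hb.1
      simp only [Int.cast_natCast] at h3
      linarith

/-- widening to a larger interval -/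
theorem mem_of_le {a b : ℤ} (h : I.mem S u) (h1 : a ≤ I.lo) (h2 : I.hi ≤ b) :
    (Iv.mk a b).mem S u := by
  have h1' : (a : ℝ) ≤ (I.lo : ℝ) := by exact_mod_cast h1
  have h2' : (I.hi : ℝ) ≤ (b : ℝ) := by exact_mod_cast h2
  exact ⟨h1'.trans h.1, h.2.trans h2'⟩

theorem mem_conv {w : ℝ} (hu : I.mem S u) (hw : I.mem S w) (h1 : u ≤ v) (h2 : v ≤ w) :
    I.mem S v := by
  have hS : (0 : ℝ) ≤ (S : ℝ) := Nat.cast_nonneg S
  exact ⟨hu.1.trans (mul_le_mul_of_nonneg_right h1 hS), (mul_le_mul_of_nonneg_right h2 hS).trans hw.2⟩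

/-- division by a positive integer -/
def divN (I : Iv) (d : ℕ) : Iv := ⟨fd I.lo d, cd I.hi d⟩

theorem mem_divN {d : ℕ} (hd : 0 < d) (h : I.mem S u) : (divN I d).mem S (u / d) := by
  have hd' : (0 : ℝ) < (d : ℝ) := by exact_mod_cast hd
  constructor
  · have e1 := fd_le I.lo hd
    have e2 : u / d * S * d = u * S := by field_simp
    refine le_of_mul_le_mul_right ?_ hd'
    rw [e2]
    exact e1.trans h.1
  · have e1 := le_cd I.hi hd
    have e2 : u / d * S * d = u * S := by field_simp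
    refine le_of_mul_le_mul_right ?_ hd'
    rw [e2]
    exact h.2.trans e1

/-- the number one -/
def one (S : ℕ) : Iv := ⟨Int.ofNat S, Int.ofNat S⟩

theorem mem_one : (one S).mem S 1 := by
  constructor <;> simp [one]

end Iv

end Crest.Agent.R146.Iv_261
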