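import Crest.Agent.R146.Stat9_307

/-!
# Row 146: explicit bounds of `k` for every stationary pair

`k_le_sup`, `k_le`, `k_le_right`, `k_le_left`, `tendsto_k_top`, `tendsto_k_bot`.
-/

namespace Crest.Agent.R146.KBd_307

open Set Filter Topology Metric
open Stat1_307 Stat2_307 Stat4_307 SPair_307 Stat7_307 Stat8_307
open scoped NNReal

variable {c : ℝ} {W V I k : ℝ → ℝ} {lam : ℝ}

lemma tendsto_k_top (h : SPair c W V I k lam) : Tendsto k atTop (𝓝 0) := by
  obtain ⟨C, hC⟩ := h.k_right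
  have h1 : Tendsto (fun x : ℝ => C / x) atTop (𝓝 0) := tendsto_const_nhds.div_atTop tendsto_id
  refine tendsto_of_tendsto_of_tendsto_of_le_of_le' tendsto_const_nhds h1
    (Eventually.of_forall fun x => (h.k_pos x).le) ?_
  filter_upwards [eventually_gt_atTop 0] with x hx using hC x hx

lemma tendsto_k_bot (h : SPair c W V I k lam) : Tendsto k atBot (𝓝 0) := by
  obtain ⟨C, hC⟩ := h.k_left
  have h1 : Tendsto (fun x : ℝ => C / (-x)) atBot (𝓝 0) :=
    tendsto_const_nhds.div_atTop tendsto_neg_atBot_atTop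
  refine tendsto_of_tendsto_of_tendsto_of_le_of_le' tendsto_const_nhds h1
    (Eventually.of_forall fun x => (h.k_pos x).le) ?_
  filter_upwards [eventually_lt_atBot 0] with x hx using hC x hx

lemma Ad1_gt (h : SPair c W V I k lam) (x : ℝ) : (1 - c) / 2 < Ad1 c V x := by
  have h1 := h.V_pos x
  have h2 := h.c_pos
  unfold Ad1
  nlinarith [mul_pos h2 h1]

lemma Ad1_lt (h : SPair c W V I k lam) (x : ℝ) : Ad1 c V x < (1 + c) / 2 := by
  have h1 := h.V_lt x
  have h2 := h.c_pos
  unfold Ad1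
  nlinarith [mul_pos h2 (sub_pos.2 h1)]

/-- sup bound of `k` -/
theorem k_le_sup (h : SPair c W V I k lam) (x : ℝ) : k x ≤ c * (1 + c) / (1 - c) := by
  have hc := h.c_pos
  have hc1 := h.c_lt
  have hev : ∀ᶠ y in cocompact ℝ, k y ≤ k 0 := by
    rw [cocompact_eq_atBot_atTop, eventually_sup]
    exact ⟨((tendsto_k_bot h).eventually_lt_const (h.k_pos 0)).mono fun y hy => hy.le,
      ((tendsto_k_top h).eventually_lt_const (h.k_pos 0)).mono fun y hy => hy.le⟩
  obtain ⟨x0, hx0⟩ := h.ck.exists_forall_ge' 0 hev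
  refine (hx0 x).trans ?_
  obtain ⟨h1, h2⟩ := second_deriv_nonpos (g := k)
    (g1 := fun x => k x ^ 2 + 2 * Ad c W x * k x - 2 * Ad1 c V x + 2 * lam) (a := x0 - 1)
    (b := x0 + 1) ⟨by linarith, by linarith⟩ (fun t _ => h.dk t) (h.dk1 x0) (fun t _ => hx0 t)
  rw [h1, mul_zero, zero_add] at h2
  have h3 := Ad1_gt h x0
  have h4 := h.I_le x0
  have h5 := W0_le h
  have h6 := h.k_pos x0
  rw [le_div_iff₀ (by linarith)]
  have h7 : k x0 * ((1 - c) / 2) ≤ k x0 * Ad1 c V x0 := mul_le_mul_of_nonneg_left h3.le h6.le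
  have h8 : c * I x0 ≤ c * ((1 + c) * (1 / 2)) := by
    apply mul_le_mul_of_nonneg_left _ hc.le
    exact h4.trans (mul_le_mul_of_nonneg_left h5 (by linarith))
  linarith

theorem k_le (h : SPair c W V I k lam) {a : ℝ} (ha : 0 < a) (hca : a ≤ 1 - c) (x : ℝ) :
    k x ≤ 2 / a := by
  refine (k_le_sup h x).trans ?_
  have hc := h.c_pos
  have hc1 := h.c_lt
  rw [div_le_div_iff₀ (by linarith) ha]
  have h1 : c * (1 + c) ≤ 2 := by nlinarith
  have h2 := mul_le_mul_of_nonneg_right h1 ha.le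
  linarith

/-- right tail of `k` -/
theorem k_le_right (h : SPair c W V I k lam) {x : ℝ} (hx : 0 < x) : k x ≤ 1 / x := by
  have hc := h.c_pos
  by_contra hcon
  push Not at hcon
  have hg0 : 0 < k x - 1 / x := by linarith
  have hlim : Tendsto (fun y : ℝ => k y - 1 / y) atTop (𝓝 (0 - 0)) :=
    (tendsto_k_top h).sub (tendsto_const_nhds.div_atTop tendsto_id)
  rw [sub_zero] at hlim
  obtain ⟨X, hX1, hX2⟩ := ((hlim.eventually_lt_const hg0).and (eventually_gt_atTop x)).exists
  have hcD : ContinuousOn (fun y : ℝ => k y - 1 / y) (Icc x X) := by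
    apply ContinuousOn.sub h.ck.continuousOn
    apply ContinuousOn.div continuousOn_const continuousOn_id
    intro s hs
    have := hs.1
    show s ≠ 0
    linarith
  obtain ⟨z, hz, hmax⟩ := isCompact_Icc.exists_isMaxOn ⟨x, le_rfl, hX2.le⟩ hcD
  have hmax' : ∀ s ∈ Icc x X, k s - 1 / s ≤ k z - 1 / z := fun s hs => hmax hs
  have hz0 : 0 < z := by linarith [hz.1]
  have h1 := hmax' x ⟨le_rfl, hX2.le⟩
  have hzX : z < X := by
    rcases eq_or_lt_of_le hz.2 with h' | h'
    · rw [h'] at h1; linarith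
    · exact h'
  have hder : HasDerivAt (fun y => k y - 1 / y)
      (k z ^ 2 + 2 * Ad c W z * k z - 2 * Ad1 c V z + 2 * lam - (-(z ^ 2)⁻¹)) z := by
    have h2 : HasDerivAt (fun y : ℝ => 1 / y) (-(z ^ 2)⁻¹) z := by
      simpa using hasDerivAt_inv hz0.ne'
    exact (h.dk z).sub h2
  have h2 := deriv_nonpos_right hzX hder (fun s hs => hmax' s ⟨by linarith [hz.1, hs.1], hs.2⟩)
  have h3 : 1 / z < k z := by linarith
  rw [div_lt_iff₀ hz0] at h3
  have h4 := Ad1_lt h z
  have h5 := h.lam_gt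
  have h6 := h.U_pos z
  have h7 : (1 + c) * z ≤ 2 * Ad c W z := by
    unfold Ad; nlinarith [mul_pos hc (sub_pos.2 h6)]
  have h8 := h.k_pos z
  have h9 : 0 < (z ^ 2)⁻¹ := by positivity
  have h10 : (1 + c) * z * k z ≤ 2 * Ad c W z * k z := mul_le_mul_of_nonneg_right h7 h8.le
  have h11 : 1 + c < (1 + c) * z * k z := by nlinarith
  nlinarith [h.c_lt, sq_nonneg (k z)]

lemma W_half (h : SPair c W V I k lam) {x : ℝ} (hx : x ≤ 0) : W x ≤ 1 / 2 :=
  (h.W_strictMono.monotone hx).trans (W0_le h)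

/-- left tail of `k` -/
theorem k_le_left (h : SPair c W V I k lam) {a : ℝ} (ha : 0 < a) (hca : a ≤ 1 - c) {x : ℝ}
    (hx : x < 0) : k x ≤ 12 / a ^ 3 / (-x) := by
  have hc := h.c_pos
  have ha1 : a < 1 := by linarith
  have hnx : 0 < -x := by linarith
  have hbd := k_le h ha hca
  have e1 : 2 / a * (6 / a ^ 2) = 12 / a ^ 3 := by field_simp; norm_num
  rcases lt_or_ge (-(6 / a ^ 2)) x with hxZ | hxZ
  · rw [le_div_iff₀ hnx, ← e1]
    have h1 := hbd x
    have h2 := h.k_pos x
    exact mul_le_mul h1 (by linarith) hnx.le (by positivity)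
  by_contra hcon
  push Not at hcon
  set C := 12 / a ^ 3 with hC
  have hC0 : 0 < C := by positivity
  have hCa : 4 ≤ C * a := by
    rw [hC]
    have : 12 / a ^ 3 * a = 12 / a ^ 2 := by field_simp
    rw [this, le_div_iff₀ (by positivity)]
    nlinarith
  have hg0 : 0 < k x - C / (-x) := by linarith
  have hlim : Tendsto (fun y : ℝ => k y - C / (-y)) atBot (𝓝 (0 - 0)) :=
    (tendsto_k_bot h).sub (tendsto_const_nhds.div_atTop tendsto_neg_atBot_atTop)
  rw [sub_zero] at hlim
  obtain ⟨X, hX1, hX2⟩ := ((hlim.eventually_lt_const hg0).and (eventually_lt_atBot x)).exists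
  have hcD : ContinuousOn (fun y : ℝ => k y - C / (-y)) (Icc X x) := by
    apply ContinuousOn.sub h.ck.continuousOn
    apply ContinuousOn.div continuousOn_const continuousOn_id.neg
    intro s hs
    have := hs.2
    show -s ≠ 0
    linarith
  obtain ⟨z, hz, hmax⟩ := isCompact_Icc.exists_isMaxOn ⟨x, hX2.le, le_rfl⟩ hcD
  have hmax' : ∀ s ∈ Icc X x, k s - C / (-s) ≤ k z - C / (-z) := fun s hs => hmax hs
  have hz0 : z < 0 := by linarith [hz.2]
  have h1 := hmax' x ⟨hX2.le, le_rfl⟩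
  have hzX : X < z := by
    rcases eq_or_lt_of_le hz.1 with h' | h'
    · rw [← h'] at h1; linarith
    · exact h'
  have hder : HasDerivAt (fun y => k y - C / (-y))
      (k z ^ 2 + 2 * Ad c W z * k z - 2 * Ad1 c V z + 2 * lam - C / z ^ 2) z := by
    have h2 : HasDerivAt (fun t : ℝ => C / (-t)) (C / z ^ 2) z := by
      have h3 := ((hasDerivAt_id z).neg.inv (by simpa using hz0.ne)).const_mul C
      refine h3.congr_deriv ?_
      simp only [Pi.neg_apply, id]
      field_simp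
    exact (h.dk z).sub h2
  have h2 := deriv_nonneg_left hzX hder (fun s hs => hmax' s ⟨hs.1, by linarith [hz.2, hs.2]⟩)
  have hnz : 0 < -z := by linarith
  have h3 : C / (-z) < k z := by linarith
  rw [div_lt_iff₀ hnz] at h3
  have h4 := Ad1_gt h z
  have h5 := h.lam_lt
  have h6 := W_half h hz0.le
  have h7 := h.k_pos z
  have h8 := hbd z
  have hzZ : z ≤ -(6 / a ^ 2) := hz.2.trans hxZ
  have h9 : 0 < C / z ^ 2 := div_pos hC0 (sq_pos_of_neg hz0)
  -- `k + 2A ≤ a z / 2`
  have h10 : k z + 2 * Ad c W z ≤ a / 2 * z := by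
    have h11 : 2 * Ad c W z = (1 - c) * z + 2 * c * W z := by unfold Ad; ring
    have h12 : a * (6 / a ^ 2) = 6 / a := by field_simp
    have h13 : 6 / a ≤ a * (-z) := by rw [← h12]; exact mul_le_mul_of_nonneg_left (by linarith) ha.le
    have h14 : 2 / a + 1 ≤ 6 / a / 2 := by
      rw [← sub_nonneg]
      have : 6 / a / 2 - (2 / a + 1) = (1 - a) / a := by field_simp; ring
      rw [this]
      exact div_nonneg (by linarith) ha.le
    have h15 : (1 - c) * z ≤ a * z := by nlinarith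
    have h16 : 2 * c * W z ≤ 1 := by nlinarith [h.W_pos z, h.c_lt]
    rw [h11]
    linarith
  have h17 : k z * (k z + 2 * Ad c W z) ≤ k z * (a / 2 * z) := mul_le_mul_of_nonneg_left h10 h7.le
  have h18 : k z * (a / 2 * z) = -(k z * -z * (a / 2)) := by ring
  have h19 : C * (a / 2) < k z * -z * (a / 2) := mul_lt_mul_of_pos_right h3 (by linarith)
  nlinarith [h.c_lt]

end Crest.Agent.R146.KBd_307
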