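import Crest.Agent.R146.KShift_277
import Crest.Agent.R146.PtNum_846
import Crest.Agent.R146.EqEta_889

/-!
Row 146, NUMREF C3 (helper277): for the exact integral positions `Pp, Pm` of `PtNum_846`
(`b = C1D_445.b`):  `Pos δ W V x z → |k z - k x| ≤ δ/10`.
-/

set_option autoImplicit false
set_option linter.unusedSimpArgs false

namespace Crest.Agent.R146.KPos_277

open Set Filter Topology MeasureTheory
open Crest.Agent.R146.PP865 Crest.Agent.R146.EncR_848
open Crest.Agent.R146.SPair_307 Crest.Agent.R146.PtNum_846 Crest.Agent.R146.KShift_277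
open Crest.Agent.R146.Enc3_848
open Crest.Agent.R146.C1D_445 (b b1 b2 P0 PS adj_PS hb b_left b_right bL bR)

variable {c lam : ℝ} {W V I k : ℝ → ℝ}

/-! ### bounds of `b` -/

theorem cb1 : chkBoxR 36 4 21 (-64) 64 [] (.cst 78643 16 - .var 19) P0 PS = true := by
  decide +kernel
theorem cb2 : chkBoxR 36 4 21 (-17) 64 [] (.cst 742 10 - .var 19) P0 PS = true := by
  decide +kernel
theorem cb3 : chkBoxR 36 4 21 (-9) 64 [] (.cst 503 10 - .var 19) P0 PS = true := by
  decide +kernel
theorem cb0 : chkBoxR 36 4 21 (-64) 64 [] (.var 19 - .cst 1 3) P0 PS = true := by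
  decide +kernel

lemma loP : P0.lo = -8 := by
  have h1 : P0.c = -63 := rfl
  have h2 : P0.j = 3 := rfl
  unfold Pc.lo
  rw [h1, h2]
  norm_num

lemma hiP : hiL P0 PS = 8 := by
  rw [Enc1_848.hiL_eq]
  have h1 : (Enc1_848.lastP P0 PS).c = 63 := by decide +kernel
  have h2 : (Enc1_848.lastP P0 PS).j = 3 := by decide +kernel
  unfold Pc.hi
  rw [h1, h2]
  norm_num

lemma chkb {n : ℕ} {a a' : ℤ} {e : Ex} (h : chkBoxR 36 n 21 a a' [] e P0 PS = true) {z : ℝ}
    (h1 : -8 ≤ z) (h2 : z ≤ 8) (ha : (a : ℝ) / 8 ≤ z) (hb : z ≤ (a' : ℝ) / 8) :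
    0 < e.evR (cv 36 P0 PS z) :=
  chkBoxR_sound adj_PS h (by rw [loP]; exact h1) (by rw [hiP]; exact h2) ha hb
    (fun _ _ => rfl) (by simp)

lemma cv19 (z : ℝ) : cv 36 P0 PS z 19 = b z := rfl

theorem b_pos (x : ℝ) : 1 / 8 < b x := by
  rcases le_total x (-8) with h0 | h0
  · rw [b_left (by linarith)]; unfold bL; norm_num
  · rcases le_total x 8 with h1 | h1
    · have := chkb cb0 h0 h1 (by norm_num; linarith) (by norm_num; linarith)
      simp only [Ex.evR_sub, Ex.evR_cst, Ex.evR_var, cv19] at this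
      norm_num at this
      linarith
    · rw [b_right (by linarith)]; unfold bR; norm_num

theorem b_le (x : ℝ) : b x ≤ 6 / 5 := by
  rcases le_total x (-8) with h0 | h0
  · rw [b_left (by linarith)]; unfold bL; norm_num
  · rcases le_total x 8 with h1 | h1
    · have := chkb cb1 h0 h1 (by norm_num; linarith) (by norm_num; linarith)
      simp only [Ex.evR_sub, Ex.evR_cst, Ex.evR_var, cv19] at this
      norm_num at this
      linarith
    · rw [b_right (by linarith)]; unfold bR; norm_num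

theorem b_le2 {x : ℝ} (hx : -(17 / 8) ≤ x) : b x ≤ 0.725 := by
  rcases le_total x 8 with h1 | h1
  · have := chkb cb2 (by linarith) h1 (by norm_num; linarith) (by norm_num; linarith)
    simp only [Ex.evR_sub, Ex.evR_cst, Ex.evR_var, cv19] at this
    norm_num at this ⊢
    linarith
  · rw [b_right (by linarith)]; unfold bR; norm_num

theorem b_le3 {x : ℝ} (hx : -(9 / 8) ≤ x) : b x ≤ 0.4915 := by
  rcases le_total x 8 with h1 | h1
  · have := chkb cb3 (by linarith) h1 (by norm_num; linarith) (by norm_num; linarith)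
    simp only [Ex.evR_sub, Ex.evR_cst, Ex.evR_var, cv19] at this
    norm_num at this ⊢
    linarith
  · rw [b_right (by linarith)]; unfold bR; norm_num

lemma b_cont : Continuous b := continuous_iff_continuousAt.2 fun x => (hb x).continuousAt

/-! ### integrals -/

lemma W_bot (h : SPair c W V I k lam) : Tendsto W atBot (𝓝 0) := EqEta_889.W_bot h

lemma int_V (h : SPair c W V I k lam) (x y : ℝ) : ∫ t in x..y, V t = W y - W x :=
  intervalIntegral.integral_eq_sub_of_hasDerivAt (fun t _ => h.dW t)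
    (h.cV.intervalIntegrable _ _)

lemma intOn_V (h : SPair c W V I k lam) (x : ℝ) : IntegrableOn V (Iic x) := by
  refine integrableOn_Iic_of_intervalIntegral_norm_tendsto (W x) x (l := atBot) (a := id)
    (fun i => h.cV.continuousOn.integrableOn_Icc.mono_set Ioc_subset_Icc_self) tendsto_id ?_
  have h1 : (fun i : ℝ => ∫ t in (id i)..x, ‖V t‖) = fun i => W x - W i := by
    funext i
    have : (fun t => ‖V t‖) = V := by
      funext t
      rw [Real.norm_eq_abs, abs_of_pos (h.V_pos t)]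
    rw [this]
    exact int_V h i x
  rw [h1]
  simpa using (W_bot h).const_sub (W x)

lemma int_V_Iic (h : SPair c W V I k lam) (x : ℝ) : ∫ t in Iic x, V t = W x := by
  rw [integral_Iic_of_hasDerivAt_of_tendsto' (fun t _ => h.dW t) (intOn_V h x) (W_bot h), sub_zero]

section pos

variable {δ : ℝ}

lemma den_pos (h0 : 0 ≤ δ) (h1 : δ ≤ 0.41574) (t : ℝ) : 0 < 1 - δ * b t := by
  have := b_le t
  have := b_pos t
  nlinarith

lemma cont_p (h : SPair c W V I k lam) (h0 : 0 ≤ δ) (h1 : δ ≤ 0.41574) :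
    Continuous fun t => V t / (1 - δ * b t) :=
  h.cV.div₀ (continuous_const.sub (continuous_const.mul b_cont)) fun t => (den_pos h0 h1 t).ne'

lemma cont_m (h : SPair c W V I k lam) (h0 : 0 ≤ δ) :
    Continuous fun t => V t / (1 + δ * b t) :=
  h.cV.div₀ (continuous_const.add (continuous_const.mul b_cont)) fun t => by
    have := b_pos t
    positivity

lemma p_le (h : SPair c W V I k lam) (h0 : 0 ≤ δ) {β t : ℝ} (hβ : b t ≤ β)
    (hβ1 : δ * β < 1) : V t / (1 - δ * b t) ≤ V t / (1 - δ * β) := by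
  have := h.V_pos t
  apply div_le_div_of_nonneg_left this.le (by linarith)
  nlinarith

lemma le_m (h : SPair c W V I k lam) (h0 : 0 ≤ δ) {β t : ℝ} (hβ : b t ≤ β) :
    V t / (1 + δ * β) ≤ V t / (1 + δ * b t) := by
  have hV := h.V_pos t
  have := b_pos t
  apply div_le_div_of_nonneg_left hV.le (by positivity)
  nlinarith

lemma intOn_p (h : SPair c W V I k lam) (h0 : 0 ≤ δ) (h1 : δ ≤ 0.41574) (x : ℝ) :
    IntegrableOn (fun t => V t / (1 - δ * b t)) (Iic x) := by
  have h2 : IntegrableOn (fun t => V t / (1 - δ * (6 / 5))) (Iic x) := (intOn_V h x).div_const _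
  refine h2.mono' (cont_p h h0 h1).aestronglyMeasurable ?_
  refine ae_of_all _ fun t => ?_
  have h3 := p_le h h0 (b_le t) (by linarith)
  have h4 : 0 ≤ V t / (1 - δ * b t) := div_nonneg (h.V_pos t).le (den_pos h0 h1 t).le
  rwa [Real.norm_eq_abs, abs_of_nonneg h4]

lemma intOn_m (h : SPair c W V I k lam) (h0 : 0 ≤ δ) (x : ℝ) :
    IntegrableOn (fun t => V t / (1 + δ * b t)) (Iic x) := by
  refine (intOn_V h x).mono' (cont_m h h0).aestronglyMeasurable ?_
  refine ae_of_all _ fun t => ?_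
  have hb0 := b_pos t
  have hd : 0 < 1 + δ * b t := by positivity
  have h4 : 0 ≤ V t / (1 + δ * b t) := div_nonneg (h.V_pos t).le hd.le
  rw [Real.norm_eq_abs, abs_of_nonneg h4, div_le_iff₀ hd]
  have := h.V_pos t
  have : 0 ≤ δ * b t := by positivity
  nlinarith

theorem Pp_le (h : SPair c W V I k lam) (h0 : 0 ≤ δ) (h1 : δ ≤ 0.41574) (x : ℝ) :
    Pp δ V x ≤ W x / (1 - 6 / 5 * δ) := by
  have h2 : ∫ t in Iic x, V t / (1 - δ * (6 / 5)) = W x / (1 - 6 / 5 * δ) := by
    rw [integral_div, int_V_Iic h]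
    ring_nf
  rw [← h2]
  exact setIntegral_mono_on (intOn_p h h0 h1 x) ((intOn_V h x).div_const _) measurableSet_Iic
    fun t _ => p_le h h0 (b_le t) (by linarith)

theorem le_Pm (h : SPair c W V I k lam) (h0 : 0 ≤ δ) (x : ℝ) :
    W x / (1 + 6 / 5 * δ) ≤ Pm δ V x := by
  have h2 : ∫ t in Iic x, V t / (1 + δ * (6 / 5)) = W x / (1 + 6 / 5 * δ) := by
    rw [integral_div, int_V_Iic h]
    ring_nf
  rw [← h2]
  exact setIntegral_mono_on ((intOn_V h x).div_const _) (intOn_m h h0 x) measurableSet_Iic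
    fun t _ => le_m h h0 (b_le t)

lemma Pp_step (h : SPair c W V I k lam) (h0 : 0 ≤ δ) (h1 : δ ≤ 0.41574) {x y β : ℝ}
    (hxy : x ≤ y) (hβ : ∀ t, x ≤ t → b t ≤ β) (hβ1 : δ * β < 1) :
    Pp δ V y ≤ Pp δ V x + (W y - W x) / (1 - δ * β) := by
  have h2 := intervalIntegral.integral_Iic_sub_Iic (intOn_p h h0 h1 x) (intOn_p h h0 h1 y)
  have h3 : ∫ t in x..y, V t / (1 - δ * b t) ≤ ∫ t in x..y, V t / (1 - δ * β) :=
    intervalIntegral.integral_mono_on hxy ((cont_p h h0 h1).intervalIntegrable _ _)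
      ((h.cV.div_const _).intervalIntegrable _ _)
      fun t ht => p_le h h0 (hβ t ht.1) hβ1
  rw [intervalIntegral.integral_div, int_V h] at h3
  unfold Pp
  linarith

lemma Pm_step (h : SPair c W V I k lam) (h0 : 0 ≤ δ) {x y β : ℝ}
    (hxy : x ≤ y) (hβ : ∀ t, x ≤ t → b t ≤ β) :
    Pm δ V x + (W y - W x) / (1 + δ * β) ≤ Pm δ V y := by
  have h2 := intervalIntegral.integral_Iic_sub_Iic (intOn_m h h0 x) (intOn_m h h0 y)
  have h3 : ∫ t in x..y, V t / (1 + δ * β) ≤ ∫ t in x..y, V t / (1 + δ * b t) :=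
    intervalIntegral.integral_mono_on hxy ((h.cV.div_const _).intervalIntegrable _ _)
      ((cont_m h h0).intervalIntegrable _ _)
      fun t ht => le_m h h0 (hβ t ht.1)
  rw [intervalIntegral.integral_div, int_V h] at h3
  unfold Pm
  linarith

end pos

/-! ### numbers -/

/-- `W(-17/8) ≤ .0122`, `W(-9/8) ≤ .0797`, `.289 ≤ W(-1/4)` -/
theorem cWa : chkBoxR 36 5 18 (-17) (-17) []
  (.cst 799 16 + .cst 32 10 * .cst 25 5 * (.var 0 + .cst 17 3) + .cst 0 0 - .var 1)
  EncData_848.p0 EncData_848.ps = true := by decide +kernel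
theorem cWb : chkBoxR 36 5 18 (-9) (-9) []
  (.cst 5230 16 + .cst 17 7 * (.var 0 + .cst 9 3) - .var 1)
  EncData_848.p0 EncData_848.ps = true := by decide +kernel
theorem cWc : chkBoxR 36 5 18 (-2) (-2) []
  (.var 1 - (.cst 296 10 + .cst 3 3 * (.var 0 + .cst 1 2)))
  EncData_848.p0 EncData_848.ps = true := by decide +kernel

lemma Wa_le (h : SPair c W V I k c) : W (-(17 / 8)) ≤ 0.0123 := by
  have a1 := Enc1_848.chk (z := -(17 / 8)) (s := 0) (t := 0) cWa (by norm_num) (by norm_num)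
    (by norm_num) (by norm_num) (by simp)
  simp only [Ex.evR_sub, Ex.evR_add, Ex.evR_mul, Ex.evR_cst, Ex.evR_var, Enc1_848.env0,
    Enc1_848.env1] at a1
  have b1 := abs_le.1 ((enc h).W8 (-(17 / 8)) (by norm_num) (by norm_num))
  norm_num at a1 b1 ⊢
  linarith [b1.2]

lemma Wb_le (h : SPair c W V I k c) : W (-(9 / 8)) ≤ 0.0799 := by
  have a1 := Enc1_848.chk (z := -(9 / 8)) (s := 0) (t := 0) cWb (by norm_num) (by norm_num)
    (by norm_num) (by norm_num) (by simp)
  simp only [Ex.evR_sub, Ex.evR_add, Ex.evR_mul, Ex.evR_cst, Ex.evR_var, Enc1_848.env0,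
    Enc1_848.env1] at a1
  have b1 := abs_le.1 ((enc h).W8 (-(9 / 8)) (by norm_num) (by norm_num))
  norm_num at a1 b1 ⊢
  linarith [b1.2]

lemma Wc_ge (h : SPair c W V I k c) {x : ℝ} (hx : -(1 / 4) ≤ x) : 0.289 ≤ W x := by
  have a1 := Enc1_848.chk (z := -(1 / 4)) (s := 0) (t := 0) cWc (by norm_num) (by norm_num)
    (by norm_num) (by norm_num) (by simp)
  simp only [Ex.evR_sub, Ex.evR_add, Ex.evR_mul, Ex.evR_cst, Ex.evR_var, Enc1_848.env0,
    Enc1_848.env1] at a1
  have b1 := abs_le.1 ((enc h).W8 (-(1 / 4)) (by norm_num) (by norm_num))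
  have := h.W_strictMono.monotone hx
  norm_num at a1 b1 this ⊢
  linarith [b1.1]

lemma inv_le {δ β β' : ℝ} (h0 : 0 ≤ δ) (h1 : δ * β < 1) (h2 : β ≤ β' * (1 - δ * β)) {w : ℝ}
    (hw : 0 ≤ w) : w / (1 - δ * β) ≤ w + δ * β' * w := by
  rw [div_le_iff₀ (by linarith)]
  have h3 : 0 ≤ δ * (β' * (1 - δ * β) - β) := mul_nonneg h0 (by linarith)
  have h4 : 0 ≤ w * (δ * (β' * (1 - δ * β) - β)) := mul_nonneg hw h3
  nlinarith

lemma le_inv {δ β : ℝ} (h0 : 0 ≤ δ) (hβ : 0 ≤ β) {w : ℝ}
    (hw : 0 ≤ w) : w - δ * β * w ≤ w / (1 + δ * β) := by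
  rw [le_div_iff₀ (by positivity)]
  have : 0 ≤ w * (δ * β) ^ 2 := by positivity
  nlinarith

theorem Pp_le_right (h : SPair c W V I k c) {δ : ℝ} (h0 : 0 ≤ δ) (h1 : δ ≤ 0.41574) {x : ℝ}
    (hx : -(1 / 4) ≤ x) : Pp δ V x ≤ W x * (1 + 0.795 * δ) := by
  have s1 := Pp_le h h0 h1 (-(17 / 8))
  have s2 := Pp_step h h0 h1 (x := -(17 / 8)) (y := -(9 / 8)) (β := 0.725) (by norm_num)
    (fun t ht => b_le2 ht) (by linarith)
  have s3 := Pp_step h h0 h1 (x := -(9 / 8)) (y := x) (β := 0.4915) (by linarith)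
    (fun t ht => b_le3 ht) (by linarith)
  have w1 := Wa_le h
  have w2 := Wb_le h
  have w3 := Wc_ge h hx
  have w0 := h.W_pos (-(17 / 8))
  have m1 : W (-(17 / 8)) ≤ W (-(9 / 8)) := h.W_strictMono.monotone (by norm_num)
  have m2 : W (-(9 / 8)) ≤ W x := h.W_strictMono.monotone (by linarith)
  have e1 : W (-(17 / 8)) / (1 - 6 / 5 * δ) ≤ W (-(17 / 8)) + δ * 2.3947 * W (-(17 / 8)) := by
    rw [mul_comm (6 / 5 : ℝ) δ]
    exact inv_le h0 (by linarith) (by linarith) w0.le
  have e2 := inv_le (β := 0.725) (β' := 1.0379) h0 (by linarith) (by linarith)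
    (w := W (-(9 / 8)) - W (-(17 / 8))) (by linarith)
  have e3 := inv_le (β := 0.4915) (β' := 0.6178) h0 (by linarith) (by linarith)
    (w := W x - W (-(9 / 8))) (by linarith)
  have key : δ * (0.4201 * W (-(9 / 8)) + 1.3568 * W (-(17 / 8)) + 0.6178 * W x) ≤
      δ * (0.795 * W x) := mul_le_mul_of_nonneg_left (by linarith) h0
  nlinarith

theorem le_Pm_right (h : SPair c W V I k c) {δ : ℝ} (h0 : 0 ≤ δ) {x : ℝ}
    (hx : -(1 / 4) ≤ x) : W x * (1 - 0.58 * δ) ≤ Pm δ V x := by
  have s1 := le_Pm h h0 (-(17 / 8))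
  have s2 := Pm_step h h0 (x := -(17 / 8)) (y := -(9 / 8)) (β := 0.725) (by norm_num)
    (fun t ht => b_le2 ht)
  have s3 := Pm_step h h0 (x := -(9 / 8)) (y := x) (β := 0.4915) (by linarith)
    (fun t ht => b_le3 ht)
  have w1 := Wa_le h
  have w2 := Wb_le h
  have w3 := Wc_ge h hx
  have w0 := h.W_pos (-(17 / 8))
  have m1 : W (-(17 / 8)) ≤ W (-(9 / 8)) := h.W_strictMono.monotone (by norm_num)
  have m2 : W (-(9 / 8)) ≤ W x := h.W_strictMono.monotone (by linarith)
  have e1 : W (-(17 / 8)) - δ * (6 / 5) * W (-(17 / 8)) ≤ W (-(17 / 8)) / (1 + 6 / 5 * δ) := by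
    rw [mul_comm (6 / 5 : ℝ) δ]
    exact le_inv h0 (by norm_num) w0.le
  have e2 := le_inv (β := 0.725) h0 (by norm_num)
    (w := W (-(9 / 8)) - W (-(17 / 8))) (by linarith)
  have e3 := le_inv (β := 0.4915) h0 (by norm_num)
    (w := W x - W (-(9 / 8))) (by linarith)
  have key : δ * (0.2335 * W (-(9 / 8)) + 0.475 * W (-(17 / 8)) + 0.4915 * W x) ≤
      δ * (0.58 * W x) := mul_le_mul_of_nonneg_left (by linarith) h0
  nlinarith

/-- **the number `Z = 1/10`** -/
theorem kz_pos (h : SPair c W V I k c) {δ x z : ℝ} (h0 : 0 < δ) (hδc : δ ≤ c)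
    (hp : Pos δ W V x z) : |k z - k x| ≤ δ / 10 := by
  have E := enc h
  have hc2 : c < 0.41574 := by have := E.c_hi; norm_num at this ⊢; linarith
  obtain ⟨p1, p2⟩ := hp
  rcases le_total x (-(1 / 4)) with hx | hx
  · have := (kz h h0.le hδc (e0 := δ / 1000) (by positivity) le_rfl (le_Pm h h0.le x)
      (Pp_le h h0.le (by linarith) x) p1 p2).2 hx
    linarith
  · have q1 := Pp_le_right h h0.le (by linarith) hx
    have q2 := le_Pm_right h h0.le hx
    have hW := h.W_pos x
    have hz := h.W_pos z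
    refine (k_shift h x z).trans ?_
    have hq : 0 < W z / W x := div_pos hz hW
    have up : W z / W x ≤ (1 + δ / 1000) * (1 + 0.795 * δ) := by
      rw [div_le_iff₀ hW]
      calc W z ≤ (1 + δ / 1000) * Pp δ V x := p2
        _ ≤ (1 + δ / 1000) * (W x * (1 + 0.795 * δ)) :=
            mul_le_mul_of_nonneg_left q1 (by positivity)
        _ = _ := by ring
    have lo : (1 - δ / 1000) * (1 - 0.58 * δ) ≤ W z / W x := by
      rw [le_div_iff₀ hW]
      calc (1 - δ / 1000) * (1 - 0.58 * δ) * W x = (1 - δ / 1000) * (W x * (1 - 0.58 * δ)) := by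
            ring
        _ ≤ (1 - δ / 1000) * Pm δ V x := mul_le_mul_of_nonneg_left q2 (by linarith)
        _ ≤ _ := p1
    have hlog : |Real.log (W z / W x)| ≤ 0.8 * δ := by
      rw [abs_le]
      constructor
      · have h3 : 0 < (1 - δ / 1000) * (1 - 0.58 * δ) := mul_pos (by linarith) (by linarith)
        have h4 := Real.log_le_log h3 lo
        rw [Real.log_mul (by linarith) (by linarith)] at h4
        have h5 := neg_log_le (t := δ / 1000) (by positivity) (by linarith)
        have h6 : -Real.log (1 - 0.58 * δ) ≤ 0.77 * δ := by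
          have h7 : 0 < 1 - 0.58 * δ := by linarith
          have h8 := Real.log_le_sub_one_of_pos (inv_pos.2 h7)
          rw [Real.log_inv] at h8
          refine h8.trans ?_
          rw [sub_le_iff_le_add, inv_le_comm₀ h7 (by positivity), ← one_div,
            div_le_iff₀ (by positivity)]
          nlinarith
        linarith
      · have h4 := Real.log_le_log hq up
        rw [Real.log_mul (by positivity) (by positivity)] at h4
        have h5 := Real.log_le_sub_one_of_pos (show 0 < 1 + δ / 1000 by positivity)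
        have h6 := Real.log_le_sub_one_of_pos (show 0 < 1 + 0.795 * δ by positivity)
        linarith
    linarith

end Crest.Agent.R146.KPos_277
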