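import Crest.Agent.R146.TwoLevel_423
import Crest.Agent.R146.StepDef_791

/-!
# Row 146, PT-CMP (helper423): the two-times lemma for the slope `I = √χ V_x` of the step system

`fam`  : `Back A`, `Clock A` ⇒ the family `V, G = √χ P` on `[0,T]` satisfies `TwoLevel_423.Fam`.
`chi_Dt`: `χ · Dt = -(1/2) I² (l'' + l'²) - Y v(1-v) l' - (1/2)(1 + Y(6v-3))`, `l = log I` as a function of `v`.
`ktwo` : two times (and two step data) comparison of `I` on level sets.
-/

set_option autoImplicit false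

open Set Filter Topology

namespace Crest.Agent.R146.KTwo_423

open Crest.Agent.R146.StepDef_791 Crest.Agent.R146.TwoLevel_423 Crest.Agent.R146.MaxPCmp_371

noncomputable section

variable (A : SD)

/-- the new-clock unknown `Y = m K₀` -/
def Yc (t : ℝ) : ℝ := A.m t * A.K0 t

/-! ### right continuity of the coefficients -/

theorem mrc_right : ∀ {cs : Cells} {T t : ℝ}, Valid T cs → 0 ≤ t → t < T →
    ∀ᶠ s in 𝓝[≥] t, mrc T cs s = mrc T cs t
  | [], T, t, h, h0, h1 => by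
      have h2 : T = 0 := h
      linarith
  | c :: cs, T, t, h, h0, h1 => by
      rcases le_or_gt c.1 t with h2 | h2
      · filter_upwards [Ico_mem_nhdsGE h1] with s hs
        simp only [mrc, if_pos h2, if_pos h1, if_pos (h2.trans hs.1), if_pos hs.2]
      · have h3 := mrc_right (cs := cs) (T := c.1) (t := t) h.2.2 h0 h2
        filter_upwards [h3, Ico_mem_nhdsGE h2] with s hs hs'
        simp only [mrc, if_neg (not_le.mpr h2), if_neg (not_le.mpr hs'.2), hs]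

variable {A}

theorem m_right {t : ℝ} (ht : t ∈ Ico 0 A.T) : ∀ᶠ s in 𝓝[≥] t, A.m s = A.m t :=
  mrc_right A.hv ht.1 ht.2

theorem m_cont {t : ℝ} (ht : t ∈ Ico 0 A.T) : ContinuousWithinAt A.m (Ici t) t :=
  continuousWithinAt_const.congr_of_eventuallyEq (m_right ht) rfl

theorem b_cont (hC : Clock A) {t : ℝ} (ht : t ∈ Ico 0 A.T) : ContinuousWithinAt A.b (Ici t) t :=
  (m_cont ht).div hC.D_cont.continuousWithinAt (A.D_pos t).ne'

theorem K0_cont (hC : Clock A) {t : ℝ} (ht : t ∈ Icc 0 A.T) : ContinuousAt A.K0 t :=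
  (hC.K0_t t ht).continuousAt

theorem chi_contOn (hC : Clock A) : ContinuousOn A.chi (Icc 0 A.T) := by
  intro t ht
  have h1 : ContinuousAt A.chi t := by
    show ContinuousAt (fun t => A.D t * A.K0 t) t
    exact hC.D_cont.continuousAt.mul (K0_cont hC ht)
  exact h1.continuousWithinAt

theorem Yc_cont (hC : Clock A) {t : ℝ} (ht : t ∈ Ico 0 A.T) : ContinuousWithinAt (Yc A) (Ici t) t :=
  (m_cont ht).mul (K0_cont hC ⟨ht.1, ht.2.le⟩).continuousWithinAt

theorem b_chi (t : ℝ) : A.b t * A.chi t = Yc A t := by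
  unfold SD.b SD.chi Yc
  have := (A.D_pos t).ne'
  field_simp

/-! ### `V t` is onto `(0,1)` -/

/-- a differentiable function with derivative in `(0,1)`, increasing, such that `f ≥ 0` and `f - id ≥ 0`
has derivative with full range -/
theorem range_aux {w V : ℝ → ℝ} (hw : ∀ x, HasDerivAt w (V x) x) (hV : Continuous V)
    (hm : Monotone V) (hw0 : ∀ x, 0 ≤ w x) (hwx : ∀ x, x ≤ w x) {v : ℝ} (hv : v ∈ Ioo (0 : ℝ) 1) :
    ∃ x, V x = v := by
  have hlo : ∃ x, V x ≤ v := by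
    by_contra hcon
    push Not at hcon
    -- w x ≤ w 0 + v x for x ≤ 0
    set x : ℝ := -(w 0 + 1) / v with hx
    have hx0 : x < 0 := by
      rw [hx]; have := hw0 0; exact div_neg_of_neg_of_pos (by linarith) hv.1
    obtain ⟨c, hc, hce⟩ := exists_hasDerivAt_eq_slope w V hx0
      (fun z _ => (hw z).continuousAt.continuousWithinAt) (fun z _ => hw z)
    have h1 := hcon c
    rw [hce, lt_div_iff₀ (by linarith)] at h1
    have h2 : v * (0 - x) = w 0 + 1 := by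
      rw [hx]; have := hv.1.ne'; field_simp; ring
    have h3 := hw0 x
    linarith
  have hhi : ∃ x, v ≤ V x := by
    by_contra hcon
    push Not at hcon
    set x : ℝ := (w 0 + 1) / (1 - v) with hx
    have h1v : 0 < 1 - v := by linarith [hv.2]
    have hx0 : 0 < x := by
      rw [hx]; have := hw0 0; exact div_pos (by linarith) h1v
    obtain ⟨c, hc, hce⟩ := exists_hasDerivAt_eq_slope w V hx0
      (fun z _ => (hw z).continuousAt.continuousWithinAt) (fun z _ => hw z)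
    have h1 := hcon c
    rw [hce, div_lt_iff₀ (by linarith)] at h1
    have h2 : (1 - v) * x = w 0 + 1 := by
      rw [hx]; field_simp
    have h3 := hwx x
    linarith
  obtain ⟨x1, h1⟩ := hlo
  obtain ⟨x2, h2⟩ := hhi
  rcases le_total x1 x2 with h | h
  · obtain ⟨x, _, hx⟩ := intermediate_value_Icc h hV.continuousOn ⟨h1, h2⟩
    exact ⟨x, hx⟩
  · have h3 := hm h
    exact ⟨x1, le_antisymm h1 (h2.trans h3)⟩

theorem V_surj (hB : Back A) {t : ℝ} (ht : t ∈ Icc 0 A.T) {v : ℝ} (hv : v ∈ Ioo (0 : ℝ) 1) :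
    ∃ x, A.V t x = v := by
  have hm : StrictMono (A.V t) := by
    apply strictMono_of_deriv_pos
    intro x
    rw [(hB.V_x t ht x).deriv]; exact hB.P_pos t ht x
  refine range_aux (w := A.w t) (V := A.V t) (fun x => ?_)
    (continuous_iff_continuousAt.mpr fun x => (hB.V_x t ht x).continuousAt) hm.monotone
    (fun x => (hB.w_pos t ht x).le) (fun x => ?_) hv
  · have h1 := (hasDerivAt_id x).add (hB.u_x t ht x)
    have e : (1 : ℝ) + (A.V t x - 1) = A.V t x := by ring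
    rw [e] at h1
    exact h1
  · show x ≤ x + A.u t x
    have := hB.u_pos t ht x
    linarith

/-! ### the family -/

/-- right time derivative of `V` -/
def Vt (A : SD) (t x : ℝ) : ℝ :=
  -(A.Px t x / 2 + A.b t * A.u t x * A.P t x) + A.b t * A.V t x * (1 - A.V t x)
/-- right time derivative of `P` -/
def Pt (A : SD) (t x : ℝ) : ℝ :=
  -(A.Pxx t x / 2 + A.b t * A.u t x * A.Px t x) + A.b t * (2 - 3 * A.V t x) * A.P t x
/-- `I = √χ P` in raw coordinates -/
def Is (A : SD) (t x : ℝ) : ℝ := Real.sqrt (A.chi t) * A.P t x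
def Isx (A : SD) (t x : ℝ) : ℝ := Real.sqrt (A.chi t) * A.Px t x
def Isxx (A : SD) (t x : ℝ) : ℝ := Real.sqrt (A.chi t) * A.Pxx t x
/-- right time derivative of `I` at fixed `x` -/
def Ist (A : SD) (t x : ℝ) : ℝ :=
  -(1 + Yc A t) / (2 * Real.sqrt (A.chi t)) * A.P t x + Real.sqrt (A.chi t) * Pt A t x

theorem joint_right {f : ℝ → ℝ → ℝ} {t x : ℝ}
    (h : ContinuousOn (fun q : ℝ × ℝ => f q.1 q.2) (Icc 0 A.T ×ˢ univ)) (ht : t ∈ Ico 0 A.T) :
    ContinuousWithinAt (fun q : ℝ × ℝ => f q.1 q.2) (Ici t ×ˢ univ) (t, x) := by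
  have h1 := h (t, x) ⟨⟨ht.1, ht.2.le⟩, mem_univ _⟩
  refine h1.mono_of_mem_nhdsWithin ?_
  rw [nhdsWithin_prod_eq]
  refine prod_mem_prod ?_ ?_
  · filter_upwards [Icc_mem_nhdsGE ht.2] with s hs
    exact ⟨ht.1.trans hs.1, hs.2⟩
  · simp

theorem joint_time {f : ℝ → ℝ} {t x : ℝ} (h : ContinuousWithinAt f (Ici t) t) :
    ContinuousWithinAt (fun q : ℝ × ℝ => f q.1) (Ici t ×ˢ univ) (t, x) := by
  have h1 : ContinuousWithinAt (Prod.fst : ℝ × ℝ → ℝ) (Ici t ×ˢ univ) (t, x) :=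
    continuous_fst.continuousWithinAt
  exact ContinuousWithinAt.comp (t := Ici t) (x := (t, x)) h h1 (fun q hq => hq.1)

theorem Vt_cont (hB : Back A) (hC : Clock A) {t x : ℝ} (ht : t ∈ Ico 0 A.T) :
    ContinuousWithinAt (fun q : ℝ × ℝ => Vt A q.1 q.2) (Ici t ×ˢ univ) (t, x) := by
  obtain ⟨M, hM⟩ := hB.bsys
  have c1 := joint_right (x := x) hM.cu ht
  have c2 := joint_right (x := x) hM.cV ht
  have c3 := joint_right (x := x) hM.cP ht
  have c4 := joint_right (x := x) hB.Px_cont ht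
  have c5 := joint_time (x := x) (b_cont hC ht)
  unfold Vt
  exact (((c4.div_const 2).add ((c5.mul c1).mul c3)).neg).add
    ((c5.mul c2).mul (continuousWithinAt_const.sub c2))

theorem Pt_cont (hB : Back A) (hC : Clock A) {t x : ℝ} (ht : t ∈ Ico 0 A.T) :
    ContinuousWithinAt (fun q : ℝ × ℝ => Pt A q.1 q.2) (Ici t ×ˢ univ) (t, x) := by
  obtain ⟨M, hM⟩ := hB.bsys
  have c1 := joint_right (x := x) hM.cu ht
  have c2 := joint_right (x := x) hM.cV ht
  have c3 := joint_right (x := x) hM.cP ht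
  have c4 := joint_right (x := x) hB.Px_cont ht
  have c6 := joint_right (x := x) hB.Pxx_cont ht
  have c5 := joint_time (x := x) (b_cont hC ht)
  unfold Pt
  exact (((c6.div_const 2).add ((c5.mul c1).mul c4)).neg).add
    ((c5.mul (continuousWithinAt_const.sub (continuousWithinAt_const.mul c2))).mul c3)

theorem sqrt_chi_pos (hC : Clock A) {t : ℝ} (ht : t ≤ A.T) : 0 < Real.sqrt (A.chi t) :=
  Real.sqrt_pos.mpr (hC.chi_pos t (ht.trans_lt A.hT1))

theorem sqrt_chi_cont (hC : Clock A) {t : ℝ} (ht : t ∈ Ico 0 A.T) :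
    ContinuousWithinAt (fun s => Real.sqrt (A.chi s)) (Ici t) t := by
  have h1 := chi_contOn hC t ⟨ht.1, ht.2.le⟩
  have h2 : ContinuousWithinAt A.chi (Ici t) t := by
    refine h1.mono_of_mem_nhdsWithin ?_
    filter_upwards [Icc_mem_nhdsGE ht.2] with s hs
    exact ⟨ht.1.trans hs.1, hs.2⟩
  exact Real.continuous_sqrt.continuousAt.comp_continuousWithinAt h2

theorem Ist_cont (hB : Back A) (hC : Clock A) {t x : ℝ} (ht : t ∈ Ico 0 A.T) :
    ContinuousWithinAt (fun q : ℝ × ℝ => Ist A q.1 q.2) (Ici t ×ˢ univ) (t, x) := by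
  obtain ⟨M, hM⟩ := hB.bsys
  have c3 := joint_right (x := x) hM.cP ht
  have c5 := joint_time (x := x) (sqrt_chi_cont hC ht)
  have c6 := joint_time (x := x) (Yc_cont hC ht)
  have c7 := Pt_cont hB hC (x := x) ht
  unfold Ist
  exact ((((continuousWithinAt_const.add c6).neg).div (continuousWithinAt_const.mul c5)
    (mul_pos two_pos (sqrt_chi_pos hC ht.2.le)).ne').mul c3).add (c5.mul c7)

theorem sqrt_chi_deriv (hC : Clock A) {t : ℝ} (ht : t ∈ Ico 0 A.T) :
    HasDerivWithinAt (fun s => Real.sqrt (A.chi s)) (-(1 + Yc A t) / (2 * Real.sqrt (A.chi t)))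
      (Ici t) t :=
  (hC.chi_t t ht).sqrt (hC.chi_pos t (ht.2.trans A.hT1)).ne'

theorem cont_time {f : ℝ → ℝ → ℝ} {t y : ℝ} (h : ContinuousOn (fun q : ℝ × ℝ => f q.1 q.2)
    (Icc 0 A.T ×ˢ univ)) (ht : t ∈ Ico 0 A.T) :
    ∀ r ∈ Icc t (t + (A.T - t)), ContinuousWithinAt (fun r => f r y) (Icc t (t + (A.T - t))) r := by
  intro r hr
  have e : t + (A.T - t) = A.T := by ring
  rw [e] at hr ⊢
  have h1 := h (r, y) ⟨⟨ht.1.trans hr.1, hr.2⟩, mem_univ _⟩
  have h2 : ContinuousWithinAt (fun r : ℝ => (r, y)) (Icc t A.T) r :=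
    (continuous_id.prodMk continuous_const).continuousWithinAt
  exact ContinuousWithinAt.comp (t := Icc 0 A.T ×ˢ univ) (x := r) h1 h2
    (fun s hs => ⟨⟨ht.1.trans hs.1, hs.2⟩, mem_univ _⟩)

/-- **The family `V, I = √χ P` of the step system.** -/
theorem fam (hB : Back A) (hC : Clock A) :
    Fam 0 A.T A.V (Is A) A.P A.Px (Vt A) (Isx A) (Isxx A) (Ist A) := by
  obtain ⟨M, hM⟩ := hB.bsys
  have hcI : ContinuousOn (fun q : ℝ × ℝ => Is A q.1 q.2) (Icc 0 A.T ×ˢ univ) := by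
    unfold Is
    have h1 : ContinuousOn (fun q : ℝ × ℝ => Real.sqrt (A.chi q.1)) (Icc 0 A.T ×ˢ univ) :=
      Real.continuous_sqrt.comp_continuousOn
        ((chi_contOn hC).comp continuousOn_fst (fun q hq => hq.1))
    exact h1.mul hM.cP
  refine
    { contV := hM.cV
      contG := hcI
      dV := hB.V_x
      dVz := hB.P_x
      Vz_pos := hB.P_pos
      dG := fun s hs z => (hB.P_x s hs z).const_mul _
      dGz := fun s hs z => (hB.Px_x s hs z).const_mul _
      G_pos := fun s hs z => mul_pos (sqrt_chi_pos hC hs.2) (hB.P_pos s hs z)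
      mem := fun s hs z => ⟨hM.V_pos s hs z, hM.V_lt s hs z⟩
      surj := fun s hs v hv => V_surj hB hs hv
      fV := ?_
      fG := ?_ }
  · intro s hs z
    refine hasFDeriv_right (Vs := Vt A) (δ := A.T - s) (by linarith [hs.2])
      (hB.V_x s ⟨hs.1, hs.2.le⟩ z) (Eventually.of_forall fun y => cont_time hM.cV hs)
      (Eventually.of_forall fun y r hr => ?_) (Vt_cont hB hC hs)
    have e : s + (A.T - s) = A.T := by ring
    rw [e] at hr
    exact hM.hVt r ⟨hs.1.trans hr.1, hr.2⟩ y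
  · intro s hs z
    refine hasFDeriv_right (Vs := Ist A) (δ := A.T - s) (by linarith [hs.2])
      ((hB.P_x s ⟨hs.1, hs.2.le⟩ z).const_mul _)
      (Eventually.of_forall fun y => cont_time hcI hs)
      (Eventually.of_forall fun y r hr => ?_) (Ist_cont hB hC hs)
    have e : s + (A.T - s) = A.T := by ring
    rw [e] at hr
    have hr' : r ∈ Ico 0 A.T := ⟨hs.1.trans hr.1, hr.2⟩
    exact (sqrt_chi_deriv hC hr').mul (hM.hPt r hr' y)

/-- slope of `log I` as a function of the level -/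
def lam (A : SD) (t x : ℝ) : ℝ := A.Px t x / A.P t x ^ 2

/-- second derivative of `log I` as a function of the level -/
def lam2 (A : SD) (t x : ℝ) : ℝ := A.Pxx t x / A.P t x ^ 3 - 2 * A.Px t x ^ 2 / A.P t x ^ 4

theorem L1_eq (hB : Back A) (hC : Clock A) {t x : ℝ} (ht : t ∈ Icc 0 A.T) :
    L1 (Is A) A.P (Isx A) t x = lam A t x := by
  have h1 := (sqrt_chi_pos hC ht.2).ne'
  have h2 := (hB.P_pos t ht x).ne'
  unfold L1 Is Isx lam
  field_simp

theorem L2_eq (hB : Back A) (hC : Clock A) {t x : ℝ} (ht : t ∈ Icc 0 A.T) :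
    L2 (Is A) A.P A.Px (Isx A) (Isxx A) t x = lam2 A t x := by
  have h1 := (sqrt_chi_pos hC ht.2).ne'
  have h2 := (hB.P_pos t ht x).ne'
  unfold L2 Is Isx Isxx lam2
  field_simp
  ring

/-- **the equation for `l = log I` at fixed level, new clock.** -/
theorem chi_Dt (hB : Back A) (hC : Clock A) {t x : ℝ} (ht : t ∈ Icc 0 A.T) :
    A.chi t * Dt (Is A) A.P (Vt A) (Isx A) (Ist A) t x =
      -(1 / 2) * Is A t x ^ 2 * (lam2 A t x + lam A t x ^ 2) -
        Yc A t * (A.V t x * (1 - A.V t x)) * lam A t x -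
        1 / 2 * (1 + Yc A t * (6 * A.V t x - 3)) := by
  have h1 := sqrt_chi_pos hC ht.2
  have h2 := (hB.P_pos t ht x).ne'
  have hchi : A.chi t = Real.sqrt (A.chi t) ^ 2 :=
    (Real.sq_sqrt (hC.chi_pos t (ht.2.trans_lt A.hT1)).le).symm
  have hb : A.b t = Yc A t / Real.sqrt (A.chi t) ^ 2 := by
    rw [← hchi, eq_div_iff (hC.chi_pos t (ht.2.trans_lt A.hT1)).ne', b_chi]
  unfold Dt Is Isx Ist Vt Pt lam lam2
  rw [hb]
  rw [hchi]
  set q := Real.sqrt (A.chi t) with hq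
  rw [Real.sqrt_sq h1.le]
  have h3 := h1.ne'
  field_simp
  ring

theorem restrict {a S a' S' : ℝ} {V G Vz Vzz Vs Gz Gzz Gs : ℝ → ℝ → ℝ}
    (F : Fam a S V G Vz Vzz Vs Gz Gzz Gs) (ha : a ≤ a') (hS : S' ≤ S) :
    Fam a' S' V G Vz Vzz Vs Gz Gzz Gs := by
  have h1 : Icc a' S' ⊆ Icc a S := Icc_subset_Icc ha hS
  have h2 : Ico a' S' ⊆ Ico a S := Ico_subset_Ico ha hS
  exact
    { contV := F.contV.mono (prod_mono_left h1)
      contG := F.contG.mono (prod_mono_left h1)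
      dV := fun s hs => F.dV s (h1 hs)
      dVz := fun s hs => F.dVz s (h1 hs)
      Vz_pos := fun s hs => F.Vz_pos s (h1 hs)
      dG := fun s hs => F.dG s (h1 hs)
      dGz := fun s hs => F.dGz s (h1 hs)
      G_pos := fun s hs => F.G_pos s (h1 hs)
      mem := fun s hs => F.mem s (h1 hs)
      surj := fun s hs => F.surj s (h1 hs)
      fV := fun s hs => F.fV s (h2 hs)
      fG := fun s hs => F.fG s (h2 hs) }

/-- pure algebra of the touching point -/
theorem touch_algebra {I I' q Y1 Y2 v l l' m m' e1 e2 c1 c2 : ℝ} (hI' : 0 < I') (hq : q = (I / I') ^ 2)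
    (h1 : -(1 / 2) * I ^ 2 * (m + l ^ 2) - Y1 * (v * (1 - v)) * l - 1 / 2 * (1 + Y1 * (6 * v - 3)) ≤ c1)
    (h2 : -(-(1 / 2) * I' ^ 2 * (m' + l' ^ 2) - Y2 * (v * (1 - v)) * l' -
      1 / 2 * (1 + Y2 * (6 * v - 3))) ≤ c2)
    (h3 : l - l' = e1) (h4 : m - m' ≤ e2) :
    (q - 1) * (1 / 2 + Y2 * (v * (1 - v) * l' + 3 * v - 3 / 2)) ≤
      1 / 2 * I ^ 2 * (e2 + (2 * l' + e1) * e1) + Y1 * (v * (1 - v)) * e1 +
        (Y1 - Y2) * (v * (1 - v) * l' + 3 * v - 3 / 2) + c1 + q * c2 := by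
  have hq0 : 0 ≤ q := by rw [hq]; positivity
  have hqI : q * I' ^ 2 = I ^ 2 := by
    rw [hq]; field_simp
  have hl : l = l' + e1 := by linarith
  have h5 := mul_le_mul_of_nonneg_left h2 hq0
  have h6 : I ^ 2 * (m - m') ≤ I ^ 2 * e2 := mul_le_mul_of_nonneg_left h4 (sq_nonneg I)
  have h7 : q * (-(-(1 / 2) * I' ^ 2 * (m' + l' ^ 2) - Y2 * (v * (1 - v)) * l' -
      1 / 2 * (1 + Y2 * (6 * v - 3)))) =
      1 / 2 * (q * I' ^ 2) * (m' + l' ^ 2) + q * (Y2 * (v * (1 - v)) * l' +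
      1 / 2 * (1 + Y2 * (6 * v - 3))) := by ring
  rw [h7, hqI] at h5
  subst hl
  linarith [h5, h6, h1]

/-- **TWO TIMES (and two step data) comparison of the slope `I = √χ V_x` on level sets.** -/
theorem ktwo {A A' : SD} (hB : Back A) (hC : Clock A) (hB' : Back A') (hC' : Clock A')
    {a S : ℝ} (ha : 0 ≤ a) (hS : S ≤ A.T) (hS' : S ≤ A'.T)
    (e e1 e2 : ℝ → ℝ) (he : ∀ v ∈ Ioo (0 : ℝ) 1, HasDerivAt e (e1 v) v)
    (he1 : ∀ v ∈ Ioo (0 : ℝ) 1, HasDerivAt e1 (e2 v) v)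
    (a1 a2 b1 b2 : ℝ → ℝ) (ha1 : ContinuousOn a1 (Icc a S)) (ha2 : ContinuousOn a2 (Icc a S))
    (hb1 : ∀ s ∈ Ico a S, HasDerivWithinAt a1 (b1 s) (Ici s) s)
    (hb2 : ∀ s ∈ Ico a S, HasDerivWithinAt a2 (b2 s) (Ici s) s)
    (hend : ∃ C ⊆ Ioo (0 : ℝ) 1, IsCompact C ∧ ∀ s ∈ Icc a S, ∀ t ∈ Icc a S, ∀ x x',
      A.V s x = A'.V t x' → A.V s x ∉ C →
      Real.log (Is A s x) - Real.log (Is A' t x') ≤ e (A.V s x) + a1 s + a2 t)
    (hface1 : ∀ t ∈ Icc a S, ∀ x x', A.V S x = A'.V t x' →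
      Real.log (Is A S x) - Real.log (Is A' t x') ≤ e (A.V S x) + a1 S + a2 t)
    (hface2 : ∀ s ∈ Icc a S, ∀ x x', A.V s x = A'.V S x' →
      Real.log (Is A s x) - Real.log (Is A' S x') ≤ e (A.V s x) + a1 s + a2 S)
    (hneg : ∀ s ∈ Ico a S, ∀ t ∈ Ico a S, ∀ x x' v, A.V s x = v → A'.V t x' = v →
      e v + a1 s + a2 t < Real.log (Is A s x) - Real.log (Is A' t x') →
      1 / 2 * Is A s x ^ 2 * (e2 v + (2 * lam A' t x' + e1 v) * e1 v) +
        Yc A s * (v * (1 - v)) * e1 v +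
        (Yc A s - Yc A' t) * (v * (1 - v) * lam A' t x' + 3 * v - 3 / 2) +
        A.chi s * b1 s + (Is A s x / Is A' t x') ^ 2 * (A'.chi t * b2 t) <
      ((Is A s x / Is A' t x') ^ 2 - 1) *
        (1 / 2 + Yc A' t * (v * (1 - v) * lam A' t x' + 3 * v - 3 / 2))) :
    ∀ s ∈ Icc a S, ∀ t ∈ Icc a S, ∀ x x', A.V s x = A'.V t x' →
      Real.log (Is A s x) - Real.log (Is A' t x') ≤ e (A.V s x) + a1 s + a2 t := by
  refine two_level (restrict (fam hB hC) ha hS) (restrict (fam hB' hC') ha hS') e e1 e2 he he1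
    a1 a2 b1 b2 ha1 ha2 hb1 hb2 hend hface1 hface2 ?_
  intro s hs t ht x x' hV hlt h1 h2 h3 h4
  have hs' : s ∈ Icc 0 A.T := ⟨ha.trans hs.1, hs.2.le.trans hS⟩
  have ht' : t ∈ Icc 0 A'.T := ⟨ha.trans ht.1, ht.2.le.trans hS'⟩
  rw [L1_eq hB hC hs', L1_eq hB' hC' ht'] at h3
  rw [L2_eq hB hC hs', L2_eq hB' hC' ht'] at h4
  have hc := hC.chi_pos s (hs'.2.trans_lt A.hT1)
  have hc' := hC'.chi_pos t (ht'.2.trans_lt A'.hT1)
  have h5 := mul_le_mul_of_nonneg_left h1 hc.le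
  have h6 := mul_le_mul_of_nonneg_left h2 hc'.le
  rw [mul_neg] at h6
  rw [chi_Dt hB hC hs'] at h5
  rw [chi_Dt hB' hC' ht'] at h6
  rw [← hV] at h6
  have hI' : 0 < Is A' t x' := mul_pos (sqrt_chi_pos hC' ht'.2) (hB'.P_pos t ht' x')
  have h7 := touch_algebra hI' rfl h5 h6 h3 h4
  have h8 := hneg s hs t ht x x' (A.V s x) rfl hV.symm hlt
  linarith

end

end Crest.Agent.R146.KTwo_423
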