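import Crest.Agent.R146.S6UBa_167
import Crest.Agent.R146.CavInc_769

/-!
Row 146, S0206, task 68 (helper167), part B: elementary facts on `Rk` and tails at a contact point.
-/

set_option autoImplicit false

namespace Crest.Agent.R146.S6UBb_167

open Finset MeasureTheory ProbabilityTheory Crest.Agent.R141
open Crest.Agent.R146.S6Def_988 Crest.Agent.R146.S6U_988 Crest.Agent.R146.CavInc_769
open Crest.Agent.R146.S6UBa_167

noncomputable section

variable {N : ℕ} (C : Cfg N) (nc n : ℕ)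

/-! ### the averaged squared conditional mean -/

/-- normalised squared conditional mean at a given law -/
def rk (Q : Om C nc n → ℝ) (k : ℕ) : ℝ :=
  eE Q (fun ω => (N : ℝ)⁻¹ * ∑ i, (cE Q ((fil C nc n).F k) (fun w => C.x w.1 i) ω) ^ 2)

variable {C nc n}

theorem rk_nonneg {Q : Om C nc n → ℝ} (hQ : IsProb Q) (k : ℕ) : 0 ≤ rk C nc n Q k := by
  unfold rk
  exact eE_nonneg hQ fun ω => mul_nonneg (by positivity) (sum_nonneg fun i _ => sq_nonneg _)

theorem rk_eq (Q : Om C nc n → ℝ) (k : ℕ) : rk C nc n Q k =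
    (N : ℝ)⁻¹ * ∑ i, eE Q (fun ω => (cE Q ((fil C nc n).F k) (fun w => C.x w.1 i) ω) ^ 2) := by
  unfold rk
  rw [eE_smul, eE_sum]

theorem rk_mono {Q : Om C nc n → ℝ} (hQ : IsProb Q) {k l : ℕ} (h : k ≤ l) :
    rk C nc n Q k ≤ rk C nc n Q l := by
  rw [rk_eq, rk_eq]
  refine mul_le_mul_of_nonneg_left (sum_le_sum fun i _ => ?_) (by positivity)
  have h1 : (fil C nc n).F l ≤ (fil C nc n).F k := Filt.anti' _ h
  rw [← eE_cE hQ ((fil C nc n).F k)
    (fun ω => (cE Q ((fil C nc n).F l) (fun w => C.x w.1 i) ω) ^ 2)]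
  refine eE_mono hQ fun ω => ?_
  rw [← cE_tower hQ h1]
  exact cE_sq_le hQ _ _ ω

theorem rk_le_one (hN : 0 < N) {Q : Om C nc n → ℝ} (hQ : IsProb Q) (k : ℕ) :
    rk C nc n Q k ≤ 1 := by
  rw [rk_eq]
  have h1 : ∑ i, eE Q (fun ω => (cE Q ((fil C nc n).F k) (fun w => C.x w.1 i) ω) ^ 2) ≤
      ∑ i, eE Q (fun ω => (C.x ω.1 i) ^ 2) := by
    refine sum_le_sum fun i _ => ?_
    rw [← eE_cE hQ ((fil C nc n).F k) (fun ω => (C.x ω.1 i) ^ 2)]
    exact eE_mono hQ fun ω => cE_sq_le hQ _ _ ω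
  have h2 : ∑ i, eE Q (fun ω => (C.x ω.1 i) ^ 2) = N := by
    rw [← eE_sum]
    simp_rw [C.hx]
    exact eE_const hQ _
  have h3 : (0 : ℝ) < N := by exact_mod_cast hN
  rw [h2] at h1
  calc (N : ℝ)⁻¹ * _ ≤ (N : ℝ)⁻¹ * N := mul_le_mul_of_nonneg_left h1 (by positivity)
    _ = 1 := inv_mul_cancel₀ h3.ne'

instance (M N : ℕ) : IsProbabilityMeasure (gam M N) := by unfold gam; infer_instance

section rows

variable {f : ℕ → ℝ → ℝ} {M : ℕ} {s : Fin nc → ℝ}

theorem meas_rk (hf : ∀ a, Measurable (f a)) (k : ℕ) :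
    Measurable fun G : Fin M → Fin N → ℝ => rk C nc n (QQ C nc n f G s) k := by
  unfold rk
  refine meas_eE (fun ω => meas_QQ hf s ω) fun ω => ?_
  refine Measurable.const_mul (Finset.measurable_sum _ fun i _ => ?_) _
  exact (meas_cE (f := fun _ w => C.x w.1 i) (fun ω => meas_QQ hf s ω)
    (fun _ => measurable_const) _ ω).pow_const 2

theorem integrable_rk (hN : 0 < N) (hf : ∀ a, Measurable (f a)) (k : ℕ) :
    Integrable (fun G : Fin M → Fin N → ℝ => rk C nc n (QQ C nc n f G s) k) (gam M N) :=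
  Integrable.of_bound (C := 1) (meas_rk hf k).aestronglyMeasurable
    (ae_of_all _ fun G => by
      rw [Real.norm_eq_abs, abs_of_nonneg (rk_nonneg (QQ_isProb _ _ _) k)]
      exact rk_le_one hN (QQ_isProb _ _ _) k)

theorem Rk_eq (k : ℕ) :
    Rk C nc n f M s k = ∫ G, rk C nc n (QQ C nc n (M := M) f G s) k ∂(gam M N) := rfl

theorem Rk_nonneg (k : ℕ) : 0 ≤ Rk C nc n f M s k :=
  integral_nonneg fun _ => rk_nonneg (QQ_isProb _ _ _) k

theorem Rk_le_one (hN : 0 < N) (hf : ∀ a, Measurable (f a)) (k : ℕ) : Rk C nc n f M s k ≤ 1 := by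
  rw [Rk_eq]
  calc ∫ G, rk C nc n (QQ C nc n (M := M) f G s) k ∂(gam M N) ≤ ∫ _G, (1 : ℝ) ∂(gam M N) :=
        integral_mono (integrable_rk hN hf k) (integrable_const _) fun G =>
          rk_le_one hN (QQ_isProb _ _ _) k
    _ = 1 := by simp

theorem Rk_mono (hN : 0 < N) (hf : ∀ a, Measurable (f a)) {k l : ℕ} (h : k ≤ l) :
    Rk C nc n f M s k ≤ Rk C nc n f M s l := by
  rw [Rk_eq, Rk_eq]
  exact integral_mono (integrable_rk hN hf k) (integrable_rk hN hf l) fun G =>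
    rk_mono (QQ_isProb _ _ _) h

end rows

/-! ### tails -/

theorem tl1_nonneg {nc : ℕ} {q : ℕ → ℝ} (hq : ∀ l, 0 ≤ q l) (g : ℕ) : 0 ≤ tl1 nc q g := by
  unfold tl1
  exact mul_nonneg (by positivity) (sum_nonneg fun l _ => hq l)

theorem tl1_le {nc : ℕ} {q : ℕ → ℝ} {c : ℝ} (hq : ∀ l ≤ nc, q l ≤ c) {g : ℕ} (hg : g ≤ nc) :
    tl1 nc q g ≤ c * (1 - ((g : ℝ) + 1) / ((nc : ℝ) + 1)) := by
  unfold tl1
  have h1 : ∑ l ∈ Ioc g nc, q l ≤ ∑ _l ∈ Ioc g nc, c :=
    sum_le_sum fun l hl => hq l (mem_Ioc.1 hl).2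
  have h2 : ∑ _l ∈ Ioc g nc, c = ((nc : ℝ) - g) * c := by
    rw [sum_const, Nat.card_Ioc, nsmul_eq_mul, Nat.cast_sub hg]
  rw [h2] at h1
  calc 1 / ((nc : ℝ) + 1) * ∑ l ∈ Ioc g nc, q l ≤ 1 / ((nc : ℝ) + 1) * (((nc : ℝ) - g) * c) :=
        mul_le_mul_of_nonneg_left h1 (by positivity)
    _ = _ := by field_simp; ring

/-- tails at a contact point. -/
theorem tails_contact {b0 ei I sg t r : ℝ} (hb0 : 0 < b0) (hs : b0 ≤ sg)
    (h1 : |I - sg * (1 - r)| ≤ ei) (h2 : I - sg ≤ -(sg * t)) : t ≤ r + ei / b0 := by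
  have hsp : 0 < sg := lt_of_lt_of_le hb0 hs
  have hei : 0 ≤ ei := (abs_nonneg _).trans h1
  have h3 : sg * t ≤ sg * r + ei := by
    have := (abs_le.1 h1).1
    nlinarith
  have h4 : t ≤ r + ei / sg := by
    rw [← sub_le_iff_le_add', le_div_iff₀ hsp]
    nlinarith
  have h5 : ei / sg ≤ ei / b0 := div_le_div_of_nonneg_left hei hb0 hs
  linarith

theorem skel_tails {J wc nc n : ℕ} (hwc : 0 < wc) (hnc : nc + 1 = (J + 1) * wc) {P : ℕ → ℝ}
    (hP : Lev J P) {R : ℕ → ℝ} (hR0 : ∀ k, 0 ≤ R k) (hR1 : ∀ k, R k ≤ 1)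
    (hRm : ∀ k l, k ≤ l → R k ≤ R l) {τ : ℕ → ℕ}
    (hτ : ∀ b ≤ J, st n (b * wc) ≤ τ b ∧ τ b < st n (b * wc + wc - 1)) {e : ℝ} (he : 0 ≤ e)
    (ht : ∀ g : Fin nc, tl1 nc (ref wc P) g ≤ tl1 nc (fun l => R (st n l)) g + e) :
    ∀ j0 ≤ J, 1 / ((J : ℝ) + 1) * ∑ j ∈ Ico j0 (J + 1), P j ≤
      1 / ((J : ℝ) + 1) * ∑ j ∈ Ico j0 (J + 1), R (τ j) + (2 / ((J : ℝ) + 1) + e) := by
  have hJ : (0 : ℝ) < (J : ℝ) + 1 := by positivity
  have hst : ∀ a b, a ≤ b → st n a ≤ st n b := fun a b h => Nat.mul_le_mul_right n h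
  -- the main case
  have main : ∀ j0, 0 < j0 → j0 ≤ J → 1 / ((J : ℝ) + 1) * ∑ j ∈ Ico j0 (J + 1), P j ≤
      1 / ((J : ℝ) + 1) * ∑ j ∈ Ico j0 (J + 1), R (τ j) + (1 / ((J : ℝ) + 1) + e) := by
    intro j0 h0 hj
    have hg : j0 * wc - 1 < nc := by
      have h1 : j0 * wc ≤ J * wc := Nat.mul_le_mul_right _ hj
      have h2 : (J + 1) * wc = J * wc + wc := by ring
      have h3 : 0 < j0 * wc := Nat.mul_pos h0 hwc
      omega
    have h1 := ht ⟨j0 * wc - 1, hg⟩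
    unfold tl1 at h1
    simp only at h1
    rw [tail_ref hwc hnc h0 hj] at h1
    have h2 := tail_skel (R := fun l => R (st n l)) (ρ := fun j => R (τ j)) hwc hnc
      (fun l => hR1 _) (fun j => hR0 _) (fun j hj' l hl => hRm _ _
        ((hst _ _ hl.le).trans (hτ (j + 1) (by omega)).1)) h0 hj
    linarith
  have h2J : 1 / ((J : ℝ) + 1) ≤ 2 / ((J : ℝ) + 1) := by
    gcongr; norm_num
  intro j0 hj
  rcases Nat.eq_zero_or_pos j0 with h0 | h0
  · subst h0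
    rw [sum_eq_sum_Ico_succ_bot (by omega : 0 < J + 1),
      sum_eq_sum_Ico_succ_bot (by omega : 0 < J + 1)]
    have hP0 : P 0 ≤ 1 := (hP.mono 0 J (Nat.zero_le _) le_rfl).trans hP.le_one
    have hR := hR0 (τ 0)
    have h3 : 1 / ((J : ℝ) + 1) * ∑ j ∈ Ico (0 + 1) (J + 1), P j ≤
        1 / ((J : ℝ) + 1) * ∑ j ∈ Ico (0 + 1) (J + 1), R (τ j) + (1 / ((J : ℝ) + 1) + e) := by
      rcases Nat.eq_zero_or_pos J with hJ0 | hJ0
      · subst hJ0
        simp
        linarith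
      · exact main 1 one_pos hJ0
    have h4 : 1 / ((J : ℝ) + 1) * P 0 ≤ 1 / ((J : ℝ) + 1) := by
      have : 0 < 1 / ((J : ℝ) + 1) := by positivity
      nlinarith
    have h5 : 0 ≤ 1 / ((J : ℝ) + 1) * R (τ 0) := by positivity
    have h6 : 2 / ((J : ℝ) + 1) = 1 / ((J : ℝ) + 1) + 1 / ((J : ℝ) + 1) := by ring
    rw [mul_add, mul_add, h6]
    linarith
  · have := main j0 h0 hj
    linarith

theorem skel_lev {J wc n : ℕ} {R : ℕ → ℝ} (hR0 : ∀ k, 0 ≤ R k) (hR1 : ∀ k, R k ≤ 1)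
    (hRm : ∀ k l, k ≤ l → R k ≤ R l) {τ : ℕ → ℕ}
    (hτ : ∀ b ≤ J, st n (b * wc) ≤ τ b ∧ τ b < st n (b * wc + wc - 1)) :
    Lev J fun b => R (τ b) where
  nonneg := hR0 _
  mono i j hij hj := by
    refine hRm _ _ ?_
    rcases Nat.eq_or_lt_of_le hij with h | h
    · rw [h]
    · have h1 := (hτ i (by omega)).2
      have h2 := (hτ j hj).1
      have h3 : i * wc + wc - 1 ≤ j * wc := by
        have : (i + 1) * wc ≤ j * wc := Nat.mul_le_mul_right _ h
        have h4 : (i + 1) * wc = i * wc + wc := by ring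
        omega
      have h5 : st n (i * wc + wc - 1) ≤ st n (j * wc) := Nat.mul_le_mul_right n h3
      omega
  le_one := hR1 _

/-! ### growth -/

theorem log_growth (a : ℝ) {b c : ℝ} (hb : 0 ≤ b) (hc : 0 < c) :
    ∃ X0 : ℝ, 0 ≤ X0 ∧ ∀ x, X0 ≤ x → a + b * Real.log (1 + x) ≤ c * x := by
  set t : ℝ := c / (2 * (b + 1)) with ht
  have htp : 0 < t := by positivity
  have hbt : b * t ≤ c / 2 := by
    rw [ht]
    have h1 : b * (c / (2 * (b + 1))) = (c / 2) * (b / (b + 1)) := by field_simp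
    have h2 : b / (b + 1) ≤ 1 := by rw [div_le_one (by linarith)]; linarith
    rw [h1]
    nlinarith
  set B : ℝ := |a| + c / 2 + b * |Real.log t| with hB
  refine ⟨2 * B / c, by positivity, fun x hx => ?_⟩
  have hx0 : 0 ≤ x := le_trans (by positivity) hx
  have h1 : Real.log (1 + x) ≤ t * (1 + x) + |Real.log t| := by
    have h2 : Real.log (t * (1 + x)) ≤ t * (1 + x) - 1 :=
      Real.log_le_sub_one_of_pos (by positivity)
    rw [Real.log_mul htp.ne' (by linarith)] at h2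
    have := neg_abs_le (Real.log t)
    linarith
  have h2 : b * Real.log (1 + x) ≤ (c / 2) * (1 + x) + b * |Real.log t| := by
    calc b * Real.log (1 + x) ≤ b * (t * (1 + x) + |Real.log t|) :=
          mul_le_mul_of_nonneg_left h1 hb
      _ = (b * t) * (1 + x) + b * |Real.log t| := by ring
      _ ≤ _ := by
          have : (b * t) * (1 + x) ≤ (c / 2) * (1 + x) :=
            mul_le_mul_of_nonneg_right hbt (by linarith)
          linarith
  have h3 : B ≤ (c / 2) * x := by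
    have := (div_le_iff₀ hc).1 hx
    linarith
  have := le_abs_self a
  rw [hB] at h3
  linarith

end

end Crest.Agent.R146.S6UBb_167
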