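import Crest.Agent.R146.S6Cavity_769
import Crest.Agent.R146.MonF_422
import Crest.Agent.R146.LbDef_679
import Crest.Agent.R146.S6UBb_167

/-!
Row 146, S0206, lower bound, node (L1) (helper167): one more row at a good strength.
* `SkelP`: a skeleton with prescribed constants `P b` instead of `Rk`;
* transfer of `SkelP` between the systems with `M` and `M + 1` rows;
* the increment of the free energy over several new rows, with one path `P`.
-/

set_option autoImplicit false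

namespace Crest.Agent.R146.L1Row_167

open Finset MeasureTheory ProbabilityTheory Crest.Agent.R141
open Crest.Agent.R146.S6Def_988 Crest.Agent.R146.S6U_988 Crest.Agent.R146.CavInc_769
open Crest.Agent.R146.CavAsm_769 Crest.Agent.R146.LbDef_679

noncomputable section

/-- a skeleton with prescribed constants. -/
structure SkelP {N : ℕ} (C : Cfg N) (nc n : ℕ) (f : ℕ → ℝ → ℝ) (M : ℕ) (s : Fin nc → ℝ)
    (J wc : ℕ) (τ : ℕ → ℕ) (P : ℕ → ℝ) (ε : ℝ) : Prop where
  blk : ∀ b ≤ J, st n (b * wc) ≤ τ b ∧ τ b < st n (b * wc + wc - 1)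
  pair : ∀ b ≤ J, ∫ G, pE (QQ C nc n (M := M) f G s) ((fil C nc n).F (τ b))
    (fun a c => |ovl C nc n a c - P b|) ∂(gam M N) ≤ ε

variable {N : ℕ} {C : Cfg N} {nc n : ℕ} {f : ℕ → ℝ → ℝ} {M : ℕ} {s : Fin nc → ℝ}
  {J wc : ℕ} {τ : ℕ → ℕ} {P : ℕ → ℝ} {e K L : ℝ}

theorem SkelP.mono {e' : ℝ} (h : SkelP C nc n f M s J wc τ P e) (he : e ≤ e') :
    SkelP C nc n f M s J wc τ P e' :=
  ⟨h.blk, fun b hb => (h.pair b hb).trans he⟩

theorem SkelP.of_skel (h : Skel C nc n f M s J wc τ e) :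
    SkelP C nc n f M s J wc τ (fun b => Rk C nc n f M s (τ b)) e := ⟨h.blk, h.pair⟩

/-- the averaged pair form with the constant `c`. -/
theorem pair_up (hfm : ∀ a, Measurable (f a)) (hK : ∀ a x, |f a x| ≤ K) (k : ℕ) (c : ℝ) :
    ∫ G, pf (M := M + 1) C nc n f s k c G ∂(gam (M + 1) N) ≤
      Real.exp (4 * K) * ∫ G, pf (M := M) C nc n f s k c G ∂(gam M N) := by
  have hi := integrable_pf (M := M + 1) (C := C) (n := n) hfm s k c
  rw [integral_gam_succ hi, ← integral_const_mul]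
  have hi2 := integrable_gam_succ hi
  refine integral_mono_ae hi2.integral_prod_left ((integrable_pf hfm s k c).const_mul _) ?_
  filter_upwards [hi2.prod_right_ae] with G hG
  have h1 : ∀ g : Fin N → ℝ, pf C nc n f s k c
      (Fin.snoc (α := fun _ => Fin N → ℝ) G g : Fin (M + 1) → Fin N → ℝ) ≤
      Real.exp (4 * K) * pf C nc n f s k c G := by
    intro g
    unfold pf
    rw [QQ_snoc]
    exact S6Trans_944.pE_tl_le (𝓕 := fil C nc n) (QQ_isProb f G s) (xs_expo nc n)
      (V := VV C nc n (f M) g) (fun ω => hK _ _) (fun _ _ => abs_nonneg _) k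
  refine (integral_mono hG (integrable_const _) h1).trans (le_of_eq ?_)
  simp

theorem pair_down (hfm : ∀ a, Measurable (f a)) (hK : ∀ a x, |f a x| ≤ K) (k : ℕ) (c : ℝ) :
    ∫ G, pf (M := M) C nc n f s k c G ∂(gam M N) ≤
      Real.exp (4 * K) * ∫ G, pf (M := M + 1) C nc n f s k c G ∂(gam (M + 1) N) := by
  have hi := integrable_pf (M := M + 1) (C := C) (n := n) hfm s k c
  rw [integral_gam_succ hi, ← integral_const_mul]
  have hi2 := integrable_gam_succ hi
  refine integral_mono_ae (integrable_pf hfm s k c) (hi2.integral_prod_left.const_mul _) ?_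
  filter_upwards [hi2.prod_right_ae] with G hG
  have h1 : ∀ g : Fin N → ℝ, pf C nc n f s k c G ≤ Real.exp (4 * K) * pf C nc n f s k c
      (Fin.snoc (α := fun _ => Fin N → ℝ) G g : Fin (M + 1) → Fin N → ℝ) := by
    intro g
    unfold pf
    rw [QQ_snoc]
    exact S6Trans_944.pE_le_tl (𝓕 := fil C nc n) (QQ_isProb f G s) (xs_expo nc n)
      (V := VV C nc n (f M) g) (fun ω => hK _ _) (fun _ _ => abs_nonneg _) k
  have h2 := integral_mono (integrable_const _) (hG.const_mul (Real.exp (4 * K))) h1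
  rw [integral_const_mul] at h2
  simpa using h2

/-- (T-up) -/
theorem SkelP.up (hfm : ∀ a, Measurable (f a)) (hK : ∀ a x, |f a x| ≤ K)
    (h : SkelP C nc n f M s J wc τ P e) :
    SkelP C nc n f (M + 1) s J wc τ P (Real.exp (4 * K) * e) :=
  ⟨h.blk, fun b hb => (pair_up hfm hK (τ b) (P b)).trans
    (mul_le_mul_of_nonneg_left (h.pair b hb) (Real.exp_pos _).le)⟩

/-- (T-down) -/
theorem SkelP.down (hfm : ∀ a, Measurable (f a)) (hK : ∀ a x, |f a x| ≤ K)
    (h : SkelP C nc n f (M + 1) s J wc τ P e) :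
    SkelP C nc n f M s J wc τ P (Real.exp (4 * K) * e) :=
  ⟨h.blk, fun b hb => (pair_down hfm hK (τ b) (P b)).trans
    (mul_le_mul_of_nonneg_left (h.pair b hb) (Real.exp_pos _).le)⟩

theorem SkelP.ups (hfm : ∀ a, Measurable (f a)) (hK : ∀ a x, |f a x| ≤ K)
    (h : SkelP C nc n f M s J wc τ P e) (j : ℕ) :
    SkelP C nc n f (M + j) s J wc τ P (Real.exp (4 * K * j) * e) := by
  induction j with
  | zero => simpa using h
  | succ j ih =>
    have := ih.up hfm hK
    rw [← add_assoc]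
    refine this.mono (le_of_eq ?_)
    rw [← mul_assoc, ← Real.exp_add]
    push_cast
    congr 2
    ring

/-- the mean overlap of two conditionally independent copies. -/
theorem pE_ovl (Q : Om C nc n → ℝ) (hQ : IsProb Q) (r : Setoid (Om C nc n)) :
    pE Q r (fun a b => ovl C nc n a b) =
      eE Q (fun ω => (N : ℝ)⁻¹ * ∑ i, (cE Q r (fun w => C.x w.1 i) ω) ^ 2) := by
  have h1 : ∀ a, cE Q r (fun b => ovl C nc n a b) a =
      (N : ℝ)⁻¹ * ∑ i, C.x a.1 i * cE Q r (fun w => C.x w.1 i) a := by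
    intro a
    unfold ovl
    rw [cE_smul, cE_sum]
    congr 1
    refine Finset.sum_congr rfl fun i _ => ?_
    rw [cE_smul]
  unfold pE
  simp_rw [h1]
  rw [eE_smul, eE_sum, eE_smul, eE_sum]
  congr 1
  refine Finset.sum_congr rfl fun i _ => ?_
  rw [← eE_cE hQ r (fun a => C.x a.1 i * cE Q r (fun w => C.x w.1 i) a)]
  congr 1
  funext a
  rw [cE_mul_right (cE_meas Q r _)]
  ring

/-- the levels of a skeleton are close to the prescribed constants. -/
theorem Rk_sub_le (hfm : ∀ a, Measurable (f a)) (k : ℕ) (c : ℝ)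
    (h : ∫ G, pE (QQ C nc n (M := M) f G s) ((fil C nc n).F k)
      (fun a b => |ovl C nc n a b - c|) ∂(gam M N) ≤ e) :
    |Rk C nc n f M s k - c| ≤ e := by
  refine le_trans ?_ h
  have e1 : Rk C nc n f M s k - c = ∫ G, pE (QQ C nc n (M := M) f G s) ((fil C nc n).F k)
      (fun a b => ovl C nc n a b - c) ∂(gam M N) := by
    have h2 : ∀ G : Fin M → Fin N → ℝ, pE (QQ C nc n (M := M) f G s) ((fil C nc n).F k)
        (fun a b => ovl C nc n a b - c) = eE (QQ C nc n (M := M) f G s) (fun ω => (N : ℝ)⁻¹ *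
    ∑ i, (cE (QQ C nc n (M := M) f G s) ((fil C nc n).F k) (fun w => C.x w.1 i) ω) ^ 2) - c := by
      intro G
      have hQ := QQ_isProb (C := C) (n := n) f G s
      rw [← pE_ovl _ hQ]
      unfold pE
      simp_rw [cE_sub, cE_const hQ]
      rw [eE_sub, eE_const hQ]
    simp_rw [h2]
    have hi : Integrable (fun G : Fin M → Fin N → ℝ => eE (QQ C nc n (M := M) f G s)
        (fun ω => (N : ℝ)⁻¹ * ∑ i, (cE (QQ C nc n (M := M) f G s) ((fil C nc n).F k)
          (fun w => C.x w.1 i) ω) ^ 2)) (gam M N) := by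
      rcases Nat.eq_zero_or_pos N with hN | hN
      · subst hN
        have : (fun G : Fin M → Fin 0 → ℝ => eE (QQ C nc n (M := M) f G s)
          (fun ω => ((0 : ℕ) : ℝ)⁻¹ * ∑ i, (cE (QQ C nc n (M := M) f G s) ((fil C nc n).F k)
          (fun w => C.x w.1 i) ω) ^ 2)) = fun _ => 0 := by
          funext G
          simp [eE]
        rw [this]
        exact integrable_const _
      · exact S6UBb_167.integrable_rk hN hfm k
    rw [integral_sub hi (integrable_const _)]
    simp only [integral_const, probReal_univ, smul_eq_mul, one_mul]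
    rfl
  rw [e1]
  refine abs_integral_le_integral_abs.trans ?_
  have hm : ∀ G : Fin M → Fin N → ℝ, |pE (QQ C nc n (M := M) f G s) ((fil C nc n).F k)
      (fun a b => ovl C nc n a b - c)| ≤ pE (QQ C nc n (M := M) f G s) ((fil C nc n).F k)
      (fun a b => |ovl C nc n a b - c|) := by
    intro G
    have hQ := QQ_isProb (C := C) (n := n) f G s
    unfold pE
    refine (eE_abs_le hQ _).trans (eE_mono hQ fun a => cE_abs_le hQ _ a)
  refine integral_mono_of_nonneg (ae_of_all _ fun _ => abs_nonneg _)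
    (integrable_pf (M := M) (C := C) (n := n) hfm s k c) (ae_of_all _ hm)

/-- back to `Skel`. -/
theorem SkelP.skel (hfm : ∀ a, Measurable (f a)) (h : SkelP C nc n f M s J wc τ P e) :
    Skel C nc n f M s J wc τ (2 * e) := by
  refine ⟨h.blk, fun b hb => ?_⟩
  have h1 := Rk_sub_le hfm (τ b) (P b) (h.pair b hb)
  set R := Rk C nc n f M s (τ b) with hR
  have h2 : ∀ G : Fin M → Fin N → ℝ, pf (M := M) C nc n f s (τ b) R G ≤
      pf (M := M) C nc n f s (τ b) (P b) G + |R - P b| := by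
    intro G
    have hQ := QQ_isProb (C := C) (n := n) f G s
    unfold pf
    have h3 : pE (QQ C nc n f G s) ((fil C nc n).F (τ b)) (fun a c => |ovl C nc n a c - P b|) +
        |R - P b| = pE (QQ C nc n f G s) ((fil C nc n).F (τ b))
          (fun a c => |ovl C nc n a c - P b| + |R - P b|) := by
      rw [S6Trans_944.pE_add, S6Trans_944.pE_const hQ]
    rw [h3]
    refine S6Trans_944.pE_mono hQ fun a c _ => ?_
    have : ovl C nc n a c - R = (ovl C nc n a c - P b) - (R - P b) := by ring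
    rw [this]
    exact abs_sub _ _
  have h4 : ∫ G, pf (M := M) C nc n f s (τ b) R G ∂(gam M N) ≤
      ∫ G, pf (M := M) C nc n f s (τ b) (P b) G ∂(gam M N) + |R - P b| := by
    have h5 := integral_mono (integrable_pf (M := M) (C := C) (n := n) hfm s (τ b) R)
      ((integrable_pf (M := M) (C := C) (n := n) hfm s (τ b) (P b)).add
        (integrable_const |R - P b|)) h2
    rw [integral_add' (integrable_pf (M := M) (C := C) (n := n) hfm s (τ b) (P b))
      (integrable_const _)] at h5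
    simpa using h5
  have h6 := h.pair b hb
  have h7 : ∫ G, pf (M := M) C nc n f s (τ b) R G ∂(gam M N) ≤ 2 * e := by
    refine h4.trans ((add_le_add h6 h1).trans (le_of_eq ?_))
    ring
  exact h7

theorem N_FN_sub (hN : 0 < N) (M M' : ℕ) : (N : ℝ) * (FN C nc n f M' s - FN C nc n f M s) =
    PhE C nc n f M' s - PhE C nc n f M s := by
  have : (N : ℝ) ≠ 0 := by exact_mod_cast hN.ne'
  unfold FN PhE
  field_simp
  ring

/-- the increment in one row: levels close to prescribed constants. -/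
theorem row_one (J : ℕ) (K L ε : ℝ) (hε : 0 < ε) : ∃ ε1 : ℝ, 0 < ε1 ∧
    ∀ (wc nc : ℕ), 2 ≤ wc → nc + 1 = (J + 1) * wc → ∀ (N n : ℕ), 0 < N → 0 < n →
    ∀ (C : Cfg N) (f : ℕ → ℝ → ℝ) (M : ℕ), (∀ a, BL K L (f a)) → ∀ (s : Fin nc → ℝ)
    (τ : ℕ → ℕ) (P : ℕ → ℝ), Lev J P → SkelP C nc n f (M + 1) s J wc τ P ε1 →
    |PhE C nc n f (M + 1) s - PhE C nc n f M s - Th J (f M) P| ≤
      60 * K ^ 2 * Real.exp (4 * K) / ((J : ℝ) + 1) + ε := by
  obtain ⟨ε1, hε1, hcav⟩ := S6Cavity_769.cav J K L (ε / 2) (half_pos hε)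
  refine ⟨min (ε1 / 2) (ε / (2 * (L ^ 2 + 1))), lt_min (half_pos hε1) (by positivity), ?_⟩
  intro wc nc hwc hnc N n hN hn C f M hf s τ P hP h
  have hfm : ∀ a, Measurable (f a) := fun a => S6UBa_167.BL.meas (hf a)
  have hsk : Skel C nc n f (M + 1) s J wc τ ε1 := by
    have h1 := h.skel hfm
    refine ⟨h1.blk, fun b hb => (h1.pair b hb).trans ?_⟩
    have : min (ε1 / 2) (ε / (2 * (L ^ 2 + 1))) ≤ ε1 / 2 := min_le_left _ _
    linarith
  have h1 := hcav wc nc hwc hnc N n hN hn C f M hf s τ hsk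
  rw [N_FN_sub hN] at h1
  have hR : Lev J fun b => Rk C nc n f (M + 1) s (τ b) :=
    lev_Rk hN hfm (M + 1) s (tau_mono (by omega) h.blk)
  have h2 := MonF_422.lip J K L (f M) (hf M) _ P hR hP
  have h3 : ∑ j ∈ range (J + 1), |Rk C nc n f (M + 1) s (τ j) - P j| ≤
      ((J : ℝ) + 1) * (ε / (2 * (L ^ 2 + 1))) := by
    calc ∑ j ∈ range (J + 1), |Rk C nc n f (M + 1) s (τ j) - P j| ≤
        ∑ _j ∈ range (J + 1), (ε / (2 * (L ^ 2 + 1))) := by
          refine Finset.sum_le_sum fun j hj => ?_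
          have hj := Finset.mem_range.1 hj
          exact (Rk_sub_le hfm (τ j) (P j) (h.pair j (by omega))).trans (min_le_right _ _)
      _ = _ := by rw [Finset.sum_const, Finset.card_range, nsmul_eq_mul]; push_cast; ring
  have h4 : L ^ 2 / ((J : ℝ) + 1) * ∑ j ∈ range (J + 1), |Rk C nc n f (M + 1) s (τ j) - P j| ≤
      ε / 2 := by
    have hJ : (0 : ℝ) < (J : ℝ) + 1 := by positivity
    calc _ ≤ L ^ 2 / ((J : ℝ) + 1) * (((J : ℝ) + 1) * (ε / (2 * (L ^ 2 + 1)))) :=
          mul_le_mul_of_nonneg_left h3 (by positivity)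
      _ = (ε / 2) * (L ^ 2 / (L ^ 2 + 1)) := by field_simp
      _ ≤ (ε / 2) * 1 := by
          refine mul_le_mul_of_nonneg_left ?_ (half_pos hε).le
          rw [div_le_one (by positivity)]; linarith
      _ = ε / 2 := mul_one _
  have h5 : PhE C nc n f (M + 1) s - PhE C nc n f M s - Th J (f M) P =
      (PhE C nc n f (M + 1) s - PhE C nc n f M s -
        Th J (f M) (fun b => Rk C nc n f (M + 1) s (τ b))) +
      (Th J (f M) (fun b => Rk C nc n f (M + 1) s (τ b)) - Th J (f M) P) := by ring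
  rw [h5]
  refine (abs_add_le _ _).trans ?_
  linarith

/-- **(L1)** several new rows, one path, skeleton known in the smallest system only. -/
theorem rows (J : ℕ) (K L ε : ℝ) (m : ℕ) (hε : 0 < ε) : ∃ ε1 : ℝ, 0 < ε1 ∧
    ∀ (wc nc : ℕ), 2 ≤ wc → nc + 1 = (J + 1) * wc → ∀ (N n : ℕ), 0 < N → 0 < n →
    ∀ (C : Cfg N) (f : ℕ → ℝ → ℝ) (M : ℕ), (∀ a, BL K L (f a)) → ∀ (s : Fin nc → ℝ)
    (τ : ℕ → ℕ) (P : ℕ → ℝ), Lev J P → SkelP C nc n f M s J wc τ P ε1 →
    ∀ j < m, |PhE C nc n f (M + j + 1) s - PhE C nc n f (M + j) s - Th J (f (M + j)) P| ≤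
      60 * K ^ 2 * Real.exp (4 * K) / ((J : ℝ) + 1) + ε := by
  obtain ⟨ε1, hε1, hrow⟩ := row_one J K L ε hε
  refine ⟨ε1 / Real.exp (4 * |K| * m), by positivity, ?_⟩
  intro wc nc hwc hnc N n hN hn C f M hf s τ P hP h j hj
  have hfm : ∀ a, Measurable (f a) := fun a => S6UBa_167.BL.meas (hf a)
  have hK : ∀ a x, |f a x| ≤ K := fun a => (hf a).bd
  refine hrow wc nc hwc hnc N n hN hn C f (M + j) hf s τ P hP ?_
  have h1 := h.ups hfm hK (j + 1)
  rw [← add_assoc] at h1
  refine h1.mono ?_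
  rw [mul_div_assoc', div_le_iff₀ (Real.exp_pos _), mul_comm ε1]
  refine mul_le_mul_of_nonneg_right (Real.exp_le_exp.2 ?_) hε1.le
  have h2 : ((j + 1 : ℕ) : ℝ) ≤ m := by exact_mod_cast hj
  have h3 : K ≤ |K| := le_abs_self K
  have h4 : 4 * K * ((j + 1 : ℕ) : ℝ) ≤ 4 * |K| * ((j + 1 : ℕ) : ℝ) := by
    have : (0 : ℝ) ≤ ((j + 1 : ℕ) : ℝ) := Nat.cast_nonneg _
    nlinarith
  have h5 : 4 * |K| * ((j + 1 : ℕ) : ℝ) ≤ 4 * |K| * m :=
    mul_le_mul_of_nonneg_left h2 (by positivity)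
  linarith

/-- the same, one row function. -/
theorem rows_const (J : ℕ) (K L ε : ℝ) (m : ℕ) (hε : 0 < ε) : ∃ ε1 : ℝ, 0 < ε1 ∧
    ∀ (wc nc : ℕ), 2 ≤ wc → nc + 1 = (J + 1) * wc → ∀ (N n : ℕ), 0 < N → 0 < n →
    ∀ (C : Cfg N) (f : ℝ → ℝ) (M : ℕ), BL K L f → ∀ (s : Fin nc → ℝ)
    (τ : ℕ → ℕ) (P : ℕ → ℝ), Lev J P → SkelP C nc n (fun _ => f) M s J wc τ P ε1 →
    ∀ j ≤ m, |PhE C nc n (fun _ => f) (M + j) s - PhE C nc n (fun _ => f) M s - j * Th J f P| ≤
      j * (60 * K ^ 2 * Real.exp (4 * K) / ((J : ℝ) + 1) + ε) := by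
  obtain ⟨ε1, hε1, hrow⟩ := rows J K L ε m hε
  refine ⟨ε1, hε1, ?_⟩
  intro wc nc hwc hnc N n hN hn C f M hf s τ P hP h j
  induction j with
  | zero => intro _; simp
  | succ j ih =>
    intro hj
    have h1 := ih (by omega)
    have h2 := hrow wc nc hwc hnc N n hN hn C (fun _ => f) M (fun _ => hf) s τ P hP h j hj
    rw [← add_assoc]
    push_cast
    rw [abs_le] at h1 h2 ⊢
    constructor <;> nlinarith [h1.1, h1.2, h2.1, h2.2]

end

end Crest.Agent.R146.L1Row_167
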