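import Mathlib

/-!
Row 146, S0206, lower bound, new coordinate (L3), helper663.
Part A: deterministic one-row Taylor bound.
-/

set_option autoImplicit false

namespace Crest.Agent.R146.L3Tay_663

open Finset MeasureTheory ProbabilityTheory

/-- `f` with two derivatives, everything bounded by `K`, `f''` `K`-Lipschitz -/
structure S3 (K : ℝ) (f f1 f2 : ℝ → ℝ) : Prop where
  d1 : ∀ x, HasDerivAt f (f1 x) x
  d2 : ∀ x, HasDerivAt f1 (f2 x) x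
  b0 : ∀ x, |f x| ≤ K
  b1 : ∀ x, |f1 x| ≤ K
  b2 : ∀ x, |f2 x| ≤ K
  l2 : ∀ x y, |f2 x - f2 y| ≤ K * |x - y|

theorem S3.nK {K : ℝ} {f f1 f2 : ℝ → ℝ} (h : S3 K f f1 f2) : 0 ≤ K :=
  (abs_nonneg _).trans (h.b0 0)

theorem mvt_abs {g g' : ℝ → ℝ} (hg : ∀ x, HasDerivAt g (g' x) x) {B u : ℝ}
    (hB : ∀ v, |v| ≤ |u| → |g' v| ≤ B) : |g u - g 0| ≤ B * |u| := by
  have h1 : ∀ x ∈ Set.uIcc 0 u, HasDerivWithinAt g (g' x) (Set.uIcc 0 u) x :=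
    fun x _ => (hg x).hasDerivWithinAt
  have h2 : ∀ x ∈ Set.uIcc 0 u, ‖g' x‖ ≤ B := by
    intro x hx
    rw [Real.norm_eq_abs]
    apply hB
    rcases le_total 0 u with h | h
    · rw [Set.uIcc_of_le h] at hx
      rw [abs_of_nonneg hx.1, abs_of_nonneg h]; exact hx.2
    · rw [Set.uIcc_of_ge h] at hx
      rw [abs_of_nonpos hx.2, abs_of_nonpos h]; linarith [hx.1]
  have h3 := (convex_uIcc (𝕜 := ℝ) 0 u).norm_image_sub_le_of_norm_hasDerivWithin_le h1 h2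
    Set.left_mem_uIcc Set.right_mem_uIcc
  simpa [Real.norm_eq_abs] using h3

theorem taylor3 {K : ℝ} {f f1 f2 : ℝ → ℝ} (h : S3 K f f1 f2) (x u : ℝ) :
    |f (x + u) - f x - u * f1 x - u ^ 2 / 2 * f2 x| ≤ K * |u| ^ 3 := by
  have hK := h.nK
  have e1 : ∀ v, |f1 (x + v) - f1 x - v * f2 x| ≤ K * |v| * |v| := by
    intro v
    have := mvt_abs (g := fun v => f1 (x + v) - f1 x - v * f2 x)
      (g' := fun v => f2 (x + v) - f2 x) (u := v) (B := K * |v|) (fun w => by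
        have a1 : HasDerivAt (fun w => f1 (x + w)) (f2 (x + w)) w := by
          simpa using (h.d2 (x + w)).comp_const_add x w
        have a2 : HasDerivAt (fun w : ℝ => w * f2 x) (f2 x) w := by
          simpa using (hasDerivAt_id w).mul_const (f2 x)
        exact (a1.sub_const (f1 x)).sub a2) (fun w hw => by
        have := h.l2 (x + w) x
        rw [add_sub_cancel_left] at this
        exact this.trans (mul_le_mul_of_nonneg_left hw hK))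
    simpa using this
  have := mvt_abs (g := fun v => f (x + v) - f x - v * f1 x - v ^ 2 / 2 * f2 x)
    (g' := fun v => f1 (x + v) - f1 x - v * f2 x) (u := u) (B := K * |u| * |u|) (fun w => by
      have a1 : HasDerivAt (fun w => f (x + w)) (f1 (x + w)) w := by
        simpa using (h.d1 (x + w)).comp_const_add x w
      have a2 : HasDerivAt (fun w : ℝ => w * f1 x) (f1 x) w := by
        simpa using (hasDerivAt_id w).mul_const (f1 x)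
      have a3 : HasDerivAt (fun w : ℝ => w ^ 2 / 2 * f2 x) (w * f2 x) w := by
        have := (((hasDerivAt_id w).pow 2).div_const 2).mul_const (f2 x)
        refine this.congr_deriv ?_
        simp
      exact ((a1.sub_const (f x)).sub a2).sub a3) (fun w hw => by
      refine (e1 w).trans ?_
      gcongr)
  have e2 : K * |u| ^ 3 = K * |u| * |u| * |u| := by ring
  rw [e2]
  simpa using this

/-- the scale factor of the old row argument -/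
noncomputable def cN (n t : ℝ) : ℝ := Real.sqrt ((n + 1 - t ^ 2) / (n + 1))

/-- the scale factor of the old coordinates -/
noncomputable def rN (n t : ℝ) : ℝ := Real.sqrt ((n + 1 - t ^ 2) / n)

theorem cN_bounds {n t : ℝ} (hn : 1 ≤ n) (ht : t ^ 2 ≤ n) :
    0 ≤ 1 - cN n t ∧ 1 - cN n t ≤ t ^ 2 / (n + 1) ∧
      |1 - cN n t - t ^ 2 / (n + 1) / 2| ≤ (t ^ 2 / (n + 1)) ^ 2 / 2 := by
  set w : ℝ := t ^ 2 / (n + 1) with hw
  have hn1 : 0 < n + 1 := by linarith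
  have hw0 : 0 ≤ w := by positivity
  have hw1 : w ≤ 1 := by rw [hw, div_le_one hn1]; linarith
  have hc : cN n t = Real.sqrt (1 - w) := by
    unfold cN; congr 1; rw [hw]; field_simp
  have hc0 : 0 ≤ cN n t := Real.sqrt_nonneg _
  have hc2 : cN n t ^ 2 = 1 - w := by rw [hc, Real.sq_sqrt (by linarith)]
  have hc1 : cN n t ≤ 1 := by nlinarith
  refine ⟨by linarith, ?_, ?_⟩
  · nlinarith
  · have h3 : 0 ≤ 1 - cN n t - w / 2 := by nlinarith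
    rw [abs_of_nonneg h3]
    -- 1 - c - w/2 with w = 1 - c^2 : = (1-c) - (1-c^2)/2 = (1-c)^2/2
    nlinarith [sq_nonneg (1 - cN n t), mul_nonneg hw0 (sub_nonneg.2 hc1)]

theorem rN_bounds {n t : ℝ} (hn : 1 ≤ n) (ht : t ^ 2 ≤ n) :
    |rN n t - 1| ≤ (1 + t ^ 2) / n := by
  have hn0 : 0 < n := by linarith
  set a : ℝ := (1 - t ^ 2) / n with ha
  have hr : rN n t = Real.sqrt (1 + a) := by
    unfold rN; congr 1; rw [ha]; field_simp; ring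
  have h1a : 0 ≤ 1 + a := by
    have : 1 + a = (n + 1 - t ^ 2) / n := by rw [ha]; field_simp; ring
    rw [this]; apply div_nonneg <;> linarith
  have hr0 : 0 ≤ rN n t := Real.sqrt_nonneg _
  have hr2 : rN n t ^ 2 = 1 + a := by rw [hr, Real.sq_sqrt h1a]
  have h1 : |rN n t - 1| ≤ |a| := by
    have h2 : (rN n t - 1) * (rN n t + 1) = a := by nlinarith
    have h3 : |rN n t - 1| * (rN n t + 1) = |a| := by
      rw [← h2, abs_mul, abs_of_nonneg (by linarith : 0 ≤ rN n t + 1)]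
    nlinarith [abs_nonneg (rN n t - 1), abs_nonneg a]
  refine h1.trans ?_
  rw [ha, abs_div, abs_of_pos hn0]
  apply div_le_div_of_nonneg_right _ hn0.le
  rw [abs_le]; constructor <;> nlinarith [sq_nonneg t]

/-- the linear part of the displacement -/
theorem lin_bound {p q c t T x g : ℝ} (hq0 : 0 < q) (hp0 : 0 < p) (hq1 : q ≤ 1) (hpq : p ≤ q)
    (hT : 1 ≤ T) (htT : |t| ≤ T) (hqp2 : q ^ 2 - p ^ 2 ≤ q ^ 4) (hqp : q - p ≤ q ^ 3)
    (hc2 : |1 - c - t ^ 2 * p ^ 2 / 2| ≤ (t ^ 2 * p ^ 2) ^ 2 / 2) :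
    |(-(1 - c) * x + g * t * p) - (t * q * g - t ^ 2 * q ^ 2 / 2 * x)| ≤
      q ^ 3 * T ^ 4 * (|x| + |g|) := by
  have hT0 : 0 ≤ T := by linarith
  have ht2 : t ^ 2 ≤ T ^ 2 := by
    rw [← sq_abs t]; gcongr
  have hpq2 : p ^ 2 ≤ q ^ 2 := by gcongr
  have hT24 : T ^ 2 ≤ T ^ 4 := pow_le_pow_right₀ hT (by norm_num)
  have hT14 : T ≤ T ^ 4 := by
    calc T = T ^ 1 := by ring
      _ ≤ T ^ 4 := pow_le_pow_right₀ hT (by norm_num)
  have e : (-(1 - c) * x + g * t * p) - (t * q * g - t ^ 2 * q ^ 2 / 2 * x) =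
      -((1 - c - t ^ 2 * p ^ 2 / 2) * x) + (t ^ 2 * (q ^ 2 - p ^ 2) / 2 * x) -
        t * g * (q - p) := by
    ring
  rw [e]
  have b1 : |(1 - c - t ^ 2 * p ^ 2 / 2) * x| ≤ q ^ 3 * T ^ 4 / 2 * |x| := by
    rw [abs_mul]
    refine mul_le_mul_of_nonneg_right (hc2.trans ?_) (abs_nonneg _)
    have : (t ^ 2 * p ^ 2) ^ 2 ≤ q ^ 3 * T ^ 4 := by
      calc (t ^ 2 * p ^ 2) ^ 2 ≤ (T ^ 2 * q ^ 2) ^ 2 := by gcongr
        _ = q ^ 3 * T ^ 4 * q := by ring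
        _ ≤ q ^ 3 * T ^ 4 * 1 := by gcongr
        _ = _ := by ring
    linarith
  have b2 : |t ^ 2 * (q ^ 2 - p ^ 2) / 2 * x| ≤ q ^ 3 * T ^ 4 / 2 * |x| := by
    rw [abs_mul]
    refine mul_le_mul_of_nonneg_right ?_ (abs_nonneg _)
    rw [abs_of_nonneg (by
      have : 0 ≤ q ^ 2 - p ^ 2 := by linarith
      positivity)]
    have : t ^ 2 * (q ^ 2 - p ^ 2) ≤ q ^ 3 * T ^ 4 := by
      calc t ^ 2 * (q ^ 2 - p ^ 2) ≤ T ^ 4 * q ^ 4 := by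
            apply mul_le_mul (ht2.trans hT24) hqp2 (by linarith) (by positivity)
        _ = q ^ 3 * T ^ 4 * q := by ring
        _ ≤ q ^ 3 * T ^ 4 * 1 := by gcongr
        _ = _ := by ring
    linarith
  have b3 : |t * g * (q - p)| ≤ q ^ 3 * T ^ 4 * |g| := by
    rw [abs_mul, abs_mul, abs_of_nonneg (by linarith : 0 ≤ q - p)]
    calc |t| * |g| * (q - p) ≤ T ^ 4 * |g| * q ^ 3 := by
          gcongr
          exact htT.trans hT14
      _ = _ := by ring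
  calc |-((1 - c - t ^ 2 * p ^ 2 / 2) * x) + (t ^ 2 * (q ^ 2 - p ^ 2) / 2 * x) -
        t * g * (q - p)|
      ≤ |-((1 - c - t ^ 2 * p ^ 2 / 2) * x) + (t ^ 2 * (q ^ 2 - p ^ 2) / 2 * x)| +
        |t * g * (q - p)| := abs_sub _ _
    _ ≤ (|-((1 - c - t ^ 2 * p ^ 2 / 2) * x)| + |t ^ 2 * (q ^ 2 - p ^ 2) / 2 * x|) +
        |t * g * (q - p)| := add_le_add (abs_add_le _ _) le_rfl
    _ ≤ q ^ 3 * T ^ 4 / 2 * |x| + q ^ 3 * T ^ 4 / 2 * |x| + q ^ 3 * T ^ 4 * |g| := by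
        rw [abs_neg]; linarith
    _ = _ := by ring

/-- the quadratic part of the displacement -/
theorem quad_bound {p q c t T x g : ℝ} (hq0 : 0 < q) (hp0 : 0 < p) (hq1 : q ≤ 1) (hpq : p ≤ q)
    (hT : 1 ≤ T) (htT : |t| ≤ T) (hqp2 : q ^ 2 - p ^ 2 ≤ q ^ 4)
    (hc0 : 0 ≤ 1 - c) (hc3 : 1 - c ≤ T ^ 2 * q ^ 2) :
    |(-(1 - c) * x + g * t * p) ^ 2 - t ^ 2 * q ^ 2 * g ^ 2| ≤
      q ^ 3 * T ^ 4 * (|x| + |g|) ^ 2 := by
  have hT0 : 0 ≤ T := by linarith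
  have ht2 : t ^ 2 ≤ T ^ 2 := by
    rw [← sq_abs t]; gcongr
  have hpq2 : p ^ 2 ≤ q ^ 2 := by gcongr
  have hTT : T ^ 2 ≤ T ^ 4 := pow_le_pow_right₀ hT (by norm_num)
  have hTT3 : T ^ 3 ≤ T ^ 4 := pow_le_pow_right₀ hT (by norm_num)
  have hgt : |g * t * p| ≤ T * q * |g| := by
    rw [abs_mul, abs_mul, abs_of_pos hp0]
    calc |g| * |t| * p ≤ |g| * T * q := by gcongr
      _ = T * q * |g| := by ring
  have e : (-(1 - c) * x + g * t * p) ^ 2 - t ^ 2 * q ^ 2 * g ^ 2 =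
      -(t ^ 2 * g ^ 2 * (q ^ 2 - p ^ 2)) - 2 * (g * t * p) * ((1 - c) * x) +
        ((1 - c) * x) ^ 2 := by
    ring
  rw [e]
  have b1 : |t ^ 2 * g ^ 2 * (q ^ 2 - p ^ 2)| ≤ q ^ 3 * T ^ 4 * |g| ^ 2 := by
    rw [abs_of_nonneg (by
      have : 0 ≤ q ^ 2 - p ^ 2 := by linarith
      positivity), ← sq_abs g]
    calc t ^ 2 * |g| ^ 2 * (q ^ 2 - p ^ 2) ≤ T ^ 4 * |g| ^ 2 * (q ^ 4) := by
          gcongr
          exact ht2.trans hTT
      _ = q ^ 3 * T ^ 4 * |g| ^ 2 * q := by ring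
      _ ≤ q ^ 3 * T ^ 4 * |g| ^ 2 * 1 := by gcongr
      _ = _ := by ring
  have b2 : |2 * (g * t * p) * ((1 - c) * x)| ≤ q ^ 3 * T ^ 4 * (2 * |g| * |x|) := by
    rw [abs_mul, abs_mul, abs_two, abs_mul (1 - c), abs_of_nonneg hc0]
    calc 2 * |g * t * p| * ((1 - c) * |x|) ≤ 2 * (T * q * |g|) * ((T ^ 2 * q ^ 2) * |x|) := by
          gcongr
      _ = q ^ 3 * T ^ 3 * (2 * |g| * |x|) := by ring
      _ ≤ q ^ 3 * T ^ 4 * (2 * |g| * |x|) := by gcongr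
  have b3 : |((1 - c) * x) ^ 2| ≤ q ^ 3 * T ^ 4 * |x| ^ 2 := by
    rw [abs_of_nonneg (sq_nonneg _), mul_pow, ← sq_abs x]
    calc (1 - c) ^ 2 * |x| ^ 2 ≤ (T ^ 2 * q ^ 2) ^ 2 * |x| ^ 2 := by gcongr
      _ = q ^ 3 * T ^ 4 * |x| ^ 2 * q := by ring
      _ ≤ q ^ 3 * T ^ 4 * |x| ^ 2 * 1 := by gcongr
      _ = _ := by ring
  calc |-(t ^ 2 * g ^ 2 * (q ^ 2 - p ^ 2)) - 2 * (g * t * p) * ((1 - c) * x) +
        ((1 - c) * x) ^ 2|
      ≤ |-(t ^ 2 * g ^ 2 * (q ^ 2 - p ^ 2)) - 2 * (g * t * p) * ((1 - c) * x)| +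
        |((1 - c) * x) ^ 2| := abs_add_le _ _
    _ ≤ (|-(t ^ 2 * g ^ 2 * (q ^ 2 - p ^ 2))| + |2 * (g * t * p) * ((1 - c) * x)|) +
        |((1 - c) * x) ^ 2| := add_le_add (abs_sub _ _) le_rfl
    _ ≤ q ^ 3 * T ^ 4 * |g| ^ 2 + q ^ 3 * T ^ 4 * (2 * |g| * |x|) +
        q ^ 3 * T ^ 4 * |x| ^ 2 := by rw [abs_neg]; linarith
    _ = _ := by ring

/-- the size of the displacement -/
theorem disp_bound {p q c t T x g : ℝ} (hq0 : 0 < q) (hp0 : 0 < p) (hq1 : q ≤ 1) (hpq : p ≤ q)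
    (hT : 1 ≤ T) (htT : |t| ≤ T) (hc0 : 0 ≤ 1 - c) (hc3 : 1 - c ≤ T ^ 2 * q ^ 2) :
    |(-(1 - c) * x + g * t * p)| ≤ T ^ 2 * q * (|x| + |g|) := by
  have hT0 : 0 ≤ T := by linarith
  have hc4 : 1 - c ≤ T ^ 2 * q := by
    refine hc3.trans ?_
    calc T ^ 2 * q ^ 2 = T ^ 2 * q * q := by ring
      _ ≤ T ^ 2 * q * 1 := by gcongr
      _ = _ := by ring
  have hT12 : T ≤ T ^ 2 := by nlinarith
  have hgt : |g * t * p| ≤ T ^ 2 * q * |g| := by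
    rw [abs_mul, abs_mul, abs_of_pos hp0]
    calc |g| * |t| * p ≤ |g| * T ^ 2 * q := by
          gcongr
          exact htT.trans hT12
      _ = T ^ 2 * q * |g| := by ring
  have hcx : |-(1 - c) * x| ≤ T ^ 2 * q * |x| := by
    rw [neg_mul, abs_neg, abs_mul, abs_of_nonneg hc0]; gcongr
  calc |(-(1 - c) * x + g * t * p)| ≤ |-(1 - c) * x| + |g * t * p| := abs_add_le _ _
    _ ≤ T ^ 2 * q * |x| + T ^ 2 * q * |g| := add_le_add hcx hgt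
    _ = _ := by ring

/-- abstract assembly of the Taylor bound -/
theorem taylor_assemble {K : ℝ} {f f1 f2 : ℝ → ℝ} (h : S3 K f f1 f2) {q t T x g u : ℝ}
    (hq0 : 0 < q) (hT : 1 ≤ T)
    (hu : |u| ≤ T ^ 2 * q * (|x| + |g|))
    (hlin : |u - (t * q * g - t ^ 2 * q ^ 2 / 2 * x)| ≤ q ^ 3 * T ^ 4 * (|x| + |g|))
    (hquad : |u ^ 2 - t ^ 2 * q ^ 2 * g ^ 2| ≤ q ^ 3 * T ^ 4 * (|x| + |g|) ^ 2) :
    |f (x + u) - f x - (t * q * (g * f1 x) + t ^ 2 * q ^ 2 / 2 * (g ^ 2 * f2 x - x * f1 x))| ≤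
      12 * K * T ^ 6 * q ^ 3 * (1 + |x| ^ 3 + |g| ^ 3) := by
  have hK := h.nK
  have hTay := taylor3 h x u
  set a : ℝ := |x| + |g| with ha
  have ha0 : 0 ≤ a := by positivity
  have hu3 : |u| ^ 3 ≤ T ^ 6 * q ^ 3 * a ^ 3 := by
    calc |u| ^ 3 ≤ (T ^ 2 * q * a) ^ 3 := by gcongr
      _ = _ := by ring
  have hT46 : T ^ 4 ≤ T ^ 6 := pow_le_pow_right₀ hT (by norm_num)
  have e0 : f (x + u) - f x - (t * q * (g * f1 x) + t ^ 2 * q ^ 2 / 2 * (g ^ 2 * f2 x - x * f1 x)) =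
      (f (x + u) - f x - u * f1 x - u ^ 2 / 2 * f2 x) +
      (u - (t * q * g - t ^ 2 * q ^ 2 / 2 * x)) * f1 x +
      (u ^ 2 - t ^ 2 * q ^ 2 * g ^ 2) / 2 * f2 x := by
    ring
  rw [e0]
  have c1 : |(u - (t * q * g - t ^ 2 * q ^ 2 / 2 * x)) * f1 x| ≤ q ^ 3 * T ^ 4 * a * K := by
    rw [abs_mul]
    exact mul_le_mul hlin (h.b1 x) (abs_nonneg _) (by positivity)
  have c2 : |(u ^ 2 - t ^ 2 * q ^ 2 * g ^ 2) / 2 * f2 x| ≤ q ^ 3 * T ^ 4 * a ^ 2 / 2 * K := by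
    rw [abs_mul, abs_div, abs_two]
    exact mul_le_mul (by linarith) (h.b2 x) (abs_nonneg _) (by positivity)
  have hpoly : a ^ 3 + a + a ^ 2 / 2 ≤ 3 * (1 + a ^ 3) := by
    have s1 := mul_nonneg ha0 (sq_nonneg (a - 1))
    have s2 := sq_nonneg (a - 1)
    nlinarith
  have ha3 : a ^ 3 ≤ 4 * (|x| ^ 3 + |g| ^ 3) := by
    rw [ha]
    have s1 := mul_nonneg (add_nonneg (abs_nonneg x) (abs_nonneg g)) (sq_nonneg (|x| - |g|))
    nlinarith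
  calc |(f (x + u) - f x - u * f1 x - u ^ 2 / 2 * f2 x) +
      (u - (t * q * g - t ^ 2 * q ^ 2 / 2 * x)) * f1 x +
      (u ^ 2 - t ^ 2 * q ^ 2 * g ^ 2) / 2 * f2 x|
      ≤ |f (x + u) - f x - u * f1 x - u ^ 2 / 2 * f2 x| +
        |(u - (t * q * g - t ^ 2 * q ^ 2 / 2 * x)) * f1 x| +
        |(u ^ 2 - t ^ 2 * q ^ 2 * g ^ 2) / 2 * f2 x| :=
        (abs_add_le _ _).trans (add_le_add (abs_add_le _ _) le_rfl)
    _ ≤ K * (T ^ 6 * q ^ 3 * a ^ 3) + q ^ 3 * T ^ 6 * a * K + q ^ 3 * T ^ 6 * a ^ 2 / 2 * K := by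
        have d1 : K * |u| ^ 3 ≤ K * (T ^ 6 * q ^ 3 * a ^ 3) := by gcongr
        have d2 : q ^ 3 * T ^ 4 * a * K ≤ q ^ 3 * T ^ 6 * a * K := by gcongr
        have d3 : q ^ 3 * T ^ 4 * a ^ 2 / 2 * K ≤ q ^ 3 * T ^ 6 * a ^ 2 / 2 * K := by gcongr
        linarith
    _ = K * T ^ 6 * q ^ 3 * (a ^ 3 + a + a ^ 2 / 2) := by ring
    _ ≤ K * T ^ 6 * q ^ 3 * (3 * (1 + a ^ 3)) := by gcongr
    _ ≤ K * T ^ 6 * q ^ 3 * (3 * (4 * (1 + |x| ^ 3 + |g| ^ 3))) := by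
        gcongr
        have h0 : 0 ≤ |x| ^ 3 + |g| ^ 3 := by positivity
        linarith
    _ = _ := by ring

/-- **one-row Taylor bound** -/
theorem row_taylor {K : ℝ} {f f1 f2 : ℝ → ℝ} (h : S3 K f f1 f2) {n T t x g : ℝ} (hn : 1 ≤ n)
    (hT : 1 ≤ T) (htT : |t| ≤ T) (ht : t ^ 2 ≤ n) :
    |f (cN n t * x + g * t / Real.sqrt (n + 1)) - f x -
      (t / Real.sqrt n * (g * f1 x) + t ^ 2 / (2 * n) * (g ^ 2 * f2 x - x * f1 x))| ≤
      12 * K * T ^ 6 * ((Real.sqrt n)⁻¹) ^ 3 * (1 + |x| ^ 3 + |g| ^ 3) := by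
  have hn0 : 0 < n := by linarith
  have hn1 : 0 < n + 1 := by linarith
  have hsn : 0 < Real.sqrt n := Real.sqrt_pos.2 hn0
  have hsn1 : 0 < Real.sqrt (n + 1) := Real.sqrt_pos.2 hn1
  obtain ⟨q, hq⟩ : ∃ q, q = (Real.sqrt n)⁻¹ := ⟨_, rfl⟩
  obtain ⟨p, hp⟩ : ∃ p, p = (Real.sqrt (n + 1))⁻¹ := ⟨_, rfl⟩
  have hq0 : 0 < q := by rw [hq]; exact inv_pos.2 hsn
  have hp0 : 0 < p := by rw [hp]; exact inv_pos.2 hsn1
  have hq2 : q ^ 2 = 1 / n := by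
    rw [hq, inv_pow, Real.sq_sqrt hn0.le, one_div]
  have hp2 : p ^ 2 = 1 / (n + 1) := by
    rw [hp, inv_pow, Real.sq_sqrt hn1.le, one_div]
  have hq1 : q ≤ 1 := by
    rw [hq]; apply inv_le_one_of_one_le₀
    rw [Real.one_le_sqrt]; exact hn
  have hpq : p ≤ q := by
    rw [hp, hq]; apply inv_anti₀ hsn
    exact Real.sqrt_le_sqrt (by linarith)
  have hqp2 : q ^ 2 - p ^ 2 ≤ q ^ 4 := by
    have e1 : q ^ 4 = (1 / n) ^ 2 := by rw [← hq2]; ring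
    rw [e1, hq2, hp2]
    have : 1 / n - 1 / (n + 1) = 1 / (n * (n + 1)) := by field_simp; ring
    rw [this, one_div_pow]
    apply one_div_le_one_div_of_le (by positivity)
    nlinarith
  have hqp : q - p ≤ q ^ 3 := by
    have h1 : (q - p) * q ≤ q ^ 3 * q := by nlinarith
    exact le_of_mul_le_mul_right h1 hq0
  obtain ⟨hc0, hc1, hc2⟩ := cN_bounds hn ht
  obtain ⟨c, hc⟩ : ∃ c, c = cN n t := ⟨_, rfl⟩
  rw [← hc] at hc0 hc1 hc2 ⊢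
  have hw : t ^ 2 / (n + 1) = t ^ 2 * p ^ 2 := by rw [hp2]; ring
  rw [hw] at hc1 hc2
  have hT0 : 0 ≤ T := by linarith
  have ht2 : t ^ 2 ≤ T ^ 2 := by
    rw [← sq_abs t]; gcongr
  have hpq2 : p ^ 2 ≤ q ^ 2 := by gcongr
  have hc3 : 1 - c ≤ T ^ 2 * q ^ 2 := hc1.trans (by gcongr)
  have hxu : c * x + g * t / Real.sqrt (n + 1) = x + (-(1 - c) * x + g * t * p) := by
    rw [hp]; ring
  have e1 : t / Real.sqrt n = t * q := by rw [hq]; ring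
  have e2 : t ^ 2 / (2 * n) = t ^ 2 * q ^ 2 / 2 := by rw [hq2]; field_simp
  rw [hxu, e1, e2, ← hq]
  exact taylor_assemble h hq0 hT (disp_bound hq0 hp0 hq1 hpq hT htT hc0 hc3)
    (lin_bound hq0 hp0 hq1 hpq hT htT hqp2 hqp hc2)
    (quad_bound hq0 hp0 hq1 hpq hT htT hqp2 hc0 hc3)

end Crest.Agent.R146.L3Tay_663
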