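import Crest.Agent.R146.S6L_988
import Crest.Agent.R146.FobL_998
import Crest.Agent.R146.L3TayA_663

/-!
Row 146, S0206, lower bound, new coordinate (L3), helper663.
Part B: pointwise inequality `dV ≥ Lam - err` and its hierarchical form.
-/

set_option autoImplicit false

namespace Crest.Agent.R146.L3Tay_663

open Finset MeasureTheory ProbabilityTheory Crest.Agent.R141
open Crest.Agent.R146.S6Def_988 Crest.Agent.R146.S6U_988 Crest.Agent.R146.S6L_988

theorem S3.of {K : ℝ} {f f1 f2 : ℝ → ℝ} (h : S6L_988.S3 K f f1 f2) : L3Tay_663.S3 K f f1 f2 :=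
  ⟨h.d1, h.d2, h.b0, h.b1, h.b2, h.l2⟩

noncomputable section

variable {N : ℕ} {C : Cfg N} {nc n M : ℕ}

/-- fluctuation of the squares of the new column -/
def E1 (f2 : ℝ → ℝ) (G : Fin M → Fin N → ℝ) (g0 : Fin M → ℝ) (ω : Om C nc n) : ℝ :=
  (N : ℝ)⁻¹ * ∑ a : Fin M, f2 (hh G a (C.x ω.1)) * (g0 a ^ 2 - 1)

/-- deviation of the quadratic coefficient -/
def E2 (f1 f2 : ℝ → ℝ) (d : ℝ) (G : Fin M → Fin N → ℝ) (ω : Om C nc n) : ℝ :=
  RS C nc n f2 (fun _ => 1) G ω ω - RS C nc n f1 (fun x => x) G ω ω - d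

/-- cubic remainder -/
def E3 (G : Fin M → Fin N → ℝ) (g0 : Fin M → ℝ) (ω : Om C nc n) : ℝ :=
  ∑ a : Fin M, (1 + |hh G a (C.x ω.1)| ^ 3 + |g0 a| ^ 3)

/-- the total error -/
def err (k K : ℝ) (f1 f2 : ℝ → ℝ) (d : ℝ) (G : Fin M → Fin N → ℝ) (g0 : Fin M → ℝ)
    (s : Fin nc → ℝ) (ω : Om C nc n) : ℝ :=
  k ^ 2 / 2 * |E1 f2 G g0 ω| + k ^ 2 / 2 * |E2 f1 f2 d G ω| +
    12 * K * (max k 1) ^ 6 * ((Real.sqrt N)⁻¹) ^ 3 * E3 G g0 ω + (1 + k ^ 2) / N * |fieldE s ω|

theorem E3_nonneg (G : Fin M → Fin N → ℝ) (g0 : Fin M → ℝ) (ω : Om C nc n) : 0 ≤ E3 G g0 ω :=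
  Finset.sum_nonneg fun a _ => by positivity

theorem err_nonneg {k K : ℝ} (hK : 0 ≤ K) (f1 f2 : ℝ → ℝ) (d : ℝ) (G : Fin M → Fin N → ℝ)
    (g0 : Fin M → ℝ) (s : Fin nc → ℝ) (ω : Om C nc n) : 0 ≤ err k K f1 f2 d G g0 s ω := by
  unfold err
  have := E3_nonneg G g0 ω
  have h1 : (0:ℝ) ≤ max k 1 := le_trans zero_le_one (le_max_right _ _)
  positivity

/-- pointwise lower bound of the exponent -/
theorem dE_ge {K k : ℝ} {f f1 f2 : ℝ → ℝ} (h : S6L_988.S3 K f f1 f2) (hN : 0 < N)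
    (hkN : k ^ 2 ≤ N) (d : ℝ) (G : Fin M → Fin N → ℝ) (g0 : Fin M → ℝ) (s : Fin nc → ℝ)
    (ω : Om C nc n) {t : ℝ} (ht : |t| ≤ k) :
    t * (∑ a, Wv C nc n f1 G ω a * g0 a) + d * t ^ 2 / 2 - err k K f1 f2 d G g0 s ω ≤
      dE C nc n f G g0 s ω t := by
  have h3 := S3.of h
  have hn : (1:ℝ) ≤ N := by exact_mod_cast hN
  have hn0 : (0:ℝ) < N := by linarith
  have hk0 : 0 ≤ k := (abs_nonneg t).trans ht
  have htk : t ^ 2 ≤ k ^ 2 := by rw [← sq_abs t]; gcongr
  have ht2 : t ^ 2 ≤ N := htk.trans hkN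
  have htT : |t| ≤ max k 1 := ht.trans (le_max_left _ _)
  have hT : 1 ≤ max k 1 := le_max_right _ _
  -- rows
  have hrow : ∀ a : Fin M, t / Real.sqrt N * (g0 a * f1 (hh G a (C.x ω.1))) +
      t ^ 2 / (2 * N) * (g0 a ^ 2 * f2 (hh G a (C.x ω.1)) -
        hh G a (C.x ω.1) * f1 (hh G a (C.x ω.1))) -
      12 * K * (max k 1) ^ 6 * ((Real.sqrt N)⁻¹) ^ 3 *
        (1 + |hh G a (C.x ω.1)| ^ 3 + |g0 a| ^ 3) ≤
      f (Real.sqrt (((N : ℝ) + 1 - t ^ 2) / ((N : ℝ) + 1)) * hh G a (C.x ω.1) +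
        t / Real.sqrt ((N : ℝ) + 1) * g0 a) - f (hh G a (C.x ω.1)) := by
    intro a
    have := row_taylor h3 (x := hh G a (C.x ω.1)) (g := g0 a) hn hT htT ht2
    have e : g0 a * t / Real.sqrt ((N : ℝ) + 1) = t / Real.sqrt ((N : ℝ) + 1) * g0 a := by ring
    rw [e] at this
    have := (abs_le.1 this).1
    unfold cN at this
    linarith
  have hsum := Finset.sum_le_sum fun a (_ : a ∈ (univ : Finset (Fin M))) => hrow a
  -- field
  have hfield : -((1 + k ^ 2) / N * |fieldE s ω|) ≤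
      (Real.sqrt (((N : ℝ) + 1 - t ^ 2) / N) - 1) * fieldE s ω := by
    have h1 := rN_bounds (n := (N:ℝ)) hn ht2
    unfold rN at h1
    have h2 : |(Real.sqrt (((N : ℝ) + 1 - t ^ 2) / N) - 1) * fieldE s ω| ≤
        (1 + k ^ 2) / N * |fieldE s ω| := by
      rw [abs_mul]
      refine mul_le_mul_of_nonneg_right (h1.trans ?_) (abs_nonneg _)
      gcongr
    exact (abs_le.1 h2).1
  unfold dE
  -- algebra of the main terms
  have e1 : ∑ a : Fin M, (t / Real.sqrt N * (g0 a * f1 (hh G a (C.x ω.1))) +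
      t ^ 2 / (2 * N) * (g0 a ^ 2 * f2 (hh G a (C.x ω.1)) -
        hh G a (C.x ω.1) * f1 (hh G a (C.x ω.1))) -
      12 * K * (max k 1) ^ 6 * ((Real.sqrt N)⁻¹) ^ 3 *
        (1 + |hh G a (C.x ω.1)| ^ 3 + |g0 a| ^ 3)) =
      t * (∑ a, Wv C nc n f1 G ω a * g0 a) +
        t ^ 2 / 2 * (E1 f2 G g0 ω + E2 f1 f2 d G ω + d) -
        12 * K * (max k 1) ^ 6 * ((Real.sqrt N)⁻¹) ^ 3 * E3 G g0 ω := by
    unfold E1 E2 E3 RS Wv
    simp only [Finset.sum_sub_distrib, Finset.sum_add_distrib, ← Finset.mul_sum]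
    have a1 : ∑ a : Fin M, f2 (hh G a (C.x ω.1)) * (g0 a ^ 2 - 1) =
        (∑ a : Fin M, g0 a ^ 2 * f2 (hh G a (C.x ω.1))) - ∑ a : Fin M, f2 (hh G a (C.x ω.1)) * 1 := by
      rw [← Finset.sum_sub_distrib]
      exact Finset.sum_congr rfl fun a _ => by ring
    have a2 : ∑ a : Fin M, f1 (hh G a (C.x ω.1)) / Real.sqrt N * g0 a =
        (Real.sqrt N)⁻¹ * ∑ a : Fin M, g0 a * f1 (hh G a (C.x ω.1)) := by
      rw [Finset.mul_sum]
      exact Finset.sum_congr rfl fun a _ => by ring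
    have a3 : ∑ a : Fin M, f1 (hh G a (C.x ω.1)) * hh G a (C.x ω.1) =
        ∑ a : Fin M, hh G a (C.x ω.1) * f1 (hh G a (C.x ω.1)) :=
      Finset.sum_congr rfl fun a _ => by ring
    rw [a1, a2, a3]
    field_simp
    ring
  rw [e1] at hsum
  have hq : -(k ^ 2 / 2 * |E1 f2 G g0 ω| + k ^ 2 / 2 * |E2 f1 f2 d G ω|) ≤
      t ^ 2 / 2 * (E1 f2 G g0 ω + E2 f1 f2 d G ω) := by
    have b : |t ^ 2 / 2 * (E1 f2 G g0 ω + E2 f1 f2 d G ω)| ≤
        k ^ 2 / 2 * |E1 f2 G g0 ω| + k ^ 2 / 2 * |E2 f1 f2 d G ω| := by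
      rw [abs_mul, abs_of_nonneg (by positivity : 0 ≤ t ^ 2 / 2), ← mul_add]
      exact mul_le_mul (by linarith) (abs_add_le _ _) (abs_nonneg _) (by positivity)
    exact (abs_le.1 b).1
  unfold err
  linarith

theorem continuous_dE {f : ℝ → ℝ} (hf : Continuous f) (G : Fin M → Fin N → ℝ) (g0 : Fin M → ℝ)
    (s : Fin nc → ℝ) (ω : Om C nc n) : Continuous fun t => dE C nc n f G g0 s ω t := by
  unfold dE
  have h1 : Continuous fun t : ℝ => Real.sqrt (((N : ℝ) + 1 - t ^ 2) / ((N : ℝ) + 1)) := by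
    fun_prop
  have h2 : Continuous fun t : ℝ => Real.sqrt (((N : ℝ) + 1 - t ^ 2) / N) := by
    fun_prop
  refine Continuous.add ?_ ((h2.sub continuous_const).mul continuous_const)
  refine continuous_finsetSum _ fun a _ => ?_
  refine Continuous.sub (hf.comp ?_) continuous_const
  exact (h1.mul continuous_const).add ((continuous_id.div_const _).mul continuous_const)

theorem continuous_pdf : Continuous (gaussianPDFReal 0 1) := by
  unfold gaussianPDFReal
  fun_prop

theorem intg_pos {k : ℝ} (hk : 0 < k) {u : ℝ → ℝ} (hu : Continuous u) :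
    0 < ∫ t in (-k)..k, gaussianPDFReal 0 1 t * Real.exp (u t) := by
  apply intervalIntegral.intervalIntegral_pos_of_pos_on
  · exact (continuous_pdf.mul (Real.continuous_exp.comp hu)).intervalIntegrable _ _
  · intro x _
    exact mul_pos (gaussianPDFReal_pos 0 1 x one_ne_zero) (Real.exp_pos _)
  · linarith

/-- comparison of the one-dimensional log-integrals -/
theorem logint_mono {k c : ℝ} (hk : 0 < k) {u v : ℝ → ℝ} (hu : Continuous u) (hv : Continuous v)
    (h : ∀ t, |t| ≤ k → u t - c ≤ v t) :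
    Real.log (∫ t in (-k)..k, gaussianPDFReal 0 1 t * Real.exp (u t)) - c ≤
      Real.log (∫ t in (-k)..k, gaussianPDFReal 0 1 t * Real.exp (v t)) := by
  have h1 : Real.exp (-c) * ∫ t in (-k)..k, gaussianPDFReal 0 1 t * Real.exp (u t) ≤
      ∫ t in (-k)..k, gaussianPDFReal 0 1 t * Real.exp (v t) := by
    rw [← intervalIntegral.integral_const_mul]
    apply intervalIntegral.integral_mono_on (by linarith)
    · exact (continuous_const.mul (continuous_pdf.mul
        (Real.continuous_exp.comp hu))).intervalIntegrable _ _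
    · exact (continuous_pdf.mul (Real.continuous_exp.comp hv)).intervalIntegrable _ _
    · intro t ht
      have := h t (abs_le.2 ⟨ht.1, ht.2⟩)
      calc Real.exp (-c) * (gaussianPDFReal 0 1 t * Real.exp (u t)) =
          gaussianPDFReal 0 1 t * Real.exp (u t - c) := by
            rw [sub_eq_add_neg, Real.exp_add]; ring
        _ ≤ gaussianPDFReal 0 1 t * Real.exp (v t) :=
            mul_le_mul_of_nonneg_left (Real.exp_le_exp.2 this) (gaussianPDFReal_nonneg _ _ _)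
  have h2 := Real.log_le_log (mul_pos (Real.exp_pos _) (intg_pos hk hu)) h1
  rw [Real.log_mul (Real.exp_pos _).ne' (intg_pos hk hu).ne', Real.log_exp] at h2
  linarith

theorem continuous_Lexp (d y : ℝ) : Continuous fun t : ℝ => t * y + d * t ^ 2 / 2 := by
  fun_prop

/-- **the potential of the new coordinate from below** -/
theorem dV_ge {K k : ℝ} (hk : 0 < k) {f f1 f2 : ℝ → ℝ} (h : S6L_988.S3 K f f1 f2) (hN : 0 < N)
    (hkN : k ^ 2 ≤ N) (d : ℝ) (G : Fin M → Fin N → ℝ) (g0 : Fin M → ℝ) (s : Fin nc → ℝ)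
    (ω : Om C nc n) :
    Lam k d (∑ a, Wv C nc n f1 G ω a * g0 a) - err k K f1 f2 d G g0 s ω ≤
      dV C nc n k f G g0 s ω := by
  have hf : Continuous f := continuous_iff_continuousAt.2 fun x => (h.d1 x).continuousAt
  unfold Lam dV
  exact logint_mono hk (continuous_Lexp _ _) (continuous_dE hf _ _ _ _)
    fun t ht => dE_ge h hN hkN d G g0 s ω ht

/-- mass of the window -/
def kap (k : ℝ) : ℝ := ∫ t in (-k)..k, gaussianPDFReal 0 1 t

theorem kap_pos {k : ℝ} (hk : 0 < k) : 0 < kap k := by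
  have := intg_pos hk (u := fun _ => 0) continuous_const
  simpa [kap] using this

theorem kap_le_one {k : ℝ} (hk : 0 < k) : kap k ≤ 1 := by
  unfold kap
  rw [intervalIntegral.integral_of_le (by linarith)]
  have h1 : ∫ t in Set.Ioc (-k) k, gaussianPDFReal 0 1 t ≤ ∫ t, gaussianPDFReal 0 1 t := by
    apply setIntegral_le_integral (integrable_gaussianPDFReal 0 1)
    exact Filter.Eventually.of_forall fun x => gaussianPDFReal_nonneg 0 1 x
  rwa [integral_gaussianPDFReal_eq_one 0 one_ne_zero] at h1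

theorem odd_int (k : ℝ) : ∫ t in (-k)..k, gaussianPDFReal 0 1 t * t = 0 := by
  have h := intervalIntegral.integral_comp_neg (a := -k) (b := k)
    (fun t => gaussianPDFReal 0 1 t * t)
  rw [neg_neg] at h
  have h2 : ∫ x in (-k)..k, gaussianPDFReal 0 1 (-x) * (-x) =
      - ∫ x in (-k)..k, gaussianPDFReal 0 1 x * x := by
    rw [← intervalIntegral.integral_neg]
    apply intervalIntegral.integral_congr
    intro x _
    simp only
    have : gaussianPDFReal 0 1 (-x) = gaussianPDFReal 0 1 x := by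
      unfold gaussianPDFReal
      simp
    rw [this]; ring
  rw [h2] at h
  linarith

/-- lower bound of `Lam` -/
theorem Lam_ge {k : ℝ} (hk : 0 < k) {d D : ℝ} (hd : -D ≤ d) (hD : 0 ≤ D) (y : ℝ) :
    Real.log (kap k) - D * k ^ 2 / 2 ≤ Lam k d y := by
  have h1 : Real.log (∫ t in (-k)..k, gaussianPDFReal 0 1 t * Real.exp (t * y)) - D * k ^ 2 / 2 ≤
      Lam k d y := by
    unfold Lam
    apply logint_mono hk (by fun_prop) (continuous_Lexp _ _)
    intro t ht
    have ht2 : t ^ 2 ≤ k ^ 2 := by rw [← sq_abs t]; gcongr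
    nlinarith [sq_nonneg t]
  refine le_trans (sub_le_sub_right ?_ _) h1
  apply Real.log_le_log (kap_pos hk)
  have h2 : kap k = ∫ t in (-k)..k, (gaussianPDFReal 0 1 t + gaussianPDFReal 0 1 t * t * y) := by
    have i1 : IntervalIntegrable (fun t => gaussianPDFReal 0 1 t) volume (-k) k :=
      continuous_pdf.intervalIntegrable _ _
    have i2 : IntervalIntegrable (fun t => gaussianPDFReal 0 1 t * t * y) volume (-k) k :=
      ((continuous_pdf.mul continuous_id).mul continuous_const).intervalIntegrable _ _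
    rw [intervalIntegral.integral_add i1 i2, intervalIntegral.integral_mul_const, odd_int]
    simp [kap]
  rw [h2]
  apply intervalIntegral.integral_mono_on (by linarith)
  · exact (continuous_pdf.add ((continuous_pdf.mul continuous_id).mul
      continuous_const)).intervalIntegrable _ _
  · exact (continuous_pdf.mul (Real.continuous_exp.comp
      (continuous_id.mul continuous_const))).intervalIntegrable _ _
  · intro t _
    have := Real.add_one_le_exp (t * y)
    have h0 := gaussianPDFReal_nonneg 0 1 t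
    nlinarith

/-- `Lam` is `k`-Lipschitz -/
theorem Lam_lip {k : ℝ} (hk : 0 < k) (d y y' : ℝ) : |Lam k d y - Lam k d y'| ≤ k * |y - y'| := by
  have key : ∀ a b : ℝ, Lam k d a - k * |a - b| ≤ Lam k d b := by
    intro a b
    unfold Lam
    apply logint_mono hk (continuous_Lexp _ _) (continuous_Lexp _ _)
    intro t ht
    have h1 : t * (a - b) ≤ k * |a - b| := by
      calc t * (a - b) ≤ |t * (a - b)| := le_abs_self _
        _ = |t| * |a - b| := abs_mul _ _
        _ ≤ _ := by gcongr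
    nlinarith
  have h1 := key y y'
  have h2 := key y' y
  rw [abs_sub_comm y' y] at h2
  rw [abs_le]; constructor <;> linarith

theorem continuous_Lam {k : ℝ} (hk : 0 < k) (d : ℝ) : Continuous (Lam k d) := by
  have : LipschitzWith (Real.toNNReal k) (Lam k d) := by
    apply LipschitzWith.of_dist_le_mul
    intro a b
    rw [Real.dist_eq, Real.dist_eq, Real.coe_toNNReal _ hk.le]
    exact Lam_lip hk d a b
  exact this.continuous

/-- the bound of the truncated potential -/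
def cV (k L D : ℝ) : ℝ := max L (D * k ^ 2 / 2 - Real.log (kap k))

theorem LamT_abs {k : ℝ} (hk : 0 < k) {d D L : ℝ} (hd : -D ≤ d) (hD : 0 ≤ D) (hL : 0 ≤ L) (y : ℝ) :
    |LamT k d L y| ≤ cV k L D := by
  have h1 := Lam_ge hk hd hD y
  have h2 : Real.log (kap k) ≤ 0 := Real.log_nonpos (kap_pos hk).le (kap_le_one hk)
  unfold LamT cV
  rw [abs_le]
  constructor
  · apply le_min
    · have := le_max_right L (D * k ^ 2 / 2 - Real.log (kap k))
      linarith
    · have := le_max_left L (D * k ^ 2 / 2 - Real.log (kap k))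
      linarith
  · exact (min_le_right _ _).trans (le_max_left _ _)

theorem cV_nonneg {k L D : ℝ} (hL : 0 ≤ L) : 0 ≤ cV k L D := hL.trans (le_max_left _ _)

/-- hierarchical comparison: a lower bound of the potential up to an error -/
theorem eE_A_ge {Ω : Type} [Fintype Ω] {P : Ω → ℝ} (hP : IsProb P) {𝓕 : Filt Ω} (h0 : 𝓕.F 0 = ⊤)
    {x : ℕ → ℝ} (hx : IsExpo x) (hx0 : ∀ k, 0 < x k) {V W e : Ω → ℝ} {c : ℝ}
    (hV : ∀ ω, |V ω| ≤ c) (he : ∀ ω, 0 ≤ e ω) (h : ∀ ω, V ω - e ω ≤ W ω) :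
    eE P (A P 𝓕 x V 0) - Real.exp (2 * c) * eE P e ≤ eE P (A P 𝓕 x W 0) := by
  have h1 : ∀ ω, A P 𝓕 x V 0 ω - Real.exp (2 * c) * eE P e ≤ A P 𝓕 x W 0 ω := by
    intro ω
    have a1 : A P 𝓕 x (fun w => V w + (- e w)) 0 ω ≤ A P 𝓕 x W 0 ω :=
      A_mono hP hx0 (fun w => by have := h w; linarith) 0 ω
    rw [A_cocycle hP hx0 V (fun w => - e w) 0 ω] at a1
    have hT := tl_isProb (𝓕 := 𝓕) hP hx0 V
    have a2 := cE_le_A (P := tl P 𝓕 x V) (𝓕 := 𝓕) hT hx0 (fun w => - e w) 0 ω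
    rw [h0, eE_top hT] at a2
    have a3 : eE (tl P 𝓕 x V) (fun w => - e w) = - eE (tl P 𝓕 x V) e := by
      have := eE_smul (tl P 𝓕 x V) (-1) e
      simpa using this
    have a4 := eE_tl_le (𝓕 := 𝓕) hP hx hV he
    rw [a3] at a2
    linarith
  have h2 := eE_mono hP h1
  rw [eE_sub, eE_const hP] at h2
  exact h2

end

end Crest.Agent.R146.L3Tay_663
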