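import Crest.Agent.R146.L3TayB_663

/-!
Row 146, S0206, lower bound, new coordinate (L3), helper663.
Part C: the new column at fixed rows.
-/

set_option autoImplicit false

namespace Crest.Agent.R146.L3Tay_663

open Finset MeasureTheory ProbabilityTheory Crest.Agent.R141
open Crest.Agent.R146.S6Def_988 Crest.Agent.R146.S6U_988 Crest.Agent.R146.S6L_988
open Crest.Agent.R146.FobL_998

noncomputable section

instance gv_prob (M : ℕ) : IsProbabilityMeasure (gv M) := by
  unfold gv; infer_instance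

/-- the third absolute moment -/
def c3 : ℝ := ∫ x, |x| ^ 3 ∂(gaussianReal 0 1)

/-- variance of the square -/
def c4 : ℝ := Var[fun x => x ^ 2 - 1; gaussianReal 0 1]

theorem c3_nonneg : 0 ≤ c3 := integral_nonneg fun _ => by positivity
theorem c4_nonneg : 0 ≤ c4 := variance_nonneg _ _

theorem integrable_pow_gauss (p : ℕ) : Integrable (fun x : ℝ => |x| ^ p) (gaussianReal 0 1) := by
  have h := memLp_id_gaussianReal (μ := 0) (v := 1) (p : NNReal)
  have := h.integrable_norm_pow'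
  simpa using this

theorem memLp_sq : MemLp (fun x : ℝ => x ^ 2 - 1) 2 (gaussianReal 0 1) := by
  have h1 : MemLp (fun x : ℝ => x ^ 2) 2 (gaussianReal 0 1) := by
    rw [memLp_two_iff_integrable_sq (by fun_prop)]
    have := integrable_pow_gauss 4
    refine this.congr (Filter.Eventually.of_forall fun x => ?_)
    simp only
    rw [show (4:ℕ) = 2 * 2 by norm_num, pow_mul, sq_abs]
  exact h1.sub (memLp_const 1)

theorem integral_sq_sub : ∫ x, (x ^ 2 - 1) ∂(gaussianReal 0 1) = 0 := by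
  have h2 : Integrable (fun x : ℝ => x ^ 2) (gaussianReal 0 1) := by
    have := integrable_pow_gauss 2
    simpa using this
  rw [integral_sub h2 (integrable_const _)]
  have h := variance_fun_id_gaussianReal (μ := 0) (v := 1)
  rw [variance_of_integral_eq_zero (by fun_prop) (by simp)] at h
  rw [h]
  simp

section col

variable {N M : ℕ}

/-- fluctuation of a weighted sum of centred squares -/
theorem int_abs_sq_sum {r K : ℝ} (hr : 0 < r) (w : Fin M → ℝ) (hw : ∀ a, |w a| ≤ K) :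
    Integrable (fun g0 : Fin M → ℝ => |∑ a, w a * (g0 a ^ 2 - 1)|) (gv M) ∧
    ∫ g0, |∑ a, w a * (g0 a ^ 2 - 1)| ∂(gv M) ≤ (M * K ^ 2 * c4 / r + r) / 2 := by
  have hX : ∀ a : Fin M, MemLp (fun x : ℝ => w a * (x ^ 2 - 1)) 2 (gaussianReal 0 1) :=
    fun a => memLp_sq.const_mul (w a)
  have hXi : ∀ a : Fin M, MemLp (fun g0 : Fin M → ℝ => w a * (g0 a ^ 2 - 1)) 2 (gv M) :=
    fun a => (hX a).comp_measurePreserving (measurePreserving_eval (fun _ => gaussianReal 0 1) a)
  have hS : MemLp (fun g0 : Fin M → ℝ => ∑ a, w a * (g0 a ^ 2 - 1)) 2 (gv M) :=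
    memLp_finsetSum _ fun a _ => hXi a
  have hSi := hS.integrable one_le_two
  have hmean : ∫ g0, (∑ a, w a * (g0 a ^ 2 - 1)) ∂(gv M) = 0 := by
    rw [integral_finsetSum _ fun a _ => (hXi a).integrable one_le_two]
    apply Finset.sum_eq_zero
    intro a _
    have h1 : ∫ g0 : Fin M → ℝ, w a * (g0 a ^ 2 - 1) ∂(gv M) =
        ∫ x, w a * (x ^ 2 - 1) ∂(gaussianReal 0 1) := by
      unfold gv
      exact integral_comp_eval (μ := fun _ : Fin M => gaussianReal 0 1) (i := a)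
        (f := fun x => w a * (x ^ 2 - 1)) (by fun_prop)
    rw [h1, integral_const_mul, integral_sq_sub, mul_zero]
  have hvar : ∫ g0, (∑ a, w a * (g0 a ^ 2 - 1)) ^ 2 ∂(gv M) ≤ M * K ^ 2 * c4 := by
    have h1 : Var[∑ a, fun g0 : Fin M → ℝ => w a * (g0 a ^ 2 - 1); Measure.pi fun _ : Fin M => gaussianReal 0 1] =
        ∑ a, Var[fun x : ℝ => w a * (x ^ 2 - 1); gaussianReal 0 1] :=
      variance_sum_pi (μ := fun _ : Fin M => gaussianReal 0 1)
        (X := fun a x => w a * (x ^ 2 - 1)) hX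
    have h2 : (∑ a, fun g0 : Fin M → ℝ => w a * (g0 a ^ 2 - 1)) =
        fun g0 : Fin M → ℝ => ∑ a, w a * (g0 a ^ 2 - 1) := by
      ext g0; simp
    rw [h2] at h1
    have h3 : Var[fun g0 : Fin M → ℝ => ∑ a, w a * (g0 a ^ 2 - 1); gv M] =
        ∫ g0, (∑ a, w a * (g0 a ^ 2 - 1)) ^ 2 ∂(gv M) :=
      variance_of_integral_eq_zero hS.aestronglyMeasurable.aemeasurable hmean
    rw [← h3]
    unfold gv
    rw [h1]
    calc ∑ a, Var[fun x : ℝ => w a * (x ^ 2 - 1); gaussianReal 0 1]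
        ≤ ∑ _a : Fin M, K ^ 2 * c4 := by
          apply Finset.sum_le_sum
          intro a _
          rw [variance_const_mul]
          refine mul_le_mul_of_nonneg_right ?_ c4_nonneg
          rw [← sq_abs (w a)]
          have := hw a
          gcongr
      _ = _ := by rw [Finset.sum_const, card_univ, Fintype.card_fin, nsmul_eq_mul]; ring
  refine ⟨hSi.abs, ?_⟩
  have hsq := hS.integrable_sq
  have hpt : ∀ g0 : Fin M → ℝ, |∑ a, w a * (g0 a ^ 2 - 1)| ≤
      ((∑ a, w a * (g0 a ^ 2 - 1)) ^ 2 / r + r) / 2 := by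
    intro g0
    set S := ∑ a, w a * (g0 a ^ 2 - 1)
    have h1 : 0 ≤ (|S| - r) ^ 2 / r := by positivity
    have h2 : (|S| - r) ^ 2 / r = S ^ 2 / r - 2 * |S| + r := by
      rw [← sq_abs S]; field_simp; ring
    linarith
  calc ∫ g0, |∑ a, w a * (g0 a ^ 2 - 1)| ∂(gv M)
      ≤ ∫ g0, ((∑ a, w a * (g0 a ^ 2 - 1)) ^ 2 / r + r) / 2 ∂(gv M) := by
        apply integral_mono hSi.abs (((hsq.div_const _).add (integrable_const _)).div_const _)
        exact hpt
    _ = ((∫ g0, (∑ a, w a * (g0 a ^ 2 - 1)) ^ 2 ∂(gv M)) / r + r) / 2 := by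
        rw [integral_div, integral_add (hsq.div_const _) (integrable_const _), integral_div]
        simp
    _ ≤ _ := by gcongr

theorem int_cube (b : Fin M → ℝ) :
    Integrable (fun g0 : Fin M → ℝ => ∑ a, (1 + b a + |g0 a| ^ 3)) (gv M) ∧
    ∫ g0, ∑ a, (1 + b a + |g0 a| ^ 3) ∂(gv M) = ∑ a, (1 + b a) + M * c3 := by
  have h1 : ∀ a : Fin M, Integrable (fun g0 : Fin M → ℝ => |g0 a| ^ 3) (gv M) := by
    intro a
    exact (measurePreserving_eval (fun _ : Fin M => gaussianReal 0 1) a).integrable_comp_of_integrable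
      (integrable_pow_gauss 3)
  have h2 : ∀ a : Fin M, Integrable (fun g0 : Fin M → ℝ => 1 + b a + |g0 a| ^ 3) (gv M) :=
    fun a => (integrable_const _).add (h1 a)
  refine ⟨integrable_finsetSum _ fun a _ => h2 a, ?_⟩
  rw [integral_finsetSum _ fun a _ => h2 a]
  have h3 : ∀ a : Fin M, ∫ g0 : Fin M → ℝ, (1 + b a + |g0 a| ^ 3) ∂(gv M) = (1 + b a) + c3 := by
    intro a
    rw [integral_add (integrable_const _) (h1 a)]
    congr 1
    · simp
    · unfold gv c3
      exact integral_comp_eval (μ := fun _ : Fin M => gaussianReal 0 1) (i := a)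
        (f := fun x : ℝ => |x| ^ 3) (by fun_prop)
  rw [Finset.sum_congr rfl fun a _ => h3 a, Finset.sum_add_distrib, Finset.sum_const, card_univ,
    Fintype.card_fin, nsmul_eq_mul]

end col

section meas

variable {Θ : Type*} [MeasurableSpace Θ] {Ω : Type} [Fintype Ω]

theorem A_tl_eq {P : Ω → ℝ} (hP : IsProb P) {𝓕 : Filt Ω} {x : ℕ → ℝ} (hx : ∀ k, 0 < x k)
    (U V : Ω → ℝ) (k : ℕ) (ω : Ω) : A (tl P 𝓕 x U) 𝓕 x V k ω =
      A P 𝓕 x (fun w => U w + V w) k ω - A P 𝓕 x U k ω := by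
  rw [A_cocycle hP hx]; ring

theorem meas_eA {P : Ω → ℝ} (hP : IsProb P) {𝓕 : Filt Ω} {x : ℕ → ℝ} (hx : ∀ k, 0 < x k)
    {U V : Θ → Ω → ℝ} (hU : ∀ ω, Measurable fun θ => U θ ω) (hV : ∀ ω, Measurable fun θ => V θ ω) :
    Measurable fun θ => eE (tl P 𝓕 x (U θ)) (A (tl P 𝓕 x (U θ)) 𝓕 x (V θ) 0) := by
  apply meas_eE (fun ω => meas_tl hP hx hU ω)
  intro ω
  have : (fun θ => A (tl P 𝓕 x (U θ)) 𝓕 x (V θ) 0 ω) = fun θ =>
      A P 𝓕 x (fun w => U θ w + V θ w) 0 ω - A P 𝓕 x (U θ) 0 ω := by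
    ext θ; exact A_tl_eq hP hx _ _ _ _
  rw [this]
  exact (meas_A hP hx (fun ω => (hU ω).add (hV ω)) 0 ω).sub (meas_A hP hx hU 0 ω)

theorem eE_A_abs {P : Ω → ℝ} (hP : IsProb P) {𝓕 : Filt Ω} {x : ℕ → ℝ} (hx : ∀ k, 0 < x k)
    {V : Ω → ℝ} {B : ℝ} (hV : ∀ ω, |V ω| ≤ B) : |eE P (A P 𝓕 x V 0)| ≤ B :=
  (eE_abs_le hP _).trans (eE_le_of_le hP fun ω => A_abs_le hP hx hV 0 ω)

end meas

section sys

variable {N : ℕ} {C : Cfg N} {nc n M : ℕ}

theorem xs_pos (k : ℕ) : 0 < xs nc n k := (xs_isExpo nc n).pos k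

theorem QQ_isProb (f : ℕ → ℝ → ℝ) (G : Fin M → Fin N → ℝ) (s : Fin nc → ℝ) :
    IsProb (QQ C nc n f G s) :=
  tl_isProb (prior_isProb C nc n) (xs_isExpo nc n).pos _

theorem meas_hh (a : Fin M) (x : Fin N → ℝ) : Measurable fun G : Fin M → Fin N → ℝ => hh G a x := by
  unfold hh; fun_prop

/-- measurability of the hierarchical functional in the rows and in the new column -/
theorem meas_F {f : ℕ → ℝ → ℝ} (hf : ∀ a, Measurable (f a)) (s : Fin nc → ℝ)
    {V : (Fin M → Fin N → ℝ) → (Fin M → ℝ) → Om C nc n → ℝ}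
    (hV : ∀ ω, Measurable fun p : (Fin M → Fin N → ℝ) × (Fin M → ℝ) => V p.1 p.2 ω) :
    Measurable fun p : (Fin M → Fin N → ℝ) × (Fin M → ℝ) =>
      eE (QQ C nc n f p.1 s) (A (QQ C nc n f p.1 s) (fil C nc n) (xs nc n) (V p.1 p.2) 0) := by
  unfold QQ
  apply meas_eA (prior_isProb C nc n) (xs_isExpo nc n).pos
  · intro ω
    have := measurable_UU (C := C) (nc := nc) (n := n) (M := M) hf ω
    exact this.comp (measurable_const.prodMk measurable_fst)
  · exact hV

theorem integrable_F {f : ℕ → ℝ → ℝ} (hf : ∀ a, Measurable (f a)) (s : Fin nc → ℝ)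
    {V : (Fin M → Fin N → ℝ) → (Fin M → ℝ) → Om C nc n → ℝ}
    (hV : ∀ ω, Measurable fun p : (Fin M → Fin N → ℝ) × (Fin M → ℝ) => V p.1 p.2 ω) {B : ℝ}
    (hB : ∀ G g0 ω, |V G g0 ω| ≤ B) :
    (∀ G, Integrable (fun g0 => eE (QQ C nc n f G s)
      (A (QQ C nc n f G s) (fil C nc n) (xs nc n) (V G g0) 0)) (gv M)) ∧
    Integrable (fun G => ∫ g0, eE (QQ C nc n f G s)
      (A (QQ C nc n f G s) (fil C nc n) (xs nc n) (V G g0) 0) ∂(gv M)) (gam M N) := by
  have hm := meas_F hf s hV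
  have hb : ∀ G g0, |eE (QQ C nc n f G s)
      (A (QQ C nc n f G s) (fil C nc n) (xs nc n) (V G g0) 0)| ≤ B := fun G g0 =>
    eE_A_abs (QQ_isProb f G s) (xs_isExpo nc n).pos (hB G g0)
  constructor
  · intro G
    exact Integrable.of_bound (hm.comp measurable_prodMk_left).aestronglyMeasurable B
      (Filter.Eventually.of_forall fun g0 => by rw [Real.norm_eq_abs]; exact hb G g0)
  · have hi : Integrable (fun p : (Fin M → Fin N → ℝ) × (Fin M → ℝ) =>
        eE (QQ C nc n f p.1 s) (A (QQ C nc n f p.1 s) (fil C nc n) (xs nc n) (V p.1 p.2) 0))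
        ((gam M N).prod (gv M)) :=
      Integrable.of_bound hm.aestronglyMeasurable B
        (Filter.Eventually.of_forall fun p => by rw [Real.norm_eq_abs]; exact hb p.1 p.2)
    exact hi.integral_prod_left

/-- measurability of the potential of the new coordinate -/
theorem meas_dV {k : ℝ} (hk : 0 < k) {f : ℝ → ℝ} (hf : Continuous f) (s : Fin nc → ℝ)
    (ω : Om C nc n) : Measurable fun p : (Fin M → Fin N → ℝ) × (Fin M → ℝ) =>
      dV C nc n k f p.1 p.2 s ω := by
  unfold dV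
  apply Real.measurable_log.comp
  have h1 : Continuous (Function.uncurry fun (p : (Fin M → Fin N → ℝ) × (Fin M → ℝ)) (t : ℝ) =>
      gaussianPDFReal 0 1 t * Real.exp (dE C nc n f p.1 p.2 s ω t)) := by
    refine Continuous.mul (continuous_pdf.comp continuous_snd) (Real.continuous_exp.comp ?_)
    unfold dE hh
    refine Continuous.add (continuous_finsetSum _ fun a _ => ?_) ?_
    · refine Continuous.sub (hf.comp ?_) (hf.comp ?_)
      · refine Continuous.add (Continuous.mul ?_ ?_) (Continuous.mul ?_ ?_)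
        · apply Real.continuous_sqrt.comp
          fun_prop
        · fun_prop
        · fun_prop
        · fun_prop
      · fun_prop
    · refine Continuous.mul (Continuous.sub ?_ continuous_const) continuous_const
      apply Real.continuous_sqrt.comp
      fun_prop
  have h2 : (fun p : (Fin M → Fin N → ℝ) × (Fin M → ℝ) => ∫ t in (-k)..k,
      gaussianPDFReal 0 1 t * Real.exp (dE C nc n f p.1 p.2 s ω t)) = fun p =>
      ∫ t, gaussianPDFReal 0 1 t * Real.exp (dE C nc n f p.1 p.2 s ω t)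
        ∂(volume.restrict (Set.Ioc (-k) k)) := by
    ext p; rw [intervalIntegral.integral_of_le (by linarith)]
  rw [h2]
  exact (h1.stronglyMeasurable.integral_prod_right).measurable

theorem dV_abs {K k : ℝ} (hk : 0 < k) {f f1 f2 : ℝ → ℝ} (h : S6L_988.S3 K f f1 f2) (hN : 0 < N)
    (hkN : k ^ 2 ≤ N) (G : Fin M → Fin N → ℝ) (g0 : Fin M → ℝ) (s : Fin nc → ℝ) (ω : Om C nc n) :
    |dV C nc n k f G g0 s ω| ≤
      (2 * M * K + (1 + k ^ 2) / N * fB C nc n s) - Real.log (kap k) := by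
  have hn : (1:ℝ) ≤ N := by exact_mod_cast hN
  have hf : Continuous f := continuous_iff_continuousAt.2 fun x => (h.d1 x).continuousAt
  set B : ℝ := 2 * M * K + (1 + k ^ 2) / N * fB C nc n s with hB
  have hdE : ∀ t, |t| ≤ k → |dE C nc n f G g0 s ω t| ≤ B := by
    intro t ht
    have htk : t ^ 2 ≤ k ^ 2 := by rw [← sq_abs t]; gcongr
    have h1 := rN_bounds (n := (N:ℝ)) hn (htk.trans hkN)
    unfold rN at h1
    unfold dE
    refine (abs_add_le _ _).trans ?_
    rw [hB]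
    apply add_le_add
    · refine (Finset.abs_sum_le_sum_abs _ _).trans ?_
      calc _ ≤ ∑ _a : Fin M, (2 * K) := by
            apply Finset.sum_le_sum
            intro a _
            refine (abs_sub _ _).trans ?_
            have := h.b0 (Real.sqrt (((N : ℝ) + 1 - t ^ 2) / ((N : ℝ) + 1)) * hh G a (C.x ω.1) +
              t / Real.sqrt ((N : ℝ) + 1) * g0 a)
            have := h.b0 (hh G a (C.x ω.1))
            linarith
        _ = _ := by rw [Finset.sum_const, card_univ, Fintype.card_fin, nsmul_eq_mul]; ring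
    · rw [abs_mul]
      refine mul_le_mul (h1.trans ?_) (abs_fieldE_le s ω) (abs_nonneg _) (by positivity)
      gcongr
  have hl : Real.log (kap k) ≤ 0 := Real.log_nonpos (kap_pos hk).le (kap_le_one hk)
  have hk1 : Real.log (∫ t in (-k)..k, gaussianPDFReal 0 1 t * Real.exp ((fun _ => (0:ℝ)) t)) =
      Real.log (kap k) := by simp [kap]
  have u1 := logint_mono hk (u := fun _ => (0:ℝ)) (v := fun t => dE C nc n f G g0 s ω t) (c := B)
    continuous_const (continuous_dE hf G g0 s ω) (fun t ht => by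
      have := (abs_le.1 (hdE t ht)).1; linarith)
  have u2 := logint_mono hk (v := fun _ => (0:ℝ)) (u := fun t => dE C nc n f G g0 s ω t) (c := B)
    (continuous_dE hf G g0 s ω) continuous_const (fun t ht => by
      have := (abs_le.1 (hdE t ht)).2; linarith)
  rw [hk1] at u1 u2
  unfold dV
  rw [abs_le]
  constructor <;> linarith

theorem meas_LamT {k : ℝ} (hk : 0 < k) (d L : ℝ) {f1 : ℝ → ℝ} (hf1 : Continuous f1)
    (ω : Om C nc n) : Measurable fun p : (Fin M → Fin N → ℝ) × (Fin M → ℝ) =>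
      LamT k d L (∑ a, Wv C nc n f1 p.1 ω a * p.2 a) := by
  unfold LamT
  apply Measurable.min _ measurable_const
  apply (continuous_Lam hk d).measurable.comp
  unfold Wv
  apply Finset.measurable_sum
  intro a _
  refine Measurable.mul (Measurable.div_const ?_ _) ?_
  · exact hf1.measurable.comp ((meas_hh a (C.x ω.1)).comp measurable_fst)
  · exact (measurable_pi_apply a).comp measurable_snd

/-- the error at fixed rows, integrated over the new column -/
def RG (k K : ℝ) (f1 f2 : ℝ → ℝ) (d : ℝ) (G : Fin M → Fin N → ℝ) (s : Fin nc → ℝ)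
    (ω : Om C nc n) : ℝ :=
  k ^ 2 / 2 * (((M : ℝ) * (K ^ 2) * c4 / N + 1) / (2 * Real.sqrt N)) +
    k ^ 2 / 2 * |E2 f1 f2 d G ω| +
    12 * K * (max k 1) ^ 6 * ((Real.sqrt N)⁻¹) ^ 3 *
      (∑ a : Fin M, (1 + |hh G a (C.x ω.1)| ^ 3) + M * c3) + (1 + k ^ 2) / N * |fieldE s ω|

theorem int_err {k K : ℝ} (_hK : 0 ≤ K) {f1 f2 : ℝ → ℝ} (h2 : ∀ x, |f2 x| ≤ K) (hN : 0 < N)
    (d : ℝ) (G : Fin M → Fin N → ℝ) (s : Fin nc → ℝ) (ω : Om C nc n) :
    Integrable (fun g0 => err k K f1 f2 d G g0 s ω) (gv M) ∧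
    ∫ g0, err k K f1 f2 d G g0 s ω ∂(gv M) ≤ RG k K f1 f2 d G s ω := by
  have hn : (0:ℝ) < N := by exact_mod_cast hN
  have hsn : 0 < Real.sqrt N := Real.sqrt_pos.2 hn
  have hE1 : ∀ g0 : Fin M → ℝ, |E1 f2 G g0 ω| =
      (N:ℝ)⁻¹ * |∑ a, f2 (hh G a (C.x ω.1)) * (g0 a ^ 2 - 1)| := by
    intro g0
    unfold E1
    rw [abs_mul, abs_of_pos (inv_pos.2 hn)]
  obtain ⟨i1, b1⟩ := int_abs_sq_sum (r := Real.sqrt N) hsn (fun a => f2 (hh G a (C.x ω.1)))
    (fun a => h2 _)
  obtain ⟨i3, b3⟩ := int_cube (M := M) (fun a => |hh G a (C.x ω.1)| ^ 3)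
  have j1 : Integrable (fun g0 : Fin M → ℝ => k ^ 2 / 2 * |E1 f2 G g0 ω|) (gv M) := by
    simp only [hE1]
    exact (i1.const_mul _).const_mul _
  have j3 : Integrable (fun g0 : Fin M → ℝ => 12 * K * (max k 1) ^ 6 * ((Real.sqrt N)⁻¹) ^ 3 *
      E3 G g0 ω) (gv M) := by
    unfold E3
    exact i3.const_mul _
  have j12 : Integrable (fun g0 : Fin M → ℝ => k ^ 2 / 2 * |E1 f2 G g0 ω| +
      k ^ 2 / 2 * |E2 f1 f2 d G ω|) (gv M) := j1.add (integrable_const _)
  have j123 : Integrable (fun g0 : Fin M → ℝ => k ^ 2 / 2 * |E1 f2 G g0 ω| +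
      k ^ 2 / 2 * |E2 f1 f2 d G ω| + 12 * K * (max k 1) ^ 6 * ((Real.sqrt N)⁻¹) ^ 3 *
      E3 G g0 ω) (gv M) := j12.add j3
  have jj : Integrable (fun g0 => err k K f1 f2 d G g0 s ω) (gv M) := by
    unfold err
    exact j123.add (integrable_const _)
  refine ⟨jj, ?_⟩
  unfold err RG
  rw [integral_add j123 (integrable_const _),
    integral_add j12 j3, integral_add j1 (integrable_const _),
    integral_const, integral_const, integral_const_mul, integral_const_mul]
  simp only [probReal_univ, smul_eq_mul, one_mul]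
  have e3 : ∫ g0, E3 G g0 ω ∂(gv M) = ∑ a : Fin M, (1 + |hh G a (C.x ω.1)| ^ 3) + M * c3 := b3
  rw [e3]
  have e1 : ∫ g0, |E1 f2 G g0 ω| ∂(gv M) ≤
      (((M : ℝ) * (K ^ 2) * c4 / N + 1) / (2 * Real.sqrt N)) := by
    simp only [hE1]
    rw [integral_const_mul]
    refine (mul_le_mul_of_nonneg_left b1 (by positivity)).trans (le_of_eq ?_)
    have hs2 : Real.sqrt N ^ 2 = N := Real.sq_sqrt hn.le
    have hs0 : Real.sqrt N ≠ 0 := hsn.ne'
    have hN' : (N:ℝ) ≠ 0 := hn.ne'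
    have e : (N:ℝ)⁻¹ = ((Real.sqrt N) ^ 2)⁻¹ := by rw [hs2]
    rw [e, div_eq_mul_inv ((M:ℝ) * K ^ 2 * c4) (N:ℝ), e]
    field_simp
  have hkk : (0:ℝ) ≤ k ^ 2 / 2 := by positivity
  have := mul_le_mul_of_nonneg_left e1 hkk
  linarith

end sys

end

end Crest.Agent.R146.L3Tay_663
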