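import Crest.Agent.R146.S6U_988
import Crest.Agent.R146.Mon_422

/-!
# R146 (helper947): last step of the lower bound of S0206

`INC f`: for every rational density `p / r` there is a sequence `Lb N`, not above
`N (pressure + ε)`, whose increments over `r` coordinates (and `p` rows) are at least
`r (α V + S - ε)` for some step profile.
`LB_of_INC : PM → (∀ smooth f, INC f) → LB`.
-/

set_option autoImplicit false

open MeasureTheory ProbabilityTheory Filter Topology
open Crest.ProbabilityR.Perceptron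
open Crest.Agent.R146.S6Def_988 Crest.Agent.R146.S6U_988

namespace Crest.Agent.R146.LBAsm_947

/-- increments of the lower bound functional -/
def INC (f : ℝ → ℝ) : Prop :=
  ∀ (r p : ℕ) (ε : ℝ), 0 < r → 0 < p → 0 < ε → ∃ (Lb : ℕ → ℝ) (N0 : ℕ),
    (∀ N, N0 ≤ N → Lb N ≤ N * (pN N (fun _ => f) (numPatterns N ((p : ℝ) / r)) + ε)) ∧
    ∀ N, N0 ≤ N → ∃ (J : ℕ) (P : ℕ → ℝ), Lev J P ∧ P J < 1 ∧
      (r : ℝ) * (((p : ℝ) / r) * Th J f P + SP J P - ε) ≤ Lb (N + r) - Lb N

/-- telescoping: increments over `r` steps at least `r c` give `a N ≥ N c - C` -/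
theorem telescope (a : ℕ → ℝ) (r N0 : ℕ) (hr : 0 < r) (c : ℝ)
    (h : ∀ N, N0 ≤ N → r * c ≤ a (N + r) - a N) :
    ∃ C : ℝ, ∀ N, N0 ≤ N → (N : ℝ) * c - C ≤ a N := by
  -- bound on the first window
  obtain ⟨C, hC⟩ : ∃ C : ℝ, ∀ j, j < r → ((N0 + j : ℕ) : ℝ) * c - C ≤ a (N0 + j) := by
    refine ⟨∑ j ∈ Finset.range r, |((N0 + j : ℕ) : ℝ) * c - a (N0 + j)|, fun j hj => ?_⟩
    have h1 : |((N0 + j : ℕ) : ℝ) * c - a (N0 + j)| ≤
        ∑ j ∈ Finset.range r, |((N0 + j : ℕ) : ℝ) * c - a (N0 + j)| :=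
      Finset.single_le_sum (f := fun j => |((N0 + j : ℕ) : ℝ) * c - a (N0 + j)|)
        (fun _ _ => abs_nonneg _) (Finset.mem_range.2 hj)
    have h2 := le_abs_self (((N0 + j : ℕ) : ℝ) * c - a (N0 + j))
    linarith
  refine ⟨C, ?_⟩
  have key : ∀ k j, j < r → ((N0 + j + k * r : ℕ) : ℝ) * c - C ≤ a (N0 + j + k * r) := by
    intro k
    induction k with
    | zero => intro j hj; simpa using hC j hj
    | succ k ih =>
      intro j hj
      have h1 := ih j hj
      have h2 := h (N0 + j + k * r) (by omega)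
      have h3 : N0 + j + (k + 1) * r = N0 + j + k * r + r := by ring
      rw [h3]
      push_cast at h1 ⊢
      nlinarith
  intro N hN
  obtain ⟨d, rfl⟩ := Nat.exists_eq_add_of_le hN
  have h1 := key (d / r) (d % r) (Nat.mod_lt _ hr)
  have h2 : N0 + d % r + d / r * r = N0 + d := by
    have := Nat.mod_add_div d r
    rw [Nat.mul_comm] at this
    omega
  rwa [h2] at h1

lemma numPatterns_le {N : ℕ} {α : ℝ} (hα : 0 < α) : (numPatterns N α : ℝ) ≤ α * N := by
  unfold numPatterns
  exact Nat.floor_le (by positivity)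

lemma lt_numPatterns {N : ℕ} {α : ℝ} : α * N < (numPatterns N α : ℝ) + 1 := by
  unfold numPatterns
  exact Nat.lt_floor_add_one _

/-- the increment of the number of patterns along `r` coordinates at density `p / r` -/
theorem numPatterns_add {r p : ℕ} (hr : 0 < r) (N : ℕ) :
    numPatterns (N + r) ((p : ℝ) / r) = numPatterns N ((p : ℝ) / r) + p := by
  unfold numPatterns
  have h : ((p : ℝ) / r) * ((N + r : ℕ) : ℝ) = ((p : ℝ) / r) * N + (p : ℕ) := by
    have : (r : ℝ) ≠ 0 := by exact_mod_cast hr.ne'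
    push_cast
    field_simp
  rw [h, Nat.floor_add_natCast (by positivity)]

/-- a rational just below a positive real, as a quotient of positive naturals -/
theorem exists_ratio {α δ : ℝ} (hα : 0 < α) (hδ : 0 < δ) :
    ∃ r p : ℕ, 0 < r ∧ 0 < p ∧ (p : ℝ) / r ≤ α ∧ α - δ ≤ (p : ℝ) / r := by
  obtain ⟨q, hq1, hq2⟩ := exists_rat_btwn (show max 0 (α - δ) < α from max_lt hα (by linarith))
  have hq0 : (0 : ℝ) < q := (le_max_left _ _).trans_lt hq1
  have hq0' : 0 < q := by exact_mod_cast hq0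
  have hnum : 0 < q.num := Rat.num_pos.2 hq0'
  have h1 : ((q.num.toNat : ℕ) : ℝ) / (q.den : ℝ) = (q : ℝ) := by
    have h2 : ((q.num.toNat : ℕ) : ℤ) = q.num := Int.toNat_of_nonneg hnum.le
    have h3 : ((q.num.toNat : ℕ) : ℝ) = ((q.num : ℤ) : ℝ) := by
      exact_mod_cast congrArg (fun z : ℤ => (z : ℝ)) h2
    rw [h3]
    exact_mod_cast (Rat.num_div_den q)
  refine ⟨q.den, q.num.toNat, q.den_pos, ?_, ?_, ?_⟩
  · omega
  · rw [h1]; exact hq2.le
  · rw [h1]; exact (le_max_right _ _).trans hq1.le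

/-- **the lower bound from its increments** -/
theorem LB_of_INC (hPM : PM)
    (hSP : ∀ (J : ℕ) (P : ℕ → ℝ), Lev J P → P J < 1 → 0 ≤ SP J P)
    (hINC : ∀ f : ℝ → ℝ, (∀ n : ℕ, ContDiff ℝ n f) →
      (∀ k : ℕ, ∃ C, ∀ x, |iteratedDeriv k f x| ≤ C) → INC f) : LB := by
  intro f hs hder α ε hα hε
  -- bounds on f
  obtain ⟨K, hK⟩ := hder 0
  have hK : ∀ x, |f x| ≤ K := fun x => by simpa [iteratedDeriv_zero] using hK x
  have hK0 : 0 ≤ K := (abs_nonneg _).trans (hK 0)
  obtain ⟨L, hL⟩ := hder 1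
  have hBL : BL K L f := by
    refine ⟨hK, fun x y => ?_⟩
    have hd : Differentiable ℝ f := (hs 1).differentiable (by norm_num)
    have := Convex.norm_image_sub_le_of_norm_deriv_le (f := f) (C := L) (s := Set.univ)
      (x := y) (y := x) (fun z _ => hd z) (fun z _ => by
        have := hL z
        rw [iteratedDeriv_one] at this
        rw [Real.norm_eq_abs]
        exact this) convex_univ (Set.mem_univ _) (Set.mem_univ _)
    simpa [Real.norm_eq_abs] using this
  have hTh : ∀ (J : ℕ) (P : ℕ → ℝ), Lev J P → |Th J f P| ≤ K := fun J P hP =>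
    Mon_422.Th_abs_le hP hBL
  obtain ⟨r, p, hr, hp, hle, hge⟩ := exists_ratio hα (show (0 : ℝ) < ε / (8 * (K + 1)) by positivity)
  set α' : ℝ := (p : ℝ) / r with hα'
  have hα'0 : 0 < α' := by
    have : (0 : ℝ) < r := by exact_mod_cast hr
    have : (0 : ℝ) < p := by exact_mod_cast hp
    positivity
  obtain ⟨Lb, N0, hub, hinc⟩ := hINC f hs hder r p (ε / 8) hr hp (by positivity)
  -- the infimum over step profiles
  set T : Set ℝ := {x | ∃ (J : ℕ) (P : ℕ → ℝ), Lev J P ∧ P J < 1 ∧ x = α' * Th J f P + SP J P}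
    with hT
  have hTn : T.Nonempty := by
    refine ⟨_, 0, fun _ => 0, ⟨le_rfl, fun _ _ _ _ => le_rfl, zero_le_one⟩, by norm_num, rfl⟩
  have hTb : BddBelow T := by
    refine ⟨-(α' * K), ?_⟩
    rintro x ⟨J, P, hP, hlt, rfl⟩
    have h1 := (abs_le.1 (hTh J P hP)).1
    have h2 := hSP J P hP hlt
    have h3 : α' * (-K) ≤ α' * Th J f P := mul_le_mul_of_nonneg_left h1 hα'0.le
    linarith
  set c : ℝ := sInf T with hc
  have hrR : (0 : ℝ) < r := by exact_mod_cast hr
  have hinc' : ∀ N, N0 ≤ N → r * (c - ε / 8) ≤ Lb (N + r) - Lb N := by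
    intro N hN
    obtain ⟨J, P, hP, hlt, h1⟩ := hinc N hN
    have h2 : c ≤ α' * Th J f P + SP J P := csInf_le hTb ⟨J, P, hP, hlt, rfl⟩
    refine le_trans ?_ h1
    exact mul_le_mul_of_nonneg_left (by linarith) hrR.le
  obtain ⟨C, hC⟩ := telescope Lb r N0 hr (c - ε / 8) hinc'
  -- near minimiser
  obtain ⟨x, ⟨J, P, hP, hlt, rfl⟩, hx⟩ := exists_lt_of_csInf_lt hTn
    (show sInf T < c + ε / 8 by rw [← hc]; linarith)
  have hev : ∀ᶠ N : ℕ in atTop, (|C| + K) / (N : ℝ) ≤ ε / 8 := by
    have : Tendsto (fun N : ℕ => (|C| + K) / (N : ℝ)) atTop (𝓝 0) :=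
      tendsto_const_div_atTop_nhds_zero_nat _
    exact this.eventually (ge_mem_nhds (by positivity))
  obtain ⟨N1, hN1⟩ := eventually_atTop.1 ((hev.and (eventually_ge_atTop N0)).and
    (eventually_gt_atTop 0))
  refine ⟨N1, fun N hN => ⟨J, P, hP, hlt, ?_⟩⟩
  obtain ⟨⟨hCN, hN0⟩, hNpos⟩ := hN1 N hN
  have hNR : (0 : ℝ) < N := by exact_mod_cast hNpos
  have h1 := hC N hN0
  have h2 := hub N hN0
  -- pressure at density α'
  have h3 : c - ε / 8 - |C| / N - ε / 8 ≤ pN N (fun _ => f) (numPatterns N α') := by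
    have h4 : (N : ℝ) * (c - ε / 8) - |C| ≤
        N * (pN N (fun _ => f) (numPatterns N α') + ε / 8) := by
      have := le_abs_self C
      linarith
    have h5 : (N : ℝ) * (c - ε / 8 - |C| / N) = (N : ℝ) * (c - ε / 8) - |C| := by
      field_simp
    rw [← h5] at h4
    have := le_of_mul_le_mul_left h4 hNR
    linarith
  -- change of density
  have h6 : |pN N (fun _ => f) (numPatterns N α) - pN N (fun _ => f) (numPatterns N α')| ≤
      ε / 8 + K / N := by
    refine (hPM N (fun _ => f) K _ _ (fun _ => (hs 0).continuous.measurable) (fun _ => hK)).trans ?_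
    have h7 : |(numPatterns N α : ℝ) - numPatterns N α'| ≤ ε / (8 * (K + 1)) * N + 1 := by
      have a1 := numPatterns_le (N := N) hα
      have a2 := lt_numPatterns (N := N) (α := α)
      have a3 := numPatterns_le (N := N) hα'0
      have a4 := lt_numPatterns (N := N) (α := α')
      have a5 : (α - α') * N ≤ ε / (8 * (K + 1)) * N := by
        gcongr; linarith
      have a6 : 0 ≤ (α - α') * N := mul_nonneg (by linarith) hNR.le
      rw [abs_le]
      constructor <;> nlinarith
    calc K * |(numPatterns N α : ℝ) - numPatterns N α'| / N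
        ≤ K * (ε / (8 * (K + 1)) * N + 1) / N := by gcongr
      _ = (ε / 8) * (K / (K + 1)) + K / N := by
        have : K + 1 ≠ 0 := by positivity
        field_simp
      _ ≤ (ε / 8) * 1 + K / N := by
        gcongr
        rw [div_le_one (by positivity)]; linarith
      _ = ε / 8 + K / N := by ring
  have h8 : α * Th J f P ≤ α' * Th J f P + ε / 8 := by
    have h9 : (α - α') * Th J f P ≤ (α - α') * K :=
      mul_le_mul_of_nonneg_left (abs_le.1 (hTh J P hP)).2 (by linarith)
    have h10 : (α - α') * K ≤ ε / (8 * (K + 1)) * K := by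
      gcongr; linarith
    have h11 : ε / (8 * (K + 1)) * K ≤ ε / 8 := by
      calc ε / (8 * (K + 1)) * K = (ε / 8) * (K / (K + 1)) := by
            have : K + 1 ≠ 0 := by positivity
            field_simp
        _ ≤ (ε / 8) * 1 := by
          gcongr
          rw [div_le_one (by positivity)]; linarith
        _ = ε / 8 := mul_one _
    linarith
  have h12 : |C| / N + K / N ≤ ε / 8 := by rw [← add_div]; exact hCN
  have h13 := (abs_le.1 h6).1
  have h14 : 0 ≤ |C| / (N : ℝ) := by positivity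
  have h15 : 0 ≤ K / (N : ℝ) := by positivity
  linarith

end Crest.Agent.R146.LBAsm_947
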