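import Crest.Agent.R146.S6Incl_53
import Crest.Agent.R146.FobL_998
import Crest.Agent.R146.S6Fcont_627
import Crest.Agent.R146.Mon_422
import Crest.Agent.R146.Wrap_947
import Crest.Agent.R146.CavInc_769

/-!
Row 146, S0206, lower bound, node INC1 (helper660): the increment averaged over the strengths,
from `INCL` (good strengths) and `CRUDE` (all strengths); the concentration of the field
observables for most strengths is `FobL_998.good_strengths`, continuity is `S6Fcont_627`.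
-/

set_option autoImplicit false

namespace Crest.Agent.R146.S6Inc1_660

open Finset MeasureTheory ProbabilityTheory Crest.Agent.R141
open Crest.Agent.R146.S6Def_988 Crest.Agent.R146.S6U_988 Crest.Agent.R146.S6L_988
open Crest.Agent.R146.S6Incl_53

noncomputable section

/-- the box of the strengths -/
def box (nc : ℕ) : Set (Fin nc → ℝ) := Set.Icc (fun _ => (1 : ℝ)) (fun _ => 2)

theorem vol_box (nc : ℕ) : volume (box nc) = 1 := by
  unfold box
  rw [Real.volume_Icc_pi]
  norm_num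

/-- lower bound of an average: `w` on the good set, `-B` on the rest of the box -/
theorem avg_lower {nc : ℕ} {Φ : (Fin nc → ℝ) → ℝ} (hΦ : Continuous Φ) {S : Set (Fin nc → ℝ)}
    (hS : MeasurableSet S) (hsub : S ⊆ box nc) {e : ℝ} (he : 0 ≤ e)
    (hvol : volume (box nc \ S) ≤ ENNReal.ofReal e) {w B : ℝ} (hB : 0 ≤ B)
    (h1 : ∀ l ∈ S, w ≤ Φ l) (h2 : ∀ l ∈ box nc, -B ≤ Φ l) :
    w - e * (|w| + B) ≤ ∫ l in box nc, Φ l := by
  have hmeas : MeasurableSet (box nc) := measurableSet_Icc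
  have hint : IntegrableOn Φ (box nc) := hΦ.continuousOn.integrableOn_compact isCompact_Icc
  have hbne : volume (box nc) ≠ ⊤ := by rw [vol_box]; exact ENNReal.one_ne_top
  have hSne : volume S ≠ ⊤ := ne_top_of_le_ne_top hbne (measure_mono hsub)
  have hDne : volume (box nc \ S) ≠ ⊤ := ne_top_of_le_ne_top hbne (measure_mono Set.sdiff_subset)
  have hsplit : ∫ l in box nc, Φ l = (∫ l in S, Φ l) + ∫ l in box nc \ S, Φ l := by
    rw [← setIntegral_union Set.disjoint_sdiff_right (hmeas.diff hS) (hint.mono_set hsub)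
      (hint.mono_set Set.sdiff_subset), Set.union_sdiff_cancel hsub]
  have hvs : volume.real S + volume.real (box nc \ S) = 1 := by
    have h := measureReal_union (μ := (volume : Measure (Fin nc → ℝ))) (s₁ := S)
      (s₂ := box nc \ S) Set.disjoint_sdiff_right (hmeas.diff hS) hSne hDne
    rw [Set.union_sdiff_cancel hsub] at h
    rw [← h, measureReal_def, vol_box]
    rfl
  have hb : volume.real (box nc \ S) ≤ e := by
    rw [measureReal_def]
    exact ENNReal.toReal_le_of_le_ofReal he hvol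
  have hb0 : 0 ≤ volume.real (box nc \ S) := measureReal_nonneg
  have i1 : w * volume.real S ≤ ∫ l in S, Φ l :=
    setIntegral_ge_of_const_le_real hS hSne h1 (hint.mono_set hsub)
  have i2 : -B * volume.real (box nc \ S) ≤ ∫ l in box nc \ S, Φ l :=
    setIntegral_ge_of_const_le_real (hmeas.diff hS) hDne (fun l hl => h2 l hl.1)
      (hint.mono_set Set.sdiff_subset)
  rw [hsplit]
  have hS' : volume.real S = 1 - volume.real (box nc \ S) := by linarith
  rw [hS'] at i1
  have hw : w ≤ |w| := le_abs_self w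
  have h3 : volume.real (box nc \ S) * (w + B) ≤ volume.real (box nc \ S) * (|w| + B) :=
    mul_le_mul_of_nonneg_left (by linarith) hb0
  have h4 : volume.real (box nc \ S) * (|w| + B) ≤ e * (|w| + B) :=
    mul_le_mul_of_nonneg_right hb (by positivity)
  linarith

/-- an almost minimiser -/
theorem exists_min {X : Type*} (p : X → Prop) (v : X → ℝ) (m : ℝ) (hm : ∀ x, p x → m ≤ v x)
    (hne : ∃ x, p x) {e : ℝ} (he : 0 < e) : ∃ x, p x ∧ ∀ y, p y → v x ≤ v y + e := by
  have hb : BddBelow (v '' {x | p x}) := ⟨m, by rintro _ ⟨x, hx, rfl⟩; exact hm x hx⟩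
  have hn : (v '' {x | p x}).Nonempty := by
    obtain ⟨x, hx⟩ := hne
    exact ⟨v x, x, hx, rfl⟩
  obtain ⟨_, ⟨x, hx, rfl⟩, hlt⟩ := exists_lt_of_csInf_lt hn
    (show sInf (v '' {x | p x}) < sInf (v '' {x | p x}) + e by linarith)
  refine ⟨x, hx, fun y hy => ?_⟩
  have := csInf_le hb ⟨y, hy, rfl⟩
  linarith

/-- one new row changes the free energy by at most `K` -/
theorem row_lip {N : ℕ} (hN : 0 < N) (C : Cfg N) (nc n : ℕ) {f : ℕ → ℝ → ℝ} {K : ℝ}
    (hf : ∀ a, Measurable (f a)) (hK : ∀ a x, |f a x| ≤ K) (M : ℕ) (s : Fin nc → ℝ) :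
    |PhE C nc n f (M + 1) s - PhE C nc n f M s| ≤ K := by
  rw [← PhE_sub hN, CavInc_769.FN_increment hN hf hK s]
  have hin : ∀ G : Fin M → Fin N → ℝ, |∫ g, CavInc_769.inc C nc n f G s g
      ∂(Measure.pi fun _ : Fin N => gaussianReal 0 1)| ≤ K := by
    intro G
    have h := norm_integral_le_of_norm_le_const
      (μ := (Measure.pi fun _ : Fin N => gaussianReal 0 1))
      (f := fun g => CavInc_769.inc C nc n f G s g) (C := K)
      (Filter.Eventually.of_forall fun g => by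
        rw [Real.norm_eq_abs]; exact CavInc_769.inc_abs_le hK _ _ _)
    simpa using h
  have h := norm_integral_le_of_norm_le_const (μ := gam M N)
    (f := fun G => ∫ g, CavInc_769.inc C nc n f G s g
      ∂(Measure.pi fun _ : Fin N => gaussianReal 0 1)) (C := K)
    (Filter.Eventually.of_forall fun G => by rw [Real.norm_eq_abs]; exact hin G)
  simpa using h

theorem rows_lip {N : ℕ} (hN : 0 < N) (C : Cfg N) (nc n : ℕ) {f : ℕ → ℝ → ℝ} {K : ℝ}
    (hf : ∀ a, Measurable (f a)) (hK : ∀ a x, |f a x| ≤ K) (M : ℕ) (s : Fin nc → ℝ) (m : ℕ) :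
    -(m * K) ≤ PhE C nc n f (M + m) s - PhE C nc n f M s := by
  have h := rows_sum C nc n f M s (-K) m fun i _ =>
    (abs_le.1 (row_lip hN C nc n hf hK (M + i) s)).1
  linarith

/-- **(INC1)** -/
theorem inc1_of (hINCL : INCL) (hCR : CRUDE) : INC1 := by
  intro K f f1 f2 hS α ε hα hε
  have hK0 : 0 ≤ K := S3.K_nonneg hS
  have hBL : BL K K f := S3.bl hS
  have hfm : ∀ a : ℕ, Measurable ((fun _ => f : ℕ → ℝ → ℝ) a) := fun _ => S3.meas hS
  have hfK : ∀ (a : ℕ) (x : ℝ), |(fun _ => f : ℕ → ℝ → ℝ) a x| ≤ K := fun _ => hBL.bd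
  set m0 : ℕ := ⌊α⌋₊ with hm0
  set θ : ℝ := α - m0 with hθ
  have hθ0 : 0 ≤ θ := by
    have := Nat.floor_le hα.le
    rw [hθ]; linarith
  have hθ1 : θ ≤ 1 := by
    have := Nat.lt_floor_add_one α
    rw [hθ]; linarith
  obtain ⟨J, nc, η0, hη0, hincl⟩ := hINCL (α + 1) K (ε / 8) f f1 f2 (m0 + 1) (by linarith)
    (by linarith) hS
  -- the almost optimal levels
  obtain ⟨P, hP, hPmin⟩ := exists_min (fun P : ℕ → ℝ => Lev J P ∧ P J < 1)
    (fun P => α * Th J f P + SP J P) (-(α * K))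
    (fun P hP => by
      have h1 := (abs_le.1 (Mon_422.Th_abs_le hP.1 hBL)).1
      have h2 := Wrap_947.SP_nonneg hP.1 hP.2
      have h3 : α * -K ≤ α * Th J f P := mul_le_mul_of_nonneg_left h1 hα.le
      show -(α * K) ≤ α * Th J f P + SP J P
      linarith)
    ⟨fun _ => 0, ⟨le_refl _, fun _ _ _ _ => le_refl _, zero_le_one⟩, zero_lt_one⟩
    (show 0 < ε / 8 by linarith)
  set w : ℝ := α * Th J f P + SP J P - ε / 8 - ε / 8 with hw
  -- the crude bound
  obtain ⟨Cst, hCst, NC, hcr⟩ := hCR (α + 1) K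
  set B : ℝ := Cst + ((m0 : ℝ) + 1) * K with hB
  have hB0 : 0 ≤ B := by positivity
  set e : ℝ := ε / 2 / (|w| + B + 1) with he
  have he0 : 0 < e := by positivity
  have hew : e * (|w| + B) ≤ ε / 2 := by
    have h : e * (|w| + B + 1) = ε / 2 := by
      rw [he]; field_simp
    have : e * (|w| + B) ≤ e * (|w| + B + 1) := mul_le_mul_of_nonneg_left (by linarith) he0.le
    linarith
  -- the size of the fields
  set η : ℝ := min η0 (min (ε / ((nc : ℝ) + 1)) ((1 / (2 * ((nc : ℝ) + 1))) ^ 2)) with hη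
  have hη' : 0 < η := by
    rw [hη]
    refine lt_min hη0 (lt_min ?_ ?_) <;> positivity
  have hηle : η ≤ η0 := min_le_left _ _
  have hηε : (nc : ℝ) * η ≤ ε := by
    have h : η ≤ ε / ((nc : ℝ) + 1) := (min_le_right _ _).trans (min_le_left _ _)
    rw [le_div_iff₀ (by positivity)] at h
    nlinarith
  have hsη : 0 < Real.sqrt η := Real.sqrt_pos.2 hη'
  have hncA : (nc : ℝ) * (2 * Real.sqrt η) ≤ 1 := by
    have h : Real.sqrt η ≤ 1 / (2 * ((nc : ℝ) + 1)) := by
      rw [show 1 / (2 * ((nc : ℝ) + 1)) = Real.sqrt ((1 / (2 * ((nc : ℝ) + 1))) ^ 2) from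
        (Real.sqrt_sq (by positivity)).symm]
      exact Real.sqrt_le_sqrt ((min_le_right _ _).trans (min_le_right _ _))
    rw [le_div_iff₀ (by positivity)] at h
    nlinarith
  obtain ⟨δ', hδ', N0, n0, hincl2⟩ := hincl η hη' hηle
  obtain ⟨NG, hgood⟩ := FobL_998.good_strengths nc (Real.sqrt η) K (α + 1) δ' e hsη hδ' he0
  refine ⟨nc, η, hη', hηε, max (max N0 NC) (max NG 1), ?_⟩
  intro N hNN
  have hN0 : N0 ≤ N := (le_max_left _ _).trans ((le_max_left _ _).trans hNN)
  have hNC : NC ≤ N := (le_max_right _ _).trans ((le_max_left _ _).trans hNN)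
  have hNG : NG ≤ N := (le_max_left _ _).trans ((le_max_right _ _).trans hNN)
  have hN : 0 < N := (le_max_right _ _).trans ((le_max_right _ _).trans hNN)
  refine ⟨max (n0 N) 1, ?_⟩
  intro n hnn
  have hn0 : n0 N ≤ n := (le_max_left _ _).trans hnn
  have hn : 0 < n := (le_max_right _ _).trans hnn
  have hMfl : ∀ M : ℕ, M ≤ ⌊(α + 1) * N⌋₊ → (M : ℝ) ≤ (α + 1) * N := fun M hM =>
    (Nat.le_floor_iff (by positivity)).1 hM
  obtain ⟨δ1, hδ1, hA⟩ := exists_common (p := fun M δ => ∀ (C : Cfg N) (C1 : Cfg (N + 1)),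
      Near C δ → Near C1 δ →
      ∀ (s : Fin nc → ℝ), (∀ g, Real.sqrt η ≤ s g ∧ s g ≤ 2 * Real.sqrt η) →
      (∀ g, Dconc C nc n (fun _ => f) M s g δ') →
      ∃ P : ℕ → ℝ, Lev J P ∧ P J < 1 ∧ ∀ m ≤ m0 + 1, m * Th J f P + SP J P - ε / 8 ≤
        PhE C1 nc n (fun _ => f) (M + m) s - PhE C nc n (fun _ => f) M s)
    (fun m δ δ' hle h C C1 hC hC1 => h C C1 (near_mono hC hle) (near_mono hC1 hle))
    ⌊(α + 1) * N⌋₊
    (fun M hM => hincl2 N hN0 hN n hn0 hn M (hMfl M hM))
  obtain ⟨δ2, hδ2, hA2⟩ := exists_common (p := fun M δ => ∀ (C : Cfg N) (C1 : Cfg (N + 1)),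
      Near C δ → Near C1 δ →
      ∀ f f1 f2 : ℝ → ℝ, S3 K f f1 f2 → ∀ s : Fin nc → ℝ, (∀ g, |s g| ≤ 2 * Real.sqrt η) →
      -Cst ≤ PhE C1 nc n (fun _ => f) M s - PhE C nc n (fun _ => f) M s)
    (fun m δ δ' hle h C C1 hC hC1 => h C C1 (near_mono hC hle) (near_mono hC1 hle))
    ⌊(α + 1) * N⌋₊
    (fun M hM => hcr N hNC hN nc n M hn (hMfl M hM) (2 * Real.sqrt η) hncA)
  refine ⟨min δ1 δ2, lt_min hδ1 hδ2, ?_⟩
  intro C C1 hC hC1 M hM
  have hMf : M ≤ ⌊(α + 1) * N⌋₊ := (Nat.le_floor_iff (by positivity)).2 hM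
  have hI := hA M hMf C C1 (near_mono hC (min_le_left _ _)) (near_mono hC1 (min_le_left _ _))
  have hR := hA2 M hMf C C1 (near_mono hC (min_le_right _ _)) (near_mono hC1 (min_le_right _ _))
    f f1 f2 hS
  refine ⟨J, P, hP.1, hP.2, ?_⟩
  -- the strengths
  set sl : (Fin nc → ℝ) → Fin nc → ℝ := fun l g => Real.sqrt η * l g with hsl
  have hslc : Continuous sl := by rw [hsl]; fun_prop
  have hsl1 : ∀ l ∈ box nc, ∀ g, Real.sqrt η ≤ sl l g ∧ sl l g ≤ 2 * Real.sqrt η := by
    intro l hl g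
    have h1 := hl.1 g
    have h2 := hl.2 g
    simp only at h1 h2
    constructor
    · show Real.sqrt η ≤ Real.sqrt η * l g
      nlinarith
    · show Real.sqrt η * l g ≤ 2 * Real.sqrt η
      nlinarith
  have c0 : Continuous fun l => PhE C nc n (fun _ => f) M (sl l) :=
    (S6Fcont_627.cont_PhE hN hfm hfK).comp hslc
  have c1 : Continuous fun l => PhE C1 nc n (fun _ => f) (M + m0) (sl l) :=
    (S6Fcont_627.cont_PhE (Nat.succ_pos N) hfm hfK).comp hslc
  have c2 : Continuous fun l => PhE C1 nc n (fun _ => f) (M + m0 + 1) (sl l) :=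
    (S6Fcont_627.cont_PhE (Nat.succ_pos N) hfm hfK).comp hslc
  obtain ⟨S, hSm, hSsub, hSvol, hSg⟩ := hgood N hNG n hn C (fun _ => f) M hM hfm hfK
  have key := avg_lower (nc := nc)
    (Φ := fun l => (1 - θ) * PhE C1 nc n (fun _ => f) (M + m0) (sl l) +
      θ * PhE C1 nc n (fun _ => f) (M + m0 + 1) (sl l) - PhE C nc n (fun _ => f) M (sl l))
    (((c1.const_mul _).add (c2.const_mul _)).sub c0) hSm hSsub he0.le hSvol hB0 (w := w) ?_ ?_
  · have hint : ∀ {F : (Fin nc → ℝ) → ℝ}, Continuous F → IntegrableOn F (box nc) :=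
      fun hF => hF.continuousOn.integrableOn_compact isCompact_Icc
    have e1 : ∫ l in box nc, ((1 - θ) * PhE C1 nc n (fun _ => f) (M + m0) (sl l) +
        θ * PhE C1 nc n (fun _ => f) (M + m0 + 1) (sl l) - PhE C nc n (fun _ => f) M (sl l)) =
        (1 - θ) * Lb C1 nc n (fun _ => f) (M + m0) η +
        θ * Lb C1 nc n (fun _ => f) (M + m0 + 1) η - Lb C nc n (fun _ => f) M η := by
      have j1 := hint (c1.const_mul (1 - θ))
      have j2 := hint (c2.const_mul θ)
      have j12 : IntegrableOn (fun l => (1 - θ) * PhE C1 nc n (fun _ => f) (M + m0) (sl l) +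
          θ * PhE C1 nc n (fun _ => f) (M + m0 + 1) (sl l)) (box nc) := j1.add j2
      rw [integral_sub j12 (hint c0), integral_add j1 j2, integral_const_mul,
        integral_const_mul]
      rfl
    rw [e1] at key
    rw [hw] at key
    linarith
  · -- good strengths
    intro l hl
    obtain ⟨Q, hQ, hQ1, hQm⟩ := hI (sl l) (hsl1 l (hSsub hl)) (hSg l hl)
    have q0 := hQm m0 (Nat.le_succ _)
    have q1 := hQm (m0 + 1) (le_refl _)
    have hmin := hPmin Q ⟨hQ, hQ1⟩
    have e2 : M + (m0 + 1) = M + m0 + 1 := rfl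
    rw [e2] at q1
    push_cast at q1
    have r0 := mul_le_mul_of_nonneg_left q0 (sub_nonneg.2 hθ1)
    have r1 := mul_le_mul_of_nonneg_left q1 hθ0
    have hαe : α = m0 + θ := by rw [hθ]; ring
    have hαT : α * Th J f Q = m0 * Th J f Q + θ * Th J f Q := by
      conv_lhs => rw [hαe]
      ring
    show w ≤ (1 - θ) * PhE C1 nc n (fun _ => f) (M + m0) (sl l) +
      θ * PhE C1 nc n (fun _ => f) (M + m0 + 1) (sl l) - PhE C nc n (fun _ => f) M (sl l)
    rw [hw]
    nlinarith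
  · -- all strengths
    intro l hl
    have hb := hR (sl l) fun g => by
      have h := hsl1 l hl g
      rw [abs_of_nonneg (hsη.le.trans h.1)]
      exact h.2
    have q0 := rows_lip (Nat.succ_pos N) C1 nc n hfm hfK M (sl l) m0
    have q1 := rows_lip (Nat.succ_pos N) C1 nc n hfm hfK M (sl l) (m0 + 1)
    have e2 : M + (m0 + 1) = M + m0 + 1 := rfl
    rw [e2] at q1
    push_cast at q1
    have q0' : -(((m0 : ℝ) + 1) * K) ≤ PhE C1 nc n (fun _ => f) (M + m0) (sl l) -
        PhE C1 nc n (fun _ => f) M (sl l) := by linarith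
    have r0 := mul_le_mul_of_nonneg_left q0' (sub_nonneg.2 hθ1)
    have r1 := mul_le_mul_of_nonneg_left q1 hθ0
    show -B ≤ (1 - θ) * PhE C1 nc n (fun _ => f) (M + m0) (sl l) +
      θ * PhE C1 nc n (fun _ => f) (M + m0 + 1) (sl l) - PhE C nc n (fun _ => f) M (sl l)
    rw [hB]
    linarith

end

end Crest.Agent.R146.S6Inc1_660

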