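import Crest.Agent.R146.S6LAll_988
import Crest.Agent.R146.S6Inc1_660
import Crest.Agent.R146.LbBr_679

/-!
Row 146, S0206: the lower bound `S6U_988.LB`, unconditional.
-/

set_option autoImplicit false

namespace Crest.Agent.R146.LBF_988

theorem inc1 : S6L_988.INC1 := S6Inc1_660.inc1_of S6LAll_988.incl S6LAll_988.crude

theorem lb : S6U_988.LB := LbBr_679.lb_of inc1

end Crest.Agent.R146.LBF_988
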