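import Crest.Agent.R146.PD_534

/-!
Row 146 (PT-STEP, helper534): the expectation identities of `Law`: continuity, right and left
derivatives for test functions; mass and moments.
-/

set_option autoImplicit false

namespace Crest.Agent.R146.LawA_534

open MeasureTheory ProbabilityTheory Filter Topology Set
open Crest.ProbabilityR.InvariantGlass
open Crest.Agent.R146.Hg_534 Crest.Agent.R146.PB_534 Crest.Agent.R146.GG_534 Crest.Agent.R146.SG_534
open Crest.Agent.R146.StepDef_791 Crest.Agent.R146.Cell_534 Crest.Agent.R146.TiltA_534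
open Crest.Agent.R146.TiltB_534 Crest.Agent.R146.TiltC_534 Crest.Agent.R146.PD_534

noncomputable section

/-- continuity on `[0,T]` from continuity on the cells -/
theorem glue {X : Type*} [TopologicalSpace X] {A : SD} {x0 : ℝ} (f : ℝ → X)
    (h : ∀ a b z, IsCell A a b z → PCell A x0 a b z → ContinuousOn f (Icc a b)) :
    ContinuousOn f (Icc 0 A.T) := by
  refine cells_induct A x0 (fun s => ContinuousOn f (Icc 0 s)) ?_ ?_
  · rw [Icc_self]
    exact continuousOn_singleton f 0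
  · intro a b z hc hp ih
    have e : Icc 0 b = Icc 0 a ∪ Icc a b := (Icc_union_Icc_eq_Icc hc.a0 hc.ab.le).symm
    rw [e]
    exact ih.union_of_isClosed (h a b z hc hp) isClosed_Icc isClosed_Icc

/-- continuity on a strip `[ε,T] × Y` from continuity on the cells -/
theorem glue2 {X Y : Type*} [TopologicalSpace X] [TopologicalSpace Y] {A : SD} {x0 : ℝ}
    (f : ℝ × Y → X) {ε : ℝ} (hε : 0 < ε)
    (h : ∀ a b z, IsCell A a b z → PCell A x0 a b z →
      ContinuousOn f (Icc (max a ε) b ×ˢ univ)) :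
    ContinuousOn f (Icc ε A.T ×ˢ univ) := by
  refine cells_induct A x0 (fun s => ContinuousOn f (Icc ε s ×ˢ univ)) ?_ ?_
  · rw [Icc_eq_empty (not_le.2 hε), empty_prod]
    exact continuousOn_empty f
  · intro a b z hc hp ih
    rcases le_or_gt ε a with h1 | h1
    · have e : Icc ε b ×ˢ (univ : Set Y) = Icc ε a ×ˢ univ ∪ Icc a b ×ˢ univ := by
        rw [← union_prod, Icc_union_Icc_eq_Icc h1 hc.ab.le]
      rw [e]
      have h2 := h a b z hc hp
      rw [max_eq_left h1] at h2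
      exact ih.union_of_isClosed h2 (isClosed_Icc.prod isClosed_univ)
        (isClosed_Icc.prod isClosed_univ)
    · have h2 := h a b z hc hp
      rwa [max_eq_right h1.le] at h2

section test

variable {A : SD} {x0 : ℝ} {F Fr Fl Fx Fxx : ℝ → ℝ → ℝ}

theorem Test_F (hT : Test A F Fr Fl Fx Fxx) {t : ℝ} (ht : t ∈ Icc 0 A.T) : PG (F t) := by
  obtain ⟨C, n, hC, h⟩ := hT.growth
  exact ⟨continuous_iff_continuousAt.2 fun x => (hT.hx t ht x).continuousAt, C, n, hC,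
    fun x => (h t ht x).1⟩

theorem Test_Fx (hT : Test A F Fr Fl Fx Fxx) {t : ℝ} (ht : t ∈ Icc 0 A.T) : PG (Fx t) := by
  obtain ⟨C, n, hC, h⟩ := hT.growth
  exact ⟨continuous_iff_continuousAt.2 fun x => (hT.hxx t ht x).continuousAt, C, n, hC,
    fun x => (h t ht x).2.2.2.1⟩

theorem Test_Fxx (hT : Test A F Fr Fl Fx Fxx) {t : ℝ} (ht : t ∈ Icc 0 A.T) : PG (Fxx t) := by
  obtain ⟨C, n, hC, h⟩ := hT.growth
  refine ⟨?_, C, n, hC, fun x => (h t ht x).2.2.2.2⟩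
  have h2 : Continuous (fun y : ℝ => ((t, y) : ℝ × ℝ)) := by fun_prop
  exact continuousOn_univ.1 (hT.cxx.comp h2.continuousOn (fun y _ => ⟨ht, mem_univ _⟩))

theorem Test_cF (hT : Test A F Fr Fl Fx Fxx) {s t : ℝ} (hs : 0 ≤ s) (ht : t ≤ A.T) (y : ℝ) :
    ContinuousOn (fun τ => F τ y) (Icc s t) := by
  have h2 : Continuous (fun τ : ℝ => ((τ, y) : ℝ × ℝ)) := by fun_prop
  exact hT.cF.comp h2.continuousOn (fun τ hτ => ⟨⟨hs.trans hτ.1, hτ.2.trans ht⟩, mem_univ _⟩)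

theorem Test_Fr (hT : Test A F Fr Fl Fx Fxx) {t : ℝ} (ht : t ∈ Ico 0 A.T) : Continuous (Fr t) := by
  rw [continuous_iff_continuousAt]
  intro y
  have h1 := hT.cr t ht y
  have h2 : ContinuousWithinAt (fun y : ℝ => ((t, y) : ℝ × ℝ)) univ y := by fun_prop
  have h3 := ContinuousWithinAt.comp (x := y) (f := fun y : ℝ => ((t, y) : ℝ × ℝ))
    (g := fun q : ℝ × ℝ => Fr q.1 q.2) h1 h2 (fun y _ => ⟨mem_Ici.2 le_rfl, mem_univ _⟩)
  exact continuousWithinAt_univ _ _ |>.1 h3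

theorem Test_Fl (hT : Test A F Fr Fl Fx Fxx) {t : ℝ} (ht : t ∈ Ioc 0 A.T) : Continuous (Fl t) := by
  rw [continuous_iff_continuousAt]
  intro y
  have h1 := hT.cl t ht y
  have h2 : ContinuousWithinAt (fun y : ℝ => ((t, y) : ℝ × ℝ)) univ y := by fun_prop
  have h3 := ContinuousWithinAt.comp (x := y) (f := fun y : ℝ => ((t, y) : ℝ × ℝ))
    (g := fun q : ℝ × ℝ => Fl q.1 q.2) h1 h2 (fun y _ => ⟨mem_Iic.2 le_rfl, mem_univ _⟩)
  exact continuousWithinAt_univ _ _ |>.1 h3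

theorem ex_cont (hB : Back A) (x0 : ℝ) (hT : Test A F Fr Fl Fx Fxx) :
    ContinuousOn (fun t => ex x0 (pd A x0) t (F t)) (Icc 0 A.T) := by
  refine glue (x0 := x0) _ fun a b z hc hp => ?_
  obtain ⟨hpr, hm⟩ := muA_mom hB x0 a (hc.mem hc.aI)
  obtain ⟨C, n, hC, h⟩ := hT.growth
  have h1 : ContinuousOn (fun t => ev A z a (muA A x0 a) t (F t)) (Icc a b) := by
    intro s0 hs0
    refine ev_cont hB hc hm (Subset.refl _) hs0 hC (fun s hs => (Test_F hT (hc.mem hs)).cont)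
      (fun y => ?_) (fun s hs y => (h s (hc.mem hs) y).1)
    exact (hT.cF (s0, y) ⟨hc.mem hs0, mem_univ _⟩).mono
      (prod_mono (fun s hs => hc.mem hs) (Subset.refl _))
  exact h1.congr fun t ht => base hB hc hp ht (Test_F hT (hc.mem ht))

theorem ex_fix_cont (hB : Back A) (x0 : ℝ) {φ : ℝ → ℝ} (hφ : PG φ) :
    ContinuousOn (fun t => ex x0 (pd A x0) t φ) (Icc 0 A.T) := by
  refine glue (x0 := x0) _ fun a b z hc hp => ?_
  obtain ⟨hpr, hm⟩ := muA_mom hB x0 a (hc.mem hc.aI)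
  exact (ev_fix_cont hB hc hm hφ).congr fun t ht => base hB hc hp ht hφ

theorem ex_r (hB : Back A) (x0 : ℝ) (hT : Test A F Fr Fl Fx Fxx) {t : ℝ} (ht : t ∈ Ico 0 A.T) :
    HasDerivWithinAt (fun s => ex x0 (pd A x0) s (F s))
      (ex x0 (pd A x0) t (fun x => Fr t x + Fxx t x / 2 + A.b t * A.u t x * Fx t x)) (Ici t) t := by
  obtain ⟨a, b, z, hc, hp, hm⟩ := exists_cell_r A x0 t ht
  obtain ⟨hpr, hmom⟩ := muA_mom hB x0 a (hc.mem hc.aI)
  obtain ⟨C, n, hC, h⟩ := hT.growth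
  have htI : t ∈ Icc a b := ⟨hm.1, hm.2.le⟩
  have htT := hc.mem htI
  have hsub : Icc t b ⊆ Icc a b := Icc_subset_Icc hm.1 le_rfl
  obtain ⟨q1, q2⟩ := dq_right (F := F) (Fr := Fr) (s0 := t) (t1 := b) (C := C) (n := n) hm.2
    (fun y => Test_cF hT ht.1 hc.bT y)
    (fun τ hτ y => hT.hr τ ⟨ht.1.trans hτ.1, hτ.2.trans_le hc.bT⟩ y)
    (fun y => hT.cr t ht y)
    (fun τ hτ y => (h τ ⟨ht.1.trans hτ.1, hτ.2.le.trans hc.bT⟩ y).2.1)
  have h1 := ev_time hB hc hmom hsub ⟨le_rfl, hm.2.le⟩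
    (fun s hs => Test_F hT (hc.mem (hsub hs))) (Test_Fr hT ht) (Test_Fx hT htT) (Test_Fxx hT htT)
    (hT.hx t htT) (hT.hxx t htT) hC q1 q2
  have hb : z / A.D t = A.b t := by
    unfold SD.b
    rw [hc.m_eq t hm]
  have hgen : PG (fun x => Fr t x + Fxx t x / 2 + z / A.D t * A.u t x * Fx t x) := by
    have g1 := gen_pg hB hc (Test_Fx hT htT) (Test_Fxx hT htT) htI
    have g2 : PG (Fr t) := ⟨Test_Fr hT ht, C, n, hC, fun y => (h t htT y).2.1⟩
    refine (congrArg PG ?_).mp (g2.add g1)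
    funext x
    ring
  rw [← hb, base hB hc hp htI hgen]
  have h2 := h1.congr (fun s hs => base hB hc hp (hsub hs) (Test_F hT (hc.mem (hsub hs))))
    (base hB hc hp htI (Test_F hT htT))
  exact h2.mono_of_mem_nhdsWithin (Icc_mem_nhdsGE hm.2)

theorem ex_l (hB : Back A) (x0 : ℝ) (hT : Test A F Fr Fl Fx Fxx) {t : ℝ} (ht : t ∈ Ioc 0 A.T) :
    HasDerivWithinAt (fun s => ex x0 (pd A x0) s (F s))
      (ex x0 (pd A x0) t (fun x => Fl t x + Fxx t x / 2 + A.bl t * A.u t x * Fx t x))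
      (Iic t) t := by
  obtain ⟨a, b, z, hc, hp, hm⟩ := exists_cell_l A x0 t ht
  obtain ⟨hpr, hmom⟩ := muA_mom hB x0 a (hc.mem hc.aI)
  obtain ⟨C, n, hC, h⟩ := hT.growth
  have htI : t ∈ Icc a b := ⟨hm.1.le, hm.2⟩
  have htT := hc.mem htI
  have hsub : Icc a t ⊆ Icc a b := Icc_subset_Icc le_rfl hm.2
  obtain ⟨q1, q2⟩ := dq_left (F := F) (Fl := Fl) (s0 := t) (t1 := a) (C := C) (n := n) hm.1
    (fun y => Test_cF hT hc.a0 ht.2 y)
    (fun τ hτ y => hT.hl τ ⟨lt_of_le_of_lt hc.a0 hτ.1, hτ.2.trans ht.2⟩ y)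
    (fun y => hT.cl t ht y)
    (fun τ hτ y => (h τ ⟨hc.a0.trans hτ.1.le, hτ.2.trans ht.2⟩ y).2.2.1)
  have h1 := ev_time hB hc hmom hsub ⟨hm.1.le, le_rfl⟩
    (fun s hs => Test_F hT (hc.mem (hsub hs))) (Test_Fl hT ht) (Test_Fx hT htT) (Test_Fxx hT htT)
    (hT.hx t htT) (hT.hxx t htT) hC q1 q2
  have hb : z / A.D t = A.bl t := by
    unfold SD.bl
    rw [hc.ml_eq t hm]
  have hgen : PG (fun x => Fl t x + Fxx t x / 2 + z / A.D t * A.u t x * Fx t x) := by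
    have g1 := gen_pg hB hc (Test_Fx hT htT) (Test_Fxx hT htT) htI
    have g2 : PG (Fl t) := ⟨Test_Fl hT ht, C, n, hC, fun y => (h t htT y).2.2.1⟩
    refine (congrArg PG ?_).mp (g2.add g1)
    funext x
    ring
  rw [← hb, base hB hc hp htI hgen]
  have h2 := h1.congr (fun s hs => base hB hc hp (hsub hs) (Test_F hT (hc.mem (hsub hs))))
    (base hB hc hp htI (Test_F hT htT))
  exact h2.mono_of_mem_nhdsWithin (Icc_mem_nhdsLE hm.1)

end test

theorem mass {A : SD} (hB : Back A) (x0 : ℝ) {t : ℝ} (ht : t ∈ Ioc 0 A.T) :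
    ∫ x, pd A x0 t x = 1 := by
  obtain ⟨hpr, _⟩ := muA_mom hB x0 t ⟨ht.1.le, ht.2⟩
  have h1 := int_muA hB x0 (t := t) ⟨ht.1.le, ht.2⟩ (fun _ => (1:ℝ))
  unfold ex at h1
  rw [if_neg (not_le.2 ht.1)] at h1
  simp only [mul_one] at h1
  rw [← h1]
  simp

theorem mom {A : SD} (hB : Back A) (x0 : ℝ) (n : ℕ) : ∃ C : ℝ, ∀ t ∈ Ioc 0 A.T,
    Integrable (fun x => pd A x0 t x * (1 + |x|) ^ n) ∧
    ∫ x, pd A x0 t x * (1 + |x|) ^ n ≤ C := by
  have hpg : PG (fun x : ℝ => (1 + |x|) ^ n) := PG.pow ((PG.const 1).add PG.id.abs) n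
  obtain ⟨C, hC⟩ := isCompact_Icc.exists_bound_of_continuousOn (ex_fix_cont hB x0 hpg)
  refine ⟨C, fun t ht => ?_⟩
  have h1 := (muA_mom hB x0 t ⟨ht.1.le, ht.2⟩).2 n
  refine ⟨(integrable_muA hB x0 ht _).1 h1, ?_⟩
  have h2 := hC t ⟨ht.1.le, ht.2⟩
  unfold ex at h2
  rw [if_neg (not_le.2 ht.1), Real.norm_eq_abs] at h2
  exact (le_abs_self _).trans h2

end

end Crest.Agent.R146.LawA_534
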