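import Crest.Agent.R146.YW_177
import Crest.Agent.R146.SPair_307
import Crest.Agent.R146.StepLim_692

/-!
Row 146, PT-CMP (helper177): the law band of REF on the step system.

* `Wi, Lam, Lam1, Lam2`: the reference law slope as a function of `η`, `Λ = k ∘ W⁻¹` on `(0,∞)`, for a
  stationary pair `SPair c W V I k lam`; `lstat_zero`, `lstat_diff`.
* `pos_le, le_pos`: static position bounds `N₋(V) ≤ s w ≤ N₊(V)` from the slope band (fixed time).
* `band_up, band_low`: `|s⁻¹ Y - Λ(s w)| ≤ C + transient` on the step system.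
-/

set_option autoImplicit false

open Set Filter Topology

namespace Crest.Agent.R146.YWRef_177

open MaxP_371 MaxP2_371 MaxPCmp_371 MaxPCmp2_371 SPair_307 YW_177 StepDef_791

/-! ### The reference in the coordinate `η` -/

section ref

variable {c : ℝ} {W V I k : ℝ → ℝ} {lam : ℝ}

/-- inverse of `W` -/
noncomputable def Wi (W : ℝ → ℝ) (η : ℝ) : ℝ := Function.invFun W η

lemma W_surj (h : SPair c W V I k lam) {η : ℝ} (hη : 0 < η) : ∃ x, W x = η := by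
  set a : ℝ := 1 / (2 * η) with ha
  have ha0 : 0 < a := by positivity
  have h1 : W (-a) < η := by
    have h2 := h.W_le (-a)
    have h3 : Real.sqrt ((-a) ^ 2 + 1) ≤ a + 1 / (2 * a) := by
      apply Real.sqrt_le_iff.2
      refine ⟨by positivity, ?_⟩
      have h4 : (a + 1 / (2 * a)) ^ 2 = a ^ 2 + 1 + 1 / (4 * a ^ 2) := by
        field_simp
        ring
      rw [h4]
      have h5 : 0 ≤ 1 / (4 * a ^ 2) := by positivity
      have h6 : (-a) ^ 2 = a ^ 2 := by ring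
      rw [h6]
      linarith
    have h7 : 1 / (2 * a) = η := by rw [ha]; field_simp
    rw [h7] at h3
    linarith
  have h2 : η < W η := h.U_pos η
  have hcont : ContinuousOn W (Icc (-a) η) := h.cW.continuousOn
  obtain ⟨x, -, hx⟩ := intermediate_value_Icc (by linarith : -a ≤ η) hcont ⟨h1.le, h2.le⟩
  exact ⟨x, hx⟩

lemma W_Wi (h : SPair c W V I k lam) {η : ℝ} (hη : 0 < η) : W (Wi W η) = η :=
  Function.invFun_eq (W_surj h hη)

lemma Wi_W (h : SPair c W V I k lam) (x : ℝ) : Wi W (W x) = x :=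
  Function.leftInverse_invFun h.W_strictMono.injective x

lemma Wi_mono (h : SPair c W V I k lam) : StrictMonoOn (Wi W) (Ioi 0) := by
  intro a ha b hb hab
  by_contra hcon
  push Not at hcon
  have := h.W_strictMono.monotone hcon
  rw [W_Wi h ha, W_Wi h hb] at this
  linarith

lemma Wi_cont (h : SPair c W V I k lam) {η : ℝ} (hη : 0 < η) : ContinuousAt (Wi W) η := by
  refine (Wi_mono h).continuousAt_of_image_mem_nhds (Ioi_mem_nhds hη) ?_
  have : Wi W '' Ioi 0 = univ := by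
    ext x
    simp only [mem_image, mem_Ioi, mem_univ, iff_true]
    exact ⟨W x, h.W_pos x, Wi_W h x⟩
  rw [this]
  exact univ_mem

lemma Wi_deriv (h : SPair c W V I k lam) {η : ℝ} (hη : 0 < η) :
    HasDerivAt (Wi W) (V (Wi W η))⁻¹ η :=
  HasDerivAt.of_local_left_inverse (Wi_cont h hη) (h.dW _) (h.V_pos _).ne'
    (by filter_upwards [Ioi_mem_nhds hη] with y hy; exact W_Wi h hy)

/-- `k'` -/
noncomputable def k1 (c : ℝ) (W V k : ℝ → ℝ) (lam x : ℝ) : ℝ :=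
  k x ^ 2 + 2 * Ad c W x * k x - 2 * Ad1 c V x + 2 * lam

/-- `k''` -/
noncomputable def k2 (c : ℝ) (W V I k : ℝ → ℝ) (lam x : ℝ) : ℝ :=
  2 * (k x + Ad c W x) * k1 c W V k lam x + 2 * Ad1 c V x * k x - 2 * c * I x

/-- the reference law slope as a function of `η` -/
noncomputable def Lam (W k : ℝ → ℝ) (η : ℝ) : ℝ := k (Wi W η)
/-- its derivative -/
noncomputable def Lam1 (c : ℝ) (W V k : ℝ → ℝ) (lam η : ℝ) : ℝ :=
  k1 c W V k lam (Wi W η) / V (Wi W η)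
/-- its second derivative -/
noncomputable def Lam2 (c : ℝ) (W V I k : ℝ → ℝ) (lam η : ℝ) : ℝ :=
  (k2 c W V I k lam (Wi W η) * V (Wi W η) - k1 c W V k lam (Wi W η) * I (Wi W η))
    / V (Wi W η) ^ 3

lemma Lam_deriv (h : SPair c W V I k lam) {η : ℝ} (hη : 0 < η) :
    HasDerivAt (Lam W k) (Lam1 c W V k lam η) η := by
  have h1 := (h.dk (Wi W η)).comp η (Wi_deriv h hη)
  exact h1

lemma Lam1_deriv (h : SPair c W V I k lam) {η : ℝ} (hη : 0 < η) :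
    HasDerivAt (Lam1 c W V k lam) (Lam2 c W V I k lam η) η := by
  have hV := (h.V_pos (Wi W η)).ne'
  have h1 : HasDerivAt (fun x => k1 c W V k lam x / V x)
      ((k2 c W V I k lam (Wi W η) * V (Wi W η) - k1 c W V k lam (Wi W η) * I (Wi W η))
        / V (Wi W η) ^ 2) (Wi W η) := (h.dk1 (Wi W η)).div (h.dV (Wi W η)) hV
  have h2 := h1.comp η (Wi_deriv h hη)
  refine h2.congr_deriv ?_
  unfold Lam2
  field_simp

lemma Lam1_side (h : SPair c W V I k lam) {η : ℝ} (hη : 0 < η) :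
    HasSide (Lam1 c W V k lam) (Lam2 c W V I k lam η) η :=
  HasSide.of_hasDerivAt (Lam1_deriv h hη)

/-- the stationary law equation in the coordinate `η`, along the curve -/
lemma lstat_zero (h : SPair c W V I k lam) (x : ℝ) :
    LStat 1 c (V x) (I x) (W x) (k x) (k1 c W V k lam x / V x)
      ((k2 c W V I k lam x * V x - k1 c W V k lam x * I x) / V x ^ 3) = 0 := by
  have hV := (h.V_pos x).ne'
  have hI := h.eqI x
  unfold LStat k2
  generalize hk1 : k1 c W V k lam x = K1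
  have hA1 : Ad1 c V x = (1 + c) / 2 - c * (1 - V x) := rfl
  rw [hA1]
  have e : V x ^ 2 * (((2 * (k x + Ad c W x) * K1 + 2 * ((1 + c) / 2 - c * (1 - V x)) * k x
        - 2 * c * I x) * V x - K1 * I x) / V x ^ 3) / 2
      + (I x - k x * V x - (1 + 1 * c) / 2 * W x) * (K1 / V x)
      - ((1 + 1 * c) / 2 - c * (1 - V x)) * k x + c * I x
      = K1 / (2 * V x) * (2 * Ad c W x * V x + I x - (1 + c) * W x) := by
    field_simp
    ring
  rw [e, hI]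
  ring

/-- difference form of the source, everything at the same `η = W ξ` -/
lemma lstat_diff (h : SPair c W V I k lam) (x y v i : ℝ) :
    LStat 1 y v i (W x) (k x) (k1 c W V k lam x / V x)
      ((k2 c W V I k lam x * V x - k1 c W V k lam x * I x) / V x ^ 3)
    = (v ^ 2 - V x ^ 2) / 2 * ((k2 c W V I k lam x * V x - k1 c W V k lam x * I x) / V x ^ 3)
      + ((i - I x) - k x * (v - V x) - (y - c) / 2 * W x) * (k1 c W V k lam x / V x)
      - ((y - c) / 2 - (y * (1 - v) - c * (1 - V x))) * k x + (y * i - c * I x) := by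
  have h0 := lstat_zero h x
  unfold LStat at h0 ⊢
  linarith

/-- the source in the parameter `ξ = W⁻¹(η)` -/
lemma lstat_Lam (h : SPair c W V I k lam) {η : ℝ} (hη : 0 < η) (y v i : ℝ) :
    LStat 1 y v i η (Lam W k η) (Lam1 c W V k lam η) (Lam2 c W V I k lam η)
    = LStat 1 y v i (W (Wi W η)) (k (Wi W η)) (k1 c W V k lam (Wi W η) / V (Wi W η))
      ((k2 c W V I k lam (Wi W η) * V (Wi W η) - k1 c W V k lam (Wi W η) * I (Wi W η))
        / V (Wi W η) ^ 3) := by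
  rw [W_Wi h hη]
  rfl

end ref

/-! ### Static position bounds -/

section pos

variable {w V P : ℝ → ℝ} {s : ℝ} {K N N' : ℝ → ℝ}

/-- `P ≥ s K₋(V)`, `N' K₋ ≥ v`, `N ≥ 0` give `s w ≤ N(V)`. -/
theorem pos_le (hs : 0 < s) (hw : ∀ x, HasDerivAt w (V x) x) (hV : ∀ x, HasDerivAt V (P x) x)
    (hVm : ∀ x, V x ∈ Ioo (0:ℝ) 1) (hlim : Tendsto w atBot (𝓝 0))
    (hN : ∀ v ∈ Ioo (0:ℝ) 1, HasDerivAt N (N' v) v) (hN'0 : ∀ v ∈ Ioo (0:ℝ) 1, 0 ≤ N' v)
    (hN' : ∀ v ∈ Ioo (0:ℝ) 1, v ≤ N' v * K v) (hN0 : ∀ v ∈ Ioo (0:ℝ) 1, 0 ≤ N v)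
    (hband : ∀ x, s * K (V x) ≤ P x) (x : ℝ) : s * w x ≤ N (V x) := by
  have hd : ∀ x, HasDerivAt (fun x => N (V x) - s * w x) (N' (V x) * P x - s * V x) x := fun x =>
    ((hN _ (hVm x)).comp x (hV x)).sub ((hw x).const_mul s)
  have hmono : Monotone (fun x => N (V x) - s * w x) := by
    apply monotone_of_deriv_nonneg (fun x => (hd x).differentiableAt)
    intro x
    rw [(hd x).deriv]
    have h1 := hN' _ (hVm x)
    have h2 := mul_le_mul_of_nonneg_left (hband x) (hN'0 _ (hVm x))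
    have h3 := mul_le_mul_of_nonneg_left h1 hs.le
    have h4 : N' (V x) * (s * K (V x)) = s * (N' (V x) * K (V x)) := by ring
    linarith
  have hlim' : Tendsto (fun y => -(s * w y)) atBot (𝓝 (-(s * 0))) := (hlim.const_mul s).neg
  have h5 : -(s * 0) ≤ N (V x) - s * w x := by
    refine le_of_tendsto hlim' ?_
    filter_upwards [eventually_le_atBot x] with y hy
    have h6 := hmono hy
    have h7 := hN0 _ (hVm y)
    simp only at h6
    linarith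
  linarith

/-- `P ≤ s K₊(V)`, `N' K₊ ≤ v`, `N(0+) = 0` give `N(V) ≤ s w`. -/
theorem le_pos (hs : 0 < s) (hw : ∀ x, HasDerivAt w (V x) x) (hV : ∀ x, HasDerivAt V (P x) x)
    (hVm : ∀ x, V x ∈ Ioo (0:ℝ) 1) (hlim : Tendsto w atBot (𝓝 0))
    (hVlim : Tendsto V atBot (𝓝 0))
    (hN : ∀ v ∈ Ioo (0:ℝ) 1, HasDerivAt N (N' v) v) (hN'0 : ∀ v ∈ Ioo (0:ℝ) 1, 0 ≤ N' v)
    (hN' : ∀ v ∈ Ioo (0:ℝ) 1, N' v * K v ≤ v) (hN0 : Tendsto N (𝓝[>] 0) (𝓝 0))
    (hband : ∀ x, P x ≤ s * K (V x)) (x : ℝ) : N (V x) ≤ s * w x := by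
  have hd : ∀ x, HasDerivAt (fun x => s * w x - N (V x)) (s * V x - N' (V x) * P x) x := fun x =>
    ((hw x).const_mul s).sub ((hN _ (hVm x)).comp x (hV x))
  have hmono : Monotone (fun x => s * w x - N (V x)) := by
    apply monotone_of_deriv_nonneg (fun x => (hd x).differentiableAt)
    intro x
    rw [(hd x).deriv]
    have h1 := hN' _ (hVm x)
    have h2 := mul_le_mul_of_nonneg_left (hband x) (hN'0 _ (hVm x))
    have h3 := mul_le_mul_of_nonneg_left h1 hs.le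
    have h4 : N' (V x) * (s * K (V x)) = s * (N' (V x) * K (V x)) := by ring
    linarith
  have hV' : Tendsto V atBot (𝓝[>] 0) :=
    tendsto_nhdsWithin_iff.2 ⟨hVlim, Eventually.of_forall fun y => (hVm y).1⟩
  have hlim' : Tendsto (fun y => s * w y - N (V y)) atBot (𝓝 (s * 0 - 0)) :=
    (hlim.const_mul s).sub (hN0.comp hV')
  have h5 : s * 0 - 0 ≤ s * w x - N (V x) := by
    refine le_of_tendsto hlim' ?_
    filter_upwards [eventually_le_atBot x] with y hy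
    exact hmono hy
  linarith

end pos

/-! ### Restriction to a smaller time interval -/

section mono

variable {t0 t1 q : ℝ} {b : ℝ → ℝ} {u V P Y Yx Yxx : ℝ → ℝ → ℝ} {M : ℝ} {s th : ℝ → ℝ} {ω k : ℝ}

lemma YSys.restrict (h : YSys t0 t1 b u V P Y Yx Yxx M) (hq : q ≤ t1) :
    YSys t0 q b u V P Y Yx Yxx M where
  cY := h.cY.mono (prod_mono (Icc_subset_Icc_right hq) le_rfl)
  hYt t ht x := h.hYt t ⟨ht.1, ht.2.trans hq⟩ x
  hYx t ht x := h.hYx t ⟨ht.1, ht.2.trans hq⟩ x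
  hYxx t ht x := h.hYxx t ⟨ht.1, ht.2.trans hq⟩ x
  b_nonneg t ht := h.b_nonneg t ⟨ht.1, ht.2.trans hq⟩
  b_le t ht := h.b_le t ⟨ht.1, ht.2.trans hq⟩
  V_pos t ht x := h.V_pos t ⟨ht.1, ht.2.trans hq⟩ x
  drift t ht x := h.drift t ⟨ht.1, ht.2.trans hq⟩ x
  Y_le t ht x := h.Y_le t ⟨ht.1, ht.2.trans hq⟩ x

lemma LSys.restrict (h : LSys t0 t1 b u V P) (hq : q ≤ t1) : LSys t0 q b u V P where
  hut t ht x := h.hut t ⟨ht.1, ht.2.trans hq⟩ x
  hux t ht x := h.hux t ⟨ht.1, ht.2.trans hq⟩ x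
  hVx t ht x := h.hVx t ⟨ht.1, ht.2.trans hq⟩ x
  cu := h.cu.mono (prod_mono (Icc_subset_Icc_right hq) le_rfl)
  V_pos t ht x := h.V_pos t ⟨ht.1, ht.2.trans hq⟩ x
  V_lt t ht x := h.V_lt t ⟨ht.1, ht.2.trans hq⟩ x
  P_nonneg t ht x := h.P_nonneg t ⟨ht.1, ht.2.trans hq⟩ x
  u_pos t ht x := h.u_pos t ⟨ht.1, ht.2.trans hq⟩ x
  w_pos t ht x := h.w_pos t ⟨ht.1, ht.2.trans hq⟩ x

lemma LClock.restrict (h : LClock t0 t1 b s th ω k) (hq : q ≤ t1) : LClock t0 q b s th ω k where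
  hs t ht := h.hs t ⟨ht.1, ht.2.trans hq⟩
  cs := h.cs.mono (Icc_subset_Icc_right hq)
  s_pos t ht := h.s_pos t ⟨ht.1, ht.2.trans hq⟩
  hth t ht := h.hth t ⟨ht.1, ht.2.trans hq⟩
  cth := h.cth.mono (Icc_subset_Icc_right hq)

end mono

/-! ### The law bands on the step system -/

section band

variable {A : SD} {x0 : ℝ} {p Y Yx Yxx : ℝ → ℝ → ℝ} {c : ℝ} {W V I k : ℝ → ℝ} {lam : ℝ}
  {t0 q C C0 B κ θ0 μ Im : ℝ}

/-- **upper law band (REF)** on `[t0, q]`. -/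
theorem band_up (hA : Back A) (hC : Clock A) (hL : Law A x0 p Y Yx Yxx)
    (hS : SPair c W V I k lam) (h0 : 0 < t0) (h0T : t0 < A.T) (hq : q ≤ A.T)
    (hC0 : 0 ≤ C) (hC00 : 0 ≤ C0) (hB : 0 ≤ B) (hκ : κ ≤ 1 / 2) (hμ : 0 ≤ μ)
    (hμκ : Im ≤ B * (μ - κ))
    (hpot : ∀ t ∈ Ioc t0 q, ∀ x, μ ≤ Pot 1 (A.ml t * A.K0 t) (A.V t x)
      (Lam1 c W V k lam (sN A t * A.w t x)))
    (hI : ∀ t ∈ Ioc t0 q, ∀ x, A.P t x / sN A t ≤ Im)
    (hsrc : ∀ t ∈ Ioc t0 q, ∀ x, LStat 1 (A.ml t * A.K0 t) (A.V t x) (A.P t x / sN A t)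
      (sN A t * A.w t x) (Lam W k (sN A t * A.w t x)) (Lam1 c W V k lam (sN A t * A.w t x))
      (Lam2 c W V I k lam (sN A t * A.w t x)) ≤
        C * Pot 1 (A.ml t * A.K0 t) (A.V t x) (Lam1 c W V k lam (sN A t * A.w t x)))
    (hstart : ∀ x, Y t0 x ≤ C0 * (1 + A.w t0 x))
    (hθ1 : C0 ≤ sN A t0 * θ0 * B) (hθ2 : C0 ≤ sN A t0 ^ 2 * θ0) :
    ∀ t ∈ Icc t0 q, ∀ x, Y t x ≤ sN A t * (Lam W k (sN A t * A.w t x) + C
      + thN A t0 θ0 κ t * (B + sN A t * A.w t x)) := by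
  have h01 : t0 < 1 := h0T.trans A.hT1
  obtain ⟨M, hYs⟩ := hL.ysys t0 ⟨h0, h0T⟩
  have hYq := YSys.restrict hYs hq
  have hLq := LSys.restrict (LSys.of_back hA h0.le) hq
  have hCq := LClock.restrict (lclock_new hC h0 h01 θ0 κ) hq
  have hθ0 : 0 ≤ θ0 := by
    have h1 : 0 < sN A t0 ^ 2 := pow_pos (sN_pos hC h01) 2
    have h2 : 0 ≤ sN A t0 ^ 2 * θ0 := hC00.trans hθ2
    exact nonneg_of_mul_nonneg_right h2 h1
  have hlt : ∀ t ∈ Icc t0 q, t < 1 := fun t ht => (ht.2.trans hq).trans_lt A.hT1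
  have hy : ∀ t ∈ Ioc t0 q, A.bl t / sN A t ^ 2 = A.ml t * A.K0 t :=
    fun t ht => y_eq hC (hlt t ⟨ht.1.le, ht.2⟩)
  refine ref_law_le (Λ2 := Lam2 c W V I k lam) hYq hLq hCq zero_le_one le_rfl
    (fun η hη => Lam_deriv hS hη) (fun η hη => Lam1_side hS hη) hκ hB
    (fun t ht => thN_nonneg hC h01 (hlt t ht) hθ0) hμ hμκ ?_ ?_ hI ?_ ?_
  · intro η hη
    have := (hS.k_pos (Wi W η)).le
    unfold Lam
    linarith
  · intro t ht x
    rw [hy t ht]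
    exact hpot t ht x
  · intro t ht x
    rw [hy t ht]
    exact hsrc t ht x
  · intro x
    rw [thN_self hC h01]
    refine (hstart x).trans ?_
    have hw : 0 < x + A.u t0 x := hA.w_pos t0 ⟨h0.le, h0T.le⟩ x
    have hs := sN_pos hC h01
    have h3 : 0 ≤ Lam W k (sN A t0 * (x + A.u t0 x)) := (hS.k_pos _).le
    have h4 := mul_le_mul_of_nonneg_right hθ2 hw.le
    have h5 : sN A t0 * (Lam W k (sN A t0 * (x + A.u t0 x)) + C +
        θ0 * (B + sN A t0 * (x + A.u t0 x))) = sN A t0 * (Lam W k (sN A t0 * (x + A.u t0 x)) + C)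
        + sN A t0 * θ0 * B + sN A t0 ^ 2 * θ0 * (x + A.u t0 x) := by ring
    rw [h5]
    have h6 : 0 ≤ sN A t0 * (Lam W k (sN A t0 * (x + A.u t0 x)) + C) :=
      mul_nonneg hs.le (by linarith)
    have h7 : A.w t0 x = x + A.u t0 x := rfl
    rw [h7]
    linarith

/-- **lower law band (REF)** on `[t0, q]`, `Y ≤ 1`. -/
theorem band_low {Lm : ℝ} (hA : Back A) (hC : Clock A) (hL : Law A x0 p Y Yx Yxx)
    (hS : SPair c W V I k lam) (h0 : 0 < t0) (h0T : t0 < A.T) (hq : q ≤ A.T)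
    (hC0 : 0 ≤ C) (hC00 : 0 ≤ C0) (hB : 0 ≤ B) (hκμ : κ ≤ μ) (hμ : 0 ≤ μ)
    (hLm0 : 0 ≤ Lm) (hLm : ∀ x, k x ≤ Lm) (hμκ : Im + Lm ≤ B * (μ - κ))
    (hy1 : ∀ t ∈ Ioc t0 q, A.ml t * A.K0 t ≤ 1)
    (hpot : ∀ t ∈ Ioc t0 q, ∀ x, μ ≤ Pot 1 (A.ml t * A.K0 t) (A.V t x)
      (Lam1 c W V k lam (sN A t * A.w t x)))
    (hI : ∀ t ∈ Ioc t0 q, ∀ x, A.P t x / sN A t ≤ Im)
    (hsrc : ∀ t ∈ Ioc t0 q, ∀ x,
      -(C * Pot 1 (A.ml t * A.K0 t) (A.V t x) (Lam1 c W V k lam (sN A t * A.w t x))) ≤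
      LStat 1 (A.ml t * A.K0 t) (A.V t x) (A.P t x / sN A t)
      (sN A t * A.w t x) (Lam W k (sN A t * A.w t x)) (Lam1 c W V k lam (sN A t * A.w t x))
      (Lam2 c W V I k lam (sN A t * A.w t x)))
    (hstart : ∀ x, -(C0 * (1 + A.u t0 x)) ≤ Y t0 x)
    (hθ1 : C0 + sN A t0 * Lm ≤ sN A t0 * θ0 * B) (hθ2 : C0 ≤ sN A t0 ^ 2 * θ0) :
    ∀ t ∈ Icc t0 q, ∀ x, sN A t * (Lam W k (sN A t * A.w t x) - C
      - thN A t0 θ0 κ t * (B + sN A t * A.u t x)) ≤ Y t x := by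
  have h01 : t0 < 1 := h0T.trans A.hT1
  obtain ⟨M, hYs⟩ := hL.ysys t0 ⟨h0, h0T⟩
  have hYq := YSys.restrict hYs hq
  have hLq := LSys.restrict (LSys.of_back hA h0.le) hq
  have hCq := LClock.restrict (lclock_new hC h0 h01 θ0 κ) hq
  have hθ0 : 0 ≤ θ0 := by
    have h1 : 0 < sN A t0 ^ 2 := pow_pos (sN_pos hC h01) 2
    have h2 : 0 ≤ sN A t0 ^ 2 * θ0 := hC00.trans hθ2
    exact nonneg_of_mul_nonneg_right h2 h1
  have hlt : ∀ t ∈ Icc t0 q, t < 1 := fun t ht => (ht.2.trans hq).trans_lt A.hT1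
  have hy : ∀ t ∈ Ioc t0 q, A.bl t / sN A t ^ 2 = A.ml t * A.K0 t :=
    fun t ht => y_eq hC (hlt t ⟨ht.1.le, ht.2⟩)
  refine le_ref_law (Λ2 := Lam2 c W V I k lam) (Lm := Lm) hYq hLq hCq
    (fun η hη => Lam_deriv hS hη) (fun η hη => Lam1_side hS hη) hB
    (fun t ht => thN_nonneg hC h01 (hlt t ht) hθ0) hμ hκμ hLm0 hμκ hC0 ?_ ?_ ?_ hI ?_ ?_
  · intro η _
    exact hLm _
  · intro t ht
    rw [hy t ht]
    exact hy1 t ht
  · intro t ht x
    rw [hy t ht]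
    exact hpot t ht x
  · intro t ht x
    rw [hy t ht]
    exact hsrc t ht x
  · intro x
    rw [thN_self hC h01]
    refine le_trans ?_ (hstart x)
    have hu : 0 < A.u t0 x := hA.u_pos t0 ⟨h0.le, h0T.le⟩ x
    have hs := sN_pos hC h01
    have h3 : Lam W k (sN A t0 * (x + A.u t0 x)) ≤ Lm := hLm _
    have h4 := mul_le_mul_of_nonneg_right hθ2 hu.le
    have h5 : sN A t0 * (Lam W k (sN A t0 * (x + A.u t0 x)) - C -
        θ0 * (B + sN A t0 * A.u t0 x)) = sN A t0 * (Lam W k (sN A t0 * (x + A.u t0 x)) - C)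
        - sN A t0 * θ0 * B - sN A t0 ^ 2 * θ0 * A.u t0 x := by ring
    rw [h5]
    have h6 : sN A t0 * (Lam W k (sN A t0 * (x + A.u t0 x)) - C) ≤ sN A t0 * Lm :=
      mul_le_mul_of_nonneg_left (by linarith) hs.le
    linarith

end band

end Crest.Agent.R146.YWRef_177
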