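import Crest.Agent.R146.TailK_445
import Crest.Agent.R146.EqEta_889
import Crest.Agent.R146.YWRef_177
import Crest.Agent.R146.PtRef_846

/-!
Row 146, NUMREF, certificate (C2) (helper490): the LAW inequality in the two tails `z ≤ -5`, `z ≥ 3`.
-/

set_option autoImplicit false

namespace Crest.Agent.R146.LawTail_490

open Set Filter Topology
open SPair_307 Stat7_307 Stat8_307 Stat9_307 TailK_445 YW_177

noncomputable section

variable {c : ℝ} {W V I k : ℝ → ℝ}

/-! ### Second order tail bound on the left -/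

/-- `a k' ≤ 2 A' k` on the left tail -/
theorem k1_le_k (h : SPair c W V I k c) (hc : c ≤ 3 / 7) {z : ℝ} (hz : Ad c W z < 0) :
    -2 * Ad c W z * k1 c W V k c z ≤ 2 * Ad1 c V z * k z := by
  have hc0 := h.c_pos
  have hc1 := h.c_lt
  set a : ℝ := -2 * Ad c W z with ha
  have ha0 : 0 < a := by rw [ha]; linarith
  set s : ℝ := 2 * Ad1 c V z / a with hs
  have hA1 := Ad1_pos h z
  have hs0 : 0 < s := div_pos (by linarith) ha0
  have hsa : s * a = 2 * Ad1 c V z := by rw [hs]; field_simp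
  have hmono : ∀ y, y ≤ z → a ≤ -2 * Ad c W y := fun y hy => by
    have := (A_mono h).monotone hy
    rw [ha]; linarith
  have hAn : ∀ y, y ≤ z → Ad c W y < 0 := fun y hy => by
    have := (A_mono h).monotone hy
    linarith
  have hσ0 : 0 < 2 * c - (1 - c) := by linarith [h.lam_gt]
  have hk : ∀ y, y ≤ z → k y ≤ (3 * c - 1) / a := fun y hy => by
    have h1 := k_le_left h (by linarith) (hAn y hy)
    have h2 : (2 * c - (1 - c)) / (-2 * Ad c W y) ≤ (3 * c - 1) / a := by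
      rw [show 2 * c - (1 - c) = 3 * c - 1 by ring]
      exact div_le_div_of_nonneg_left (by linarith) ha0 (hmono y hy)
    exact h1.trans h2
  have h2k : ∀ y, y ≤ z → 2 * k y ≤ s := fun y hy => by
    have h1 := hk y hy
    rw [le_div_iff₀ ha0] at h1
    rw [hs, le_div_iff₀ ha0]
    nlinarith
  have hAd1 : ∀ y, y ≤ z → Ad1 c V y ≤ Ad1 c V z := fun y hy => by
    have := h.V_strictMono.monotone hy
    unfold Ad1
    nlinarith
  obtain ⟨K, hK0, hK, -⟩ := qs_le h
  have key := left_core h (x1 := z) (Kc := fun y => k y - s)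
    (r := fun y => (2 * Ad1 c V y - s * (-2 * Ad c W y - 2 * k y + s)) * k y - 2 * c * I y)
    (D := fun y => k1 c W V k c y - s * k y) (M := K)
    (B := K ^ 2 + (2 * c - (1 - c)) * (1 - c + 2 * c) / a ^ 2) ?_ ?_ ?_ ?_ ?_
  · have h1 : k1 c W V k c z ≤ s * k z := by simpa using key
    have h2 := mul_le_mul_of_nonneg_left h1 ha0.le
    calc a * k1 c W V k c z ≤ a * (s * k z) := h2
      _ = (s * a) * k z := by ring
      _ = _ := by rw [hsa]
  · exact h.ck.sub continuous_const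
  · intro y _
    have := hK y
    linarith
  · intro y hy
    have h1 := (h.dk1 y).sub ((h.dk y).const_mul s)
    have h2 : HasDerivAt (fun y => k1 c W V k c y - s * k y) _ y := h1
    refine h2.congr_deriv ?_
    unfold k1
    ring
  · intro y hy
    have h1 := hmono y hy
    have h2 := h2k y hy
    have h3 := hAd1 y hy
    have h4 := h.k_pos y
    have h5 := h.I_pos y
    have h6 : 2 * Ad1 c V y - s * (-2 * Ad c W y - 2 * k y + s) ≤ 0 := by
      have h7 := mul_le_mul_of_nonneg_left h1 hs0.le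
      nlinarith
    have h8 : (2 * Ad1 c V y - s * (-2 * Ad c W y - 2 * k y + s)) * k y ≤ 0 :=
      mul_nonpos_of_nonpos_of_nonneg h6 h4.le
    have h9 := mul_pos hc0 h5
    linarith
  · intro y hy
    have h1 := k1_le_left h (hAn y hy)
    have h4 := h.k_pos y
    have h5 := hK y
    have h6 : k y ^ 2 ≤ K ^ 2 := pow_le_pow_left₀ h4.le h5 2
    have h7 : (2 * c - (1 - c)) * (1 - c + 2 * c * V y) / (-2 * Ad c W y) ^ 2 ≤
        (2 * c - (1 - c)) * (1 - c + 2 * c) / a ^ 2 := by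
      have hV := h.V_lt y
      have hV0 := h.V_pos y
      refine div_le_div₀ (by nlinarith) ?_ (by positivity) ?_
      · refine mul_le_mul_of_nonneg_left ?_ hσ0.le
        nlinarith
      · exact pow_le_pow_left₀ ha0.le (hmono y hy) 2
    have h8 := mul_pos hs0 h4
    linarith

/-! ### The algebraic core on the left -/

/-- data of the left tail in normalised form -/
structure LT (δ r β τ a k k1 p ζ V : ℝ) : Prop where
  δ0 : 0 < δ
  δ1 : δ ≤ 4158 / 10000
  r0 : -(121 / 100) ≤ r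
  r1 : r ≤ 121 / 100
  β0 : -(195 / 100) ≤ β
  β1 : β ≤ 182 / 100
  β2 : r < 0 → -(121 / 100) ≤ β
  τ0 : -(1001 / 1000) ≤ τ
  τ1 : τ ≤ 1001 / 1000
  c0 : 4157 / 10000 ≤ c
  c1 : c ≤ 4158 / 10000
  y0 : 0 ≤ c + δ * τ
  y1 : c + δ * τ ≤ 7005 / 10000
  a0 : 292 / 100 ≤ a
  k0 : 0 < k
  ka : k * a ≤ 2474 / 10000
  p0 : a ≤ p
  p1 : p * a ≤ a ^ 2 + 14158 / 10000
  ζ0 : 0 < ζ
  ζ1 : ζ * a ≤ 1
  V0 : 0 < V
  V1 : V ≤ 1 / 1000
  I1 : p * V ≤ 35 / 10000
  k1u : a * k1 ≤ (1 - c + 2 * c * V) * k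
  k1l : -(2 * c * V) ≤ k1

/-- the source divided by `δ` -/
def QL (c δ r β τ a k k1 p ζ V : ℝ) : ℝ :=
  r * (2 + δ * r) / 2 * ((2 * k - a) * k1 + (1 - c + 2 * c * V) * k - 2 * c * (p * V)) -
    δ * r ^ 2 / 2 * (p * k1) + β * (p * k1) - r * k * k1 - τ / 2 * ζ * k1 + τ / 2 * k -
    V * (τ * (1 + δ * r) + c * r) * k + p * V * (τ * (1 + δ * r + δ * β) + c * (r + β))

/-- the potential -/
def PL (c δ r τ k1 V : ℝ) : ℝ :=
  (1 - (c + δ * τ)) / 2 + (c + δ * τ) * (1 + δ * r) * V + (1 + δ * r) * k1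

section core

variable {δ r β τ a κ k1 p ζ v : ℝ}

theorem aux_div {x a A B : ℝ} (hA : 0 < A) (ha : A ≤ a) (hB : 0 ≤ B) (hx : x * a ≤ B) :
    x ≤ B / A := by
  have h1 : x ≤ B / a := by rw [le_div_iff₀ (by linarith)]; exact hx
  exact h1.trans (div_le_div_of_nonneg_left hB hA ha)

theorem aux_g (c0 : 4157 / 10000 ≤ c) (c1 : c ≤ 4158 / 10000) (V0 : 0 < v) (V1 : v ≤ 1 / 1000) :
    1 - c + 2 * c * v ≤ 58514 / 100000 ∧ 58 / 100 ≤ 1 - c + 2 * c * v ∧ 0 ≤ 2 * c * v ∧
      2 * c * v ≤ 1 / 1000 := by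
  have h1 : c * v ≤ 4158 / 10000 * (1 / 1000) := mul_le_mul c1 V1 V0.le (by norm_num)
  have h2 : 0 ≤ c * v := mul_nonneg (by linarith) V0.le
  refine ⟨by linarith, by linarith, by linarith, by linarith⟩

theorem aux_q (a0 : 292 / 100 ≤ a) (p1 : p * a ≤ a ^ 2 + 14158 / 10000) :
    p / a ≤ 1167 / 1000 := by
  have ha : 0 < a := by linarith
  have h1 : p * a ≤ 1167 / 1000 * a ^ 2 := by nlinarith
  rw [div_le_iff₀ ha]
  have h2 : p * a ≤ (1167 / 1000 * a) * a := by linarith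
  exact le_of_mul_le_mul_right h2 ha

theorem LT.basic (h : LT (c := c) δ r β τ a κ k1 p ζ v) :
    κ ≤ 848 / 10000 ∧ 0 < (1 - c + 2 * c * v) * κ ∧ (1 - c + 2 * c * v) * κ ≤ 4963 / 100000 ∧
    -(3 / 1000) ≤ a * k1 ∧ k1 ≤ 17 / 1000 ∧ -(1 / 1000) ≤ k1 ∧ 2 * c * (p * v) ≤ 3 / 1000 ∧
    1 ≤ p / a ∧ p / a ≤ 1167 / 1000 ∧ ζ ≤ 3425 / 10000 := by
  obtain ⟨g1, g2, g3, g4⟩ := aux_g h.c0 h.c1 h.V0 h.V1
  have a0 := h.a0
  have k0 := h.k0
  have c0 := h.c0
  have ha : 0 < a := by linarith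
  have hp : 0 < p := ha.trans_le h.p0
  have h1' : κ ≤ 2474 / 10000 / (292 / 100) := aux_div (by norm_num) a0 (by norm_num) h.ka
  have h1 : κ ≤ 848 / 10000 := h1'.trans (by norm_num)
  have h3' : (1 - c + 2 * c * v) * κ ≤ 58514 / 100000 * (2474 / 10000 / (292 / 100)) :=
    mul_le_mul g1 h1' k0.le (by norm_num)
  have h3 : (1 - c + 2 * c * v) * κ ≤ 4963 / 100000 := h3'.trans (by norm_num)
  have hI2 : 2 * c * (p * v) ≤ 3 / 1000 := by
    have e1 : c * (p * v) ≤ 4158 / 10000 * (35 / 10000) :=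
      mul_le_mul h.c1 h.I1 (mul_nonneg hp.le h.V0.le) (by norm_num)
    linarith
  have h4 : -(3 / 1000) ≤ a * k1 := by
    have e1 : a * (-(2 * c * v)) ≤ a * k1 := mul_le_mul_of_nonneg_left h.k1l ha.le
    have e2 : a * v ≤ p * v := mul_le_mul_of_nonneg_right h.p0 h.V0.le
    have e3 : 2 * c * (a * v) ≤ 2 * c * (p * v) := mul_le_mul_of_nonneg_left e2 (by linarith)
    linarith
  have h5 : k1 ≤ 17 / 1000 := by
    have e1 : k1 ≤ 4963 / 100000 / (292 / 100) := by
      refine aux_div (by norm_num) a0 (by norm_num) ?_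
      rw [mul_comm]; exact h.k1u.trans h3
    exact e1.trans (by norm_num)
  have h6 : -(1 / 1000) ≤ k1 := by
    have := h.k1l
    linarith
  refine ⟨h1, mul_pos (by linarith) k0, h3, h4, h5, h6, hI2, ?_, aux_q a0 h.p1, ?_⟩
  · rw [le_div_iff₀ ha]; linarith [h.p0]
  · have e1 : ζ ≤ 1 / (292 / 100) := aux_div (by norm_num) a0 (by norm_num) h.ζ1
    exact e1.trans (by norm_num)

theorem aux_r (δ0 : 0 < δ) (δ1 : δ ≤ 4158 / 10000) (r0 : -(121 / 100) ≤ r) (r1 : r ≤ 121 / 100) :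
    0 ≤ δ * r ^ 2 / 2 ∧ δ * r ^ 2 / 2 ≤ 3045 / 10000 := by
  have hr2 : r ^ 2 ≤ 14641 / 10000 := by nlinarith
  have h1 : δ * r ^ 2 ≤ 4158 / 10000 * (14641 / 10000) :=
    mul_le_mul δ1 hr2 (sq_nonneg r) (by norm_num)
  exact ⟨by positivity, by linarith⟩

theorem aux_lead {r m' β q G X : ℝ} (r0 : -(121 / 100) ≤ r) (r1 : r ≤ 121 / 100) (m0 : 0 ≤ m')
    (m1 : m' ≤ 3045 / 10000) (β0 : -(195 / 100) ≤ β) (β1 : β ≤ 182 / 100)
    (β2 : r < 0 → -(121 / 100) ≤ β) (q0 : 1 ≤ q) (q1 : q ≤ 1167 / 1000) (G1 : G ≤ 4963 / 100000)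
    (hX : -(3 / 1000) ≤ X) (hGX : X ≤ G) :
    (r + m') * (G - X) + (β - m') * q * X ≤ 1055 / 10000 ∧
    -(1307 / 10000) ≤ (r + m') * (G - X) + (β - m') * q * X := by
  have hGX' : 0 ≤ G - X := by linarith
  have hq0 : 0 ≤ q := by linarith
  have hb1 : (β - m') * q ≤ 2124 / 1000 := by
    have e1 : (β - m') * q ≤ 182 / 100 * q := mul_le_mul_of_nonneg_right (by linarith) hq0
    linarith
  have hb0 : -(2632 / 1000) ≤ (β - m') * q := by
    have e1 : -(22545 / 10000) * q ≤ (β - m') * q := mul_le_mul_of_nonneg_right (by linarith) hq0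
    linarith
  constructor
  · have e1 : (r + m') * (G - X) ≤ 152 / 100 * (G - X) :=
      mul_le_mul_of_nonneg_right (by linarith) hGX'
    rcases le_or_gt 0 X with hX0 | hX0
    · have e2 : (β - m') * q * X ≤ 2124 / 1000 * X := mul_le_mul_of_nonneg_right hb1 hX0
      linarith
    · have e2 : (β - m') * q * X ≤ -(2632 / 1000) * X := mul_le_mul_of_nonpos_right hb0 hX0.le
      linarith
  · rcases le_or_gt 0 r with hr | hr
    · have e1 : 0 ≤ (r + m') * (G - X) := mul_nonneg (by linarith) hGX'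
      rcases le_or_gt 0 X with hX0 | hX0
      · have e2 : -(2632 / 1000) * X ≤ (β - m') * q * X := mul_le_mul_of_nonneg_right hb0 hX0
        linarith
      · have e2 : 2124 / 1000 * X ≤ (β - m') * q * X := mul_le_mul_of_nonpos_right hb1 hX0.le
        linarith
    · have e1 : -(121 / 100) * (G - X) ≤ (r + m') * (G - X) :=
        mul_le_mul_of_nonneg_right (by linarith) hGX'
      have hβ := β2 hr
      have hb2 : -(1768 / 1000) ≤ (β - m') * q := by
        have e3 : -(15145 / 10000) * q ≤ (β - m') * q :=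
          mul_le_mul_of_nonneg_right (by linarith) hq0
        linarith
      rcases le_or_gt 0 X with hX0 | hX0
      · have e2 : -(1768 / 1000) * X ≤ (β - m') * q * X := mul_le_mul_of_nonneg_right hb2 hX0
        linarith
      · have e2 : 2124 / 1000 * X ≤ (β - m') * q * X := mul_le_mul_of_nonpos_right hb1 hX0.le
        linarith

/-- the leading part of the source -/
theorem LT.lead (h : LT (c := c) δ r β τ a κ k1 p ζ v) :
    r * (2 + δ * r) / 2 * ((1 - c + 2 * c * v) * κ - a * k1) +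
      (β - δ * r ^ 2 / 2) * (p / a) * (a * k1) ≤ 1055 / 10000 ∧
    -(1307 / 10000) ≤ r * (2 + δ * r) / 2 * ((1 - c + 2 * c * v) * κ - a * k1) +
      (β - δ * r ^ 2 / 2) * (p / a) * (a * k1) := by
  obtain ⟨b1, b2, b3, b4, b5, b6, b7, b8, b9, b10⟩ := h.basic
  obtain ⟨m0, m1⟩ := aux_r h.δ0 h.δ1 h.r0 h.r1
  have hm : r * (2 + δ * r) / 2 = r + δ * r ^ 2 / 2 := by ring
  rw [hm]
  exact aux_lead h.r0 h.r1 m0 m1 h.β0 h.β1 h.β2 b8 b9 b3 b4 h.k1u

theorem abs_mul_le' {x y A B : ℝ} (hx : |x| ≤ A) (hy : |y| ≤ B) : |x * y| ≤ A * B := by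
  rw [abs_mul]
  exact mul_le_mul hx hy (abs_nonneg _) ((abs_nonneg _).trans hx)

/-- the small part of the source -/
theorem LT.small (h : LT (c := c) δ r β τ a κ k1 p ζ v) :
    |r * (2 + δ * r) / 2 * (2 * κ * k1 - 2 * c * (p * v)) - r * κ * k1 - τ / 2 * ζ * k1 -
      v * (τ * (1 + δ * r) + c * r) * κ + p * v * (τ * (1 + δ * r + δ * β) + c * (r + β))| ≤
      267 / 10000 := by
  obtain ⟨b1, b2, b3, b4, b5, b6, b7, b8, b9, b10⟩ := h.basic
  obtain ⟨δ0, δ1, r0, r1, β0, β1, β2, τ0, τ1, c0, c1, y0, y1, a0, k0, ka, p0, p1, ζ0, ζ1, V0, V1, I1,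
    k1u, k1l⟩ := h
  obtain ⟨m0, m1⟩ := aux_r δ0 δ1 r0 r1
  have hr : |r| ≤ 121 / 100 := abs_le.2 ⟨r0, r1⟩
  have hβ : |β| ≤ 195 / 100 := abs_le.2 ⟨β0, by linarith⟩
  have hτ : |τ| ≤ 1001 / 1000 := abs_le.2 ⟨τ0, τ1⟩
  have hk1 : |k1| ≤ 17 / 1000 := abs_le.2 ⟨by linarith, b5⟩
  have hκ : |κ| ≤ 848 / 10000 := by rw [abs_of_pos k0]; exact b1
  have hζ : |ζ| ≤ 3425 / 10000 := by rw [abs_of_pos ζ0]; exact b10
  have hv : |v| ≤ 1 / 1000 := by rw [abs_of_pos V0]; exact V1
  have hδ : |δ| ≤ 4158 / 10000 := by rw [abs_of_pos δ0]; exact δ1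
  have hc : |c| ≤ 4158 / 10000 := by rw [abs_of_nonneg (by linarith)]; exact c1
  have hpv0 : 0 < p * v := mul_pos (by linarith) V0
  have hpv : |p * v| ≤ 35 / 10000 := by rw [abs_of_pos hpv0]; exact I1
  have hδr := abs_mul_le' hδ hr
  have hδβ := abs_mul_le' hδ hβ
  have hρ : |1 + δ * r| ≤ 15032 / 10000 := by
    refine (abs_add_le _ _).trans ?_
    rw [abs_one]; linarith
  have hι : |1 + δ * r + δ * β| ≤ 23141 / 10000 := by
    refine (abs_add_le _ _).trans ?_
    linarith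
  -- the five terms
  have s1 : |r * (2 + δ * r) / 2 * (2 * κ * k1 - 2 * c * (p * v))| ≤ 152 / 100 * (59 / 10000) := by
    refine abs_mul_le' ?_ ?_
    · have e1 : r * (2 + δ * r) / 2 = r + δ * r ^ 2 / 2 := by ring
      rw [e1]
      rw [abs_le]; constructor <;> linarith
    · have e1 : |κ * k1| ≤ 848 / 10000 * (17 / 1000) := abs_mul_le' hκ hk1
      have e2 : |2 * c * (p * v)| ≤ 3 / 1000 := by
        rw [abs_of_nonneg (by positivity)]; exact b7
      have e3 := abs_sub (2 * (κ * k1)) (2 * c * (p * v))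
      rw [abs_mul 2, abs_two] at e3
      rw [mul_assoc 2 κ k1]
      linarith
  have s2 : |r * κ * k1| ≤ 121 / 100 * (848 / 10000) * (17 / 1000) :=
    abs_mul_le' (abs_mul_le' hr hκ) hk1
  have s3 : |τ / 2 * ζ * k1| ≤ 1001 / 2000 * (3425 / 10000) * (17 / 1000) := by
    refine abs_mul_le' (abs_mul_le' ?_ hζ) hk1
    rw [abs_div, abs_two]; linarith
  have s4 : |v * (τ * (1 + δ * r) + c * r) * κ| ≤ 1 / 1000 * (21 / 10) * (848 / 10000) := by
    refine abs_mul_le' (abs_mul_le' hv ?_) hκ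
    have e1 := abs_mul_le' hτ hρ
    have e2 := abs_mul_le' hc hr
    refine (abs_add_le _ _).trans ?_
    linarith
  have s5 : |p * v * (τ * (1 + δ * r + δ * β) + c * (r + β))| ≤ 35 / 10000 * (365 / 100) := by
    refine abs_mul_le' hpv ?_
    have e1 := abs_mul_le' hτ hι
    have e3 : |r + β| ≤ 316 / 100 := (abs_add_le _ _).trans (by linarith)
    have e2 := abs_mul_le' hc e3
    refine (abs_add_le _ _).trans ?_
    linarith
  have t1 := abs_add_le (r * (2 + δ * r) / 2 * (2 * κ * k1 - 2 * c * (p * v)) - r * κ * k1 -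
    τ / 2 * ζ * k1 - v * (τ * (1 + δ * r) + c * r) * κ)
    (p * v * (τ * (1 + δ * r + δ * β) + c * (r + β)))
  have t2 := abs_sub (r * (2 + δ * r) / 2 * (2 * κ * k1 - 2 * c * (p * v)) - r * κ * k1 -
    τ / 2 * ζ * k1) (v * (τ * (1 + δ * r) + c * r) * κ)
  have t3 := abs_sub (r * (2 + δ * r) / 2 * (2 * κ * k1 - 2 * c * (p * v)) - r * κ * k1)
    (τ / 2 * ζ * k1)
  have t4 := abs_sub (r * (2 + δ * r) / 2 * (2 * κ * k1 - 2 * c * (p * v))) (r * κ * k1)
  linarith

/-- **the left tail**: bounds of the source and of the potential -/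
theorem LT.main (h : LT (c := c) δ r β τ a κ k1 p ζ v) :
    1 / 10 ≤ PL c δ r τ k1 v ∧ QL c δ r β τ a κ k1 p ζ v ≤ 27 / 20 * PL c δ r τ k1 v ∧
    -(11 / 10 * PL c δ r τ k1 v) ≤ QL c δ r β τ a κ k1 p ζ v := by
  obtain ⟨b1, b2, b3, b4, b5, b6, b7, b8, b9, b10⟩ := h.basic
  obtain ⟨l1, l2⟩ := h.lead
  obtain ⟨s1, s2⟩ := abs_le.1 h.small
  obtain ⟨δ0, δ1, r0, r1, β0, β1, β2, τ0, τ1, c0, c1, y0, y1, a0, k0, ka, p0, p1, ζ0, ζ1, V0, V1, I1,
    k1u, k1l⟩ := h
  have ha : 0 < a := by linarith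
  have hQ : QL c δ r β τ a κ k1 p ζ v =
      (r * (2 + δ * r) / 2 * ((1 - c + 2 * c * v) * κ - a * k1) +
      (β - δ * r ^ 2 / 2) * (p / a) * (a * k1)) +
      (r * (2 + δ * r) / 2 * (2 * κ * k1 - 2 * c * (p * v)) - r * κ * k1 - τ / 2 * ζ * k1 -
      v * (τ * (1 + δ * r) + c * r) * κ + p * v * (τ * (1 + δ * r + δ * β) + c * (r + β))) +
      τ / 2 * κ := by
    unfold QL
    have e1 : p * k1 = (p / a) * (a * k1) := by field_simp
    rw [e1]
    ring
  have hδr : |δ * r| ≤ 4158 / 10000 * (121 / 100) := by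
    refine abs_mul_le' ?_ (abs_le.2 ⟨r0, r1⟩)
    rw [abs_of_pos δ0]; exact δ1
  obtain ⟨d1, d2⟩ := abs_le.1 hδr
  have hδτ : |δ * τ| ≤ 4158 / 10000 * (1001 / 1000) := by
    refine abs_mul_le' ?_ (abs_le.2 ⟨τ0, τ1⟩)
    rw [abs_of_pos δ0]; exact δ1
  obtain ⟨d3, d4⟩ := abs_le.1 hδτ
  have hρ0 : 0 < 1 + δ * r := by linarith
  have e2 : -(152 / 100000) ≤ (1 + δ * r) * k1 := by
    have f1 : (1 + δ * r) * (-(1 / 1000)) ≤ (1 + δ * r) * k1 :=
      mul_le_mul_of_nonneg_left b6 hρ0.le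
    linarith
  have e4 : 0 ≤ (c + δ * τ) * (1 + δ * r) * v := mul_nonneg (mul_nonneg y0 hρ0.le) V0.le
  have hP : 1482 / 10000 ≤ PL c δ r τ k1 v := by
    unfold PL
    linarith
  have hτκ' : |τ / 2 * κ| ≤ 1001 / 2000 * (848 / 10000) := by
    refine abs_mul_le' ?_ ?_
    · rw [abs_div, abs_two]
      have := abs_le.2 ⟨τ0, τ1⟩
      linarith
    · rw [abs_of_pos k0]; exact b1
  obtain ⟨f1, f2⟩ := abs_le.1 hτκ'
  refine ⟨by linarith, ?_, ?_⟩
  · rw [hQ]; linarith
  · rw [hQ]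
    rcases le_or_gt 0 τ with hτ | hτ
    · have : 0 ≤ τ / 2 * κ := by positivity
      linarith
    · have hP2 : 29 / 100 ≤ PL c δ r τ k1 v := by
        unfold PL
        have : δ * τ ≤ 0 := mul_nonpos_of_nonneg_of_nonpos δ0.le hτ.le
        linarith
      linarith

end core

/-! ### The left tail -/

section left

theorem LStat_eq (h : SPair c W V I k c) (z : ℝ) {δ r β τ v i y : ℝ} (hv : v = V z * (1 + δ * r))
    (hi : i = I z * (1 + δ * r + δ * β)) (hy : y = c + δ * τ) :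
    LStat 1 y v i (W z) (k z) (YWRef_177.k1 c W V k c z / V z)
      ((YWRef_177.k2 c W V I k c z * V z - YWRef_177.k1 c W V k c z * I z) / V z ^ 3) =
    δ * QL c δ r β τ (-2 * Ad c W z) (k z) (k1 c W V k c z) (I z / V z) (W z / V z) (V z) := by
  have hV := (h.V_pos z).ne'
  have hI := (h.I_pos z).ne'
  have hk1 : YWRef_177.k1 c W V k c z = k1 c W V k c z := rfl
  have hk2 : YWRef_177.k2 c W V I k c z = (2 * k z - (-2 * Ad c W z)) * k1 c W V k c z +
      (1 - c + 2 * c * V z) * k z - 2 * c * I z := by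
    unfold YWRef_177.k2
    rw [hk1]
    unfold Ad1
    ring
  rw [YWRef_177.lstat_diff h z y v i, hk2, hk1]
  unfold QL
  generalize k1 c W V k c z = K1
  generalize -2 * Ad c W z = a
  rw [hv, hi, hy]
  field_simp
  ring

theorem Pot_eq (h : SPair c W V I k c) (z : ℝ) {δ r τ v y : ℝ} (hv : v = V z * (1 + δ * r))
    (hy : y = c + δ * τ) :
    PtRef_846.PotR y v (YWRef_177.k1 c W V k c z / V z) =
      PL c δ r τ (k1 c W V k c z) (V z) := by
  have hV := (h.V_pos z).ne'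
  have hk1 : YWRef_177.k1 c W V k c z = k1 c W V k c z := rfl
  rw [hk1]
  unfold PtRef_846.PotR PL
  generalize k1 c W V k c z = K1
  rw [hv, hy]
  field_simp
  ring

theorem W_small (h : SPair c W V I k c) {x : ℝ} (hx : x ≤ -(48 / 10)) : W x ≤ 515 / 10000 + 1 / 10000 := by
  have h1 := h.W_strictMono.monotone hx
  have h2 := h.W_le (-(48 / 10))
  have h3 : Real.sqrt ((-(48 / 10) : ℝ) ^ 2 + 1) ≤ 49031 / 10000 := by
    rw [Real.sqrt_le_left (by norm_num)]
    norm_num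
  linarith

/-- elementary facts at a point of the left tail -/
structure LF (c : ℝ) (W V I k : ℝ → ℝ) (z : ℝ) : Prop where
  Aneg : Ad c W z < 0
  a0 : 292 / 100 ≤ -2 * Ad c W z
  V1 : V z ≤ 1 / 1000
  ka : k z * (-2 * Ad c W z) ≤ 2474 / 10000
  p0 : -2 * Ad c W z ≤ I z / V z
  p1 : I z / V z * (-2 * Ad c W z) ≤ (-2 * Ad c W z) ^ 2 + 14158 / 10000
  ζ1 : W z / V z * (-2 * Ad c W z) ≤ 1
  I1 : I z ≤ 35 / 10000
  k1u : -2 * Ad c W z * k1 c W V k c z ≤ (1 - c + 2 * c * V z) * k z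
  k1l : -(2 * c * V z) ≤ k1 c W V k c z

theorem a_eq (z : ℝ) : -2 * Ad c W z = (1 - c) * (-z) - 2 * c * W z := by
  unfold Ad; ring

theorem a_crude (h : SPair c W V I k c) (c1 : c ≤ 4158 / 10000) {x : ℝ}
    (hx : x ≤ -(48 / 10)) : (1 - c) * (-x) - 43 / 1000 ≤ -2 * Ad c W x := by
  rw [a_eq]
  have h1 := W_small h hx
  have h2 := h.W_pos x
  have h3 : c * W x ≤ 4158 / 10000 * (515 / 10000 + 1 / 10000) :=
    mul_le_mul c1 h1 h2.le (by norm_num)
  linarith

theorem I_mono_left (h : SPair c W V I k c) {x y : ℝ} (hxy : x ≤ y) (hy : Ad c W y < 0) :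
    I x ≤ I y := by
  have hm : MonotoneOn I (Iic y) := by
    refine monotoneOn_of_deriv_nonneg (convex_Iic y) h.cI.continuousOn
      (fun w _ => (h.dI w).differentiableAt.differentiableWithinAt) fun w hw => ?_
    rw [(h.dI w).deriv]
    rw [interior_Iic] at hw
    have h1 : Ad c W w < 0 := ((A_mono h).monotone (le_of_lt hw)).trans_lt hy
    have h2 := mul_pos (show 0 < -2 * Ad c W w by linarith) (h.I_pos w)
    have h3 : 0 ≤ 2 * c * V w * (1 - V w) := by
      have := h.V_lt w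
      have := h.V_pos w
      have := h.c_pos
      have : 0 ≤ 1 - V w := by linarith
      positivity
    linarith
  exact hm (mem_Iic.2 hxy) (mem_Iic.2 le_rfl) hxy

theorem lf (h : SPair c W V I k c) (c0 : 4157 / 10000 ≤ c) (c1 : c ≤ 4158 / 10000)
    (hV5 : V (-5) ≤ 1 / 1000) {z : ℝ} (hz : z ≤ -5) : LF c W V I k z := by
  have hc0 := h.c_pos
  -- `a` at a point `≤ -5`
  have key : ∀ y, y ≤ -5 → 0 < -2 * Ad c W y ∧ (1 - c) * (-y) - 3 / 10000 ≤ -2 * Ad c W y ∧
      V y ≤ 1 / 1000 := by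
    intro y hy
    have h1 := a_crude h c1 (show y ≤ -(48 / 10) by linarith)
    have h2 : (1 - c) * 5 ≤ (1 - c) * (-y) := mul_le_mul_of_nonneg_left (by linarith) (by linarith)
    have ha : 286 / 100 ≤ -2 * Ad c W y := by linarith
    have hVy : V y ≤ 1 / 1000 := (h.V_strictMono.monotone hy).trans hV5
    have h3 := aW_le_V h y
    have h4 := h.W_pos y
    have h5 : 286 / 100 * W y ≤ V y := (mul_le_mul_of_nonneg_right ha h4.le).trans h3
    have h6 : c * W y ≤ 4158 / 10000 * (1 / 1000 / (286 / 100)) := by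
      refine mul_le_mul c1 ?_ h4.le (by norm_num)
      rw [le_div_iff₀ (by norm_num)]; linarith
    refine ⟨by linarith, ?_, hVy⟩
    rw [a_eq]
    have : (2 : ℝ) * (4158 / 10000 * (1 / 1000 / (286 / 100))) ≤ 3 / 10000 := by norm_num
    linarith
  obtain ⟨ha0, ha1, hV1⟩ := key z hz
  have hA : Ad c W z < 0 := by linarith
  have ha2 : 292 / 100 ≤ -2 * Ad c W z := by
    have h2 : (1 - c) * 5 ≤ (1 - c) * (-z) := mul_le_mul_of_nonneg_left (by linarith) (by linarith)
    linarith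
  have hV := h.V_pos z
  have hk := k_le_left h (by linarith) hA
  rw [le_div_iff₀ ha0] at hk
  have hI1 := aV_le_I h z
  have hI2 := I_le_aV h hA
  have hW := aW_le_V h z
  refine ⟨hA, ha2, hV1, by linarith, ?_, ?_, ?_, ?_, ?_, ?_⟩
  · rw [le_div_iff₀ hV]; exact hI1
  · have h1 : I z / V z ≤ -2 * Ad c W z + (1 + c) / (-2 * Ad c W z) := by
      rw [div_le_iff₀ hV]; exact hI2
    have h2 := mul_le_mul_of_nonneg_right h1 ha0.le
    have h3 : (-2 * Ad c W z + (1 + c) / (-2 * Ad c W z)) * (-2 * Ad c W z) =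
        (-2 * Ad c W z) ^ 2 + (1 + c) := by
      rw [add_mul, div_mul_cancel₀ _ ha0.ne']; ring
    rw [h3] at h2
    linarith
  · rw [div_mul_eq_mul_div, div_le_one hV]; linarith
  · obtain ⟨e0, e1, e2⟩ := key (-5) le_rfl
    have hA5 : Ad c W (-5) < 0 := by linarith
    have h1 := I_mono_left h hz hA5
    have h2 := I_le_aV h hA5
    have ha5 : -2 * Ad c W (-5) ≤ 2922 / 1000 := by
      rw [a_eq]
      have := mul_pos hc0 (h.W_pos (-5))
      linarith
    have ha5' : 292 / 100 ≤ -2 * Ad c W (-5) := by linarith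
    have h3 : (1 + c) / (-2 * Ad c W (-5)) ≤ 14158 / 10000 / (292 / 100) := by
      apply div_le_div₀ (by norm_num) (by linarith) (by norm_num) ha5'
    have h4 : (-2 * Ad c W (-5) + (1 + c) / (-2 * Ad c W (-5))) * V (-5) ≤
        (2922 / 1000 + 14158 / 10000 / (292 / 100)) * (1 / 1000) :=
      mul_le_mul (by linarith) e2 (h.V_pos _).le (by norm_num)
    have h5 : ((2922 / 1000 + 14158 / 10000 / (292 / 100)) * (1 / 1000) : ℝ) ≤ 35 / 10000 := by
      norm_num
    linarith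
  · have h1 := k1_le_k h (by linarith) hA
    have h2 : 2 * Ad1 c V z = 1 - c + 2 * c * V z := by unfold Ad1; ring
    rwa [h2] at h1
  · have h1 := le_k1_left h (by linarith) hA
    have := sq_nonneg (k z)
    linarith

/-- `dI/dV ≥ a` -/
theorem a_le_T (h : SPair c W V I k c) (x : ℝ) : -2 * Ad c W x ≤ EqEta_889.k1 c W V I x := by
  unfold EqEta_889.k1
  have h1 := h.V_pos x
  have h2 : 0 < 1 - V x := by linarith [h.V_lt x]
  have h3 := h.I_pos x
  have h4 := h.c_pos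
  have : 0 ≤ 2 * c * (V x * (1 - V x) / I x) := by positivity
  linarith

/-- labels near the position: `V x ≤ 151/100 V z` gives `x ≤ z + 1/5` -/
theorem x_le (h : SPair c W V I k c) (c1 : c ≤ 4158 / 10000)
    {x z : ℝ} (hz : z ≤ -5) (L : LF c W V I k z) (hx : V x ≤ 151 / 100 * V z) : x ≤ z + 1 / 5 := by
  by_contra hcon
  push Not at hcon
  have h1 : V (z + 1 / 5) < V x := h.V_strictMono hcon
  have hA : Ad c W (z + 1 / 5) < 0 := by
    have h1 := a_crude h c1 (show z + 1 / 5 ≤ -(48 / 10) by linarith)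
    have h2 : (1 - c) * (48 / 10) ≤ (1 - c) * (-(z + 1 / 5)) :=
      mul_le_mul_of_nonneg_left (by linarith) (by linarith)
    linarith
  have hm : MonotoneOn (fun y => V y - I z * y) (Icc z (z + 1 / 5)) := by
    have hd : ∀ w, HasDerivAt (fun y => V y - I z * y) (I w - I z * 1) w := fun w =>
      (h.dV w).sub ((hasDerivAt_id w).const_mul (I z))
    refine monotoneOn_of_deriv_nonneg (convex_Icc _ _)
      (fun w _ => (hd w).continuousAt.continuousWithinAt)
      (fun w _ => (hd w).differentiableAt.differentiableWithinAt) fun w hw => ?_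
    rw [(hd w).deriv]
    rw [interior_Icc] at hw
    have h3 : Ad c W w < 0 := ((A_mono h).monotone hw.2.le).trans_lt hA
    have := I_mono_left h hw.1.le h3
    linarith
  have h2 := hm (left_mem_Icc.2 (by linarith)) (right_mem_Icc.2 (by linarith))
    (show z ≤ z + 1 / 5 by linarith)
  simp only at h2
  have hV := h.V_pos z
  have h3 : 292 / 100 * V z ≤ I z :=
    (mul_le_mul_of_nonneg_right L.a0 hV.le).trans (aV_le_I h z)
  linarith

theorem beta_up {δ r β s u θ : ℝ} (δ0 : 0 < δ) (δ1 : δ ≤ 4158 / 10000) (r0 : -(121 / 100) ≤ r)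
    (r1 : r ≤ 121 / 100) (s1 : s ≤ 121 / 100)
    (hβ : 1 + δ * r + δ * β = (1 + δ * s) * u) (u0 : 0 ≤ u)
    (hθ : 85 / 100 ≤ θ) (h1 : 0 ≤ r → u ≤ 1 + δ * r) (h2 : r < 0 → u ≤ 1 + θ * (δ * r)) :
    β ≤ 182 / 100 := by
  have hs : (1 + δ * s) * u ≤ (1 + δ * (121 / 100)) * u :=
    mul_le_mul_of_nonneg_right (by nlinarith) u0
  rcases le_or_gt 0 r with hr | hr
  · have h3 := h1 hr
    have h4 : (1 + δ * (121 / 100)) * u ≤ (1 + δ * (121 / 100)) * (1 + δ * r) :=
      mul_le_mul_of_nonneg_left h3 (by positivity)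
    have h5 : δ * β ≤ δ * (121 / 100 * (1 + δ * r)) := by linarith
    have h6 : β ≤ 121 / 100 * (1 + δ * r) := le_of_mul_le_mul_left h5 δ0
    have h7 : δ * r ≤ 4158 / 10000 * (121 / 100) := mul_le_mul δ1 r1 hr (by norm_num)
    linarith
  · have h3 : u ≤ 1 + 85 / 100 * (δ * r) := by
      have e1 := h2 hr
      have e2 : θ * (δ * r) ≤ 85 / 100 * (δ * r) :=
        mul_le_mul_of_nonpos_right hθ (mul_nonpos_of_nonneg_of_nonpos δ0.le hr.le)
      linarith
    have h4 : (1 + δ * (121 / 100)) * u ≤ (1 + δ * (121 / 100)) * (1 + 85 / 100 * (δ * r)) :=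
      mul_le_mul_of_nonneg_left h3 (by positivity)
    have h5 : δ * β ≤ δ * (121 / 100 * (1 + 85 / 100 * (δ * r)) - 15 / 100 * r) := by linarith
    have h6 := le_of_mul_le_mul_left h5 δ0
    have h7 : δ * r ≤ 0 := mul_nonpos_of_nonneg_of_nonpos δ0.le hr.le
    linarith

theorem beta_low {δ r β s u θ : ℝ} (δ0 : 0 < δ) (δ1 : δ ≤ 4158 / 10000)
    (r1 : r ≤ 121 / 100) (s0 : -(121 / 100) ≤ s)
    (hβ : 1 + δ * r + δ * β = (1 + δ * s) * u) (u0 : 0 ≤ u)
    (hθ : 80 / 100 ≤ θ) (h1 : r < 0 → 1 + δ * r ≤ u) (h2 : 0 ≤ r → 1 + θ * (δ * r) ≤ u) :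
    -(195 / 100) ≤ β ∧ (r < 0 → -(121 / 100) ≤ β) := by
  have hs : (1 - δ * (121 / 100)) * u ≤ (1 + δ * s) * u :=
    mul_le_mul_of_nonneg_right (by nlinarith) u0
  have hs0 : 0 ≤ 1 - δ * (121 / 100) := by linarith
  have hneg : r < 0 → -(121 / 100) ≤ β := by
    intro hr
    have h4 : (1 - δ * (121 / 100)) * (1 + δ * r) ≤ (1 - δ * (121 / 100)) * u :=
      mul_le_mul_of_nonneg_left (h1 hr) hs0
    have h5 : δ * (-(121 / 100) * (1 + δ * r)) ≤ δ * β := by linarith
    have h6 := le_of_mul_le_mul_left h5 δ0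
    have h7 : δ * r ≤ 0 := mul_nonpos_of_nonneg_of_nonpos δ0.le hr.le
    linarith
  refine ⟨?_, hneg⟩
  rcases le_or_gt 0 r with hr | hr
  · have h3 : 1 + 80 / 100 * (δ * r) ≤ u := by
      have e1 := h2 hr
      have e2 : 80 / 100 * (δ * r) ≤ θ * (δ * r) :=
        mul_le_mul_of_nonneg_right hθ (by positivity)
      linarith
    have h4 : (1 - δ * (121 / 100)) * (1 + 80 / 100 * (δ * r)) ≤ (1 - δ * (121 / 100)) * u :=
      mul_le_mul_of_nonneg_left h3 hs0
    have h5 : δ * (-(121 / 100) * (1 + 80 / 100 * (δ * r)) - 20 / 100 * r) ≤ δ * β := by linarith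
    have h6 := le_of_mul_le_mul_left h5 δ0
    have h7 : δ * r ≤ 4158 / 10000 * (121 / 100) := mul_le_mul δ1 r1 hr (by norm_num)
    linarith
  · linarith [hneg hr]

theorem aux_t1 {P a : ℝ} (h1 : P * a ≤ a ^ 2 + 14158 / 10000) (h2 : 292 / 100 ≤ a) :
    85 / 100 * P ≤ a := by
  have ha : 0 < a := by linarith
  have h3 : 85 / 100 * P * a ≤ a * a := by nlinarith
  exact le_of_mul_le_mul_right h3 ha

theorem aux_t2 {P a : ℝ} (h1 : P * a ≤ a ^ 2 + 14158 / 10000) (h2 : 292 / 100 ≤ a) :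
    80 / 100 * P ≤ a - 16 / 100 := by
  have ha : 0 < a := by linarith
  have h3 : 80 / 100 * P * a ≤ (a - 16 / 100) * a := by nlinarith
  exact le_of_mul_le_mul_right h3 ha

/-- **the left tail** -/
theorem law_left (h : SPair c W V I k c) (hJ : ∀ x, 0 ≤ EqEta_889.Jc c W V I x)
    (c0 : 4157 / 10000 ≤ c) (c1 : c ≤ 4158 / 10000) (hV5 : V (-5) ≤ 1 / 1000)
    {δ x z y j : ℝ} (hz : z ≤ -5) (δ0 : 0 < δ) (δ1 : δ ≤ c)
    (hx : |V x - V z| ≤ 121 / 100 * δ * V z) (hj : |j - 1| ≤ 121 / 100 * δ)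
    (y0 : 0 ≤ y) (y1 : y ≤ 7005 / 10000) (hy : |y - c| ≤ 1001 / 1000 * δ) :
    1 / 10 ≤ PtRef_846.PotR y (V x) (YWRef_177.k1 c W V k c z / V z) ∧
    LStat 1 y (V x) (j * I x) (W z) (k z) (YWRef_177.k1 c W V k c z / V z)
      ((YWRef_177.k2 c W V I k c z * V z - YWRef_177.k1 c W V k c z * I z) / V z ^ 3) ≤
      27 / 20 * δ * PtRef_846.PotR y (V x) (YWRef_177.k1 c W V k c z / V z) ∧
    -(11 / 10 * δ * PtRef_846.PotR y (V x) (YWRef_177.k1 c W V k c z / V z)) ≤
      LStat 1 y (V x) (j * I x) (W z) (k z) (YWRef_177.k1 c W V k c z / V z)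
      ((YWRef_177.k2 c W V I k c z * V z - YWRef_177.k1 c W V k c z * I z) / V z ^ 3) := by
  have L := lf h c0 c1 hV5 hz
  have hV := h.V_pos z
  have hI := h.I_pos z
  have hIx := h.I_pos x
  have hW := h.W_pos z
  have hδ := δ1.trans c1
  have ha : 0 < -2 * Ad c W z := by linarith [L.a0]
  -- the parameters
  set r : ℝ := (V x - V z) / (δ * V z) with hr
  set s : ℝ := (j - 1) / δ with hs
  set u : ℝ := I x / I z with hu
  set τ : ℝ := (y - c) / δ with hτ
  set β : ℝ := ((1 + δ * s) * u - 1 - δ * r) / δ with hβ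
  have er : δ * r * V z = V x - V z := by rw [hr]; field_simp
  have es : δ * s = j - 1 := by rw [hs]; field_simp
  have eu : u * I z = I x := by rw [hu]; field_simp
  have eτ : δ * τ = y - c := by rw [hτ]; field_simp
  have eβ : δ * β = (1 + δ * s) * u - 1 - δ * r := by rw [hβ]; field_simp
  have hr' : |r| ≤ 121 / 100 := by
    rw [hr, abs_div, abs_of_pos (mul_pos δ0 hV), div_le_iff₀ (mul_pos δ0 hV)]
    linarith
  have hs' : |s| ≤ 121 / 100 := by
    rw [hs, abs_div, abs_of_pos δ0, div_le_iff₀ δ0]; exact hj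
  have hτ' : |τ| ≤ 1001 / 1000 := by
    rw [hτ, abs_div, abs_of_pos δ0, div_le_iff₀ δ0]; exact hy
  obtain ⟨r0, r1⟩ := abs_le.1 hr'
  obtain ⟨s0, s1⟩ := abs_le.1 hs'
  obtain ⟨τ0, τ1⟩ := abs_le.1 hτ'
  have u0 : 0 < u := div_pos hIx hI
  have hβ' : 1 + δ * r + δ * β = (1 + δ * s) * u := by linarith
  have p0 : 0 < I z / V z := div_pos hI hV
  -- `V x ≤ 151/100 V z`
  have hVx : V x ≤ 151 / 100 * V z := by
    have h1 : δ * r ≤ 51 / 100 := by
      have h2 : δ * r ≤ δ * (121 / 100) := mul_le_mul_of_nonneg_left r1 δ0.le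
      linarith
    have h3 : δ * r * V z ≤ 51 / 100 * V z := mul_le_mul_of_nonneg_right h1 hV.le
    linarith
  -- bounds of `β`
  have hup : β ≤ 182 / 100 := by
    refine beta_up (θ := -2 * Ad c W z / (I z / V z)) δ0 hδ r0 r1 s1 hβ' u0.le ?_ ?_ ?_
    · rw [le_div_iff₀ p0]
      exact aux_t1 L.p1 L.a0
    · intro hr0
      have hzx : z ≤ x := by
        by_contra hcon
        push Not at hcon
        have h1 := h.V_strictMono hcon
        have h2 : 0 ≤ δ * r * V z := by positivity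
        linarith
      have h1 := EqEta_889.chord_zero h hJ hzx
      rw [hu, div_le_iff₀ hI]
      have h2 : (1 + δ * r) * I z * V z = I z * V x := by
        have : V x = V z + δ * r * V z := by linarith
        rw [this]; ring
      have h3 : I x * V z ≤ (1 + δ * r) * I z * V z := by rw [h2]; exact h1
      exact le_of_mul_le_mul_right h3 hV
    · intro hr0
      have h1 := EqEta_889.tangent h hJ z x
      have h2 := a_le_T h z
      have h3 : V x - V z ≤ 0 := by
        have : δ * r * V z ≤ 0 :=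
          mul_nonpos_of_nonpos_of_nonneg (mul_nonpos_of_nonneg_of_nonpos δ0.le hr0.le) hV.le
        linarith
      have h4 := mul_le_mul_of_nonpos_right h2 h3
      rw [hu, div_le_iff₀ hI]
      have h5 : (1 + -2 * Ad c W z / (I z / V z) * (δ * r)) * I z =
          I z + -2 * Ad c W z * (δ * r * V z) := by
        field_simp
      rw [h5, er]
      linarith
  have hlow : -(195 / 100) ≤ β ∧ (r < 0 → -(121 / 100) ≤ β) := by
    refine beta_low (θ := max (80 / 100) (-2 * Ad c W x / (I z / V z))) δ0 hδ r1 s0 hβ' u0.le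
      (le_max_left _ _) ?_ ?_
    · intro hr0
      have hzx : x ≤ z := by
        by_contra hcon
        push Not at hcon
        have h1 := h.V_strictMono hcon
        have h2 : δ * r * V z ≤ 0 :=
          mul_nonpos_of_nonpos_of_nonneg (mul_nonpos_of_nonneg_of_nonpos δ0.le hr0.le) hV.le
        linarith
      have h1 := EqEta_889.chord_zero h hJ hzx
      rw [hu, le_div_iff₀ hI]
      have h2 : (1 + δ * r) * I z * V z = I z * V x := by
        have : V x = V z + δ * r * V z := by linarith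
        rw [this]; ring
      have h3 : (1 + δ * r) * I z * V z ≤ I x * V z := by rw [h2]; exact h1
      exact le_of_mul_le_mul_right h3 hV
    · intro hr0
      have hzx : z ≤ x := by
        by_contra hcon
        push Not at hcon
        have h1 := h.V_strictMono hcon
        have h2 : 0 ≤ δ * r * V z := by positivity
        linarith
      have hx1 := x_le h c1 hz L hVx
      have hx2 := a_crude h c1 (show x ≤ -(48 / 10) by linarith)
      have hθ : 80 / 100 ≤ -2 * Ad c W x / (I z / V z) := by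
        rw [le_div_iff₀ p0]
        have h3 : (1 - c) * (-z) - 1 / 5 * (1 - c) ≤ (1 - c) * (-x) := by
          have := mul_le_mul_of_nonneg_left (show -z - 1 / 5 ≤ -x by linarith)
            (show 0 ≤ 1 - c by linarith)
          linarith
        have h4 : -2 * Ad c W z ≤ (1 - c) * (-z) := by
          rw [a_eq]
          have := mul_pos h.c_pos hW
          linarith
        have h5 : -2 * Ad c W z - 16 / 100 ≤ -2 * Ad c W x := by linarith
        exact (aux_t2 L.p1 L.a0).trans h5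
      rw [max_eq_right hθ]
      have h1 := EqEta_889.tangent h hJ x z
      have h2 := a_le_T h x
      have h3 : 0 ≤ V x - V z := by
        have h2 : 0 ≤ δ * r * V z := by positivity
        linarith
      have h4 := mul_le_mul_of_nonneg_right h2 h3
      rw [hu, le_div_iff₀ hI]
      have h5 : (1 + -2 * Ad c W x / (I z / V z) * (δ * r)) * I z =
          I z + -2 * Ad c W x * (δ * r * V z) := by
        field_simp
      rw [h5, er]
      linarith
  have hLT : LT (c := c) δ r β τ (-2 * Ad c W z) (k z) (k1 c W V k c z) (I z / V z) (W z / V z)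
      (V z) := by
    refine ⟨δ0, hδ, r0, r1, hlow.1, hup, hlow.2, τ0, τ1, c0, c1, by linarith, by linarith, L.a0,
      h.k_pos z, L.ka, L.p0, L.p1, div_pos hW hV, L.ζ1, hV, L.V1, ?_, L.k1u, L.k1l⟩
    rw [div_mul_cancel₀ _ hV.ne']; exact L.I1
  obtain ⟨m1, m2, m3⟩ := hLT.main
  have hv : V x = V z * (1 + δ * r) := by linarith
  have hi : j * I x = I z * (1 + δ * r + δ * β) := by
    rw [hβ', ← eu]
    have : j = 1 + δ * s := by linarith
    rw [this]; ring
  have hy' : y = c + δ * τ := by linarith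
  rw [LStat_eq h z hv hi hy', Pot_eq h z hv hy']
  refine ⟨m1, ?_, ?_⟩
  · calc δ * QL c δ r β τ (-2 * Ad c W z) (k z) (k1 c W V k c z) (I z / V z) (W z / V z) (V z) ≤
        δ * (27 / 20 * PL c δ r τ (k1 c W V k c z) (V z)) := mul_le_mul_of_nonneg_left m2 δ0.le
      _ = _ := by ring
  · calc -(11 / 10 * δ * PL c δ r τ (k1 c W V k c z) (V z)) =
        δ * -(11 / 10 * PL c δ r τ (k1 c W V k c z) (V z)) := by ring
      _ ≤ _ := mul_le_mul_of_nonneg_left m3 δ0.le

end left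

/-! ### The right tail -/

section right

/-- source divided by `δ` on the right -/
def QR (c δ d β τ k k1 k2 V I W : ℝ) : ℝ :=
  (V + δ * d + V) / 2 * d * ((k2 * V - k1 * I) / V ^ 3) + (β - k * d - τ / 2 * W) * (k1 / V) -
    τ / 2 * k + (τ * (1 - (V + δ * d)) - c * d) * k + (τ * (I + δ * β) + c * β)

/-- data of the right tail -/
structure RT (δ d β τ k k1 k2 V I W : ℝ) : Prop where
  δ0 : 0 < δ
  δ1 : δ ≤ 4158 / 10000
  d0 : |d| ≤ 1 / 50
  β0 : |β| ≤ 1 / 10
  τ0 : |τ| ≤ 1001 / 1000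
  c0 : 4157 / 10000 ≤ c
  c1 : c ≤ 4158 / 10000
  y0 : 0 ≤ c + δ * τ
  V0 : 99 / 100 ≤ V
  V1 : V < 1
  v1 : V + δ * d < 1
  k0 : 0 < k
  k1' : k ≤ 1376 / 10000
  kk : |k1| ≤ 65 / 1000
  kk2 : |k2| ≤ 33 / 100
  Wk : |W * k1| ≤ 195 / 1000
  I0 : 0 < I
  I1 : I ≤ 44 / 1000

theorem RT.main {δ d β τ κ k1 k2 v i w : ℝ} (h : RT (c := c) δ d β τ κ k1 k2 v i w) :
    43 / 100 ≤ (1 + (c + δ * τ)) / 2 - (c + δ * τ) * (1 - (v + δ * d)) + (v + δ * d) * (k1 / v) ∧
    |QR c δ d β τ κ k1 k2 v i w| ≤ 32 / 100 := by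
  obtain ⟨δ0, δ1, d0, β0, τ0, c0, c1, y0, V0, V1, v1, k0, k1', kk, kk2, Wk, I0, I1⟩ := h
  have hV0 : 0 < v := by linarith
  have hδ : |δ| ≤ 4158 / 10000 := by rw [abs_of_pos δ0]; exact δ1
  have hc : |c| ≤ 4158 / 10000 := by rw [abs_of_nonneg (by linarith)]; exact c1
  have hκ : |κ| ≤ 1376 / 10000 := by rw [abs_of_pos k0]; exact k1'
  have hi : |i| ≤ 44 / 1000 := by rw [abs_of_pos I0]; exact I1
  have hδd := abs_mul_le' hδ d0
  have hδβ := abs_mul_le' hδ β0
  obtain ⟨f1, f2⟩ := abs_le.1 hδd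
  have hinv : |1 / v| ≤ 100 / 99 := by
    rw [abs_of_pos (by positivity), div_le_div_iff₀ hV0 (by norm_num)]
    linarith
  have hF1 : |k1 / v| ≤ 65 / 1000 * (100 / 99) := by
    rw [show k1 / v = k1 * (1 / v) by ring]
    exact abs_mul_le' kk hinv
  have hWF1 : |w * (k1 / v)| ≤ 195 / 1000 * (100 / 99) := by
    rw [show w * (k1 / v) = w * k1 * (1 / v) by ring]
    exact abs_mul_le' Wk hinv
  have hF2 : |(k2 * v - k1 * i) / v ^ 3| ≤ 35 / 100 := by
    have e1 : (k2 * v - k1 * i) / v ^ 3 = (k2 - k1 * i * (1 / v)) * ((1 / v) * (1 / v)) := by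
      field_simp
    rw [e1]
    have e2 : |k1 * i * (1 / v)| ≤ 65 / 1000 * (44 / 1000) * (100 / 99) :=
      abs_mul_le' (abs_mul_le' kk hi) hinv
    have e3 : |k2 - k1 * i * (1 / v)| ≤ 333 / 1000 := by
      refine (abs_sub _ _).trans ?_
      linarith
    refine (abs_mul_le' e3 (abs_mul_le' hinv hinv)).trans ?_
    norm_num
  constructor
  · -- the potential
    have e1 : 0 ≤ (c + δ * τ) * (v + δ * d - 1 / 2) := mul_nonneg y0 (by linarith)
    have e2 : |(v + δ * d) * (k1 / v)| ≤ 1 * (65 / 1000 * (100 / 99)) := by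
      refine abs_mul_le' ?_ hF1
      rw [abs_le]; constructor <;> linarith
    obtain ⟨g1, g2⟩ := abs_le.1 e2
    have e3 : (1 + (c + δ * τ)) / 2 - (c + δ * τ) * (1 - (v + δ * d)) =
        1 / 2 + (c + δ * τ) * (v + δ * d - 1 / 2) := by ring
    rw [e3]
    linarith
  · have s1 : |(v + δ * d + v) / 2 * d * ((k2 * v - k1 * i) / v ^ 3)| ≤
        1 * (1 / 50) * (35 / 100) := by
      refine abs_mul_le' (abs_mul_le' ?_ d0) hF2
      rw [abs_le]; constructor <;> linarith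
    have s2 : |(β - κ * d) * (k1 / v)| ≤ 103 / 1000 * (65 / 1000 * (100 / 99)) := by
      refine abs_mul_le' ?_ hF1
      have := abs_mul_le' hκ d0
      refine (abs_sub _ _).trans ?_
      linarith
    have hτ2 : |τ / 2| ≤ 1001 / 2000 := by
      rw [abs_div, abs_two]; linarith
    have s4 : |(τ * (1 - (v + δ * d)) - c * d) * κ| ≤ 28 / 1000 * (1376 / 10000) := by
      refine abs_mul_le' ?_ hκ
      have e1 : |1 - (v + δ * d)| ≤ 19 / 1000 := by rw [abs_le]; constructor <;> linarith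
      have e2 := abs_mul_le' τ0 e1
      have e3 := abs_mul_le' hc d0
      refine (abs_sub _ _).trans ?_
      linarith
    have s5 : |τ * (i + δ * β) + c * β| ≤ 128 / 1000 := by
      have e1 : |i + δ * β| ≤ 856 / 10000 := (abs_add_le _ _).trans (by linarith)
      have e2 := abs_mul_le' τ0 e1
      have e3 := abs_mul_le' hc β0
      refine (abs_add_le _ _).trans ?_
      linarith
    -- the two terms `-τ/2 W k1/V` and `-τ/2 k`
    have s6 : |τ / 2 * (w * (k1 / v) + κ)| ≤ 1001 / 2000 * (3346 / 10000) := by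
      refine abs_mul_le' hτ2 ?_
      refine (abs_add_le _ _).trans ?_
      linarith
    have hQ : QR c δ d β τ κ k1 k2 v i w =
        (v + δ * d + v) / 2 * d * ((k2 * v - k1 * i) / v ^ 3) + (β - κ * d) * (k1 / v) -
        τ / 2 * (w * (k1 / v) + κ) + (τ * (1 - (v + δ * d)) - c * d) * κ +
        (τ * (i + δ * β) + c * β) := by
      unfold QR; ring
    rw [hQ]
    have t1 := abs_add_le ((v + δ * d + v) / 2 * d * ((k2 * v - k1 * i) / v ^ 3) +
        (β - κ * d) * (k1 / v) - τ / 2 * (w * (k1 / v) + κ) +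
        (τ * (1 - (v + δ * d)) - c * d) * κ) (τ * (i + δ * β) + c * β)
    have t2 := abs_add_le ((v + δ * d + v) / 2 * d * ((k2 * v - k1 * i) / v ^ 3) +
        (β - κ * d) * (k1 / v) - τ / 2 * (w * (k1 / v) + κ))
        ((τ * (1 - (v + δ * d)) - c * d) * κ)
    have t3 := abs_sub ((v + δ * d + v) / 2 * d * ((k2 * v - k1 * i) / v ^ 3) +
        (β - κ * d) * (k1 / v)) (τ / 2 * (w * (k1 / v) + κ))
    have t4 := abs_add_le ((v + δ * d + v) / 2 * d * ((k2 * v - k1 * i) / v ^ 3))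
        ((β - κ * d) * (k1 / v))
    linarith

/-- elementary facts at a point of the right tail -/
structure RF (c : ℝ) (W V I k : ℝ → ℝ) (z : ℝ) : Prop where
  V0 : 99 / 100 ≤ V z
  k1' : k z ≤ 1376 / 10000
  kk : |k1 c W V k c z| ≤ 65 / 1000
  kk2 : |YWRef_177.k2 c W V I k c z| ≤ 33 / 100
  Wk : |W z * k1 c W V k c z| ≤ 195 / 1000
  I1 : I z ≤ 44 / 1000

theorem al_ge (h : SPair c W V I k c) (c0 : 4157 / 10000 ≤ c) {x : ℝ} (hx : 3 ≤ x) :
    42471 / 10000 ≤ 2 * Ad c W x := by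
  have h1 := h.U_pos x
  have h2 := mul_pos h.c_pos (sub_pos.2 h1)
  have h3 : (1 + c) * 3 ≤ (1 + c) * x := mul_le_mul_of_nonneg_left hx (by linarith)
  unfold Ad
  linarith

theorem I_anti_right (h : SPair c W V I k c) (c0 : 4157 / 10000 ≤ c) (c1 : c ≤ 4158 / 10000)
    {z : ℝ} (hz : 3 ≤ z) : I z ≤ I 3 := by
  have hm : AntitoneOn I (Ici 3) := by
    refine antitoneOn_of_deriv_nonpos (convex_Ici 3) h.cI.continuousOn
      (fun w _ => (h.dI w).differentiableAt.differentiableWithinAt) fun w hw => ?_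
    rw [(h.dI w).deriv]
    rw [interior_Ici] at hw
    have h1 := al_ge h c0 (le_of_lt hw)
    have hR : 0 < 1 - V w := by linarith [h.V_lt w]
    have hV := h.V_pos w
    have hU : 0 < W w - w := by linarith [h.U_pos w]
    have h2 : 2 * Ad c W w * (1 - V w) ≤ I w := by
      rw [I_eq h]
      have := mul_pos (show 0 < 1 - c by linarith) hU
      linarith
    have h3 : 42471 / 10000 * (1 - V w) ≤ I w := (mul_le_mul_of_nonneg_right h1 hR.le).trans h2
    have h4 : 42471 / 10000 * (42471 / 10000 * (1 - V w)) ≤ 2 * Ad c W w * I w :=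
      mul_le_mul h1 h3 (by positivity) (by linarith)
    have h5 : 2 * c * V w * (1 - V w) ≤ 1 * (1 - V w) := by
      apply mul_le_mul_of_nonneg_right _ hR.le
      nlinarith [h.V_lt w]
    linarith
  exact hm (mem_Ici.2 le_rfl) (mem_Ici.2 hz) hz

theorem rf (h : SPair c W V I k c) (c0 : 4157 / 10000 ≤ c) (c1 : c ≤ 4158 / 10000)
    (hV3 : 99 / 100 ≤ V 3) {z : ℝ} (hz : 3 ≤ z) : RF c W V I k z := by
  have hc0 := h.c_pos
  have base : ∀ y, 3 ≤ y → 99 / 100 ≤ V y ∧ 0 < W y - y ∧ W y - y ≤ 236 / 100000 ∧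
      (1 - c) * (W y - y) ≤ 138 / 100000 := by
    intro y hy
    have h1 := al_ge h c0 hy
    have hV : 99 / 100 ≤ V y := hV3.trans (h.V_strictMono.monotone hy)
    have hU : 0 < W y - y := by linarith [h.U_pos y]
    have h2 := aU_le_R h y
    have h3 : 42471 / 10000 * (W y - y) ≤ 1 - V y := (mul_le_mul_of_nonneg_right h1 hU.le).trans h2
    have h4 : W y - y ≤ 236 / 100000 := by linarith
    refine ⟨hV, hU, h4, ?_⟩
    have : (1 - c) * (W y - y) ≤ 5843 / 10000 * (236 / 100000) :=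
      mul_le_mul (by linarith) h4 hU.le (by norm_num)
    linarith
  have hα := al_ge h c0 hz
  set α : ℝ := 2 * Ad c W z with hαd
  have hα0 : 0 < α := by linarith
  have hA : 0 < Ad c W z := by linarith
  obtain ⟨hV, hU0, hU1, hU2⟩ := base z hz
  have hR : 0 < 1 - V z := by linarith [h.V_lt z]
  -- `k`
  have hk0 := h.k_pos z
  have hkα := k_le_right h hA
  rw [show (1 + c) - 2 * c = 1 - c by ring, ← hαd, le_div_iff₀ hα0] at hkα
  have hk : k z ≤ 1376 / 10000 := by
    have : k z * (42471 / 10000) ≤ k z * α := mul_le_mul_of_nonneg_left hα hk0.le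
    linarith
  -- `I`
  have hI : I z ≤ 44 / 1000 := by
    refine (I_anti_right h c0 c1 hz).trans ?_
    obtain ⟨g1, g2, g3, g4⟩ := base 3 le_rfl
    rw [I_eq h]
    have hα3 : 2 * Ad c W 3 ≤ 4252 / 1000 := by
      have : c * (W 3 - 3) ≤ 4158 / 10000 * (236 / 100000) := mul_le_mul c1 g3 g2.le (by norm_num)
      unfold Ad
      linarith
    have h1 : 2 * Ad c W 3 * (1 - V 3) ≤ 4252 / 1000 * (1 / 100) :=
      mul_le_mul hα3 (by linarith) (by linarith [h.V_lt 3]) (by norm_num)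
    linarith
  have hI0 := h.I_pos z
  have hαR : α * (1 - V z) ≤ 44 / 1000 := by
    have h1 := I_eq h z
    have h2 := mul_pos (show 0 < 1 - c by linarith) hU0
    linarith
  -- `k1`
  have u1 := k1_le_right h hA
  have u2 := le_k1_right h hA
  rw [show (1 + c) - 2 * c = 1 - c by ring, show 1 - c + 1 + c = (2 : ℝ) by ring, ← hαd] at u2
  set K1 : ℝ := k1 c W V k c z with hK1
  have hksq : k z ^ 2 ≤ (1376 / 10000) ^ 2 := pow_le_pow_left₀ hk0.le hk 2
  have hcR : c * (1 - V z) ≤ 4158 / 10000 * (1 / 100) :=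
    mul_le_mul c1 (by linarith) hR.le (by norm_num)
  have hα2 : (42471 / 10000) ^ 2 ≤ α ^ 2 := pow_le_pow_left₀ (by norm_num) hα 2
  have hlow : -(11686 / 10000) ≤ K1 * α ^ 2 := by
    have h1 : -((1 - c) * 2 / α ^ 2) ≤ K1 := by linarith [sq_nonneg (k z)]
    have h2 : -((1 - c) * 2) ≤ K1 * α ^ 2 := by
      have h3 := mul_le_mul_of_nonneg_right h1 (sq_nonneg α)
      rw [neg_mul, div_mul_cancel₀ _ (by positivity)] at h3
      exact h3
    linarith
  have hK1low : -(65 / 1000) ≤ K1 := by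
    by_contra hcon
    push Not at hcon
    have h1 : K1 * α ^ 2 ≤ -(65 / 1000) * α ^ 2 := mul_le_mul_of_nonneg_right hcon.le (sq_nonneg α)
    nlinarith
  have hK1up : K1 ≤ 28 / 1000 := by
    have : ((1376 / 10000) ^ 2 : ℝ) ≤ 19 / 1000 := by norm_num
    linarith
  have hKabs : |K1| ≤ 65 / 1000 := abs_le.2 ⟨hK1low, by linarith⟩
  -- `α k1`
  have hαK0 : -(2752 / 10000) ≤ α * K1 := by
    have h1 : -(11686 / 10000) ≤ (α * K1) * α := by
      have : (α * K1) * α = K1 * α ^ 2 := by ring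
      rw [this]; exact hlow
    by_contra hcon
    push Not at hcon
    have h2 : (α * K1) * α ≤ -(2752 / 10000) * α := mul_le_mul_of_nonneg_right hcon.le hα0.le
    linarith
  have hk2α : k z * (k z * α) ≤ 1376 / 10000 * (5843 / 10000) :=
    mul_le_mul hk (by linarith) (by positivity) (by norm_num)
  have hcαR : c * (α * (1 - V z)) ≤ 4158 / 10000 * (44 / 1000) :=
    mul_le_mul c1 hαR (by positivity) (by norm_num)
  have hαK1 : α * K1 ≤ 1171 / 10000 := by
    have h1 := mul_le_mul_of_nonneg_left u1 hα0.le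
    have h2 : α * (k z ^ 2 + 2 * c * (1 - V z)) = k z * (k z * α) + 2 * (c * (α * (1 - V z))) := by
      ring
    rw [h2] at h1
    linarith
  -- `W k1`
  have hW0 := h.W_pos z
  have hWα : (1 + c) * W z = α + (1 - c) * (W z - z) := by
    rw [hαd]; unfold Ad; ring
  have hWα1 : W z * (14157 / 10000) ≤ α + 138 / 100000 := by
    have : W z * (14157 / 10000) ≤ (1 + c) * W z := by
      rw [mul_comm]
      exact mul_le_mul_of_nonneg_right (by linarith) hW0.le
    linarith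
  have hWabs : |W z * K1| ≤ 195 / 1000 := by
    rw [abs_le]
    constructor
    · rcases le_or_gt 0 K1 with hK | hK
      · have := mul_nonneg hW0.le hK
        linarith
      · have h1 : (W z * (14157 / 10000)) * K1 ≥ (α + 138 / 100000) * K1 :=
          mul_le_mul_of_nonpos_right hWα1 hK.le
        have h2 : (138 / 100000 : ℝ) * K1 ≥ 138 / 100000 * (-(65 / 1000)) :=
          mul_le_mul_of_nonneg_left hK1low (by norm_num)
        linarith
    · rcases le_or_gt 0 K1 with hK | hK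
      · have h1 : (W z * (14157 / 10000)) * K1 ≤ (α + 138 / 100000) * K1 :=
          mul_le_mul_of_nonneg_right hWα1 hK
        have h2 : (138 / 100000 : ℝ) * K1 ≤ 138 / 100000 * (28 / 1000) :=
          mul_le_mul_of_nonneg_left hK1up (by norm_num)
        linarith
      · have := mul_neg_of_pos_of_neg hW0 hK
        linarith
  -- `k2`
  have hk2 : YWRef_177.k2 c W V I k c z = 2 * (k z * K1) + α * K1 + 2 * Ad1 c V z * k z -
      2 * (c * I z) := by
    unfold YWRef_177.k2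
    have : YWRef_177.k1 c W V k c z = K1 := rfl
    rw [this, hαd]
    ring
  have hkK : |k z * K1| ≤ 1376 / 10000 * (65 / 1000) :=
    abs_mul_le' (by rw [abs_of_pos hk0]; exact hk) hKabs
  obtain ⟨w1, w2⟩ := abs_le.1 hkK
  have hA1 := Ad1_pos h z
  have hA1' := Ad1_lt h z
  have hAk : 2 * Ad1 c V z * k z ≤ 14158 / 10000 * (1376 / 10000) :=
    mul_le_mul (by linarith) hk hk0.le (by norm_num)
  have hAk0 : 0 ≤ 2 * Ad1 c V z * k z := mul_nonneg (by linarith) hk0.le
  have hcI : c * I z ≤ 4158 / 10000 * (44 / 1000) := mul_le_mul c1 hI hI0.le (by norm_num)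
  have hcI0 : 0 ≤ c * I z := by positivity
  refine ⟨hV, hk, hKabs, ?_, hWabs, hI⟩
  rw [hk2, abs_le]
  constructor <;> linarith

/-- **the right tail** -/
theorem law_right (h : SPair c W V I k c)
    (c0 : 4157 / 10000 ≤ c) (c1 : c ≤ 4158 / 10000) (hV3 : 99 / 100 ≤ V 3)
    {δ x z y j : ℝ} (hz : 3 ≤ z) (δ0 : 0 < δ) (δ1 : δ ≤ c)
    (hx : |V x - V z| ≤ 1 / 50 * δ) (hj : |j * I x - I z| ≤ 1 / 10 * δ)
    (y0 : 0 ≤ y) (hy : |y - c| ≤ 1001 / 1000 * δ) :
    1 / 10 ≤ PtRef_846.PotR y (V x) (YWRef_177.k1 c W V k c z / V z) ∧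
    LStat 1 y (V x) (j * I x) (W z) (k z) (YWRef_177.k1 c W V k c z / V z)
      ((YWRef_177.k2 c W V I k c z * V z - YWRef_177.k1 c W V k c z * I z) / V z ^ 3) ≤
      27 / 20 * δ * PtRef_846.PotR y (V x) (YWRef_177.k1 c W V k c z / V z) ∧
    -(11 / 10 * δ * PtRef_846.PotR y (V x) (YWRef_177.k1 c W V k c z / V z)) ≤
      LStat 1 y (V x) (j * I x) (W z) (k z) (YWRef_177.k1 c W V k c z / V z)
      ((YWRef_177.k2 c W V I k c z * V z - YWRef_177.k1 c W V k c z * I z) / V z ^ 3) := by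
  obtain ⟨r1, r2, r3, r4, r5, r6⟩ := rf h c0 c1 hV3 hz
  have hδ := δ1.trans c1
  set d : ℝ := (V x - V z) / δ with hd
  set β : ℝ := (j * I x - I z) / δ with hβ
  set τ : ℝ := (y - c) / δ with hτ
  have ed : δ * d = V x - V z := by rw [hd]; field_simp
  have eβ : δ * β = j * I x - I z := by rw [hβ]; field_simp
  have eτ : δ * τ = y - c := by rw [hτ]; field_simp
  have hd' : |d| ≤ 1 / 50 := by rw [hd, abs_div, abs_of_pos δ0, div_le_iff₀ δ0]; exact hx
  have hβ' : |β| ≤ 1 / 10 := by rw [hβ, abs_div, abs_of_pos δ0, div_le_iff₀ δ0]; exact hj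
  have hτ' : |τ| ≤ 1001 / 1000 := by rw [hτ, abs_div, abs_of_pos δ0, div_le_iff₀ δ0]; exact hy
  have hRT : RT (c := c) δ d β τ (k z) (k1 c W V k c z) (YWRef_177.k2 c W V I k c z) (V z) (I z)
      (W z) := by
    refine ⟨δ0, hδ, hd', hβ', hτ', c0, c1, by linarith, r1, h.V_lt z, ?_, h.k_pos z, r2, r3, r4, r5,
      h.I_pos z, r6⟩
    linarith [h.V_lt x]
  obtain ⟨m1, m2⟩ := hRT.main
  obtain ⟨m3, m4⟩ := abs_le.1 m2
  have hk1 : YWRef_177.k1 c W V k c z = k1 c W V k c z := rfl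
  have ev : V x = V z + δ * d := by linarith
  have ey : y = c + δ * τ := by linarith
  have ei : j * I x = I z + δ * β := by linarith
  have hS : LStat 1 y (V x) (j * I x) (W z) (k z) (YWRef_177.k1 c W V k c z / V z)
      ((YWRef_177.k2 c W V I k c z * V z - YWRef_177.k1 c W V k c z * I z) / V z ^ 3) =
      δ * QR c δ d β τ (k z) (k1 c W V k c z) (YWRef_177.k2 c W V I k c z) (V z) (I z) (W z) := by
    rw [YWRef_177.lstat_diff h z y, hk1, ev, ey, ei]
    unfold QR
    generalize ((YWRef_177.k2 c W V I k c z * V z - k1 c W V k c z * I z) / V z ^ 3) = F2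
    generalize k1 c W V k c z / V z = F1
    ring
  have hP : PtRef_846.PotR y (V x) (YWRef_177.k1 c W V k c z / V z) =
      (1 + (c + δ * τ)) / 2 - (c + δ * τ) * (1 - (V z + δ * d)) +
        (V z + δ * d) * (k1 c W V k c z / V z) := by
    rw [hk1, ev, ey]
    rfl
  rw [hS, hP]
  set P : ℝ := (1 + (c + δ * τ)) / 2 - (c + δ * τ) * (1 - (V z + δ * d)) +
        (V z + δ * d) * (k1 c W V k c z / V z) with hPd
  set Q : ℝ := QR c δ d β τ (k z) (k1 c W V k c z) (YWRef_177.k2 c W V I k c z) (V z) (I z) (W z)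
    with hQd
  refine ⟨by linarith, ?_, ?_⟩
  · calc δ * Q ≤ δ * (27 / 20 * P) := mul_le_mul_of_nonneg_left (by linarith) δ0.le
      _ = _ := by ring
  · calc -(11 / 10 * δ * P) = δ * -(11 / 10 * P) := by ring
      _ ≤ _ := mul_le_mul_of_nonneg_left (by linarith) δ0.le

end right

/-! ### The two numerical facts `V (-5) ≤ 1/1000`, `V 3 ≥ 99/100`, and the final statements -/

section num

theorem exp63 : (500 : ℝ) ≤ Real.exp (63 / 10) := by
  have h1 : (2.7182818283 : ℝ) < Real.exp 1 := Real.exp_one_gt_d9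
  have h2 : Real.exp (63 / 10) = Real.exp 1 ^ 6 * Real.exp (3 / 10) := by
    rw [← Real.exp_nat_mul, ← Real.exp_add]; norm_num
  have h3 : (1 + 3 / 10 : ℝ) ≤ Real.exp (3 / 10) := by
    have := Real.add_one_le_exp (3 / 10 : ℝ)
    linarith
  have h4 : (2.7182818283 : ℝ) ^ 6 ≤ Real.exp 1 ^ 6 := pow_le_pow_left₀ (by norm_num) h1.le 6
  rw [h2]
  calc (500 : ℝ) ≤ 2.7182818283 ^ 6 * (1 + 3 / 10) := by norm_num
    _ ≤ _ := mul_le_mul h4 h3 (by norm_num) (by positivity)

theorem V3_ge (h : SPair c W V I k c) (c0 : 4157 / 10000 ≤ c) : 99 / 100 ≤ V 3 := by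
  have h1 := R_le h (show (0 : ℝ) ≤ 3 by norm_num)
  have h2 : Real.exp (-((1 + c) / 2 * 3 ^ 2)) ≤ Real.exp (-(63 / 10)) := by
    apply Real.exp_le_exp.2
    linarith
  have h3 : Real.exp (-(63 / 10)) ≤ 1 / 500 := by
    rw [Real.exp_neg, ← one_div]
    exact one_div_le_one_div_of_le (by norm_num) exp63
  linarith

theorem V5_le (h : SPair c W V I k c) (c1 : c ≤ 4158 / 10000) : V (-5) ≤ 1 / 1000 := by
  have hc := h.c_pos
  set q : ℝ → ℝ := fun y => (1 - c) / 2 * y ^ 2 + 173 / 1000 * y with hq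
  have hqd : ∀ y, HasDerivAt q ((1 - c) * y + 173 / 1000) y := fun y => by
    have h1 := (((hasDerivAt_id y).pow 2).const_mul ((1 - c) / 2)).add
      ((hasDerivAt_id y).const_mul (173 / 1000))
    refine h1.congr_deriv ?_
    simp only [id]
    push_cast
    ring
  have hd : ∀ y, HasDerivAt (fun y => V y * Real.exp (q y))
      (I y * Real.exp (q y) + V y * (Real.exp (q y) * ((1 - c) * y + 173 / 1000))) y := fun y =>
    (h.dV y).mul (hqd y).exp
  have hW1 : W (-1) ≤ 2072 / 10000 := by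
    have h1 := h.W_le (-1)
    have h2 : Real.sqrt ((-1 : ℝ) ^ 2 + 1) ≤ 14143 / 10000 := by
      rw [Real.sqrt_le_left (by norm_num)]
      norm_num
    linarith
  have hmono : MonotoneOn (fun y => V y * Real.exp (q y)) (Iic (-1)) := by
    apply monotoneOn_of_deriv_nonneg (convex_Iic _)
    · exact fun y _ => (hd y).continuousAt.continuousWithinAt
    · exact fun y _ => (hd y).differentiableAt.differentiableWithinAt
    · intro y hy
      rw [interior_Iic] at hy
      rw [(hd y).deriv]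
      have h1 := aV_le_I h y
      have hWy : W y ≤ 2072 / 10000 := (h.W_strictMono.monotone (le_of_lt hy)).trans hW1
      have hcW : c * W y ≤ 4158 / 10000 * (2072 / 10000) :=
        mul_le_mul c1 hWy (h.W_pos y).le (by norm_num)
      have h2 : (1 - c) * (-y) - 173 / 1000 ≤ -2 * Ad c W y := by
        unfold Ad
        linarith
      have h3 := mul_le_mul_of_nonneg_right h2 (h.V_pos y).le
      have h4 : 0 ≤ I y + V y * ((1 - c) * y + 173 / 1000) := by linarith
      have h5 := mul_nonneg h4 (Real.exp_pos (q y)).le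
      linarith
  have hV1 : V (-1) ≤ 1 / 2 := by
    obtain ⟨t, ht, ht2⟩ := exists_hasDerivAt_eq_slope W V (show (-1 : ℝ) < 0 by norm_num)
      (h.cW.continuousOn) (fun y _ => h.dW y)
    have e1 : V (-1) ≤ V t := h.V_strictMono.monotone ht.1.le
    have e2 : V t = W 0 - W (-1) := by rw [ht2]; norm_num
    have e3 := W0_le h
    have e4 := h.W_pos (-1)
    linarith
  have h1 : V (-5) * Real.exp (q (-5)) ≤ V (-1) * Real.exp (q (-1)) :=
    hmono (by norm_num) (by norm_num) (by norm_num)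
  have e1 : V (-5) = V (-5) * Real.exp (q (-5)) * Real.exp (-q (-5)) := by
    rw [mul_assoc, ← Real.exp_add]; simp
  rw [e1]
  calc V (-5) * Real.exp (q (-5)) * Real.exp (-q (-5))
      ≤ V (-1) * Real.exp (q (-1)) * Real.exp (-q (-5)) :=
        mul_le_mul_of_nonneg_right h1 (Real.exp_pos _).le
    _ = V (-1) * Real.exp (q (-1) - q (-5)) := by
        rw [mul_assoc, ← Real.exp_add]; rfl
    _ ≤ V (-1) * Real.exp (-(63 / 10)) := by
        apply mul_le_mul_of_nonneg_left _ (h.V_pos _).le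
        apply Real.exp_le_exp.2
        simp only [hq]
        linarith
    _ ≤ 1 / 2 * (1 / 500) := by
        apply mul_le_mul hV1 _ (Real.exp_pos _).le (by norm_num)
        rw [Real.exp_neg, ← one_div]
        exact one_div_le_one_div_of_le (by norm_num) exp63
    _ = 1 / 1000 := by norm_num

/-- **(C2), left tail**, all numbers proved -/
theorem law_left' (h : SPair c W V I k c) (hJ : ∀ x, 0 ≤ EqEta_889.Jc c W V I x)
    (c0 : 4157 / 10000 ≤ c) (c1 : c ≤ 4158 / 10000)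
    {δ x z y j : ℝ} (hz : z ≤ -5) (δ0 : 0 < δ) (δ1 : δ ≤ c)
    (hx : |V x - V z| ≤ 121 / 100 * δ * V z) (hj : |j - 1| ≤ 121 / 100 * δ)
    (y0 : 0 ≤ y) (y1 : y ≤ 7005 / 10000) (hy : |y - c| ≤ 1001 / 1000 * δ) :
    1 / 10 ≤ PtRef_846.PotR y (V x) (YWRef_177.k1 c W V k c z / V z) ∧
    LStat 1 y (V x) (j * I x) (W z) (k z) (YWRef_177.k1 c W V k c z / V z)
      ((YWRef_177.k2 c W V I k c z * V z - YWRef_177.k1 c W V k c z * I z) / V z ^ 3) ≤
      27 / 20 * δ * PtRef_846.PotR y (V x) (YWRef_177.k1 c W V k c z / V z) ∧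
    -(11 / 10 * δ * PtRef_846.PotR y (V x) (YWRef_177.k1 c W V k c z / V z)) ≤
      LStat 1 y (V x) (j * I x) (W z) (k z) (YWRef_177.k1 c W V k c z / V z)
      ((YWRef_177.k2 c W V I k c z * V z - YWRef_177.k1 c W V k c z * I z) / V z ^ 3) :=
  law_left h hJ c0 c1 (V5_le h c1) hz δ0 δ1 hx hj y0 y1 hy

/-- **(C2), right tail**, all numbers proved -/
theorem law_right' (h : SPair c W V I k c)
    (c0 : 4157 / 10000 ≤ c) (c1 : c ≤ 4158 / 10000)
    {δ x z y j : ℝ} (hz : 3 ≤ z) (δ0 : 0 < δ) (δ1 : δ ≤ c)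
    (hx : |V x - V z| ≤ 1 / 50 * δ) (hj : |j * I x - I z| ≤ 1 / 10 * δ)
    (y0 : 0 ≤ y) (hy : |y - c| ≤ 1001 / 1000 * δ) :
    1 / 10 ≤ PtRef_846.PotR y (V x) (YWRef_177.k1 c W V k c z / V z) ∧
    LStat 1 y (V x) (j * I x) (W z) (k z) (YWRef_177.k1 c W V k c z / V z)
      ((YWRef_177.k2 c W V I k c z * V z - YWRef_177.k1 c W V k c z * I z) / V z ^ 3) ≤
      27 / 20 * δ * PtRef_846.PotR y (V x) (YWRef_177.k1 c W V k c z / V z) ∧
    -(11 / 10 * δ * PtRef_846.PotR y (V x) (YWRef_177.k1 c W V k c z / V z)) ≤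
      LStat 1 y (V x) (j * I x) (W z) (k z) (YWRef_177.k1 c W V k c z / V z)
      ((YWRef_177.k2 c W V I k c z * V z - YWRef_177.k1 c W V k c z * I z) / V z ^ 3) :=
  law_right h c0 c1 (V3_ge h c0) hz δ0 δ1 hx hj y0 hy

end num

end

end Crest.Agent.R146.LawTail_490
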