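import Crest.Agent.R146.YB_534

/-!
Row 146 (PT-STEP, helper534): **R2**, the law of the step system.
`theorem law (A : SD) (hB : Back A) (x0 : ℝ) : Law A x0 (pd A x0) (Yp A x0) (Yxp A x0) (Yxxp A x0)`.
-/

set_option autoImplicit false

namespace Crest.Agent.R146.Law_534

open MeasureTheory ProbabilityTheory Filter Topology Set
open Crest.ProbabilityR.InvariantGlass
open Crest.Agent.R146.Hg_534 Crest.Agent.R146.PB_534 Crest.Agent.R146.GG_534 Crest.Agent.R146.SG_534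
open Crest.Agent.R146.StepDef_791 Crest.Agent.R146.Cell_534
open Crest.Agent.R146.PD_534 Crest.Agent.R146.LawA_534 Crest.Agent.R146.YB_534
open Crest.Agent.R146.TiltB_534
open Crest.Agent.R146.MaxPCmp2_371 (YSys)

noncomputable section

theorem p_cont {A : SD} (hB : Back A) (x0 : ℝ) :
    ContinuousOn (fun q : ℝ × ℝ => pd A x0 q.1 q.2) (Ioc 0 A.T ×ˢ univ) := by
  rintro ⟨t, x⟩ ⟨ht, _⟩
  have ht0 : 0 < t := ht.1
  have h1 := pd_cont hB x0 (half_pos ht0) (t, x) ⟨⟨by simp only; linarith, ht.2⟩, mem_univ _⟩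
  refine h1.mono_of_mem_nhdsWithin ?_
  have h2 : {q : ℝ × ℝ | t / 2 < q.1} ∈ 𝓝 (t, x) :=
    (isOpen_lt continuous_const continuous_fst).mem_nhds (by
      show t / 2 < t
      linarith)
  filter_upwards [mem_nhdsWithin_of_mem_nhds h2, self_mem_nhdsWithin] with q hq1 hq2
  have hq3 : t / 2 < q.1 := hq1
  exact ⟨⟨hq3.le, hq2.1.2⟩, mem_univ _⟩

theorem p_x {A : SD} (hB : Back A) (x0 : ℝ) {t : ℝ} (ht : t ∈ Ioc 0 A.T) (x : ℝ) :
    HasDerivAt (pd A x0 t) (-Yp A x0 t x * pd A x0 t x) x := by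
  obtain ⟨hsg, hpos⟩ := pd_sg hB x0 t ht
  refine (hsg.hd x).congr_deriv ?_
  unfold Yp
  have := (hpos x).ne'
  field_simp
  try ring

theorem tail {A : SD} (hB : Back A) (x0 : ℝ) {t : ℝ} (ht : t ∈ Ioc 0 A.T) (n : ℕ) :
    Tendsto (fun x => pd A x0 t x * (1 + |x|) ^ n) (cocompact ℝ) (𝓝 0) := by
  obtain ⟨hsg, hpos⟩ := pd_sg hB x0 t ht
  obtain ⟨M, hM, hYM⟩ := Y_le hB x0 ht.1
  have hY := hYM t ⟨le_rfl, ht.2⟩
  have hint : ∀ m : ℕ, Integrable (fun x => pd A x0 t x * (1 + |x|) ^ m) := by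
    intro m
    obtain ⟨C, hC⟩ := mom hB x0 m
    exact (hC t ht).1
  have hYc : Continuous (Yp A x0 t) :=
    continuous_iff_continuousAt.2 fun x => (YB_534.Yx hB x0 ht x).continuousAt
  have hpc := hsg.cont
  -- the smooth comparison function
  set f : ℝ → ℝ := fun x => pd A x0 t x * (1 + x ^ 2) ^ n with hf
  have hbase : ∀ x : ℝ, 1 + x ^ 2 ≤ (1 + |x|) ^ 2 := by
    intro x
    rw [← sq_abs x]
    nlinarith [abs_nonneg x]
  have hbasen : ∀ (k : ℕ) (x : ℝ), (1 + x ^ 2) ^ k ≤ (1 + |x|) ^ (2 * k) := by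
    intro k x
    rw [pow_mul]
    exact pow_le_pow_left₀ (by positivity) (hbase x) k
  have hd : ∀ x, HasDerivAt f (-Yp A x0 t x * pd A x0 t x * (1 + x ^ 2) ^ n +
      pd A x0 t x * (n * (1 + x ^ 2) ^ (n - 1) * (2 * x))) x := by
    intro x
    have h1 : HasDerivAt (fun x : ℝ => 1 + x ^ 2) (2 * x) x := by
      have := ((hasDerivAt_id' x).fun_pow 2).const_add 1
      simpa using this
    exact (p_x hB x0 ht x).fun_mul (h1.fun_pow n)
  have hfi : Integrable f := by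
    refine Integrable.mono' (hint (2 * n)) (by fun_prop) (Eventually.of_forall fun x => ?_)
    rw [Real.norm_eq_abs, hf, abs_of_nonneg (mul_nonneg (hpos x).le (by positivity))]
    exact mul_le_mul_of_nonneg_left (hbasen n x) (hpos x).le
  have hfi' : Integrable (fun x => -Yp A x0 t x * pd A x0 t x * (1 + x ^ 2) ^ n +
      pd A x0 t x * (n * (1 + x ^ 2) ^ (n - 1) * (2 * x))) := by
    refine Integrable.mono' ((hint (1 + 2 * n)).const_mul (M + 2 * n)) (by fun_prop)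
      (Eventually.of_forall fun x => ?_)
    rw [Real.norm_eq_abs]
    have hp := (hpos x).le
    have h1 : |(-Yp A x0 t x * pd A x0 t x * (1 + x ^ 2) ^ n)| ≤
        M * (pd A x0 t x * (1 + |x|) ^ (1 + 2 * n)) := by
      rw [abs_mul, abs_mul, abs_neg, abs_of_nonneg hp, abs_of_nonneg (by positivity :
        (0:ℝ) ≤ (1 + x ^ 2) ^ n)]
      calc |Yp A x0 t x| * pd A x0 t x * (1 + x ^ 2) ^ n
          ≤ (M * (1 + |x|)) * pd A x0 t x * (1 + |x|) ^ (2 * n) := by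
            refine mul_le_mul (mul_le_mul_of_nonneg_right (hY x) hp) (hbasen n x)
              (by positivity) (by positivity)
        _ = _ := by rw [pow_add]; ring
    have h2 : |pd A x0 t x * (n * (1 + x ^ 2) ^ (n - 1) * (2 * x))| ≤
        2 * n * (pd A x0 t x * (1 + |x|) ^ (1 + 2 * n)) := by
      rw [abs_mul, abs_mul, abs_mul, abs_mul, abs_of_nonneg hp, abs_of_nonneg (by positivity :
        (0:ℝ) ≤ (1 + x ^ 2) ^ (n - 1)), abs_of_nonneg (by norm_num : (0:ℝ) ≤ 2),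
        abs_of_nonneg (Nat.cast_nonneg n : (0:ℝ) ≤ (n:ℝ))]
      have h3 : (1 + x ^ 2) ^ (n - 1) * |x| ≤ (1 + |x|) ^ (1 + 2 * n) := by
        calc (1 + x ^ 2) ^ (n - 1) * |x| ≤ (1 + |x|) ^ (2 * (n - 1)) * (1 + |x|) :=
              mul_le_mul (hbasen _ x) (by linarith) (abs_nonneg x) (by positivity)
          _ = (1 + |x|) ^ (2 * (n - 1) + 1) := by rw [pow_succ]
          _ ≤ _ := pow_le_pow_right₀ (one_le_base x) (by omega)
      calc pd A x0 t x * (n * (1 + x ^ 2) ^ (n - 1) * (2 * |x|))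
          = 2 * n * (pd A x0 t x * ((1 + x ^ 2) ^ (n - 1) * |x|)) := by ring
        _ ≤ _ := mul_le_mul_of_nonneg_left (mul_le_mul_of_nonneg_left h3 hp) (by positivity)
    calc _ ≤ _ := abs_add_le _ _
      _ ≤ _ := add_le_add h1 h2
      _ = _ := by ring
  have htop : Tendsto f atTop (𝓝 0) :=
    tendsto_zero_of_hasDerivAt_of_integrableOn_Ioi (a := 0) (fun x _ => hd x)
      hfi'.integrableOn hfi.integrableOn
  have hbot : Tendsto f atBot (𝓝 0) :=
    tendsto_zero_of_hasDerivAt_of_integrableOn_Iic (a := 0) (fun x _ => hd x)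
      hfi'.integrableOn hfi.integrableOn
  have hlim : Tendsto (fun x => 2 ^ n * f x) (cocompact ℝ) (𝓝 0) := by
    rw [cocompact_eq_atBot_atTop]
    have := (hbot.sup htop).const_mul (2 ^ n)
    rwa [mul_zero] at this
  refine squeeze_zero (fun x => mul_nonneg (hpos x).le (by positivity)) (fun x => ?_) hlim
  have h1 : 1 + |x| ≤ 2 * (1 + x ^ 2) := by
    rw [← sq_abs x]
    nlinarith [sq_nonneg (|x| - 1), sq_nonneg |x|]
  have h2 : (1 + |x|) ^ n ≤ 2 ^ n * (1 + x ^ 2) ^ n := by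
    rw [← mul_pow]
    exact pow_le_pow_left₀ (by positivity) h1 n
  calc pd A x0 t x * (1 + |x|) ^ n ≤ pd A x0 t x * (2 ^ n * (1 + x ^ 2) ^ n) :=
        mul_le_mul_of_nonneg_left h2 (hpos x).le
    _ = 2 ^ n * f x := by rw [hf]; ring

theorem ysys {A : SD} (hB : Back A) (x0 : ℝ) {t0 : ℝ} (ht0 : t0 ∈ Ioo 0 A.T) :
    ∃ M, YSys t0 A.T A.bl A.u A.V A.P (Yp A x0) (Yxp A x0) (Yxxp A x0) M := by
  obtain ⟨M1, hM1, hY⟩ := Y_le hB x0 ht0.1
  obtain ⟨M2, hM2, hbl⟩ := bl_bd A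
  obtain ⟨M3, hM3, hu⟩ := exists_M hB
  obtain ⟨M4, hb⟩ := hB.bsys
  have hsub : ∀ t ∈ Icc t0 A.T, t ∈ Ioc 0 A.T := fun t ht => ⟨lt_of_lt_of_le ht0.1 ht.1, ht.2⟩
  have hsub' : ∀ t ∈ Icc t0 A.T, t ∈ Icc 0 A.T := fun t ht => ⟨ht0.1.le.trans ht.1, ht.2⟩
  refine ⟨M1 + M2 + M2 * M3, ⟨Y_cont hB x0 ht0.1, ?_, ?_, ?_, ?_, ?_, ?_, ?_, ?_⟩⟩
  · exact fun t ht x => Yt hB x0 (hsub t ⟨ht.1.le, ht.2⟩) x
  · exact fun t ht x => YB_534.Yx hB x0 (hsub t ⟨ht.1.le, ht.2⟩) x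
  · exact fun t ht x => YB_534.Yxx hB x0 (hsub t ⟨ht.1.le, ht.2⟩) x
  · exact fun t _ => A.bl_nonneg t
  · intro t ht
    have := hbl t (hsub t ht)
    have : 0 ≤ M2 * M3 := by positivity
    linarith
  · exact fun t ht x => (hb.V_pos t (hsub' t ht) x).le
  · intro t ht x
    have h1 := hY t ht x
    have h2 := hbl t (hsub t ht)
    have h3 := hu t (hsub' t ht) x
    have h4 := hb.u_nonneg t (hsub' t ht) x
    have h5 := A.bl_nonneg t
    have h6 : A.bl t * A.u t x ≤ M2 * (M3 * (1 + |x|)) := mul_le_mul h2 h3 h4 hM2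
    have h7 := abs_add_le (Yp A x0 t x) (A.bl t * A.u t x)
    rw [abs_of_nonneg (mul_nonneg h5 h4)] at h7
    have h8 : 0 ≤ M2 * (1 + |x|) := by positivity
    have e : (M1 + M2 + M2 * M3) * (1 + |x|) =
        M1 * (1 + |x|) + M2 * (1 + |x|) + M2 * (M3 * (1 + |x|)) := by ring
    rw [e]
    linarith
  · intro t ht x
    have h1 := hY t ht x
    have h8 : 0 ≤ M2 * (1 + |x|) := by positivity
    have h9 : 0 ≤ M2 * (M3 * (1 + |x|)) := by positivity
    have e : (M1 + M2 + M2 * M3) * (1 + |x|) =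
        M1 * (1 + |x|) + M2 * (1 + |x|) + M2 * (M3 * (1 + |x|)) := by ring
    rw [e]
    linarith

/-- **R2** -/
theorem law (A : SD) (hB : Back A) (x0 : ℝ) :
    Law A x0 (pd A x0) (Yp A x0) (Yxp A x0) (Yxxp A x0) where
  p_pos := fun t ht x => (pd_sg hB x0 t ht).2 x
  p_cont := p_cont hB x0
  p_x := fun _ ht x => p_x hB x0 ht x
  mass := fun _ ht => mass hB x0 ht
  mom := fun n => mom hB x0 n
  tail := fun _ ht n => tail hB x0 ht n
  ysys := fun _ ht0 => ysys hB x0 ht0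
  ex_cont := fun _ _ _ _ _ hT => LawA_534.ex_cont hB x0 hT
  ex_r := fun _ _ _ _ _ hT _ ht => LawA_534.ex_r hB x0 hT ht
  ex_l := fun _ _ _ _ _ hT _ ht => LawA_534.ex_l hB x0 hT ht

end

end Crest.Agent.R146.Law_534
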