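import Mathlib

/-!
# R146 (helper947): averaging over the good strengths (last line of (L) of post 326)
-/

set_option autoImplicit false

open MeasureTheory Filter Topology

namespace Crest.Agent.R146.LbAvg_947

variable {L X : Type*} [MeasurableSpace L]

/-- If `D ≥ -C` everywhere and on a set of measure `≥ 1 - δ` the value `D l` is at least
`V x - ε` for some admissible `x` (which may depend on `l`), then one admissible `x`
satisfies the inequality on average. -/
theorem exists_of_avg (μ : Measure L) [IsProbabilityMeasure μ] {D : L → ℝ} {S : Set L}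
    {Good : X → Prop} {V : X → ℝ} {C B ε δ : ℝ} (hD : Integrable D μ) (hS : MeasurableSet S)
    (hε : 0 ≤ ε) (hδ0 : 0 ≤ δ) (hδ : δ ≤ 1 / 2) (hCB : 0 ≤ C + B) (hμ : μ.real Sᶜ ≤ δ)
    (hlow : ∀ᵐ l ∂μ, -C ≤ D l)
    (hgood : ∀ l ∈ S, ∃ x, Good x ∧ V x ≤ B ∧ V x - ε ≤ D l) {ε' : ℝ}
    (hε' : ε + 2 * δ * (C + B) < ε') :
    ∃ x, Good x ∧ V x ≤ B ∧ V x - ε' ≤ ∫ l, D l ∂μ := by
  by_contra hcon
  push Not at hcon
  set I := ∫ l, D l ∂μ with hI
  have hSr : μ.real S = 1 - μ.real Sᶜ := by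
    have h := probReal_add_probReal_compl (μ := μ) hS
    linarith
  have hSpos : 0 < μ.real S := by rw [hSr]; linarith
  have hne : S.Nonempty := by
    rw [Set.nonempty_iff_ne_empty]
    rintro rfl
    simp at hSpos
  obtain ⟨l0, hl0⟩ := hne
  obtain ⟨x0, hx0, hxB, _⟩ := hgood l0 hl0
  have hIB : I < B - ε' := lt_of_lt_of_le (hcon x0 hx0 hxB) (by linarith)
  have h1 : ∀ l ∈ S, I + (ε' - ε) ≤ D l := by
    intro l hl
    obtain ⟨x, hx, hB, hv⟩ := hgood l hl
    have := hcon x hx hB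
    linarith
  have h2 : (I + (ε' - ε)) * μ.real S ≤ ∫ l in S, D l ∂μ := by
    have h := setIntegral_mono_on (μ := μ) (s := S) (f := fun _ => I + (ε' - ε)) (g := D)
      (integrable_const _).integrableOn hD.integrableOn hS h1
    rw [setIntegral_const, smul_eq_mul, mul_comm] at h
    exact h
  have h3 : (-C) * μ.real Sᶜ ≤ ∫ l in Sᶜ, D l ∂μ := by
    have h := setIntegral_mono_ae (μ := μ) (s := Sᶜ) (f := fun _ => -C) (g := D)
      (integrable_const _).integrableOn hD.integrableOn hlow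
    rw [setIntegral_const, smul_eq_mul, mul_comm] at h
    exact h
  have h4 : I = ∫ l in S, D l ∂μ + ∫ l in Sᶜ, D l ∂μ := (integral_add_compl hS hD).symm
  rw [hSr] at h2
  set d := μ.real Sᶜ with hd
  have hd0 : 0 ≤ d := measureReal_nonneg
  -- `I ≥ (I + (ε' - ε)) (1 - d) - C d`
  have h5 : (ε' - ε) * (1 - d) ≤ d * (I + C) := by nlinarith
  have hε'0 : 0 ≤ ε' := by
    have : 0 ≤ 2 * δ * (C + B) := by positivity
    linarith
  have h6 : d * (I + C) ≤ d * (C + B) := mul_le_mul_of_nonneg_left (by linarith) hd0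
  have h7 : d * (C + B) ≤ δ * (C + B) := mul_le_mul_of_nonneg_right hμ hCB
  -- `ε' - ε > 2 δ (C + B)`
  have h8 : 0 ≤ 2 * δ * (C + B) := by positivity
  have h9 : (ε' - ε) * (1 - d) ≥ (ε' - ε) * (1 / 2) :=
    mul_le_mul_of_nonneg_left (by linarith) (by linarith)
  linarith

end Crest.Agent.R146.LbAvg_947
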