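import Crest.Agent.R146.LimFrame_952

/-!
Package P5 (row 146), part 2: joint convexity of `(x, 1/D) ↦ Q F D x`, lower semicontinuity,
the operator `T F D` of the form, and its strong convergence.
-/

set_option autoImplicit false

namespace Crest.Agent.R146.LimForm_952

open Filter Topology Set
open scoped InnerProductSpace
open Crest.Agent.R146.LimFrame_952

variable {H : Type*} [NormedAddCommGroup H] [InnerProductSpace ℝ H]

/-- harmonic mean of two profiles: the midpoint in the variable `1/D` -/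
noncomputable def hm (D₁ D₂ : ℝ → ℝ) (t : ℝ) : ℝ := 2 * D₁ t * D₂ t / (D₁ t + D₂ t)

lemma hm_pos {D₁ D₂ : ℝ → ℝ} {t : ℝ} (h₁ : 0 < D₁ t) (h₂ : 0 < D₂ t) : 0 < hm D₁ D₂ t := by
  unfold hm; positivity

lemma inv_hm {D₁ D₂ : ℝ → ℝ} {t : ℝ} (h₁ : 0 < D₁ t) (h₂ : 0 < D₂ t) :
    1 / hm D₁ D₂ t = (1 / D₁ t + 1 / D₂ t) / 2 := by
  unfold hm
  have : D₁ t + D₂ t ≠ 0 := by positivity
  field_simp
  ring

/-- `hm` is the infimum of the linear functions `2(θ² D₁ + (1-θ)² D₂)` -/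
lemma hm_le_lin {D₁ D₂ : ℝ → ℝ} {t : ℝ} (h₁ : 0 < D₁ t) (h₂ : 0 < D₂ t) (θ : ℝ) :
    hm D₁ D₂ t ≤ 2 * (θ ^ 2 * D₁ t + (1 - θ) ^ 2 * D₂ t) := by
  unfold hm
  rw [div_le_iff₀ (by positivity)]
  nlinarith [sq_nonneg (θ * (D₁ t + D₂ t) - D₂ t)]

lemma hm_eq_lin {D₁ D₂ : ℝ → ℝ} {t : ℝ} (h₁ : 0 < D₁ t) (h₂ : 0 < D₂ t) :
    hm D₁ D₂ t = 2 * ((D₂ t / (D₁ t + D₂ t)) ^ 2 * D₁ t +
      (1 - D₂ t / (D₁ t + D₂ t)) ^ 2 * D₂ t) := by
  unfold hm
  have : D₁ t + D₂ t ≠ 0 := by positivity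
  field_simp
  ring

lemma hm_concave {D₁ D₂ : ℝ → ℝ} (c₁ : ConcaveOn ℝ (Ico (0 : ℝ) 1) D₁)
    (c₂ : ConcaveOn ℝ (Ico (0 : ℝ) 1) D₂) (p₁ : ∀ t ∈ Ico (0 : ℝ) 1, 0 < D₁ t)
    (p₂ : ∀ t ∈ Ico (0 : ℝ) 1, 0 < D₂ t) : ConcaveOn ℝ (Ico (0 : ℝ) 1) (hm D₁ D₂) := by
  refine ⟨convex_Ico 0 1, ?_⟩
  intro x hx y hy a b ha hb hab
  have hz : a • x + b • y ∈ Ico (0 : ℝ) 1 := convex_Ico 0 1 hx hy ha hb hab
  set z := a • x + b • y with hzdef
  set θ := D₂ z / (D₁ z + D₂ z) with hθ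
  have e := hm_eq_lin (p₁ z hz) (p₂ z hz)
  rw [← hθ] at e
  have i1 := c₁.2 hx hy ha hb hab
  have i2 := c₂.2 hx hy ha hb hab
  rw [← hzdef] at i1 i2
  simp only [smul_eq_mul] at i1 i2 ⊢
  have j1 := hm_le_lin (p₁ x hx) (p₂ x hx) θ
  have j2 := hm_le_lin (p₁ y hy) (p₂ y hy) θ
  rw [e]
  have k1 : a * hm D₁ D₂ x ≤ a * (2 * (θ ^ 2 * D₁ x + (1 - θ) ^ 2 * D₂ x)) :=
    mul_le_mul_of_nonneg_left j1 ha
  have k2 : b * hm D₁ D₂ y ≤ b * (2 * (θ ^ 2 * D₁ y + (1 - θ) ^ 2 * D₂ y)) :=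
    mul_le_mul_of_nonneg_left j2 hb
  have l1 : θ ^ 2 * (a * D₁ x + b * D₁ y) ≤ θ ^ 2 * D₁ z :=
    mul_le_mul_of_nonneg_left i1 (sq_nonneg _)
  have l2 : (1 - θ) ^ 2 * (a * D₂ x + b * D₂ y) ≤ (1 - θ) ^ 2 * D₂ z :=
    mul_le_mul_of_nonneg_left i2 (sq_nonneg _)
  nlinarith [k1, k2, l1, l2]

lemma hm_anti {D₁ D₂ : ℝ → ℝ} (c₁ : AntitoneOn D₁ (Ico (0 : ℝ) 1))
    (c₂ : AntitoneOn D₂ (Ico (0 : ℝ) 1)) (p₁ : ∀ t ∈ Ico (0 : ℝ) 1, 0 < D₁ t)
    (p₂ : ∀ t ∈ Ico (0 : ℝ) 1, 0 < D₂ t) : AntitoneOn (hm D₁ D₂) (Ico (0 : ℝ) 1) := by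
  intro x hx y hy hxy
  have e := hm_eq_lin (p₁ x hx) (p₂ x hx)
  rw [e]
  refine (hm_le_lin (p₁ y hy) (p₂ y hy) (D₂ x / (D₁ x + D₂ x))).trans ?_
  have i1 := c₁ hx hy hxy
  have i2 := c₂ hx hy hxy
  gcongr

lemma hm_le_mean {D₁ D₂ : ℝ → ℝ} {t : ℝ} (h₁ : 0 < D₁ t) (h₂ : 0 < D₂ t) :
    hm D₁ D₂ t ≤ (D₁ t + D₂ t) / 2 := by
  have := hm_le_lin h₁ h₂ (1 / 2)
  linarith

lemma isAnti_of_pos {D : ℝ → ℝ} (c : AntitoneOn D (Ico (0 : ℝ) 1))
    (p : ∀ t ∈ Ico (0 : ℝ) 1, 0 < D t) : IsAnti D := ⟨c, fun t ht => (p t ht).le⟩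

lemma elem_hm {a b : ℝ} (ha : 0 < a) (hb : 0 < b) (u v : H) :
    2 * a * b / (a + b) * ‖(1 / 2 : ℝ) • (u + v)‖ ^ 2 ≤ (a * ‖u‖ ^ 2 + b * ‖v‖ ^ 2) / 2 := by
  have h1 : ‖(1 / 2 : ℝ) • (u + v)‖ ≤ (‖u‖ + ‖v‖) / 2 := by
    rw [norm_smul]
    have := norm_add_le u v
    norm_num
    linarith
  have h2 : ‖(1 / 2 : ℝ) • (u + v)‖ ^ 2 ≤ ((‖u‖ + ‖v‖) / 2) ^ 2 :=
    pow_le_pow_left₀ (norm_nonneg _) h1 2
  refine (mul_le_mul_of_nonneg_left h2 (by positivity)).trans ?_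
  rw [div_mul_eq_mul_div, div_le_iff₀ (by positivity)]
  nlinarith [sq_nonneg (a * ‖u‖ - b * ‖v‖), mul_pos ha hb]

lemma Qs_hm (F : Frame H) {D₁ D₂ : ℝ → ℝ} (p₁ : ∀ t ∈ Ico (0 : ℝ) 1, 0 < D₁ t)
    (p₂ : ∀ t ∈ Ico (0 : ℝ) 1, 0 < D₂ t) (n : ℕ) (x y : H) :
    Qs F (hm D₁ D₂) n ((1 / 2 : ℝ) • (x + y)) ≤ (Qs F D₁ n x + Qs F D₂ n y) / 2 := by
  unfold Qs hm
  have h0 := elem_hm (p₁ 0 zero_mem_Ico) (p₂ 0 zero_mem_Ico) (F.E 0 x) (F.E 0 y)
  rw [← map_add, ← map_smul] at h0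
  have hs : ∀ i ∈ Finset.range (2 ^ n - 1),
      2 * D₁ (pt n (i + 1)) * D₂ (pt n (i + 1)) / (D₁ (pt n (i + 1)) + D₂ (pt n (i + 1))) *
        ‖F.E (pt n (i + 1)) ((1 / 2 : ℝ) • (x + y)) - F.E (pt n i) ((1 / 2 : ℝ) • (x + y))‖ ^ 2 ≤
      (D₁ (pt n (i + 1)) * ‖F.E (pt n (i + 1)) x - F.E (pt n i) x‖ ^ 2 +
        D₂ (pt n (i + 1)) * ‖F.E (pt n (i + 1)) y - F.E (pt n i) y‖ ^ 2) / 2 := by
    intro i hi
    have := elem_hm (p₁ _ (mem_of_range hi)) (p₂ _ (mem_of_range hi))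
      (F.E (pt n (i + 1)) x - F.E (pt n i) x) (F.E (pt n (i + 1)) y - F.E (pt n i) y)
    refine le_trans (le_of_eq ?_) this
    congr 3
    rw [map_smul, map_smul, ← smul_sub, map_add, map_add]
    congr 1
    abel
  have := Finset.sum_le_sum hs
  rw [← Finset.sum_div, Finset.sum_add_distrib] at this
  linarith

lemma Q_hm (F : Frame H) {D₁ D₂ : ℝ → ℝ} (c₁ : AntitoneOn D₁ (Ico (0 : ℝ) 1))
    (c₂ : AntitoneOn D₂ (Ico (0 : ℝ) 1)) (p₁ : ∀ t ∈ Ico (0 : ℝ) 1, 0 < D₁ t)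
    (p₂ : ∀ t ∈ Ico (0 : ℝ) 1, 0 < D₂ t) (x y : H) :
    Q F (hm D₁ D₂) ((1 / 2 : ℝ) • (x + y)) ≤ (Q F D₁ x + Q F D₂ y) / 2 := by
  refine ciSup_le fun n => (Qs_hm F p₁ p₂ n x y).trans ?_
  have := Qs_le_Q F (isAnti_of_pos c₁ p₁) n x
  have := Qs_le_Q F (isAnti_of_pos c₂ p₂) n y
  linarith

/-! ### lower semicontinuity -/

lemma norm_sq_ge (u v : H) : 2 * inner ℝ u v - ‖v‖ ^ 2 ≤ ‖u‖ ^ 2 := by
  have : 0 ≤ ‖u - v‖ ^ 2 := sq_nonneg _
  rw [norm_sub_sq_real] at this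
  linarith

/-- joint lower semicontinuity along an arbitrary filter -/
lemma Q_le_of_tendsto {ι : Type*} {l : Filter ι} [l.NeBot] (F : Frame H) {D : ι → ℝ → ℝ}
    {D₀ : ℝ → ℝ} {x : ι → H} {x₀ : H} {a : ι → ℝ} {A : ℝ}
    (hD : ∀ t ∈ Ico (0 : ℝ) 1, Tendsto (fun i => D i t) l (𝓝 (D₀ t)))
    (hanti : ∀ᶠ i in l, IsAnti (D i))
    (hx : ∀ y, Tendsto (fun i => inner ℝ (x i) y) l (𝓝 (inner ℝ x₀ y)))
    (ha : Tendsto a l (𝓝 A)) (h : ∀ᶠ i in l, Q F (D i) (x i) ≤ a i) : Q F D₀ x₀ ≤ A := by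
  refine ciSup_le fun n => ?_
  -- linearised lower bound
  have hE : ∀ s y, Tendsto (fun i => inner ℝ (F.E s (x i)) y) l (𝓝 (inner ℝ (F.E s x₀) y)) := by
    intro s y
    have := hx (F.E s y)
    simpa [F.symm] using this
  set L : ι → ℝ := fun i =>
    D i 0 * (2 * inner ℝ (F.E 0 (x i)) (F.E 0 x₀) - ‖F.E 0 x₀‖ ^ 2) +
    ∑ j ∈ Finset.range (2 ^ n - 1), D i (pt n (j + 1)) *
      (2 * inner ℝ (F.E (pt n (j + 1)) (x i) - F.E (pt n j) (x i))
        (F.E (pt n (j + 1)) x₀ - F.E (pt n j) x₀)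
        - ‖F.E (pt n (j + 1)) x₀ - F.E (pt n j) x₀‖ ^ 2) with hL
  have hLt : Tendsto L l (𝓝 (Qs F D₀ n x₀)) := by
    rw [hL]
    unfold Qs
    refine Tendsto.add ?_ (tendsto_finsetSum _ fun j hj => ?_)
    · have h1 := ((hE 0 (F.E 0 x₀)).const_mul 2).sub_const (‖F.E 0 x₀‖ ^ 2)
      have h2 := (hD 0 zero_mem_Ico).mul h1
      convert h2 using 2
      rw [real_inner_self_eq_norm_sq]; ring
    · have hw : Tendsto (fun i => inner ℝ (F.E (pt n (j + 1)) (x i) - F.E (pt n j) (x i))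
        (F.E (pt n (j + 1)) x₀ - F.E (pt n j) x₀)) l
        (𝓝 (inner ℝ (F.E (pt n (j + 1)) x₀ - F.E (pt n j) x₀)
          (F.E (pt n (j + 1)) x₀ - F.E (pt n j) x₀))) := by
        simp only [inner_sub_left]
        exact (hE _ _).sub (hE _ _)
      have h1 := (hw.const_mul 2).sub_const (‖F.E (pt n (j + 1)) x₀ - F.E (pt n j) x₀‖ ^ 2)
      have h2 := (hD _ (mem_of_range hj)).mul h1
      convert h2 using 2
      rw [real_inner_self_eq_norm_sq]; ring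
  refine le_of_tendsto_of_tendsto hLt ha ?_
  filter_upwards [hanti, h] with i hi hq
  refine le_trans ?_ ((Qs_le_Q F hi n (x i)).trans hq)
  rw [hL]
  unfold Qs
  refine add_le_add (mul_le_mul_of_nonneg_left (norm_sq_ge _ _) (hi.nonneg 0 zero_mem_Ico)) ?_
  exact Finset.sum_le_sum fun j hj =>
    mul_le_mul_of_nonneg_left (norm_sq_ge _ _) (hi.nonneg _ (mem_of_range hj))

/-! ### the operator -/

section operator

variable [CompleteSpace H]

/-- `B F D x` as a continuous functional; zero when `D` is not in the class. -/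
noncomputable def Bfun (F : Frame H) (D : ℝ → ℝ) (h : IsAnti D) (x : H) : H →L[ℝ] ℝ :=
  LinearMap.mkContinuous
    { toFun := fun y => B F D x y
      map_add' := fun y z => B_add_right F h x y z
      map_smul' := fun c y => by simpa using B_smul_right F h c x y }
    (D 0 * ‖x‖) fun y => by simpa using abs_B_le F h x y

open Classical in
/-- the operator of the form `Q F D` -/
noncomputable def T (F : Frame H) (D : ℝ → ℝ) (x : H) : H :=
  if h : IsAnti D then (InnerProductSpace.toDual ℝ H).symm (Bfun F D h x) else 0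

lemma inner_T (F : Frame H) {D : ℝ → ℝ} (h : IsAnti D) (x y : H) :
    inner ℝ (T F D x) y = B F D x y := by
  unfold T
  rw [dif_pos h, InnerProductSpace.toDual_symm_apply]
  rfl

lemma T_unique (F : Frame H) {D : ℝ → ℝ} (h : IsAnti D) {x z : H}
    (hz : ∀ y, inner ℝ z y = B F D x y) : z = T F D x :=
  ext_inner_right ℝ fun y => by rw [hz, inner_T F h]

lemma T_add (F : Frame H) {D : ℝ → ℝ} (h : IsAnti D) (x y : H) :
    T F D (x + y) = T F D x + T F D y := by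
  refine ext_inner_right ℝ fun z => ?_
  rw [inner_add_left, inner_T F h, inner_T F h, inner_T F h, B_add_left F h]

lemma T_smul (F : Frame H) {D : ℝ → ℝ} (h : IsAnti D) (c : ℝ) (x : H) :
    T F D (c • x) = c • T F D x := by
  refine ext_inner_right ℝ fun z => ?_
  rw [real_inner_smul_left, inner_T F h, inner_T F h, B_smul_left F h]

lemma T_sub (F : Frame H) {D : ℝ → ℝ} (h : IsAnti D) (x y : H) :
    T F D (x - y) = T F D x - T F D y := by
  rw [sub_eq_add_neg, ← neg_one_smul ℝ y, T_add F h, T_smul F h, neg_one_smul, sub_eq_add_neg]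

lemma inner_T_self (F : Frame H) {D : ℝ → ℝ} (h : IsAnti D) (x : H) :
    inner ℝ (T F D x) x = Q F D x := by rw [inner_T F h, B_self F h]

lemma T_symm (F : Frame H) {D : ℝ → ℝ} (h : IsAnti D) (x y : H) :
    inner ℝ (T F D x) y = inner ℝ x (T F D y) := by
  rw [inner_T F h, B_comm F h, ← inner_T F h, real_inner_comm]

lemma norm_T_le (F : Frame H) {D : ℝ → ℝ} (h : IsAnti D) (x : H) :
    ‖T F D x‖ ≤ D 0 * ‖x‖ := by
  by_cases h0 : ‖T F D x‖ = 0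
  · rw [h0]; exact mul_nonneg h.zero_nonneg (norm_nonneg _)
  have h1 : ‖T F D x‖ * ‖T F D x‖ ≤ D 0 * ‖x‖ * ‖T F D x‖ := by
    rw [← real_inner_self_eq_norm_mul_norm, inner_T F h]
    exact (le_abs_self _).trans (abs_B_le F h x _)
  exact le_of_mul_le_mul_right h1 (lt_of_le_of_ne (norm_nonneg _) (Ne.symm h0))

lemma T_congr (F : Frame H) {D D' : ℝ → ℝ} (h : IsAnti D) (h' : IsAnti D')
    (he : ∀ t ∈ Ico (0 : ℝ) 1, D t = D' t) (x : H) : T F D x = T F D' x := by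
  refine ext_inner_right ℝ fun z => ?_
  rw [inner_T F h, inner_T F h']
  unfold B
  rw [Q_congr F he, Q_congr F he]

/-- comparison of two operators at a vector in the range of `E r`, `r < 1` -/
lemma norm_T_sub_le (F : Frame H) {D D' : ℝ → ℝ} (h : IsAnti D) (h' : IsAnti D')
    {r r' ε : ℝ} (hr : r < r') (hε : 0 ≤ ε) (hr0 : 0 ≤ r')
    (hd : ∀ t ∈ Ico (0 : ℝ) 1, t ≤ r' → |D t - D' t| ≤ ε) (x : H) :
    ‖T F D (F.E r x) - T F D' (F.E r x)‖ ≤ ε * ‖x‖ := by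
  set w := F.E r x with hw
  -- bound of the difference of the bilinear forms
  have key : ∀ y, |B F D w y - B F D' w y| ≤ ε * ‖x‖ * ‖y‖ := by
    intro y
    have hlim := ((tendsto_B F h w y).sub (tendsto_B F h' w y)).abs
    refine le_of_tendsto hlim ?_
    have hN : ∀ᶠ n : ℕ in atTop, (1 / 2 : ℝ) ^ n < r' - r := by
      have : Tendsto (fun n : ℕ => (1 / 2 : ℝ) ^ n) atTop (𝓝 0) :=
        tendsto_pow_atTop_nhds_zero_of_lt_one (by norm_num) (by norm_num)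
      exact this.eventually_lt_const (sub_pos.2 hr)
    filter_upwards [hN] with n hn
    have e : Bs F D n w y - Bs F D' n w y = Bs F (fun t => D t - D' t) n w y := by
      unfold Bs
      simp only [sub_mul, Finset.sum_sub_distrib]
      ring
    rw [e]
    refine (abs_Bs_le F _ n w y).trans (mul_le_mul_of_nonneg_right ?_ (norm_nonneg _))
    have hq : Qs F (fun t => (D t - D' t) ^ 2) n w ≤ (ε * ‖x‖) ^ 2 := by
      have hterm : Qs F (fun t => (D t - D' t) ^ 2) n w ≤ Qs F (fun _ => ε ^ 2 * 1) n w := by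
        unfold Qs
        refine add_le_add ?_ (Finset.sum_le_sum fun i hi => ?_)
        · refine mul_le_mul_of_nonneg_right ?_ (sq_nonneg _)
          have := hd 0 zero_mem_Ico hr0
          show (D 0 - D' 0) ^ 2 ≤ ε ^ 2 * 1
          rw [mul_one, ← sq_abs (D 0 - D' 0)]
          exact pow_le_pow_left₀ (abs_nonneg _) this 2
        · by_cases hir : r ≤ pt n i
          · have z : F.E (pt n (i + 1)) w - F.E (pt n i) w = 0 := by
              rw [hw, F.comp_ge r _ hir, F.comp_ge r _ (hir.trans (pt_mono n (Nat.le_succ i))),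
                sub_self]
            rw [z]; simp
          · refine mul_le_mul_of_nonneg_right ?_ (sq_nonneg _)
            have hle : pt n (i + 1) ≤ r' := by
              have := pt_sub n i
              push Not at hir
              linarith
            have := hd _ (mem_of_range hi) hle
            show (D (pt n (i + 1)) - D' (pt n (i + 1))) ^ 2 ≤ ε ^ 2 * 1
            rw [mul_one, ← sq_abs (D (pt n (i + 1)) - D' (pt n (i + 1)))]
            exact pow_le_pow_left₀ (abs_nonneg _) this 2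
      refine hterm.trans ?_
      rw [Qs_smulD, mul_pow]
      refine mul_le_mul_of_nonneg_left ((Qs_one_le F n w).trans ?_) (sq_nonneg _)
      exact pow_le_pow_left₀ (norm_nonneg _) (F.norm_E_le r x) 2
    exact (Real.sqrt_le_sqrt hq).trans (by rw [Real.sqrt_sq (by positivity)])
  set z := T F D w - T F D' w with hz
  by_cases h0 : ‖z‖ = 0
  · rw [h0]; positivity
  have h1 : ‖z‖ * ‖z‖ ≤ ε * ‖x‖ * ‖z‖ := by
    rw [← real_inner_self_eq_norm_mul_norm]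
    nth_rewrite 1 [hz]
    rw [inner_sub_left, inner_T F h, inner_T F h']
    exact (le_abs_self _).trans (key z)
  exact le_of_mul_le_mul_right h1 (lt_of_le_of_ne (norm_nonneg _) (Ne.symm h0))

end operator

/-! ### uniform convergence of monotone functions (Polya) -/

lemma unif_of_anti {ι : Type*} {l : Filter ι} {D : ι → ℝ → ℝ} {D₀ : ℝ → ℝ} {b : ℝ}
    (hb : 0 ≤ b) (hD : ∀ t ∈ Icc 0 b, Tendsto (fun i => D i t) l (𝓝 (D₀ t)))
    (hanti : ∀ᶠ i in l, AntitoneOn (D i) (Icc 0 b)) (h0 : ContinuousOn D₀ (Icc 0 b))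
    {ε : ℝ} (hε : 0 < ε) : ∀ᶠ i in l, ∀ t ∈ Icc 0 b, |D i t - D₀ t| ≤ ε := by
  have huc := isCompact_Icc.uniformContinuousOn_of_continuous h0
  rw [Metric.uniformContinuousOn_iff] at huc
  obtain ⟨δ, hδ, hu⟩ := huc (ε / 2) (by positivity)
  obtain ⟨N, hN⟩ := exists_nat_gt (b / δ)
  have hN' : 0 < (N : ℝ) + 1 := by positivity
  set s : ℕ → ℝ := fun k => b * k / (N + 1) with hs
  have hmem : ∀ k ∈ Finset.range (N + 2), s k ∈ Icc 0 b := by
    intro k hk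
    have hk' : (k : ℝ) ≤ N + 1 := by
      have := Finset.mem_range.1 hk
      exact_mod_cast (by omega : k ≤ N + 1)
    refine ⟨by rw [hs]; positivity, ?_⟩
    rw [hs]
    simp only
    rw [div_le_iff₀ hN']
    exact mul_le_mul_of_nonneg_left hk' hb
  have hev : ∀ᶠ i in l, ∀ k ∈ Finset.range (N + 2), |D i (s k) - D₀ (s k)| < ε / 2 := by
    rw [Filter.eventually_all_finset]
    intro k hk
    have := (hD _ (hmem k hk)).eventually (Metric.ball_mem_nhds (D₀ (s k)) (half_pos hε))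
    filter_upwards [this] with i hi
    simpa [Real.dist_eq] using hi
  filter_upwards [hanti, hev] with i ha hi t ht
  by_cases hb0 : b = 0
  · have ht0 : t = s 0 := by
      rw [hs]; simp only [CharP.cast_eq_zero, mul_zero, zero_div]
      have h1 := ht.1; have h2 := ht.2; linarith
    rw [ht0]
    exact ((hi 0 (by simp)).trans (by linarith)).le
  have hbpos : 0 < b := lt_of_le_of_ne hb (Ne.symm hb0)
  -- the index of the cell
  set k := ⌊t * (N + 1) / b⌋₊ with hk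
  have hx0 : 0 ≤ t * (N + 1) / b := div_nonneg (mul_nonneg ht.1 hN'.le) hb
  have hk1 : (k : ℝ) ≤ t * (N + 1) / b := Nat.floor_le hx0
  have hk2 : t * (N + 1) / b < k + 1 := Nat.lt_floor_add_one _
  have hsk : s k ≤ t := by
    rw [hs]; simp only
    rw [div_le_iff₀ hN']
    rw [le_div_iff₀ hbpos] at hk1
    linarith
  have htk : t ≤ s (k + 1) := by
    rw [hs]; simp only
    rw [le_div_iff₀ hN']
    rw [div_lt_iff₀ hbpos] at hk2
    push_cast
    linarith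
  have hcell : s (k + 1) - s k < δ := by
    rw [hs]; simp only
    push_cast
    rw [← sub_div]
    have : b * (↑k + 1) - b * ↑k = b := by ring
    rw [this, div_lt_iff₀ hN']
    rw [div_lt_iff₀ hδ] at hN
    nlinarith
  by_cases hkN : k + 1 ∈ Finset.range (N + 2)
  · have hkN' : k ∈ Finset.range (N + 2) := by
      rw [Finset.mem_range] at hkN ⊢; omega
    have hm1 := hmem _ hkN
    have hm0 := hmem _ hkN'
    have a1 : D i t ≤ D i (s k) := ha hm0 ht hsk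
    have a2 : D i (s (k + 1)) ≤ D i t := ha ht hm1 htk
    have c1 := hi _ hkN
    have c0 := hi _ hkN'
    have d1 := hu t ht (s (k + 1)) hm1 (by
      rw [Real.dist_eq, abs_sub_comm, abs_of_nonneg (by linarith)]; linarith)
    have d0 := hu t ht (s k) hm0 (by
      rw [Real.dist_eq, abs_of_nonneg (by linarith)]; linarith)
    rw [Real.dist_eq] at d1 d0
    rw [abs_lt] at c1 c0 d1 d0
    rw [abs_le]
    constructor <;> linarith [c1.1, c1.2, c0.1, c0.2, d1.1, d1.2, d0.1, d0.2]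
  · -- then `t = b = s (N+1)`
    have hkge : N + 1 ≤ k := by
      rw [Finset.mem_range] at hkN; omega
    have htb : t = b := by
      have hge : (N : ℝ) + 1 ≤ k := by exact_mod_cast hkge
      have : (N : ℝ) + 1 ≤ t * (N + 1) / b := hge.trans hk1
      rw [le_div_iff₀ hbpos] at this
      have : b ≤ t := by nlinarith
      exact le_antisymm ht.2 this
    have hsb : s (N + 1) = b := by
      rw [hs]; simp only; push_cast; field_simp
    have := hi (N + 1) (by simp)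
    rw [hsb] at this
    rw [htb]
    linarith

/-! ### continuity of concave non-increasing profiles on `[0,1)` -/

lemma continuousOn_of_concave {D : ℝ → ℝ} (c : ConcaveOn ℝ (Ico (0 : ℝ) 1) D)
    (a : AntitoneOn D (Ico (0 : ℝ) 1)) : ContinuousOn D (Ico (0 : ℝ) 1) := by
  intro t ht
  by_cases h0 : t = 0
  · subst h0
    -- squeeze at zero
    have hhalf : (1 / 2 : ℝ) ∈ Ico (0 : ℝ) 1 := ⟨by norm_num, by norm_num⟩
    have low : ∀ᶠ s in 𝓝[Ico 0 1] (0 : ℝ), (1 - 2 * s) * D 0 + 2 * s * D (1 / 2) ≤ D s := by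
      have hmem : Iio (1 / 2 : ℝ) ∈ 𝓝[Ico 0 1] (0 : ℝ) :=
        mem_nhdsWithin_of_mem_nhds (Iio_mem_nhds (by norm_num))
      filter_upwards [hmem, self_mem_nhdsWithin] with s hs hs'
      have hs2 : s < 1 / 2 := hs
      have := c.2 ht hhalf (show (0 : ℝ) ≤ 1 - 2 * s by linarith)
        (show (0 : ℝ) ≤ 2 * s by linarith [hs'.1]) (by ring)
      simp only [smul_eq_mul] at this
      have e : (1 - 2 * s) * 0 + 2 * s * (1 / 2) = s := by ring
      rw [e] at this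
      exact this
    have up : ∀ᶠ s in 𝓝[Ico 0 1] (0 : ℝ), D s ≤ D 0 := by
      filter_upwards [self_mem_nhdsWithin] with s hs
      exact a ht hs hs.1
    refine tendsto_of_tendsto_of_tendsto_of_le_of_le' ?_ tendsto_const_nhds low up
    have : Continuous fun s : ℝ => (1 - 2 * s) * D 0 + 2 * s * D (1 / 2) := by fun_prop
    have h := (this.tendsto 0).mono_left (nhdsWithin_le_nhds (s := Ico (0 : ℝ) 1))
    simpa using h
  · have ht' : t ∈ Ioo (0 : ℝ) 1 := ⟨lt_of_le_of_ne ht.1 (Ne.symm h0), ht.2⟩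
    have hc := (c.subset Ioo_subset_Ico_self (convex_Ioo 0 1)).continuousOn isOpen_Ioo
    exact ((hc t ht').continuousAt (isOpen_Ioo.mem_nhds ht')).continuousWithinAt

/-! ### strong convergence of the operators -/

lemma tendsto_T [CompleteSpace H] {ι : Type*} {l : Filter ι} (F : Frame H) {D : ι → ℝ → ℝ}
    {D₀ : ℝ → ℝ}
    (hD : ∀ t ∈ Ico (0 : ℝ) 1, Tendsto (fun i => D i t) l (𝓝 (D₀ t)))
    (hanti : ∀ᶠ i in l, IsAnti (D i)) (h₀ : IsAnti D₀) (hc : ContinuousOn D₀ (Ico (0 : ℝ) 1))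
    {x : ι → H} {x₀ : H} (hx : Tendsto x l (𝓝 x₀)) :
    Tendsto (fun i => T F (D i) (x i)) l (𝓝 (T F D₀ x₀)) := by
  rw [Metric.tendsto_nhds]
  intro ε hε
  -- a bound for `D i 0`
  set C : ℝ := D₀ 0 + 1 with hC
  have hC0 : 0 < C := by have := h₀.zero_nonneg; linarith
  have hbd : ∀ᶠ i in l, D i 0 ≤ C := by
    have := (hD 0 zero_mem_Ico).eventually (Iic_mem_nhds (show D₀ 0 < C by linarith))
    exact this
  -- choose `r` with `‖x₀ - E r x₀‖` small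
  obtain ⟨r, hr0, hr1, hr⟩ : ∃ r : ℝ, 0 ≤ r ∧ r < 1 ∧ ‖x₀ - F.E r x₀‖ ≤ ε / (8 * C) := by
    have h1 := (F.tendsto_one x₀).eventually
      (Metric.closedBall_mem_nhds x₀ (show 0 < ε / (8 * C) by positivity))
    have h2 : ∀ᶠ t in 𝓝[<] (1 : ℝ), 0 < t := by
      have : Ioi (0 : ℝ) ∈ 𝓝[<] (1 : ℝ) := mem_nhdsWithin_of_mem_nhds (Ioi_mem_nhds one_pos)
      exact this
    obtain ⟨r, ⟨hr1, hr2⟩, hr3⟩ := ((h1.and h2).and self_mem_nhdsWithin).exists
    refine ⟨r, hr2.le, hr3, ?_⟩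
    rw [← dist_eq_norm, dist_comm]
    exact hr1
  set r' : ℝ := (r + 1) / 2 with hr'
  have hrr' : r < r' := by rw [hr']; linarith
  have hr'1 : r' < 1 := by rw [hr']; linarith
  have hr'0 : 0 ≤ r' := by linarith
  set η : ℝ := ε / (8 * (‖x₀‖ + 1)) with hη
  have hη0 : 0 < η := by positivity
  have hu := unif_of_anti (l := l) (D := D) (D₀ := D₀) hr'0
    (fun t ht => hD t ⟨ht.1, lt_of_le_of_lt ht.2 hr'1⟩)
    (by
      filter_upwards [hanti] with i hi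
      exact hi.anti.mono fun t ht => ⟨ht.1, lt_of_le_of_lt ht.2 hr'1⟩)
    (hc.mono fun t ht => ⟨ht.1, lt_of_le_of_lt ht.2 hr'1⟩) hη0
  have hxe : ∀ᶠ i in l, ‖x i - x₀‖ ≤ ε / (8 * C) := by
    have := hx.eventually (Metric.closedBall_mem_nhds x₀ (show 0 < ε / (8 * C) by positivity))
    filter_upwards [this] with i hi
    rw [← dist_eq_norm]; exact hi
  filter_upwards [hanti, hbd, hu, hxe] with i hi hbi hui hxi
  rw [dist_eq_norm]
  have e1 : T F (D i) (x i) - T F D₀ x₀ = T F (D i) (x i - x₀) +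
      (T F (D i) (x₀ - F.E r x₀) - T F D₀ (x₀ - F.E r x₀)) +
      (T F (D i) (F.E r x₀) - T F D₀ (F.E r x₀)) := by
    rw [T_sub F hi, T_sub F hi, T_sub F h₀]; abel
  rw [e1]
  have b1 : ‖T F (D i) (x i - x₀)‖ ≤ ε / 8 := by
    refine (norm_T_le F hi _).trans ?_
    calc D i 0 * ‖x i - x₀‖ ≤ C * (ε / (8 * C)) :=
          mul_le_mul hbi hxi (norm_nonneg _) hC0.le
      _ = ε / 8 := by field_simp
  have b2 : ‖T F (D i) (x₀ - F.E r x₀)‖ ≤ ε / 8 := by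
    refine (norm_T_le F hi _).trans ?_
    calc D i 0 * ‖x₀ - F.E r x₀‖ ≤ C * (ε / (8 * C)) :=
          mul_le_mul hbi hr (norm_nonneg _) hC0.le
      _ = ε / 8 := by field_simp
  have b3 : ‖T F D₀ (x₀ - F.E r x₀)‖ ≤ ε / 8 := by
    refine (norm_T_le F h₀ _).trans ?_
    calc D₀ 0 * ‖x₀ - F.E r x₀‖ ≤ C * (ε / (8 * C)) :=
          mul_le_mul (by linarith) hr (norm_nonneg _) hC0.le
      _ = ε / 8 := by field_simp
  have b4 : ‖T F (D i) (F.E r x₀) - T F D₀ (F.E r x₀)‖ ≤ ε / 8 := by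
    refine (norm_T_sub_le F hi h₀ hrr' hη0.le hr'0
      (fun t ht htr => hui t ⟨ht.1, htr⟩) x₀).trans ?_
    calc η * ‖x₀‖ ≤ η * (‖x₀‖ + 1) := mul_le_mul_of_nonneg_left (by linarith) hη0.le
      _ = ε / 8 := by rw [hη]; field_simp
  calc ‖T F (D i) (x i - x₀) + (T F (D i) (x₀ - F.E r x₀) - T F D₀ (x₀ - F.E r x₀)) +
        (T F (D i) (F.E r x₀) - T F D₀ (F.E r x₀))‖
      ≤ ‖T F (D i) (x i - x₀)‖ + (‖T F (D i) (x₀ - F.E r x₀)‖ + ‖T F D₀ (x₀ - F.E r x₀)‖) +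
        ‖T F (D i) (F.E r x₀) - T F D₀ (F.E r x₀)‖ :=
        (norm_add_le _ _).trans (add_le_add ((norm_add_le _ _).trans
          (add_le_add le_rfl (norm_sub_le _ _))) le_rfl)
    _ ≤ ε / 8 + (ε / 8 + ε / 8) + ε / 8 := add_le_add (add_le_add b1 (add_le_add b2 b3)) b4
    _ < ε := by linarith

/-- convergence of the form along strongly convergent vectors -/
lemma tendsto_Q_of [CompleteSpace H] {ι : Type*} {l : Filter ι} (F : Frame H) {D : ι → ℝ → ℝ}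
    {D₀ : ℝ → ℝ}
    (hD : ∀ t ∈ Ico (0 : ℝ) 1, Tendsto (fun i => D i t) l (𝓝 (D₀ t)))
    (hanti : ∀ᶠ i in l, IsAnti (D i)) (h₀ : IsAnti D₀) (hc : ContinuousOn D₀ (Ico (0 : ℝ) 1))
    {x : ι → H} {x₀ : H} (hx : Tendsto x l (𝓝 x₀)) :
    Tendsto (fun i => Q F (D i) (x i)) l (𝓝 (Q F D₀ x₀)) := by
  have h1 := (tendsto_T F hD hanti h₀ hc hx).inner hx (𝕜 := ℝ)
  rw [inner_T_self F h₀] at h1
  refine h1.congr' ?_
  filter_upwards [hanti] with i hi
  rw [inner_T_self F hi]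

end Crest.Agent.R146.LimForm_952
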