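import Mathlib

/-!
Hilbert-space frame for the joint functional of row 146 (package P5, nodes (1)-(3)).

`Frame H` is an increasing family of orthogonal projections `E t`, `t < 1`, with `E t x → x` as
`t ↑ 1`.  For a non-increasing non-negative `D` on `[0,1)` the quadratic form `Q F D x` is the
increasing limit of the sums `D 0 ‖E 0 x‖² + Σ D(t_{i+1}) ‖E t_{i+1} x - E t_i x‖²` over the dyadic
partitions.  Everything here is elementary: no stochastic integral.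
-/

set_option autoImplicit false

namespace Crest.Agent.R146.LimFrame_952

open Filter Topology Set
open scoped InnerProductSpace

/-- An increasing family of orthogonal projections converging strongly to the identity at `1`. -/
structure Frame (H : Type*) [NormedAddCommGroup H] [InnerProductSpace ℝ H] where
  E : ℝ → H →L[ℝ] H
  symm : ∀ t x y, inner ℝ (E t x) y = inner ℝ x (E t y)
  comp_le : ∀ s t, s ≤ t → ∀ x, E s (E t x) = E s x
  tendsto_one : ∀ x, Tendsto (fun t => E t x) (𝓝[<] 1) (𝓝 x)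

variable {H : Type*} [NormedAddCommGroup H] [InnerProductSpace ℝ H]

namespace Frame

variable (F : Frame H)

lemma comp_ge (s t : ℝ) (h : s ≤ t) (x : H) : F.E t (F.E s x) = F.E s x := by
  refine ext_inner_right ℝ fun y => ?_
  rw [F.symm, F.symm, F.comp_le s t h, F.symm]

lemma idem (t : ℝ) (x : H) : F.E t (F.E t x) = F.E t x := F.comp_le t t le_rfl x

lemma inner_E_E (s t : ℝ) (h : s ≤ t) (x y : H) :
    inner ℝ (F.E s x) (F.E t y) = inner ℝ (F.E s x) (F.E s y) := by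
  rw [← F.symm, F.comp_ge s t h]
  rw [← F.symm s (F.E s x) y, F.idem]

lemma inner_E_self (t : ℝ) (x : H) : inner ℝ (F.E t x) x = ‖F.E t x‖ ^ 2 := by
  rw [← real_inner_self_eq_norm_sq, F.symm t x (F.E t x), F.idem, F.symm]

lemma pyth (s t : ℝ) (h : s ≤ t) (x : H) :
    ‖F.E t x - F.E s x‖ ^ 2 = ‖F.E t x‖ ^ 2 - ‖F.E s x‖ ^ 2 := by
  rw [norm_sub_sq_real, real_inner_comm, F.inner_E_E s t h, real_inner_self_eq_norm_sq]
  ring

lemma pyth_id (t : ℝ) (x : H) : ‖x - F.E t x‖ ^ 2 = ‖x‖ ^ 2 - ‖F.E t x‖ ^ 2 := by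
  rw [norm_sub_sq_real, real_inner_comm, F.inner_E_self]
  ring

lemma norm_E_le (t : ℝ) (x : H) : ‖F.E t x‖ ≤ ‖x‖ := by
  have h := F.pyth_id t x
  have h2 : 0 ≤ ‖x - F.E t x‖ ^ 2 := sq_nonneg _
  exact le_of_sq_le_sq (by linarith) (norm_nonneg _)
where
  le_of_sq_le_sq {a b : ℝ} (h : a ^ 2 ≤ b ^ 2) (hb : 0 ≤ b) : a ≤ b := abs_le_of_sq_le_sq' h hb |>.2

lemma norm_E_mono (s t : ℝ) (h : s ≤ t) (x : H) : ‖F.E s x‖ ≤ ‖F.E t x‖ := by
  have h1 := F.norm_E_le s (F.E t x)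
  rwa [F.comp_le s t h] at h1

/-- increments are orthogonal -/
lemma inc_orth (r s t u : ℝ) (hrs : r ≤ s) (hst : s ≤ t) (htu : t ≤ u) (x y : H) :
    inner ℝ (F.E s x - F.E r x) (F.E u y - F.E t y) = 0 := by
  rw [inner_sub_left, inner_sub_right, inner_sub_right,
    F.inner_E_E s u (hst.trans htu), F.inner_E_E s t hst,
    F.inner_E_E r u (hrs.trans (hst.trans htu)), F.inner_E_E r t (hrs.trans hst)]
  ring

end Frame

/-- dyadic grid points -/
noncomputable def pt (n i : ℕ) : ℝ := (i : ℝ) / 2 ^ n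

lemma pt_zero (n : ℕ) : pt n 0 = 0 := by simp [pt]

lemma pt_mono (n : ℕ) {i j : ℕ} (h : i ≤ j) : pt n i ≤ pt n j := by
  unfold pt
  have : (i : ℝ) ≤ j := by exact_mod_cast h
  gcongr

lemma pt_nonneg (n i : ℕ) : 0 ≤ pt n i := by unfold pt; positivity

lemma pt_lt_one {n i : ℕ} (h : i < 2 ^ n) : pt n i < 1 := by
  unfold pt
  rw [div_lt_one (by positivity)]
  exact_mod_cast h

lemma pt_mem {n i : ℕ} (h : i < 2 ^ n) : pt n i ∈ Ico (0 : ℝ) 1 := ⟨pt_nonneg n i, pt_lt_one h⟩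

lemma pt_two_mul (n i : ℕ) : pt (n + 1) (2 * i) = pt n i := by
  unfold pt
  push_cast
  rw [pow_succ]
  field_simp

lemma pt_sub (n i : ℕ) : pt n (i + 1) - pt n i = (1 / 2 : ℝ) ^ n := by
  unfold pt
  push_cast
  rw [← sub_div, add_sub_cancel_left, one_div_pow]

/-- dyadic sums -/
noncomputable def Qs (F : Frame H) (D : ℝ → ℝ) (n : ℕ) (x : H) : ℝ :=
  D 0 * ‖F.E 0 x‖ ^ 2 +
    ∑ i ∈ Finset.range (2 ^ n - 1), D (pt n (i + 1)) * ‖F.E (pt n (i + 1)) x - F.E (pt n i) x‖ ^ 2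

/-- bilinear dyadic sums -/
noncomputable def Bs (F : Frame H) (D : ℝ → ℝ) (n : ℕ) (x y : H) : ℝ :=
  D 0 * inner ℝ (F.E 0 x) (F.E 0 y) +
    ∑ i ∈ Finset.range (2 ^ n - 1), D (pt n (i + 1)) *
      inner ℝ (F.E (pt n (i + 1)) x - F.E (pt n i) x) (F.E (pt n (i + 1)) y - F.E (pt n i) y)

/-- the quadratic form of the profile `D` -/
noncomputable def Q (F : Frame H) (D : ℝ → ℝ) (x : H) : ℝ := ⨆ n, Qs F D n x

lemma Bs_self (F : Frame H) (D : ℝ → ℝ) (n : ℕ) (x : H) : Bs F D n x x = Qs F D n x := by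
  unfold Bs Qs
  simp only [real_inner_self_eq_norm_sq]

lemma Bs_comm (F : Frame H) (D : ℝ → ℝ) (n : ℕ) (x y : H) : Bs F D n x y = Bs F D n y x := by
  unfold Bs
  rw [real_inner_comm]
  congr 1
  refine Finset.sum_congr rfl fun i _ => ?_
  rw [real_inner_comm]

lemma Bs_add_left (F : Frame H) (D : ℝ → ℝ) (n : ℕ) (x y z : H) :
    Bs F D n (x + y) z = Bs F D n x z + Bs F D n y z := by
  unfold Bs
  simp only [map_add, inner_add_left, add_sub_add_comm]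
  simp only [mul_add, Finset.sum_add_distrib]
  ring

lemma Bs_smul_left (F : Frame H) (D : ℝ → ℝ) (n : ℕ) (c : ℝ) (x z : H) :
    Bs F D n (c • x) z = c * Bs F D n x z := by
  unfold Bs
  simp only [map_smul, ← smul_sub, real_inner_smul_left]
  rw [mul_add, Finset.mul_sum]
  congr 1
  · ring
  · exact Finset.sum_congr rfl fun i _ => by ring

lemma Bs_add_right (F : Frame H) (D : ℝ → ℝ) (n : ℕ) (x y z : H) :
    Bs F D n x (y + z) = Bs F D n x y + Bs F D n x z := by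
  rw [Bs_comm, Bs_add_left, Bs_comm F D n y, Bs_comm F D n z]

lemma Bs_smul_right (F : Frame H) (D : ℝ → ℝ) (n : ℕ) (c : ℝ) (x z : H) :
    Bs F D n x (c • z) = c * Bs F D n x z := by
  rw [Bs_comm, Bs_smul_left, Bs_comm]

lemma Bs_addD (F : Frame H) (D D' : ℝ → ℝ) (n : ℕ) (x y : H) :
    Bs F (fun t => D t + D' t) n x y = Bs F D n x y + Bs F D' n x y := by
  unfold Bs
  simp only [add_mul, Finset.sum_add_distrib]
  ring

lemma Bs_smulD (F : Frame H) (D : ℝ → ℝ) (n : ℕ) (c : ℝ) (x y : H) :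
    Bs F (fun t => c * D t) n x y = c * Bs F D n x y := by
  unfold Bs
  rw [mul_add, Finset.mul_sum]
  congr 1
  · ring
  · exact Finset.sum_congr rfl fun i _ => by ring

lemma Qs_addD (F : Frame H) (D D' : ℝ → ℝ) (n : ℕ) (x : H) :
    Qs F (fun t => D t + D' t) n x = Qs F D n x + Qs F D' n x := by
  rw [← Bs_self, Bs_addD, Bs_self, Bs_self]

lemma Qs_smulD (F : Frame H) (D : ℝ → ℝ) (n : ℕ) (c : ℝ) (x : H) :
    Qs F (fun t => c * D t) n x = c * Qs F D n x := by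
  rw [← Bs_self, Bs_smulD, Bs_self]

/-- sum of the squared increments -/
lemma Qs_one (F : Frame H) (n : ℕ) (x : H) :
    Qs F (fun _ => 1) n x = ‖F.E (pt n (2 ^ n - 1)) x‖ ^ 2 := by
  unfold Qs
  simp only [one_mul]
  have : ∀ k : ℕ, ‖F.E 0 x‖ ^ 2 +
      ∑ i ∈ Finset.range k, ‖F.E (pt n (i + 1)) x - F.E (pt n i) x‖ ^ 2 =
        ‖F.E (pt n k) x‖ ^ 2 := by
    intro k
    induction k with
    | zero => simp [pt_zero]
    | succ k ih =>
      rw [Finset.sum_range_succ, ← add_assoc, ih, F.pyth _ _ (pt_mono n (Nat.le_succ k))]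
      ring
  exact this _

lemma Qs_one_le (F : Frame H) (n : ℕ) (x : H) : Qs F (fun _ => 1) n x ≤ ‖x‖ ^ 2 := by
  rw [Qs_one]
  exact pow_le_pow_left₀ (norm_nonneg _) (F.norm_E_le _ _) 2

lemma mem_of_range {n i : ℕ} (hi : i ∈ Finset.range (2 ^ n - 1)) : pt n (i + 1) ∈ Ico (0 : ℝ) 1 := by
  apply pt_mem
  have := Finset.mem_range.1 hi
  omega

lemma zero_mem_Ico : (0 : ℝ) ∈ Ico (0 : ℝ) 1 := ⟨le_rfl, one_pos⟩

lemma Qs_le_of_le (F : Frame H) {D D' : ℝ → ℝ} (h : ∀ t ∈ Ico (0 : ℝ) 1, D t ≤ D' t) (n : ℕ)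
    (x : H) : Qs F D n x ≤ Qs F D' n x := by
  unfold Qs
  refine add_le_add (mul_le_mul_of_nonneg_right (h 0 zero_mem_Ico) (sq_nonneg _)) ?_
  exact Finset.sum_le_sum fun i hi =>
    mul_le_mul_of_nonneg_right (h _ (mem_of_range hi)) (sq_nonneg _)

lemma Qs_congr (F : Frame H) {D D' : ℝ → ℝ} (h : ∀ t ∈ Ico (0 : ℝ) 1, D t = D' t) (n : ℕ)
    (x : H) : Qs F D n x = Qs F D' n x :=
  le_antisymm (Qs_le_of_le F (fun t ht => (h t ht).le) n x)
    (Qs_le_of_le F (fun t ht => (h t ht).ge) n x)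

lemma Qs_nonneg (F : Frame H) {D : ℝ → ℝ} (h : ∀ t ∈ Ico (0 : ℝ) 1, 0 ≤ D t) (n : ℕ)
    (x : H) : 0 ≤ Qs F D n x := by
  unfold Qs
  refine add_nonneg (mul_nonneg (h 0 zero_mem_Ico) (sq_nonneg _)) ?_
  exact Finset.sum_nonneg fun i hi => mul_nonneg (h _ (mem_of_range hi)) (sq_nonneg _)

lemma Qs_le (F : Frame H) {D : ℝ → ℝ} {C : ℝ} (hC : 0 ≤ C) (h : ∀ t ∈ Ico (0 : ℝ) 1, D t ≤ C)
    (n : ℕ) (x : H) : Qs F D n x ≤ C * ‖x‖ ^ 2 := by
  calc Qs F D n x ≤ Qs F (fun _ => C * 1) n x := Qs_le_of_le F (by simpa using h) n x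
    _ = C * Qs F (fun _ => 1) n x := Qs_smulD F (fun _ => 1) n C x
    _ ≤ C * ‖x‖ ^ 2 := mul_le_mul_of_nonneg_left (Qs_one_le F n x) hC

lemma sum_range_two_mul {M : Type*} [AddCommMonoid M] (f : ℕ → M) (k : ℕ) :
    ∑ j ∈ Finset.range (2 * k), f j = ∑ i ∈ Finset.range k, (f (2 * i) + f (2 * i + 1)) := by
  induction k with
  | zero => simp
  | succ k ih =>
    rw [Finset.sum_range_succ, ← ih, show 2 * (k + 1) = 2 * k + 1 + 1 by ring,
      Finset.sum_range_succ, Finset.sum_range_succ, add_assoc]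

lemma Qs_succ_le (F : Frame H) {D : ℝ → ℝ} (hD : AntitoneOn D (Ico (0 : ℝ) 1))
    (h0 : ∀ t ∈ Ico (0 : ℝ) 1, 0 ≤ D t) (n : ℕ) (x : H) : Qs F D n x ≤ Qs F D (n + 1) x := by
  unfold Qs
  have hN : 2 ^ (n + 1) - 1 = 2 * (2 ^ n - 1) + 1 := by
    have : 1 ≤ 2 ^ n := Nat.one_le_two_pow
    rw [pow_succ]; omega
  rw [hN, Finset.sum_range_succ, sum_range_two_mul]
  have hlast : 0 ≤ D (pt (n + 1) (2 * (2 ^ n - 1) + 1)) *
      ‖F.E (pt (n + 1) (2 * (2 ^ n - 1) + 1)) x - F.E (pt (n + 1) (2 * (2 ^ n - 1))) x‖ ^ 2 := by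
    refine mul_nonneg (h0 _ (pt_mem ?_)) (sq_nonneg _)
    omega
  have key : ∑ i ∈ Finset.range (2 ^ n - 1),
        D (pt n (i + 1)) * ‖F.E (pt n (i + 1)) x - F.E (pt n i) x‖ ^ 2 ≤
      ∑ i ∈ Finset.range (2 ^ n - 1),
        (D (pt (n + 1) (2 * i + 1)) * ‖F.E (pt (n + 1) (2 * i + 1)) x
            - F.E (pt (n + 1) (2 * i)) x‖ ^ 2 +
          D (pt (n + 1) (2 * i + 1 + 1)) * ‖F.E (pt (n + 1) (2 * i + 1 + 1)) x
            - F.E (pt (n + 1) (2 * i + 1)) x‖ ^ 2) := by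
    refine Finset.sum_le_sum fun i hi => ?_
    have hi' := Finset.mem_range.1 hi
    have e1 : pt (n + 1) (2 * i) = pt n i := pt_two_mul n i
    have e2 : pt (n + 1) (2 * i + 1 + 1) = pt n (i + 1) := by
      rw [show 2 * i + 1 + 1 = 2 * (i + 1) by ring]; exact pt_two_mul n (i + 1)
    rw [e1, e2]
    have a1 : pt n i ≤ pt (n + 1) (2 * i + 1) := by rw [← e1]; exact pt_mono _ (by omega)
    have a2 : pt (n + 1) (2 * i + 1) ≤ pt n (i + 1) := by rw [← e2]; exact pt_mono _ (by omega)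
    have m1 : pt (n + 1) (2 * i + 1) ∈ Ico (0 : ℝ) 1 := by
      apply pt_mem; rw [pow_succ]; omega
    have m2 : pt n (i + 1) ∈ Ico (0 : ℝ) 1 := mem_of_range hi
    rw [F.pyth _ _ a1, F.pyth _ _ a2, F.pyth _ _ (a1.trans a2)]
    have hDle : D (pt n (i + 1)) ≤ D (pt (n + 1) (2 * i + 1)) := hD m1 m2 a2
    have hM : ‖F.E (pt n i) x‖ ^ 2 ≤ ‖F.E (pt (n + 1) (2 * i + 1)) x‖ ^ 2 :=
      pow_le_pow_left₀ (norm_nonneg _) (F.norm_E_mono _ _ a1 x) 2
    nlinarith [mul_le_mul_of_nonneg_right hDle (sub_nonneg.2 hM)]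
  linarith

lemma Qs_mono (F : Frame H) {D : ℝ → ℝ} (hD : AntitoneOn D (Ico (0 : ℝ) 1))
    (h0 : ∀ t ∈ Ico (0 : ℝ) 1, 0 ≤ D t) (x : H) : Monotone fun n => Qs F D n x :=
  monotone_nat_of_le_succ fun n => Qs_succ_le F hD h0 n x

/-- The class used below: non-increasing and non-negative on `[0,1)`. -/
structure IsAnti (D : ℝ → ℝ) : Prop where
  anti : AntitoneOn D (Ico (0 : ℝ) 1)
  nonneg : ∀ t ∈ Ico (0 : ℝ) 1, 0 ≤ D t

lemma IsAnti.le_zero {D : ℝ → ℝ} (h : IsAnti D) {t : ℝ} (ht : t ∈ Ico (0 : ℝ) 1) : D t ≤ D 0 :=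
  h.anti zero_mem_Ico ht ht.1

lemma IsAnti.zero_nonneg {D : ℝ → ℝ} (h : IsAnti D) : 0 ≤ D 0 := h.nonneg 0 zero_mem_Ico

lemma IsAnti.add {D D' : ℝ → ℝ} (h : IsAnti D) (h' : IsAnti D') : IsAnti fun t => D t + D' t :=
  ⟨fun _ ha _ hb hab => add_le_add (h.anti ha hb hab) (h'.anti ha hb hab),
    fun t ht => add_nonneg (h.nonneg t ht) (h'.nonneg t ht)⟩

lemma IsAnti.smul {D : ℝ → ℝ} (h : IsAnti D) {c : ℝ} (hc : 0 ≤ c) : IsAnti fun t => c * D t :=
  ⟨fun _ ha _ hb hab => mul_le_mul_of_nonneg_left (h.anti ha hb hab) hc,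
    fun t ht => mul_nonneg hc (h.nonneg t ht)⟩

lemma isAnti_const {c : ℝ} (hc : 0 ≤ c) : IsAnti fun _ => c :=
  ⟨fun _ _ _ _ _ => le_rfl, fun _ _ => hc⟩

lemma Qs_bdd (F : Frame H) {D : ℝ → ℝ} (h : IsAnti D) (x : H) :
    BddAbove (Set.range fun n => Qs F D n x) := by
  refine ⟨D 0 * ‖x‖ ^ 2, ?_⟩
  rintro _ ⟨n, rfl⟩
  exact Qs_le F h.zero_nonneg (fun t ht => h.le_zero ht) n x

lemma Qs_le_Q (F : Frame H) {D : ℝ → ℝ} (h : IsAnti D) (n : ℕ) (x : H) : Qs F D n x ≤ Q F D x :=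
  le_ciSup (Qs_bdd F h x) n

lemma tendsto_Q (F : Frame H) {D : ℝ → ℝ} (h : IsAnti D) (x : H) :
    Tendsto (fun n => Qs F D n x) atTop (𝓝 (Q F D x)) :=
  tendsto_atTop_ciSup (Qs_mono F h.anti h.nonneg x) (Qs_bdd F h x)

lemma Q_le (F : Frame H) {D : ℝ → ℝ} (h : IsAnti D) (x : H) : Q F D x ≤ D 0 * ‖x‖ ^ 2 :=
  ciSup_le fun n => Qs_le F h.zero_nonneg (fun t ht => h.le_zero ht) n x

lemma Q_nonneg (F : Frame H) {D : ℝ → ℝ} (h : IsAnti D) (x : H) : 0 ≤ Q F D x :=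
  (Qs_nonneg F h.nonneg 0 x).trans (Qs_le_Q F h 0 x)

lemma Q_ge (F : Frame H) {D : ℝ → ℝ} (h : IsAnti D) (x : H) : D 0 * ‖F.E 0 x‖ ^ 2 ≤ Q F D x := by
  refine le_trans ?_ (Qs_le_Q F h 0 x)
  unfold Qs
  simp

lemma Q_mono (F : Frame H) {D D' : ℝ → ℝ} (h : IsAnti D) (h' : IsAnti D')
    (hle : ∀ t ∈ Ico (0 : ℝ) 1, D t ≤ D' t) (x : H) : Q F D x ≤ Q F D' x :=
  ciSup_le fun n => (Qs_le_of_le F hle n x).trans (Qs_le_Q F h' n x)

lemma Q_congr (F : Frame H) {D D' : ℝ → ℝ} (h : ∀ t ∈ Ico (0 : ℝ) 1, D t = D' t) (x : H) :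
    Q F D x = Q F D' x := by
  unfold Q
  exact congrArg _ (funext fun n => Qs_congr F h n x)

lemma Q_addD (F : Frame H) {D D' : ℝ → ℝ} (h : IsAnti D) (h' : IsAnti D') (x : H) :
    Q F (fun t => D t + D' t) x = Q F D x + Q F D' x := by
  refine tendsto_nhds_unique (tendsto_Q F (h.add h') x) ?_
  simp only [Qs_addD]
  exact (tendsto_Q F h x).add (tendsto_Q F h' x)

lemma Q_smulD (F : Frame H) {D : ℝ → ℝ} (h : IsAnti D) {c : ℝ} (hc : 0 ≤ c) (x : H) :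
    Q F (fun t => c * D t) x = c * Q F D x := by
  refine tendsto_nhds_unique (tendsto_Q F (h.smul hc) x) ?_
  simp only [Qs_smulD]
  exact (tendsto_Q F h x).const_mul c

lemma tendsto_pt_last : Tendsto (fun n : ℕ => pt n (2 ^ n - 1)) atTop (𝓝[<] 1) := by
  rw [tendsto_nhdsWithin_iff]
  refine ⟨?_, Eventually.of_forall fun n => pt_lt_one ?_⟩
  · have h : ∀ n : ℕ, pt n (2 ^ n - 1) = 1 - (1 / 2 : ℝ) ^ n := by
      intro n
      unfold pt
      rw [Nat.cast_sub Nat.one_le_two_pow]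
      push_cast
      rw [one_div_pow, sub_div, div_self (by positivity)]
    simp only [h]
    have : Tendsto (fun n : ℕ => (1 / 2 : ℝ) ^ n) atTop (𝓝 0) :=
      tendsto_pow_atTop_nhds_zero_of_lt_one (by norm_num) (by norm_num)
    simpa using tendsto_const_nhds.sub this
  · have : 1 ≤ 2 ^ n := Nat.one_le_two_pow
    omega

lemma Q_one (F : Frame H) (x : H) : Q F (fun _ => 1) x = ‖x‖ ^ 2 := by
  refine tendsto_nhds_unique (tendsto_Q F (isAnti_const zero_le_one) x) ?_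
  simp only [Qs_one]
  have := (F.tendsto_one x).comp tendsto_pt_last
  exact (this.norm).pow 2

lemma Q_const (F : Frame H) {c : ℝ} (hc : 0 ≤ c) (x : H) : Q F (fun _ => c) x = c * ‖x‖ ^ 2 := by
  have := Q_smulD F (isAnti_const (zero_le_one (α := ℝ))) hc x
  rw [Q_one] at this
  simpa using this

lemma Q_add_const (F : Frame H) {D : ℝ → ℝ} (h : IsAnti D) {c : ℝ} (hc : 0 ≤ c) (x : H) :
    Q F (fun t => D t + c) x = Q F D x + c * ‖x‖ ^ 2 := by
  rw [Q_addD F h (isAnti_const hc), Q_const F hc]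

lemma Qs_smul (F : Frame H) (D : ℝ → ℝ) (n : ℕ) (c : ℝ) (x : H) :
    Qs F D n (c • x) = c ^ 2 * Qs F D n x := by
  rw [← Bs_self, Bs_smul_left, Bs_smul_right, Bs_self]; ring

lemma Q_smul (F : Frame H) {D : ℝ → ℝ} (h : IsAnti D) (c : ℝ) (x : H) :
    Q F D (c • x) = c ^ 2 * Q F D x := by
  refine tendsto_nhds_unique (tendsto_Q F h _) ?_
  simp only [Qs_smul]
  exact (tendsto_Q F h x).const_mul _

/-- bilinear form -/
noncomputable def B (F : Frame H) (D : ℝ → ℝ) (x y : H) : ℝ :=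
  (Q F D (x + y) - Q F D (x - y)) / 4

lemma Bs_polar (F : Frame H) (D : ℝ → ℝ) (n : ℕ) (x y : H) :
    Bs F D n x y = (Qs F D n (x + y) - Qs F D n (x - y)) / 4 := by
  have h1 : Qs F D n (x + y) = Qs F D n x + 2 * Bs F D n x y + Qs F D n y := by
    rw [← Bs_self, Bs_add_left, Bs_add_right, Bs_add_right, Bs_self, Bs_self, Bs_comm F D n y x]
    ring
  have h2 : Qs F D n (x - y) = Qs F D n x - 2 * Bs F D n x y + Qs F D n y := by
    rw [sub_eq_add_neg, ← neg_one_smul ℝ y, ← Bs_self, Bs_add_left, Bs_add_right, Bs_add_right,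
      Bs_smul_left, Bs_smul_left, Bs_smul_right, Bs_smul_right, Bs_self, Bs_self,
      Bs_comm F D n y x]
    ring
  rw [h1, h2]; ring

lemma tendsto_B (F : Frame H) {D : ℝ → ℝ} (h : IsAnti D) (x y : H) :
    Tendsto (fun n => Bs F D n x y) atTop (𝓝 (B F D x y)) := by
  simp only [Bs_polar]
  exact ((tendsto_Q F h _).sub (tendsto_Q F h _)).div_const 4

lemma B_self (F : Frame H) {D : ℝ → ℝ} (h : IsAnti D) (x : H) : B F D x x = Q F D x := by
  refine tendsto_nhds_unique (tendsto_B F h x x) ?_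
  simp only [Bs_self]
  exact tendsto_Q F h x

lemma B_comm (F : Frame H) {D : ℝ → ℝ} (h : IsAnti D) (x y : H) : B F D x y = B F D y x := by
  refine tendsto_nhds_unique (tendsto_B F h x y) ?_
  simp only [Bs_comm F D _ x y]
  exact tendsto_B F h y x

lemma B_add_left (F : Frame H) {D : ℝ → ℝ} (h : IsAnti D) (x y z : H) :
    B F D (x + y) z = B F D x z + B F D y z := by
  refine tendsto_nhds_unique (tendsto_B F h _ z) ?_
  simp only [Bs_add_left]
  exact (tendsto_B F h x z).add (tendsto_B F h y z)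

lemma B_smul_left (F : Frame H) {D : ℝ → ℝ} (h : IsAnti D) (c : ℝ) (x z : H) :
    B F D (c • x) z = c * B F D x z := by
  refine tendsto_nhds_unique (tendsto_B F h _ z) ?_
  simp only [Bs_smul_left]
  exact (tendsto_B F h x z).const_mul c

lemma B_add_right (F : Frame H) {D : ℝ → ℝ} (h : IsAnti D) (x y z : H) :
    B F D x (y + z) = B F D x y + B F D x z := by
  rw [B_comm F h, B_add_left F h, B_comm F h y, B_comm F h z]

lemma B_smul_right (F : Frame H) {D : ℝ → ℝ} (h : IsAnti D) (c : ℝ) (x z : H) :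
    B F D x (c • z) = c * B F D x z := by
  rw [B_comm F h, B_smul_left F h, B_comm F h]

lemma Q_add (F : Frame H) {D : ℝ → ℝ} (h : IsAnti D) (x y : H) :
    Q F D (x + y) = Q F D x + 2 * B F D x y + Q F D y := by
  rw [← B_self F h, B_add_left F h, B_add_right F h, B_add_right F h, B_self F h, B_self F h,
    B_comm F h y x]
  ring

/-- Cauchy-Schwarz for the dyadic sums, with a different weight. -/
lemma abs_Bs_le (F : Frame H) (D : ℝ → ℝ) (n : ℕ) (x y : H) :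
    |Bs F D n x y| ≤ Real.sqrt (Qs F (fun t => D t ^ 2) n x) * ‖y‖ := by
  have hy := Qs_one_le F n y
  have hcs : (Bs F D n x y) ^ 2 ≤ Qs F (fun t => D t ^ 2) n x * Qs F (fun _ => 1) n y := by
    unfold Bs Qs
    simp only [one_mul]
    set S := Finset.range (2 ^ n - 1)
    set a : ℕ → ℝ := fun i => |D (pt n (i + 1))| * ‖F.E (pt n (i + 1)) x - F.E (pt n i) x‖ with ha
    set b : ℕ → ℝ := fun i => ‖F.E (pt n (i + 1)) y - F.E (pt n i) y‖ with hb
    set a0 : ℝ := |D 0| * ‖F.E 0 x‖ with ha0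
    set b0 : ℝ := ‖F.E 0 y‖ with hb0
    have h1 : |D 0 * inner ℝ (F.E 0 x) (F.E 0 y) + ∑ i ∈ S, D (pt n (i + 1)) *
        inner ℝ (F.E (pt n (i + 1)) x - F.E (pt n i) x) (F.E (pt n (i + 1)) y - F.E (pt n i) y)|
        ≤ a0 * b0 + ∑ i ∈ S, a i * b i := by
      refine (abs_add_le _ _).trans (add_le_add ?_ ?_)
      · rw [abs_mul, ha0, hb0, mul_assoc]
        exact mul_le_mul_of_nonneg_left (abs_real_inner_le_norm _ _) (abs_nonneg _)
      · refine (Finset.abs_sum_le_sum_abs _ _).trans (Finset.sum_le_sum fun i _ => ?_)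
        rw [abs_mul, ha, hb]
        simp only
        rw [mul_assoc]
        exact mul_le_mul_of_nonneg_left (abs_real_inner_le_norm _ _) (abs_nonneg _)
    have h2 : (a0 * b0 + ∑ i ∈ S, a i * b i) ^ 2 ≤
        (a0 ^ 2 + ∑ i ∈ S, a i ^ 2) * (b0 ^ 2 + ∑ i ∈ S, b i ^ 2) := by
      have hs := Finset.sum_mul_sq_le_sq_mul_sq S a b
      set X := ∑ i ∈ S, a i * b i
      set Y := ∑ i ∈ S, a i ^ 2
      set Z := ∑ i ∈ S, b i ^ 2
      have hY : 0 ≤ Y := Finset.sum_nonneg fun i _ => sq_nonneg _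
      have hZ : 0 ≤ Z := Finset.sum_nonneg fun i _ => sq_nonneg _
      have hXabs : |X| ≤ Real.sqrt Y * Real.sqrt Z := by
        rw [← Real.sqrt_mul hY]
        exact Real.abs_le_sqrt hs
      have e1 : Real.sqrt Y ^ 2 = Y := Real.sq_sqrt hY
      have e2 : Real.sqrt Z ^ 2 = Z := Real.sq_sqrt hZ
      have h3 : (a0 * b0 + X) ^ 2 ≤ (|a0 * b0| + Real.sqrt Y * Real.sqrt Z) ^ 2 := by
        rw [← sq_abs (a0 * b0 + X)]
        refine pow_le_pow_left₀ (abs_nonneg _) ?_ 2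
        exact (abs_add_le _ _).trans (add_le_add le_rfl hXabs)
      refine h3.trans ?_
      rw [abs_mul]
      nlinarith [sq_nonneg (|a0| * Real.sqrt Z - Real.sqrt Y * |b0|), sq_abs a0, sq_abs b0]
    have h4 : (D 0 * inner ℝ (F.E 0 x) (F.E 0 y) + ∑ i ∈ S, D (pt n (i + 1)) *
        inner ℝ (F.E (pt n (i + 1)) x - F.E (pt n i) x)
          (F.E (pt n (i + 1)) y - F.E (pt n i) y)) ^ 2 ≤ (a0 * b0 + ∑ i ∈ S, a i * b i) ^ 2 := by
      rw [← sq_abs]
      exact pow_le_pow_left₀ (abs_nonneg _) h1 2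
    refine (h4.trans h2).trans (le_of_eq ?_)
    congr 1
    · rw [ha0, mul_pow, sq_abs]
      congr 1
      refine Finset.sum_congr rfl fun i _ => ?_
      rw [ha]; simp only; rw [mul_pow, sq_abs]
  have hQ0 : 0 ≤ Qs F (fun t => D t ^ 2) n x := Qs_nonneg F (fun t _ => sq_nonneg _) n x
  have h5 : (Bs F D n x y) ^ 2 ≤ (Real.sqrt (Qs F (fun t => D t ^ 2) n x) * ‖y‖) ^ 2 := by
    rw [mul_pow, Real.sq_sqrt hQ0]
    exact hcs.trans (mul_le_mul_of_nonneg_left hy hQ0)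
  exact abs_le_of_sq_le_sq h5 (by positivity)

lemma abs_B_le (F : Frame H) {D : ℝ → ℝ} (h : IsAnti D) (x y : H) :
    |B F D x y| ≤ D 0 * ‖x‖ * ‖y‖ := by
  refine le_of_tendsto (tendsto_B F h x y).abs (Eventually.of_forall fun n => ?_)
  refine (abs_Bs_le F D n x y).trans ?_
  refine mul_le_mul_of_nonneg_right ?_ (norm_nonneg _)
  have : Qs F (fun t => D t ^ 2) n x ≤ (D 0 * ‖x‖) ^ 2 := by
    rw [mul_pow]
    exact Qs_le F (sq_nonneg _) (fun t ht => pow_le_pow_left₀ (h.nonneg t ht) (h.le_zero ht) 2) n x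
  exact (Real.sqrt_le_sqrt this).trans
    (by rw [Real.sqrt_sq (mul_nonneg h.zero_nonneg (norm_nonneg _))])

end Crest.Agent.R146.LimFrame_952
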