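import Mathlib

/-!
Abstract minimisation of midpoint-strongly convex functionals on closed convex sets of a real
Hilbert space (package P5, node C).
-/

set_option autoImplicit false

namespace Crest.Agent.R146.StrConv_952

open Filter Topology Set

variable {H : Type*} [NormedAddCommGroup H] [InnerProductSpace ℝ H]

/-- midpoint strong convexity with constant `c` on `K` -/
def MidStrong (K : Set H) (c : ℝ) (F : H → ℝ) : Prop :=
  ∀ x ∈ K, ∀ y ∈ K, F ((1 / 2 : ℝ) • (x + y)) ≤ (F x + F y) / 2 - c / 8 * ‖x - y‖ ^ 2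

lemma norm_mid_sq (x y : H) :
    ‖(1 / 2 : ℝ) • (x + y)‖ ^ 2 = (‖x‖ ^ 2 + ‖y‖ ^ 2) / 2 - 1 / 4 * ‖x - y‖ ^ 2 := by
  rw [norm_smul, mul_pow, norm_add_sq_real, norm_sub_sq_real]
  norm_num
  ring

lemma mid_mem {K : Set H} (hK : Convex ℝ K) {x y : H} (hx : x ∈ K) (hy : y ∈ K) :
    (1 / 2 : ℝ) • (x + y) ∈ K := by
  have := hK hx hy (show (0 : ℝ) ≤ 1 / 2 by norm_num) (show (0 : ℝ) ≤ 1 / 2 by norm_num)
    (by norm_num)
  rwa [← smul_add] at this

/-- stability: near-minimisers are near the minimiser -/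
lemma stab {K : Set H} (hK : Convex ℝ K) {c : ℝ} {F : H → ℝ} (hF : MidStrong K c F)
    {x₀ : H} (hx₀ : x₀ ∈ K) (hmin : ∀ y ∈ K, F x₀ ≤ F y) {y : H} (hy : y ∈ K) :
    c / 4 * ‖y - x₀‖ ^ 2 ≤ F y - F x₀ := by
  have h1 := hF y hy x₀ hx₀
  have h2 := hmin _ (mid_mem hK hy hx₀)
  linarith

lemma unique {K : Set H} (hK : Convex ℝ K) {c : ℝ} (hc : 0 < c) {F : H → ℝ}
    (hF : MidStrong K c F) {x y : H} (hx : x ∈ K) (hy : y ∈ K)
    (hxm : ∀ z ∈ K, F x ≤ F z) (hym : ∀ z ∈ K, F y ≤ F z) : x = y := by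
  have h1 := stab hK hF hx hxm hy
  have h2 := hym x hx
  have h3 : ‖y - x‖ ^ 2 ≤ 0 := by
    by_contra hcon
    push Not at hcon
    nlinarith [mul_pos (div_pos hc (show (0 : ℝ) < 4 by norm_num)) hcon]
  have h4 : ‖y - x‖ = 0 := by
    have := sq_nonneg ‖y - x‖
    exact pow_eq_zero_iff (two_ne_zero) |>.1 (le_antisymm h3 this)
  exact (sub_eq_zero.1 (norm_eq_zero.1 h4)).symm

/-- existence of the minimiser -/
theorem exists_min [CompleteSpace H] {K : Set H} (hK : Convex ℝ K) (hKc : IsClosed K)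
    (hKn : K.Nonempty) {c : ℝ} (hc : 0 < c) {F : H → ℝ} (hF : MidStrong K c F)
    (hcont : ContinuousOn F K) (hbdd : ∃ b, ∀ x ∈ K, b ≤ F x) :
    ∃ x ∈ K, ∀ y ∈ K, F x ≤ F y := by
  obtain ⟨b, hb⟩ := hbdd
  set I := sInf (F '' K) with hI
  have hne : (F '' K).Nonempty := hKn.image F
  have hbelow : BddBelow (F '' K) := ⟨b, by rintro _ ⟨x, hx, rfl⟩; exact hb x hx⟩
  have hIle : ∀ x ∈ K, I ≤ F x := fun x hx => csInf_le hbelow ⟨x, hx, rfl⟩
  have hex : ∀ n : ℕ, ∃ x ∈ K, F x < I + 1 / ((n : ℝ) + 1) := by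
    intro n
    obtain ⟨_, ⟨x, hx, rfl⟩, hlt⟩ := exists_lt_of_csInf_lt hne
      (show sInf (F '' K) < I + 1 / ((n : ℝ) + 1) by
        have : (0 : ℝ) < 1 / ((n : ℝ) + 1) := by positivity
        linarith)
    exact ⟨x, hx, hlt⟩
  choose u huK hu using hex
  have hcauchy : CauchySeq u := by
    rw [Metric.cauchySeq_iff']
    intro ε hε
    -- `‖u m - u n‖² ≤ (8/c) (1/(n+1))` for `m ≥ n`
    obtain ⟨n, hn⟩ := exists_nat_gt (8 / (c * ε ^ 2))
    refine ⟨n, fun m hm => ?_⟩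
    have h1 := hF (u m) (huK m) (u n) (huK n)
    have h2 := hIle _ (mid_mem hK (huK m) (huK n))
    have h3 := hu m
    have h4 := hu n
    have h5 : (1 : ℝ) / ((m : ℝ) + 1) ≤ 1 / ((n : ℝ) + 1) := by
      apply one_div_le_one_div_of_le (by positivity)
      have : (n : ℝ) ≤ m := by exact_mod_cast hm
      linarith
    have h6 : c / 8 * ‖u m - u n‖ ^ 2 ≤ 1 / ((n : ℝ) + 1) := by linarith
    have h7 : (1 : ℝ) / ((n : ℝ) + 1) < c * ε ^ 2 / 8 := by
      rw [div_lt_div_iff₀ (by positivity) (by norm_num)]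
      rw [div_lt_iff₀ (by positivity)] at hn
      nlinarith [mul_pos hc (pow_pos hε 2)]
    have h8 : ‖u m - u n‖ ^ 2 < ε ^ 2 := by
      by_contra hcon
      push Not at hcon
      have := mul_le_mul_of_nonneg_left hcon (show 0 ≤ c / 8 by positivity)
      linarith
    rw [dist_eq_norm]
    exact lt_of_pow_lt_pow_left₀ 2 hε.le h8
  obtain ⟨x, hx⟩ := cauchySeq_tendsto_of_complete hcauchy
  have hxK : x ∈ K := hKc.mem_of_tendsto hx (Eventually.of_forall huK)
  refine ⟨x, hxK, fun y hy => ?_⟩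
  have hlim : Tendsto (fun n => F (u n)) atTop (𝓝 (F x)) :=
    (hcont x hxK).tendsto.comp (tendsto_nhdsWithin_iff.2 ⟨hx, Eventually.of_forall huK⟩)
  have hle : F x ≤ I := by
    refine le_of_tendsto_of_tendsto hlim (?_ : Tendsto (fun n : ℕ => I + 1 / ((n : ℝ) + 1)) atTop
      (𝓝 (I + 0))) (Eventually.of_forall fun n => (hu n).le) |>.trans (by simp)
    exact tendsto_const_nhds.add tendsto_one_div_add_atTop_nhds_zero_nat
  exact hle.trans (hIle y hy)

/-- A midpoint convex function that is bounded by `‖x‖` is `1`-Lipschitz; here in the form used: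
`F` convex on the whole space with `F x ≤ L ‖x‖`. -/
lemma lip_of_convex {F : H → ℝ} (hF : ConvexOn ℝ univ F) {L : ℝ} (hL : 0 ≤ L)
    (hle : ∀ x, F x ≤ L * ‖x‖) (x y : H) : F y - F x ≤ L * ‖y - x‖ := by
  -- for every `T ≥ 1`: `F y ≤ (1 - 1/T) F x + (1/T) F (x + T (y - x))`
  have key : ∀ T : ℝ, 1 ≤ T → F y - F x ≤ (L * ‖x‖ - F x) / T + L * ‖y - x‖ := by
    intro T hT
    have hT0 : 0 < T := by linarith
    have h1 := hF.2 (mem_univ x) (mem_univ (x + T • (y - x)))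
      (show (0 : ℝ) ≤ 1 - 1 / T by
        rw [sub_nonneg, div_le_one hT0]; exact hT)
      (show (0 : ℝ) ≤ 1 / T by positivity) (by ring)
    have e : (1 - 1 / T) • x + (1 / T) • (x + T • (y - x)) = y := by
      rw [smul_add, smul_smul, one_div, inv_mul_cancel₀ hT0.ne', one_smul, sub_smul, one_smul]
      abel
    rw [e] at h1
    simp only [smul_eq_mul] at h1
    have h2 := hle (x + T • (y - x))
    have h3 : ‖x + T • (y - x)‖ ≤ ‖x‖ + T * ‖y - x‖ := by
      refine (norm_add_le _ _).trans ?_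
      rw [norm_smul, Real.norm_of_nonneg hT0.le]
    have h4 : F (x + T • (y - x)) ≤ L * (‖x‖ + T * ‖y - x‖) :=
      h2.trans (mul_le_mul_of_nonneg_left h3 hL)
    have h5 : 1 / T * F (x + T • (y - x)) ≤ 1 / T * (L * (‖x‖ + T * ‖y - x‖)) :=
      mul_le_mul_of_nonneg_left h4 (by positivity)
    have h6 : 1 / T * (L * (‖x‖ + T * ‖y - x‖)) = L * ‖x‖ / T + L * ‖y - x‖ := by
      field_simp
    have h7 : (1 - 1 / T) * F x = F x - F x / T := by ring
    rw [h6] at h5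
    rw [h7] at h1
    have h8 : (L * ‖x‖ - F x) / T = L * ‖x‖ / T - F x / T := by ring
    rw [h8]
    linarith
  have hlim : Tendsto (fun T : ℝ => (L * ‖x‖ - F x) / T + L * ‖y - x‖) atTop
      (𝓝 (0 + L * ‖y - x‖)) := by
    refine Tendsto.add ?_ tendsto_const_nhds
    exact tendsto_const_nhds.div_atTop tendsto_id
  rw [zero_add] at hlim
  exact ge_of_tendsto hlim (eventually_atTop.2 ⟨1, fun T hT => key T hT⟩)

lemma abs_lip_of_convex {F : H → ℝ} (hF : ConvexOn ℝ univ F) {L : ℝ} (hL : 0 ≤ L)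
    (hle : ∀ x, F x ≤ L * ‖x‖) (x y : H) : |F x - F y| ≤ L * ‖x - y‖ := by
  rw [abs_le]
  have h1 := lip_of_convex hF hL hle x y
  have h2 := lip_of_convex hF hL hle y x
  rw [norm_sub_rev] at h1
  constructor <;> linarith

lemma continuous_of_convex {F : H → ℝ} (hF : ConvexOn ℝ univ F) {L : ℝ} (hL : 0 ≤ L)
    (hle : ∀ x, F x ≤ L * ‖x‖) : Continuous F := by
  have : LipschitzWith (Real.toNNReal L) F := by
    refine LipschitzWith.of_dist_le_mul fun x y => ?_
    rw [Real.dist_eq, dist_eq_norm, Real.coe_toNNReal L hL]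
    exact abs_lip_of_convex hF hL hle x y
  exact this.continuous

end Crest.Agent.R146.StrConv_952
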