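import Crest.Agent.R146.LimProf_952
import Crest.Agent.R146.StrConv_952

/-!
Package P5 (row 146), node C: the reduced functional `Phi F e x = inf_D (Q F D x + Ent e D)/2`,
the profile problem at fixed `x`, and the joint problem.
-/

set_option autoImplicit false

namespace Crest.Agent.R146.LimMin_952

open Filter Topology Set MeasureTheory
open Crest.Agent.R146.LimFrame_952 Crest.Agent.R146.LimForm_952 Crest.Agent.R146.LimProf_952
open Crest.Agent.R146.StrConv_952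

variable {H : Type*} [NormedAddCommGroup H] [InnerProductSpace ℝ H]

/-- admissible profiles -/
def Ad (e : ℝ) (D : ℝ → ℝ) : Prop := PD e D ∧ Ent e D ≠ ⊤

/-- the functional at fixed `x` -/
noncomputable def G (F : Frame H) (e : ℝ) (x : H) (D : ℝ → ℝ) : ℝ :=
  (Q F D x + (Ent e D).toReal) / 2

/-- reduced functional -/
noncomputable def Phi (F : Frame H) (e : ℝ) (x : H) : ℝ :=
  sInf {r : ℝ | ∃ D, Ad e D ∧ r = G F e x D}

lemma G_nonneg (F : Frame H) {e : ℝ} (x : H) {D : ℝ → ℝ} (h : Ad e D) : 0 ≤ G F e x D := by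
  unfold G
  have := Q_nonneg F h.1.isAnti x
  have := ENNReal.toReal_nonneg (a := Ent e D)
  linarith

/-- test profile -/
noncomputable def tp (e s : ℝ) (t : ℝ) : ℝ := if e = 0 then 1 / s else min (1 / s) ((1 - t) / e)

lemma tp_PD {e s : ℝ} (he : 0 ≤ e) (hs : 0 < s) : PD e (tp e s) := by
  rcases eq_or_lt_of_le he with h | h
  · subst h
    have : tp 0 s = fun _ => 1 / s := by funext t; simp [tp]
    rw [this]
    exact ⟨concaveOn_const _ (convex_Ico 0 1), fun _ _ _ _ _ => le_rfl, fun _ _ => by positivity,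
      fun t ht => by simpa using ht.2.le⟩
  · have hne : e ≠ 0 := h.ne'
    have e1 : tp e s = fun t => min (1 / s) ((1 - t) / e) := by funext t; simp [tp, hne]
    rw [e1]
    refine ⟨?_, ?_, ?_, ?_⟩
    · refine (concaveOn_const (1 / s) (convex_Ico 0 1)).inf ?_
      refine ⟨convex_Ico 0 1, fun x _ y _ a b _ _ hab => le_of_eq ?_⟩
      simp only [smul_eq_mul]
      have : b = 1 - a := by linarith
      subst this
      field_simp
      ring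
    · intro x _ y _ hxy
      refine min_le_min le_rfl ?_
      gcongr
    · intro t ht
      have : 0 < 1 - t := by linarith [ht.2]
      exact lt_min (by positivity) (by positivity)
    · intro t _
      calc e * min (1 / s) ((1 - t) / e) ≤ e * ((1 - t) / e) :=
            mul_le_mul_of_nonneg_left (min_le_right _ _) he
        _ = 1 - t := by field_simp

lemma tp_dens_le {e s : ℝ} (he : 0 ≤ e) (hs : 0 < s) {t : ℝ} (ht : t ∈ Ico (0 : ℝ) 1) :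
    dens e (tp e s) t ≤ s := by
  have h1t : 0 < 1 - t := by linarith [ht.2]
  rcases eq_or_lt_of_le he with h | h
  · subst h
    unfold dens tp
    simp
  · have hne : e ≠ 0 := h.ne'
    unfold dens tp
    rw [if_neg hne]
    rcases le_total (1 / s) ((1 - t) / e) with hc | hc
    · rw [min_eq_left hc, one_div_one_div]
      have : 0 ≤ e / (1 - t) := by positivity
      linarith
    · rw [min_eq_right hc, one_div_div]
      linarith

lemma tp_Ent_le {e s : ℝ} (he : 0 ≤ e) (hs : 0 < s) : Ent e (tp e s) ≤ ENNReal.ofReal s := by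
  unfold Ent
  calc ∫⁻ t in Ico (0 : ℝ) 1, ENNReal.ofReal (dens e (tp e s) t)
      ≤ ∫⁻ _ in Ico (0 : ℝ) 1, ENNReal.ofReal s :=
        setLIntegral_mono' measurableSet_Ico fun t ht => ENNReal.ofReal_le_ofReal (tp_dens_le he hs ht)
    _ = ENNReal.ofReal s := by simp

lemma tp_Ad {e s : ℝ} (he : 0 ≤ e) (hs : 0 < s) : Ad e (tp e s) :=
  ⟨tp_PD he hs, ne_top_of_le_ne_top ENNReal.ofReal_ne_top (tp_Ent_le he hs)⟩

lemma tp_zero_le {e s : ℝ} (hs : 0 < s) : tp e s 0 ≤ 1 / s := by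
  unfold tp
  split_ifs
  · exact le_rfl
  · exact min_le_left _ _

lemma G_tp_le (F : Frame H) {e s : ℝ} (he : 0 ≤ e) (hs : 0 < s) (x : H) :
    G F e x (tp e s) ≤ (‖x‖ ^ 2 / s + s) / 2 := by
  unfold G
  have h1 := Q_le F (tp_PD he hs).isAnti x
  have h2 : tp e s 0 * ‖x‖ ^ 2 ≤ 1 / s * ‖x‖ ^ 2 :=
    mul_le_mul_of_nonneg_right (tp_zero_le hs) (sq_nonneg _)
  have h3 : (Ent e (tp e s)).toReal ≤ s := ENNReal.toReal_le_of_le_ofReal hs.le (tp_Ent_le he hs)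
  have h4 : 1 / s * ‖x‖ ^ 2 = ‖x‖ ^ 2 / s := by ring
  linarith

lemma Phi_bdd (F : Frame H) (e : ℝ) (x : H) : BddBelow {r : ℝ | ∃ D, Ad e D ∧ r = G F e x D} :=
  ⟨0, by rintro _ ⟨D, hD, rfl⟩; exact G_nonneg F x hD⟩

lemma Phi_nonempty (F : Frame H) {e : ℝ} (he : 0 ≤ e) (x : H) :
    {r : ℝ | ∃ D, Ad e D ∧ r = G F e x D}.Nonempty :=
  ⟨_, tp e 1, tp_Ad he one_pos, rfl⟩

lemma Phi_le (F : Frame H) {e : ℝ} (x : H) {D : ℝ → ℝ} (h : Ad e D) : Phi F e x ≤ G F e x D :=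
  csInf_le (Phi_bdd F e x) ⟨D, h, rfl⟩

lemma Phi_nonneg (F : Frame H) {e : ℝ} (he : 0 ≤ e) (x : H) : 0 ≤ Phi F e x :=
  le_csInf (Phi_nonempty F he x) (by rintro _ ⟨D, hD, rfl⟩; exact G_nonneg F x hD)

lemma exists_near (F : Frame H) {e : ℝ} (he : 0 ≤ e) (x : H) {ε : ℝ} (hε : 0 < ε) :
    ∃ D, Ad e D ∧ G F e x D < Phi F e x + ε := by
  obtain ⟨_, ⟨D, hD, rfl⟩, hlt⟩ := exists_lt_of_csInf_lt (Phi_nonempty F he x)
    (show sInf _ < Phi F e x + ε by unfold Phi; linarith)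
  exact ⟨D, hD, hlt⟩

lemma Phi_le_norm (F : Frame H) {e : ℝ} (he : 0 ≤ e) (x : H) : Phi F e x ≤ ‖x‖ := by
  have key : ∀ s : ℝ, 0 < s → Phi F e x ≤ (‖x‖ ^ 2 / s + s) / 2 := fun s hs =>
    (Phi_le F x (tp_Ad he hs)).trans (G_tp_le F he hs x)
  by_cases h0 : ‖x‖ = 0
  · rw [h0]
    refine le_of_forall_pos_le_add fun ε hε => ?_
    have := key (2 * ε) (by positivity)
    rw [h0] at this
    norm_num at this
    linarith
  · have hpos : 0 < ‖x‖ := lt_of_le_of_ne (norm_nonneg x) (Ne.symm h0)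
    have := key _ hpos
    have e1 : (‖x‖ ^ 2 / ‖x‖ + ‖x‖) / 2 = ‖x‖ := by field_simp; ring
    rwa [e1] at this

/-- joint convexity, reduced -/
lemma G_hm (F : Frame H) {e : ℝ} (he : 0 ≤ e) {D₁ D₂ : ℝ → ℝ} (h₁ : Ad e D₁) (h₂ : Ad e D₂)
    (x y : H) : G F e ((1 / 2 : ℝ) • (x + y)) (hm D₁ D₂) ≤ (G F e x D₁ + G F e y D₂) / 2 := by
  unfold G
  have a := Q_hm F h₁.1.anti h₂.1.anti h₁.1.pos h₂.1.pos x y
  have b := Ent_hm he h₁.1 h₂.1 h₁.2 h₂.2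
  rw [b]
  linarith

lemma Ad_hm {e : ℝ} (he : 0 ≤ e) {D₁ D₂ : ℝ → ℝ} (h₁ : Ad e D₁) (h₂ : Ad e D₂) :
    Ad e (hm D₁ D₂) := ⟨h₁.1.hm he h₂.1, Ent_hm_ne_top he h₁.1 h₂.1 h₁.2 h₂.2⟩

lemma Phi_mid (F : Frame H) {e : ℝ} (he : 0 ≤ e) (x y : H) :
    Phi F e ((1 / 2 : ℝ) • (x + y)) ≤ (Phi F e x + Phi F e y) / 2 := by
  refine le_of_forall_pos_le_add fun ε hε => ?_
  obtain ⟨D₁, h₁, g₁⟩ := exists_near F he x hε
  obtain ⟨D₂, h₂, g₂⟩ := exists_near F he y hε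
  have := Phi_le F ((1 / 2 : ℝ) • (x + y)) (Ad_hm he h₁ h₂)
  have := G_hm F he h₁ h₂ x y
  linarith

/-- a midpoint convex function with `F x ≤ L‖x‖` is `L`-Lipschitz -/
lemma lip_of_mid {f : H → ℝ} (hf : ∀ x y, f ((1 / 2 : ℝ) • (x + y)) ≤ (f x + f y) / 2) {L : ℝ}
    (hL : 0 ≤ L) (hle : ∀ x, f x ≤ L * ‖x‖) (x y : H) : f y - f x ≤ L * ‖y - x‖ := by
  have step : ∀ n : ℕ, f y ≤ (1 - (1 / 2 : ℝ) ^ n) * f x +
      (1 / 2 : ℝ) ^ n * f (x + (2 : ℝ) ^ n • (y - x)) := by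
    intro n
    induction n with
    | zero => simp
    | succ n ih =>
      have h1 := hf x (x + (2 : ℝ) ^ (n + 1) • (y - x))
      have e1 : (1 / 2 : ℝ) • (x + (x + (2 : ℝ) ^ (n + 1) • (y - x))) =
          x + (2 : ℝ) ^ n • (y - x) := by
        rw [← add_assoc, smul_add, smul_smul, pow_succ, ← two_smul ℝ x, smul_smul]
        have e2 : (1 / 2 : ℝ) * (2 ^ n * 2) = 2 ^ n := by ring
        rw [e2]
        norm_num
      rw [e1] at h1
      have hp : (0 : ℝ) < (1 / 2 : ℝ) ^ n := by positivity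
      have h2 := mul_le_mul_of_nonneg_left h1 hp.le
      rw [pow_succ (1 / 2 : ℝ) n]
      nlinarith
  have key : ∀ n : ℕ, f y - f x ≤ (L * ‖x‖ - f x) * (1 / 2 : ℝ) ^ n + L * ‖y - x‖ := by
    intro n
    have h1 := step n
    have h2 := hle (x + (2 : ℝ) ^ n • (y - x))
    have h3 : ‖x + (2 : ℝ) ^ n • (y - x)‖ ≤ ‖x‖ + 2 ^ n * ‖y - x‖ := by
      refine (norm_add_le _ _).trans ?_
      rw [norm_smul, Real.norm_of_nonneg (by positivity)]
    have hp : (0 : ℝ) < (1 / 2 : ℝ) ^ n := by positivity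
    have h4 : (1 / 2 : ℝ) ^ n * f (x + (2 : ℝ) ^ n • (y - x)) ≤
        (1 / 2 : ℝ) ^ n * (L * (‖x‖ + 2 ^ n * ‖y - x‖)) :=
      mul_le_mul_of_nonneg_left (h2.trans (mul_le_mul_of_nonneg_left h3 hL)) hp.le
    have h5 : (1 / 2 : ℝ) ^ n * (L * (‖x‖ + 2 ^ n * ‖y - x‖)) =
        L * ‖x‖ * (1 / 2 : ℝ) ^ n + L * ‖y - x‖ * ((1 / 2 : ℝ) ^ n * 2 ^ n) := by ring
    have h6 : (1 / 2 : ℝ) ^ n * 2 ^ n = 1 := by rw [← mul_pow]; norm_num
    rw [h6] at h5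
    nlinarith
  have hlim : Tendsto (fun n : ℕ => (L * ‖x‖ - f x) * (1 / 2 : ℝ) ^ n + L * ‖y - x‖) atTop
      (𝓝 ((L * ‖x‖ - f x) * 0 + L * ‖y - x‖)) := by
    refine Tendsto.add (Tendsto.const_mul _ ?_) tendsto_const_nhds
    exact tendsto_pow_atTop_nhds_zero_of_lt_one (by norm_num) (by norm_num)
  rw [mul_zero, zero_add] at hlim
  exact ge_of_tendsto' hlim key

lemma abs_Phi_sub_le (F : Frame H) {e : ℝ} (he : 0 ≤ e) (x y : H) :
    |Phi F e x - Phi F e y| ≤ ‖x - y‖ := by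
  have hle : ∀ z : H, Phi F e z ≤ 1 * ‖z‖ := fun z => by simpa using Phi_le_norm F he z
  have h1 := lip_of_mid (Phi_mid F he) zero_le_one hle x y
  have h2 := lip_of_mid (Phi_mid F he) zero_le_one hle y x
  rw [one_mul] at h1 h2
  rw [norm_sub_rev] at h1
  rw [abs_le]
  constructor <;> linarith

lemma continuous_Phi (F : Frame H) {e : ℝ} (he : 0 ≤ e) : Continuous (Phi F e) := by
  have : LipschitzWith 1 (Phi F e) := by
    refine LipschitzWith.of_dist_le_mul fun x y => ?_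
    rw [Real.dist_eq, dist_eq_norm]
    simpa using abs_Phi_sub_le F he x y
  exact this.continuous

/-! ### lower bound of the form at a positive time -/

lemma Q_ge_at (F : Frame H) {D : ℝ → ℝ} (h : IsAnti D) {r r' : ℝ} (hr : 0 ≤ r) (hrr : r < r')
    (hr1 : r' < 1) (x : H) : D r' * ‖F.E r x‖ ^ 2 ≤ Q F D x := by
  obtain ⟨n, hn⟩ := exists_pow_lt_of_lt_one (sub_pos.2 hrr) (by norm_num : (1 / 2 : ℝ) < 1)
  refine le_trans ?_ (Qs_le_Q F h n x)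
  -- the grid point `k` just above `r`
  set k := ⌈r * 2 ^ n⌉₊ with hk
  have h2n : (0 : ℝ) < 2 ^ n := by positivity
  have hk1 : r ≤ pt n k := by
    unfold pt
    rw [le_div_iff₀ h2n]
    exact Nat.le_ceil _
  have hk2 : pt n k ≤ r' := by
    unfold pt
    rw [div_le_iff₀ h2n]
    have := (Nat.ceil_lt_add_one (mul_nonneg hr h2n.le)).le
    refine this.trans ?_
    have h3 : (1 / 2 : ℝ) ^ n * 2 ^ n = 1 := by rw [← mul_pow]; norm_num
    nlinarith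
  have hkN : k < 2 ^ n := by
    have : pt n k < 1 := lt_of_le_of_lt hk2 hr1
    unfold pt at this
    rw [div_lt_one h2n] at this
    exact_mod_cast this
  have hkm : k ≤ 2 ^ n - 1 := by omega
  have hDk : ∀ i, i ≤ k → D r' ≤ D (pt n i) := by
    intro i hi
    refine h.anti (pt_mem (lt_of_le_of_lt hi hkN)) ⟨hr.trans hrr.le, hr1⟩ ?_
    exact (pt_mono n hi).trans hk2
  have hr'0 : 0 ≤ D r' := h.nonneg _ ⟨hr.trans hrr.le, hr1⟩
  have hsum : ∀ m : ℕ, ‖F.E 0 x‖ ^ 2 +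
      ∑ i ∈ Finset.range m, ‖F.E (pt n (i + 1)) x - F.E (pt n i) x‖ ^ 2 =
        ‖F.E (pt n m) x‖ ^ 2 := by
    intro m
    induction m with
    | zero => simp [pt_zero]
    | succ m ih =>
      rw [Finset.sum_range_succ, ← add_assoc, ih, F.pyth _ _ (pt_mono n (Nat.le_succ m))]
      ring
  unfold Qs
  have s1 : ∑ i ∈ Finset.range k, D r' * ‖F.E (pt n (i + 1)) x - F.E (pt n i) x‖ ^ 2 ≤
      ∑ i ∈ Finset.range (2 ^ n - 1), D (pt n (i + 1)) *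
        ‖F.E (pt n (i + 1)) x - F.E (pt n i) x‖ ^ 2 := by
    refine (Finset.sum_le_sum fun i hi => ?_).trans
      (Finset.sum_le_sum_of_subset_of_nonneg (Finset.range_mono hkm) fun i hi _ => ?_)
    · exact mul_le_mul_of_nonneg_right (hDk _ (Finset.mem_range.1 hi)) (sq_nonneg _)
    · exact mul_nonneg (h.nonneg _ (mem_of_range hi)) (sq_nonneg _)
  have s2 : D r' * ‖F.E 0 x‖ ^ 2 ≤ D 0 * ‖F.E 0 x‖ ^ 2 := by
    refine mul_le_mul_of_nonneg_right ?_ (sq_nonneg _)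
    have := hDk 0 (Nat.zero_le k)
    rwa [pt_zero] at this
  rw [← Finset.mul_sum] at s1
  have s3 : ‖F.E r x‖ ^ 2 ≤ ‖F.E (pt n k) x‖ ^ 2 :=
    pow_le_pow_left₀ (norm_nonneg _) (F.norm_E_mono _ _ hk1 x) 2
  have s4 := hsum k
  calc D r' * ‖F.E r x‖ ^ 2 ≤ D r' * ‖F.E (pt n k) x‖ ^ 2 := mul_le_mul_of_nonneg_left s3 hr'0
    _ = D r' * ‖F.E 0 x‖ ^ 2 +
        D r' * ∑ i ∈ Finset.range k, ‖F.E (pt n (i + 1)) x - F.E (pt n i) x‖ ^ 2 := by
      rw [← s4]; ring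
    _ ≤ _ := add_le_add s2 s1

lemma exists_E_ne (F : Frame H) {x : H} (hx : x ≠ 0) :
    ∃ r : ℝ, 0 ≤ r ∧ r < 1 ∧ 0 < ‖F.E r x‖ := by
  have h1 := (F.tendsto_one x).norm.eventually (Ioi_mem_nhds (norm_pos_iff.2 hx))
  have h2 : ∀ᶠ t in 𝓝[<] (1 : ℝ), 0 < t := by
    have : Ioi (0 : ℝ) ∈ 𝓝[<] (1 : ℝ) := mem_nhdsWithin_of_mem_nhds (Ioi_mem_nhds one_pos)
    exact this
  obtain ⟨r, ⟨hr1, hr2⟩, hr3⟩ := ((h1.and h2).and self_mem_nhdsWithin).exists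
  exact ⟨r, hr2.le, hr3, hr1⟩

/-- uniform bounds along a family with bounded energy -/
lemma bounds_of_energy (F : Frame H) {e : ℝ} (he : 0 ≤ e) {ι : Type*} {l : Filter ι} {x : ι → H}
    {x₀ : H} (hx : Tendsto x l (𝓝 x₀)) (hne : e = 0 → x₀ ≠ 0) {D : ι → ℝ → ℝ}
    (hD : ∀ᶠ i in l, Ad e (D i)) {A : ℝ} (hA : 0 < A) (hG : ∀ᶠ i in l, G F e (x i) (D i) ≤ A) :
    ∃ c C : ℝ, 0 < c ∧ (∀ᶠ i in l, ∀ t ∈ Ico (0 : ℝ) 1, c * (1 - t) ≤ D i t) ∧
      (∀ᶠ i in l, D i 0 ≤ C) := by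
  refine ⟨1 / (4 * (2 * A + e)), ?_⟩
  have hlow : ∀ᶠ i in l, ∀ t ∈ Ico (0 : ℝ) 1, 1 / (4 * (2 * A + e)) * (1 - t) ≤ D i t := by
    filter_upwards [hD, hG] with i hi hg t ht
    have hQ := Q_nonneg F hi.1.isAnti (x i)
    have hE : Ent e (D i) ≤ ENNReal.ofReal (2 * A) := by
      rw [← ENNReal.ofReal_toReal hi.2]
      refine ENNReal.ofReal_le_ofReal ?_
      unfold G at hg
      linarith
    have := hi.1.lower he (show 0 < 2 * A by positivity) hE ht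
    calc 1 / (4 * (2 * A + e)) * (1 - t) = (1 - t) / (4 * (2 * A + e)) := by ring
      _ ≤ D i t := this
  by_cases h0 : e = 0
  · obtain ⟨r, hr0, hr1, hr⟩ := exists_E_ne F (hne h0)
    set a := ‖F.E r x₀‖ with ha
    set r' := (r + 1) / 2 with hr'
    have hrr' : r < r' := by rw [hr']; linarith
    have hr'1 : r' < 1 := by rw [hr']; linarith
    refine ⟨8 * A / (a ^ 2 * (1 - r')), by positivity, hlow, ?_⟩
    have hlim : Tendsto (fun i => ‖F.E r (x i)‖) l (𝓝 a) :=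
      (((F.E r).continuous.tendsto x₀).comp hx).norm
    have hev := hlim.eventually (Ioi_mem_nhds (show a / 2 < a by linarith))
    filter_upwards [hD, hG, hev] with i hi hg hai
    have hai' : a / 2 < ‖F.E r (x i)‖ := hai
    have h1 := Q_ge_at F hi.1.isAnti hr0 hrr' hr'1 (x i)
    have h2 : Q F (D i) (x i) ≤ 2 * A := by
      unfold G at hg
      have := ENNReal.toReal_nonneg (a := Ent e (D i))
      linarith
    have hDr : 0 < D i r' := hi.1.pos _ ⟨by linarith, hr'1⟩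
    have h3 : (a / 2) ^ 2 ≤ ‖F.E r (x i)‖ ^ 2 := pow_le_pow_left₀ (by positivity) hai'.le 2
    have h4 : D i r' * (a / 2) ^ 2 ≤ 2 * A :=
      (mul_le_mul_of_nonneg_left h3 hDr.le).trans (h1.trans h2)
    have h5 := hi.1.ge_zero (t := r') ⟨by linarith, hr'1⟩
    have h1r : 0 < 1 - r' := by linarith
    rw [le_div_iff₀ (by positivity)]
    nlinarith [mul_le_mul_of_nonneg_left h5 (sq_nonneg a)]
  · have hpos : 0 < e := lt_of_le_of_ne he (Ne.symm h0)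
    refine ⟨1 / e, by positivity, hlow, ?_⟩
    filter_upwards [hD] with i hi
    have := hi.1.cap 0 zero_mem_Ico
    rw [le_div_iff₀ hpos]
    linarith

/-- compactness of energy-bounded families along an ultrafilter, with lower semicontinuity -/
theorem limit_of_energy [CompleteSpace H] (F : Frame H) {e : ℝ} (he : 0 ≤ e) {ι : Type*}
    (U : Ultrafilter ι) {x : ι → H} {x₀ : H} (hx : Tendsto x U (𝓝 x₀)) (hne : e = 0 → x₀ ≠ 0)
    {D : ι → ℝ → ℝ} (hD : ∀ᶠ i in (U : Filter ι), Ad e (D i)) {g : ι → ℝ} {A : ℝ}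
    (hg : Tendsto g U (𝓝 A)) (hG : ∀ᶠ i in (U : Filter ι), G F e (x i) (D i) ≤ g i) :
    ∃ D₀ : ℝ → ℝ, Ad e D₀ ∧ (∀ t ∈ Ico (0 : ℝ) 1, Tendsto (fun i => D i t) U (𝓝 (D₀ t))) ∧
      G F e x₀ D₀ ≤ A := by
  have hA1 : ∀ᶠ i in (U : Filter ι), G F e (x i) (D i) ≤ |A| + 1 := by
    have := hg.eventually (Iio_mem_nhds (show A < |A| + 1 by linarith [le_abs_self A]))
    filter_upwards [this, hG] with i h1 h2
    exact h2.trans h1.le
  obtain ⟨c, C, hc, hlow, hup⟩ := bounds_of_energy F he hx hne hD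
    (show 0 < |A| + 1 by positivity) hA1
  obtain ⟨D₀, hP₀, hlim, _, _⟩ := exists_limit_profile U (e := e) hc
    (hD.mono fun i hi => hi.1) hlow hup
  have hQlim : Tendsto (fun i => Q F (D i) (x i)) U (𝓝 (Q F D₀ x₀)) :=
    tendsto_Q_of F hlim (hD.mono fun i hi => hi.1.isAnti) hP₀.isAnti hP₀.continuousOn hx
  have hEnt : Ent e D₀ ≤ ENNReal.ofReal (2 * A - Q F D₀ x₀) := by
    refine Ent_le_of_tendsto hlim (hD.mono fun i hi => hi.1) hP₀
      (a := fun i => 2 * g i - Q F (D i) (x i)) ((hg.const_mul 2).sub hQlim) ?_ ?_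
    · filter_upwards [hD, hG] with i hi hgi
      rw [← ENNReal.ofReal_toReal hi.2]
      refine ENNReal.ofReal_le_ofReal ?_
      unfold G at hgi
      linarith
    · filter_upwards [hD, hG] with i hi hgi
      unfold G at hgi
      have := ENNReal.toReal_nonneg (a := Ent e (D i))
      linarith
  have hnn : 0 ≤ 2 * A - Q F D₀ x₀ := by
    refine ge_of_tendsto ((hg.const_mul 2).sub hQlim) ?_
    filter_upwards [hD, hG] with i hi hgi
    unfold G at hgi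
    have := ENNReal.toReal_nonneg (a := Ent e (D i))
    linarith
  refine ⟨D₀, ⟨hP₀, ne_top_of_le_ne_top ENNReal.ofReal_ne_top hEnt⟩, hlim, ?_⟩
  have h2 := ENNReal.toReal_le_of_le_ofReal hnn hEnt
  unfold G
  linarith

/-- existence of the optimal profile at fixed `x` -/
theorem exists_profile [CompleteSpace H] (F : Frame H) {e : ℝ} (he : 0 ≤ e) {x : H}
    (hne : e = 0 → x ≠ 0) : ∃ D, Ad e D ∧ G F e x D = Phi F e x := by
  have hex : ∀ n : ℕ, ∃ D, Ad e D ∧ G F e x D < Phi F e x + 1 / ((n : ℝ) + 1) := fun n =>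
    exists_near F he x (by positivity)
  choose D hD hG using hex
  have hg : Tendsto (fun n : ℕ => Phi F e x + 1 / ((n : ℝ) + 1)) (hyperfilter ℕ)
      (𝓝 (Phi F e x + 0)) := by
    refine Tendsto.mono_left ?_ (Nat.hyperfilter_le_atTop)
    exact tendsto_const_nhds.add tendsto_one_div_add_atTop_nhds_zero_nat
  rw [add_zero] at hg
  obtain ⟨D₀, h₀, _, hle⟩ := limit_of_energy F he (hyperfilter ℕ) (x := fun _ => x) (x₀ := x)
    tendsto_const_nhds hne (D := D) (Eventually.of_forall hD) hg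
    (Eventually.of_forall fun n => (hG n).le)
  exact ⟨D₀, h₀, le_antisymm hle (Phi_le F x h₀)⟩

/-- uniqueness of the optimal profile at fixed `x` -/
theorem unique_profile (F : Frame H) {e : ℝ} {x : H} {D₁ D₂ : ℝ → ℝ} (h₁ : Ad e D₁)
    (h₂ : Ad e D₂) (hm₁ : G F e x D₁ ≤ Phi F e x) (hm₂ : G F e x D₂ ≤ Phi F e x) :
    ∀ t ∈ Ico (0 : ℝ) 1, D₁ t = D₂ t := by
  by_contra hcon
  push Not at hcon
  obtain ⟨t₀, ht₀, hne⟩ := hcon
  have hlt := Ent_mean_lt h₁.1 h₂.1 h₁.2 h₂.2 ht₀ hne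
  have hAd : Ad e (fun t => 1 / 2 * (D₁ t + D₂ t)) :=
    ⟨h₁.1.mean h₂.1, Ent_mean_ne_top h₁.1 h₂.1 h₁.2 h₂.2⟩
  have hle := Phi_le F x hAd
  have hQ : Q F (fun t => 1 / 2 * (D₁ t + D₂ t)) x = (Q F D₁ x + Q F D₂ x) / 2 := by
    rw [Q_smulD F (h₁.1.isAnti.add h₂.1.isAnti) (by norm_num), Q_addD F h₁.1.isAnti h₂.1.isAnti]
    ring
  unfold G at hle hm₁ hm₂
  rw [hQ] at hle
  linarith

/-- the optimal profile depends continuously on `x`, and near-optimal profiles are close to it -/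
theorem tendsto_profile [CompleteSpace H] (F : Frame H) {e : ℝ} (he : 0 ≤ e) {ι : Type*}
    {l : Filter ι} {x : ι → H} {x₀ : H} (hx : Tendsto x l (𝓝 x₀)) (hne : e = 0 → x₀ ≠ 0)
    {D : ι → ℝ → ℝ} (hD : ∀ᶠ i in l, Ad e (D i)) {g : ι → ℝ}
    (hg : Tendsto g l (𝓝 (Phi F e x₀))) (hG : ∀ᶠ i in l, G F e (x i) (D i) ≤ g i)
    {D₀ : ℝ → ℝ} (h₀ : Ad e D₀) (hm₀ : G F e x₀ D₀ ≤ Phi F e x₀) :
    ∀ t ∈ Ico (0 : ℝ) 1, Tendsto (fun i => D i t) l (𝓝 (D₀ t)) := by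
  intro t ht
  rw [tendsto_iff_ultrafilter]
  intro U hU
  obtain ⟨D₁, h₁, hlim, hle⟩ := limit_of_energy F he U (hx.mono_left hU) hne (hU hD)
    (hg.mono_left hU) (hU hG)
  have := unique_profile F h₁ h₀ hle hm₀ t ht
  rw [← this]
  exact hlim t ht

/-! ### the joint problem -/

/-- the joint functional -/
noncomputable def J (F : Frame H) (ξ : H) (α c e : ℝ) (x : H) (D : ℝ → ℝ) : ℝ :=
  α * inner ℝ x ξ + α * c / 2 * ‖x‖ ^ 2 + α / 2 * Q F D x + (Ent e D).toReal / 2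

/-- the reduced functional of `x` -/
noncomputable def Jr (F : Frame H) (ξ : H) (α c e : ℝ) (x : H) : ℝ :=
  α * inner ℝ x ξ + α * c / 2 * ‖x‖ ^ 2 + Phi F e (Real.sqrt α • x)

lemma J_eq (F : Frame H) (ξ : H) {α c e : ℝ} (hα : 0 ≤ α) (x : H) {D : ℝ → ℝ} (h : Ad e D) :
    J F ξ α c e x D = α * inner ℝ x ξ + α * c / 2 * ‖x‖ ^ 2 + G F e (Real.sqrt α • x) D := by
  unfold J G
  rw [Q_smul F h.1.isAnti, Real.sq_sqrt hα]
  ring

lemma Jr_le_J (F : Frame H) (ξ : H) {α c e : ℝ} (hα : 0 ≤ α) (x : H) {D : ℝ → ℝ} (h : Ad e D) :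
    Jr F ξ α c e x ≤ J F ξ α c e x D := by
  rw [J_eq F ξ hα x h]
  unfold Jr
  have := Phi_le F (Real.sqrt α • x) h
  linarith

lemma Jr_midStrong (F : Frame H) (ξ : H) {α c e : ℝ} (he : 0 ≤ e) (K : Set H) :
    MidStrong K (α * c) (Jr F ξ α c e) := by
  intro x _ y _
  unfold Jr
  have h1 := Phi_mid F he (Real.sqrt α • x) (Real.sqrt α • y)
  have e1 : (1 / 2 : ℝ) • (Real.sqrt α • x + Real.sqrt α • y) =
      Real.sqrt α • ((1 / 2 : ℝ) • (x + y)) := by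
    rw [← smul_add, smul_comm]
  rw [e1] at h1
  rw [norm_mid_sq, real_inner_smul_left, inner_add_left]
  nlinarith

lemma continuous_Jr (F : Frame H) (ξ : H) {α c e : ℝ} (he : 0 ≤ e) :
    Continuous (Jr F ξ α c e) := by
  unfold Jr
  have h := (continuous_Phi F he).comp (continuous_const_smul (Real.sqrt α) (T := H))
  have h2 : Continuous fun x : H => Phi F e (Real.sqrt α • x) := h
  fun_prop

lemma Jr_bdd (F : Frame H) (ξ : H) {α c e : ℝ} (hα : 0 < α) (hc : 0 < c) (he : 0 ≤ e) (x : H) :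
    -(α / (2 * c)) * ‖ξ‖ ^ 2 ≤ Jr F ξ α c e x := by
  unfold Jr
  have h1 := Phi_nonneg F he (Real.sqrt α • x)
  have h2 := (abs_le.1 (abs_real_inner_le_norm x ξ)).1
  have h3 : 0 ≤ (c * ‖x‖ - ‖ξ‖) ^ 2 := sq_nonneg _
  have h4 : -(1 / (2 * c)) * ‖ξ‖ ^ 2 ≤ inner ℝ x ξ + c / 2 * ‖x‖ ^ 2 := by
    have : -(1 / (2 * c)) * ‖ξ‖ ^ 2 ≤ -(‖x‖ * ‖ξ‖) + c / 2 * ‖x‖ ^ 2 := by
      have e1 : -(‖x‖ * ‖ξ‖) + c / 2 * ‖x‖ ^ 2 - -(1 / (2 * c)) * ‖ξ‖ ^ 2 =
          (c * ‖x‖ - ‖ξ‖) ^ 2 / (2 * c) := by field_simp; ring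
      have e2 : 0 ≤ (c * ‖x‖ - ‖ξ‖) ^ 2 / (2 * c) := by positivity
      linarith
    linarith
  have h5 := mul_le_mul_of_nonneg_left h4 hα.le
  have e3 : α * (-(1 / (2 * c)) * ‖ξ‖ ^ 2) = -(α / (2 * c)) * ‖ξ‖ ^ 2 := by ring
  have e4 : α * (inner ℝ x ξ + c / 2 * ‖x‖ ^ 2) = α * inner ℝ x ξ + α * c / 2 * ‖x‖ ^ 2 := by ring
  linarith

/-- existence of the minimiser of the reduced functional -/
theorem exists_x [CompleteSpace H] (F : Frame H) (ξ : H) {α c e : ℝ} (hα : 0 < α) (hc : 0 < c)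
    (he : 0 ≤ e) {K : Set H} (hK : Convex ℝ K) (hKc : IsClosed K) (hKn : K.Nonempty) :
    ∃ x ∈ K, ∀ y ∈ K, Jr F ξ α c e x ≤ Jr F ξ α c e y :=
  exists_min hK hKc hKn (mul_pos hα hc) (Jr_midStrong F ξ he K)
    (continuous_Jr F ξ he).continuousOn ⟨_, fun x _ => Jr_bdd F ξ hα hc he x⟩

/-- `(x₀, D₀)` is a minimising pair -/
def IsMinPair (F : Frame H) (ξ : H) (α c e : ℝ) (K : Set H) (x₀ : H) (D₀ : ℝ → ℝ) : Prop :=
  x₀ ∈ K ∧ Ad e D₀ ∧ ∀ y ∈ K, ∀ D, Ad e D → J F ξ α c e x₀ D₀ ≤ J F ξ α c e y D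

lemma J_le_Jr_add [CompleteSpace H] (F : Frame H) (ξ : H) {α c e : ℝ} (hα : 0 ≤ α) (he : 0 ≤ e)
    (x : H) {ε : ℝ} (hε : 0 < ε) : ∃ D, Ad e D ∧ J F ξ α c e x D < Jr F ξ α c e x + ε := by
  obtain ⟨D, hD, hlt⟩ := exists_near F he (Real.sqrt α • x) hε
  refine ⟨D, hD, ?_⟩
  rw [J_eq F ξ hα x hD]
  unfold Jr
  linarith

lemma IsMinPair.reduced [CompleteSpace H] {F : Frame H} {ξ : H} {α c e : ℝ} {K : Set H} {x₀ : H}
    {D₀ : ℝ → ℝ} (h : IsMinPair F ξ α c e K x₀ D₀) (hα : 0 ≤ α) (he : 0 ≤ e) :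
    (∀ y ∈ K, Jr F ξ α c e x₀ ≤ Jr F ξ α c e y) ∧ J F ξ α c e x₀ D₀ = Jr F ξ α c e x₀ := by
  have key : ∀ y ∈ K, J F ξ α c e x₀ D₀ ≤ Jr F ξ α c e y := fun y hy => by
    refine le_of_forall_pos_le_add fun ε hε => ?_
    obtain ⟨D, hD, hlt⟩ := J_le_Jr_add F ξ (c := c) hα he y hε
    exact (h.2.2 y hy D hD).trans hlt.le
  have h1 := Jr_le_J F ξ (c := c) hα x₀ h.2.1
  exact ⟨fun y hy => h1.trans (key y hy), le_antisymm (key x₀ h.1) h1⟩

/-- existence of a minimising pair -/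
theorem exists_minPair [CompleteSpace H] (F : Frame H) (ξ : H) {α c e : ℝ} (hα : 0 < α)
    (he : 0 ≤ e) {K : Set H} {x₀ : H} (hx₀ : x₀ ∈ K)
    (hmin : ∀ y ∈ K, Jr F ξ α c e x₀ ≤ Jr F ξ α c e y) (hne : e = 0 → x₀ ≠ 0) :
    ∃ D₀, IsMinPair F ξ α c e K x₀ D₀ := by
  obtain ⟨D₀, h₀, hG⟩ := exists_profile F he (x := Real.sqrt α • x₀) (fun h =>
    smul_ne_zero (Real.sqrt_pos.2 hα).ne' (hne h))
  refine ⟨D₀, hx₀, h₀, fun y hy D hD => ?_⟩
  have h1 := Jr_le_J F ξ (c := c) hα.le y hD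
  have h2 : J F ξ α c e x₀ D₀ = Jr F ξ α c e x₀ := by
    rw [J_eq F ξ hα.le x₀ h₀, hG]; rfl
  rw [h2]
  exact (hmin y hy).trans h1

/-- uniqueness of the minimising pair -/
theorem unique_minPair [CompleteSpace H] (F : Frame H) (ξ : H) {α c e : ℝ} (hα : 0 < α)
    (hc : 0 < c) (he : 0 ≤ e) {K : Set H} (hK : Convex ℝ K) {x₁ x₂ : H} {D₁ D₂ : ℝ → ℝ}
    (h₁ : IsMinPair F ξ α c e K x₁ D₁) (h₂ : IsMinPair F ξ α c e K x₂ D₂) :
    x₁ = x₂ ∧ ∀ t ∈ Ico (0 : ℝ) 1, D₁ t = D₂ t := by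
  have r₁ := h₁.reduced hα.le he
  have r₂ := h₂.reduced hα.le he
  have hx : x₁ = x₂ := StrConv_952.unique hK (mul_pos hα hc) (Jr_midStrong F ξ he K) h₁.1 h₂.1
    r₁.1 r₂.1
  refine ⟨hx, ?_⟩
  subst hx
  have g₁ : G F e (Real.sqrt α • x₁) D₁ ≤ Phi F e (Real.sqrt α • x₁) := by
    have := r₁.2
    rw [J_eq F ξ hα.le x₁ h₁.2.1] at this
    unfold Jr at this
    linarith
  have g₂ : G F e (Real.sqrt α • x₁) D₂ ≤ Phi F e (Real.sqrt α • x₁) := by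
    have := r₂.2
    rw [J_eq F ξ hα.le x₁ h₂.2.1] at this
    unfold Jr at this
    linarith
  exact unique_profile F h₁.2.1 h₂.2.1 g₁ g₂

/-- stability of near-minimisers in `x` -/
theorem stab_pair [CompleteSpace H] (F : Frame H) (ξ : H) {α c e : ℝ} (hα : 0 ≤ α)
    (he : 0 ≤ e) {K : Set H} (hK : Convex ℝ K) {x₀ : H} {D₀ : ℝ → ℝ}
    (h₀ : IsMinPair F ξ α c e K x₀ D₀) {x : H} (hx : x ∈ K) {D : ℝ → ℝ} (hD : Ad e D) :
    α * c / 4 * ‖x - x₀‖ ^ 2 ≤ J F ξ α c e x D - J F ξ α c e x₀ D₀ := by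
  have r := h₀.reduced hα he
  have h1 := StrConv_952.stab hK (Jr_midStrong F ξ (α := α) (c := c) he K) h₀.1 r.1 hx
  have h2 := Jr_le_J F ξ (c := c) hα x hD
  rw [r.2]
  linarith

/-- near-minimising families converge to the minimising pair -/
theorem tendsto_minPair [CompleteSpace H] (F : Frame H) (ξ : H) {α c e : ℝ} (hα : 0 < α)
    (hc : 0 < c) (he : 0 ≤ e) {K : Set H} (hK : Convex ℝ K) {x₀ : H} {D₀ : ℝ → ℝ}
    (h₀ : IsMinPair F ξ α c e K x₀ D₀) (hne : e = 0 → x₀ ≠ 0) {ι : Type*} {l : Filter ι}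
    {x : ι → H} {D : ι → ℝ → ℝ} (hx : ∀ᶠ i in l, x i ∈ K) (hD : ∀ᶠ i in l, Ad e (D i))
    {g : ι → ℝ} (hg : Tendsto g l (𝓝 (J F ξ α c e x₀ D₀)))
    (hJ : ∀ᶠ i in l, J F ξ α c e (x i) (D i) ≤ g i) :
    Tendsto x l (𝓝 x₀) ∧ ∀ t ∈ Ico (0 : ℝ) 1, Tendsto (fun i => D i t) l (𝓝 (D₀ t)) := by
  have hxt : Tendsto x l (𝓝 x₀) := by
    rw [tendsto_iff_norm_sub_tendsto_zero]
    have hb : ∀ᶠ i in l, ‖x i - x₀‖ ≤ Real.sqrt (4 / (α * c) * (g i - J F ξ α c e x₀ D₀)) := by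
      filter_upwards [hx, hD, hJ] with i h1 h2 h3
      have h4 := stab_pair F ξ hα.le he hK h₀ h1 h2
      refine Real.le_sqrt_of_sq_le ?_
      have hac : 0 < α * c := mul_pos hα hc
      have h5 : α * c / 4 * ‖x i - x₀‖ ^ 2 ≤ g i - J F ξ α c e x₀ D₀ := by linarith
      calc ‖x i - x₀‖ ^ 2 = 4 / (α * c) * (α * c / 4 * ‖x i - x₀‖ ^ 2) := by field_simp
        _ ≤ _ := mul_le_mul_of_nonneg_left h5 (by positivity)
    have hlim : Tendsto (fun i => Real.sqrt (4 / (α * c) * (g i - J F ξ α c e x₀ D₀))) l (𝓝 0) := by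
      have h1 : Tendsto (fun i => 4 / (α * c) * (g i - J F ξ α c e x₀ D₀)) l
          (𝓝 (4 / (α * c) * (J F ξ α c e x₀ D₀ - J F ξ α c e x₀ D₀))) :=
        (hg.sub_const _).const_mul _
      rw [sub_self, mul_zero] at h1
      have h2 := (Real.continuous_sqrt.tendsto 0).comp h1
      rwa [Real.sqrt_zero] at h2
    exact tendsto_of_tendsto_of_tendsto_of_le_of_le' tendsto_const_nhds hlim
      (Eventually.of_forall fun i => norm_nonneg _) hb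
  refine ⟨hxt, ?_⟩
  have r := h₀.reduced hα.le he
  have g₀ : G F e (Real.sqrt α • x₀) D₀ ≤ Phi F e (Real.sqrt α • x₀) := by
    have := r.2
    rw [J_eq F ξ hα.le x₀ h₀.2.1] at this
    unfold Jr at this
    linarith
  have hlin : Tendsto (fun i => α * inner ℝ (x i) ξ + α * c / 2 * ‖x i‖ ^ 2) l
      (𝓝 (α * inner ℝ x₀ ξ + α * c / 2 * ‖x₀‖ ^ 2)) := by
    refine Tendsto.add ?_ ?_
    · exact (hxt.inner tendsto_const_nhds).const_mul α
    · exact (hxt.norm.pow 2).const_mul _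
  refine tendsto_profile F he (x := fun i => Real.sqrt α • x i) (x₀ := Real.sqrt α • x₀)
    (hxt.const_smul _) (fun h => smul_ne_zero (Real.sqrt_pos.2 hα).ne' (hne h)) hD
    (g := fun i => g i - (α * inner ℝ (x i) ξ + α * c / 2 * ‖x i‖ ^ 2)) ?_ ?_ h₀.2.1 g₀
  · have := hg.sub hlin
    rw [r.2] at this
    unfold Jr at this
    rwa [add_sub_cancel_left] at this
  · filter_upwards [hD, hJ] with i h1 h2
    rw [J_eq F ξ hα.le (x i) h1] at h2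
    linarith

end Crest.Agent.R146.LimMin_952
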