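import Crest.Agent.R146.LimForm_952

/-!
Package P5 (row 146), node C, real-variable part: profiles on `[0,1)` with cap
`e * D t ≤ 1 - t`, the entropy `Ent e D = ∫ (1/D - e/(1-t))`, lower bounds, compactness along
ultrafilters, lower semicontinuity, strict convexity.
-/

set_option autoImplicit false

namespace Crest.Agent.R146.LimProf_952

open Filter Topology Set MeasureTheory
open Crest.Agent.R146.LimFrame_952 Crest.Agent.R146.LimForm_952

/-- profiles with cap parameter `e ≥ 0` (`e = 0`: no cap) -/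
structure PD (e : ℝ) (D : ℝ → ℝ) : Prop where
  conc : ConcaveOn ℝ (Ico 0 1) D
  anti : AntitoneOn D (Ico 0 1)
  pos : ∀ t ∈ Ico (0 : ℝ) 1, 0 < D t
  cap : ∀ t ∈ Ico (0 : ℝ) 1, e * D t ≤ 1 - t

lemma PD.isAnti {e : ℝ} {D : ℝ → ℝ} (h : PD e D) : IsAnti D := isAnti_of_pos h.anti h.pos

lemma PD.continuousOn {e : ℝ} {D : ℝ → ℝ} (h : PD e D) : ContinuousOn D (Ico 0 1) :=
  continuousOn_of_concave h.conc h.anti

/-- density of the entropy -/
noncomputable def dens (e : ℝ) (D : ℝ → ℝ) (t : ℝ) : ℝ := 1 / D t - e / (1 - t)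

lemma PD.dens_nonneg {e : ℝ} {D : ℝ → ℝ} (h : PD e D) {t : ℝ} (ht : t ∈ Ico (0 : ℝ) 1) :
    0 ≤ dens e D t := by
  unfold dens
  have h1 := h.cap t ht
  have h2 := h.pos t ht
  have h3 : 0 < 1 - t := by linarith [ht.2]
  rw [sub_nonneg, div_le_div_iff₀ h3 h2]
  linarith

lemma PD.continuousOn_inv {e : ℝ} {D : ℝ → ℝ} (h : PD e D) :
    ContinuousOn (fun t => 1 / D t) (Ico 0 1) :=
  continuousOn_const.div h.continuousOn fun t ht => (h.pos t ht).ne'

lemma continuousOn_capterm (e : ℝ) : ContinuousOn (fun t : ℝ => e / (1 - t)) (Ico 0 1) := by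
  refine continuousOn_const.div (by fun_prop) fun t ht => ?_
  have : 0 < 1 - t := by linarith [ht.2]
  exact this.ne'

lemma PD.continuousOn_dens {e : ℝ} {D : ℝ → ℝ} (h : PD e D) :
    ContinuousOn (dens e D) (Ico 0 1) := h.continuousOn_inv.sub (continuousOn_capterm e)

/-- the entropy, in `[0,∞]` -/
noncomputable def Ent (e : ℝ) (D : ℝ → ℝ) : ENNReal :=
  ∫⁻ t in Ico (0 : ℝ) 1, ENNReal.ofReal (dens e D t)

lemma Ent_congr {e : ℝ} {D D' : ℝ → ℝ} (h : ∀ t ∈ Ico (0 : ℝ) 1, D t = D' t) :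
    Ent e D = Ent e D' := by
  unfold Ent
  refine setLIntegral_congr_fun measurableSet_Ico fun t ht => ?_
  unfold dens
  rw [h t ht]

lemma PD.measurable_dens {e : ℝ} {D : ℝ → ℝ} (h : PD e D) :
    AEMeasurable (dens e D) (volume.restrict (Ico (0 : ℝ) 1)) :=
  h.continuousOn_dens.aemeasurable measurableSet_Ico

lemma PD.integrable_dens {e : ℝ} {D : ℝ → ℝ} (h : PD e D) (hE : Ent e D ≠ ⊤) :
    IntegrableOn (dens e D) (Ico 0 1) := by
  refine ⟨h.measurable_dens.aestronglyMeasurable, ?_⟩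
  rw [hasFiniteIntegral_iff_ofReal ?_]
  · exact lt_top_iff_ne_top.2 hE
  · exact (ae_restrict_iff' measurableSet_Ico).2 (Eventually.of_forall fun t ht => h.dens_nonneg ht)

lemma PD.Ent_eq {e : ℝ} {D : ℝ → ℝ} (h : PD e D) (hE : Ent e D ≠ ⊤) :
    (Ent e D).toReal = ∫ t in Ico (0 : ℝ) 1, dens e D t := by
  rw [integral_eq_lintegral_of_nonneg_ae
    ((ae_restrict_iff' measurableSet_Ico).2 (Eventually.of_forall fun t ht => h.dens_nonneg ht))
    h.measurable_dens.aestronglyMeasurable]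
  rfl

lemma PD.Ent_ne_top_of_integrable {e : ℝ} {D : ℝ → ℝ} (h : PD e D)
    (hI : IntegrableOn (dens e D) (Ico 0 1)) : Ent e D ≠ ⊤ := by
  have := hI.2
  rw [hasFiniteIntegral_iff_ofReal ((ae_restrict_iff' measurableSet_Ico).2
    (Eventually.of_forall fun t ht => h.dens_nonneg ht))] at this
  exact this.ne

/-- partial integrals -/
lemma PD.intervalIntegrable {e : ℝ} {D : ℝ → ℝ} (h : PD e D) {a b : ℝ} (ha : 0 ≤ a) (hab : a ≤ b)
    (hb : b < 1) : IntervalIntegrable (dens e D) volume a b := by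
  refine (h.continuousOn_dens.mono ?_).intervalIntegrable
  rw [uIcc_of_le hab]
  exact fun t ht => ⟨ha.trans ht.1, lt_of_le_of_lt ht.2 hb⟩

lemma PD.partial_le {e : ℝ} {D : ℝ → ℝ} (h : PD e D) (hE : Ent e D ≠ ⊤) {a b : ℝ} (ha : 0 ≤ a)
    (hab : a ≤ b) (hb : b < 1) : ∫ t in a..b, dens e D t ≤ (Ent e D).toReal := by
  rw [h.Ent_eq hE, intervalIntegral.integral_of_le hab]
  refine setIntegral_mono_set (h.integrable_dens hE)
    ((ae_restrict_iff' measurableSet_Ico).2 (Eventually.of_forall fun t ht => h.dens_nonneg ht)) ?_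
  refine LE.le.eventuallyLE ?_
  exact fun t ht => ⟨(ha.trans_lt ht.1).le, lt_of_le_of_lt ht.2 hb⟩

/-- if all partial integrals are `≤ A` the entropy is `≤ A` -/
lemma PD.Ent_le {e : ℝ} {D : ℝ → ℝ} (h : PD e D) {A : ℝ}
    (hA : ∀ T : ℝ, 0 ≤ T → T < 1 → ∫ t in (0 : ℝ)..T, dens e D t ≤ A) :
    Ent e D ≤ ENNReal.ofReal A := by
  have hunion : Ico (0 : ℝ) 1 = ⋃ n : ℕ, Ico (0 : ℝ) (1 - 1 / ((n : ℝ) + 1)) := by
    ext t
    simp only [mem_Ico, mem_iUnion]
    constructor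
    · rintro ⟨h0, h1⟩
      obtain ⟨n, hn⟩ := exists_nat_gt (1 / (1 - t))
      have h1t : 0 < 1 - t := by linarith
      refine ⟨n, h0, ?_⟩
      have : 1 / ((n : ℝ) + 1) < 1 - t := by
        rw [div_lt_iff₀ (by positivity)]
        rw [div_lt_iff₀ h1t] at hn
        nlinarith
      linarith
    · rintro ⟨n, h0, h1⟩
      have : (0 : ℝ) < 1 / ((n : ℝ) + 1) := by positivity
      exact ⟨h0, by linarith⟩
  have hdir : Monotone fun n : ℕ => Ico (0 : ℝ) (1 - 1 / ((n : ℝ) + 1)) := by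
    intro n m hnm
    refine Ico_subset_Ico_right ?_
    have : (1 : ℝ) / ((m : ℝ) + 1) ≤ 1 / ((n : ℝ) + 1) := by
      apply one_div_le_one_div_of_le (by positivity)
      have : (n : ℝ) ≤ m := by exact_mod_cast hnm
      linarith
    linarith
  unfold Ent
  rw [hunion, setLIntegral_iUnion_of_directed _ (hdir.directed_le)]
  refine iSup_le fun n => ?_
  have hT0 : (0 : ℝ) ≤ 1 - 1 / ((n : ℝ) + 1) := by
    rw [sub_nonneg, div_le_one (by positivity)]
    linarith [(Nat.cast_nonneg n : (0 : ℝ) ≤ n)]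
  have hT1 : 1 - 1 / ((n : ℝ) + 1) < 1 := by
    have : (0 : ℝ) < 1 / ((n : ℝ) + 1) := by positivity
    linarith
  have hI := h.intervalIntegrable le_rfl hT0 hT1
  rw [intervalIntegrable_iff_integrableOn_Ico_of_le hT0] at hI
  rw [← ofReal_integral_eq_lintegral_ofReal hI]
  · refine ENNReal.ofReal_le_ofReal ?_
    have := hA _ hT0 hT1
    rwa [intervalIntegral.integral_of_le hT0, ← integral_Ico_eq_integral_Ioc] at this
  · refine (ae_restrict_iff' measurableSet_Ico).2 (Eventually.of_forall fun t ht => ?_)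
    exact h.dens_nonneg ⟨ht.1, ht.2.trans hT1⟩

/-! ### concavity towards the end point -/

lemma PD.tail_ge {e : ℝ} {D : ℝ → ℝ} (h : PD e D) {s t : ℝ} (hs : s ∈ Ico (0 : ℝ) 1)
    (ht : t ∈ Ico (0 : ℝ) 1) (hst : s ≤ t) : (1 - t) * D s ≤ (1 - s) * D t := by
  -- for `t < r < 1`: `(r - t) D s ≤ (r - s) D t`
  have key : ∀ᶠ r in 𝓝[<] (1 : ℝ), (r - t) * D s ≤ (r - s) * D t := by
    have h2 : ∀ᶠ r in 𝓝[<] (1 : ℝ), t < r := by
      have : Ioi t ∈ 𝓝[<] (1 : ℝ) := mem_nhdsWithin_of_mem_nhds (Ioi_mem_nhds ht.2)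
      exact this
    filter_upwards [h2, self_mem_nhdsWithin] with r hr hr1
    have hr1' : r < 1 := hr1
    have hrm : r ∈ Ico (0 : ℝ) 1 := ⟨ht.1.trans hr.le, hr1'⟩
    have hrs : 0 < r - s := by linarith
    have := h.conc.2 hs hrm (show (0 : ℝ) ≤ (r - t) / (r - s) by
        apply div_nonneg <;> linarith)
      (show (0 : ℝ) ≤ (t - s) / (r - s) by apply div_nonneg <;> linarith)
      (by field_simp; ring)
    simp only [smul_eq_mul] at this
    have e1 : (r - t) / (r - s) * s + (t - s) / (r - s) * r = t := by field_simp; ring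
    rw [e1] at this
    have hp := (h.pos r hrm).le
    have h3 : (r - t) / (r - s) * D s ≤ D t := by
      have : 0 ≤ (t - s) / (r - s) * D r := mul_nonneg (by apply div_nonneg <;> linarith) hp
      linarith
    rw [div_mul_eq_mul_div, div_le_iff₀ hrs] at h3
    linarith
  have l1 : Tendsto (fun r : ℝ => (r - t) * D s) (𝓝[<] 1) (𝓝 ((1 - t) * D s)) := by
    have : Continuous fun r : ℝ => (r - t) * D s := by fun_prop
    exact (this.tendsto 1).mono_left nhdsWithin_le_nhds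
  have l2 : Tendsto (fun r : ℝ => (r - s) * D t) (𝓝[<] 1) (𝓝 ((1 - s) * D t)) := by
    have : Continuous fun r : ℝ => (r - s) * D t := by fun_prop
    exact (this.tendsto 1).mono_left nhdsWithin_le_nhds
  exact le_of_tendsto_of_tendsto l1 l2 key

lemma PD.ge_zero {e : ℝ} {D : ℝ → ℝ} (h : PD e D) {t : ℝ} (ht : t ∈ Ico (0 : ℝ) 1) :
    (1 - t) * D 0 ≤ D t := by
  have := h.tail_ge zero_mem_Ico ht ht.1
  linarith

/-- lower bound of a profile by its entropy -/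
lemma PD.lower {e : ℝ} (he : 0 ≤ e) {D : ℝ → ℝ} (h : PD e D) {C : ℝ} (hC : 0 < C)
    (hE : Ent e D ≤ ENNReal.ofReal C) {t : ℝ} (ht : t ∈ Ico (0 : ℝ) 1) :
    (1 - t) / (4 * (C + e)) ≤ D t := by
  have hne : Ent e D ≠ ⊤ := ne_top_of_le_ne_top ENNReal.ofReal_ne_top hE
  have hCe : 0 < C + e := by linarith
  -- the case `1/2 ≤ t`
  have key : ∀ t ∈ Ico (1 / 2 : ℝ) 1, (1 - t) / (2 * (C + e)) ≤ D t := by
    intro t ht
    have htm : t ∈ Ico (0 : ℝ) 1 := ⟨by linarith [ht.1], ht.2⟩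
    have ha : 0 ≤ 2 * t - 1 := by linarith [ht.1]
    have hab : 2 * t - 1 ≤ t := by linarith [ht.2]
    have h1 := h.partial_le hne ha hab ht.2
    have h2 : (Ent e D).toReal ≤ C := ENNReal.toReal_le_of_le_ofReal hC.le hE
    have hpt := h.pos t htm
    have h1t : 0 < 1 - t := by linarith [ht.2]
    have hlow : ∫ _ in (2 * t - 1)..t, (1 / (2 * D t) - e / (1 - t)) ≤
        ∫ s in (2 * t - 1)..t, dens e D s := by
      refine intervalIntegral.integral_mono_on hab (by simp) (h.intervalIntegrable ha hab ht.2) ?_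
      intro s hs
      have hsm : s ∈ Ico (0 : ℝ) 1 := ⟨ha.trans hs.1, lt_of_le_of_lt hs.2 ht.2⟩
      have hts := h.tail_ge hsm htm hs.2
      have hps := h.pos s hsm
      have h1s : 0 < 1 - s := by linarith [hsm.2]
      unfold dens
      have a1 : D s ≤ 2 * D t := by
        have : (1 - s) ≤ 2 * (1 - t) := by linarith [hs.1]
        have : (1 - t) * D s ≤ 2 * (1 - t) * D t := hts.trans (by nlinarith)
        nlinarith
      have a2 : 1 / (2 * D t) ≤ 1 / D s := one_div_le_one_div_of_le hps a1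
      have a3 : e / (1 - s) ≤ e / (1 - t) := by
        apply div_le_div_of_nonneg_left he h1t
        linarith [hs.2]
      linarith
    rw [intervalIntegral.integral_const, smul_eq_mul] at hlow
    have h3 : (t - (2 * t - 1)) * (1 / (2 * D t) - e / (1 - t)) ≤ C := hlow.trans (h1.trans h2)
    have h4 : (t - (2 * t - 1)) * (1 / (2 * D t) - e / (1 - t)) = (1 - t) / (2 * D t) - e := by
      field_simp
      ring
    rw [h4] at h3
    have h5 : (1 - t) / (2 * D t) ≤ C + e := by linarith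
    rw [div_le_iff₀ (by positivity)] at h5
    rw [div_le_iff₀ (by positivity)]
    nlinarith
  by_cases hth : 1 / 2 ≤ t
  · refine le_trans ?_ (key t ⟨hth, ht.2⟩)
    have h1t : 0 ≤ 1 - t := by linarith [ht.2]
    apply div_le_div_of_nonneg_left h1t (by positivity)
    linarith
  · push Not at hth
    have hhalf : (1 / 2 : ℝ) ∈ Ico (1 / 2 : ℝ) 1 := ⟨le_rfl, by norm_num⟩
    have h1 := key _ hhalf
    have h2 := h.anti ht ⟨by norm_num, by norm_num⟩ hth.le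
    refine le_trans ?_ (h1.trans h2)
    rw [div_le_div_iff₀ (by positivity) (by positivity)]
    nlinarith [ht.1]

/-! ### convergence of partial integrals -/

/-- Riemann sums of a monotone function -/
lemma riemann_mono {E : ℝ → ℝ} {T : ℝ} (hT : 0 ≤ T) (hE : MonotoneOn E (Icc 0 T)) (N : ℕ)
    (hN : 0 < N) :
    |(∫ t in (0 : ℝ)..T, E t) - T / N * ∑ i ∈ Finset.range N, E (T * i / N)| ≤
      T / N * (E T - E 0) := by
  have hN' : (0 : ℝ) < N := by exact_mod_cast hN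
  have hmem : ∀ i ∈ Finset.range (N + 1), T * (i : ℝ) / N ∈ Icc (0 : ℝ) T := by
    intro i hi
    have : (i : ℝ) ≤ N := by
      have := Finset.mem_range.1 hi
      exact_mod_cast (by omega : i ≤ N)
    refine ⟨by positivity, ?_⟩
    rw [div_le_iff₀ hN']
    exact mul_le_mul_of_nonneg_left this hT
  have hint : ∀ i ∈ Finset.range N, IntervalIntegrable E volume (T * (i : ℝ) / N)
      (T * ((i + 1 : ℕ) : ℝ) / N) := by
    intro i hi
    have hi' := Finset.mem_range.1 hi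
    refine (hE.mono ?_).intervalIntegrable
    have hle : T * (i : ℝ) / N ≤ T * ((i + 1 : ℕ) : ℝ) / N := by
      push_cast
      gcongr
      linarith
    rw [uIcc_of_le hle]
    exact Icc_subset_Icc (hmem i (by simp; omega)).1 (hmem (i + 1) (by simp; omega)).2
  have hsum : ∫ t in (0 : ℝ)..T, E t =
      ∑ i ∈ Finset.range N, ∫ t in (T * (i : ℝ) / N)..(T * ((i + 1 : ℕ) : ℝ) / N), E t := by
    rw [intervalIntegral.sum_integral_adjacent_intervals
      (a := fun i : ℕ => T * (i : ℝ) / N) (fun i hi => hint i (Finset.mem_range.2 hi))]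
    simp only [CharP.cast_eq_zero, mul_zero, zero_div]
    rw [mul_div_assoc, div_self hN'.ne', mul_one]
  have hcell : ∀ i ∈ Finset.range N,
      T / N * E (T * i / N) ≤ (∫ t in (T * (i : ℝ) / N)..(T * ((i + 1 : ℕ) : ℝ) / N), E t) ∧
      (∫ t in (T * (i : ℝ) / N)..(T * ((i + 1 : ℕ) : ℝ) / N), E t) ≤
        T / N * E (T * ((i + 1 : ℕ) : ℝ) / N) := by
    intro i hi
    have hi' := Finset.mem_range.1 hi
    have hle : T * (i : ℝ) / N ≤ T * ((i + 1 : ℕ) : ℝ) / N := by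
      push_cast
      gcongr
      linarith
    have hm0 := hmem i (by simp; omega)
    have hm1 := hmem (i + 1) (by simp; omega)
    have hlen : T * ((i + 1 : ℕ) : ℝ) / N - T * (i : ℝ) / N = T / N := by
      push_cast; ring
    constructor
    · have : ∫ _ in (T * (i : ℝ) / N)..(T * ((i + 1 : ℕ) : ℝ) / N), E (T * i / N) ≤
          ∫ t in (T * (i : ℝ) / N)..(T * ((i + 1 : ℕ) : ℝ) / N), E t := by
        refine intervalIntegral.integral_mono_on hle (by simp) (hint i hi) fun t ht => ?_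
        exact hE hm0 ⟨hm0.1.trans ht.1, ht.2.trans hm1.2⟩ ht.1
      rwa [intervalIntegral.integral_const, smul_eq_mul, hlen] at this
    · have : ∫ t in (T * (i : ℝ) / N)..(T * ((i + 1 : ℕ) : ℝ) / N), E t ≤
          ∫ _ in (T * (i : ℝ) / N)..(T * ((i + 1 : ℕ) : ℝ) / N),
            E (T * ((i + 1 : ℕ) : ℝ) / N) := by
        refine intervalIntegral.integral_mono_on hle (hint i hi) (by simp) fun t ht => ?_
        exact hE ⟨hm0.1.trans ht.1, ht.2.trans hm1.2⟩ hm1 ht.2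
      rwa [intervalIntegral.integral_const, smul_eq_mul, hlen] at this
  have hlow : T / N * ∑ i ∈ Finset.range N, E (T * i / N) ≤ ∫ t in (0 : ℝ)..T, E t := by
    rw [hsum, Finset.mul_sum]
    exact Finset.sum_le_sum fun i hi => (hcell i hi).1
  have hup : ∫ t in (0 : ℝ)..T, E t ≤
      T / N * ∑ i ∈ Finset.range N, E (T * i / N) + T / N * (E T - E 0) := by
    rw [hsum]
    refine (Finset.sum_le_sum fun i hi => (hcell i hi).2).trans ?_
    rw [← Finset.mul_sum, ← mul_add]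
    refine mul_le_mul_of_nonneg_left ?_ (by positivity)
    have htel : ∑ i ∈ Finset.range N, E (T * ((i + 1 : ℕ) : ℝ) / N) -
        ∑ i ∈ Finset.range N, E (T * (i : ℝ) / N) = E T - E 0 := by
      rw [← Finset.sum_sub_distrib,
        Finset.sum_range_sub (fun i : ℕ => E (T * (i : ℝ) / N))]
      simp only [CharP.cast_eq_zero, mul_zero, zero_div]
      rw [mul_div_assoc, div_self hN'.ne', mul_one]
    linarith
  rw [abs_of_nonneg (by linarith)]
  linarith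

/-- convergence of `∫_0^T 1/D` -/
lemma tendsto_integral_inv {ι : Type*} {l : Filter ι} {D : ι → ℝ → ℝ} {D₀ : ℝ → ℝ} {e : ℝ}
    (hD : ∀ t ∈ Ico (0 : ℝ) 1, Tendsto (fun i => D i t) l (𝓝 (D₀ t)))
    (hP : ∀ᶠ i in l, PD e (D i)) (h₀ : PD e D₀) {T : ℝ} (hT0 : 0 ≤ T) (hT1 : T < 1) :
    Tendsto (fun i => ∫ t in (0 : ℝ)..T, dens e (D i) t) l
      (𝓝 (∫ t in (0 : ℝ)..T, dens e D₀ t)) := by
  -- reduce to `1/D`
  have hTm : T ∈ Ico (0 : ℝ) 1 := ⟨hT0, hT1⟩
  have hsubT : Icc 0 T ⊆ Ico (0 : ℝ) 1 := fun t ht => ⟨ht.1, lt_of_le_of_lt ht.2 hT1⟩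
  have hcapI : IntervalIntegrable (fun t : ℝ => e / (1 - t)) volume 0 T := by
    refine ((continuousOn_capterm e).mono ?_).intervalIntegrable
    rw [uIcc_of_le hT0]; exact hsubT
  have hinvI : ∀ D : ℝ → ℝ, PD e D → IntervalIntegrable (fun t => 1 / D t) volume 0 T := by
    intro D h
    refine (h.continuousOn_inv.mono ?_).intervalIntegrable
    rw [uIcc_of_le hT0]; exact hsubT
  have hsplit : ∀ D : ℝ → ℝ, PD e D → ∫ t in (0 : ℝ)..T, dens e D t =
      (∫ t in (0 : ℝ)..T, 1 / D t) - ∫ t in (0 : ℝ)..T, e / (1 - t) := by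
    intro D h
    exact intervalIntegral.integral_sub (hinvI D h) hcapI
  have hmono : ∀ D : ℝ → ℝ, PD e D → MonotoneOn (fun t => 1 / D t) (Icc 0 T) := by
    intro D h s hs t ht hst
    exact one_div_le_one_div_of_le (h.pos t (hsubT ht)) (h.anti (hsubT hs) (hsubT ht) hst)
  suffices hmain : Tendsto (fun i => ∫ t in (0 : ℝ)..T, 1 / D i t) l
      (𝓝 (∫ t in (0 : ℝ)..T, 1 / D₀ t)) by
    rw [hsplit D₀ h₀]
    refine (hmain.sub_const _).congr' ?_
    filter_upwards [hP] with i hi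
    rw [hsplit _ hi]
  -- bound of the end values
  have hinvt : ∀ t ∈ Ico (0 : ℝ) 1, Tendsto (fun i => 1 / D i t) l (𝓝 (1 / D₀ t)) := fun t ht =>
    tendsto_const_nhds.div (hD t ht) (h₀.pos t ht).ne'
  rw [Metric.tendsto_nhds]
  intro ε hε
  set C : ℝ := 1 / D₀ T + 1 with hC
  have hCpos : 0 < C := by have := h₀.pos T hTm; positivity
  obtain ⟨N, hN⟩ := exists_nat_gt (4 * T * C / ε)
  set M : ℕ := N + 1 with hM
  have hMpos : 0 < M := Nat.succ_pos N
  have hM' : (0 : ℝ) < M := by exact_mod_cast hMpos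
  have hTM : T / M * C < ε / 4 := by
    rw [div_mul_eq_mul_div, div_lt_iff₀ hM']
    rw [div_lt_iff₀ hε] at hN
    have : (N : ℝ) < M := by rw [hM]; push_cast; linarith
    nlinarith
  have hfin : Tendsto (fun i => T / M * ∑ k ∈ Finset.range M, 1 / D i (T * k / M)) l
      (𝓝 (T / M * ∑ k ∈ Finset.range M, 1 / D₀ (T * k / M))) := by
    refine (tendsto_finsetSum _ fun k hk => hinvt _ ?_).const_mul _
    refine hsubT ⟨by positivity, ?_⟩
    rw [div_le_iff₀ hM']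
    have : (k : ℝ) ≤ M := by exact_mod_cast (Finset.mem_range.1 hk).le
    exact mul_le_mul_of_nonneg_left this hT0
  have hev1 := hfin.eventually (Metric.ball_mem_nhds _ (show 0 < ε / 4 by positivity))
  have hev2 := (hinvt T hTm).eventually (Iio_mem_nhds (show 1 / D₀ T < C by rw [hC]; linarith))
  filter_upwards [hP, hev1, hev2] with i hi h1 h2
  have r1 := riemann_mono hT0 (hmono _ hi) M hMpos
  have r2 := riemann_mono hT0 (hmono _ h₀) M hMpos
  rw [Real.dist_eq] at h1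
  have h2' : 1 / D i T < C := h2
  have p1 : 0 ≤ 1 / D i 0 := by have := hi.pos 0 zero_mem_Ico; positivity
  have p2 : 0 ≤ 1 / D₀ 0 := by have := h₀.pos 0 zero_mem_Ico; positivity
  have b1 : T / M * (1 / D i T - 1 / D i 0) ≤ ε / 4 := by
    refine le_trans (mul_le_mul_of_nonneg_left ?_ (by positivity)) hTM.le
    linarith
  have b2 : T / M * (1 / D₀ T - 1 / D₀ 0) ≤ ε / 4 := by
    refine le_trans (mul_le_mul_of_nonneg_left ?_ (by positivity)) hTM.le
    linarith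
  have r1' := r1.trans b1
  have r2' := r2.trans b2
  rw [Real.dist_eq]
  rw [abs_le] at r1' r2'
  rw [abs_lt] at h1 ⊢
  constructor <;> linarith [r1'.1, r1'.2, r2'.1, r2'.2, h1.1, h1.2]

/-- lower semicontinuity of the entropy -/
lemma Ent_le_of_tendsto {ι : Type*} {l : Filter ι} [l.NeBot] {D : ι → ℝ → ℝ} {D₀ : ℝ → ℝ} {e : ℝ}
    (hD : ∀ t ∈ Ico (0 : ℝ) 1, Tendsto (fun i => D i t) l (𝓝 (D₀ t)))
    (hP : ∀ᶠ i in l, PD e (D i)) (h₀ : PD e D₀) {a : ι → ℝ} {A : ℝ} (ha : Tendsto a l (𝓝 A))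
    (hle : ∀ᶠ i in l, Ent e (D i) ≤ ENNReal.ofReal (a i)) (ha0 : ∀ᶠ i in l, 0 ≤ a i) :
    Ent e D₀ ≤ ENNReal.ofReal A := by
  refine h₀.Ent_le fun T hT0 hT1 => ?_
  refine le_of_tendsto_of_tendsto (tendsto_integral_inv hD hP h₀ hT0 hT1) ha ?_
  filter_upwards [hP, hle, ha0] with i hi h1 h2
  have hne : Ent e (D i) ≠ ⊤ := ne_top_of_le_ne_top ENNReal.ofReal_ne_top h1
  exact (hi.partial_le hne le_rfl hT0 hT1).trans (ENNReal.toReal_le_of_le_ofReal h2 h1)

/-! ### compactness along an ultrafilter -/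

lemma exists_lim_of_bdd {ι : Type*} (U : Ultrafilter ι) {f : ι → ℝ} {a b : ℝ}
    (h : ∀ᶠ i in (U : Filter ι), f i ∈ Icc a b) :
    ∃ x ∈ Icc a b, Tendsto f U (𝓝 x) := by
  have := (isCompact_Icc (a := a) (b := b)).ultrafilter_le_nhds (U.map f) (by
    rw [Ultrafilter.coe_map, le_principal_iff]
    exact h)
  obtain ⟨x, hx, hle⟩ := this
  exact ⟨x, hx, hle⟩

/-- limit profile along an ultrafilter -/
lemma exists_limit_profile {ι : Type*} (U : Ultrafilter ι) {D : ι → ℝ → ℝ} {e c C : ℝ}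
    (hc : 0 < c) (hP : ∀ᶠ i in (U : Filter ι), PD e (D i))
    (hlow : ∀ᶠ i in (U : Filter ι), ∀ t ∈ Ico (0 : ℝ) 1, c * (1 - t) ≤ D i t)
    (hup : ∀ᶠ i in (U : Filter ι), D i 0 ≤ C) :
    ∃ D₀ : ℝ → ℝ, PD e D₀ ∧ (∀ t ∈ Ico (0 : ℝ) 1, Tendsto (fun i => D i t) U (𝓝 (D₀ t))) ∧
      (∀ t ∈ Ico (0 : ℝ) 1, c * (1 - t) ≤ D₀ t) ∧ D₀ 0 ≤ C := by
  have hex : ∀ t : ℝ, ∃ x : ℝ, t ∈ Ico (0 : ℝ) 1 →
      (c * (1 - t) ≤ x ∧ x ≤ C) ∧ Tendsto (fun i => D i t) U (𝓝 x) := by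
    intro t
    by_cases ht : t ∈ Ico (0 : ℝ) 1
    · obtain ⟨x, hx, hlim⟩ := exists_lim_of_bdd U (f := fun i => D i t) (a := c * (1 - t))
        (b := C) (by
          filter_upwards [hP, hlow, hup] with i h1 h2 h3
          exact ⟨h2 t ht, (h1.anti zero_mem_Ico ht ht.1).trans h3⟩)
      exact ⟨x, fun _ => ⟨hx, hlim⟩⟩
    · exact ⟨0, fun h => absurd h ht⟩
  choose D₀ hD₀ using hex
  have hlim : ∀ t ∈ Ico (0 : ℝ) 1, Tendsto (fun i => D i t) U (𝓝 (D₀ t)) := fun t ht =>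
    (hD₀ t ht).2
  refine ⟨D₀, ⟨⟨convex_Ico 0 1, ?_⟩, ?_, ?_, ?_⟩, hlim, fun t ht => (hD₀ t ht).1.1,
    (hD₀ 0 zero_mem_Ico).1.2⟩
  · intro x hx y hy a b ha hb hab
    have hz : a • x + b • y ∈ Ico (0 : ℝ) 1 := convex_Ico 0 1 hx hy ha hb hab
    refine le_of_tendsto_of_tendsto (((hlim x hx).const_smul a).add ((hlim y hy).const_smul b))
      (hlim _ hz) ?_
    filter_upwards [hP] with i hi
    exact hi.conc.2 hx hy ha hb hab
  · intro x hx y hy hxy
    refine le_of_tendsto_of_tendsto (hlim y hy) (hlim x hx) ?_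
    filter_upwards [hP] with i hi
    exact hi.anti hx hy hxy
  · intro t ht
    have h1t : 0 < 1 - t := by linarith [ht.2]
    exact lt_of_lt_of_le (mul_pos hc h1t) (hD₀ t ht).1.1
  · intro t ht
    refine le_of_tendsto ((hlim t ht).const_mul e) ?_
    filter_upwards [hP] with i hi
    exact hi.cap t ht

/-! ### operations on profiles -/

lemma PD.hm {e : ℝ} (he : 0 ≤ e) {D₁ D₂ : ℝ → ℝ} (h₁ : PD e D₁) (h₂ : PD e D₂) :
    PD e (LimForm_952.hm D₁ D₂) :=
  ⟨hm_concave h₁.conc h₂.conc h₁.pos h₂.pos, hm_anti h₁.anti h₂.anti h₁.pos h₂.pos,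
    fun t ht => hm_pos (h₁.pos t ht) (h₂.pos t ht), fun t ht => by
      have a := hm_le_mean (h₁.pos t ht) (h₂.pos t ht)
      have b := h₁.cap t ht
      have c := h₂.cap t ht
      have := mul_le_mul_of_nonneg_left a he
      linarith⟩

lemma PD.mean {e : ℝ} {D₁ D₂ : ℝ → ℝ} (h₁ : PD e D₁) (h₂ : PD e D₂) :
    PD e (fun t => 1 / 2 * (D₁ t + D₂ t)) := by
  refine ⟨?_, ?_, ?_, ?_⟩
  · have := (h₁.conc.add h₂.conc).smul (show (0 : ℝ) ≤ 1 / 2 by norm_num)
    simpa [Pi.add_apply, smul_eq_mul] using this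
  · intro x hx y hy hxy
    have a := h₁.anti hx hy hxy
    have b := h₂.anti hx hy hxy
    simp only
    linarith
  · intro t ht
    have a := h₁.pos t ht
    have b := h₂.pos t ht
    positivity
  · intro t ht
    have a := h₁.cap t ht
    have b := h₂.cap t ht
    show e * (1 / 2 * (D₁ t + D₂ t)) ≤ 1 - t
    linarith

lemma dens_hm {e : ℝ} {D₁ D₂ : ℝ → ℝ} (h₁ : PD e D₁) (h₂ : PD e D₂) {t : ℝ}
    (ht : t ∈ Ico (0 : ℝ) 1) :
    dens e (hm D₁ D₂) t = (dens e D₁ t + dens e D₂ t) / 2 := by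
  unfold dens
  rw [inv_hm (h₁.pos t ht) (h₂.pos t ht)]
  ring

lemma int_half {e : ℝ} {D₁ D₂ : ℝ → ℝ} (h₁ : PD e D₁) (h₂ : PD e D₂)
    (hE₁ : Ent e D₁ ≠ ⊤) (hE₂ : Ent e D₂ ≠ ⊤) :
    IntegrableOn (fun t => (dens e D₁ t + dens e D₂ t) / 2) (Ico 0 1) := by
  have : IntegrableOn (fun t => dens e D₁ t + dens e D₂ t) (Ico 0 1) :=
    (h₁.integrable_dens hE₁).add (h₂.integrable_dens hE₂)
  exact this.div_const 2

lemma Ent_hm_ne_top {e : ℝ} (he : 0 ≤ e) {D₁ D₂ : ℝ → ℝ} (h₁ : PD e D₁) (h₂ : PD e D₂)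
    (hE₁ : Ent e D₁ ≠ ⊤) (hE₂ : Ent e D₂ ≠ ⊤) : Ent e (hm D₁ D₂) ≠ ⊤ := by
  refine (h₁.hm he h₂).Ent_ne_top_of_integrable ?_
  refine IntegrableOn.congr_fun (int_half h₁ h₂ hE₁ hE₂) (fun t ht => ?_) measurableSet_Ico
  exact (dens_hm h₁ h₂ ht).symm

lemma Ent_hm {e : ℝ} (he : 0 ≤ e) {D₁ D₂ : ℝ → ℝ} (h₁ : PD e D₁) (h₂ : PD e D₂)
    (hE₁ : Ent e D₁ ≠ ⊤) (hE₂ : Ent e D₂ ≠ ⊤) :
    (Ent e (hm D₁ D₂)).toReal = ((Ent e D₁).toReal + (Ent e D₂).toReal) / 2 := by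
  rw [(h₁.hm he h₂).Ent_eq (Ent_hm_ne_top he h₁ h₂ hE₁ hE₂), h₁.Ent_eq hE₁, h₂.Ent_eq hE₂,
    ← integral_add (h₁.integrable_dens hE₁) (h₂.integrable_dens hE₂), ← integral_div]
  exact setIntegral_congr_fun measurableSet_Ico fun t ht => dens_hm h₁ h₂ ht

/-- deficit of the arithmetic mean -/
lemma dens_mean {e : ℝ} {D₁ D₂ : ℝ → ℝ} (h₁ : PD e D₁) (h₂ : PD e D₂) {t : ℝ}
    (ht : t ∈ Ico (0 : ℝ) 1) :
    dens e (fun t => 1 / 2 * (D₁ t + D₂ t)) t = (dens e D₁ t + dens e D₂ t) / 2 -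
      (D₁ t - D₂ t) ^ 2 / (2 * D₁ t * D₂ t * (D₁ t + D₂ t)) := by
  have a := h₁.pos t ht
  have b := h₂.pos t ht
  unfold dens
  have hs : D₁ t + D₂ t ≠ 0 := by positivity
  field_simp
  ring

lemma dens_mean_le {e : ℝ} {D₁ D₂ : ℝ → ℝ} (h₁ : PD e D₁) (h₂ : PD e D₂) {t : ℝ}
    (ht : t ∈ Ico (0 : ℝ) 1) :
    dens e (fun t => 1 / 2 * (D₁ t + D₂ t)) t ≤ (dens e D₁ t + dens e D₂ t) / 2 := by
  rw [dens_mean h₁ h₂ ht]
  have a := h₁.pos t ht
  have b := h₂.pos t ht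
  have : 0 ≤ (D₁ t - D₂ t) ^ 2 / (2 * D₁ t * D₂ t * (D₁ t + D₂ t)) := by positivity
  linarith

lemma Ent_mean_ne_top {e : ℝ} {D₁ D₂ : ℝ → ℝ} (h₁ : PD e D₁) (h₂ : PD e D₂)
    (hE₁ : Ent e D₁ ≠ ⊤) (hE₂ : Ent e D₂ ≠ ⊤) :
    Ent e (fun t => 1 / 2 * (D₁ t + D₂ t)) ≠ ⊤ := by
  refine (h₁.mean h₂).Ent_ne_top_of_integrable ?_
  have hI := int_half h₁ h₂ hE₁ hE₂
  refine Integrable.mono' hI (h₁.mean h₂).measurable_dens.aestronglyMeasurable ?_
  refine (ae_restrict_iff' measurableSet_Ico).2 (Eventually.of_forall fun t ht => ?_)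
  rw [Real.norm_of_nonneg ((h₁.mean h₂).dens_nonneg ht)]
  exact dens_mean_le h₁ h₂ ht

lemma Ent_mean_lt {e : ℝ} {D₁ D₂ : ℝ → ℝ} (h₁ : PD e D₁) (h₂ : PD e D₂)
    (hE₁ : Ent e D₁ ≠ ⊤) (hE₂ : Ent e D₂ ≠ ⊤) {t₀ : ℝ} (ht₀ : t₀ ∈ Ico (0 : ℝ) 1)
    (hne : D₁ t₀ ≠ D₂ t₀) :
    (Ent e (fun t => 1 / 2 * (D₁ t + D₂ t))).toReal <
      ((Ent e D₁).toReal + (Ent e D₂).toReal) / 2 := by
  have hm := h₁.mean h₂
  have hEm := Ent_mean_ne_top h₁ h₂ hE₁ hE₂
  rw [hm.Ent_eq hEm, h₁.Ent_eq hE₁, h₂.Ent_eq hE₂,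
    ← integral_add (h₁.integrable_dens hE₁) (h₂.integrable_dens hE₂), ← integral_div]
  rw [← sub_pos, ← integral_sub (int_half h₁ h₂ hE₁ hE₂) (hm.integrable_dens hEm)]
  rw [setIntegral_pos_iff_support_of_nonneg_ae]
  · -- the integrand is positive near `t₀`, to the right of `t₀`
    set g : ℝ → ℝ := fun t => (dens e D₁ t + dens e D₂ t) / 2 -
      dens e (fun t => 1 / 2 * (D₁ t + D₂ t)) t with hg
    have hgt : ∀ t ∈ Ico (0 : ℝ) 1, g t =
        (D₁ t - D₂ t) ^ 2 / (2 * D₁ t * D₂ t * (D₁ t + D₂ t)) := by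
      intro t ht
      rw [hg]; simp only
      rw [dens_mean h₁ h₂ ht]; ring
    have hcd : ContinuousOn (fun t => D₁ t - D₂ t) (Ico 0 1) :=
      h₁.continuousOn.sub h₂.continuousOn
    have hnz : ∀ᶠ t in 𝓝[Ico 0 1] t₀, D₁ t - D₂ t ≠ 0 :=
      (hcd t₀ ht₀).eventually_ne (sub_ne_zero.2 hne)
    obtain ⟨δ, hδ, hball⟩ := Metric.mem_nhdsWithin_iff.1 hnz
    have hsub : Ioo t₀ (min (t₀ + δ) 1) ⊆ Function.support g ∩ Ico 0 1 := by
      intro t ht
      have ht1 : t < 1 := lt_of_lt_of_le ht.2 (min_le_right _ _)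
      have ht2 : t < t₀ + δ := lt_of_lt_of_le ht.2 (min_le_left _ _)
      have htm : t ∈ Ico (0 : ℝ) 1 := ⟨ht₀.1.trans ht.1.le, ht1⟩
      refine ⟨?_, htm⟩
      have : t ∈ {x | D₁ x - D₂ x ≠ 0} := hball ⟨by
        rw [Metric.mem_ball, Real.dist_eq, abs_of_pos (by linarith [ht.1])]
        linarith, htm⟩
      rw [Function.mem_support, hgt t htm]
      have a := h₁.pos t htm
      have b := h₂.pos t htm
      have c : D₁ t - D₂ t ≠ 0 := this
      positivity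
    refine lt_of_lt_of_le ?_ (measure_mono hsub)
    rw [Real.volume_Ioo, ENNReal.ofReal_pos, sub_pos, lt_min_iff]
    exact ⟨by linarith, ht₀.2⟩
  · refine (ae_restrict_iff' measurableSet_Ico).2 (Eventually.of_forall fun t ht => ?_)
    have := dens_mean_le (e := e) h₁ h₂ ht
    simp only [Pi.zero_apply]
    linarith
  · exact (int_half h₁ h₂ hE₁ hE₂).sub (hm.integrable_dens hEm)

end Crest.Agent.R146.LimProf_952
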