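import Crest.Agent.R146.HilbD_356
import Crest.Agent.R146.DualG2_256
import Crest.Agent.R146.P34_734

/-!
# R146, package P5, node D6 / LINK (helper356), part B

`W.Pv α (fq b k)` is the infimum of `Je R α (1/b) 1 (xi (-k)) x D` over `KB × Adm 1`, it is attained
at the `OverlapProfile` of a minimising `D`, and the terminal variable `XP` is the Hilbert gap.
The dictionary between `OverlapProfile` and `Adm 1` enters as the Prop `Dict`.
-/

set_option autoImplicit false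

noncomputable section

open MeasureTheory Set Filter Topology ProbabilityTheory
open scoped RealInnerProductSpace NNReal ENNReal

namespace Crest.Agent.R146.LinkB_356

open Crest.ProbabilityR.Perceptron Crest.Agent.R146.Hilb Crest.Agent.R146.ProfB_540
  Crest.Agent.R146.HilbE Crest.Agent.R146.HilbD

/-- dictionary between overlap profiles of finite entropy and admissible profiles with cap `1-t` -/
structure Dict : Prop where
  /-- from `Adm 1` to overlap profiles -/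
  ofAdm : ∀ D : ℝ → ℝ, Adm 1 D → ∃ m : OverlapProfile, ∀ t ∈ Icc (0 : ℝ) 1, m.tail t = D t
  /-- from overlap profiles to `Adm 1` -/
  toAdm : ∀ m : OverlapProfile, m.entropy ≠ ⊤ → Adm 1 m.tail
  /-- the entropy -/
  ent : ∀ m : OverlapProfile, Adm 1 m.tail →
    m.entropy ≠ ⊤ ∧ m.entropy.toReal = Ent 1 m.tail / 2

/-! ### congruence -/

lemma adm_congr {e : ℝ} {D E : ℝ → ℝ} (h : Adm e D) (heq : ∀ t ∈ Icc (0 : ℝ) 1, D t = E t) :
    Adm e E ∧ Ent e E = Ent e D := by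
  have hI : ∀ t ∈ Ico (0 : ℝ) 1, D t = E t := fun t ht => heq t ⟨ht.1, ht.2.le⟩
  have hf : ∀ t ∈ Icc (0 : ℝ) 1, entF e D t = entF e E t := fun t ht => by
    unfold entF; rw [heq t ht]
  refine ⟨⟨⟨?_, ?_, ?_, ?_, ?_⟩, ?_, ?_⟩, ?_⟩
  · exact h.prof.conc.congr heq
  · exact h.prof.anti.congr heq
  · exact h.prof.cont.congr fun t ht => (heq t ht).symm
  · intro t ht; rw [← hI t ht]; exact h.prof.pos t ht
  · rw [← heq 1 (by simp)]; exact h.prof.one
  · intro t ht; rw [← heq t ht]; exact h.cap t ht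
  · refine h.int.congr fun t ht => ?_
    rw [uIoc_of_le zero_le_one] at ht
    exact hf t ⟨ht.1.le, ht.2⟩
  · unfold Ent
    refine intervalIntegral.integral_congr fun t ht => ?_
    rw [uIcc_of_le zero_le_one] at ht
    exact (hf t ht).symm

section Abs

variable {H : Type*} [NormedAddCommGroup H] [InnerProductSpace ℝ H] [CompleteSpace H] (R : Res H)

lemma Je_congr {α c e : ℝ} (ξ x : H) {D E : ℝ → ℝ} (heq : ∀ t ∈ Icc (0 : ℝ) 1, D t = E t) :
    Je R α c e ξ x D = Je R α c e ξ x E := by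
  have h1 : Ent e D = Ent e E := by
    unfold Ent
    refine intervalIntegral.integral_congr fun t ht => ?_
    rw [uIcc_of_le zero_le_one] at ht
    simp only [entF, heq t ht]
  unfold Je
  rw [h1, R.Q_congr heq]

theorem IsMin.congr {α c e : ℝ} {ξ : H} {K : Set H} {x : H} {D E : ℝ → ℝ}
    (h : IsMin R α c e ξ K x D) (heq : ∀ t ∈ Icc (0 : ℝ) 1, D t = E t) :
    IsMin R α c e ξ K x E where
  mem := h.mem
  adm := (adm_congr h.adm heq).1
  le := fun y hy D' hD' => by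
    rw [← Je_congr R ξ x heq]; exact h.le y hy D' hD'

/-- scaling `(y, D') ↦ (b • y, D'/b)` -/
theorem Je_scale (α c : ℝ) {b : ℝ} (hb : 0 < b) (ξ y : H) {D : ℝ → ℝ} (hD : Adm (1 / b) D) :
    Je R α (c / b) 1 ξ (b • y) (fun t => (1 / b) * D t) = b * Je R α c (1 / b) ξ y D := by
  have h1 := (ProfC_540.Adm.smul hD (c := 1 / b) (by positivity)).2
  have e1 : (1 / b) / (1 / b) = 1 := by field_simp
  rw [e1] at h1
  unfold Je
  rw [h1, R.Q_smul hD.prof.cont, R.Q_smul_vec, real_inner_smul_left, norm_smul, mul_pow,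
    Real.norm_eq_abs, sq_abs]
  field_simp

/-- unscaling -/
theorem adm_unscale {b : ℝ} (hb : 0 < b) {D : ℝ → ℝ} (hD : Adm 1 D) :
    Adm (1 / b) (fun t => b * D t) := by
  exact (ProfC_540.Adm.smul hD hb).1

theorem adm_rescale {b : ℝ} (hb : 0 < b) {D : ℝ → ℝ} (hD : Adm (1 / b) D) :
    Adm 1 (fun t => (1 / b) * D t) := by
  have h1 := (ProfC_540.Adm.smul hD (c := 1 / b) (by positivity)).1
  have e1 : (1 / b) / (1 / b) = 1 := by field_simp
  rwa [e1] at h1

/-- a minimiser of the scaled problem gives a minimiser of the literal problem -/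
theorem IsMin.scale {α c : ℝ} {b : ℝ} (hb : 0 < b) {ξ : H} {K : Set H} (hK : IsCone K) {y : H}
    {D : ℝ → ℝ} (h : IsMin R α c (1 / b) ξ K y D) :
    IsMin R α (c / b) 1 ξ K (b • y) (fun t => (1 / b) * D t) where
  mem := hK.smul b hb.le y h.mem
  adm := adm_rescale hb h.adm
  le := fun z hz E hE => by
    rw [Je_scale R α c hb ξ y h.adm]
    have h1 := adm_unscale hb hE
    have h2 := h.le ((1 / b) • z) (hK.smul _ (by positivity) z hz) _ h1
    have h3 := Je_scale R α c hb ξ ((1 / b) • z) h1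
    have e1 : b • (1 / b) • z = z := by rw [smul_smul, mul_one_div_cancel hb.ne', one_smul]
    have e2 : (fun t => (1 / b) * (b * E t)) = E := by
      funext t; rw [← mul_assoc, one_div_mul_cancel hb.ne', one_mul]
    rw [e1, e2] at h3
    rw [h3]
    exact mul_le_mul_of_nonneg_left h2 hb.le

/-- the gap is invariant under the scaling -/
theorem Dop_scale {b : ℝ} (hb : 0 < b) (y : H) {D : ℝ → ℝ} (hD : ContinuousOn D (Icc 0 1)) :
    R.Dop (fun t => (1 / b) * D t) (b • y) = R.Dop D y := by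
  rw [R.Dop_smul hD, smul_apply, map_smul, smul_smul, one_div_mul_cancel hb.ne', one_smul]

/-- two minimisers in `x` at the same `D` agree (`c > 0`) -/
theorem x_unique {K : Set H} (hK : IsCone K) {D : ℝ → ℝ} (hD : Prof D) {c : ℝ} (hc : 0 < c)
    {ξ x y : H} (hx : x ∈ K) (hy : y ∈ K) (hmin : ∀ z ∈ K, Fx R c ξ D x ≤ Fx R c ξ D z)
    (hle : Fx R c ξ D y ≤ Fx R c ξ D x) : y = x := by
  obtain ⟨h1, h2⟩ := kkt_x R hK hD.cont c ξ x hx hmin
  have h3 := growth_x R hD.cont c ξ x h1 h2 hy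
  have h4 := R.Q_nonneg hD.cont (fun t ht => hD.nonneg ht) (y - x)
  have h5 : c / 2 * ‖y - x‖ ^ 2 ≤ 0 := by linarith
  have h6 : ‖y - x‖ ^ 2 ≤ 0 := by
    by_contra h
    push Not at h
    have : 0 < c / 2 * ‖y - x‖ ^ 2 := by positivity
    linarith
  have h7 : ‖y - x‖ = 0 := by
    have := sq_nonneg ‖y - x‖
    exact pow_eq_zero_iff two_ne_zero |>.1 (le_antisymm h6 this)
  exact sub_eq_zero.1 (norm_eq_zero.1 h7)

end Abs

section Lit

open Crest.Agent.R146.P34_734 Crest.Agent.R146.DualG_256 Crest.Agent.R146.DualL_256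
  Crest.Agent.R146.DualV_256

theorem KB_cone {Ω : Type*} [MeasurableSpace Ω] {P : Measure Ω} [IsProbabilityMeasure P]
    {B : ℝ≥0 → Ω → ℝ} {hBm : ∀ t, Measurable (B t)} : IsCone (KB P B hBm) where
  zero := KB_zero hBm
  add := KB_add hBm
  smul := KB_smul hBm

variable (W : BS)

/-- the frame of `W` -/
abbrev RW : Res (HH W.P W.B W.meas) := RB W.P W.B W.meas

/-- the cone of `W` -/
abbrev KW : Set (HH W.P W.B W.meas) := KB W.P W.B W.meas

/-- the data vector `-k + B_1` of `W` -/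
abbrev xiW (k : ℝ) : HH W.P W.B W.meas := xi W.meas W.br (-k)

/-- the optimal dual variable of `W` at a profile -/
abbrev lamW (m : OverlapProfile) {b : ℝ} (hb : 0 < b) (k : ℝ) : HH W.P W.B W.meas :=
  lamH W.meas W.br m hb k

theorem V_le (m : OverlapProfile) {b : ℝ} (hb : 0 < b) (k : ℝ) {x : HH W.P W.B W.meas}
    (hx : x ∈ KW W) : W.V (fq b k) m ≤ Fx (RW W) (1 / b) (xiW W k) m.tail x := by
  have h := value_le_H W.meas W.br m hb k hx
  have e : 1 / (2 * b) = 1 / b / 2 := by rw [div_div, mul_comm]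
  rw [e] at h
  exact h

theorem V_eq (m : OverlapProfile) {b : ℝ} (hb : 0 < b) (k : ℝ) :
    W.V (fq b k) m = Fx (RW W) (1 / b) (xiW W k) m.tail (lamW W m hb k) := by
  have h := value_eq_H W.meas W.br m hb k
  have e : 1 / (2 * b) = 1 / b / 2 := by rw [div_div, mul_comm]
  rw [e] at h
  exact h

theorem V_lower (m : OverlapProfile) {b : ℝ} (hb : 0 < b) (k : ℝ) :
    -(b / 2 * ‖xiW W k‖ ^ 2) ≤ W.V (fq b k) m := by
  rw [V_eq W m hb k]
  unfold Fx
  have hQ := (RW W).Q_nonneg (tail_cont m) (fun t ht => tail_nonneg m ht) (lamW W m hb k)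
  have h1 := neg_le_of_abs_le (abs_real_inner_le_norm (lamW W m hb k) (xiW W k))
  set a := ‖lamW W m hb k‖
  set c := ‖xiW W k‖
  have h2 : 0 ≤ (a / b - c) ^ 2 * (b / 2) := by positivity
  have h3 : (a / b - c) ^ 2 * (b / 2) = 1 / b / 2 * a ^ 2 - a * c + b / 2 * c ^ 2 := by
    field_simp; ring
  linarith

theorem vals_bdd {α b : ℝ} (hα : 0 ≤ α) (hb : 0 < b) (k : ℝ) : BddBelow (W.vals α (fq b k)) := by
  refine ⟨-(α * (b / 2 * ‖xiW W k‖ ^ 2)), ?_⟩
  rintro x ⟨m, _, rfl⟩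
  have h1 := mul_le_mul_of_nonneg_left (V_lower W m hb k) hα
  have h2 : 0 ≤ m.entropy.toReal := ENNReal.toReal_nonneg
  linarith

theorem Pv_le (hd : Dict) {α b : ℝ} (hα : 0 ≤ α) (hb : 0 < b) (k : ℝ) {x : HH W.P W.B W.meas}
    (hx : x ∈ KW W) {D : ℝ → ℝ} (hD : Adm 1 D) :
    W.Pv α (fq b k) ≤ Je (RW W) α (1 / b) 1 (xiW W k) x D := by
  obtain ⟨m, hm⟩ := hd.ofAdm D hD
  have hDm : ∀ t ∈ Icc (0 : ℝ) 1, D t = m.tail t := fun t ht => (hm t ht).symm
  have h1 := (adm_congr hD hDm).1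
  obtain ⟨h2, h3⟩ := hd.ent m h1
  have h4 : W.Pv α (fq b k) ≤ α * W.V (fq b k) m + m.entropy.toReal :=
    csInf_le (vals_bdd W hα hb k) ⟨m, h2, rfl⟩
  have h5 := mul_le_mul_of_nonneg_left (V_le W m hb k hx) hα
  rw [Je_congr (RW W) (xiW W k) x hDm, Je_eq_Fx]
  rw [h3] at h4
  linarith

theorem le_Pv (hd : Dict) {α b : ℝ} (hb : 0 < b) (k : ℝ) {C : ℝ}
    (hC : ∀ x ∈ KW W, ∀ D, Adm 1 D → C ≤ Je (RW W) α (1 / b) 1 (xiW W k) x D) :
    C ≤ W.Pv α (fq b k) := by
  refine le_csInf ?_ ?_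
  · obtain ⟨h1, _⟩ := ProfC_540.Adm.lin (e := 1) one_pos
    obtain ⟨m, hm⟩ := hd.ofAdm _ h1
    have h2 := (adm_congr h1 fun t ht => (hm t ht).symm).1
    exact ⟨_, m, (hd.ent m h2).1, rfl⟩
  · rintro x ⟨m, hm, rfl⟩
    have h1 := hd.toAdm m hm
    have h2 := (hd.ent m h1).2
    have h3 := hC _ (lamH_mem W.meas W.br m hb k) _ h1
    rw [Je_eq_Fx, ← V_eq W m hb k] at h3
    rw [h2]
    linarith

/-- **LINK** (literal normalisation): from a minimiser `(x, D)` of the joint functional to a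
minimising overlap profile. -/
theorem link (hd : Dict) {α b : ℝ} (hα : 0 < α) (hb : 0 < b) (k : ℝ) {x : HH W.P W.B W.meas}
    {D : ℝ → ℝ} (h : IsMin (RW W) α (1 / b) 1 (xiW W k) (KW W) x D) :
    W.Pv α (fq b k) = Je (RW W) α (1 / b) 1 (xiW W k) x D ∧
    ∃ m : OverlapProfile, m.entropy ≠ ⊤ ∧ (∀ t ∈ Icc (0 : ℝ) 1, m.tail t = D t) ∧
      W.Pv α (fq b k) = α * W.V (fq b k) m + m.entropy.toReal ∧
      m.entropy.toReal = Ent 1 D / 2 ∧ lamW W m hb k = x ∧
      (modelB W.P W.B W.meas).J (xiW W k + (RW W).Dop D x) =ᵐ[W.P]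
        fun ω => XP W.meas W.br m hb k ω - k := by
  have hPv : W.Pv α (fq b k) = Je (RW W) α (1 / b) 1 (xiW W k) x D :=
    le_antisymm (Pv_le W hd hα.le hb k h.mem h.adm) (le_Pv W hd hb k h.le)
  refine ⟨hPv, ?_⟩
  obtain ⟨m, hm⟩ := hd.ofAdm D h.adm
  have hDm : ∀ t ∈ Icc (0 : ℝ) 1, D t = m.tail t := fun t ht => (hm t ht).symm
  have h' := IsMin.congr (RW W) h hDm
  obtain ⟨h2, h3⟩ := hd.ent m h'.adm
  have hE : Ent 1 m.tail = Ent 1 D := (adm_congr h.adm hDm).2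
  have hmin : ∀ z ∈ KW W, Fx (RW W) (1 / b) (xiW W k) m.tail x ≤
      Fx (RW W) (1 / b) (xiW W k) m.tail z := fun z hz => by
    have h4 := h'.le z hz _ h'.adm
    rw [Je_eq_Fx, Je_eq_Fx] at h4
    have h5 : α * Fx (RW W) (1 / b) (xiW W k) m.tail x ≤
      α * Fx (RW W) (1 / b) (xiW W k) m.tail z := by linarith
    exact le_of_mul_le_mul_left h5 hα
  have hle : Fx (RW W) (1 / b) (xiW W k) m.tail (lamW W m hb k) ≤
      Fx (RW W) (1 / b) (xiW W k) m.tail x := by
    rw [← V_eq]; exact V_le W m hb k h.mem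
  have hlam : lamW W m hb k = x :=
    x_unique (RW W) KB_cone h'.adm.prof (by positivity) h.mem (lamH_mem W.meas W.br m hb k) hmin hle
  refine ⟨m, h2, hm, ?_, ?_, hlam, ?_⟩
  · rw [hPv, Je_congr (RW W) (xiW W k) x hDm, Je_eq_Fx, h3, V_eq W m hb k, hlam]
    ring
  · rw [h3, hE]
  · have h6 := XP_eq W.meas W.br m hb k
    have h7 : (RW W).Dop m.tail (lamH W.meas W.br m hb k) = (RW W).Dop D x := by
      rw [(RW W).Dop_congr hm]
      exact congrArg _ hlam
    rw [← h7]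
    exact h6

/-- **LINK** (scaled normalisation, `e = 1/b`, `c = 1`). -/
theorem link_scaled (hd : Dict) {α b : ℝ} (hα : 0 < α) (hb : 0 < b) (k : ℝ)
    {y : HH W.P W.B W.meas} {D : ℝ → ℝ}
    (h : IsMin (RW W) α 1 (1 / b) (xiW W k) (KW W) y D) :
    W.Pv α (fq b k) = b * Je (RW W) α 1 (1 / b) (xiW W k) y D ∧
    ∃ m : OverlapProfile, m.entropy ≠ ⊤ ∧ (∀ t ∈ Icc (0 : ℝ) 1, m.tail t = (1 / b) * D t) ∧
      W.Pv α (fq b k) = α * W.V (fq b k) m + m.entropy.toReal ∧ lamW W m hb k = b • y ∧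
      (modelB W.P W.B W.meas).J (xiW W k + (RW W).Dop D y) =ᵐ[W.P]
        fun ω => XP W.meas W.br m hb k ω - k := by
  have h1 := IsMin.scale (RW W) hb KB_cone h
  obtain ⟨h2, m, h3, h4, h5, -, h6, h7⟩ := link W hd hα hb k h1
  rw [Je_scale (RW W) α 1 hb _ _ h.adm] at h2
  rw [Dop_scale (RW W) hb y h.adm.prof.cont] at h7
  exact ⟨h2, m, h3, h4, h5, h6, h7⟩

/-- conversely: a minimising overlap profile gives a minimiser of the joint functional -/
theorem isMin_of_profile (hd : Dict) {α b : ℝ} (hα : 0 ≤ α) (hb : 0 < b) (k : ℝ)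
    {m : OverlapProfile} (hm : m.entropy ≠ ⊤)
    (h : W.Pv α (fq b k) = α * W.V (fq b k) m + m.entropy.toReal) :
    IsMin (RW W) α (1 / b) 1 (xiW W k) (KW W) (lamW W m hb k) m.tail where
  mem := lamH_mem W.meas W.br m hb k
  adm := hd.toAdm m hm
  le := fun y hy D' hD' => by
    have h1 := Pv_le W hd hα hb k hy hD'
    have h2 := (hd.ent m (hd.toAdm m hm)).2
    rw [Je_eq_Fx, ← V_eq W m hb k]
    rw [h, h2] at h1
    linarith

end Lit

end Crest.Agent.R146.LinkB_356
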