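import Crest.Agent.R146.LimMin_952
import Crest.Agent.R146.HilbE1_12
import Crest.Agent.R146.ProfC_540

/-!
Package P5 (row 146), node C of the split 624, in the official frame
(`Hilb.Res` of helper356, `ProfB_540.Adm`, `HilbE.Je` of helper12):
reduced functional, optimal profiles, minimising pairs, stability.
-/

set_option autoImplicit false

namespace Crest.Agent.R146.MinC_952

open Filter Topology Set MeasureTheory
open scoped RealInnerProductSpace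
open Crest.Agent.R146.Hilb Crest.Agent.R146.ProfB_540
open Crest.Agent.R146.LimFrame_952 (Frame IsAnti pt)
open Crest.Agent.R146.LimProf_952 (PD)

variable {H : Type*} [NormedAddCommGroup H] [InnerProductSpace ℝ H]

/-- the frame of a resolution -/
def fr (R : Res H) : Frame H where
  E := R.P
  symm := R.symm
  comp_le := R.mul
  tendsto_one := R.left

lemma isAnti_of {D : ℝ → ℝ} (ha : AntitoneOn D (Icc 0 1)) (h1 : 0 ≤ D 1) : IsAnti D where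
  anti := ha.mono Ico_subset_Icc_self
  nonneg := fun t ht => h1.trans (ha ⟨ht.1, ht.2.le⟩ (by simp) ht.2.le)

lemma pt_eq_dy (n i : ℕ) : pt n i = Res.dy n i := rfl

/-- the two quadratic forms agree -/
lemma Q_eq [CompleteSpace H] (R : Res H) {D : ℝ → ℝ} (hc : ContinuousOn D (Icc 0 1))
    (ha : AntitoneOn D (Icc 0 1)) (h1 : 0 ≤ D 1) (x : H) :
    R.Q D x = LimFrame_952.Q (fr R) D x := by
  have hA := isAnti_of ha h1
  refine tendsto_nhds_unique ?_ (LimFrame_952.tendsto_Q (fr R) hA x)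
  have hlast : Tendsto (fun n : ℕ => D 1 * ‖x - R.P (pt n (2 ^ n - 1)) x‖ ^ 2) atTop (𝓝 0) := by
    have h2 := (R.left x).comp LimFrame_952.tendsto_pt_last
    have h3 : Tendsto (fun n : ℕ => x - R.P (pt n (2 ^ n - 1)) x) atTop (𝓝 (x - x)) :=
      tendsto_const_nhds.sub h2
    have h4 := (h3.norm.pow 2).const_mul (D 1)
    simpa using h4
  have hQ := R.Q_tendsto hc x
  have := hQ.sub hlast
  rw [sub_zero] at this
  refine this.congr fun n => ?_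
  unfold LimFrame_952.Qs
  have hN : 2 ^ n = (2 ^ n - 1) + 1 := by
    have : 1 ≤ 2 ^ n := Nat.one_le_two_pow
    omega
  have e1 : ∑ i ∈ Finset.range (2 ^ n), D (Res.dy n (i + 1)) *
      ‖R.inc (Res.dy n i) (Res.dy n (i + 1)) x‖ ^ 2 =
      ∑ i ∈ Finset.range (2 ^ n - 1), D (Res.dy n (i + 1)) *
      ‖R.inc (Res.dy n i) (Res.dy n (i + 1)) x‖ ^ 2 +
      D 1 * ‖x - R.P (pt n (2 ^ n - 1)) x‖ ^ 2 := by
    conv_lhs => rw [hN]
    rw [Finset.sum_range_succ]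
    congr 1
    have : Res.dy n (2 ^ n - 1 + 1) = 1 := by rw [← hN]; exact Res.dy_end n
    rw [this, Res.inc_apply, R.one]
    rfl
  rw [e1]
  have e2 : (fr R).E = R.P := rfl
  rw [e2]
  simp only [pt_eq_dy, Res.inc_apply]
  ring

lemma Q_eq_adm [CompleteSpace H] (R : Res H) {e : ℝ} {D : ℝ → ℝ} (h : Adm e D) (x : H) :
    R.Q D x = LimFrame_952.Q (fr R) D x := Q_eq R h.prof.cont h.prof.anti h.prof.one x

/-! ### profiles -/

lemma pd_of_adm {e : ℝ} {D : ℝ → ℝ} (h : Adm e D) : PD e D where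
  conc := h.prof.conc.subset Ico_subset_Icc_self (convex_Ico 0 1)
  anti := h.prof.anti.mono Ico_subset_Icc_self
  pos := h.prof.pos
  cap := fun t ht => h.cap t ⟨ht.1, ht.2.le⟩

lemma entF_eq (e : ℝ) (D : ℝ → ℝ) : entF e D = LimProf_952.dens e D := rfl

lemma integrableOn_of_adm {e : ℝ} {D : ℝ → ℝ} (h : Adm e D) :
    IntegrableOn (LimProf_952.dens e D) (Ico 0 1) := by
  have := (intervalIntegrable_iff_integrableOn_Ico_of_le zero_le_one).1 h.int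
  rwa [entF_eq] at this

lemma ent_ne_top {e : ℝ} {D : ℝ → ℝ} (h : Adm e D) : LimProf_952.Ent e D ≠ ⊤ :=
  (pd_of_adm h).Ent_ne_top_of_integrable (integrableOn_of_adm h)

lemma ad_of_adm {e : ℝ} {D : ℝ → ℝ} (h : Adm e D) : LimMin_952.Ad e D :=
  ⟨pd_of_adm h, ent_ne_top h⟩

lemma ent_eq {e : ℝ} {D : ℝ → ℝ} (h : Adm e D) :
    (LimProf_952.Ent e D).toReal = Ent e D := by
  rw [(pd_of_adm h).Ent_eq (ent_ne_top h)]
  unfold Ent
  rw [intervalIntegral.integral_of_le zero_le_one, ← integral_Ico_eq_integral_Ioc]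
  rfl

/-- extension of a profile on `[0,1)` by its limit at `1` -/
noncomputable def ext1 (D : ℝ → ℝ) (t : ℝ) : ℝ := if t < 1 then D t else sInf (D '' Ico (0 : ℝ) 1)

lemma ext1_of_lt (D : ℝ → ℝ) {t : ℝ} (ht : t < 1) : ext1 D t = D t := if_pos ht

lemma ext1_of_mem (D : ℝ → ℝ) {t : ℝ} (ht : t ∈ Ico (0 : ℝ) 1) : ext1 D t = D t :=
  if_pos ht.2

lemma ext1_one (D : ℝ → ℝ) : ext1 D 1 = sInf (D '' Ico (0 : ℝ) 1) := if_neg (lt_irrefl _)

section ext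

variable {e : ℝ} {D : ℝ → ℝ} (h : PD e D)

include h

lemma bddBelow_image : BddBelow (D '' Ico (0 : ℝ) 1) :=
  ⟨0, by rintro _ ⟨t, ht, rfl⟩; exact (h.pos t ht).le⟩

lemma ext1_one_nonneg : 0 ≤ ext1 D 1 := by
  rw [ext1_one]
  refine le_csInf ⟨_, 0, ⟨le_rfl, one_pos⟩, rfl⟩ ?_
  rintro _ ⟨t, ht, rfl⟩
  exact (h.pos t ht).le

lemma ext1_one_le {t : ℝ} (ht : t ∈ Ico (0 : ℝ) 1) : ext1 D 1 ≤ D t := by
  rw [ext1_one]
  exact csInf_le (bddBelow_image h) ⟨t, ht, rfl⟩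

lemma ext1_tendsto : Tendsto (ext1 D) (𝓝[Icc 0 1] 1) (𝓝 (ext1 D 1)) := by
  rw [Metric.tendsto_nhds]
  intro ε hε
  obtain ⟨_, ⟨s, hs, rfl⟩, hlt⟩ := exists_lt_of_csInf_lt
    (s := D '' Ico (0 : ℝ) 1) ⟨_, 0, ⟨le_rfl, one_pos⟩, rfl⟩
    (show sInf (D '' Ico (0 : ℝ) 1) < ext1 D 1 + ε by rw [ext1_one]; linarith)
  have hmem : Ioi s ∈ 𝓝[Icc 0 1] (1 : ℝ) := mem_nhdsWithin_of_mem_nhds (Ioi_mem_nhds hs.2)
  filter_upwards [hmem, self_mem_nhdsWithin] with t ht ht'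
  have hst : s < t := ht
  rcases eq_or_lt_of_le ht'.2 with h1 | h1
  · rw [h1, dist_self]; exact hε
  · have htm : t ∈ Ico (0 : ℝ) 1 := ⟨ht'.1, h1⟩
    rw [ext1_of_mem D htm, Real.dist_eq, abs_of_nonneg (sub_nonneg.2 (ext1_one_le h htm))]
    have := h.anti hs htm hst.le
    linarith

lemma ext1_prof : Prof (ext1 D) where
  anti := by
    intro x hx y hy hxy
    rcases eq_or_lt_of_le hy.2 with h1 | h1
    · rcases eq_or_lt_of_le hx.2 with h2 | h2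
      · rw [h1, h2]
      · rw [h1, ext1_of_lt D h2]
        exact ext1_one_le h ⟨hx.1, h2⟩
    · have h2 := lt_of_le_of_lt hxy h1
      rw [ext1_of_lt D h1, ext1_of_lt D h2]
      exact h.anti ⟨hx.1, h2⟩ ⟨hy.1, h1⟩ hxy
  cont := by
    intro t ht
    rcases eq_or_lt_of_le ht.2 with h1 | h1
    · rw [h1]; exact ext1_tendsto h
    · have h2 := h.continuousOn t ⟨ht.1, h1⟩
      have h3 : ContinuousWithinAt D (Icc 0 1) t := by
        refine h2.mono_of_mem_nhdsWithin ?_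
        have : Iio (1 : ℝ) ∈ 𝓝[Icc 0 1] t := mem_nhdsWithin_of_mem_nhds (Iio_mem_nhds h1)
        filter_upwards [this, self_mem_nhdsWithin] with s hs hs'
        exact ⟨hs'.1, hs⟩
      refine h3.congr_of_eventuallyEq ?_ (ext1_of_lt D h1)
      have : Iio (1 : ℝ) ∈ 𝓝[Icc 0 1] t := mem_nhdsWithin_of_mem_nhds (Iio_mem_nhds h1)
      filter_upwards [this] with s hs
      exact ext1_of_lt D hs
  pos := fun t ht => by rw [ext1_of_mem D ht]; exact h.pos t ht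
  one := ext1_one_nonneg h
  conc := by
    -- continuity on `Icc` and concavity on `Ico`
    have hcont : ContinuousOn (ext1 D) (Icc 0 1) := by
      intro t ht
      rcases eq_or_lt_of_le ht.2 with h1 | h1
      · rw [h1]; exact ext1_tendsto h
      · have h2 := h.continuousOn t ⟨ht.1, h1⟩
        have h3 : ContinuousWithinAt D (Icc 0 1) t := by
          refine h2.mono_of_mem_nhdsWithin ?_
          have : Iio (1 : ℝ) ∈ 𝓝[Icc 0 1] t := mem_nhdsWithin_of_mem_nhds (Iio_mem_nhds h1)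
          filter_upwards [this, self_mem_nhdsWithin] with s hs hs'
          exact ⟨hs'.1, hs⟩
        refine h3.congr_of_eventuallyEq ?_ (ext1_of_lt D h1)
        have : Iio (1 : ℝ) ∈ 𝓝[Icc 0 1] t := mem_nhdsWithin_of_mem_nhds (Iio_mem_nhds h1)
        filter_upwards [this] with s hs
        exact ext1_of_lt D hs
    refine ⟨convex_Icc 0 1, ?_⟩
    intro x hx y hy a b ha hb hab
    have hz : a • x + b • y ∈ Icc (0 : ℝ) 1 := convex_Icc 0 1 hx hy ha hb hab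
    -- approximate by `r x, r y`, `r ↑ 1`
    have hr : ∀ r ∈ Ioo (0 : ℝ) 1, a • ext1 D (r * x) + b • ext1 D (r * y) ≤
        ext1 D (r * (a • x + b • y)) := by
      intro r hr
      have m : ∀ w ∈ Icc (0 : ℝ) 1, r * w ∈ Ico (0 : ℝ) 1 := fun w hw =>
        ⟨mul_nonneg hr.1.le hw.1, by nlinarith [hw.1, hw.2, hr.1, hr.2]⟩
      rw [ext1_of_mem D (m x hx), ext1_of_mem D (m y hy), ext1_of_mem D (m _ hz)]
      have := h.conc.2 (m x hx) (m y hy) ha hb hab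
      have e1 : r * (a • x + b • y) = a • (r * x) + b • (r * y) := by
        simp only [smul_eq_mul]; ring
      rw [e1]
      exact this
    have lim : ∀ w ∈ Icc (0 : ℝ) 1, Tendsto (fun r => ext1 D (r * w)) (𝓝[<] 1)
        (𝓝 (ext1 D w)) := by
      intro w hw
      refine (hcont w hw).tendsto.comp (tendsto_nhdsWithin_iff.2 ⟨?_, ?_⟩)
      · have : Continuous fun r : ℝ => r * w := by fun_prop
        have h2 := (this.tendsto 1).mono_left (nhdsWithin_le_nhds (s := Iio (1 : ℝ)))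
        simpa using h2
      · have hpos : Ioi (0 : ℝ) ∈ 𝓝[<] (1 : ℝ) :=
          mem_nhdsWithin_of_mem_nhds (Ioi_mem_nhds one_pos)
        filter_upwards [hpos, self_mem_nhdsWithin] with r h0 h1
        have h0' : (0 : ℝ) < r := h0
        have h1' : r < 1 := h1
        exact ⟨mul_nonneg h0'.le hw.1, by nlinarith [hw.1, hw.2]⟩
    refine le_of_tendsto_of_tendsto (((lim x hx).const_smul a).add ((lim y hy).const_smul b))
      (lim _ hz) ?_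
    have hpos : Ioi (0 : ℝ) ∈ 𝓝[<] (1 : ℝ) :=
      mem_nhdsWithin_of_mem_nhds (Ioi_mem_nhds one_pos)
    filter_upwards [hpos, self_mem_nhdsWithin] with r h0 h1
    exact hr r ⟨h0, h1⟩

lemma ext1_adm (hE : LimProf_952.Ent e D ≠ ⊤) (he : 0 ≤ e) : Adm e (ext1 D) where
  prof := ext1_prof h
  cap := by
    intro t ht
    rcases eq_or_lt_of_le ht.2 with h1 | h1
    · rw [h1]
      have h2 : ∀ᶠ s in 𝓝[<] (1 : ℝ), e * ext1 D 1 ≤ 1 - s := by
        have hpos : Ioi (0 : ℝ) ∈ 𝓝[<] (1 : ℝ) :=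
          mem_nhdsWithin_of_mem_nhds (Ioi_mem_nhds one_pos)
        filter_upwards [hpos, self_mem_nhdsWithin] with s h0 h1
        have hsm : s ∈ Ico (0 : ℝ) 1 := ⟨(show (0 : ℝ) < s from h0).le, h1⟩
        exact (mul_le_mul_of_nonneg_left (ext1_one_le h hsm) he).trans (h.cap s hsm)
      have h3 : Tendsto (fun s : ℝ => 1 - s) (𝓝[<] 1) (𝓝 (1 - 1)) := by
        have : Continuous fun s : ℝ => 1 - s := by fun_prop
        exact (this.tendsto 1).mono_left nhdsWithin_le_nhds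
      exact ge_of_tendsto h3 h2
    · rw [ext1_of_lt D h1]; exact h.cap t ⟨ht.1, h1⟩
  int := by
    rw [intervalIntegrable_iff_integrableOn_Ico_of_le zero_le_one]
    refine IntegrableOn.congr_fun (h.integrable_dens hE) (fun t ht => ?_) measurableSet_Ico
    unfold LimProf_952.dens entF
    rw [ext1_of_mem D ht]

end ext

/-! ### the reduced functional in the official frame -/

variable [CompleteSpace H]

/-- `Phi R e x = inf_D (1/2)(Q D x + Ent e D)` over admissible profiles -/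
noncomputable def Phi (R : Res H) (e : ℝ) (x : H) : ℝ :=
  sInf {r : ℝ | ∃ D, Adm e D ∧ r = (R.Q D x + Ent e D) / 2}

lemma G_eq (R : Res H) {e : ℝ} {D : ℝ → ℝ} (h : Adm e D) (x : H) :
    LimMin_952.G (fr R) e x D = (R.Q D x + Ent e D) / 2 := by
  unfold LimMin_952.G
  rw [ent_eq h, Q_eq_adm R h]

lemma G_ext (R : Res H) {e : ℝ} (he : 0 ≤ e) {D : ℝ → ℝ} (h : LimMin_952.Ad e D) (x : H) :
    LimMin_952.G (fr R) e x D = (R.Q (ext1 D) x + Ent e (ext1 D)) / 2 := by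
  rw [← G_eq R (ext1_adm h.1 h.2 he)]
  unfold LimMin_952.G
  rw [LimFrame_952.Q_congr (fr R) (fun t ht => (ext1_of_mem D ht).symm),
    LimProf_952.Ent_congr (fun t ht => (ext1_of_mem D ht).symm)]

lemma Phi_eq (R : Res H) {e : ℝ} (he : 0 ≤ e) (x : H) :
    Phi R e x = LimMin_952.Phi (fr R) e x := by
  unfold Phi LimMin_952.Phi
  congr 1
  ext r
  constructor
  · rintro ⟨D, hD, rfl⟩
    exact ⟨D, ad_of_adm hD, (G_eq R hD x).symm⟩
  · rintro ⟨D, hD, rfl⟩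
    exact ⟨ext1 D, ext1_adm hD.1 hD.2 he, G_ext R he hD x⟩

lemma Phi_le (R : Res H) {e : ℝ} (he : 0 ≤ e) {D : ℝ → ℝ} (h : Adm e D) (x : H) :
    Phi R e x ≤ (R.Q D x + Ent e D) / 2 := by
  rw [Phi_eq R he, ← G_eq R h]
  exact LimMin_952.Phi_le (fr R) x (ad_of_adm h)

lemma Phi_nonneg (R : Res H) {e : ℝ} (he : 0 ≤ e) (x : H) : 0 ≤ Phi R e x := by
  rw [Phi_eq R he]; exact LimMin_952.Phi_nonneg (fr R) he x

lemma Phi_le_norm (R : Res H) {e : ℝ} (he : 0 ≤ e) (x : H) : Phi R e x ≤ ‖x‖ := by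
  rw [Phi_eq R he]; exact LimMin_952.Phi_le_norm (fr R) he x

lemma Phi_mid (R : Res H) {e : ℝ} (he : 0 ≤ e) (x y : H) :
    Phi R e ((1 / 2 : ℝ) • (x + y)) ≤ (Phi R e x + Phi R e y) / 2 := by
  simp only [Phi_eq R he]; exact LimMin_952.Phi_mid (fr R) he x y

lemma abs_Phi_sub_le (R : Res H) {e : ℝ} (he : 0 ≤ e) (x y : H) :
    |Phi R e x - Phi R e y| ≤ ‖x - y‖ := by
  simp only [Phi_eq R he]; exact LimMin_952.abs_Phi_sub_le (fr R) he x y

lemma continuous_Phi (R : Res H) {e : ℝ} (he : 0 ≤ e) : Continuous (Phi R e) := by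
  have : Phi R e = LimMin_952.Phi (fr R) e := funext (Phi_eq R he)
  rw [this]; exact LimMin_952.continuous_Phi (fr R) he

/-- homogeneity of the reduced norm (`e = 0`) -/
lemma Phi_smul_le (R : Res H) {t : ℝ} (ht : 0 < t) (x : H) :
    Phi R 0 (t • x) ≤ t * Phi R 0 x := by
  rw [← div_le_iff₀' ht]
  refine le_csInf ⟨_, fun _ => 1, ?_, rfl⟩ ?_
  · exact (ProfC_540.Adm.const one_pos).1
  · rintro _ ⟨D, hD, rfl⟩
    have hs := ProfC_540.Adm.smul hD (c := 1 / t) (by positivity)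
    have h1 := Phi_le R le_rfl (D := fun s => 1 / t * D s) (by simpa using hs.1) (t • x)
    rw [R.Q_smul_vec, R.Q_smul hD.prof.cont] at h1
    have h2 : Ent 0 (fun s => 1 / t * D s) = t * Ent 0 D := by
      unfold Ent entF
      rw [← intervalIntegral.integral_const_mul]
      congr 1
      funext s
      simp only [zero_div, sub_zero]
      rw [one_div, one_div, mul_inv, one_div, inv_inv]
    rw [h2] at h1
    rw [div_le_iff₀' ht]
    refine h1.trans (le_of_eq ?_)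
    field_simp

lemma Phi_smul (R : Res H) {t : ℝ} (ht : 0 < t) (x : H) :
    Phi R 0 (t • x) = t * Phi R 0 x := by
  refine le_antisymm (Phi_smul_le R ht x) ?_
  have h := Phi_smul_le R (t := t⁻¹) (by positivity) (t • x)
  rw [smul_smul, inv_mul_cancel₀ ht.ne', one_smul] at h
  calc t * Phi R 0 x ≤ t * (t⁻¹ * Phi R 0 (t • x)) := mul_le_mul_of_nonneg_left h ht.le
    _ = Phi R 0 (t • x) := by rw [← mul_assoc, mul_inv_cancel₀ ht.ne', one_mul]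

lemma Phi_zero (R : Res H) {e : ℝ} (he : 0 ≤ e) : Phi R e 0 = 0 := by
  refine le_antisymm ?_ (Phi_nonneg R he 0)
  have := Phi_le_norm R he (0 : H)
  simpa using this

lemma Phi_add_le (R : Res H) (x y : H) : Phi R 0 (x + y) ≤ Phi R 0 x + Phi R 0 y := by
  have h1 := Phi_mid R le_rfl x y
  rw [Phi_smul R (by norm_num)] at h1
  linarith

/-- `1 / D 0 ≤ Ent 0 D` -/
lemma Ent_ge {D : ℝ → ℝ} (h : Adm 0 D) : 1 / D 0 ≤ Ent 0 D := by
  have h0 := h.prof.pos_zero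
  have : ∫ _ in (0 : ℝ)..1, 1 / D 0 ≤ ∫ t in (0 : ℝ)..1, entF 0 D t := by
    refine intervalIntegral.integral_mono_on_of_le_Ioo zero_le_one (by simp) h.int fun t ht => ?_
    unfold entF
    rw [zero_div, sub_zero]
    exact one_div_le_one_div_of_le (h.prof.pos t ⟨ht.1.le, ht.2⟩)
      (h.prof.le_zero ⟨ht.1.le, ht.2.le⟩)
  have e1 : ∫ _ in (0 : ℝ)..1, 1 / D 0 = 1 / D 0 := by simp
  rw [e1] at this
  exact this

/-- `‖P_0 x‖ ≤ Phi_0 x` -/
lemma norm_P0_le_Phi (R : Res H) (x : H) : ‖R.P 0 x‖ ≤ Phi R 0 x := by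
  refine le_csInf ⟨_, fun _ => 1, (ProfC_540.Adm.const one_pos).1, rfl⟩ ?_
  rintro _ ⟨D, hD, rfl⟩
  have h1 := R.Q_ge_norm_P hD.prof.cont hD.prof.anti hD.prof.one (t := 0) (by simp) x
  have h2 := Ent_ge hD
  have h0 := hD.prof.pos_zero
  have h3 : ‖R.P 0 x‖ ≤ (D 0 * ‖R.P 0 x‖ ^ 2 + 1 / D 0) / 2 := by
    have : 0 ≤ (D 0 * ‖R.P 0 x‖ - 1) ^ 2 / (2 * D 0) := by positivity
    have e1 : (D 0 * ‖R.P 0 x‖ - 1) ^ 2 / (2 * D 0) =
        (D 0 * ‖R.P 0 x‖ ^ 2 + 1 / D 0) / 2 - ‖R.P 0 x‖ := by field_simp; ring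
    linarith
  linarith

/-! ### optimal profiles at fixed `x` -/

/-- `D` is the optimal profile at `x` -/
def IsOpt (R : Res H) (e : ℝ) (x : H) (D : ℝ → ℝ) : Prop :=
  Adm e D ∧ (R.Q D x + Ent e D) / 2 = Phi R e x

theorem exists_opt (R : Res H) {e : ℝ} (he : 0 ≤ e) {x : H} (hne : e = 0 → x ≠ 0) :
    ∃ D, IsOpt R e x D := by
  obtain ⟨D, hD, hG⟩ := LimMin_952.exists_profile (fr R) he hne
  refine ⟨ext1 D, ext1_adm hD.1 hD.2 he, ?_⟩
  rw [← G_ext R he hD, hG, Phi_eq R he]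

lemma eq_on_Icc {e : ℝ} {D₁ D₂ : ℝ → ℝ} (h₁ : Adm e D₁) (h₂ : Adm e D₂)
    (h : ∀ t ∈ Ico (0 : ℝ) 1, D₁ t = D₂ t) : ∀ t ∈ Icc (0 : ℝ) 1, D₁ t = D₂ t := by
  intro t ht
  rcases eq_or_lt_of_le ht.2 with h1 | h1
  · rw [h1]
    have c1 := (h₁.prof.cont 1 (by simp)).mono (s := Ico (0 : ℝ) 1) Ico_subset_Icc_self
    have c2 := (h₂.prof.cont 1 (by simp)).mono (s := Ico (0 : ℝ) 1) Ico_subset_Icc_self
    haveI : (𝓝[Ico (0 : ℝ) 1] 1).NeBot := by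
      rw [← mem_closure_iff_nhdsWithin_neBot, closure_Ico zero_ne_one]
      simp
    refine tendsto_nhds_unique c1.tendsto (c2.tendsto.congr' ?_)
    filter_upwards [self_mem_nhdsWithin] with s hs
    exact (h s hs).symm
  · exact h t ⟨ht.1, h1⟩

theorem unique_opt (R : Res H) {e : ℝ} (he : 0 ≤ e) {x : H} {D₁ D₂ : ℝ → ℝ}
    (h₁ : IsOpt R e x D₁) (h₂ : IsOpt R e x D₂) : ∀ t ∈ Icc (0 : ℝ) 1, D₁ t = D₂ t := by
  refine eq_on_Icc h₁.1 h₂.1 (LimMin_952.unique_profile (fr R) (x := x) (ad_of_adm h₁.1)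
    (ad_of_adm h₂.1) ?_ ?_)
  · rw [G_eq R h₁.1, h₁.2, Phi_eq R he]
  · rw [G_eq R h₂.1, h₂.2, Phi_eq R he]

/-- near-optimal profiles at `x i → x₀` converge to the optimal profile at `x₀` -/
theorem tendsto_opt (R : Res H) {e : ℝ} (he : 0 ≤ e) {ι : Type*} {l : Filter ι} {x : ι → H}
    {x₀ : H} (hx : Tendsto x l (𝓝 x₀)) (hne : e = 0 → x₀ ≠ 0) {D : ι → ℝ → ℝ}
    (hD : ∀ᶠ i in l, Adm e (D i)) {g : ι → ℝ} (hg : Tendsto g l (𝓝 (Phi R e x₀)))
    (hG : ∀ᶠ i in l, (R.Q (D i) (x i) + Ent e (D i)) / 2 ≤ g i) {D₀ : ℝ → ℝ}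
    (h₀ : IsOpt R e x₀ D₀) : ∀ t ∈ Ico (0 : ℝ) 1, Tendsto (fun i => D i t) l (𝓝 (D₀ t)) := by
  rw [Phi_eq R he] at hg
  refine LimMin_952.tendsto_profile (fr R) he hx hne (hD.mono fun i hi => ad_of_adm hi) hg ?_
    (ad_of_adm h₀.1) ?_
  · filter_upwards [hD, hG] with i h1 h2
    rw [G_eq R h1]; exact h2
  · rw [G_eq R h₀.1, h₀.2, Phi_eq R he]

/-- the optimal profile depends continuously on `x` -/
theorem tendsto_opt' (R : Res H) {e : ℝ} (he : 0 ≤ e) {ι : Type*} {l : Filter ι} {x : ι → H}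
    {x₀ : H} (hx : Tendsto x l (𝓝 x₀)) (hne : e = 0 → x₀ ≠ 0) {D : ι → ℝ → ℝ}
    (hD : ∀ᶠ i in l, IsOpt R e (x i) (D i)) {D₀ : ℝ → ℝ} (h₀ : IsOpt R e x₀ D₀) :
    ∀ t ∈ Ico (0 : ℝ) 1, Tendsto (fun i => D i t) l (𝓝 (D₀ t)) :=
  tendsto_opt R he hx hne (hD.mono fun i hi => hi.1)
    (((continuous_Phi R he).tendsto x₀).comp hx) (hD.mono fun i hi => hi.2.le) h₀

/-! ### the joint problem -/

open Crest.Agent.R146.HilbE (Je)

lemma J_eq (R : Res H) {α c e : ℝ} (ξ x : H) {D : ℝ → ℝ} (h : Adm e D) :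
    LimMin_952.J (fr R) ξ α c e x D = Je R α c e ξ x D := by
  unfold LimMin_952.J Je
  rw [ent_eq h, Q_eq_adm R h]
  ring

/-- minimising pairs -/
def IsMinPair (R : Res H) (α c e : ℝ) (ξ : H) (K : Set H) (x₀ : H) (D₀ : ℝ → ℝ) : Prop :=
  x₀ ∈ K ∧ Adm e D₀ ∧ ∀ y ∈ K, ∀ D, Adm e D → Je R α c e ξ x₀ D₀ ≤ Je R α c e ξ y D

lemma J_ext (R : Res H) {α c e : ℝ} (he : 0 ≤ e) (ξ x : H) {D : ℝ → ℝ}
    (h : LimMin_952.Ad e D) :
    LimMin_952.J (fr R) ξ α c e x D = Je R α c e ξ x (ext1 D) := by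
  rw [← J_eq R ξ x (ext1_adm h.1 h.2 he)]
  unfold LimMin_952.J
  rw [LimFrame_952.Q_congr (fr R) (fun t ht => (ext1_of_mem D ht).symm),
    LimProf_952.Ent_congr (fun t ht => (ext1_of_mem D ht).symm)]

lemma IsMinPair.toFrame {R : Res H} {α c e : ℝ} (he : 0 ≤ e) {ξ : H} {K : Set H} {x₀ : H}
    {D₀ : ℝ → ℝ} (h : IsMinPair R α c e ξ K x₀ D₀) :
    LimMin_952.IsMinPair (fr R) ξ α c e K x₀ D₀ := by
  refine ⟨h.1, ad_of_adm h.2.1, fun y hy D hD => ?_⟩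
  rw [J_eq R ξ x₀ h.2.1, J_ext R he ξ y hD]
  exact h.2.2 y hy _ (ext1_adm hD.1 hD.2 he)

/-- reduced form of the functional: `Je x D = α⟪x,ξ⟫ + αc/2‖x‖² + (1/2)(Q D (√α x) + Ent)` -/
lemma Je_reduced (R : Res H) {α c e : ℝ} (hα : 0 ≤ α) (ξ x : H) {D : ℝ → ℝ} (_h : Adm e D) :
    Je R α c e ξ x D = α * ⟪x, ξ⟫ + α * c / 2 * ‖x‖ ^ 2 +
      (R.Q D (Real.sqrt α • x) + Ent e D) / 2 := by
  unfold Je
  rw [R.Q_smul_vec, Real.sq_sqrt hα]
  ring

/-- reduced functional of `x` -/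
noncomputable def Jr (R : Res H) (α c e : ℝ) (ξ x : H) : ℝ :=
  α * ⟪x, ξ⟫ + α * c / 2 * ‖x‖ ^ 2 + Phi R e (Real.sqrt α • x)

lemma Jr_eq (R : Res H) {α c e : ℝ} (he : 0 ≤ e) (ξ x : H) :
    Jr R α c e ξ x = LimMin_952.Jr (fr R) ξ α c e x := by
  unfold Jr LimMin_952.Jr
  rw [Phi_eq R he]

lemma Jr_le_Je (R : Res H) {α c e : ℝ} (hα : 0 ≤ α) (he : 0 ≤ e) (ξ x : H) {D : ℝ → ℝ}
    (h : Adm e D) : Jr R α c e ξ x ≤ Je R α c e ξ x D := by
  rw [Je_reduced R hα ξ x h]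
  unfold Jr
  have := Phi_le R he h (Real.sqrt α • x)
  linarith

lemma Je_opt (R : Res H) {α c e : ℝ} (hα : 0 ≤ α) (ξ x : H) {D : ℝ → ℝ}
    (h : IsOpt R e (Real.sqrt α • x) D) : Je R α c e ξ x D = Jr R α c e ξ x := by
  rw [Je_reduced R hα ξ x h.1, h.2]
  rfl

/-- existence of the minimiser in `x` of the reduced functional -/
theorem exists_x (R : Res H) {α c e : ℝ} (hα : 0 < α) (hc : 0 < c) (he : 0 ≤ e) (ξ : H)
    {K : Set H} (hK : Convex ℝ K) (hKc : IsClosed K) (hKn : K.Nonempty) :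
    ∃ x ∈ K, ∀ y ∈ K, Jr R α c e ξ x ≤ Jr R α c e ξ y := by
  obtain ⟨x, hx, hm⟩ := LimMin_952.exists_x (fr R) ξ hα hc he hK hKc hKn
  exact ⟨x, hx, fun y hy => by rw [Jr_eq R he, Jr_eq R he]; exact hm y hy⟩

/-- from a minimiser of the reduced functional to a minimising pair -/
theorem minPair_of_x (R : Res H) {α c e : ℝ} (hα : 0 < α) (he : 0 ≤ e) (ξ : H)
    {K : Set H} {x₀ : H} (hx₀ : x₀ ∈ K) (hmin : ∀ y ∈ K, Jr R α c e ξ x₀ ≤ Jr R α c e ξ y)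
    (hne : e = 0 → x₀ ≠ 0) : ∃ D₀, IsMinPair R α c e ξ K x₀ D₀ := by
  obtain ⟨D₀, h₀⟩ := exists_opt R he (x := Real.sqrt α • x₀) fun h =>
    smul_ne_zero (Real.sqrt_pos.2 hα).ne' (hne h)
  refine ⟨D₀, hx₀, h₀.1, fun y hy D hD => ?_⟩
  rw [Je_opt R hα.le ξ x₀ h₀]
  exact (hmin y hy).trans (Jr_le_Je R hα.le he ξ y hD)

/-- (C3) existence for `e > 0` -/
theorem exists_minPair_pos (R : Res H) {α c e : ℝ} (hα : 0 < α) (hc : 0 < c) (he : 0 < e)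
    (ξ : H) {K : Set H} (hK : Convex ℝ K) (hKc : IsClosed K) (hKn : K.Nonempty) :
    ∃ x₀ D₀, IsMinPair R α c e ξ K x₀ D₀ := by
  obtain ⟨x, hx, hm⟩ := exists_x R hα hc he.le ξ hK hKc hKn
  obtain ⟨D, hD⟩ := minPair_of_x R hα he.le ξ hx hm fun h => absurd h he.ne'
  exact ⟨x, D, hD⟩

/-- (C3) existence for `e = 0` when the infimum is negative -/
theorem exists_minPair_zero (R : Res H) {α c : ℝ} (hα : 0 < α) (hc : 0 < c) (ξ : H)
    {K : Set H} (hK : Convex ℝ K) (hKc : IsClosed K)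
    (hneg : ∃ y ∈ K, ∃ D, Adm 0 D ∧ Je R α c 0 ξ y D < 0) :
    ∃ x₀ D₀, x₀ ≠ 0 ∧ IsMinPair R α c 0 ξ K x₀ D₀ := by
  obtain ⟨y, hy, D, hD, hlt⟩ := hneg
  obtain ⟨x, hx, hm⟩ := exists_x R hα hc le_rfl ξ hK hKc ⟨y, hy⟩
  have hx0 : x ≠ 0 := by
    intro h0
    have h1 := (hm y hy).trans (Jr_le_Je R hα.le le_rfl ξ y hD)
    rw [h0] at h1
    have h2 : Jr R α c 0 ξ (0 : H) = 0 := by
      unfold Jr
      rw [smul_zero, Phi_zero R le_rfl]
      simp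
    rw [h2] at h1
    linarith
  obtain ⟨D₀, hD₀⟩ := minPair_of_x R hα le_rfl ξ hx hm fun _ => hx0
  exact ⟨x, D₀, hx0, hD₀⟩

/-- at a minimising pair: `x₀` minimises the reduced functional and `D₀` is optimal at `√α x₀` -/
theorem IsMinPair.reduced {R : Res H} {α c e : ℝ} (hα : 0 ≤ α) (he : 0 ≤ e) {ξ : H} {K : Set H}
    {x₀ : H} {D₀ : ℝ → ℝ} (h : IsMinPair R α c e ξ K x₀ D₀) :
    (∀ y ∈ K, Jr R α c e ξ x₀ ≤ Jr R α c e ξ y) ∧ Je R α c e ξ x₀ D₀ = Jr R α c e ξ x₀ ∧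
      IsOpt R e (Real.sqrt α • x₀) D₀ := by
  have r := (h.toFrame he).reduced hα he
  rw [J_eq R ξ x₀ h.2.1, ← Jr_eq R he] at r
  refine ⟨fun y hy => by rw [Jr_eq R he ξ y]; exact r.1 y hy, r.2, h.2.1, ?_⟩
  have h1 := r.2
  rw [Je_reduced R hα ξ x₀ h.2.1] at h1
  unfold Jr at h1
  linarith

/-- (C3) uniqueness -/
theorem unique_minPair (R : Res H) {α c e : ℝ} (hα : 0 < α) (hc : 0 < c) (he : 0 ≤ e) (ξ : H)
    {K : Set H} (hK : Convex ℝ K) {x₁ x₂ : H} {D₁ D₂ : ℝ → ℝ}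
    (h₁ : IsMinPair R α c e ξ K x₁ D₁) (h₂ : IsMinPair R α c e ξ K x₂ D₂) :
    x₁ = x₂ ∧ ∀ t ∈ Icc (0 : ℝ) 1, D₁ t = D₂ t := by
  have := LimMin_952.unique_minPair (fr R) ξ hα hc he hK (h₁.toFrame he) (h₂.toFrame he)
  exact ⟨this.1, eq_on_Icc h₁.2.1 h₂.2.1 this.2⟩

/-- (C3) stability: quadratic growth -/
theorem stab (R : Res H) {α c e : ℝ} (hα : 0 ≤ α) (he : 0 ≤ e) (ξ : H) {K : Set H}
    (hK : Convex ℝ K) {x₀ : H} {D₀ : ℝ → ℝ} (h₀ : IsMinPair R α c e ξ K x₀ D₀) {x : H}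
    (hx : x ∈ K) {D : ℝ → ℝ} (hD : Adm e D) :
    α * c / 4 * ‖x - x₀‖ ^ 2 ≤ Je R α c e ξ x D - Je R α c e ξ x₀ D₀ := by
  have := LimMin_952.stab_pair (fr R) ξ hα he hK (h₀.toFrame he) hx (ad_of_adm hD)
  rwa [J_eq R ξ x hD, J_eq R ξ x₀ h₀.2.1] at this

/-- (C3) near-minimising families converge to the minimising pair -/
theorem tendsto_minPair (R : Res H) {α c e : ℝ} (hα : 0 < α) (hc : 0 < c) (he : 0 ≤ e) (ξ : H)
    {K : Set H} (hK : Convex ℝ K) {x₀ : H} {D₀ : ℝ → ℝ} (h₀ : IsMinPair R α c e ξ K x₀ D₀)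
    (hne : e = 0 → x₀ ≠ 0) {ι : Type*} {l : Filter ι} {x : ι → H} {D : ι → ℝ → ℝ}
    (hx : ∀ᶠ i in l, x i ∈ K) (hD : ∀ᶠ i in l, Adm e (D i)) {g : ι → ℝ}
    (hg : Tendsto g l (𝓝 (Je R α c e ξ x₀ D₀)))
    (hJ : ∀ᶠ i in l, Je R α c e ξ (x i) (D i) ≤ g i) :
    Tendsto x l (𝓝 x₀) ∧ ∀ t ∈ Ico (0 : ℝ) 1, Tendsto (fun i => D i t) l (𝓝 (D₀ t)) := by
  rw [← J_eq R ξ x₀ h₀.2.1] at hg
  refine LimMin_952.tendsto_minPair (fr R) ξ hα hc he hK (h₀.toFrame he) hne hx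
    (hD.mono fun i hi => ad_of_adm hi) hg ?_
  filter_upwards [hD, hJ] with i h1 h2
  rw [J_eq R ξ (x i) h1]; exact h2

/-- the operators converge strongly along pointwise convergent admissible profiles -/
theorem Dop_tendsto_of (R : Res H) {e : ℝ} {ι : Type*} {l : Filter ι} {x : ι → H} {x₀ : H}
    (hx : Tendsto x l (𝓝 x₀)) {D : ι → ℝ → ℝ} (hD : ∀ᶠ i in l, Adm e (D i)) {D₀ : ℝ → ℝ}
    (h₀ : Prof D₀) (hlim : ∀ t ∈ Ico (0 : ℝ) 1, Tendsto (fun i => D i t) l (𝓝 (D₀ t))) :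
    Tendsto (fun i => R.Dop (D i) (x i)) l (𝓝 (R.Dop D₀ x₀)) := by
  have hA₀ := isAnti_of h₀.anti h₀.one
  have hTD : ∀ {D : ℝ → ℝ}, ContinuousOn D (Icc 0 1) → AntitoneOn D (Icc 0 1) → 0 ≤ D 1 →
      ∀ y, LimForm_952.T (fr R) D y = R.Dop D y := by
    intro D hc ha h1 y
    symm
    refine LimForm_952.T_unique (fr R) (isAnti_of ha h1) fun z => ?_
    unfold LimFrame_952.B
    rw [← Q_eq R hc ha h1, ← Q_eq R hc ha h1, R.Q_add_vec hc]
    have e1 : R.Q D (y - z) = R.Q D y - 2 * ⟪z, R.Dop D y⟫ + R.Q D z := by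
      rw [sub_eq_add_neg, ← neg_one_smul ℝ z, R.Q_add_vec hc, R.Q_smul_vec,
        real_inner_smul_left]
      ring
    rw [e1, real_inner_comm]
    ring
  have := LimForm_952.tendsto_T (fr R) hlim
    (hD.mono fun i hi => isAnti_of hi.prof.anti hi.prof.one) hA₀
    (h₀.cont.mono Ico_subset_Icc_self) hx
  rw [hTD h₀.cont h₀.anti h₀.one] at this
  refine this.congr' ?_
  filter_upwards [hD] with i hi
  exact hTD hi.prof.cont hi.prof.anti hi.prof.one _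

end Crest.Agent.R146.MinC_952
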