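import Crest.Agent.R146.LinkB_356
import Crest.Agent.R146.ProfF_540
import Crest.Agent.R146.MinC_952

/-!
# R146, package P5, LINK (helper356), part D: unconditional forms.
-/

set_option autoImplicit false

noncomputable section

open MeasureTheory Set Filter Topology ProbabilityTheory
open scoped RealInnerProductSpace NNReal ENNReal

namespace Crest.Agent.R146.LinkD_356

open Crest.ProbabilityR.Perceptron Crest.Agent.R146.Hilb Crest.Agent.R146.ProfB_540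
  Crest.Agent.R146.HilbE Crest.Agent.R146.HilbD Crest.Agent.R146.LinkB_356
  Crest.Agent.R146.P34_734 Crest.Agent.R146.DualG_256 Crest.Agent.R146.DualL_256

theorem dict : LinkB_356.Dict where
  ofAdm := fun D hD => by
    obtain ⟨m, hm, -⟩ := ProfF_540.exists_overlapProfile hD
    exact ⟨m, hm⟩
  toAdm := ProfF_540.adm_tail
  ent := fun m hm => by
    refine ⟨(ProfF_540.entropy_ne_top_iff m).2 hm, ?_⟩
    rw [ProfF_540.entropy_eq m hm, ENNReal.toReal_ofReal]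
    have := ProfC_540.Ent_nonneg hm
    positivity

theorem isMin_iff {H : Type*} [NormedAddCommGroup H] [InnerProductSpace ℝ H] [CompleteSpace H]
    (R : Res H) {α c e : ℝ} {ξ : H} {K : Set H} {x : H} {D : ℝ → ℝ} :
    IsMin R α c e ξ K x D ↔ MinC_952.IsMinPair R α c e ξ K x D :=
  ⟨fun h => ⟨h.mem, h.adm, h.le⟩, fun h => ⟨h.1, h.2.1, h.2.2⟩⟩

variable (W : BS)

theorem Pv_le {α b : ℝ} (hα : 0 ≤ α) (hb : 0 < b) (k : ℝ) {x : HH W.P W.B W.meas}
    (hx : x ∈ KW W) {D : ℝ → ℝ} (hD : Adm 1 D) :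
    W.Pv α (fq b k) ≤ Je (RW W) α (1 / b) 1 (xiW W k) x D := LinkB_356.Pv_le W dict hα hb k hx hD

theorem le_Pv {α b : ℝ} (hb : 0 < b) (k : ℝ) {C : ℝ}
    (hC : ∀ x ∈ KW W, ∀ D, Adm 1 D → C ≤ Je (RW W) α (1 / b) 1 (xiW W k) x D) :
    C ≤ W.Pv α (fq b k) := LinkB_356.le_Pv W dict hb k hC

theorem link {α b : ℝ} (hα : 0 < α) (hb : 0 < b) (k : ℝ) {x : HH W.P W.B W.meas}
    {D : ℝ → ℝ} (h : IsMin (RW W) α (1 / b) 1 (xiW W k) (KW W) x D) :
    W.Pv α (fq b k) = Je (RW W) α (1 / b) 1 (xiW W k) x D ∧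
    ∃ m : OverlapProfile, m.entropy ≠ ⊤ ∧ (∀ t ∈ Icc (0 : ℝ) 1, m.tail t = D t) ∧
      W.Pv α (fq b k) = α * W.V (fq b k) m + m.entropy.toReal ∧
      m.entropy.toReal = Ent 1 D / 2 ∧ lamW W m hb k = x ∧
      (modelB W.P W.B W.meas).J (xiW W k + (RW W).Dop D x) =ᵐ[W.P]
        fun ω => XP W.meas W.br m hb k ω - k := LinkB_356.link W dict hα hb k h

theorem link_scaled {α b : ℝ} (hα : 0 < α) (hb : 0 < b) (k : ℝ)
    {y : HH W.P W.B W.meas} {D : ℝ → ℝ}
    (h : IsMin (RW W) α 1 (1 / b) (xiW W k) (KW W) y D) :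
    W.Pv α (fq b k) = b * Je (RW W) α 1 (1 / b) (xiW W k) y D ∧
    ∃ m : OverlapProfile, m.entropy ≠ ⊤ ∧ (∀ t ∈ Icc (0 : ℝ) 1, m.tail t = (1 / b) * D t) ∧
      W.Pv α (fq b k) = α * W.V (fq b k) m + m.entropy.toReal ∧ lamW W m hb k = b • y ∧
      (modelB W.P W.B W.meas).J (xiW W k + (RW W).Dop D y) =ᵐ[W.P]
        fun ω => XP W.meas W.br m hb k ω - k := LinkB_356.link_scaled W dict hα hb k h

theorem isMin_of_profile {α b : ℝ} (hα : 0 ≤ α) (hb : 0 < b) (k : ℝ)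
    {m : OverlapProfile} (hm : m.entropy ≠ ⊤)
    (h : W.Pv α (fq b k) = α * W.V (fq b k) m + m.entropy.toReal) :
    IsMin (RW W) α (1 / b) 1 (xiW W k) (KW W) (lamW W m hb k) m.tail :=
  LinkB_356.isMin_of_profile W dict hα hb k hm h

/-- existence of a minimiser at every `b > 0`, scaled form, and of a minimising overlap profile. -/
theorem exists_min {α b : ℝ} (hα : 0 < α) (hb : 0 < b) (k : ℝ) :
    ∃ y D, IsMin (RW W) α 1 (1 / b) (xiW W k) (KW W) y D := by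
  have hK : Convex ℝ (KW W) := by
    intro x hx y hy s t hs ht _
    exact KB_add W.meas _ (KB_smul W.meas s hs x hx) _ (KB_smul W.meas t ht y hy)
  obtain ⟨y, D, h⟩ := MinC_952.exists_minPair_pos (RW W) hα one_pos
    (by positivity : (0 : ℝ) < 1 / b) (xiW W k) hK (KB_closed W.P W.B W.meas) ⟨0, KB_zero W.meas⟩
  exact ⟨y, D, (isMin_iff (RW W)).2 h⟩

end Crest.Agent.R146.LinkD_356
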