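import Crest.Agent.R146.ZLinkI_43
import Crest.Agent.R146.P5Def_12
import Crest.Agent.R146.Thr_422

/-!
Row 146, package P5, node LINKZ of `P5Def_12` (helper43): vanishing ground state energy, literal form
and Hilbert form, are equivalent; consequences for the two satisfiability hypotheses of S0205.
-/

set_option autoImplicit false

open MeasureTheory ProbabilityTheory Filter Set Crest.ProbabilityR.Perceptron
open scoped Topology RealInnerProductSpace

namespace Crest.Agent.R146.LinkZ_43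

open Crest.Agent.R146.P34_734 Crest.Agent.R146.Hilb Crest.Agent.R146.HilbE
  Crest.Agent.R146.ProfB_540 Crest.Agent.R146.P5A_12 Crest.Agent.R146.P5Def_12
  Crest.Agent.R146.ZLink_43

variable {W : BS}

/-- zero energy, literal form, and nonnegativity of the jamming functional -/
theorem zeroE_iff_jamNN {α : ℝ} (hα : 0 < α) :
    W.ZeroE α (-1) ↔ JamNN (RW W) (KW W) (xiW W) α := by
  constructor
  · intro hE x hx D hD
    exact jam_nonneg_of_zeroE (link W) dict (VTr_468.vzero W) hα.le hE hx hD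
  · intro h
    by_contra hE
    obtain ⟨x, hx, D, hD, hneg⟩ := exists_neg_of_not_zeroE (link W) dict hα hE
    have h1 := h x hx D hD
    have h2 := Je_c (RW W) α 1 0 (xiW W) x D
    have h3 : 0 ≤ α * 1 / 2 * ‖x‖ ^ 2 := by positivity
    have h4 : Je (RW W) α 1 0 (xiW W) x D < 0 := hneg
    linarith

/-- **(LINKZ)** -/
theorem linkz (W : BS) : LINKZ W := fun _ hα =>
  (zeroE_iff_jamNN hα).trans
    (zeroH_iff (RW W) (fun s hs x hx => DualG_256.KB_smul W.meas s hs.le x hx) hα.le).symm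

/-- below the threshold -/
theorem jamNN_of_low (hG : GUB W) (hcap : CAP) (hcon : CONCM) {αc : ℝ}
    (hlow : ∀ α : ℝ, 0 < α → α < αc → Tendsto (fun N : ℕ => satProb N α) atTop (𝓝 1)) :
    ∀ α : ℝ, 0 < α → α < αc → JamNN (RW W) (KW W) (xiW W) α :=
  fun α h0 h1 => (zeroE_iff_jamNN h0).1 (zeroE_of_low W hG hcap hcon hlow α h0 h1)

/-- at the threshold -/
theorem jamNN_threshold (hG : GUB W) (hcap : CAP) (hcon : CONCM) {αc : ℝ} (hαc : 0 < αc)
    (hlow : ∀ α : ℝ, 0 < α → α < αc → Tendsto (fun N : ℕ => satProb N α) atTop (𝓝 1)) :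
    JamNN (RW W) (KW W) (xiW W) αc :=
  JamNN.of_lt (RW W) hαc (jamNN_of_low hG hcap hcon hlow)

/-- above the threshold -/
theorem not_jamNN_of_high (hC : VCONC W) (hU : VUP W) (hG : GUB W) (hLB : LINDLB W)
    (hcap : CAP) (hcon : CONCM) (hM : MARKOV) {αc : ℝ} (hαc : 0 < αc)
    (hhigh : ∀ α : ℝ, αc < α → Tendsto (fun N : ℕ => satProb N α) atTop (𝓝 0)) :
    ∀ α : ℝ, αc < α → ¬ JamNN (RW W) (KW W) (xiW W) α :=
  fun α hα h => Thr_422.not_zeroE_above W hC (VTr_468.vzero W) hU hG hLB hcap hcon hM hαc hhigh α hα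
    ((zeroE_iff_jamNN (hαc.trans hα)).2 h)

end Crest.Agent.R146.LinkZ_43
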