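import Mathlib

/-!
Row 146, node LIP, part A (helper43; interface of helper861, post 714): deterministic
one-dimensional facts.

* `one_step_anti`, `one_step_mono`: sharp sub-Gaussian bound for a monotone Lipschitz function of
  one Gaussian variable (convexity of `exp` and association);
* `res m Ψ`: the solution `l` of `l = Ψ (x + m l)` for `Ψ` antitone, `1/Lip` is additive;
* `gavg v F`: Gaussian average;
* `Lam c N m v i`: the backward recursion of the atomic linear complementarity problem.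
-/

set_option autoImplicit false

open MeasureTheory ProbabilityTheory Real
open scoped NNReal

namespace Crest.Agent.R146.LipA_43

/-- nonnegative, nonincreasing, `L`-Lipschitz. -/
structure Anti (L : ℝ) (F : ℝ → ℝ) : Prop where
  anti : Antitone F
  nonneg : ∀ x, 0 ≤ F x
  lip : ∀ x y, |F x - F y| ≤ L * |x - y|

/-! ### Lipschitz functions: generalities -/

theorem L_nonneg {F : ℝ → ℝ} {L : ℝ} (hl : ∀ x y, |F x - F y| ≤ L * |x - y|) : 0 ≤ L := by
  have h := hl 1 0
  have h1 : |(1 : ℝ) - 0| = 1 := by norm_num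
  rw [h1, mul_one] at h
  exact (abs_nonneg _).trans h

theorem lip_continuous {F : ℝ → ℝ} {L : ℝ} (hl : ∀ x y, |F x - F y| ≤ L * |x - y|) :
    Continuous F := by
  have h : LipschitzWith (Real.toNNReal L) F := by
    refine LipschitzWith.of_dist_le_mul fun x y => ?_
    rw [Real.dist_eq, Real.dist_eq, Real.coe_toNNReal _ (L_nonneg hl)]
    exact hl x y
  exact h.continuous

theorem Anti.continuous {F : ℝ → ℝ} {L : ℝ} (h : Anti L F) : Continuous F := lip_continuous h.lip

theorem Anti.measurable {F : ℝ → ℝ} {L : ℝ} (h : Anti L F) : Measurable F :=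
  h.continuous.measurable

theorem Anti.L_nonneg {F : ℝ → ℝ} {L : ℝ} (h : Anti L F) : 0 ≤ L :=
  Crest.Agent.R146.LipA_43.L_nonneg h.lip

theorem Anti.mono_const {F : ℝ → ℝ} {L L' : ℝ} (h : Anti L F) (hL : L ≤ L') : Anti L' F :=
  ⟨h.anti, h.nonneg, fun x y => (h.lip x y).trans
    (mul_le_mul_of_nonneg_right hL (abs_nonneg _))⟩

/-- `exp (θ |z|)` is integrable. -/
theorem integrable_exp_abs (v : ℝ≥0) (θ : ℝ) :
    Integrable (fun z : ℝ => exp (θ * |z|)) (gaussianReal 0 v) := by
  have h1 : Integrable (fun z : ℝ => exp (θ * z)) (gaussianReal 0 v) :=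
    integrable_exp_mul_gaussianReal θ
  have h2 : Integrable (fun z : ℝ => exp (-θ * z)) (gaussianReal 0 v) :=
    integrable_exp_mul_gaussianReal (-θ)
  refine (h1.add h2).mono' (by fun_prop) (Filter.Eventually.of_forall fun z => ?_)
  rw [Real.norm_eq_abs, abs_of_pos (exp_pos _)]
  simp only [Pi.add_apply]
  rcases abs_cases z with ⟨h, _⟩ | ⟨h, _⟩
  · rw [h]; have := (exp_pos (-θ * z)).le; linarith
  · rw [h, show θ * -z = -θ * z by ring]; have := (exp_pos (θ * z)).le; linarith

theorem integrable_abs (v : ℝ≥0) : Integrable (fun z : ℝ => |z|) (gaussianReal 0 v) := by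
  refine (integrable_exp_abs v 1).mono' (by fun_prop) (Filter.Eventually.of_forall fun z => ?_)
  rw [Real.norm_eq_abs, abs_abs, one_mul]
  have := add_one_le_exp (|z|)
  linarith

theorem integrable_id_gauss (v : ℝ≥0) : Integrable (fun z : ℝ => z) (gaussianReal 0 v) := by
  refine (integrable_abs v).mono' (by fun_prop) (Filter.Eventually.of_forall fun z => ?_)
  rw [Real.norm_eq_abs]

theorem integral_id_gauss (v : ℝ≥0) : ∫ z, z ∂gaussianReal 0 v = 0 := by
  simp

theorem integrable_lip {F : ℝ → ℝ} {L : ℝ} (hl : ∀ x y, |F x - F y| ≤ L * |x - y|) (v : ℝ≥0)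
    (y : ℝ) : Integrable (fun z => F (y + z)) (gaussianReal 0 v) := by
  have hc : Continuous F := lip_continuous hl
  have hb : Integrable (fun z : ℝ => |F y| + L * |z|) (gaussianReal 0 v) :=
    (integrable_const _).add ((integrable_abs v).const_mul L)
  refine hb.mono' (by fun_prop) (Filter.Eventually.of_forall fun z => ?_)
  rw [Real.norm_eq_abs]
  have h1 := hl (y + z) y
  rw [add_sub_cancel_left] at h1
  have h2 : |F (y + z)| ≤ |F (y + z) - F y| + |F y| := by
    have := abs_add_le (F (y + z) - F y) (F y)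
    simpa using this
  linarith

theorem integrable_lip0 {F : ℝ → ℝ} {L : ℝ} (hl : ∀ x y, |F x - F y| ≤ L * |x - y|) (v : ℝ≥0) :
    Integrable F (gaussianReal 0 v) := by
  simpa using integrable_lip hl v 0

/-- growth bound of the centred function -/
theorem centred_bound {F : ℝ → ℝ} {L : ℝ} (hl : ∀ x y, |F x - F y| ≤ L * |x - y|) (v : ℝ≥0) :
    ∃ C : ℝ, 0 ≤ C ∧ ∀ z, |F z - ∫ y, F y ∂gaussianReal 0 v| ≤ C + L * |z| := by
  refine ⟨|F 0 - ∫ y, F y ∂gaussianReal 0 v|, abs_nonneg _, fun z => ?_⟩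
  have h1 := hl z 0
  rw [sub_zero] at h1
  have h2 := abs_add_le (F z - F 0) (F 0 - ∫ y, F y ∂gaussianReal 0 v)
  rw [show F z - F 0 + (F 0 - ∫ y, F y ∂gaussianReal 0 v) =
    F z - ∫ y, F y ∂gaussianReal 0 v by ring] at h2
  linarith

theorem integrable_exp_centred {F : ℝ → ℝ} {L : ℝ} (hl : ∀ x y, |F x - F y| ≤ L * |x - y|)
    (v : ℝ≥0) (θ : ℝ) :
    Integrable (fun z => exp (θ * (F z - ∫ y, F y ∂gaussianReal 0 v))) (gaussianReal 0 v) := by
  obtain ⟨C, hC0, hC⟩ := centred_bound hl v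
  have hc : Continuous F := lip_continuous hl
  have hb : Integrable (fun z : ℝ => exp (|θ| * C) * exp (|θ| * L * |z|)) (gaussianReal 0 v) :=
    (integrable_exp_abs v _).const_mul _
  refine hb.mono' (by fun_prop) (Filter.Eventually.of_forall fun z => ?_)
  rw [Real.norm_eq_abs, abs_of_pos (exp_pos _), ← exp_add]
  apply exp_le_exp.2
  have h1 : θ * (F z - ∫ y, F y ∂gaussianReal 0 v) ≤
      |θ| * |F z - ∫ y, F y ∂gaussianReal 0 v| := by
    rw [← abs_mul]; exact le_abs_self _
  have h2 := mul_le_mul_of_nonneg_left (hC z) (abs_nonneg θ)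
  nlinarith

/-- association for one variable -/
theorem assoc_le {f g : ℝ → ℝ} (μ : Measure ℝ) [IsProbabilityMeasure μ] (hf : Antitone f)
    (hg : Monotone g) (hgc : Continuous g) (hgi : Integrable g μ) (hg0 : ∫ z, g z ∂μ = 0)
    (hfg : Integrable (fun z => f z * g z) μ) : ∫ z, f z * g z ∂μ ≤ 0 := by
  obtain ⟨a, ha⟩ := exists_le_integral hgi
  obtain ⟨b, hb⟩ := exists_integral_le hgi
  rw [hg0] at ha hb
  obtain ⟨z0, hz0⟩ := mem_range_of_exists_le_of_exists_ge hgc ⟨a, ha⟩ ⟨b, hb⟩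
  have h1 : ∫ z, f z * g z ∂μ ≤ ∫ z, f z0 * g z ∂μ := by
    refine integral_mono hfg (hgi.const_mul _) fun z => ?_
    rcases le_total z0 z with h | h
    · have h2 := hg h
      rw [hz0] at h2
      exact mul_le_mul_of_nonneg_right (hf h) h2
    · have h2 := hg h
      rw [hz0] at h2
      exact mul_le_mul_of_nonpos_right (hf h) h2
  rw [integral_const_mul, hg0, mul_zero] at h1
  exact h1

/-- convexity of `exp (θ ·)` -/
theorem exp_tangent (θ a b : ℝ) :
    exp (θ * a) - exp (θ * b) ≤ θ * exp (θ * a) * (a - b) := by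
  have h := add_one_le_exp (θ * b - θ * a)
  have h2 : exp (θ * b) = exp (θ * a) * exp (θ * b - θ * a) := by
    rw [← exp_add]; congr 1; ring
  have h3 := mul_le_mul_of_nonneg_left h (exp_pos (θ * a)).le
  rw [← h2] at h3
  nlinarith

/-- **(A1)** sharp one-step bound, antitone case. -/
theorem one_step_anti {F : ℝ → ℝ} {L : ℝ} (ha : Antitone F)
    (hl : ∀ x y, |F x - F y| ≤ L * |x - y|) (v : ℝ≥0) (θ : ℝ) :
    Integrable (fun z => exp (θ * (F z - ∫ y, F y ∂gaussianReal 0 v))) (gaussianReal 0 v) ∧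
    ∫ z, exp (θ * (F z - ∫ y, F y ∂gaussianReal 0 v)) ∂gaussianReal 0 v ≤
      exp (θ ^ 2 * L ^ 2 * v / 2) := by
  have hL : 0 ≤ L := L_nonneg hl
  have hc : Continuous F := lip_continuous hl
  refine ⟨integrable_exp_centred hl v θ, ?_⟩
  set I : ℝ := ∫ y, F y ∂gaussianReal 0 v with hI
  have hFi : Integrable F (gaussianReal 0 v) := integrable_lip0 hl v
  have hint := integrable_exp_centred hl v θ
  rw [← hI] at hint
  have hid := integrable_id_gauss v
  have hb : Integrable (fun z : ℝ => exp (-(θ * L) * z)) (gaussianReal 0 v) :=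
    integrable_exp_mul_gaussianReal _
  -- the monotone function `a - b`
  set g : ℝ → ℝ := fun z => F z - I + L * z with hg
  have hgm : Monotone g := by
    intro x y hxy
    simp only [hg]
    have h1 := hl x y
    rw [abs_sub_comm x y, abs_of_nonneg (sub_nonneg.2 hxy)] at h1
    have h2 := le_abs_self (F x - F y)
    linarith
  have hgc : Continuous g := by simp only [hg]; fun_prop
  have hFI : Integrable (fun z => F z - I) (gaussianReal 0 v) := hFi.sub (integrable_const _)
  have hgi : Integrable g (gaussianReal 0 v) := hFI.add (hid.const_mul L)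
  have hg0 : ∫ z, g z ∂gaussianReal 0 v = 0 := by
    simp only [hg]
    rw [integral_add hFI (hid.const_mul L),
      integral_sub hFi (integrable_const _), integral_const_mul, integral_id_gauss]
    simp [hI]
  obtain ⟨C, hC0, hC⟩ := centred_bound hl v
  rw [← hI] at hC
  have hfg : Integrable (fun z => θ * exp (θ * (F z - I)) * g z) (gaussianReal 0 v) := by
    have hbd : Integrable (fun z : ℝ => |θ| * exp (|θ| * C) * exp C *
        exp ((|θ| * L + 2 * L) * |z|)) (gaussianReal 0 v) :=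
      (integrable_exp_abs v _).const_mul _
    refine hbd.mono' (by fun_prop) (Filter.Eventually.of_forall fun z => ?_)
    rw [Real.norm_eq_abs, abs_mul, abs_mul, abs_of_pos (exp_pos _)]
    have h1 : exp (θ * (F z - I)) ≤ exp (|θ| * C) * exp (|θ| * L * |z|) := by
      rw [← exp_add]
      apply exp_le_exp.2
      have h1 : θ * (F z - I) ≤ |θ| * |F z - I| := by
        rw [← abs_mul]; exact le_abs_self _
      have h2 := mul_le_mul_of_nonneg_left (hC z) (abs_nonneg θ)
      nlinarith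
    have h2 : |g z| ≤ exp C * exp (2 * L * |z|) := by
      have h3 : |g z| ≤ C + 2 * L * |z| := by
        simp only [hg]
        have h4 := abs_add_le (F z - I) (L * z)
        rw [abs_mul, abs_of_nonneg hL] at h4
        have h5 := hC z
        linarith
      rw [← exp_add]
      have := add_one_le_exp (C + 2 * L * |z|)
      linarith
    calc |θ| * exp (θ * (F z - I)) * |g z|
        ≤ |θ| * (exp (|θ| * C) * exp (|θ| * L * |z|)) * (exp C * exp (2 * L * |z|)) := by
          gcongr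
      _ = |θ| * exp (|θ| * C) * exp C * exp ((|θ| * L + 2 * L) * |z|) := by
          rw [add_mul, exp_add]; ring
  have hf : Antitone fun z => θ * exp (θ * (F z - I)) := by
    intro x y hxy
    have h1 := ha hxy
    show θ * exp (θ * (F y - I)) ≤ θ * exp (θ * (F x - I))
    rcases le_total 0 θ with hθ | hθ
    · refine mul_le_mul_of_nonneg_left (exp_le_exp.2 ?_) hθ
      exact mul_le_mul_of_nonneg_left (by linarith) hθ
    · refine mul_le_mul_of_nonpos_left (exp_le_exp.2 ?_) hθ
      exact mul_le_mul_of_nonpos_left (by linarith) hθ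
  have hass := assoc_le (gaussianReal 0 v) hf hgm hgc hgi hg0 hfg
  have hle : ∫ z, (exp (θ * (F z - I)) - exp (-(θ * L) * z)) ∂gaussianReal 0 v ≤
      ∫ z, θ * exp (θ * (F z - I)) * g z ∂gaussianReal 0 v := by
    refine integral_mono (hint.sub hb) hfg fun z => ?_
    have h := exp_tangent θ (F z - I) (-(L * z))
    simp only [hg]
    rw [show -(θ * L) * z = θ * (-(L * z)) by ring]
    calc exp (θ * (F z - I)) - exp (θ * (-(L * z)))
        ≤ θ * exp (θ * (F z - I)) * ((F z - I) - (-(L * z))) := h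
      _ = θ * exp (θ * (F z - I)) * (F z - I + L * z) := by ring
  rw [integral_sub hint hb] at hle
  have hmgf : ∫ z, exp (-(θ * L) * z) ∂gaussianReal 0 v = exp (θ ^ 2 * L ^ 2 * v / 2) := by
    have h := congrFun (mgf_id_gaussianReal (μ := 0) (v := v)) (-(θ * L))
    rw [mgf] at h
    simp only [id_eq] at h
    rw [h]
    congr 1
    ring
  rw [hmgf] at hle
  linarith

/-- **(A1)** sharp one-step bound, monotone case. -/
theorem one_step_mono {F : ℝ → ℝ} {L : ℝ} (ha : Monotone F)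
    (hl : ∀ x y, |F x - F y| ≤ L * |x - y|) (v : ℝ≥0) (θ : ℝ) :
    Integrable (fun z => exp (θ * (F z - ∫ y, F y ∂gaussianReal 0 v))) (gaussianReal 0 v) ∧
    ∫ z, exp (θ * (F z - ∫ y, F y ∂gaussianReal 0 v)) ∂gaussianReal 0 v ≤
      exp (θ ^ 2 * L ^ 2 * v / 2) := by
  have h := one_step_anti (F := fun x => -F x) (L := L) (fun x y hxy => neg_le_neg (ha hxy))
    (fun x y => by
      rw [show -F x - -F y = -(F x - F y) by ring, abs_neg]
      exact hl x y) v (-θ)
  have h2 : ∀ z, -θ * (-F z - ∫ y, -F y ∂gaussianReal 0 v) =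
      θ * (F z - ∫ y, F y ∂gaussianReal 0 v) := by
    intro z; rw [integral_neg]; ring
  simp only [h2] at h
  rw [show (-θ) ^ 2 = θ ^ 2 by ring] at h
  exact h

/-! ### The resolvent -/

theorem res_exists {Ψ : ℝ → ℝ} {L : ℝ} (hΨ : Anti L Ψ) {m : ℝ} (hm : 0 ≤ m) (x : ℝ) :
    ∃ l : ℝ, l = Ψ (x + m * l) := by
  have hc := hΨ.continuous
  have hk : Continuous fun l : ℝ => l - Ψ (x + m * l) := by fun_prop
  have h0 : (fun l : ℝ => l - Ψ (x + m * l)) 0 ≤ 0 := by
    simp only [mul_zero, add_zero, zero_sub, Left.neg_nonpos_iff]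
    exact hΨ.nonneg x
  have h1 : 0 ≤ (fun l : ℝ => l - Ψ (x + m * l)) (Ψ x) := by
    simp only
    have := hΨ.anti (show x ≤ x + m * Ψ x by
      have := mul_nonneg hm (hΨ.nonneg x); linarith)
    linarith
  obtain ⟨l, hl⟩ := mem_range_of_exists_le_of_exists_ge hk ⟨0, h0⟩ ⟨Ψ x, h1⟩
  exact ⟨l, by simp only at hl; linarith⟩

open scoped Classical in
/-- the solution `l` of `l = Ψ (x + m l)` -/
noncomputable def res (m : ℝ) (Ψ : ℝ → ℝ) (x : ℝ) : ℝ :=
  if h : ∃ l : ℝ, l = Ψ (x + m * l) then h.choose else 0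

theorem res_eq {Ψ : ℝ → ℝ} {L : ℝ} (hΨ : Anti L Ψ) {m : ℝ} (hm : 0 ≤ m) (x : ℝ) :
    res m Ψ x = Ψ (x + m * res m Ψ x) := by
  have h := res_exists hΨ hm x
  unfold res
  rw [dif_pos h]
  exact h.choose_spec

theorem res_unique {Ψ : ℝ → ℝ} {L : ℝ} (hΨ : Anti L Ψ) {m : ℝ} (hm : 0 ≤ m) {x l : ℝ}
    (hl : l = Ψ (x + m * l)) : l = res m Ψ x := by
  have h := res_eq hΨ hm x
  rcases le_total l (res m Ψ x) with h1 | h1
  · have h2 : Ψ (x + m * res m Ψ x) ≤ Ψ (x + m * l) :=
      hΨ.anti (by have := mul_le_mul_of_nonneg_left h1 hm; linarith)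
    rw [← h, ← hl] at h2
    exact le_antisymm h1 h2
  · have h2 : Ψ (x + m * l) ≤ Ψ (x + m * res m Ψ x) :=
      hΨ.anti (by have := mul_le_mul_of_nonneg_left h1 hm; linarith)
    rw [← h, ← hl] at h2
    exact le_antisymm h2 h1

theorem res_antitone {Ψ : ℝ → ℝ} {L : ℝ} (hΨ : Anti L Ψ) {m : ℝ} (hm : 0 ≤ m) :
    Antitone (res m Ψ) := by
  intro x x' hxx
  by_contra hcon
  push Not at hcon
  have h := res_eq hΨ hm x
  have h' := res_eq hΨ hm x'
  have h1 : x + m * res m Ψ x ≤ x' + m * res m Ψ x' := by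
    have := mul_le_mul_of_nonneg_left hcon.le hm
    linarith
  have h2 := hΨ.anti h1
  rw [← h, ← h'] at h2
  exact absurd h2 (not_le.2 hcon)

/-- `x ↦ x + m * res m Ψ x` is nondecreasing -/
theorem res_shift_mono {Ψ : ℝ → ℝ} {L : ℝ} (hΨ : Anti L Ψ) {m : ℝ} (hm : 0 ≤ m) :
    Monotone fun x => x + m * res m Ψ x := by
  intro x x' hxx
  show x + m * res m Ψ x ≤ x' + m * res m Ψ x'
  by_contra hcon
  push Not at hcon
  have h := res_eq hΨ hm x
  have h' := res_eq hΨ hm x'
  have h2 := hΨ.anti hcon.le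
  rw [← h, ← h'] at h2
  have h3 := mul_le_mul_of_nonneg_left h2 hm
  linarith

theorem res_anti {Ψ : ℝ → ℝ} {L : ℝ} (hΨ : Anti L Ψ) {m : ℝ} (hm : 0 ≤ m) :
    Anti (L / (1 + m * L)) (res m Ψ) := by
  have hL := hΨ.L_nonneg
  have hpos : 0 < 1 + m * L := by have := mul_nonneg hm hL; linarith
  refine ⟨res_antitone hΨ hm, fun x => ?_, ?_⟩
  · rw [res_eq hΨ hm x]; exact hΨ.nonneg _
  · -- ordered case
    have key : ∀ x x', x ≤ x' → |res m Ψ x - res m Ψ x'| ≤ L / (1 + m * L) * |x - x'| := by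
      intro x x' hxx
      have h1 := res_antitone hΨ hm hxx
      have h2 := res_shift_mono hΨ hm hxx
      simp only at h2
      rw [abs_of_nonneg (sub_nonneg.2 h1), abs_sub_comm x x', abs_of_nonneg (sub_nonneg.2 hxx)]
      have h3 := hΨ.lip (x + m * res m Ψ x) (x' + m * res m Ψ x')
      rw [← res_eq hΨ hm x, ← res_eq hΨ hm x', abs_of_nonneg (sub_nonneg.2 h1),
        abs_sub_comm, abs_of_nonneg (sub_nonneg.2 h2)] at h3
      rw [div_mul_eq_mul_div, le_div_iff₀ hpos]
      nlinarith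
    intro x y
    rcases le_total x y with h | h
    · exact key x y h
    · rw [abs_sub_comm, abs_sub_comm x y]; exact key y x h

/-! ### Gaussian average -/

/-- Gaussian average -/
noncomputable def gavg (v : ℝ≥0) (F : ℝ → ℝ) (y : ℝ) : ℝ := ∫ z, F (y + z) ∂gaussianReal 0 v

theorem gavg_integrable {F : ℝ → ℝ} {L : ℝ} (h : Anti L F) (v : ℝ≥0) (y : ℝ) :
    Integrable (fun z => F (y + z)) (gaussianReal 0 v) := integrable_lip h.lip v y

theorem gavg_anti {F : ℝ → ℝ} {L : ℝ} (h : Anti L F) (v : ℝ≥0) : Anti L (gavg v F) := by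
  refine ⟨fun x y hxy => ?_, fun x => ?_, fun x y => ?_⟩
  · exact integral_mono (gavg_integrable h v y) (gavg_integrable h v x)
      fun z => h.anti (by linarith)
  · exact integral_nonneg fun z => h.nonneg _
  · unfold gavg
    rw [← integral_sub (gavg_integrable h v x) (gavg_integrable h v y)]
    have h1 := norm_integral_le_of_norm_le_const (μ := gaussianReal 0 v) (C := L * |x - y|)
      (f := fun z => F (x + z) - F (y + z)) (Filter.Eventually.of_forall fun z => by
        rw [Real.norm_eq_abs]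
        have := h.lip (x + z) (y + z)
        rwa [show x + z - (y + z) = x - y by ring] at this)
    simpa using h1

/-- Gaussian averages of Lipschitz functions are Lipschitz -/
theorem gavg_lip {F : ℝ → ℝ} {L : ℝ} (hl : ∀ x y, |F x - F y| ≤ L * |x - y|) (v : ℝ≥0)
    (x y : ℝ) : |gavg v F x - gavg v F y| ≤ L * |x - y| := by
  unfold gavg
  rw [← integral_sub (integrable_lip hl v x) (integrable_lip hl v y)]
  have h1 := norm_integral_le_of_norm_le_const (μ := gaussianReal 0 v) (C := L * |x - y|)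
    (f := fun z => F (x + z) - F (y + z)) (Filter.Eventually.of_forall fun z => by
      rw [Real.norm_eq_abs]
      have := hl (x + z) (y + z)
      rwa [show x + z - (y + z) = x - y by ring] at this)
  simpa using h1

/-! ### The base function -/

theorem base_anti {c : ℝ} (hc : 0 < c) : Anti (1 / c) (fun x => max (-x) 0 / c) := by
  refine ⟨fun x y hxy => ?_, fun x => ?_, fun x y => ?_⟩
  · exact div_le_div_of_nonneg_right (max_le_max (by linarith) le_rfl) hc.le
  · exact div_nonneg (le_max_right _ _) hc.le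
  · rw [← sub_div, abs_div, abs_of_pos hc, div_eq_mul_one_div, mul_comm (1 / c)]
    refine mul_le_mul_of_nonneg_right ?_ (by positivity)
    have h := abs_max_sub_max_le_max (-x) 0 (-y) 0
    rw [show -x - -y = -(x - y) by ring, abs_neg, sub_zero, abs_zero,
      max_eq_left (abs_nonneg (x - y))] at h
    exact h

/-! ### The backward recursion -/

/-- auxiliary recursion, indexed by the number of steps from the end -/
noncomputable def LamAux (c : ℝ) (N : ℕ) (m : ℕ → ℝ) (v : ℕ → ℝ≥0) : ℕ → ℝ → ℝ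
  | 0 => fun x => max (-x) 0 / c
  | k + 1 => res (m (N - (k + 1))) (gavg (v (N - (k + 1))) (LamAux c N m v k))

/-- the functions `Λ_i`, `i ≤ N` -/
noncomputable def Lam (c : ℝ) (N : ℕ) (m : ℕ → ℝ) (v : ℕ → ℝ≥0) (i : ℕ) : ℝ → ℝ :=
  LamAux c N m v (N - i)

theorem lam_last (c : ℝ) (N : ℕ) (m : ℕ → ℝ) (v : ℕ → ℝ≥0) :
    Lam c N m v N = fun x => max (-x) 0 / c := by
  unfold Lam
  rw [Nat.sub_self]
  rfl

theorem lam_step (c : ℝ) {N : ℕ} (m : ℕ → ℝ) (v : ℕ → ℝ≥0) {i : ℕ} (hi : i < N) :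
    Lam c N m v i = res (m i) (gavg (v i) (Lam c N m v (i + 1))) := by
  unfold Lam
  obtain ⟨k, hk⟩ : ∃ k, N - i = k + 1 := ⟨N - i - 1, by omega⟩
  have hk' : N - (i + 1) = k := by omega
  have hi' : N - (k + 1) = i := by omega
  rw [hk, hk']
  show res (m (N - (k + 1))) (gavg (v (N - (k + 1))) (LamAux c N m v k)) = _
  rw [hi']

theorem lam_anti {c : ℝ} (hc : 0 < c) {N : ℕ} {m : ℕ → ℝ} (v : ℕ → ℝ≥0)
    (hm : ∀ i < N, 0 ≤ m i) {i : ℕ} (hi : i ≤ N) :
    Anti (1 / (c + ∑ j ∈ Finset.Ico i N, m j)) (Lam c N m v i) := by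
  induction hi using Nat.decreasingInduction with
  | self =>
    rw [lam_last, Finset.Ico_self, Finset.sum_empty, add_zero]
    exact base_anti hc
  | of_succ i hi ih =>
    rw [lam_step c m v hi]
    have h := res_anti (gavg_anti ih (v i)) (hm i hi)
    have hS : 0 ≤ ∑ j ∈ Finset.Ico (i + 1) N, m j :=
      Finset.sum_nonneg fun j hj => hm j (Finset.mem_Ico.1 hj).2
    have hmi := hm i hi
    have hpos : 0 < c + ∑ j ∈ Finset.Ico (i + 1) N, m j := by linarith
    rw [Finset.sum_eq_sum_Ico_succ_bot hi]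
    convert h using 1
    field_simp
    ring

theorem lam_D_pos {c : ℝ} (hc : 0 < c) {N : ℕ} {m : ℕ → ℝ} (hm : ∀ i < N, 0 ≤ m i) (i : ℕ) :
    0 < c + ∑ j ∈ Finset.Ico i N, m j := by
  have hS : 0 ≤ ∑ j ∈ Finset.Ico i N, m j :=
    Finset.sum_nonneg fun j hj => hm j (Finset.mem_Ico.1 hj).2
  linarith

/-- the fixed point equation of `Λ_i` -/
theorem lam_eq {c : ℝ} (hc : 0 < c) {N : ℕ} {m : ℕ → ℝ} (v : ℕ → ℝ≥0)
    (hm : ∀ i < N, 0 ≤ m i) {i : ℕ} (hi : i < N) (x : ℝ) :
    Lam c N m v i x = ∫ z, Lam c N m v (i + 1) (x + m i * Lam c N m v i x + z)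
      ∂gaussianReal 0 (v i) := by
  have ih := lam_anti hc v hm (i := i + 1) hi
  have h := res_eq (gavg_anti ih (v i)) (hm i hi) x
  rw [← lam_step c m v hi] at h
  exact h

/-- an antitone `1/D`-Lipschitz function: `x ↦ x + D F x` is nondecreasing and 1-Lipschitz. -/
theorem shift_mono {D : ℝ} (hD : 0 < D) {F : ℝ → ℝ} (h : Anti (1 / D) F) :
    Monotone fun x => x + D * F x := by
  intro x y hxy
  show x + D * F x ≤ y + D * F y
  have h1 := (le_abs_self _).trans (h.lip x y)
  rw [abs_sub_comm x y, abs_of_nonneg (sub_nonneg.2 hxy), one_div, inv_mul_eq_div,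
    le_div_iff₀ hD] at h1
  linarith

theorem shift_lip {D : ℝ} (hD : 0 < D) {F : ℝ → ℝ} (h : Anti (1 / D) F) (x y : ℝ) :
    |(x + D * F x) - (y + D * F y)| ≤ 1 * |x - y| := by
  have key : ∀ x y : ℝ, x ≤ y → |(x + D * F x) - (y + D * F y)| ≤ 1 * |x - y| := by
    intro x y hxy
    have h1 := shift_mono hD h hxy
    simp only at h1
    have h2 := mul_le_mul_of_nonneg_left (h.anti hxy) hD.le
    rw [abs_sub_comm, abs_of_nonneg (by linarith), abs_sub_comm x y,
      abs_of_nonneg (sub_nonneg.2 hxy)]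
    linarith
  rcases le_total x y with h1 | h1
  · exact key x y h1
  · rw [abs_sub_comm, abs_sub_comm x y]; exact key y x h1

/-- `W_i x = x + (c + ∑_{j ≥ i} m_j) Λ_i x` is nondecreasing -/
theorem W_mono {c : ℝ} (hc : 0 < c) {N : ℕ} {m : ℕ → ℝ} (v : ℕ → ℝ≥0)
    (hm : ∀ i < N, 0 ≤ m i) {i : ℕ} (hi : i ≤ N) :
    Monotone fun x => x + (c + ∑ j ∈ Finset.Ico i N, m j) * Lam c N m v i x :=
  shift_mono (lam_D_pos hc hm i) (lam_anti hc v hm hi)

/-- `W_i` is 1-Lipschitz -/
theorem W_lip {c : ℝ} (hc : 0 < c) {N : ℕ} {m : ℕ → ℝ} (v : ℕ → ℝ≥0)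
    (hm : ∀ i < N, 0 ≤ m i) {i : ℕ} (hi : i ≤ N) (x y : ℝ) :
    |(x + (c + ∑ j ∈ Finset.Ico i N, m j) * Lam c N m v i x) -
      (y + (c + ∑ j ∈ Finset.Ico i N, m j) * Lam c N m v i y)| ≤ 1 * |x - y| :=
  shift_lip (lam_D_pos hc hm i) (lam_anti hc v hm hi) x y

end Crest.Agent.R146.LipA_43
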