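import Crest.Agent.R146.LipChain_861
import Crest.Agent.R146.Lev_576

/-!
Row 146, package P5, node LIP / EM (task 92), part C1 (helper861): function level `L²` stability of
the atomic complementarity problem and closure of the exponential bounds under `L²` limits.
-/

set_option autoImplicit false
set_option maxHeartbeats 400000

namespace Crest.Agent.R146.LipC_861

open MeasureTheory ProbabilityTheory Filter Set Real
open Crest.Agent.R146.LipA_43 Crest.Agent.R146.LipB_861 Crest.Agent.R146.LipChain_861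
open Crest.Agent.R146.Lev_576 (abs_int_mul_le)
open scoped NNReal ENNReal Topology

variable {Ω : Type*} {mΩ : MeasurableSpace Ω} {P : Measure Ω}

section L2

variable [IsProbabilityMeasure P] {m : MeasurableSpace Ω}

omit [IsProbabilityMeasure P] in
theorem int_mul {f g : Ω → ℝ} (hf : MemLp f 2 P) (hg : MemLp g 2 P) :
    Integrable (fun ω => f ω * g ω) P := hf.integrable_mul hg

/-- conditional expectation is self-adjoint and idempotent -/
theorem int_mul_condExp (hm : m ≤ mΩ) {f g : Ω → ℝ} (hf : MemLp f 2 P) (hg : MemLp g 2 P) :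
    ∫ ω, f ω * (P[g | m]) ω ∂P = ∫ ω, (P[f | m]) ω * (P[g | m]) ω ∂P := by
  have h1 : P[f * P[g | m] | m] =ᵐ[P] P[f | m] * P[g | m] :=
    condExp_mul_of_stronglyMeasurable_right stronglyMeasurable_condExp
      (int_mul hf (hg.condExp (by norm_num))) (hf.integrable (by norm_num))
  have h2 := integral_congr_ae h1
  rw [integral_condExp hm] at h2
  exact h2

/-- contraction -/
theorem int_condExp_sq_le (hm : m ≤ mΩ) {f : Ω → ℝ} (hf : MemLp f 2 P) :
    ∫ ω, (P[f | m]) ω ^ 2 ∂P ≤ ∫ ω, f ω ^ 2 ∂P := by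
  have hE : MemLp (P[f | m]) 2 P := hf.condExp (by norm_num)
  have h1 := int_mul_condExp hm hf hf
  have h2 : 0 ≤ ∫ ω, (f ω - (P[f | m]) ω) ^ 2 ∂P := integral_nonneg fun ω => sq_nonneg _
  have i1 : Integrable (fun ω => 2 * (f ω * (P[f | m]) ω)) P := (int_mul hf hE).const_mul 2
  have i2 : Integrable (fun ω => f ω ^ 2 - 2 * (f ω * (P[f | m]) ω)) P := hf.integrable_sq.sub i1
  have h3 : ∫ ω, (f ω - (P[f | m]) ω) ^ 2 ∂P
      = ∫ ω, f ω ^ 2 ∂P - 2 * ∫ ω, f ω * (P[f | m]) ω ∂P + ∫ ω, (P[f | m]) ω ^ 2 ∂P := by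
    rw [← integral_const_mul, ← integral_sub hf.integrable_sq i1,
      ← integral_add i2 hE.integrable_sq]
    refine integral_congr_ae (Eventually.of_forall fun ω => ?_)
    simp only
    ring
  have h4 : ∫ ω, (P[f | m]) ω * (P[f | m]) ω ∂P = ∫ ω, (P[f | m]) ω ^ 2 ∂P :=
    integral_congr_ae (Eventually.of_forall fun ω => (sq _).symm)
  linarith

/-- the difference of conditional expectations -/
theorem int_condExp_sub_sq_le (hm : m ≤ mΩ) {f g : Ω → ℝ} (hf : MemLp f 2 P) (hg : MemLp g 2 P) :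
    ∫ ω, ((P[f | m]) ω - (P[g | m]) ω) ^ 2 ∂P ≤ ∫ ω, (f ω - g ω) ^ 2 ∂P := by
  have h1 := condExp_sub (hf.integrable (by norm_num)) (hg.integrable (by norm_num)) m
  have h2 := int_condExp_sq_le hm (hf.sub hg)
  refine le_trans (le_of_eq ?_) h2
  refine integral_congr_ae ?_
  filter_upwards [h1] with ω h
  rw [h]; rfl

end L2

/-- weighted Cauchy–Schwarz -/
theorem wcs (N : ℕ) {m a : ℕ → ℝ} {c x : ℝ} (hm : ∀ i < N, 0 ≤ m i) (hc : 0 ≤ c) :
    (∑ i ∈ Finset.range N, m i * a i + c * x) ^ 2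
      ≤ (∑ i ∈ Finset.range N, m i + c) * (∑ i ∈ Finset.range N, m i * a i ^ 2 + c * x ^ 2) := by
  have step : ∀ A B C μ α : ℝ, 0 ≤ B → 0 ≤ C → 0 ≤ μ → A ^ 2 ≤ B * C →
      (A + μ * α) ^ 2 ≤ (B + μ) * (C + μ * α ^ 2) := by
    intro A B C μ α hB hC hμ h
    have h2 : 2 * A * α ≤ B * α ^ 2 + C := by
      rcases hB.eq_or_lt with h0 | h0
      · subst h0
        have : A = 0 := by
          have : A ^ 2 ≤ 0 := by simpa using h
          exact pow_eq_zero_iff (two_ne_zero) |>.1 (le_antisymm this (sq_nonneg _))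
        rw [this]; simpa using hC
      · have : 0 ≤ (B * α ^ 2 + C - 2 * A * α) * B := by nlinarith [sq_nonneg (B * α - A)]
        have := nonneg_of_mul_nonneg_left this h0
        linarith
    nlinarith [mul_le_mul_of_nonneg_left h2 hμ]
  have hS : ∀ n ≤ N, 0 ≤ ∑ i ∈ Finset.range n, m i := fun n hn =>
    Finset.sum_nonneg fun i hi => hm i ((Finset.mem_range.1 hi).trans_le hn)
  have hT : ∀ n ≤ N, 0 ≤ ∑ i ∈ Finset.range n, m i * a i ^ 2 := fun n hn =>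
    Finset.sum_nonneg fun i hi =>
      mul_nonneg (hm i ((Finset.mem_range.1 hi).trans_le hn)) (sq_nonneg _)
  have main : ∀ n ≤ N, (∑ i ∈ Finset.range n, m i * a i + c * x) ^ 2
      ≤ (∑ i ∈ Finset.range n, m i + c) * (∑ i ∈ Finset.range n, m i * a i ^ 2 + c * x ^ 2) := by
    intro n
    induction n with
    | zero => intro _; simp; nlinarith
    | succ n ih =>
      intro hn
      have h1 := step _ _ _ (m n) (a n) (add_nonneg (hS n (by omega)) hc)
        (add_nonneg (hT n (by omega)) (mul_nonneg hc (sq_nonneg x))) (hm n hn) (ih (by omega))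
      rw [Finset.sum_range_succ, Finset.sum_range_succ, Finset.sum_range_succ]
      calc _ = (∑ i ∈ Finset.range n, m i * a i + c * x + m n * a n) ^ 2 := by ring
        _ ≤ _ := h1
        _ = _ := by ring
  exact main N le_rfl

section Stab

variable {κ c : ℝ} {N : ℕ} {m : ℕ → ℝ} {v : ℕ → ℝ≥0} {𝓕 : ℕ → MeasurableSpace Ω} {b : ℕ → Ω → ℝ}

/-- the error of the force at time `i` -/
noncomputable def G (P : Measure Ω) (κ c : ℝ) (N : ℕ) (m : ℕ → ℝ) (v : ℕ → ℝ≥0)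
    (𝓕 : ℕ → MeasurableSpace Ω) (b : ℕ → Ω → ℝ) (l : Ω → ℝ) (i : ℕ) (ω : Ω) : ℝ :=
  lam κ c N m v b i ω - (P[l | 𝓕 i]) ω

theorem G_memLp [IsProbabilityMeasure P] (hd : Data P c N m v 𝓕 b) {l : Ω → ℝ}
    (hl : MemLp l 2 P) {i : ℕ} (hi : i ≤ N) : MemLp (G P κ c N m v 𝓕 b l i) 2 P :=
  (lam_memLp hd hi).sub (hl.condExp (by norm_num))

theorem G_eq [IsProbabilityMeasure P] (hd : Data P c N m v 𝓕 b) {l : Ω → ℝ}
    (hl : MemLp l 2 P) {i : ℕ} (hi : i ≤ N) :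
    G P κ c N m v 𝓕 b l i =ᵐ[P] P[fun ω => lam κ c N m v b N ω - l ω | 𝓕 i] := by
  have h1 := condExp_sub ((lam_memLp (κ := κ) hd le_rfl).integrable (by norm_num))
    (hl.integrable (by norm_num)) (𝓕 i)
  filter_upwards [h1, condExp_lam (κ := κ) hd hi] with ω h1 h2
  rw [show (fun ω => lam κ c N m v b N ω - l ω) = lam κ c N m v b N - l from rfl, h1]
  simp only [G, Pi.sub_apply, h2]

theorem int_mul_G [IsProbabilityMeasure P] (hd : Data P c N m v 𝓕 b) {l : Ω → ℝ}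
    (hl : MemLp l 2 P) {i : ℕ} (hi : i ≤ N) :
    ∫ ω, (lam κ c N m v b N ω - l ω) * G P κ c N m v 𝓕 b l i ω ∂P
      = ∫ ω, G P κ c N m v 𝓕 b l i ω ^ 2 ∂P := by
  have hΔ : MemLp (fun ω => lam κ c N m v b N ω - l ω) 2 P := (lam_memLp hd le_rfl).sub hl
  have h1 := int_mul_condExp (P := P) (hd.le i) hΔ hΔ
  have h2 := G_eq (κ := κ) hd hl hi
  calc _ = ∫ ω, (lam κ c N m v b N ω - l ω)
        * (P[fun ω => lam κ c N m v b N ω - l ω | 𝓕 i]) ω ∂P := by
        refine integral_congr_ae ?_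
        filter_upwards [h2] with ω h; rw [h]
    _ = _ := h1
    _ = _ := by
        refine integral_congr_ae ?_
        filter_upwards [h2] with ω h; rw [h]; ring

theorem int_G_le [IsProbabilityMeasure P] (hd : Data P c N m v 𝓕 b) {l : Ω → ℝ}
    (hl : MemLp l 2 P) {i : ℕ} (hi : i ≤ N) :
    ∫ ω, G P κ c N m v 𝓕 b l i ω ^ 2 ∂P ≤ ∫ ω, (lam κ c N m v b N ω - l ω) ^ 2 ∂P := by
  have hΔ : MemLp (fun ω => lam κ c N m v b N ω - l ω) 2 P := (lam_memLp hd le_rfl).sub hl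
  refine le_trans (le_of_eq ?_) (int_condExp_sq_le (hd.le i) hΔ)
  refine integral_congr_ae ?_
  filter_upwards [G_eq (κ := κ) hd hl hi] with ω h; rw [h]

theorem int_G_mono [IsProbabilityMeasure P] (hd : Data P c N m v 𝓕 b) {l : Ω → ℝ}
    (hl : MemLp l 2 P) {i j : ℕ} (hij : i ≤ j) (hj : j ≤ N) :
    ∫ ω, G P κ c N m v 𝓕 b l i ω ^ 2 ∂P ≤ ∫ ω, G P κ c N m v 𝓕 b l j ω ^ 2 ∂P := by
  have h1 := int_condExp_sq_le (hd.le i) (G_memLp (κ := κ) hd hl hj)
  refine le_trans (le_of_eq ?_) h1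
  refine integral_congr_ae ?_
  have h2 : P[P[fun ω => lam κ c N m v b N ω - l ω | 𝓕 j] | 𝓕 i]
      =ᵐ[P] P[fun ω => lam κ c N m v b N ω - l ω | 𝓕 i] :=
    condExp_condExp_of_le (hd.mono hij) (hd.le j)
  have h3 : P[G P κ c N m v 𝓕 b l j | 𝓕 i] =ᵐ[P]
      P[P[fun ω => lam κ c N m v b N ω - l ω | 𝓕 j] | 𝓕 i] :=
    condExp_congr_ae (G_eq hd hl hj)
  filter_upwards [G_eq (κ := κ) hd hl (hij.trans hj), h2, h3] with ω h h' h''
  rw [h, h'', h']

/-- the quadratic form of the error -/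
noncomputable def qf (P : Measure Ω) (κ c : ℝ) (N : ℕ) (m : ℕ → ℝ) (v : ℕ → ℝ≥0)
    (𝓕 : ℕ → MeasurableSpace Ω) (b : ℕ → Ω → ℝ) (l : Ω → ℝ) : ℝ :=
  ∑ j ∈ Finset.range N, m j * ∫ ω, G P κ c N m v 𝓕 b l j ω ^ 2 ∂P
    + c * ∫ ω, (lam κ c N m v b N ω - l ω) ^ 2 ∂P

theorem D_le_qf [IsProbabilityMeasure P] (hd : Data P c N m v 𝓕 b) {l : Ω → ℝ}
    (hl : MemLp l 2 P) {i : ℕ} (hi : i ≤ N) :
    D c N m i * ∫ ω, G P κ c N m v 𝓕 b l i ω ^ 2 ∂P ≤ qf P κ c N m v 𝓕 b l := by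
  unfold D qf
  rw [add_mul, Finset.sum_mul, add_comm (c * _)]
  refine add_le_add ?_ (mul_le_mul_of_nonneg_left (int_G_le hd hl hi) hd.hc.le)
  calc ∑ j ∈ Finset.Ico i N, m j * ∫ ω, G P κ c N m v 𝓕 b l i ω ^ 2 ∂P
      ≤ ∑ j ∈ Finset.Ico i N, m j * ∫ ω, G P κ c N m v 𝓕 b l j ω ^ 2 ∂P := by
        refine Finset.sum_le_sum fun j hj => ?_
        rw [Finset.mem_Ico] at hj
        exact mul_le_mul_of_nonneg_left (int_G_mono hd hl hj.1 hj.2.le) (hd.hm j hj.2)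
    _ ≤ _ := by
        refine Finset.sum_le_sum_of_subset_of_nonneg (fun j hj => ?_) fun j hj _ => ?_
        · rw [Finset.mem_Ico] at hj; exact Finset.mem_range.2 hj.2
        · exact mul_nonneg (hd.hm j (Finset.mem_range.1 hj)) (integral_nonneg fun _ => sq_nonneg _)

/-- the equation of the difference of the gaps -/
theorem gap_sub {δ : ℝ} {l h e : Ω → ℝ}
    (heq : ∀ᵐ ω ∂P, h ω = κ + ∑ j ∈ Finset.range N, b j ω
      + ∑ j ∈ Finset.range N, m j * (P[l | 𝓕 j]) ω + (c - δ) * l ω + e ω) :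
    ∀ᵐ ω ∂P, W c N m v N (X κ c N m v b N ω) - h ω
      = (∑ j ∈ Finset.range N, m j * G P κ c N m v 𝓕 b l j ω + c * (lam κ c N m v b N ω - l ω))
        + (δ * l ω - e ω) := by
  filter_upwards [heq] with ω h1
  rw [W_last, X_eq, h1]
  simp only [G, mul_sub, Finset.sum_sub_distrib]
  ring

/-- **stability** of the atomic complementarity problem -/
theorem stab [IsProbabilityMeasure P] (hd : Data P c N m v 𝓕 b) {δ ε : ℝ} (hδ : 0 < δ)
    (hδc : δ ≤ c) (hε : 0 ≤ ε) (hεδ : ε ≤ δ) {l h e : Ω → ℝ} (hl : MemLp l 2 P)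
    (he : MemLp e 2 P) (l0 : 0 ≤ᵐ[P] l) (h0 : 0 ≤ᵐ[P] h)
    (lh : ∀ᵐ ω ∂P, l ω * h ω = 0)
    (heq : ∀ᵐ ω ∂P, h ω = κ + ∑ j ∈ Finset.range N, b j ω
      + ∑ j ∈ Finset.range N, m j * (P[l | 𝓕 j]) ω + (c - δ) * l ω + e ω)
    (he2 : ∫ ω, e ω ^ 2 ∂P ≤ ε ^ 2 * ∫ ω, l ω ^ 2 ∂P) :
    qf P κ c N m v 𝓕 b l ≤ 4 * δ * ∫ ω, l ω ^ 2 ∂P := by
  have hY : MemLp (lam κ c N m v b N) 2 P := lam_memLp hd le_rfl
  have hΔ : MemLp (fun ω => lam κ c N m v b N ω - l ω) 2 P := hY.sub hl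
  -- the integrated inequality
  have hpt : ∀ᵐ ω ∂P, (∑ j ∈ Finset.range N, m j * ((lam κ c N m v b N ω - l ω)
      * G P κ c N m v 𝓕 b l j ω)) + c * (lam κ c N m v b N ω - l ω) ^ 2
      + (δ * ((lam κ c N m v b N ω - l ω) * l ω) - (lam κ c N m v b N ω - l ω) * e ω) ≤ 0 := by
    filter_upwards [gap_sub heq, l0, h0, lh] with ω h1 h2 h3 h4
    have h5 := final_mul (κ := κ) hd ω
    rw [← W_last_eq hd] at h5
    have h6 := lam_nonneg (κ := κ) hd le_rfl ω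
    have h7 : 0 ≤ W c N m v N (X κ c N m v b N ω) := by rw [W_last_eq hd]; exact le_max_right _ _
    simp only [Pi.zero_apply] at h2 h3
    have h8 : (lam κ c N m v b N ω - l ω) * (W c N m v N (X κ c N m v b N ω) - h ω) ≤ 0 := by
      have h9 := mul_nonneg h6 h3
      have h10 := mul_nonneg h2 h7
      nlinarith
    rw [h1] at h8
    refine le_trans (le_of_eq ?_) h8
    rw [mul_add, mul_add, Finset.mul_sum]
    have : ∀ j, m j * ((lam κ c N m v b N ω - l ω) * G P κ c N m v 𝓕 b l j ω)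
      = (lam κ c N m v b N ω - l ω) * (m j * G P κ c N m v 𝓕 b l j ω) := fun j => by ring
    simp only [this]
    ring
  have hi1 : ∀ j ∈ Finset.range N, Integrable (fun ω => m j * ((lam κ c N m v b N ω - l ω)
      * G P κ c N m v 𝓕 b l j ω)) P := fun j hj =>
    (int_mul hΔ (G_memLp hd hl (Finset.mem_range.1 hj).le)).const_mul _
  have hi2 : Integrable (fun ω => c * (lam κ c N m v b N ω - l ω) ^ 2) P :=
    hΔ.integrable_sq.const_mul c
  have hi3 : Integrable (fun ω => δ * ((lam κ c N m v b N ω - l ω) * l ω)) P :=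
    (int_mul hΔ hl).const_mul δ
  have hi4 : Integrable (fun ω => (lam κ c N m v b N ω - l ω) * e ω) P := int_mul hΔ he
  have hi12 : Integrable (fun ω => (∑ j ∈ Finset.range N, m j * ((lam κ c N m v b N ω - l ω)
      * G P κ c N m v 𝓕 b l j ω)) + c * (lam κ c N m v b N ω - l ω) ^ 2) P :=
    (integrable_finsetSum _ hi1).add hi2
  have hi34 : Integrable (fun ω => δ * ((lam κ c N m v b N ω - l ω) * l ω)
      - (lam κ c N m v b N ω - l ω) * e ω) P := hi3.sub hi4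
  have hint := integral_nonpos_of_ae hpt
  rw [integral_add hi12 hi34,
    integral_add (integrable_finsetSum _ hi1) hi2, integral_sub hi3 hi4,
    integral_finsetSum _ hi1, integral_const_mul, integral_const_mul] at hint
  have hq : ∑ j ∈ Finset.range N, ∫ ω, m j * ((lam κ c N m v b N ω - l ω)
      * G P κ c N m v 𝓕 b l j ω) ∂P + c * ∫ ω, (lam κ c N m v b N ω - l ω) ^ 2 ∂P
      = qf P κ c N m v 𝓕 b l := by
    unfold qf
    congr 1
    refine Finset.sum_congr rfl fun j hj => ?_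
    rw [integral_const_mul, int_mul_G hd hl (Finset.mem_range.1 hj).le]
  rw [hq] at hint
  -- Cauchy-Schwarz
  set x := √(∫ ω, (lam κ c N m v b N ω - l ω) ^ 2 ∂P) with hx
  set y := √(∫ ω, l ω ^ 2 ∂P) with hy
  have hx0 : 0 ≤ x := Real.sqrt_nonneg _
  have hy0 : 0 ≤ y := Real.sqrt_nonneg _
  have hx2 : x ^ 2 = ∫ ω, (lam κ c N m v b N ω - l ω) ^ 2 ∂P :=
    Real.sq_sqrt (integral_nonneg fun _ => sq_nonneg _)
  have hy2 : y ^ 2 = ∫ ω, l ω ^ 2 ∂P := Real.sq_sqrt (integral_nonneg fun _ => sq_nonneg _)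
  have c1 := abs_int_mul_le hΔ hl
  have c2 := abs_int_mul_le hΔ he
  have c3 : √(∫ ω, e ω ^ 2 ∂P) ≤ ε * y := by
    refine (Real.sqrt_le_sqrt he2).trans (le_of_eq ?_)
    rw [← hy2, ← mul_pow, Real.sqrt_sq (mul_nonneg hε hy0)]
  have c4 := (abs_le.1 (c1.trans le_rfl)).1
  have c5 : ∫ ω, (lam κ c N m v b N ω - l ω) * e ω ∂P ≤ x * (ε * y) :=
    (le_abs_self _).trans (c2.trans (mul_le_mul_of_nonneg_left c3 hx0))
  have hxy : 0 ≤ x * y := mul_nonneg hx0 hy0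
  have hqle : qf P κ c N m v 𝓕 b l ≤ 2 * δ * (x * y) := by
    have h1 : -(δ * (x * y)) ≤ δ * ∫ ω, (lam κ c N m v b N ω - l ω) * l ω ∂P := by
      have := mul_le_mul_of_nonneg_left c4 hδ.le
      linarith
    have h2 : x * (ε * y) ≤ δ * (x * y) := by
      calc x * (ε * y) = ε * (x * y) := by ring
        _ ≤ _ := mul_le_mul_of_nonneg_right hεδ hxy
    linarith
  have hqge : δ * x ^ 2 ≤ qf P κ c N m v 𝓕 b l := by
    unfold qf
    rw [← hx2]
    have h1 : 0 ≤ ∑ j ∈ Finset.range N, m j * ∫ ω, G P κ c N m v 𝓕 b l j ω ^ 2 ∂P :=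
      Finset.sum_nonneg fun j hj =>
        mul_nonneg (hd.hm j (Finset.mem_range.1 hj)) (integral_nonneg fun _ => sq_nonneg _)
    have h2 := mul_le_mul_of_nonneg_right hδc (sq_nonneg x)
    linarith
  have hxle : x ≤ 2 * y := by
    rcases hx0.eq_or_lt with h | h
    · rw [← h]; positivity
    · have h1 : δ * x * x ≤ δ * x * (2 * y) := by nlinarith
      exact le_of_mul_le_mul_left h1 (by positivity)
  rw [← hy2]
  have : 2 * δ * (x * y) ≤ 2 * δ * (2 * y * y) := by gcongr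
  calc _ ≤ _ := hqle
    _ ≤ _ := this
    _ = _ := by ring

/-- error of the force at time `i` -/
theorem force_err [IsProbabilityMeasure P] (hd : Data P c N m v 𝓕 b) {l : Ω → ℝ}
    (hl : MemLp l 2 P) {i : ℕ} (hi : i ≤ N) {d K : ℝ} (hd0 : 0 < d) (hdi : d ≤ D c N m i)
    (hq : qf P κ c N m v 𝓕 b l ≤ K) :
    ∫ ω, (lam κ c N m v b i ω - (P[l | 𝓕 i]) ω) ^ 2 ∂P ≤ K / d := by
  rw [le_div_iff₀ hd0, mul_comm]
  have h1 := D_le_qf (κ := κ) hd hl hi
  have h2 : 0 ≤ ∫ ω, G P κ c N m v 𝓕 b l i ω ^ 2 ∂P := integral_nonneg fun _ => sq_nonneg _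
  have h3 := mul_le_mul_of_nonneg_right hdi h2
  exact h3.trans (h1.trans hq)

/-- error of the gap -/
theorem gap_err [IsProbabilityMeasure P] (hd : Data P c N m v 𝓕 b) {δ : ℝ} {l h e : Ω → ℝ}
    (hl : MemLp l 2 P) (hh : MemLp h 2 P) (he : MemLp e 2 P)
    (heq : ∀ᵐ ω ∂P, h ω = κ + ∑ j ∈ Finset.range N, b j ω
      + ∑ j ∈ Finset.range N, m j * (P[l | 𝓕 j]) ω + (c - δ) * l ω + e ω)
    {i : ℕ} (hi : i ≤ N) :
    ∫ ω, (W c N m v i (X κ c N m v b i ω) - (P[h | 𝓕 i]) ω) ^ 2 ∂P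
      ≤ 2 * D c N m 0 * qf P κ c N m v 𝓕 b l + 4 * (δ ^ 2 * ∫ ω, l ω ^ 2 ∂P + ∫ ω, e ω ^ 2 ∂P) := by
  have hW := W_memLp (κ := κ) hd le_rfl
  have h1 := int_condExp_sub_sq_le (hd.le i) hW hh
  have h2 : ∫ ω, (W c N m v i (X κ c N m v b i ω) - (P[h | 𝓕 i]) ω) ^ 2 ∂P
      = ∫ ω, ((P[fun ω => W c N m v N (X κ c N m v b N ω) | 𝓕 i]) ω - (P[h | 𝓕 i]) ω) ^ 2 ∂P := by
    refine integral_congr_ae ?_
    filter_upwards [condExp_W (κ := κ) hd hi] with ω h3
    rw [h3]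
  rw [h2]
  refine h1.trans ?_
  have hΔ : MemLp (fun ω => lam κ c N m v b N ω - l ω) 2 P := (lam_memLp hd le_rfl).sub hl
  have hD0 : D c N m 0 = ∑ j ∈ Finset.range N, m j + c := by
    unfold D; rw [Finset.range_eq_Ico]; ring
  have hpt : ∀ᵐ ω ∂P, (W c N m v N (X κ c N m v b N ω) - h ω) ^ 2
      ≤ 2 * D c N m 0 * (∑ j ∈ Finset.range N, m j * G P κ c N m v 𝓕 b l j ω ^ 2
          + c * (lam κ c N m v b N ω - l ω) ^ 2) + 4 * (δ ^ 2 * l ω ^ 2 + e ω ^ 2) := by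
    filter_upwards [gap_sub heq] with ω h3
    rw [h3, hD0]
    have h4 := wcs N (a := fun j => G P κ c N m v 𝓕 b l j ω) (x := lam κ c N m v b N ω - l ω)
      hd.hm hd.hc.le
    have h5 : ∀ p q : ℝ, (p + q) ^ 2 ≤ 2 * p ^ 2 + 2 * q ^ 2 := fun p q => by
      nlinarith [sq_nonneg (p - q)]
    have h6 := h5 (∑ j ∈ Finset.range N, m j * G P κ c N m v 𝓕 b l j ω
      + c * (lam κ c N m v b N ω - l ω)) (δ * l ω - e ω)
    have h7 : (δ * l ω - e ω) ^ 2 ≤ 2 * (δ ^ 2 * l ω ^ 2 + e ω ^ 2) := by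
      nlinarith [sq_nonneg (δ * l ω + e ω)]
    nlinarith
  have hi1 : ∀ j ∈ Finset.range N, Integrable (fun ω => m j * G P κ c N m v 𝓕 b l j ω ^ 2) P :=
    fun j hj => (G_memLp hd hl (Finset.mem_range.1 hj).le).integrable_sq.const_mul _
  have hi2 : Integrable (fun ω => c * (lam κ c N m v b N ω - l ω) ^ 2) P :=
    hΔ.integrable_sq.const_mul c
  have hi3 : Integrable (fun ω => δ ^ 2 * l ω ^ 2) P := hl.integrable_sq.const_mul _
  have hi12 := (integrable_finsetSum _ hi1).add hi2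
  have hi34 := (hi3.add he.integrable_sq).const_mul 4
  have hmono := integral_mono_ae ((hW.sub hh).integrable_sq) ((hi12.const_mul (2 * D c N m 0)).add hi34) hpt
  refine hmono.trans (le_of_eq ?_)
  have e1 := integral_add (hi12.const_mul (2 * D c N m 0)) hi34
  have e2 := integral_add (integrable_finsetSum _ hi1) hi2
  have e3 := integral_add hi3 he.integrable_sq
  refine e1.trans ?_
  rw [integral_const_mul, integral_const_mul]
  refine congrArg₂ (· + ·) (congrArg _ ?_) (congrArg _ ?_)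
  · refine e2.trans ?_
    rw [integral_finsetSum _ hi1, integral_const_mul]
    unfold qf
    simp only [integral_const_mul]
  · refine e3.trans ?_
    rw [integral_const_mul]

end Stab

end Crest.Agent.R146.LipC_861
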