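import Crest.Agent.R146.LipB_861
import Crest.Agent.R146.LipA_43

/-!
Row 146, package P5, node LIP (att 146-861-1), part B2: the finite chain
`X_{i+1} = X_i + m_i Λ_i(X_i) + b_i` of the atomic LCP, its martingale, complementarity and
conditional exponential bounds.
-/

set_option autoImplicit false
set_option maxHeartbeats 400000

namespace Crest.Agent.R146.LipChain_861

open MeasureTheory ProbabilityTheory Filter Set Real
open Crest.Agent.R146.LipA_43 Crest.Agent.R146.LipB_861
open scoped NNReal ENNReal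

variable {Ω : Type*} {mΩ : MeasurableSpace Ω} {P : Measure Ω}

/-- the data of a finite chain -/
structure Data (P : Measure Ω) (c : ℝ) (N : ℕ) (m : ℕ → ℝ) (v : ℕ → ℝ≥0)
    (𝓕 : ℕ → MeasurableSpace Ω) (b : ℕ → Ω → ℝ) : Prop where
  hc : 0 < c
  hm : ∀ i < N, 0 ≤ m i
  mono : Monotone 𝓕
  le : ∀ i, 𝓕 i ≤ mΩ
  meas : ∀ i < N, Measurable[𝓕 (i + 1)] (b i)
  ind : ∀ i < N, Indep (𝓕 i) (MeasurableSpace.comap (b i) inferInstance) P
  law : ∀ i < N, P.map (b i) = gaussianReal 0 (v i)

/-- the chain -/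
noncomputable def X (κ c : ℝ) (N : ℕ) (m : ℕ → ℝ) (v : ℕ → ℝ≥0) (b : ℕ → Ω → ℝ) : ℕ → Ω → ℝ
  | 0 => fun _ => κ
  | i + 1 => fun ω => X κ c N m v b i ω + m i * Lam c N m v i (X κ c N m v b i ω) + b i ω

/-- the force -/
noncomputable def lam (κ c : ℝ) (N : ℕ) (m : ℕ → ℝ) (v : ℕ → ℝ≥0) (b : ℕ → Ω → ℝ) (i : ℕ)
    (ω : Ω) : ℝ := Lam c N m v i (X κ c N m v b i ω)

/-- the remaining mass -/
noncomputable def D (c : ℝ) (N : ℕ) (m : ℕ → ℝ) (i : ℕ) : ℝ := c + ∑ j ∈ Finset.Ico i N, m j

section

variable {κ c : ℝ} {N : ℕ} {m : ℕ → ℝ} {v : ℕ → ℝ≥0} {𝓕 : ℕ → MeasurableSpace Ω} {b : ℕ → Ω → ℝ}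

theorem X_succ (i : ℕ) (ω : Ω) : X κ c N m v b (i + 1) ω
    = X κ c N m v b i ω + m i * lam κ c N m v b i ω + b i ω := rfl

theorem D_pos (h : Data P c N m v 𝓕 b) (i : ℕ) : 0 < D c N m i := by
  have : 0 ≤ ∑ j ∈ Finset.Ico i N, m j :=
    Finset.sum_nonneg fun j hj => h.hm j (Finset.mem_Ico.1 hj).2
  have := h.hc
  unfold D; linarith

theorem D_succ {i : ℕ} (hi : i < N) : D c N m i = m i + D c N m (i + 1) := by
  unfold D
  rw [← Finset.sum_Ico_consecutive _ (Nat.le_succ i) hi]
  simp; ring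

theorem lamAnti (h : Data P c N m v 𝓕 b) {i : ℕ} (hi : i ≤ N) :
    Anti (1 / D c N m i) (Lam c N m v i) := lam_anti h.hc v h.hm hi

theorem X_meas (h : Data P c N m v 𝓕 b) {i : ℕ} (hi : i ≤ N) :
    Measurable[𝓕 i] (X κ c N m v b i) := by
  induction i with
  | zero => exact measurable_const
  | succ i ih =>
    have h1 := (ih (Nat.le_of_succ_le hi)).mono (h.mono (Nat.le_succ i)) le_rfl
    have h2 : Measurable[𝓕 (i + 1)] (lam κ c N m v b i) :=
      (lamAnti h (Nat.le_of_succ_le hi)).measurable.comp h1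
    exact (h1.add (h2.const_mul (m i))).add (h.meas i hi)

theorem lam_meas (h : Data P c N m v 𝓕 b) {i : ℕ} (hi : i ≤ N) :
    Measurable[𝓕 i] (lam κ c N m v b i) :=
  (lamAnti h hi).measurable.comp (X_meas h hi)

theorem b_memLp [IsProbabilityMeasure P] (h : Data P c N m v 𝓕 b) {i : ℕ} (hi : i < N) :
    MemLp (b i) 2 P := by
  have hb : Measurable (b i) := (h.meas i hi).mono (h.le _) le_rfl
  have : MemLp (fun x : ℝ => x) 2 (P.map (b i)) := by
    rw [h.law i hi]
    exact memLp_id_gaussianReal 2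
  exact (memLp_map_measure_iff (by fun_prop) hb.aemeasurable).1 this

theorem anti_memLp [IsProbabilityMeasure P] {L : ℝ} {F : ℝ → ℝ}
    (hF : ∀ x y, |F x - F y| ≤ L * |x - y|) (hFm : Measurable F)
    {Y : Ω → ℝ} (hY : MemLp Y 2 P) (hYm : Measurable Y) : MemLp (fun ω => F (Y ω)) 2 P := by
  have h0 : MemLp (fun ω => L * |Y ω|) 2 P := hY.abs.const_mul L
  have h1 : MemLp (fun ω => |F 0| + L * |Y ω|) 2 P := (memLp_const |F 0|).add h0
  refine h1.mono' (hFm.comp hYm).aestronglyMeasurable (Eventually.of_forall fun ω => ?_)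
  have := hF (Y ω) 0
  rw [sub_zero] at this
  rw [Real.norm_eq_abs]
  calc |F (Y ω)| ≤ |F 0| + |F (Y ω) - F 0| := by
        have := abs_add_le (F 0) (F (Y ω) - F 0)
        simpa using this
    _ ≤ _ := by linarith

theorem X_memLp [IsProbabilityMeasure P] (h : Data P c N m v 𝓕 b) {i : ℕ} (hi : i ≤ N) :
    MemLp (X κ c N m v b i) 2 P := by
  induction i with
  | zero => exact memLp_const _
  | succ i ih =>
    have h1 := ih (Nat.le_of_succ_le hi)
    have hm := (X_meas (κ := κ) h (Nat.le_of_succ_le hi)).mono (h.le _) le_rfl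
    have h2 : MemLp (lam κ c N m v b i) 2 P :=
      anti_memLp (lamAnti h (Nat.le_of_succ_le hi)).lip
        (lamAnti h (Nat.le_of_succ_le hi)).measurable h1 hm
    exact (h1.add (h2.const_mul (m i))).add (b_memLp h hi)

theorem lam_memLp [IsProbabilityMeasure P] (h : Data P c N m v 𝓕 b) {i : ℕ} (hi : i ≤ N) :
    MemLp (lam κ c N m v b i) 2 P :=
  anti_memLp (lamAnti h hi).lip (lamAnti h hi).measurable (X_memLp h hi)
    ((X_meas h hi).mono (h.le _) le_rfl)

/-- the one step mean of the force -/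
theorem mean_step (h : Data P c N m v 𝓕 b) {i : ℕ} (hi : i < N) (x : ℝ) :
    ∫ z, Lam c N m v (i + 1) (x + m i * Lam c N m v i x + z) ∂gaussianReal 0 (v i)
      = Lam c N m v i x := by
  have h1 := gavg_anti (lamAnti h (i := i + 1) hi) (v i)
  have h2 := res_eq h1 (h.hm i hi) x
  rw [← lam_step c m v hi] at h2
  exact h2.symm

theorem integrable_gauss_lip {L : ℝ} {F : ℝ → ℝ} (hF : ∀ x y, |F x - F y| ≤ L * |x - y|)
    (hFm : Measurable F) (v : ℝ≥0) (x : ℝ) :
    Integrable (fun z => F (x + z)) (gaussianReal 0 v) := by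
  have h0 : Integrable (fun z : ℝ => z) (gaussianReal 0 v) :=
    (memLp_id_gaussianReal 1).integrable le_rfl
  have h1 : Integrable (fun z : ℝ => |F x| + L * |z|) (gaussianReal 0 v) :=
    (integrable_const _).add (h0.abs.const_mul L)
  have h2 : Measurable fun z => F (x + z) := hFm.comp (measurable_const_add x)
  refine h1.mono' h2.aestronglyMeasurable (Eventually.of_forall fun z => ?_)
  have := hF (x + z) x
  rw [add_sub_cancel_left] at this
  rw [Real.norm_eq_abs]
  calc |F (x + z)| ≤ |F x| + |F (x + z) - F x| := by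
        have := abs_add_le (F x) (F (x + z) - F x)
        simpa using this
    _ ≤ _ := by linarith

/-- the force is a martingale -/
theorem condExp_lam_succ [IsProbabilityMeasure P] (h : Data P c N m v 𝓕 b) {i : ℕ} (hi : i < N) :
    P[lam κ c N m v b (i + 1) | 𝓕 i] =ᵐ[P] lam κ c N m v b i := by
  have hb : Measurable (b i) := (h.meas i hi).mono (h.le _) le_rfl
  have hA := lamAnti h (i := i) hi.le
  have hA' := lamAnti h (i := i + 1) hi
  have hf : Measurable fun q : ℝ × ℝ =>
      Lam c N m v (i + 1) (q.1 + m i * Lam c N m v i q.1 + q.2) := by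
    have := hA.measurable; have := hA'.measurable; fun_prop
  have hint : Integrable (fun ω => (fun q : ℝ × ℝ =>
      Lam c N m v (i + 1) (q.1 + m i * Lam c N m v i q.1 + q.2)) (X κ c N m v b i ω, b i ω)) P :=
    (lam_memLp (κ := κ) h (i := i + 1) hi).integrable one_le_two
  have := condExp_freeze (h.le i) (X_meas (κ := κ) h hi.le) hb (h.ind i hi) hf hint
  refine this.trans (Eventually.of_forall fun ω => ?_)
  simp only [h.law i hi]
  exact mean_step h hi _

theorem condExp_lam [IsProbabilityMeasure P] (h : Data P c N m v 𝓕 b) {i : ℕ} (hi : i ≤ N) :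
    P[lam κ c N m v b N | 𝓕 i] =ᵐ[P] lam κ c N m v b i := by
  induction hi using Nat.decreasingInduction with
  | self =>
    rw [condExp_of_stronglyMeasurable (h.le N) (lam_meas h le_rfl).stronglyMeasurable
      ((lam_memLp h le_rfl).integrable one_le_two)]
  | of_succ k hk ih =>
    have h1 : P[P[lam κ c N m v b N | 𝓕 (k + 1)] | 𝓕 k] =ᵐ[P] P[lam κ c N m v b N | 𝓕 k] :=
      condExp_condExp_of_le (h.mono (Nat.le_succ k)) (h.le _)
    exact h1.symm.trans ((condExp_congr_ae ih).trans (condExp_lam_succ h hk))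

theorem X_eq (i : ℕ) (ω : Ω) : X κ c N m v b i ω
    = κ + ∑ j ∈ Finset.range i, b j ω + ∑ j ∈ Finset.range i, m j * lam κ c N m v b j ω := by
  induction i with
  | zero => simp [X]
  | succ i ih => rw [X_succ, ih, Finset.sum_range_succ, Finset.sum_range_succ]; ring

/-- complementarity at the end of the chain -/
theorem final (h : Data P c N m v 𝓕 b) (ω : Ω) :
    X κ c N m v b N ω + c * lam κ c N m v b N ω = max (X κ c N m v b N ω) 0 := by
  unfold lam
  rw [lam_last]
  have := h.hc.ne'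
  dsimp only
  rw [mul_div_cancel₀ _ this]
  rcases le_total 0 (X κ c N m v b N ω) with hx | hx
  · rw [max_eq_right (by linarith : -X κ c N m v b N ω ≤ 0), max_eq_left hx]; ring
  · rw [max_eq_left (by linarith : 0 ≤ -X κ c N m v b N ω), max_eq_right hx]; ring

theorem final_mul (h : Data P c N m v 𝓕 b) (ω : Ω) :
    lam κ c N m v b N ω * max (X κ c N m v b N ω) 0 = 0 := by
  unfold lam
  rw [lam_last]
  have := h.hc.ne'
  dsimp only
  rcases le_total 0 (X κ c N m v b N ω) with hx | hx
  · rw [max_eq_right (by linarith : -X κ c N m v b N ω ≤ 0)]; simp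
  · rw [max_eq_right hx]; simp

theorem lam_nonneg (h : Data P c N m v 𝓕 b) {i : ℕ} (hi : i ≤ N) (ω : Ω) :
    0 ≤ lam κ c N m v b i ω := (lamAnti h hi).nonneg _

/-! ### conditional exponential bounds -/

/-- the generic inductive bound -/
theorem exp_bound [IsProbabilityMeasure P] (h : Data P c N m v 𝓕 b) {f : ℕ → ℝ → ℝ} {K : ℕ → ℝ}
    (hfm : ∀ i ≤ N, Measurable (f i)) (θ : ℝ)
    (hone : ∀ k < N, ∀ x : ℝ, ∫⁻ z, ENNReal.ofReal
      (exp (θ * (f (k + 1) (x + m k * Lam c N m v k x + z) - f k x))) ∂gaussianReal 0 (v k)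
        ≤ ENNReal.ofReal (exp (θ ^ 2 * K (k + 1) ^ 2 * v k / 2)))
    {i j : ℕ} (hij : i ≤ j) (hj : j ≤ N) {A : Set Ω} (hA : MeasurableSet[𝓕 i] A) :
    ∫⁻ ω in A, ENNReal.ofReal (exp (θ * (f j (X κ c N m v b j ω) - f i (X κ c N m v b i ω)))) ∂P
      ≤ ENNReal.ofReal (exp (θ ^ 2 * (∑ k ∈ Finset.Ico i j, K (k + 1) ^ 2 * v k) / 2)) * P A := by
  induction j, hij using Nat.le_induction with
  | base => simp
  | succ j hij ih =>
    have hjN : j < N := hj
    have ih' := ih hjN.le
    have hAm : MeasurableSet A := h.le _ _ hA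
    have hb : Measurable (b j) := (h.meas j hjN).mono (h.le _) le_rfl
    have hXj := X_meas (κ := κ) h hjN.le
    have hXi := (X_meas (κ := κ) h (hij.trans hjN.le)).mono (h.mono hij) le_rfl
    have hLm := (lamAnti h hjN.le).measurable
    -- the `𝓕 j` measurable weight
    set g : Ω → ℝ≥0∞ := A.indicator fun ω =>
      ENNReal.ofReal (exp (θ * (f j (X κ c N m v b j ω) - f i (X κ c N m v b i ω)))) with hg
    have hgm : Measurable[𝓕 j] g := by
      refine Measurable.indicator ?_ (h.mono hij _ hA)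
      refine ENNReal.measurable_ofReal.comp (Real.measurable_exp.comp ?_)
      exact (((hfm j hjN.le).comp hXj).sub ((hfm i (hij.trans hjN.le)).comp hXi)).const_mul θ
    have hΦ : Measurable fun q : (ℝ≥0∞ × ℝ) × ℝ => q.1.1 * ENNReal.ofReal
        (exp (θ * (f (j + 1) (q.1.2 + m j * Lam c N m v j q.1.2 + q.2) - f j q.1.2))) := by
      have h1 := hfm (j + 1) hj
      have h2 := hfm j hjN.le
      fun_prop
    have key := lintegral_freeze (P := P) (h.le j) (hgm.prodMk hXj) hb (h.ind j hjN) hΦ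
    calc ∫⁻ ω in A, ENNReal.ofReal
          (exp (θ * (f (j + 1) (X κ c N m v b (j + 1) ω) - f i (X κ c N m v b i ω)))) ∂P
        = ∫⁻ ω, g ω * ENNReal.ofReal (exp (θ * (f (j + 1)
            (X κ c N m v b j ω + m j * Lam c N m v j (X κ c N m v b j ω) + b j ω)
              - f j (X κ c N m v b j ω)))) ∂P := by
          rw [← lintegral_indicator hAm]
          refine lintegral_congr fun ω => ?_
          by_cases hω : ω ∈ A
          · simp only [hg, Set.indicator_of_mem hω]
            rw [← ENNReal.ofReal_mul (exp_pos _).le, ← exp_add]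
            congr 2
            have : X κ c N m v b (j + 1) ω
              = X κ c N m v b j ω + m j * Lam c N m v j (X κ c N m v b j ω) + b j ω := rfl
            rw [this]; ring
          · simp only [hg, Set.indicator_of_notMem hω, zero_mul]
      _ = ∫⁻ ω, ∫⁻ z, g ω * ENNReal.ofReal (exp (θ * (f (j + 1)
            (X κ c N m v b j ω + m j * Lam c N m v j (X κ c N m v b j ω) + z)
              - f j (X κ c N m v b j ω)))) ∂(P.map (b j)) ∂P := key
      _ ≤ ∫⁻ ω, g ω * ENNReal.ofReal (exp (θ ^ 2 * K (j + 1) ^ 2 * v j / 2)) ∂P := by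
          refine lintegral_mono fun ω => ?_
          rw [h.law j hjN, lintegral_const_mul _ (by
            have h1 := hfm (j + 1) hj
            fun_prop)]
          gcongr
          exact hone j hjN _
      _ = (∫⁻ ω, g ω ∂P) * ENNReal.ofReal (exp (θ ^ 2 * K (j + 1) ^ 2 * v j / 2)) :=
          lintegral_mul_const _ (hgm.mono (h.le _) le_rfl)
      _ ≤ (ENNReal.ofReal (exp (θ ^ 2 * (∑ k ∈ Finset.Ico i j, K (k + 1) ^ 2 * v k) / 2)) * P A)
            * ENNReal.ofReal (exp (θ ^ 2 * K (j + 1) ^ 2 * v j / 2)) := by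
          gcongr
          rw [hg, lintegral_indicator hAm]
          exact ih'
      _ = _ := by
          rw [mul_right_comm, ← ENNReal.ofReal_mul (exp_pos _).le, ← exp_add,
            Finset.sum_Ico_succ_top hij]
          congr 3
          ring

/-- **conditional exponential bound for the force** -/
theorem exp_lam [IsProbabilityMeasure P] (h : Data P c N m v 𝓕 b) (θ : ℝ)
    {i j : ℕ} (hij : i ≤ j) (hj : j ≤ N) {A : Set Ω} (hA : MeasurableSet[𝓕 i] A) :
    ∫⁻ ω in A, ENNReal.ofReal (exp (θ * (lam κ c N m v b j ω - lam κ c N m v b i ω))) ∂P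
      ≤ ENNReal.ofReal
        (exp (θ ^ 2 * (∑ k ∈ Finset.Ico i j, (1 / D c N m (k + 1)) ^ 2 * v k) / 2)) * P A := by
  refine exp_bound (K := fun k => 1 / D c N m k) h (f := Lam c N m v)
    (fun i hi => (lamAnti h hi).measurable) θ (fun k hk x => ?_) hij hj hA
  have hA' := lamAnti h (i := k + 1) hk
  have h1 := one_step_anti (F := fun z => Lam c N m v (k + 1) (x + m k * Lam c N m v k x + z))
    (L := 1 / D c N m (k + 1))
    (fun y z hyz => hA'.anti (by linarith)) (fun y z => by
      have := hA'.lip (x + m k * Lam c N m v k x + y) (x + m k * Lam c N m v k x + z)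
      rwa [add_sub_add_left_eq_sub] at this) (v k) θ
  rw [mean_step h hk x] at h1
  rw [← ofReal_integral_eq_lintegral_ofReal h1.1 (Eventually.of_forall fun _ => (exp_pos _).le)]
  exact ENNReal.ofReal_le_ofReal h1.2

/-- the gap as a function of the position -/
noncomputable def W (c : ℝ) (N : ℕ) (m : ℕ → ℝ) (v : ℕ → ℝ≥0) (i : ℕ) (x : ℝ) : ℝ :=
  x + D c N m i * Lam c N m v i x

theorem W_mono (h : Data P c N m v 𝓕 b) {i : ℕ} (hi : i ≤ N) : Monotone (W c N m v i) := by
  intro x y hxy
  have hA := lamAnti h hi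
  have hD := D_pos h i
  have h1 := hA.lip x y
  have h2 : D c N m i * (Lam c N m v i x - Lam c N m v i y) ≤ y - x := by
    calc D c N m i * (Lam c N m v i x - Lam c N m v i y)
        ≤ D c N m i * (1 / D c N m i * |x - y|) := by
          gcongr; exact (le_abs_self _).trans h1
      _ = |x - y| := by field_simp
      _ = y - x := by rw [abs_sub_comm, abs_of_nonneg (by linarith)]
  unfold W
  nlinarith

theorem W_lip (h : Data P c N m v 𝓕 b) {i : ℕ} (hi : i ≤ N) (x y : ℝ) :
    |W c N m v i x - W c N m v i y| ≤ 1 * |x - y| := by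
  wlog hxy : y ≤ x generalizing x y
  · rw [abs_sub_comm, abs_sub_comm x y]
    exact this y x (le_of_not_ge hxy)
  rw [abs_of_nonneg (sub_nonneg.2 (W_mono h hi hxy)), abs_of_nonneg (sub_nonneg.2 hxy), one_mul]
  have h1 := (lamAnti h hi).anti hxy
  have hD := D_pos h i
  unfold W
  nlinarith

theorem W_mean (h : Data P c N m v 𝓕 b) {i : ℕ} (hi : i < N) (x : ℝ) :
    ∫ z, W c N m v (i + 1) (x + m i * Lam c N m v i x + z) ∂gaussianReal 0 (v i)
      = W c N m v i x := by
  have hA' := lamAnti h (i := i + 1) hi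
  have hI := integrable_gauss_lip hA'.lip hA'.measurable (v i) (x + m i * Lam c N m v i x)
  have h0 : Integrable (fun z : ℝ => z) (gaussianReal 0 (v i)) :=
    (memLp_id_gaussianReal 1).integrable le_rfl
  have hI2 : Integrable (fun z : ℝ => x + m i * Lam c N m v i x + z) (gaussianReal 0 (v i)) :=
    (integrable_const _).add h0
  unfold W
  rw [integral_add hI2 (hI.const_mul _), integral_const_mul, mean_step h hi x,
    integral_add (integrable_const _) h0]
  simp only [integral_const, probReal_univ, smul_eq_mul, one_mul, integral_id_gaussianReal]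
  rw [D_succ hi]; ring

theorem W_meas (h : Data P c N m v 𝓕 b) {i : ℕ} (hi : i ≤ N) :
    Measurable[𝓕 i] (fun ω => W c N m v i (X κ c N m v b i ω)) :=
  (W_mono h hi).measurable.comp (X_meas h hi)

theorem W_memLp [IsProbabilityMeasure P] (h : Data P c N m v 𝓕 b) {i : ℕ} (hi : i ≤ N) :
    MemLp (fun ω => W c N m v i (X κ c N m v b i ω)) 2 P :=
  (X_memLp h hi).add ((lam_memLp h hi).const_mul _)

/-- the gap is a martingale -/
theorem condExp_W_succ [IsProbabilityMeasure P] (h : Data P c N m v 𝓕 b) {i : ℕ} (hi : i < N) :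
    P[fun ω => W c N m v (i + 1) (X κ c N m v b (i + 1) ω) | 𝓕 i]
      =ᵐ[P] fun ω => W c N m v i (X κ c N m v b i ω) := by
  have hb : Measurable (b i) := (h.meas i hi).mono (h.le _) le_rfl
  have hA := lamAnti h (i := i) hi.le
  have hA' := (W_mono h (i := i + 1) hi).measurable
  have hf : Measurable fun q : ℝ × ℝ =>
      W c N m v (i + 1) (q.1 + m i * Lam c N m v i q.1 + q.2) := by
    have := hA.measurable; fun_prop
  have hint : Integrable (fun ω => (fun q : ℝ × ℝ =>
      W c N m v (i + 1) (q.1 + m i * Lam c N m v i q.1 + q.2)) (X κ c N m v b i ω, b i ω)) P :=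
    (W_memLp (κ := κ) h (i := i + 1) hi).integrable one_le_two
  have := condExp_freeze (h.le i) (X_meas (κ := κ) h hi.le) hb (h.ind i hi) hf hint
  refine this.trans (Eventually.of_forall fun ω => ?_)
  simp only [h.law i hi]
  exact W_mean h hi _

theorem condExp_W [IsProbabilityMeasure P] (h : Data P c N m v 𝓕 b) {i : ℕ} (hi : i ≤ N) :
    P[fun ω => W c N m v N (X κ c N m v b N ω) | 𝓕 i]
      =ᵐ[P] fun ω => W c N m v i (X κ c N m v b i ω) := by
  induction hi using Nat.decreasingInduction with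
  | self =>
    rw [condExp_of_stronglyMeasurable (h.le N) (W_meas h le_rfl).stronglyMeasurable
      ((W_memLp h le_rfl).integrable one_le_two)]
  | of_succ k hk ih =>
    have h1 : P[P[fun ω => W c N m v N (X κ c N m v b N ω) | 𝓕 (k + 1)] | 𝓕 k]
        =ᵐ[P] P[fun ω => W c N m v N (X κ c N m v b N ω) | 𝓕 k] :=
      condExp_condExp_of_le (h.mono (Nat.le_succ k)) (h.le _)
    exact h1.symm.trans ((condExp_congr_ae ih).trans (condExp_W_succ h hk))

theorem W_last (ω : Ω) :
    W c N m v N (X κ c N m v b N ω) = X κ c N m v b N ω + c * lam κ c N m v b N ω := by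
  unfold W D lam; simp

theorem W_last_eq (h : Data P c N m v 𝓕 b) (ω : Ω) :
    W c N m v N (X κ c N m v b N ω) = max (X κ c N m v b N ω) 0 := by
  rw [W_last, final h]

/-- **conditional exponential bound for the gap** -/
theorem exp_gap [IsProbabilityMeasure P] (h : Data P c N m v 𝓕 b) (θ : ℝ)
    {i j : ℕ} (hij : i ≤ j) (hj : j ≤ N) {A : Set Ω} (hA : MeasurableSet[𝓕 i] A) :
    ∫⁻ ω in A, ENNReal.ofReal (exp (θ * (W c N m v j (X κ c N m v b j ω)
        - W c N m v i (X κ c N m v b i ω)))) ∂P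
      ≤ ENNReal.ofReal (exp (θ ^ 2 * (∑ k ∈ Finset.Ico i j, (v k : ℝ)) / 2)) * P A := by
  have key := exp_bound (K := fun _ => 1) (κ := κ) h (f := W c N m v)
    (fun i hi => (W_mono h hi).measurable) θ (fun k hk x => ?_) hij hj hA
  · simpa using key
  have h1 := one_step_mono (F := fun z => W c N m v (k + 1) (x + m k * Lam c N m v k x + z))
    (L := 1)
    (fun y z hyz => W_mono h hk (by linarith)) (fun y z => by
      have := W_lip h hk (x + m k * Lam c N m v k x + y) (x + m k * Lam c N m v k x + z)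
      rwa [add_sub_add_left_eq_sub] at this) (v k) θ
  rw [W_mean h hk x] at h1
  rw [← ofReal_integral_eq_lintegral_ofReal h1.1 (Eventually.of_forall fun _ => (exp_pos _).le)]
  exact ENNReal.ofReal_le_ofReal h1.2

end

end Crest.Agent.R146.LipChain_861
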