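import Mathlib

/-!
Row 146, package P5, node LIP / EM (task 92), part C2 (helper861): the class `CSG P A X V` of
(conditionally) sub-Gaussian variables in set form, its closure under `L²` limits, and its
consequences (second and fourth moments, tails, conditional form).
-/

set_option autoImplicit false
set_option maxHeartbeats 400000

namespace Crest.Agent.R146.LipD_861

open MeasureTheory ProbabilityTheory Filter Set Real
open scoped NNReal ENNReal Topology

variable {Ω : Type*} {m mΩ : MeasurableSpace Ω} {P : Measure Ω}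

/-- `E[exp (θ X); A] ≤ exp (θ² V / 2) P(A)` for all real `θ` -/
def CSG (P : Measure Ω) (A : Set Ω) (X : Ω → ℝ) (V : ℝ) : Prop :=
  ∀ θ : ℝ, ∫⁻ ω in A, ENNReal.ofReal (exp (θ * X ω)) ∂P
    ≤ ENNReal.ofReal (exp (θ ^ 2 * V / 2)) * P A

theorem CSG.mono {A : Set Ω} {X : Ω → ℝ} {V V' : ℝ} (h : CSG P A X V) (hV : V ≤ V') :
    CSG P A X V' := fun θ => by
  refine (h θ).trans ?_
  gcongr

theorem CSG.congr {A : Set Ω} {X Y : Ω → ℝ} {V : ℝ} (h : CSG P A X V) (hXY : X =ᵐ[P] Y) :
    CSG P A Y V := fun θ => by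
  refine le_trans (le_of_eq ?_) (h θ)
  refine lintegral_congr_ae (ae_restrict_of_ae ?_)
  filter_upwards [hXY] with ω h1
  rw [h1]

theorem CSG.neg {A : Set Ω} {X : Ω → ℝ} {V : ℝ} (h : CSG P A X V) :
    CSG P A (fun ω => -X ω) V := fun θ => by
  have := h (-θ)
  simp only [neg_mul, neg_sq] at this
  simpa only [mul_neg] using this

/-- convergence in `L²` gives an a.e. convergent subsequence -/
theorem exists_ae_sub {Y : ℕ → Ω → ℝ} {Z : Ω → ℝ} (hY : ∀ n, MemLp (Y n) 2 P)
    (hZ : MemLp Z 2 P) (hlim : Tendsto (fun n => ∫ ω, (Y n ω - Z ω) ^ 2 ∂P) atTop (𝓝 0)) :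
    ∃ ns : ℕ → ℕ, StrictMono ns ∧ ∀ᵐ ω ∂P, Tendsto (fun k => Y (ns k) ω) atTop (𝓝 (Z ω)) := by
  have h1 : Tendsto (fun n => eLpNorm (Y n - Z) 2 P) atTop (𝓝 0) := by
    have h2 : ∀ n, eLpNorm (Y n - Z) 2 P = ENNReal.ofReal (√(∫ ω, (Y n ω - Z ω) ^ 2 ∂P)) := by
      intro n
      rw [((hY n).sub hZ).eLpNorm_eq_integral_rpow_norm (by norm_num) (by norm_num)]
      congr 1
      rw [Real.sqrt_eq_rpow]
      norm_num
    simp only [h2]
    have h3 := (hlim.sqrt)
    rw [Real.sqrt_zero] at h3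
    have h4 := (ENNReal.continuous_ofReal.tendsto 0).comp h3
    rw [ENNReal.ofReal_zero] at h4
    exact h4
  have h2 := tendstoInMeasure_of_tendsto_eLpNorm (p := 2) (by norm_num)
    (fun n => (hY n).aestronglyMeasurable) hZ.aestronglyMeasurable h1
  exact h2.exists_seq_tendsto_ae

/-- **closure under `L²` limits** -/
theorem csg_closed {A : Set Ω} {Y : ℕ → Ω → ℝ} {Z : Ω → ℝ} {V : ℝ} (hY : ∀ n, MemLp (Y n) 2 P)
    (hZ : MemLp Z 2 P) (hlim : Tendsto (fun n => ∫ ω, (Y n ω - Z ω) ^ 2 ∂P) atTop (𝓝 0))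
    (hC : ∀ n, CSG P A (Y n) V) : CSG P A Z V := by
  intro θ
  obtain ⟨ns, _, hns⟩ := exists_ae_sub hY hZ hlim
  have h1 : ∀ᵐ ω ∂P, ENNReal.ofReal (exp (θ * Z ω))
      = liminf (fun k => ENNReal.ofReal (exp (θ * Y (ns k) ω))) atTop := by
    filter_upwards [hns] with ω h
    refine (Tendsto.liminf_eq ?_).symm
    exact (ENNReal.continuous_ofReal.tendsto _).comp
      ((Real.continuous_exp.tendsto _).comp (h.const_mul θ))
  rw [lintegral_congr_ae (ae_restrict_of_ae h1)]
  refine (lintegral_liminf_le' fun k => ?_).trans ?_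
  · exact (((hY (ns k)).aestronglyMeasurable.aemeasurable.const_mul θ).exp.ennreal_ofReal).restrict
  · refine liminf_le_of_frequently_le' (Frequently.of_forall fun k => hC (ns k) θ)

/-! ### consequences -/

variable [IsFiniteMeasure P] {A : Set Ω} {X : Ω → ℝ} {V : ℝ}

theorem CSG.integrable_exp (h : CSG P A X V) (hX : AEMeasurable X P) (θ : ℝ) :
    IntegrableOn (fun ω => exp (θ * X ω)) A P := by
  refine ⟨(hX.const_mul θ).exp.aestronglyMeasurable.restrict, ?_⟩
  rw [hasFiniteIntegral_iff_ofReal (Eventually.of_forall fun ω => (exp_pos _).le)]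
  exact (h θ).trans_lt (ENNReal.mul_lt_top ENNReal.ofReal_lt_top (measure_lt_top P A))

/-- real form of the exponential bound -/
theorem CSG.integral_exp_le (h : CSG P A X V) (hX : AEMeasurable X P) (θ : ℝ) :
    ∫ ω in A, exp (θ * X ω) ∂P ≤ exp (θ ^ 2 * V / 2) * P.real A := by
  have h1 := h θ
  rw [← ofReal_integral_eq_lintegral_ofReal (h.integrable_exp hX θ)
    (Eventually.of_forall fun ω => (exp_pos _).le)] at h1
  rw [← ofReal_measureReal, ← ENNReal.ofReal_mul (exp_pos _).le] at h1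
  exact (ENNReal.ofReal_le_ofReal_iff (by positivity)).1 h1

theorem cosh_ge (x : ℝ) : 2 + x ^ 2 + x ^ 4 / 12 ≤ exp x + exp (-x) := by
  have h1 : HasSum (fun n : ℕ => x ^ n / n.factorial) (exp x) := by
    rw [Real.exp_eq_exp_ℝ]; exact NormedSpace.expSeries_div_hasSum_exp x
  have h2 : HasSum (fun n : ℕ => (-x) ^ n / n.factorial) (exp (-x)) := by
    rw [Real.exp_eq_exp_ℝ]; exact NormedSpace.expSeries_div_hasSum_exp (-x)
  have h3 := h1.add h2
  have h4 := sum_le_hasSum (Finset.range 5) (fun n _ => ?_) h3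
  · refine le_trans (le_of_eq ?_) h4
    simp [Finset.sum_range_succ, Nat.factorial]
    ring
  · rcases Nat.even_or_odd n with hn | hn
    · have : 0 ≤ x ^ n := hn.pow_nonneg x
      have : 0 ≤ (-x) ^ n := hn.pow_nonneg (-x)
      positivity
    · rw [hn.neg_pow, neg_div, add_neg_cancel]

theorem CSG.integrableOn_sq (h : CSG P A X V) (hX : AEMeasurable X P) :
    IntegrableOn (fun ω => X ω ^ 2) A P := by
  have h1 : Integrable (fun ω => exp (1 * X ω) + exp (-1 * X ω)) (P.restrict A) :=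
    (h.integrable_exp hX 1).add (h.integrable_exp hX (-1))
  refine h1.mono' (hX.pow_const 2).aestronglyMeasurable.restrict (Eventually.of_forall fun ω => ?_)
  have h2 := cosh_ge (X ω)
  rw [Real.norm_eq_abs, abs_of_nonneg (sq_nonneg _)]
  simp only [one_mul, neg_one_mul]
  have : 0 ≤ X ω ^ 4 := by positivity
  linarith

theorem CSG.integrableOn_pow4 (h : CSG P A X V) (hX : AEMeasurable X P) :
    IntegrableOn (fun ω => X ω ^ 4) A P := by
  have h1 : Integrable (fun ω => 12 * (exp (1 * X ω) + exp (-1 * X ω))) (P.restrict A) :=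
    ((h.integrable_exp hX 1).add (h.integrable_exp hX (-1))).const_mul 12
  refine h1.mono' (hX.pow_const 4).aestronglyMeasurable.restrict (Eventually.of_forall fun ω => ?_)
  have h2 := cosh_ge (X ω)
  rw [Real.norm_eq_abs, abs_of_nonneg (by positivity)]
  simp only [one_mul, neg_one_mul]
  have : 0 ≤ X ω ^ 2 := by positivity
  linarith

/-- the master inequality for the moments -/
theorem CSG.moments (h : CSG P A X V) (hX : AEMeasurable X P) (θ : ℝ) :
    2 * P.real A + θ ^ 2 * ∫ ω in A, X ω ^ 2 ∂P + θ ^ 4 / 12 * ∫ ω in A, X ω ^ 4 ∂P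
      ≤ 2 * exp (θ ^ 2 * V / 2) * P.real A := by
  have i2 := h.integrableOn_sq hX
  have i4 := h.integrableOn_pow4 hX
  have e1 := h.integrable_exp hX θ
  have e2 := h.integrable_exp hX (-θ)
  have h1 := h.integral_exp_le hX θ
  have h2 := h.integral_exp_le hX (-θ)
  rw [neg_sq] at h2
  have j0 : IntegrableOn (fun _ : Ω => (2 : ℝ)) A P := integrableOn_const (by finiteness)
  have j1 : IntegrableOn (fun ω => θ ^ 2 * X ω ^ 2) A P := i2.const_mul _
  have j2 : IntegrableOn (fun ω => θ ^ 4 / 12 * X ω ^ 4) A P := i4.const_mul _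
  have j01 : IntegrableOn (fun ω => 2 + θ ^ 2 * X ω ^ 2) A P := j0.add j1
  have j012 : IntegrableOn (fun ω => 2 + θ ^ 2 * X ω ^ 2 + θ ^ 4 / 12 * X ω ^ 4) A P := j01.add j2
  have e12 : IntegrableOn (fun ω => exp (θ * X ω) + exp (-θ * X ω)) A P := e1.add e2
  have h3 : ∫ ω in A, (2 + θ ^ 2 * X ω ^ 2 + θ ^ 4 / 12 * X ω ^ 4) ∂P
      ≤ ∫ ω in A, (exp (θ * X ω) + exp (-θ * X ω)) ∂P := by
    refine setIntegral_mono j012 e12 fun ω => ?_
    have := cosh_ge (θ * X ω)
    simp only [neg_mul]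
    refine le_trans (le_of_eq ?_) this
    ring
  rw [integral_add j01 j2, integral_add j0 j1, integral_add e1 e2, integral_const_mul,
    integral_const_mul, setIntegral_const, smul_eq_mul] at h3
  linarith

/-- second moment -/
theorem CSG.sq_le (h : CSG P A X V) (hX : AEMeasurable X P) (hV : 0 ≤ V) :
    ∫ ω in A, X ω ^ 2 ∂P ≤ V * P.real A := by
  refine le_of_forall_pos_le_add fun ε hε => ?_
  have hPA : 0 ≤ P.real A := measureReal_nonneg
  -- choose `θ² = η` small
  set K : ℝ := V ^ 2 / 2 * P.real A + V + 1 with hK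
  have hK0 : 0 < K := by positivity
  set η : ℝ := min (1 / K) (ε / K) with hη
  have hη0 : 0 < η := lt_min (by positivity) (by positivity)
  have hη1 : η * K ≤ 1 := by
    have : η ≤ 1 / K := min_le_left _ _
    calc η * K ≤ 1 / K * K := by gcongr
      _ = 1 := by field_simp
  have hη2 : η * K ≤ ε := by
    have : η ≤ ε / K := min_le_right _ _
    calc η * K ≤ ε / K * K := by gcongr
      _ = ε := by field_simp
  have h1 := h.moments hX (√η)
  have h2 : √η ^ 2 = η := Real.sq_sqrt hη0.le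
  have h4 : 0 ≤ ∫ ω in A, X ω ^ 4 ∂P := integral_nonneg fun ω => by positivity
  have h5 : 0 ≤ √η ^ 4 / 12 * ∫ ω in A, X ω ^ 4 ∂P := mul_nonneg (by positivity) h4
  rw [h2] at h1
  have hx1 : η * V / 2 ≤ 1 := by nlinarith [mul_nonneg hη0.le hV, mul_nonneg hη0.le (by positivity : 0 ≤ V ^ 2 / 2 * P.real A)]
  have hx0 : 0 ≤ η * V / 2 := by positivity
  have hexp : exp (η * V / 2) ≤ 1 + η * V / 2 + (η * V / 2) ^ 2 := by
    have := Real.abs_exp_sub_one_sub_id_le (x := η * V / 2) (by rw [abs_of_nonneg hx0]; exact hx1)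
    have := (abs_le.1 this).2
    linarith
  have h6 : η * ∫ ω in A, X ω ^ 2 ∂P ≤ η * (V * P.real A + η * (V ^ 2 / 2 * P.real A)) := by
    have := mul_le_mul_of_nonneg_right hexp hPA
    nlinarith
  have h7 := le_of_mul_le_mul_left h6 hη0
  refine h7.trans ?_
  have : η * (V ^ 2 / 2 * P.real A) ≤ η * K := by
    refine mul_le_mul_of_nonneg_left ?_ hη0.le
    rw [hK]; linarith
  linarith

/-- fourth moment -/
theorem CSG.pow4_le (h : CSG P A X V) (hX : AEMeasurable X P) (hV : 0 ≤ V) :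
    ∫ ω in A, X ω ^ 4 ∂P ≤ 11 * V ^ 2 * P.real A := by
  have hPA : 0 ≤ P.real A := measureReal_nonneg
  -- it suffices to treat `V > 0`
  have key : ∀ W : ℝ, 0 < W → V ≤ W → ∫ ω in A, X ω ^ 4 ∂P ≤ 11 * W ^ 2 * P.real A := by
    intro W hW hVW
    have h1 := (h.mono hVW).moments hX (√(2 / W))
    have h2 : √(2 / W) ^ 2 = 2 / W := Real.sq_sqrt (by positivity)
    have h3 : √(2 / W) ^ 4 = (2 / W) ^ 2 := by
      calc √(2 / W) ^ 4 = (√(2 / W) ^ 2) ^ 2 := by ring
        _ = _ := by rw [h2]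
    rw [h2, h3] at h1
    have h4 : 0 ≤ ∫ ω in A, X ω ^ 2 ∂P := integral_nonneg fun ω => by positivity
    have h5 : 0 ≤ 2 / W * ∫ ω in A, X ω ^ 2 ∂P := mul_nonneg (by positivity) h4
    have e1 : 2 / W * W / 2 = 1 := by field_simp
    rw [e1] at h1
    have he := Real.exp_one_lt_d9
    have h6 : (2 / W) ^ 2 / 12 * ∫ ω in A, X ω ^ 4 ∂P ≤ 2 * (exp 1 - 1) * P.real A := by linarith
    have h7 : ∫ ω in A, X ω ^ 4 ∂P
        = 3 * W ^ 2 * ((2 / W) ^ 2 / 12 * ∫ ω in A, X ω ^ 4 ∂P) := by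
      field_simp
      ring
    rw [h7]
    calc 3 * W ^ 2 * ((2 / W) ^ 2 / 12 * ∫ ω in A, X ω ^ 4 ∂P)
        ≤ 3 * W ^ 2 * (2 * (exp 1 - 1) * P.real A) := by gcongr
      _ = 6 * (exp 1 - 1) * (W ^ 2 * P.real A) := by ring
      _ ≤ 11 * (W ^ 2 * P.real A) := by
          refine mul_le_mul_of_nonneg_right (by linarith) (by positivity)
      _ = _ := by ring
  rcases hV.eq_or_lt with h0 | h0
  · subst h0
    refine le_of_forall_pos_le_add fun ε hε => ?_
    set W : ℝ := min 1 (ε / (11 * P.real A + 1)) with hW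
    have hW0 : 0 < W := lt_min one_pos (by positivity)
    have h1 := key W hW0 hW0.le
    have h2 : W ≤ 1 := min_le_left _ _
    have h3 : W * (11 * P.real A + 1) ≤ ε := by
      have : W ≤ ε / (11 * P.real A + 1) := min_le_right _ _
      calc W * (11 * P.real A + 1) ≤ ε / (11 * P.real A + 1) * (11 * P.real A + 1) := by gcongr
        _ = ε := by field_simp
    have h4 : W ^ 2 ≤ W := by nlinarith
    have h5 : 11 * W ^ 2 * P.real A ≤ W * (11 * P.real A + 1) := by nlinarith [mul_le_mul_of_nonneg_right h4 hPA]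
    linarith
  · exact key V h0 le_rfl

omit [IsFiniteMeasure P] in
/-- upper tail, set form -/
theorem CSG.tail (h : CSG P A X V) (hX : AEMeasurable X P) (hV : 0 < V) {r : ℝ} (hr : 0 ≤ r) :
    P (A ∩ {ω | r ≤ X ω}) ≤ ENNReal.ofReal (exp (-(r ^ 2 / (2 * V)))) * P A := by
  have h1 := h (r / V)
  set g : Ω → ℝ≥0∞ := fun ω =>
    ENNReal.ofReal (exp (-(r / V * r))) * ENNReal.ofReal (exp (r / V * X ω)) with hg
  have hgm : AEMeasurable g (P.restrict A) := by
    have : AEMeasurable (fun ω => ENNReal.ofReal (exp (r / V * X ω))) P :=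
      (hX.const_mul _).exp.ennreal_ofReal
    exact (this.const_mul _).restrict
  have h3 : {ω | r ≤ X ω} ⊆ {ω | (1 : ℝ≥0∞) ≤ g ω} := by
    intro ω hω
    have hω : r ≤ X ω := hω
    show (1 : ℝ≥0∞) ≤ _
    rw [hg]
    dsimp only
    rw [← ENNReal.ofReal_mul (exp_pos _).le, ← exp_add, ENNReal.one_le_ofReal]
    apply Real.one_le_exp
    have : 0 ≤ r / V * (X ω - r) := mul_nonneg (div_nonneg hr hV.le) (by linarith)
    linarith
  calc P (A ∩ {ω | r ≤ X ω}) = P ({ω | r ≤ X ω} ∩ A) := by rw [inter_comm]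
    _ ≤ P.restrict A {ω | r ≤ X ω} := Measure.le_restrict_apply _ _
    _ ≤ P.restrict A {ω | (1 : ℝ≥0∞) ≤ g ω} := measure_mono h3
    _ ≤ ∫⁻ ω in A, g ω ∂P := by
        have := mul_meas_ge_le_lintegral₀ hgm 1
        rwa [one_mul] at this
    _ = ENNReal.ofReal (exp (-(r / V * r))) * ∫⁻ ω in A, ENNReal.ofReal (exp (r / V * X ω)) ∂P :=
        lintegral_const_mul' _ _ ENNReal.ofReal_ne_top
    _ ≤ ENNReal.ofReal (exp (-(r / V * r)))
          * (ENNReal.ofReal (exp ((r / V) ^ 2 * V / 2)) * P A) := by gcongr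
    _ = _ := by
        rw [← mul_assoc, ← ENNReal.ofReal_mul (exp_pos _).le, ← exp_add]
        congr 3
        field_simp
        ring

/-- upper tail with a measurable threshold, set form -/
theorem tail_var (hm : m ≤ mΩ) (hX : AEMeasurable X P) (hV : 0 < V)
    (h : ∀ A, MeasurableSet[m] A → CSG P A X V) {Y : Ω → ℝ} (hY : Measurable[m] Y)
    (hA : MeasurableSet[m] A) :
    P (A ∩ {ω | Y ω ≤ X ω})
      ≤ ∫⁻ ω in A, ENNReal.ofReal (exp (-((max (Y ω) 0) ^ 2 / (2 * V)))) ∂P := by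
  have hYm : Measurable Y := hY.mono hm le_rfl
  have hAm : MeasurableSet A := hm _ hA
  -- discretised inequality
  have step : ∀ ε : ℝ, 0 < ε → P (A ∩ {ω | Y ω ≤ X ω})
      ≤ ∫⁻ ω in A, ENNReal.ofReal (exp (-((max (Y ω - ε) 0) ^ 2 / (2 * V)))) ∂P := by
    intro ε hε
    let S : ℤ → Set Ω := fun k => A ∩ {ω | ⌊Y ω / ε⌋ = k}
    have hS : ∀ k, MeasurableSet[m] (S k) := fun k => by
      refine hA.inter ?_
      have h0 : Measurable fun y : ℝ => ⌊y / ε⌋ := (measurable_id.div_const ε).floor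
      have h1 : Measurable[m] fun ω => ⌊Y ω / ε⌋ := h0.comp hY
      exact h1 (measurableSet_singleton k)
    have hdisj : Pairwise (Function.onFun Disjoint S) := by
      intro i j hij
      refine Set.disjoint_left.2 fun ω hi hj => hij ?_
      exact (hi.2 : ⌊Y ω / ε⌋ = i).symm.trans hj.2
    have hU : A = ⋃ k, S k := by
      ext ω
      simp only [S, mem_iUnion, mem_inter_iff, Set.mem_ofPred_eq]
      exact ⟨fun h => ⟨_, h, rfl⟩, fun ⟨_, h, _⟩ => h⟩
    have hpiece : ∀ k, P (S k ∩ {ω | Y ω ≤ X ω})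
        ≤ ∫⁻ ω in S k, ENNReal.ofReal (exp (-((max (Y ω - ε) 0) ^ 2 / (2 * V)))) ∂P := by
      intro k
      have hk : ∀ ω ∈ S k, k * ε ≤ Y ω ∧ Y ω < (k + 1) * ε := by
        intro ω hω
        have h1 : ⌊Y ω / ε⌋ = k := hω.2
        rw [Int.floor_eq_iff] at h1
        exact ⟨(le_div_iff₀ hε).1 h1.1, (div_lt_iff₀ hε).1 h1.2⟩
      have h1 : P (S k ∩ {ω | Y ω ≤ X ω})
          ≤ ENNReal.ofReal (exp (-((max (k * ε) 0) ^ 2 / (2 * V)))) * P (S k) := by
        rcases le_total ((k : ℝ) * ε) 0 with h0 | h0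
        · rw [max_eq_right h0]
          simp only [ne_eq, OfNat.ofNat_ne_zero, not_false_eq_true, zero_pow, zero_div, neg_zero,
            exp_zero, ENNReal.ofReal_one, one_mul]
          exact measure_mono inter_subset_left
        · rw [max_eq_left h0]
          refine (measure_mono ?_).trans ((h _ (hS k)).tail hX hV h0)
          intro ω hω
          exact ⟨hω.1, (hk ω hω.1).1.trans hω.2⟩
      refine h1.trans ?_
      rw [← setLIntegral_const]
      refine setLIntegral_mono' (hm _ (hS k)) fun ω hω => ?_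
      apply ENNReal.ofReal_le_ofReal
      apply exp_le_exp.2
      have h2 := hk ω hω
      have h3 : max (Y ω - ε) 0 ≤ max ((k : ℝ) * ε) 0 := by
        refine max_le_max ?_ le_rfl
        have := h2.2
        linarith
      have h4 : 0 ≤ max (Y ω - ε) 0 := le_max_right _ _
      have h5 := pow_le_pow_left₀ h4 h3 2
      have h6 : (max (Y ω - ε) 0) ^ 2 / (2 * V) ≤ (max ((k : ℝ) * ε) 0) ^ 2 / (2 * V) :=
        div_le_div_of_nonneg_right h5 (by positivity)
      linarith
    calc P (A ∩ {ω | Y ω ≤ X ω}) = P (⋃ k, (S k ∩ {ω | Y ω ≤ X ω})) := by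
          rw [← iUnion_inter, ← hU]
      _ ≤ ∑' k, P (S k ∩ {ω | Y ω ≤ X ω}) := measure_iUnion_le _
      _ ≤ ∑' k, ∫⁻ ω in S k, ENNReal.ofReal (exp (-((max (Y ω - ε) 0) ^ 2 / (2 * V)))) ∂P :=
          ENNReal.tsum_le_tsum hpiece
      _ = ∫⁻ ω in ⋃ k, S k, ENNReal.ofReal (exp (-((max (Y ω - ε) 0) ^ 2 / (2 * V)))) ∂P :=
          (lintegral_iUnion (fun k => hm _ (hS k)) hdisj _).symm
      _ = _ := by rw [← hU]
  -- passage to the limit
  have hlim : Tendsto (fun n : ℕ => ∫⁻ ω in A, ENNReal.ofReal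
      (exp (-((max (Y ω - 1 / ((n : ℝ) + 1)) 0) ^ 2 / (2 * V)))) ∂P) atTop
      (𝓝 (∫⁻ ω in A, ENNReal.ofReal (exp (-((max (Y ω) 0) ^ 2 / (2 * V)))) ∂P)) := by
    refine tendsto_lintegral_of_dominated_convergence (fun _ => 1) (fun n => ?_) (fun n => ?_) ?_ ?_
    · fun_prop
    · refine Eventually.of_forall fun ω => ?_
      refine ENNReal.ofReal_le_one.2 (Real.exp_le_one_iff.2 ?_)
      have : 0 ≤ (max (Y ω - 1 / ((n : ℝ) + 1)) 0) ^ 2 / (2 * V) := by positivity
      linarith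
    · rw [lintegral_one]; exact measure_ne_top _ _
    · refine Eventually.of_forall fun ω => ?_
      have h1 : Tendsto (fun n : ℕ => Y ω - 1 / ((n : ℝ) + 1)) atTop (𝓝 (Y ω - 0)) :=
        tendsto_const_nhds.sub tendsto_one_div_add_atTop_nhds_zero_nat
      rw [sub_zero] at h1
      have h2 : Continuous fun y : ℝ => ENNReal.ofReal (exp (-((max y 0) ^ 2 / (2 * V)))) :=
        ENNReal.continuous_ofReal.comp (by fun_prop)
      exact (h2.tendsto _).comp h1
  exact ge_of_tendsto' hlim fun n => step _ (by positivity)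

/-! ### conditional expectation forms -/

/-- a set inequality gives a bound of the conditional expectation -/
theorem condExp_le_const (hm : m ≤ mΩ) {f : Ω → ℝ} (hf : Integrable f P)
    {K : ℝ} (h : ∀ A, MeasurableSet[m] A → ∫ ω in A, f ω ∂P ≤ K * P.real A) :
    ∀ᵐ ω ∂P, (P[f | m]) ω ≤ K := by
  have h1 : ∀ᵐ ω ∂(P.trim hm), (P[f | m]) ω ≤ K := by
    refine ae_le_of_forall_setIntegral_le (f := P[f | m]) (g := fun _ => K)
      (integrable_condExp.trim hm stronglyMeasurable_condExp) (integrable_const K) ?_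
    intro s hs _
    rw [← setIntegral_trim hm stronglyMeasurable_condExp hs, setIntegral_condExp hm hf hs,
      setIntegral_const, smul_eq_mul]
    have := h s hs
    rw [mul_comm]
    refine this.trans (le_of_eq ?_)
    rw [measureReal_def, measureReal_def, trim_measurableSet_eq hm hs]
  exact ae_of_ae_trim hm h1

theorem condExp_sq_le (hm : m ≤ mΩ) (hX : AEMeasurable X P) (hV : 0 ≤ V)
    (h : ∀ A, MeasurableSet[m] A → CSG P A X V) :
    ∀ᵐ ω ∂P, (P[fun ω => X ω ^ 2 | m]) ω ≤ V := by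
  refine condExp_le_const hm ?_ fun A hA => (h A hA).sq_le hX hV
  have := (h univ MeasurableSet.univ).integrableOn_sq hX
  rwa [integrableOn_univ] at this

theorem condExp_pow4_le (hm : m ≤ mΩ) (hX : AEMeasurable X P) (hV : 0 ≤ V)
    (h : ∀ A, MeasurableSet[m] A → CSG P A X V) :
    ∀ᵐ ω ∂P, (P[fun ω => X ω ^ 4 | m]) ω ≤ 11 * V ^ 2 := by
  refine condExp_le_const hm ?_ fun A hA => (h A hA).pow4_le hX hV
  have := (h univ MeasurableSet.univ).integrableOn_pow4 hX
  rwa [integrableOn_univ] at this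

end Crest.Agent.R146.LipD_861
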