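import Crest.Agent.R146.Lev2_576

/-!
Row 146, package P5, node LIP / EM (task 92), part C3 (helper861): right-endpoint sums of the
spectral integral along an arbitrary grid (in the frame of `HilbA_356`) and the three-segment grid
through two prescribed times.
-/

set_option autoImplicit false
set_option maxHeartbeats 400000

namespace Crest.Agent.R146.LipE_861

open Set Filter Topology MeasureTheory
open Crest.Agent.R146.Hilb Crest.Agent.R146.Hilb.Res Crest.Agent.R146.Lev2_576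
open scoped RealInnerProductSpace NNReal

variable {H : Type*} [NormedAddCommGroup H] [InnerProductSpace ℝ H] (R : Res H)

/-- block estimate -/
theorem norm_Dop_block [CompleteSpace H] {g : ℝ → ℝ} (hg : ContinuousOn g (Icc 0 1))
    {a b η ε : ℝ} (ha : 0 ≤ a) (hη : 0 < η) (hε : 0 ≤ ε)
    (hb : ∀ r ∈ Icc (0 : ℝ) 1, a ≤ r → r ≤ b + η → |g r| ≤ ε) {y : H} (hya : R.P a y = 0)
    (hyb : R.P b y = y) : ‖R.Dop g y‖ ≤ ε * ‖y‖ := by
  obtain ⟨n₀, hn₀⟩ := exists_pow_lt_of_lt_one hη (by norm_num : (1 / 2 : ℝ) < 1)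
  refine le_of_tendsto (R.S_tendsto_apply hg y).norm (eventually_atTop.2 ⟨n₀, fun n hn => ?_⟩)
  have hn1 : (1 : ℝ) / 2 ^ n < η := by
    refine lt_of_le_of_lt ?_ hn₀
    rw [← one_div_pow]
    exact pow_le_pow_of_le_one (by norm_num) (by norm_num) hn
  have h0 : R.P 0 y = 0 := by rw [← R.mul 0 a ha, hya, map_zero]
  have h : ‖R.S g n y‖ ^ 2 ≤ (ε * ‖y‖) ^ 2 := by
    rw [R.norm_S_sq, mul_pow, ← R.mass n y, mul_add, Finset.mul_sum, h0]
    refine add_le_add (by simp) (Finset.sum_le_sum fun i hi => ?_)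
    rcases le_total (dy n (i + 1)) a with h1 | h1
    · rw [inc_low R (dy_mono n i.le_succ) h1 hya]; simp
    rcases le_total b (dy n i) with h2 | h2
    · rw [← hyb, inc_high R h2 (dy_mono n i.le_succ)]; simp
    refine mul_le_mul_of_nonneg_right ?_ (sq_nonneg _)
    rw [← sq_abs]
    refine pow_le_pow_left₀ (abs_nonneg _) (hb _ (dy_mem (Finset.mem_range.1 hi)) h1 ?_) 2
    rw [dy_succ]; linarith
  exact abs_le_of_sq_le_sq' h (by positivity) |>.2

/-- right-endpoint sums along a grid -/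
noncomputable def GS (g : ℝ → ℝ) (t : ℕ → ℝ) (N : ℕ) (x : H) : H :=
  g 0 • R.P 0 x + R.RS t (fun i => g (t i)) N x

theorem inc_inc_self {a b : ℝ} (hab : a ≤ b) (x : H) : R.inc a b (R.inc a b x) = R.inc a b x := by
  rw [inc_apply R a b (R.inc a b x), R.P_inc hab, sub_zero, inc_apply, map_sub, R.idem,
    R.mul' hab]

theorem inc_inc_lt {a b a' b' : ℝ} (hab : a ≤ b) (hb : b ≤ a') (hab' : a' ≤ b') (x : H) :
    R.inc a' b' (R.inc a b x) = 0 := by
  have h1 : R.P a' (R.inc a b x) = R.inc a b x := by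
    rw [inc_apply, map_sub, R.mul' hb, R.mul' (hab.trans hb)]
  rw [← h1, inc_high R le_rfl hab']

theorem inc_inc_gt {a b a' b' : ℝ} (hab : a ≤ b) (hb : b ≤ a') (hab' : a' ≤ b') (x : H) :
    R.inc a b (R.inc a' b' x) = 0 := by
  have h1 : R.P b (R.inc a' b' x) = 0 := by
    rw [← R.mul b a' hb, R.P_inc hab', map_zero]
  exact inc_low R hab le_rfl h1

theorem inc_GS {g : ℝ → ℝ} {t : ℕ → ℝ} (ht : Monotone t) (h0 : 0 ≤ t 0) {N i : ℕ} (hi : i < N)
    (x : H) : R.inc (t i) (t (i + 1)) (GS R g t N x) = g (t i) • R.inc (t i) (t (i + 1)) x := by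
  rw [GS, map_add, map_smul, inc_high R (h0.trans (ht (Nat.zero_le i))) (ht i.le_succ), smul_zero,
    zero_add, RS_apply, map_sum, Finset.sum_eq_single i]
  · rw [map_smul, inc_inc_self R (ht i.le_succ)]
  · intro j _ hj
    rw [map_smul]
    rcases lt_or_gt_of_ne hj with h | h
    · rw [inc_inc_lt R (ht j.le_succ) (ht h) (ht i.le_succ), smul_zero]
    · rw [inc_inc_gt R (ht i.le_succ) (ht h) (ht j.le_succ), smul_zero]
  · intro h
    exact absurd (Finset.mem_range.2 hi) h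

theorem P0_GS {g : ℝ → ℝ} {t : ℕ → ℝ} (ht : Monotone t) (h0 : 0 ≤ t 0) (N : ℕ) (x : H) :
    R.P 0 (GS R g t N x) = g 0 • R.P 0 x := by
  rw [GS, map_add, map_smul, R.idem, RS_apply, map_sum, Finset.sum_eq_zero, add_zero]
  intro i _
  rw [map_smul, inc_apply, map_sub, R.mul 0 _ (h0.trans (ht (Nat.zero_le _))),
    R.mul 0 _ (h0.trans (ht (Nat.zero_le _))), sub_self, smul_zero]

theorem P0_Dop' [CompleteSpace H] {g : ℝ → ℝ} (hg : ContinuousOn g (Icc 0 1)) (x : H) :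
    R.P 0 (R.Dop g x) = g 0 • R.P 0 x := by
  have h1 : Tendsto (fun n => R.P 0 (R.S g n x)) atTop (𝓝 (R.P 0 (R.Dop g x))) :=
    ((R.P 0).continuous.tendsto _).comp (R.S_tendsto_apply hg x)
  refine tendsto_nhds_unique h1 (tendsto_const_nhds.congr fun n => ?_)
  rw [S_apply, RS_apply, map_add, map_smul, R.idem, map_sum]
  rw [Finset.sum_eq_zero, add_zero]
  intro i _
  rw [map_smul, inc_apply, map_sub, R.mul 0 _ (dy_nonneg _ _), R.mul 0 _ (dy_nonneg _ _),
    sub_self, smul_zero]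

/-- **consistency** of the right-endpoint sums -/
theorem norm_Dop_sub_GS [CompleteSpace H] {g : ℝ → ℝ} (hg : ContinuousOn g (Icc 0 1))
    {t : ℕ → ℝ} (ht : Monotone t) (h0 : t 0 = 0) {N : ℕ} (hN : t N = 1) {ε η : ℝ} (hη : 0 < η)
    (hε : 0 ≤ ε) (hosc : ∀ i < N, ∀ r ∈ Icc (0 : ℝ) 1, t i ≤ r → r ≤ t (i + 1) + η →
      |g r - g (t i)| ≤ ε) (x : H) : ‖R.Dop g x - GS R g t N x‖ ≤ ε * ‖x‖ := by
  set z : H := R.Dop g x - GS R g t N x with hz
  have hz0 : R.P 0 z = 0 := by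
    rw [hz, map_sub, P0_Dop' R hg, P0_GS R ht h0.ge, sub_self]
  have hzi : ∀ i < N, ‖R.inc (t i) (t (i + 1)) z‖ ≤ ε * ‖R.inc (t i) (t (i + 1)) x‖ := by
    intro i hi
    have hti : 0 ≤ t i := h0 ▸ ht (Nat.zero_le i)
    have e1 : R.inc (t i) (t (i + 1)) z
        = R.Dop (fun r => g r - g (t i)) (R.inc (t i) (t (i + 1)) x) := by
      have e2 : R.inc (t i) (t (i + 1)) (R.Dop g x) = R.Dop g (R.inc (t i) (t (i + 1)) x) := by
        rw [inc_apply, inc_apply, map_sub, Lev2_576.P_Dop R hg, Lev2_576.P_Dop R hg]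
      have e3 := congrArg (fun T => T (R.inc (t i) (t (i + 1)) x))
        (R.Dop_sub hg (continuousOn_const (c := g (t i))))
      simp only [sub_apply, R.Dop_const] at e3
      rw [hz, map_sub, inc_GS R ht h0.ge hi, e2, e3]
    rw [e1]
    refine norm_Dop_block R (hg.sub continuousOn_const) hti hη hε (hosc i hi) ?_ ?_
    · exact R.P_inc (ht i.le_succ) x
    · rw [inc_apply, map_sub, R.idem, R.mul' (ht i.le_succ)]
  have hsum := R.sum_norm_inc ht N z
  rw [hN, R.one, h0, hz0] at hsum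
  have hsx := R.sum_norm_inc ht N x
  rw [hN, R.one] at hsx
  have h2 : ‖z‖ ^ 2 ≤ (ε * ‖x‖) ^ 2 := by
    have h3 : ∑ i ∈ Finset.range N, ‖R.inc (t i) (t (i + 1)) z‖ ^ 2
        ≤ ∑ i ∈ Finset.range N, ε ^ 2 * ‖R.inc (t i) (t (i + 1)) x‖ ^ 2 := by
      refine Finset.sum_le_sum fun i hi => ?_
      rw [← mul_pow]
      exact pow_le_pow_left₀ (norm_nonneg _) (hzi i (Finset.mem_range.1 hi)) 2
    rw [← Finset.mul_sum, hsum, hsx] at h3
    simp only [norm_zero] at h3
    have h4 : 0 ≤ ε ^ 2 * ‖R.P (t 0) x‖ ^ 2 := by positivity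
    nlinarith
  exact abs_le_of_sq_le_sq' h2 (by positivity) |>.2

/-- Abel summation -/
theorem GS_eq {g : ℝ → ℝ} {t : ℕ → ℝ} (h0 : t 0 = 0) (N : ℕ) (x : H) :
    GS R g t N x = ∑ k ∈ Finset.range N, (g (t (k - 1)) - g (t k)) • R.P (t k) x
      + g (t (N - 1)) • R.P (t N) x := by
  induction N with
  | zero => simp [GS, RS, h0]
  | succ N ih =>
    have e : GS R g t (N + 1) x = GS R g t N x + g (t N) • (R.P (t (N + 1)) x - R.P (t N) x) := by
      rw [GS, GS, RS_succ, add_assoc]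
      rfl
    rw [e, ih, Finset.sum_range_succ, Nat.add_sub_cancel, sub_smul, smul_sub]
    abel

/-! ### the three-segment grid -/

/-- the grid `0 → s → u → 1`, `n` steps in each segment -/
noncomputable def grid (s u : ℝ≥0) (n i : ℕ) : ℝ≥0 :=
  s * ((min i n : ℕ) : ℝ≥0) / n + (u - s) * ((min (i - n) n : ℕ) : ℝ≥0) / n
    + (1 - u) * ((min (i - 2 * n) n : ℕ) : ℝ≥0) / n

theorem grid_zero (s u : ℝ≥0) (n : ℕ) : grid s u n 0 = 0 := by simp [grid]

theorem grid_mono (s u : ℝ≥0) (n : ℕ) : Monotone (grid s u n) := by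
  intro i j hij
  unfold grid
  gcongr

theorem grid_s (s u : ℝ≥0) {n : ℕ} (hn : 0 < n) : grid s u n n = s := by
  have h : (n : ℝ≥0) ≠ 0 := by exact_mod_cast hn.ne'
  have h2 : n - 2 * n = 0 := by omega
  simp [grid, h, h2]

theorem grid_u {s u : ℝ≥0} (hsu : s ≤ u) {n : ℕ} (hn : 0 < n) : grid s u n (2 * n) = u := by
  have h : (n : ℝ≥0) ≠ 0 := by exact_mod_cast hn.ne'
  have h1 : min (2 * n) n = n := by omega
  have h2 : min (2 * n - n) n = n := by omega
  simp [grid, h, h1, h2, add_tsub_cancel_of_le hsu]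

theorem grid_one {s u : ℝ≥0} (hsu : s ≤ u) (hu : u ≤ 1) {n : ℕ} (hn : 0 < n) :
    grid s u n (3 * n) = 1 := by
  have h : (n : ℝ≥0) ≠ 0 := by exact_mod_cast hn.ne'
  have h1 : min (3 * n) n = n := by omega
  have h2 : min (3 * n - n) n = n := by omega
  have h3 : min (3 * n - 2 * n) n = n := by omega
  simp [grid, h, h1, h2, h3, add_tsub_cancel_of_le hsu, add_tsub_cancel_of_le hu]

theorem grid_le {s u : ℝ≥0} (hsu : s ≤ u) (hu : u ≤ 1) {n : ℕ} (hn : 0 < n) (i : ℕ) :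
    grid s u n i ≤ 1 := by
  rw [← grid_one hsu hu hn]
  rcases le_total i (3 * n) with h | h
  · exact grid_mono s u n h
  · unfold grid
    gcongr 1
    · gcongr 1
      · have : min i n = min (3 * n) n := by omega
        rw [this]
      · have : min (i - n) n = min (3 * n - n) n := by omega
        rw [this]
    · have : min (i - 2 * n) n = min (3 * n - 2 * n) n := by omega
      rw [this]

theorem grid_step {s u : ℝ≥0} (hsu : s ≤ u) (hu : u ≤ 1) (n i : ℕ) :
    grid s u n (i + 1) ≤ grid s u n i + 1 / n := by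
  unfold grid
  have h1 : ((min (i + 1) n : ℕ) : ℝ≥0) ≤ (min i n : ℕ) + 1 := by
    have : min (i + 1) n ≤ min i n + 1 := by omega
    exact_mod_cast this
  have h2 : ((min (i + 1 - n) n : ℕ) : ℝ≥0) ≤ (min (i - n) n : ℕ) + 1 := by
    have : min (i + 1 - n) n ≤ min (i - n) n + 1 := by omega
    exact_mod_cast this
  have h3 : ((min (i + 1 - 2 * n) n : ℕ) : ℝ≥0) ≤ (min (i - 2 * n) n : ℕ) + 1 := by
    have : min (i + 1 - 2 * n) n ≤ min (i - 2 * n) n + 1 := by omega
    exact_mod_cast this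
  have h4 : s + (u - s) + (1 - u) = 1 := by
    rw [add_tsub_cancel_of_le hsu, add_tsub_cancel_of_le hu]
  calc _ ≤ s * (((min i n : ℕ) : ℝ≥0) + 1) / n + (u - s) * (((min (i - n) n : ℕ) : ℝ≥0) + 1) / n
        + (1 - u) * (((min (i - 2 * n) n : ℕ) : ℝ≥0) + 1) / n := by gcongr
    _ = s * ((min i n : ℕ) : ℝ≥0) / n + (u - s) * ((min (i - n) n : ℕ) : ℝ≥0) / n
        + (1 - u) * ((min (i - 2 * n) n : ℕ) : ℝ≥0) / n + (s + (u - s) + (1 - u)) / n := by
        simp only [mul_add, mul_one, add_div]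
        ring
    _ = _ := by rw [h4]

end Crest.Agent.R146.LipE_861
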