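import Crest.Agent.R146.LipC_861
import Crest.Agent.R146.LipD_861
import Crest.Agent.R146.LipE_861

/-!
Row 146, package P5, node LIP / EM (task 92), main theorem (helper861), in the model of
`Lev2_576`.

`x, y ∈ H` with `J x ≥ 0`, `J y ≥ 0`, `⟪x, y⟫ = 0`, `J y = κ + B_1 + J (Dop D x)` a.e., `D ≥ 0`
continuous and nonincreasing on `[0,1]`, positive on `[0,1)` (the damping is included in `D`:
`D = g + c`).  Then for `0 ≤ s ≤ u ≤ 1`, `A ∈ F_s` and all real `θ`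

* `em_gap`  : `E[exp (θ (y_u - y_s)); A] ≤ exp (θ² (u - s) / 2) P(A)`,
* `em_force`: `E[exp (θ (x_u - x_s)); A] ≤ exp (θ² (V u - V s) / 2) P(A)` for every `V` with
  `(b - a) / D(a)² ≤ V b - V a`, e.g. `V t = ∫_0^t D⁻²`.
-/

set_option autoImplicit false
set_option maxHeartbeats 400000

namespace Crest.Agent.R146.LipF_861

open Set Filter Topology MeasureTheory ProbabilityTheory
open Crest.Agent.R146.Hilb Crest.Agent.R146.Hilb.Res Crest.Agent.R146.Lev2_576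
open Crest.Agent.R146.LipB_861 Crest.Agent.R146.LipChain_861 Crest.Agent.R146.LipC_861
  Crest.Agent.R146.LipD_861 Crest.Agent.R146.LipE_861 ProbabilityR.Perceptron
open scoped RealInnerProductSpace NNReal ENNReal

variable {H : Type*} [NormedAddCommGroup H] [InnerProductSpace ℝ H] {R : Res H}
  {Ω : Type*} {mΩ : MeasurableSpace Ω} {P : Measure Ω} {B : ℝ≥0 → Ω → ℝ}
  {hBm : ∀ t, Measurable (B t)}

theorem J_zero (M : Model R P B hBm) : M.J 0 =ᵐ[P] fun _ => 0 := by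
  have h := M.smul 0 0
  rw [smul_zero] at h
  filter_upwards [h] with ω h
  rw [h, zero_mul]

theorem J_sum (M : Model R P B hBm) (N : ℕ) (a : ℕ → ℝ) (x : ℕ → H) :
    M.J (∑ k ∈ Finset.range N, a k • x k)
      =ᵐ[P] fun ω => ∑ k ∈ Finset.range N, a k * M.J (x k) ω := by
  induction N with
  | zero => simpa using J_zero M
  | succ N ih =>
    rw [Finset.sum_range_succ]
    filter_upwards [M.add (∑ k ∈ Finset.range N, a k • x k) (a N • x N), M.smul (a N) (x N), ih]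
      with ω h1 h2 h3
    rw [h1, h2, h3, Finset.sum_range_succ]

theorem J_P (M : Model R P B hBm) {t : ℝ≥0} (ht : t ≤ 1) (x : H) :
    M.J (R.P t x) =ᵐ[P] P[M.J x | brownianFiltration B hBm t] := by
  have h := M.cond t ⟨t.2, by exact_mod_cast ht⟩ x
  rwa [Real.toNNReal_coe] at h

/-! ### the chain attached to a grid -/

section Grid

variable (B) (hBm) (D : ℝ → ℝ) (δ : ℝ) (s u : ℝ≥0) (n : ℕ)

noncomputable def tt (i : ℕ) : ℝ := (grid s u n i : ℝ)

noncomputable def cc : ℝ := D (tt s u n (3 * n - 1)) + δ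

noncomputable def mm (i : ℕ) : ℝ := D (tt s u n (i - 1)) - D (tt s u n i)

noncomputable def vv (i : ℕ) : ℝ≥0 := grid s u n (i + 1) - grid s u n i

/-- the `σ`-algebras along the grid -/
@[reducible] noncomputable def FF (i : ℕ) : MeasurableSpace Ω :=
  brownianFiltration B hBm (grid s u n i)

noncomputable def bb (i : ℕ) (ω : Ω) : ℝ := B (grid s u n (i + 1)) ω - B (grid s u n i) ω

end Grid

section Chain

variable {D : ℝ → ℝ} {δ : ℝ} {s u : ℝ≥0} {n : ℕ}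

theorem tt_mono : Monotone (tt s u n) := fun _ _ h => NNReal.coe_le_coe.2 (grid_mono s u n h)

theorem tt_mem (hsu : s ≤ u) (hu : u ≤ 1) (hn : 0 < n) (i : ℕ) : tt s u n i ∈ Icc (0 : ℝ) 1 :=
  ⟨(grid s u n i).2, by have := grid_le hsu hu hn i; exact_mod_cast this⟩

theorem mm_nonneg (hsu : s ≤ u) (hu : u ≤ 1) (hn : 0 < n) (ha : AntitoneOn D (Icc 0 1)) (i : ℕ) :
    0 ≤ mm D s u n i :=
  sub_nonneg.2 (ha (tt_mem hsu hu hn _) (tt_mem hsu hu hn _) (tt_mono (Nat.sub_le i 1)))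

theorem D_nonneg (ha : AntitoneOn D (Icc 0 1)) (h1 : 0 ≤ D 1) {t : ℝ} (ht : t ∈ Icc (0 : ℝ) 1) :
    0 ≤ D t := h1.trans (ha ht (by simp) ht.2)

theorem D_chain {i : ℕ} (hi : i ≤ 3 * n) :
    LipChain_861.D (cc D δ s u n) (3 * n) (mm D s u n) i = D (tt s u n (i - 1)) + δ := by
  have key : ∀ N, i ≤ N → ∑ j ∈ Finset.Ico i N, mm D s u n j
      = D (tt s u n (i - 1)) - D (tt s u n (N - 1)) := by
    intro N hN
    induction N, hN using Nat.le_induction with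
    | base => simp
    | succ N hN ih =>
      rw [Finset.sum_Ico_succ_top hN, ih, Nat.add_sub_cancel]
      unfold mm; ring
  unfold LipChain_861.D cc
  rw [key _ hi]
  ring

theorem data (hB : IsPreBrownianReal B P) (hsu : s ≤ u) (hu : u ≤ 1) (hn : 0 < n)
    (ha : AntitoneOn D (Icc 0 1)) (h1 : 0 ≤ D 1) (hδ : 0 < δ) :
    Data P (cc D δ s u n) (3 * n) (mm D s u n) (vv s u n) (FF B hBm s u n) (bb B s u n) where
  hc := by
    have := D_nonneg ha h1 (tt_mem hsu hu hn (3 * n - 1))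
    unfold cc; linarith
  hm := fun i _ => mm_nonneg hsu hu hn ha i
  mono := fun i j hij => (brownianFiltration B hBm).mono (grid_mono s u n hij)
  le := fun i => (brownianFiltration B hBm).le _
  meas := fun i _ => by
    have h1 : ∀ r : ℝ≥0, r ≤ grid s u n (i + 1) →
        Measurable[brownianFiltration B hBm (grid s u n (i + 1))] (B r) := fun r hr =>
      (Filtration.stronglyAdapted_natural (fun t => (hBm t).stronglyMeasurable) r).measurable.mono
        ((brownianFiltration B hBm).mono hr) le_rfl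
    exact (h1 _ le_rfl).sub (h1 _ (grid_mono s u n i.le_succ))
  ind := fun i _ => indep_incr hB hBm (grid_mono s u n i.le_succ)
  law := fun i _ => map_incr hB (grid_mono s u n i.le_succ)

theorem sum_bb (hB : IsPreBrownianReal B P) (hsu : s ≤ u) (hu : u ≤ 1) (hn : 0 < n) :
    ∀ᵐ ω ∂P, ∑ j ∈ Finset.range (3 * n), bb B s u n j ω = B 1 ω := by
  have h0 : ∀ᵐ ω ∂P, B 0 ω = 0 := hB.eval_zero_ae_eq_zero
  filter_upwards [h0] with ω h
  unfold bb
  rw [Finset.sum_range_sub (fun i => B (grid s u n i) ω), grid_one hsu hu hn, grid_zero, h,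
    sub_zero]

/-- the equation of `y` along the grid -/
theorem grid_eq [CompleteSpace H] (M : Model R P B hBm) (hB : IsPreBrownianReal B P)
    (hsu : s ≤ u) (hu : u ≤ 1) (hn : 0 < n) {κ : ℝ} {x y : H}
    (hy : M.J y =ᵐ[P] fun ω => κ + B 1 ω + M.J (R.Dop D x) ω) :
    ∀ᵐ ω ∂P, M.J y ω = κ + ∑ j ∈ Finset.range (3 * n), bb B s u n j ω
      + ∑ j ∈ Finset.range (3 * n), mm D s u n j * (P[M.J x | FF B hBm s u n j]) ω
      + (cc D δ s u n - δ) * M.J x ω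
      + M.J (R.Dop D x - GS R D (tt s u n) (3 * n) x) ω := by
  have h0 : tt s u n 0 = 0 := by unfold tt; rw [grid_zero]; rfl
  have hN : tt s u n (3 * n) = 1 := by unfold tt; rw [grid_one hsu hu hn]; rfl
  have hG := GS_eq R (g := D) h0 (3 * n) x
  rw [hN, R.one] at hG
  have hc : ∀ j : ℕ, M.J (R.P (tt s u n j) x) =ᵐ[P] P[M.J x | FF B hBm s u n j] := fun j =>
    J_P M (grid_le hsu hu hn j) x
  have hc' : ∀ᵐ ω ∂P, ∀ j : ℕ, M.J (R.P (tt s u n j) x) ω = (P[M.J x | FF B hBm s u n j]) ω :=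
    ae_all_iff.2 hc
  have hs := J_sum M (3 * n) (fun k => D (tt s u n (k - 1)) - D (tt s u n k))
    (fun k => R.P (tt s u n k) x)
  have ha := M.add (∑ k ∈ Finset.range (3 * n),
    (D (tt s u n (k - 1)) - D (tt s u n k)) • R.P (tt s u n k) x) (D (tt s u n (3 * n - 1)) • x)
  rw [← hG] at ha
  filter_upwards [hy, sum_bb hB hsu hu hn, hc', hs, ha, M.smul (D (tt s u n (3 * n - 1))) x,
    M.sub (R.Dop D x) (GS R D (tt s u n) (3 * n) x)] with ω h1 h2 h3 h4 h5 h6 h7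
  rw [h1, h2, h7, h5, h4, h6]
  simp only [h3, mm, cc]
  ring

end Chain

section Main

theorem ae_mul_zero (M : Model R P B hBm) {x y : H} (x0 : 0 ≤ᵐ[P] M.J x) (y0 : 0 ≤ᵐ[P] M.J y)
    (hxy : ⟪x, y⟫ = 0) : ∀ᵐ ω ∂P, M.J x ω * M.J y ω = 0 := by
  have h1 : 0 ≤ᵐ[P] fun ω => M.J x ω * M.J y ω := by
    filter_upwards [x0, y0] with ω h1 h2
    exact mul_nonneg h1 h2
  have h2 := M.inner x y
  rw [hxy] at h2
  exact (integral_eq_zero_iff_of_nonneg_ae h1 ((M.memLp x).integrable_mul (M.memLp y))).1 h2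

theorem sum_tel {i j : ℕ} (hij : i ≤ j) (f : ℕ → ℝ) :
    ∑ k ∈ Finset.Ico i j, (f (k + 1) - f k) = f j - f i := by
  induction j, hij using Nat.le_induction with
  | base => simp
  | succ j hj ih => rw [Finset.sum_Ico_succ_top hj, ih]; ring

theorem int_sub_sq {f g f' g' : Ω → ℝ} (hf : MemLp f 2 P) (hg : MemLp g 2 P) (hf' : MemLp f' 2 P)
    (hg' : MemLp g' 2 P) {K K' : ℝ} (h : ∫ ω, (f ω - f' ω) ^ 2 ∂P ≤ K)
    (h' : ∫ ω, (g ω - g' ω) ^ 2 ∂P ≤ K') :
    ∫ ω, ((f ω - g ω) - (f' ω - g' ω)) ^ 2 ∂P ≤ 2 * K + 2 * K' := by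
  have i1 : Integrable (fun ω => 2 * (f ω - f' ω) ^ 2) P := ((hf.sub hf').integrable_sq).const_mul 2
  have i2 : Integrable (fun ω => 2 * (g ω - g' ω) ^ 2) P := ((hg.sub hg').integrable_sq).const_mul 2
  have i0 : Integrable (fun ω => ((f ω - g ω) - (f' ω - g' ω)) ^ 2) P :=
    ((hf.sub hg).sub (hf'.sub hg')).integrable_sq
  calc ∫ ω, ((f ω - g ω) - (f' ω - g' ω)) ^ 2 ∂P
      ≤ ∫ ω, (2 * (f ω - f' ω) ^ 2 + 2 * (g ω - g' ω) ^ 2) ∂P := by
        refine integral_mono i0 (i1.add i2) fun ω => ?_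
        show _ ≤ _
        simp only
        nlinarith [sq_nonneg ((f ω - f' ω) + (g ω - g' ω))]
    _ = 2 * ∫ ω, (f ω - f' ω) ^ 2 ∂P + 2 * ∫ ω, (g ω - g' ω) ^ 2 ∂P := by
        rw [integral_add i1 i2, integral_const_mul, integral_const_mul]
    _ ≤ _ := by linarith

/-- approximation by chains -/
theorem step [CompleteSpace H] [IsProbabilityMeasure P] (M : Model R P B hBm)
    (hB : IsPreBrownianReal B P) {κ : ℝ} {D : ℝ → ℝ} (hD : ContinuousOn D (Icc 0 1))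
    (ha : AntitoneOn D (Icc 0 1)) (h1 : 0 ≤ D 1) {x y : H} (x0 : 0 ≤ᵐ[P] M.J x)
    (y0 : 0 ≤ᵐ[P] M.J y) (hxy : ⟪x, y⟫ = 0)
    (hy : M.J y =ᵐ[P] fun ω => κ + B 1 ω + M.J (R.Dop D x) ω) {s u : ℝ≥0} (hsu : s ≤ u)
    (hu : u ≤ 1) {δ : ℝ} (hδ : 0 < δ) :
    ∃ Yl Yh : Ω → ℝ, MemLp Yl 2 P ∧ MemLp Yh 2 P ∧
      (∀ A, MeasurableSet[brownianFiltration B hBm s] A → CSG P A Yh (u - s)) ∧
      (0 < D u → ∀ V : ℝ → ℝ,
        (∀ a b : ℝ, (s : ℝ) ≤ a → a ≤ b → b ≤ u → (b - a) / D a ^ 2 ≤ V b - V a) →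
        ∀ A, MeasurableSet[brownianFiltration B hBm s] A → CSG P A Yl (V u - V s)) ∧
      (0 < D u → ∫ ω, (Yl ω - (M.J (R.P u x) ω - M.J (R.P s x) ω)) ^ 2 ∂P
        ≤ 2 * (4 * δ * ‖x‖ ^ 2 / D u) + 2 * (4 * δ * ‖x‖ ^ 2 / D u)) ∧
      ∫ ω, (Yh ω - (M.J (R.P u y) ω - M.J (R.P s y) ω)) ^ 2 ∂P
        ≤ 2 * (2 * (D 0 + δ) * (4 * δ * ‖x‖ ^ 2) + 4 * (δ ^ 2 * ‖x‖ ^ 2 + δ ^ 2 * ‖x‖ ^ 2))
          + 2 * (2 * (D 0 + δ) * (4 * δ * ‖x‖ ^ 2)
            + 4 * (δ ^ 2 * ‖x‖ ^ 2 + δ ^ 2 * ‖x‖ ^ 2)) := by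
  -- the grid
  have hunif := isCompact_Icc.uniformContinuousOn_of_continuous hD
  rw [Metric.uniformContinuousOn_iff] at hunif
  obtain ⟨η, hη, hosc⟩ := hunif δ hδ
  obtain ⟨n0, hn0⟩ := exists_nat_one_div_lt (half_pos hη)
  obtain ⟨n, hnn⟩ : ∃ n : ℕ, n = n0 + 1 := ⟨_, rfl⟩
  have hn : 0 < n := by omega
  have hn1 : (1 : ℝ) / n < η / 2 := by rw [hnn]; push_cast; exact hn0
  have h0t : tt s u n 0 = 0 := by unfold tt; rw [grid_zero]; rfl
  have hNt : tt s u n (3 * n) = 1 := by unfold tt; rw [grid_one hsu hu hn]; rfl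
  have hst : tt s u n n = s := by unfold tt; rw [grid_s s u hn]
  have hut : tt s u n (2 * n) = u := by unfold tt; rw [grid_u hsu hn]
  have hstep : ∀ i, tt s u n (i + 1) ≤ tt s u n i + 1 / n := fun i => by
    have := grid_step hsu hu n i
    have h2 : ((grid s u n (i + 1) : ℝ≥0) : ℝ) ≤ ((grid s u n i + 1 / n : ℝ≥0) : ℝ) :=
      NNReal.coe_le_coe.2 this
    push_cast at h2
    exact h2
  have herr : ‖R.Dop D x - GS R D (tt s u n) (3 * n) x‖ ≤ δ * ‖x‖ := by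
    refine norm_Dop_sub_GS R hD tt_mono h0t hNt (half_pos hη) hδ.le (fun i _ r hr h2 h3 => ?_) x
    have h4 := hosc r hr (tt s u n i) (tt_mem hsu hu hn i) (by
      rw [Real.dist_eq, abs_of_nonneg (by linarith)]
      have := hstep i
      linarith)
    rw [Real.dist_eq] at h4
    exact h4.le
  -- the chain
  have hd := data (B := B) (hBm := hBm) hB hsu hu hn ha h1 hδ
  have heq := grid_eq (δ := δ) M hB hsu hu hn hy
  have hl := M.memLp x
  have hh := M.memLp y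
  have he := M.memLp (R.Dop D x - GS R D (tt s u n) (3 * n) x)
  have he2 : ∫ ω, M.J (R.Dop D x - GS R D (tt s u n) (3 * n) x) ω ^ 2 ∂P
      ≤ δ ^ 2 * ∫ ω, M.J x ω ^ 2 ∂P := by
    rw [M.norm_sq, M.norm_sq, ← mul_pow]
    exact pow_le_pow_left₀ (norm_nonneg _) herr 2
  have hcc : δ ≤ cc D δ s u n := by
    have := D_nonneg ha h1 (tt_mem hsu hu hn (3 * n - 1))
    unfold cc; linarith
  have hq := stab hd hδ hcc hδ.le le_rfl hl he x0 y0 (ae_mul_zero M x0 y0 hxy) heq he2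
  simp only [M.norm_sq] at hq he2
  have hn3 : n ≤ 3 * n := by omega
  have h2n3 : 2 * n ≤ 3 * n := by omega
  have hn2n : n ≤ 2 * n := by omega
  have hFs : FF B hBm s u n n = brownianFiltration B hBm s := by
    show brownianFiltration B hBm (grid s u n n) = _
    rw [grid_s s u hn]
  have hFu : FF B hBm s u n (2 * n) = brownianFiltration B hBm u := by
    show brownianFiltration B hBm (grid s u n (2 * n)) = _
    rw [grid_u hsu hn]
  have hs1 : s ≤ 1 := hsu.trans hu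
  refine ⟨fun ω => lam κ (cc D δ s u n) (3 * n) (mm D s u n) (vv s u n) (bb B s u n) (2 * n) ω
      - lam κ (cc D δ s u n) (3 * n) (mm D s u n) (vv s u n) (bb B s u n) n ω,
    fun ω => W (cc D δ s u n) (3 * n) (mm D s u n) (vv s u n) (2 * n)
        (X κ (cc D δ s u n) (3 * n) (mm D s u n) (vv s u n) (bb B s u n) (2 * n) ω)
      - W (cc D δ s u n) (3 * n) (mm D s u n) (vv s u n) n
        (X κ (cc D δ s u n) (3 * n) (mm D s u n) (vv s u n) (bb B s u n) n ω),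
    (lam_memLp hd h2n3).sub (lam_memLp hd hn3), (W_memLp hd h2n3).sub (W_memLp hd hn3),
    ?_, ?_, ?_, ?_⟩
  · intro A hA θ
    have h2 := exp_gap (κ := κ) hd θ hn2n h2n3 (A := A) (by rw [hFs]; exact hA)
    have h3 : ∑ k ∈ Finset.Ico n (2 * n), ((vv s u n k : ℝ≥0) : ℝ) = (u : ℝ) - s := by
      rw [← hut, ← hst, ← sum_tel hn2n]
      refine Finset.sum_congr rfl fun k _ => ?_
      unfold vv tt
      rw [NNReal.coe_sub (grid_mono s u n k.le_succ)]
    rw [h3] at h2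
    exact h2
  · intro hDu V hV A hA θ
    have h2 := exp_lam (κ := κ) hd θ hn2n h2n3 (A := A) (by rw [hFs]; exact hA)
    refine h2.trans ?_
    have h3 : ∑ k ∈ Finset.Ico n (2 * n), (1 / LipChain_861.D (cc D δ s u n) (3 * n)
        (mm D s u n) (k + 1)) ^ 2 * ((vv s u n k : ℝ≥0) : ℝ) ≤ V u - V s := by
      rw [← hut, ← hst, ← sum_tel hn2n (fun k => V (tt s u n k))]
      refine Finset.sum_le_sum fun k hk => ?_
      rw [Finset.mem_Ico] at hk
      rw [D_chain (by omega), Nat.add_sub_cancel]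
      have hk1 : (s : ℝ) ≤ tt s u n k := by rw [← hst]; exact tt_mono hk.1
      have hk2 : tt s u n (k + 1) ≤ u := by rw [← hut]; exact tt_mono hk.2
      have hk3 : tt s u n k ≤ tt s u n (k + 1) := tt_mono k.le_succ
      have h4 := hV _ _ hk1 hk3 hk2
      refine le_trans ?_ h4
      have hDk : 0 < D (tt s u n k) := hDu.trans_le
        (ha (tt_mem hsu hu hn k) ⟨u.2, by exact_mod_cast hu⟩ (hk3.trans hk2))
      unfold vv
      rw [NNReal.coe_sub (grid_mono s u n k.le_succ), mul_comm, one_div, inv_pow,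
        div_eq_mul_inv (_ - _)]
      refine mul_le_mul_of_nonneg_left ?_ (sub_nonneg.2 hk3)
      refine inv_anti₀ (by positivity) ?_
      gcongr
      linarith
    gcongr
  · intro hDu
    have e1 : ∀ i ≤ 2 * n, ∫ ω, (lam κ (cc D δ s u n) (3 * n) (mm D s u n) (vv s u n)
        (bb B s u n) i ω - (P[M.J x | FF B hBm s u n i]) ω) ^ 2 ∂P ≤ 4 * δ * ‖x‖ ^ 2 / D u := by
      intro i hi
      refine force_err (κ := κ) hd hl (hi.trans h2n3) hDu ?_ hq
      rw [D_chain (hi.trans h2n3)]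
      have h3 : D u ≤ D (tt s u n (i - 1)) :=
        ha (tt_mem hsu hu hn _) ⟨u.2, by exact_mod_cast hu⟩ (by rw [← hut]; exact tt_mono (by omega))
      linarith
    have e2 := e1 n hn2n
    have e3 := e1 (2 * n) le_rfl
    rw [hFs] at e2
    rw [hFu] at e3
    refine int_sub_sq (lam_memLp hd h2n3) (lam_memLp hd hn3) (M.memLp _) (M.memLp _) ?_ ?_
    · refine le_trans (le_of_eq ?_) e3
      refine integral_congr_ae ?_
      filter_upwards [J_P M hu x] with ω h3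
      rw [h3]
    · refine le_trans (le_of_eq ?_) e2
      refine integral_congr_ae ?_
      filter_upwards [J_P M hs1 x] with ω h3
      rw [h3]
  · have hD0 : LipChain_861.D (cc D δ s u n) (3 * n) (mm D s u n) 0 = D 0 + δ := by
      rw [D_chain (Nat.zero_le _), Nat.zero_sub, h0t]
    have hq0 : 0 ≤ D 0 + δ := by
      have := D_nonneg ha h1 (t := 0) (by simp)
      linarith
    have e1 : ∀ i ≤ 3 * n, ∫ ω, (W (cc D δ s u n) (3 * n) (mm D s u n) (vv s u n) i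
        (X κ (cc D δ s u n) (3 * n) (mm D s u n) (vv s u n) (bb B s u n) i ω)
        - (P[M.J y | FF B hBm s u n i]) ω) ^ 2 ∂P
        ≤ 2 * (D 0 + δ) * (4 * δ * ‖x‖ ^ 2) + 4 * (δ ^ 2 * ‖x‖ ^ 2 + δ ^ 2 * ‖x‖ ^ 2) := by
      intro i hi
      have h3 := gap_err (κ := κ) hd hl hh he heq hi
      simp only [hD0, M.norm_sq] at h3
      refine h3.trans ?_
      have h4 := mul_le_mul_of_nonneg_left hq (by linarith : 0 ≤ 2 * (D 0 + δ))
      linarith
    have e2 := e1 n hn3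
    have e3 := e1 (2 * n) h2n3
    rw [hFs] at e2
    rw [hFu] at e3
    refine int_sub_sq (W_memLp hd h2n3) (W_memLp hd hn3) (M.memLp _) (M.memLp _) ?_ ?_
    · refine le_trans (le_of_eq ?_) e3
      refine integral_congr_ae ?_
      filter_upwards [J_P M hu y] with ω h3
      rw [h3]
    · refine le_trans (le_of_eq ?_) e2
      refine integral_congr_ae ?_
      filter_upwards [J_P M hs1 y] with ω h3
      rw [h3]

/-- `J` of an increment -/
theorem J_inc (M : Model R P B hBm) (x y : H) :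
    ∫ ω, (M.J x ω - M.J y ω) ^ 2 ∂P = ‖x - y‖ ^ 2 := by
  rw [← M.norm_sq]
  refine integral_congr_ae ?_
  filter_upwards [M.sub x y] with ω h
  rw [h]

/-- **exponential bound for the gap** -/
theorem em_gap [CompleteSpace H] [IsProbabilityMeasure P] (M : Model R P B hBm)
    (hB : IsPreBrownianReal B P) {κ : ℝ} {D : ℝ → ℝ} (hD : ContinuousOn D (Icc 0 1))
    (ha : AntitoneOn D (Icc 0 1)) (h1 : 0 ≤ D 1) {x y : H} (x0 : 0 ≤ᵐ[P] M.J x)
    (y0 : 0 ≤ᵐ[P] M.J y) (hxy : ⟪x, y⟫ = 0)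
    (hy : M.J y =ᵐ[P] fun ω => κ + B 1 ω + M.J (R.Dop D x) ω) {s u : ℝ≥0} (hsu : s ≤ u)
    (hu : u ≤ 1) {A : Set Ω} (hA : MeasurableSet[brownianFiltration B hBm s] A) :
    CSG P A (fun ω => M.J (R.P u y) ω - M.J (R.P s y) ω) (u - s) := by
  choose Yl Yh h2 h3 h4 h5 h6 h7 using fun k : ℕ => step M hB hD ha h1 x0 y0 hxy hy hsu hu
    (δ := 1 / ((k : ℝ) + 1)) (by positivity)
  refine csg_closed h3 ((M.memLp _).sub (M.memLp _)) ?_ fun k => h4 k A hA
  refine squeeze_zero (fun k => integral_nonneg fun _ => sq_nonneg _) h7 ?_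
  have hl := tendsto_one_div_add_atTop_nhds_zero_nat (𝕜 := ℝ)
  have hc : Continuous fun δ : ℝ =>
      2 * (2 * (D 0 + δ) * (4 * δ * ‖x‖ ^ 2) + 4 * (δ ^ 2 * ‖x‖ ^ 2 + δ ^ 2 * ‖x‖ ^ 2))
          + 2 * (2 * (D 0 + δ) * (4 * δ * ‖x‖ ^ 2)
            + 4 * (δ ^ 2 * ‖x‖ ^ 2 + δ ^ 2 * ‖x‖ ^ 2)) := by fun_prop
  exact (hc.tendsto' 0 0 (by simp)).comp hl

/-- exponential bound for the force, `D u > 0` -/
theorem em_force_pos [CompleteSpace H] [IsProbabilityMeasure P] (M : Model R P B hBm)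
    (hB : IsPreBrownianReal B P) {κ : ℝ} {D : ℝ → ℝ} (hD : ContinuousOn D (Icc 0 1))
    (ha : AntitoneOn D (Icc 0 1)) (h1 : 0 ≤ D 1) {x y : H} (x0 : 0 ≤ᵐ[P] M.J x)
    (y0 : 0 ≤ᵐ[P] M.J y) (hxy : ⟪x, y⟫ = 0)
    (hy : M.J y =ᵐ[P] fun ω => κ + B 1 ω + M.J (R.Dop D x) ω) {s u : ℝ≥0} (hsu : s ≤ u)
    (hu : u ≤ 1) (hDu : 0 < D u) {V : ℝ → ℝ}
    (hV : ∀ a b : ℝ, (s : ℝ) ≤ a → a ≤ b → b ≤ u → (b - a) / D a ^ 2 ≤ V b - V a)
    {A : Set Ω} (hA : MeasurableSet[brownianFiltration B hBm s] A) :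
    CSG P A (fun ω => M.J (R.P u x) ω - M.J (R.P s x) ω) (V u - V s) := by
  choose Yl Yh h2 h3 h4 h5 h6 h7 using fun k : ℕ => step M hB hD ha h1 x0 y0 hxy hy hsu hu
    (δ := 1 / ((k : ℝ) + 1)) (by positivity)
  refine csg_closed h2 ((M.memLp _).sub (M.memLp _)) ?_ fun k => h5 k hDu V hV A hA
  refine squeeze_zero (fun k => integral_nonneg fun _ => sq_nonneg _) (fun k => h6 k hDu) ?_
  have hl := tendsto_one_div_add_atTop_nhds_zero_nat (𝕜 := ℝ)
  have hc : Continuous fun δ : ℝ =>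
      2 * (4 * δ * ‖x‖ ^ 2 / D u) + 2 * (4 * δ * ‖x‖ ^ 2 / D u) := by fun_prop
  exact (hc.tendsto' 0 0 (by simp)).comp hl

/-- **exponential bound for the force** (also up to time `1` at jamming) -/
theorem em_force [CompleteSpace H] [IsProbabilityMeasure P] (M : Model R P B hBm)
    (hB : IsPreBrownianReal B P) {κ : ℝ} {D : ℝ → ℝ} (hD : ContinuousOn D (Icc 0 1))
    (ha : AntitoneOn D (Icc 0 1)) (h1 : 0 ≤ D 1) (hpos : ∀ t ∈ Ico (0 : ℝ) 1, 0 < D t)
    {x y : H} (x0 : 0 ≤ᵐ[P] M.J x) (y0 : 0 ≤ᵐ[P] M.J y) (hxy : ⟪x, y⟫ = 0)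
    (hy : M.J y =ᵐ[P] fun ω => κ + B 1 ω + M.J (R.Dop D x) ω) {s u : ℝ≥0} (hsu : s ≤ u)
    (hu : u ≤ 1) {V : ℝ → ℝ}
    (hV : ∀ a b : ℝ, (s : ℝ) ≤ a → a ≤ b → b ≤ u → (b - a) / D a ^ 2 ≤ V b - V a)
    {A : Set Ω} (hA : MeasurableSet[brownianFiltration B hBm s] A) :
    CSG P A (fun ω => M.J (R.P u x) ω - M.J (R.P s x) ω) (V u - V s) := by
  rcases hu.lt_or_eq with hu1 | hu1
  · exact em_force_pos M hB hD ha h1 x0 y0 hxy hy hsu hu
      (hpos _ ⟨u.2, by exact_mod_cast hu1⟩) hV hA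
  subst hu1
  rcases hsu.lt_or_eq with hs1 | hs1
  · -- `s < 1`: approximate `1` from the left
    obtain ⟨r, -, hr2, hr3⟩ := exists_seq_strictMono_tendsto' (show (s : ℝ) < 1 by exact_mod_cast hs1)
    have hr0 : ∀ k, 0 ≤ r k := fun k => s.2.trans (hr2 k).1.le
    have hlim : Tendsto (fun k => R.P (r k) x) atTop (𝓝 x) :=
      (R.left x).comp (tendsto_nhdsWithin_iff.2 ⟨hr3, Eventually.of_forall fun k => (hr2 k).2⟩)
    refine csg_closed (Y := fun k ω => M.J (R.P (r k) x) ω - M.J (R.P s x) ω)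
      (fun k => (M.memLp _).sub (M.memLp _)) ((M.memLp _).sub (M.memLp _)) ?_ fun k => ?_
    · have h2 : Tendsto (fun k => ‖R.P (r k) x - x‖ ^ 2) atTop (𝓝 0) := by
        have := ((hlim.sub_const x).norm.pow 2)
        simpa using this
      refine h2.congr fun k => ?_
      rw [← J_inc M]
      refine integral_congr_ae (Eventually.of_forall fun ω => ?_)
      simp only [NNReal.coe_one, R.one]
      ring
    · obtain ⟨w, hw⟩ : ∃ w : ℝ≥0, (w : ℝ) = r k := ⟨(r k).toNNReal, Real.coe_toNNReal _ (hr0 k)⟩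
      have hwk := hr2 k
      rw [← hw] at hwk ⊢
      have h3 := em_force_pos M hB hD ha h1 x0 y0 hxy hy (s := s) (u := w)
        (by exact_mod_cast hwk.1.le) (by exact_mod_cast hwk.2.le) (hpos _ ⟨w.2, hwk.2⟩) (V := V)
        (fun a b h4 h5 h6 => hV a b h4 h5 (h6.trans hwk.2.le)) hA
      refine CSG.mono h3 ?_
      have h4 := hV w 1 hwk.1.le hwk.2.le le_rfl
      have h5 : 0 ≤ (1 - (w : ℝ)) / D w ^ 2 := div_nonneg (sub_nonneg.2 hwk.2.le) (sq_nonneg _)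
      rw [NNReal.coe_one]
      linarith
  · subst hs1
    intro θ
    simp
end Main

end Crest.Agent.R146.LipF_861
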