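import Crest.Agent.R146.LocCov2_508

/-!
Row 146, node LOC (task 13), helper508: the deterministic bound of the partition function.
-/

set_option autoImplicit false

open MeasureTheory ProbabilityTheory Filter Set
open scoped ENNReal NNReal Topology

namespace Crest.Agent.R146.LocAsm_508

open Crest.ProbabilityR.Perceptron
open Crest.Agent.R146.Sph_409
open Crest.Agent.R146.LocSph_508 (uS_tail)
open Crest.Agent.R146.LocXR_508
open Crest.Agent.R146.LocCov_508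

noncomputable section

variable {N M : ℕ}

/-- error exponent of the entropy factors -/
def Rerr (N K0 : ℕ) (s κ' : ℝ) : ℝ :=
  K0 / 2 * Real.log (1 / κ') - K0 / 2 * Real.log s + N / 2 * Real.log (1 / (1 - κ'))

/-- entropy factor of one block -/
theorem ent_le [NeZero N] {I : Finset (Fin N)} {K0 : ℕ} (hI : I.card ≤ K0) {t s κ' : ℝ}
    (hs : 0 < s) (hst : s ≤ t) (ht1 : t ≤ 1) (hκ0 : 0 < κ') (hκ1 : κ' < 1) :
    uS N {y : UnitSphere N | ∑ b, ((y : En N) (EI I (Sum.inr b))) ^ 2 ≤ t} ≤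
      ENNReal.ofReal (Real.exp (Rerr N K0 s κ' + N / 2 * Real.log t)) := by
  have ht0 : 0 < t := hs.trans_le hst
  refine (uS_tail (EI I) ht0 ht1 hκ0 hκ1).trans (ENNReal.ofReal_le_ofReal ?_)
  have h1κ : 0 < 1 - κ' := by linarith
  have e1 : 1 / √κ' = Real.exp (1 / 2 * Real.log (1 / κ')) := by
    rw [show 1 / √κ' = √(1 / κ') by rw [Real.sqrt_div zero_le_one, Real.sqrt_one],
      Real.sqrt_eq_rpow, Real.rpow_def_of_pos (by positivity)]
    ring_nf
  have e2 : √(t / (1 - κ')) = Real.exp (1 / 2 * (Real.log t + Real.log (1 / (1 - κ')))) := by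
    rw [Real.sqrt_eq_rpow, Real.rpow_def_of_pos (by positivity),
      ← Real.log_mul ht0.ne' (by positivity)]
    ring_nf
  rw [e1, e2, ← Real.exp_nat_mul, ← Real.exp_nat_mul, ← Real.exp_add]
  refine Real.exp_le_exp.2 ?_
  have hcard : (Fintype.card {i // i ∈ I} : ℝ) = I.card := by rw [Fintype.card_coe]
  rw [hcard]
  have hIN : I.card ≤ N := by simpa using I.card_le_univ
  have hsub : ((N - I.card : ℕ) : ℝ) = N - I.card := by rw [Nat.cast_sub hIN]
  rw [hsub]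
  have hl1 : 0 ≤ Real.log (1 / κ') := Real.log_nonneg (by rw [le_div_iff₀ hκ0]; linarith)
  have hl2 : 0 ≤ Real.log (1 / (1 - κ')) :=
    Real.log_nonneg (by rw [le_div_iff₀ h1κ]; linarith)
  have hls : Real.log s ≤ Real.log t := Real.log_le_log hs hst
  have hlt : Real.log t ≤ 0 := Real.log_nonpos ht0.le ht1
  have hc0 : (0 : ℝ) ≤ I.card := Nat.cast_nonneg _
  have hcK : (I.card : ℝ) ≤ K0 := by exact_mod_cast hI
  unfold Rerr
  have a1 : (I.card : ℝ) * Real.log (1 / κ') ≤ K0 * Real.log (1 / κ') :=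
    mul_le_mul_of_nonneg_right hcK hl1
  have a2 : (I.card : ℝ) * -Real.log t ≤ K0 * -Real.log s :=
    mul_le_mul hcK (by linarith) (by linarith) (by positivity)
  have a3 : 0 ≤ (I.card : ℝ) * Real.log (1 / (1 - κ')) := mul_nonneg hc0 hl2
  nlinarith

/-- **the deterministic bound** -/
theorem Z_le [NeZero N] {κ s h κ' L B K W W' : ℝ} (hκ : 0 < κ) {K0 D : ℕ}
    (hK0 : (κ ^ 2)⁻¹ ≤ K0) (hKN : K0 < N) (hs : 0 < s) (hs1 : s < 1) (hκ0 : 0 < κ') (hκ1 : κ' < 1)
    (hL0 : 0 ≤ L) (hB0 : 0 ≤ B) (hD : 1 ≤ D)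
    (S : ∀ I : Finset (Fin N), Finset ({i // i ∈ I} → ℝ))
    (hSc : ∀ I, (S I).card ≤ D ^ (I.card + 1))
    (hS : ∀ (I : Finset (Fin N)) (w : {i // i ∈ I} → ℝ), ∑ i, w i ^ 2 ≤ 1 → ∃ u ∈ S I,
      ∑ i, u i ^ 2 ≤ ∑ i, w i ^ 2 ∧ ∑ i, w i ^ 2 ≤ ∑ i, u i ^ 2 + h ∧
      ∑ i, (w i - u i) ^ 2 ≤ 9 * h)
    {ψ : ℝ → ℝ} (hψ : Measurable ψ) (hK : ∀ x, |ψ x| ≤ K)
    (hL : ∀ x y, |ψ x - ψ y| ≤ L * |x - y|) {A : Fin M × Fin N → ℝ}
    (hA : ∀ v : Fin N → ℝ, ∑ a, (∑ i, A (a, i) * v i) ^ 2 ≤ B ^ 2 * ∑ i, v i ^ 2)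
    (hlow : ∀ I : Finset (Fin N), I.card ≤ K0 → ∀ u ∈ S I, ∑ i, u i ^ 2 ≤ 1 - s →
      XF ψ (∑ i, u i ^ 2) (κ / √s) u (fun p : Fin M × ({i // i ∈ I} ⊕ Fin (N - I.card)) =>
        A (p.1, EI I p.2)) + N / 2 * Real.log (1 - ∑ i, u i ^ 2) ≤ W)
    (hhigh : ∀ y ∈ Hg N K0 s, ∑ a, ψ (∑ i, A (a, i) * (y : En N) i) ≤ W') :
    Real.log (∫ y : UnitSphere N, Real.exp (∑ a, ψ (∑ i, A (a, i) * (y : En N) i)) ∂uS N) ≤
      Real.log (2 * (∑ I ∈ (Finset.univ : Finset (Finset (Fin N))).filter (fun I => I.card ≤ K0),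
        D ^ (I.card + 1) : ℕ)) + (Rerr N K0 s κ' +
        max (W' + N / 2 * Real.log s) (L * √M * B * √(9 * h + h ^ 2 / (4 * s)) + W)) := by
  set e := L * √M * B * √(9 * h + h ^ 2 / (4 * s)) with he
  set R := Rerr N K0 s κ' with hR
  set mx := max (W' + N / 2 * Real.log s) (e + W) with hmx
  set T := (Finset.univ : Finset (Finset (Fin N))).filter (fun I => I.card ≤ K0) with hT
  have hF : Measurable fun y : UnitSphere N =>
      Real.exp (∑ a, ψ (∑ i, A (a, i) * (y : En N) i)) := by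
    refine Real.measurable_exp.comp (Finset.measurable_sum _ fun a _ => hψ.comp ?_)
    exact Finset.measurable_sum _ fun j _ => measurable_const.mul (continuous_coord j).measurable
  have hFo := ENNReal.measurable_ofReal.comp hF
  have hint : Integrable (fun y : UnitSphere N =>
      Real.exp (∑ a, ψ (∑ i, A (a, i) * (y : En N) i))) (uS N) := by
    refine Integrable.of_bound hF.aestronglyMeasurable (Real.exp (M * K))
      (Filter.Eventually.of_forall fun z => ?_)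
    rw [Real.norm_eq_abs, abs_of_pos (Real.exp_pos _)]
    refine Real.exp_le_exp.2 ?_
    calc _ ≤ ∑ _a : Fin M, K := Finset.sum_le_sum fun a _ => (le_abs_self _).trans (hK _)
      _ = _ := by simp
  -- the high part
  have hH : ∫⁻ y in Hg N K0 s,
      ENNReal.ofReal (Real.exp (∑ a, ψ (∑ i, A (a, i) * (y : En N) i))) ∂uS N ≤
      ∑ I ∈ T, ENNReal.ofReal (Real.exp (R + mx)) := by
    have h1 : ∫⁻ y in Hg N K0 s,
        ENNReal.ofReal (Real.exp (∑ a, ψ (∑ i, A (a, i) * (y : En N) i))) ∂uS N ≤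
        ENNReal.ofReal (Real.exp W') * uS N (Hg N K0 s) := by
      rw [← setLIntegral_const]
      refine setLIntegral_mono' (measurableSet_Hg N K0 s) fun y hy => ?_
      exact ENNReal.ofReal_le_ofReal (Real.exp_le_exp.2 (hhigh y hy))
    have h2 : uS N (Hg N K0 s) ≤ ∑ I ∈ T, ENNReal.ofReal (Real.exp (R + N / 2 * Real.log s)) := by
      have h3 : Hg N K0 s ⊆ ⋃ I ∈ T,
          {y : UnitSphere N | ∑ b, ((y : En N) (EI I (Sum.inr b))) ^ 2 ≤ s} := by
        rintro y ⟨I, hI, hy⟩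
        simp only [Set.mem_iUnion, exists_prop]
        refine ⟨I, by rw [hT]; exact Finset.mem_filter.2 ⟨Finset.mem_univ _, hI⟩, ?_⟩
        show ∑ b, ((y : En N) (EI I (Sum.inr b))) ^ 2 ≤ s
        rw [sum_inr I fun i => ((y : En N) i) ^ 2]; exact hy
      refine (measure_mono h3).trans ((measure_biUnion_finset_le _ _).trans
        (Finset.sum_le_sum fun I hI => ?_))
      exact ent_le (Finset.mem_filter.1 hI).2 hs le_rfl hs1.le hκ0 hκ1
    refine h1.trans ((mul_le_mul' le_rfl h2).trans ?_)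
    rw [Finset.mul_sum]
    refine Finset.sum_le_sum fun I _ => ?_
    rw [← ENNReal.ofReal_mul (Real.exp_pos _).le, ← Real.exp_add]
    refine ENNReal.ofReal_le_ofReal (Real.exp_le_exp.2 ?_)
    have := le_max_left (W' + N / 2 * Real.log s) (e + W)
    linarith
  -- the blocks
  have hBl : ∀ I ∈ T, ∑ u ∈ (S I).filter (fun u => ∑ i, u i ^ 2 ≤ 1 - s),
      ∫⁻ y in Rg (EI I) u s h κ,
        ENNReal.ofReal (Real.exp (∑ a, ψ (∑ i, A (a, i) * (y : En N) i))) ∂uS N ≤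
      (D ^ (I.card + 1) : ℕ) * ENNReal.ofReal (Real.exp (R + mx)) := by
    intro I hI
    have hIK : I.card ≤ K0 := (Finset.mem_filter.1 hI).2
    have : NeZero (N - I.card) := ⟨by omega⟩
    have h1 : ∀ u ∈ (S I).filter (fun u => ∑ i, u i ^ 2 ≤ 1 - s),
        ∫⁻ y in Rg (EI I) u s h κ,
          ENNReal.ofReal (Real.exp (∑ a, ψ (∑ i, A (a, i) * (y : En N) i))) ∂uS N ≤
        ENNReal.ofReal (Real.exp (R + mx)) := by
      intro u hu
      obtain ⟨huS, hus⟩ := Finset.mem_filter.1 hu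
      have hμ0 : 0 ≤ ∑ i, u i ^ 2 := Finset.sum_nonneg fun i _ => sq_nonneg _
      refine (cov_one (h := h) (κ := κ) (EI I) u rfl hs hL0 hB0 hψ hK hL hA).trans ?_
      refine (mul_le_mul' le_rfl (mul_le_mul' (ent_le hIK hs (by linarith) (by linarith)
        hκ0 hκ1) le_rfl)).trans ?_
      rw [← ENNReal.ofReal_mul (Real.exp_pos _).le, ← ENNReal.ofReal_mul (Real.exp_pos _).le,
        ← Real.exp_add, ← Real.exp_add]
      refine ENNReal.ofReal_le_ofReal (Real.exp_le_exp.2 ?_)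
      have h2 := hlow I hIK u huS hus
      have h3 := le_max_right (W' + N / 2 * Real.log s) (e + W)
      linarith
    refine (Finset.sum_le_sum h1).trans ?_
    rw [Finset.sum_const, nsmul_eq_mul]
    refine mul_le_mul' ?_ le_rfl
    exact_mod_cast (Finset.card_filter_le _ _).trans (hSc I)
  -- total
  have htot : ∫⁻ y : UnitSphere N,
      ENNReal.ofReal (Real.exp (∑ a, ψ (∑ i, A (a, i) * (y : En N) i))) ∂uS N ≤
      ENNReal.ofReal (2 * (∑ I ∈ T, D ^ (I.card + 1) : ℕ) * Real.exp (R + mx)) := by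
    refine (cover (s := s) hκ hK0 S hS hFo).trans ?_
    refine (add_le_add hH (Finset.sum_le_sum hBl)).trans ?_
    rw [← Finset.sum_mul, Finset.sum_const, nsmul_eq_mul, ENNReal.ofReal_mul (by positivity),
      ENNReal.ofReal_mul (by norm_num), ENNReal.ofReal_natCast, ← add_mul]
    refine mul_le_mul' ?_ le_rfl
    have h1 : ((T.card : ℕ) : ℝ≥0∞) ≤ ((∑ I ∈ T, D ^ (I.card + 1) : ℕ) : ℝ≥0∞) := by
      have : T.card ≤ ∑ I ∈ T, D ^ (I.card + 1) := by
        rw [Finset.card_eq_sum_ones]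
        exact Finset.sum_le_sum fun I _ => Nat.one_le_pow _ _ hD
      exact_mod_cast this
    have h2 : (∑ i ∈ T, ((D ^ (i.card + 1) : ℕ) : ℝ≥0∞)) =
        ((∑ I ∈ T, D ^ (I.card + 1) : ℕ) : ℝ≥0∞) := by push_cast; rfl
    rw [h2]
    calc (T.card : ℝ≥0∞) + ((∑ I ∈ T, D ^ (I.card + 1) : ℕ) : ℝ≥0∞) ≤
        ((∑ I ∈ T, D ^ (I.card + 1) : ℕ) : ℝ≥0∞) + ((∑ I ∈ T, D ^ (I.card + 1) : ℕ) : ℝ≥0∞) :=
          add_le_add h1 le_rfl
      _ = ENNReal.ofReal 2 * ((∑ I ∈ T, D ^ (I.card + 1) : ℕ) : ℝ≥0∞) := by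
          rw [← two_mul, ENNReal.ofReal_ofNat]
  rw [← ofReal_integral_eq_lintegral_ofReal hint
    (Filter.Eventually.of_forall fun z => (Real.exp_pos _).le)] at htot
  have hcount : (0 : ℝ) < (∑ I ∈ T, D ^ (I.card + 1) : ℕ) := by
    have : 0 < ∑ I ∈ T, D ^ (I.card + 1) := by
      refine Finset.sum_pos (fun I _ => Nat.pow_pos (by omega)) ⟨∅, ?_⟩
      rw [hT]; exact Finset.mem_filter.2 ⟨Finset.mem_univ _, by simp⟩
    exact_mod_cast this
  have hle := (ENNReal.ofReal_le_ofReal_iff (by positivity)).1 htot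
  have hpos : 0 < ∫ y : UnitSphere N,
      Real.exp (∑ a, ψ (∑ i, A (a, i) * (y : En N) i)) ∂uS N := integral_exp_pos hint
  have := Real.log_le_log hpos hle
  rw [Real.log_mul (by positivity) (Real.exp_pos _).ne', Real.log_exp] at this
  exact this

end

end Crest.Agent.R146.LocAsm_508
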