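import Mathlib

/-!
# McDiarmid's inequality on a finite power of a probability space (helper840)

`mcdiarmid_subG` : a bounded measurable function with differences at most `c` in every coordinate is
sub-Gaussian with proxy `n (c / 2)²`; `mcdiarmid`, `mcdiarmid_lower` : the two tails
`exp (-2 t² / (n c²))`.
-/

set_option autoImplicit false

open MeasureTheory ProbabilityTheory Set
open scoped ENNReal NNReal

namespace Crest.Agent.R146.McD_840

/-- one variable: oscillation at most `c` -/
lemma osc_subG {X : Type*} [MeasurableSpace X] (G : Measure X) [IsProbabilityMeasure G] (g : X → ℝ)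
    (hg : Measurable g) (B : ℝ) (hB : ∀ x, |g x| ≤ B) (c : ℝ≥0) (hosc : ∀ x y, g x - g y ≤ c) :
    HasSubgaussianMGF (fun x => g x - ∫ z, g z ∂G) ((c / 2) ^ 2) G := by
  have hne : Nonempty X := by
    by_contra hcon
    rw [not_nonempty_iff] at hcon
    have h1 : G univ = 1 := measure_univ
    have h2 : (univ : Set X) = ∅ := Set.eq_empty_of_isEmpty _
    rw [h2, measure_empty] at h1
    exact zero_ne_one h1
  have hbdd : BddBelow (Set.range g) := ⟨-B, by
    rintro _ ⟨x, rfl⟩
    exact (abs_le.1 (hB x)).1⟩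
  set a : ℝ := ⨅ x, g x with ha
  have hmem : ∀ x, g x ∈ Set.Icc a (a + c) := by
    intro x
    refine ⟨ciInf_le hbdd x, ?_⟩
    have : g x - c ≤ a := le_ciInf fun y => by linarith [hosc x y]
    linarith
  have h := hasSubgaussianMGF_of_mem_Icc (μ := G) (X := g) hg.aemeasurable
    (Filter.Eventually.of_forall hmem)
  have e : (‖a + c - a‖₊ / 2) ^ 2 = (c / 2) ^ 2 := by
    congr 2
    rw [add_sub_cancel_left]
    exact Subtype.ext (by simp)
  rw [e] at h
  exact h

/-- product step -/
lemma prod_subG {X Y : Type*} [MeasurableSpace X] [MeasurableSpace Y] (G : Measure X)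
    [IsProbabilityMeasure G] (Q : Measure Y) [IsProbabilityMeasure Q] (H : X × Y → ℝ)
    (hH : Measurable H) (B : ℝ) (hB : ∀ p, |H p| ≤ B) (c₁ c₂ : ℝ≥0)
    (h1 : ∀ x, HasSubgaussianMGF (fun y => H (x, y) - ∫ y, H (x, y) ∂Q) c₁ Q)
    (h2 : HasSubgaussianMGF (fun x => (∫ y, H (x, y) ∂Q) - ∫ p, H p ∂(G.prod Q)) c₂ G) :
    HasSubgaussianMGF (fun p => H p - ∫ p, H p ∂(G.prod Q)) (c₁ + c₂) (G.prod Q) := by
  set m : ℝ := ∫ p, H p ∂(G.prod Q) with hm
  have hint : ∀ t : ℝ, Integrable (fun p => Real.exp (t * (H p - m))) (G.prod Q) := by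
    intro t
    refine Integrable.of_bound (C := Real.exp (|t| * (B + |m|)))
      (Real.measurable_exp.comp ((hH.sub_const m).const_mul t)).aestronglyMeasurable
      (Filter.Eventually.of_forall fun p => ?_)
    rw [Real.norm_of_nonneg (Real.exp_pos _).le]
    apply Real.exp_le_exp.2
    calc t * (H p - m) ≤ |t * (H p - m)| := le_abs_self _
      _ = |t| * |H p - m| := abs_mul _ _
      _ ≤ |t| * (B + |m|) := by
        refine mul_le_mul_of_nonneg_left ?_ (abs_nonneg _)
        exact (abs_sub _ _).trans (add_le_add (hB p) le_rfl)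
  refine ⟨hint, fun t => ?_⟩
  rw [mgf, integral_prod _ (hint t)]
  have hinner : ∀ x, ∫ y, Real.exp (t * (H (x, y) - m)) ∂Q
      ≤ Real.exp (c₁ * t ^ 2 / 2) * Real.exp (t * ((∫ y, H (x, y) ∂Q) - m)) := by
    intro x
    have e : ∀ y, Real.exp (t * (H (x, y) - m))
        = Real.exp (t * ((∫ y, H (x, y) ∂Q) - m)) *
          Real.exp (t * (H (x, y) - ∫ y, H (x, y) ∂Q)) := by
      intro y
      rw [← Real.exp_add]
      congr 1
      ring
    simp_rw [e]
    rw [integral_const_mul, mul_comm]
    exact mul_le_mul_of_nonneg_right ((h1 x).mgf_le t) (Real.exp_pos _).le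
  calc ∫ x, ∫ y, Real.exp (t * (H (x, y) - m)) ∂Q ∂G
      ≤ ∫ x, Real.exp (c₁ * t ^ 2 / 2) * Real.exp (t * ((∫ y, H (x, y) ∂Q) - m)) ∂G := by
        refine integral_mono (hint t).integral_prod_left ?_ hinner
        exact (h2.integrable_exp_mul t).const_mul _
    _ = Real.exp (c₁ * t ^ 2 / 2) * ∫ x, Real.exp (t * ((∫ y, H (x, y) ∂Q) - m)) ∂G :=
        integral_const_mul _ _
    _ ≤ Real.exp (c₁ * t ^ 2 / 2) * Real.exp (c₂ * t ^ 2 / 2) :=
        mul_le_mul_of_nonneg_left (h2.mgf_le t) (Real.exp_pos _).le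
    _ = Real.exp ((c₁ + c₂ : ℝ≥0) * t ^ 2 / 2) := by
        rw [← Real.exp_add]
        congr 1
        push_cast
        ring

theorem subG_fin {X : Type*} [MeasurableSpace X] (G : Measure X) [IsProbabilityMeasure G] (c : ℝ≥0)
    (B : ℝ) (n : ℕ) : ∀ F : (Fin n → X) → ℝ, Measurable F → (∀ A, |F A| ≤ B) →
      (∀ A i x, F (Function.update A i x) - F A ≤ c) →
      HasSubgaussianMGF (fun A => F A - ∫ A, F A ∂(Measure.pi fun _ : Fin n => G))
        (n * (c / 2) ^ 2) (Measure.pi fun _ : Fin n => G) := by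
  induction n with
  | zero =>
    intro F hF hB hc
    have h0 : ∀ A : Fin 0 → X, F A - ∫ A, F A ∂(Measure.pi fun _ : Fin 0 => G) = 0 := by
      intro A
      have h1 : ∀ A', F A' = F A := fun A' => by rw [Subsingleton.elim A' A]
      have h2 : ∫ A', F A' ∂(Measure.pi fun _ : Fin 0 => G) = F A := by
        simp_rw [h1]
        simp
      rw [h2, sub_self]
    have h3 : (fun A : Fin 0 → X => F A - ∫ A, F A ∂(Measure.pi fun _ : Fin 0 => G))
        = fun _ => 0 := funext h0
    rw [h3]
    simp
  | succ n ih =>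
    intro F hF hB hc
    set Q : Measure (Fin n → X) := Measure.pi fun _ : Fin n => G with hQ
    set T := MeasurableEquiv.piFinSuccAbove (fun _ : Fin (n + 1) => X) 0 with hT
    have hmp : MeasurePreserving T (Measure.pi fun _ : Fin (n + 1) => G) (G.prod Q) :=
      measurePreserving_piFinSuccAbove (fun _ : Fin (n + 1) => G) 0
    set H : X × (Fin n → X) → ℝ := fun p => F (Fin.cons p.1 p.2) with hH
    have hTs : ∀ A : Fin (n + 1) → X, H (T A) = F A := by
      intro A
      rw [hH]
      simp only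
      congr 1
      have : T A = (A 0, fun i => A (Fin.succ i)) := by
        rw [hT]
        simp [MeasurableEquiv.piFinSuccAbove]
        rfl
      rw [this]
      exact Fin.cons_self_tail A
    have hHm : Measurable H := by
      have : H = F ∘ T.symm := by
        ext p
        have := hTs (T.symm p)
        rw [T.apply_symm_apply] at this
        exact this
      rw [this]
      exact hF.comp T.symm.measurable
    have hHB : ∀ p, |H p| ≤ B := fun p => hB _
    have h1 : ∀ x, HasSubgaussianMGF (fun y => H (x, y) - ∫ y, H (x, y) ∂Q)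
        (n * (c / 2) ^ 2) Q := by
      intro x
      refine ih (fun y => H (x, y)) (hHm.comp measurable_prodMk_left) (fun y => hHB _) ?_
      intro A i z
      have := hc (Fin.cons x A) (Fin.succ i) z
      rw [← Fin.cons_update] at this
      exact this
    have hintx : ∀ x, Integrable (fun y => H (x, y)) Q := fun x =>
      Integrable.of_bound (hHm.comp measurable_prodMk_left).aestronglyMeasurable B
        (Filter.Eventually.of_forall fun y => by rw [Real.norm_eq_abs]; exact hHB _)
    set g : X → ℝ := fun x => ∫ y, H (x, y) ∂Q with hg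
    have hgm : Measurable g := (hHm.stronglyMeasurable.integral_prod_right').measurable
    have hgB : ∀ x, |g x| ≤ B := by
      intro x
      have := norm_integral_le_of_norm_le_const (μ := Q) (f := fun y => H (x, y)) (C := B)
        (Filter.Eventually.of_forall fun y => by rw [Real.norm_eq_abs]; exact hHB _)
      simpa using this
    have hgosc : ∀ x y, g x - g y ≤ c := by
      intro x y
      rw [hg]
      simp only
      rw [← integral_sub (hintx x) (hintx y)]
      calc ∫ A, (H (x, A) - H (y, A)) ∂Q ≤ ∫ _A, (c : ℝ) ∂Q := by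
            refine integral_mono ((hintx x).sub (hintx y)) (integrable_const _) fun A => ?_
            have := hc (Fin.cons y A) 0 x
            rw [Fin.update_cons_zero] at this
            exact this
        _ = c := by simp
    have hmean : ∫ p, H p ∂(G.prod Q) = ∫ x, g x ∂G := by
      refine integral_prod _ ?_
      exact Integrable.of_bound hHm.aestronglyMeasurable B
        (Filter.Eventually.of_forall fun y => by rw [Real.norm_eq_abs]; exact hHB _)
    have h2 : HasSubgaussianMGF (fun x => (∫ y, H (x, y) ∂Q) - ∫ p, H p ∂(G.prod Q))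
        ((c / 2) ^ 2) G := by
      rw [hmean]
      exact osc_subG G g hgm B hgB c hgosc
    have h3 := prod_subG G Q H hHm B hHB _ _ h1 h2
    have h4 : HasSubgaussianMGF (fun p => H p - ∫ p, H p ∂(G.prod Q)) (n * (c / 2) ^ 2 + (c / 2) ^ 2)
        ((Measure.pi fun _ : Fin (n + 1) => G).map T) := by
      rw [hmp.map_eq]; exact h3
    have h5 := HasSubgaussianMGF.of_map T.measurable.aemeasurable h4
    have h6 : ∫ p, H p ∂(G.prod Q) = ∫ A, F A ∂(Measure.pi fun _ : Fin (n + 1) => G) := by
      rw [← hmp.map_eq, integral_map T.measurable.aemeasurable hHm.aestronglyMeasurable]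
      simp_rw [hTs]
    have h7 : (fun p => H p - ∫ p, H p ∂(G.prod Q)) ∘ T
        = fun A => F A - ∫ A, F A ∂(Measure.pi fun _ : Fin (n + 1) => G) := by
      ext A
      simp only [Function.comp]
      rw [hTs, h6]
    rw [h7] at h5
    have h8 : ((n : ℝ≥0) * (c / 2) ^ 2 + (c / 2) ^ 2) = ((n + 1 : ℕ) : ℝ≥0) * (c / 2) ^ 2 := by
      push_cast
      ring
    rw [h8] at h5
    exact h5

/-- **McDiarmid, sub-Gaussian form.** -/
theorem mcdiarmid_subG {ι X : Type*} [Fintype ι] [DecidableEq ι] [MeasurableSpace X]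
    (G : Measure X) [IsProbabilityMeasure G] (c : ℝ≥0) (B : ℝ) (F : (ι → X) → ℝ)
    (hF : Measurable F) (hB : ∀ A, |F A| ≤ B)
    (hc : ∀ A i x, F (Function.update A i x) - F A ≤ c) :
    HasSubgaussianMGF (fun A => F A - ∫ A, F A ∂(Measure.pi fun _ : ι => G))
        (Fintype.card ι * (c / 2) ^ 2) (Measure.pi fun _ : ι => G) := by
  set n := Fintype.card ι with hn
  let e : Fin n ≃ ι := (Fintype.equivFin ι).symm
  let T := MeasurableEquiv.piCongrLeft (fun _ : ι => X) e
  have hmp : MeasurePreserving T (Measure.pi fun _ : Fin n => G) (Measure.pi fun _ : ι => G) :=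
    measurePreserving_piCongrLeft (fun _ : ι => G) e
  have hT : ∀ (A : Fin n → X) (i : Fin n), T A (e i) = A i := by
    intro A i
    exact Equiv.piCongrLeft_apply_apply (fun _ : ι => X) e A i
  have h1 := subG_fin G c B n (fun A => F (T A)) (hF.comp T.measurable) (fun A => hB _) (by
    intro A i x
    have h2 : T (Function.update A i x) = Function.update (T A) (e i) x := by
      ext j
      obtain ⟨k, rfl⟩ := e.surjective j
      rw [hT]
      by_cases hk : k = i
      · subst hk
        simp
      · rw [Function.update_of_ne hk, Function.update_of_ne (fun h => hk (e.injective h)), hT]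
    rw [h2]
    exact hc _ _ _)
  -- transfer by the inverse map
  have hsymm := hmp.symm
  have h3 : HasSubgaussianMGF (fun A => F (T A) - ∫ A, F (T A) ∂(Measure.pi fun _ : Fin n => G))
      (n * (c / 2) ^ 2) ((Measure.pi fun _ : ι => G).map T.symm) := by
    rw [hsymm.map_eq]; exact h1
  have h4 := HasSubgaussianMGF.of_map T.symm.measurable.aemeasurable h3
  have h5 : ∫ A, F (T A) ∂(Measure.pi fun _ : Fin n => G) = ∫ A, F A ∂(Measure.pi fun _ : ι => G) := by
    rw [← hmp.map_eq, integral_map T.measurable.aemeasurable hF.aestronglyMeasurable]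
  have h6 : (fun A => F (T A) - ∫ A, F (T A) ∂(Measure.pi fun _ : Fin n => G)) ∘ T.symm
      = fun A => F A - ∫ A, F A ∂(Measure.pi fun _ : ι => G) := by
    ext A
    simp only [Function.comp, h5]
    rw [T.apply_symm_apply]
  rw [h6] at h4
  exact h4

/-- **McDiarmid, upper tail.** -/
theorem mcdiarmid {ι X : Type*} [Fintype ι] [DecidableEq ι] [MeasurableSpace X]
    (G : Measure X) [IsProbabilityMeasure G] (c : ℝ) (hc0 : 0 ≤ c) (B : ℝ) (F : (ι → X) → ℝ)
    (hF : Measurable F) (hB : ∀ A, |F A| ≤ B)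
    (hc : ∀ A i x, F (Function.update A i x) - F A ≤ c) (t : ℝ) (ht : 0 ≤ t) :
    (Measure.pi fun _ : ι => G) {A | (∫ A, F A ∂(Measure.pi fun _ : ι => G)) + t ≤ F A}
      ≤ ENNReal.ofReal (Real.exp (-2 * t ^ 2 / (Fintype.card ι * c ^ 2))) := by
  have hcc : ((Real.toNNReal c : ℝ≥0) : ℝ) = c := Real.coe_toNNReal c hc0
  have h := mcdiarmid_subG G (Real.toNNReal c) B F hF hB (by rw [hcc]; exact hc)
  have h1 := h.measure_ge_le ht
  have h2 : {A : ι → X | (∫ A, F A ∂(Measure.pi fun _ : ι => G)) + t ≤ F A}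
      = {A | t ≤ F A - ∫ A, F A ∂(Measure.pi fun _ : ι => G)} := by
    ext A
    constructor
    · intro hA
      have : (∫ A, F A ∂(Measure.pi fun _ : ι => G)) + t ≤ F A := hA
      show t ≤ F A - ∫ A, F A ∂(Measure.pi fun _ : ι => G)
      linarith
    · intro hA
      have : t ≤ F A - ∫ A, F A ∂(Measure.pi fun _ : ι => G) := hA
      show (∫ A, F A ∂(Measure.pi fun _ : ι => G)) + t ≤ F A
      linarith
  rw [h2, ← ofReal_measureReal]
  refine ENNReal.ofReal_le_ofReal (h1.trans (Real.exp_le_exp.2 (le_of_eq ?_)))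
  have e1 : ((Fintype.card ι * (Real.toNNReal c / 2) ^ 2 : ℝ≥0) : ℝ)
      = Fintype.card ι * (c / 2) ^ 2 := by
    push_cast
    rw [hcc]
  rw [e1]
  rcases eq_or_ne ((Fintype.card ι : ℝ) * c ^ 2) 0 with h0 | h0
  · have h3 : 2 * ((Fintype.card ι : ℝ) * (c / 2) ^ 2) = (Fintype.card ι * c ^ 2) / 2 := by ring
    rw [h3, h0]
    simp
  · have h3 : 2 * ((Fintype.card ι : ℝ) * (c / 2) ^ 2) = (Fintype.card ι * c ^ 2) / 2 := by ring
    rw [h3]
    field_simp

/-- **McDiarmid, lower tail.** -/
theorem mcdiarmid_lower {ι X : Type*} [Fintype ι] [DecidableEq ι] [MeasurableSpace X]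
    (G : Measure X) [IsProbabilityMeasure G] (c : ℝ) (hc0 : 0 ≤ c) (B : ℝ) (F : (ι → X) → ℝ)
    (hF : Measurable F) (hB : ∀ A, |F A| ≤ B)
    (hc : ∀ A i x, F A - F (Function.update A i x) ≤ c) (t : ℝ) (ht : 0 ≤ t) :
    (Measure.pi fun _ : ι => G) {A | F A ≤ (∫ A, F A ∂(Measure.pi fun _ : ι => G)) - t}
      ≤ ENNReal.ofReal (Real.exp (-2 * t ^ 2 / (Fintype.card ι * c ^ 2))) := by
  have h := mcdiarmid G c hc0 B (fun A => -F A) hF.neg (fun A => by rw [abs_neg]; exact hB A)
    (fun A i x => by linarith [hc A i x]) t ht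
  refine (measure_mono ?_).trans h
  intro A hA
  have hA' : F A ≤ (∫ A, F A ∂(Measure.pi fun _ : ι => G)) - t := hA
  show (∫ A, -F A ∂(Measure.pi fun _ : ι => G)) + t ≤ -F A
  rw [integral_neg]
  linarith

end Crest.Agent.R146.McD_840
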