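import Crest.Agent.R146.LocXR_508
import Crest.Agent.R146.McD_840
import Crest.Agent.R146.Large_840

/-!
Row 146, node LOC (LOCCORE), helper840: concentration from above of the log partition function `XF`
of the free coordinates of a localised block (`LocXR_508.XCONC`), by McDiarmid over the rows.
-/

set_option autoImplicit false

open MeasureTheory ProbabilityTheory Filter Set Crest.ProbabilityR.Perceptron
open scoped Topology ENNReal NNReal

namespace Crest.Agent.R146.LocConc_840

open Crest.Agent.R146.Sph_409 (uS)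
open Crest.Agent.R146.LocXR_508
open Crest.Agent.R146L878 (expo logZ DD sv measurable_expo measurable_logZ int_exp_pos
  integrable_exp_expo abs_expo_le logZ_le le_logZ measurable_sv)

instance uS_finite (n : ℕ) : IsFiniteMeasure (uS n) := by
  rcases Nat.eq_zero_or_pos n with h | h
  · subst h
    have he : IsEmpty (UnitSphere 0) := by
      refine ⟨fun y => ?_⟩
      have h1 : ‖(y : EuclideanSpace ℝ (Fin 0))‖ = 1 := by
        have := y.2
        simp
      have h2 : (y : EuclideanSpace ℝ (Fin 0)) = 0 := Subsingleton.elim _ _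
      rw [h2, norm_zero] at h1
      exact zero_ne_one h1
    rw [Measure.eq_zero_of_isEmpty (uS 0)]
    infer_instance
  · have : NeZero n := ⟨h.ne'⟩
    infer_instance

theorem measurable_XF {ψ : ℝ → ℝ} (hψ : Measurable ψ) (μ κ : ℝ) {I : Type} [Fintype I] (u : I → ℝ)
    (M n : ℕ) : Measurable (fun A : Fin M × (I ⊕ Fin n) → ℝ => XF ψ μ κ u A) := by
  unfold XF XR logZ
  refine Real.measurable_log.comp ?_
  have h : StronglyMeasurable (Function.uncurry fun (A : Fin M × (I ⊕ Fin n) → ℝ)
      (y : UnitSphere n) =>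
      Real.exp (expo (fun (a : Fin M) x => ψ (∑ i, A (a, Sum.inl i) * u i + √(1 - μ) * x)) sv
        (fun p : Fin M × Fin n => A (p.1, Sum.inr p.2)) y)) := by
    refine Measurable.stronglyMeasurable ?_
    refine Real.measurable_exp.comp ?_
    unfold expo
    refine Finset.measurable_sum _ fun a _ => hψ.comp ?_
    refine Measurable.add ?_ ?_
    · refine Finset.measurable_sum _ fun i _ => ?_
      exact ((measurable_pi_apply (a, Sum.inl i)).comp measurable_fst).mul_const _
    · refine Measurable.const_mul ?_ _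
      refine Finset.measurable_sum _ fun j _ => ?_
      exact ((measurable_pi_apply (a, Sum.inr j)).comp measurable_fst).mul
        ((measurable_pi_apply j).comp (measurable_sv.comp measurable_snd))
  exact (h.integral_prod_right (ν := (uS n).restrict (DD n κ))).measurable

/-- `|XF|` is bounded. -/
theorem abs_XF_le {ψ : ℝ → ℝ} (hψ : Measurable ψ) {K : ℝ} (hK : ∀ x, |ψ x| ≤ K) (μ κ : ℝ)
    {I : Type} [Fintype I] (u : I → ℝ) (M n : ℕ) (A : Fin M × (I ⊕ Fin n) → ℝ) :
    |XF ψ μ κ u A| ≤ M * K + |Real.log (((uS n).restrict (DD n κ)).real univ)| := by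
  have hK0 : 0 ≤ K := (abs_nonneg _).trans (hK 0)
  unfold XF XR
  set ρ := (uS n).restrict (DD n κ) with hρdef
  have hm : ∀ a : Fin M, Measurable fun x : ℝ =>
      ψ ((fun a => ∑ i, A (a, Sum.inl i) * u i) a + √(1 - μ) * x) := fun a =>
    hψ.comp (by fun_prop)
  have hb : ∀ (a : Fin M) (x : ℝ),
      |ψ ((fun a => ∑ i, A (a, Sum.inl i) * u i) a + √(1 - μ) * x)| ≤ K := fun a x => hK _
  by_cases hρ : 0 < ρ.real univ
  · have h1 := logZ_le hm hb ρ hρ measurable_sv (fun p : Fin M × Fin n => A (p.1, Sum.inr p.2))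
    have h2 := le_logZ hm hb ρ hρ measurable_sv (fun p : Fin M × Fin n => A (p.1, Sum.inr p.2))
    rw [abs_le]
    constructor
    · have := neg_abs_le (Real.log (ρ.real univ)); linarith
    · have := le_abs_self (Real.log (ρ.real univ)); linarith
  · have h0 : ρ = 0 := by
      have : ρ.real univ = 0 := le_antisymm (not_lt.1 hρ) measureReal_nonneg
      rw [measureReal_def, ENNReal.toReal_eq_zero_iff] at this
      rcases this with h | h
      · exact Measure.measure_univ_eq_zero.1 h
      · exact absurd h (measure_ne_top _ _)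
    unfold logZ
    rw [h0, integral_zero_measure, Real.log_zero, abs_zero]
    positivity

/-- changing one row changes `XF` by at most `2 K`. -/
theorem XF_row {ψ : ℝ → ℝ} (hψ : Measurable ψ) {K : ℝ} (hK : ∀ x, |ψ x| ≤ K) (μ κ : ℝ)
    {I : Type} [Fintype I] (u : I → ℝ) (M n : ℕ) (A A' : Fin M × (I ⊕ Fin n) → ℝ) (r : Fin M)
    (hA : ∀ p : Fin M × (I ⊕ Fin n), p.1 ≠ r → A' p = A p) :
    XF ψ μ κ u A' - XF ψ μ κ u A ≤ 2 * K := by
  classical
  have hK0 : 0 ≤ K := (abs_nonneg _).trans (hK 0)
  unfold XF XR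
  set ρ := (uS n).restrict (DD n κ) with hρdef
  have hm : ∀ (B : Fin M × (I ⊕ Fin n) → ℝ) (a : Fin M), Measurable fun x : ℝ =>
      ψ ((fun a => ∑ i, B (a, Sum.inl i) * u i) a + √(1 - μ) * x) := fun B a =>
    hψ.comp (by fun_prop)
  have hb : ∀ (B : Fin M × (I ⊕ Fin n) → ℝ) (a : Fin M) (x : ℝ),
      ψ ((fun a => ∑ i, B (a, Sum.inl i) * u i) a + √(1 - μ) * x) ≤ K := fun B a x =>
    (le_abs_self _).trans (hK _)
  by_cases hρ : 0 < ρ.real univ
  · have h1 := int_exp_pos (hm A) (hb A) ρ hρ measurable_sv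
      (fun p : Fin M × Fin n => A (p.1, Sum.inr p.2))
    have h2 := int_exp_pos (hm A') (hb A') ρ hρ measurable_sv
      (fun p : Fin M × Fin n => A' (p.1, Sum.inr p.2))
    have i1 := integrable_exp_expo (hm A) (hb A) ρ measurable_sv
      (fun p : Fin M × Fin n => A (p.1, Sum.inr p.2))
    have i2 := integrable_exp_expo (hm A') (hb A') ρ measurable_sv
      (fun p : Fin M × Fin n => A' (p.1, Sum.inr p.2))
    have key : ∀ y : UnitSphere n,
        expo (fun a x => ψ ((fun a => ∑ i, A' (a, Sum.inl i) * u i) a + √(1 - μ) * x)) sv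
          (fun p : Fin M × Fin n => A' (p.1, Sum.inr p.2)) y ≤
        2 * K + expo (fun a x => ψ ((fun a => ∑ i, A (a, Sum.inl i) * u i) a + √(1 - μ) * x)) sv
          (fun p : Fin M × Fin n => A (p.1, Sum.inr p.2)) y := by
      intro y
      unfold expo
      rw [← Finset.add_sum_erase _ _ (Finset.mem_univ r),
        ← Finset.add_sum_erase (a := r) Finset.univ (fun a =>
          ψ ((fun a => ∑ i, A (a, Sum.inl i) * u i) a + √(1 - μ) *
            ∑ i, (fun p : Fin M × Fin n => A (p.1, Sum.inr p.2)) (a, i) * sv y i))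
          (Finset.mem_univ r)]
      have e : ∑ a ∈ Finset.univ.erase r,
          ψ ((fun a => ∑ i, A' (a, Sum.inl i) * u i) a + √(1 - μ) *
            ∑ i, (fun p : Fin M × Fin n => A' (p.1, Sum.inr p.2)) (a, i) * sv y i) =
          ∑ a ∈ Finset.univ.erase r,
          ψ ((fun a => ∑ i, A (a, Sum.inl i) * u i) a + √(1 - μ) *
            ∑ i, (fun p : Fin M × Fin n => A (p.1, Sum.inr p.2)) (a, i) * sv y i) := by
        refine Finset.sum_congr rfl fun a ha => ?_
        have har : a ≠ r := (Finset.mem_erase.1 ha).1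
        have e1 : ∀ i, A' (a, Sum.inl i) = A (a, Sum.inl i) := fun i => hA _ har
        have e2 : ∀ i, A' (a, Sum.inr i) = A (a, Sum.inr i) := fun i => hA _ har
        simp only [e1, e2]
      rw [e]
      have b1 := (abs_le.1 (hK ((fun a => ∑ i, A' (a, Sum.inl i) * u i) r + √(1 - μ) *
            ∑ i, (fun p : Fin M × Fin n => A' (p.1, Sum.inr p.2)) (r, i) * sv y i))).2
      have b2 := (abs_le.1 (hK ((fun a => ∑ i, A (a, Sum.inl i) * u i) r + √(1 - μ) *
            ∑ i, (fun p : Fin M × Fin n => A (p.1, Sum.inr p.2)) (r, i) * sv y i))).1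
      linarith
    have h3 : ∫ y, Real.exp (expo (fun a x =>
          ψ ((fun a => ∑ i, A' (a, Sum.inl i) * u i) a + √(1 - μ) * x)) sv
          (fun p : Fin M × Fin n => A' (p.1, Sum.inr p.2)) y) ∂ρ ≤
        Real.exp (2 * K) * ∫ y, Real.exp (expo (fun a x =>
          ψ ((fun a => ∑ i, A (a, Sum.inl i) * u i) a + √(1 - μ) * x)) sv
          (fun p : Fin M × Fin n => A (p.1, Sum.inr p.2)) y) ∂ρ := by
      rw [← integral_const_mul]
      refine integral_mono i2 (i1.const_mul _) fun y => ?_
      simp only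
      rw [← Real.exp_add]
      exact Real.exp_le_exp.2 (key y)
    have h4 := Real.log_le_log h2 h3
    rw [Real.log_mul (Real.exp_pos _).ne' h1.ne', Real.log_exp] at h4
    unfold logZ
    linarith
  · have h0 : ρ = 0 := by
      have : ρ.real univ = 0 := le_antisymm (not_lt.1 hρ) measureReal_nonneg
      rw [measureReal_def, ENNReal.toReal_eq_zero_iff] at this
      rcases this with h | h
      · exact Measure.measure_univ_eq_zero.1 h
      · exact absurd h (measure_ne_top _ _)
    unfold logZ
    rw [h0, integral_zero_measure, integral_zero_measure, Real.log_zero]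
    linarith

/-- **XCONC**. -/
theorem xconc : XCONC := by
  intro ν _ ψ K hψ hK M n I _ u μ κ t ht
  classical
  have hK0 : 0 ≤ K := (abs_nonneg _).trans (hK 0)
  set T : (Fin M → (I ⊕ Fin n) → ℝ) → (Fin M × (I ⊕ Fin n) → ℝ) := fun B q => B q.1 q.2 with hT
  have hTm : Measurable T :=
    measurable_pi_lambda _ fun q => (measurable_pi_apply q.2).comp (measurable_pi_apply q.1)
  have hmap : (Measure.pi fun _ : Fin M × (I ⊕ Fin n) => ν)
      = (Measure.pi fun _ : Fin M => Measure.pi fun _ : (I ⊕ Fin n) => ν).map T :=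
    Crest.Agent.R146.Large_840.pi_eq_map_rows ν
  have hXm := measurable_XF hψ μ κ u M n
  have h := Crest.Agent.R146.McD_840.mcdiarmid (ι := Fin M)
    (Measure.pi fun _ : (I ⊕ Fin n) => ν) (2 * K) (by positivity)
    (M * K + |Real.log (((uS n).restrict (DD n κ)).real univ)|)
    (fun B => XF ψ μ κ u (T B)) (hXm.comp hTm)
    (fun B => abs_XF_le hψ hK μ κ u M n (T B))
    (fun B r x => XF_row hψ hK μ κ u M n (T B) (T (Function.update B r x)) r (fun p hp => by
      simp only [hT]
      rw [Function.update_of_ne hp])) t ht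
  rw [hmap, Measure.map_apply hTm (measurableSet_le measurable_const hXm),
    integral_map hTm.aemeasurable hXm.aestronglyMeasurable]
  refine h.trans (le_of_eq ?_)
  congr 2
  rw [Fintype.card_fin]
  rw [show -2 * t ^ 2 = 2 * (-t ^ 2) by ring, show (M : ℝ) * (2 * K) ^ 2 = 2 * (2 * M * K ^ 2) by ring]
  exact mul_div_mul_left _ _ two_ne_zero

end Crest.Agent.R146.LocConc_840
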