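import Crest.Agent.R146.LocMean_878

/-!
Row 146, node LOCCORE, helper878: `low_bound` in terms of `XF` (helper508's `LocXR_508`).
-/

set_option autoImplicit false

open MeasureTheory ProbabilityTheory Set Filter
open scoped Topology

namespace Crest.Agent.R146L878

open Crest.Agent.R146.LocRec_508 Crest.Agent.R146.LocDet_508 Crest.Agent.R146.P34_734
open Crest.Agent.R146.S6Def_988
open Crest.Agent.R146.PressC_663 (uSph isProb_uSph)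
open Crest.Agent.R146.LocXR_508
open Crest.ProbabilityR.Perceptron

/-- **(LOW)** mean of `XF` for one block, with `low_ineq` absorbed. -/
theorem low_boundXF (hUB : Crest.Agent.R146.S6U_988.UB) {ψ : ℝ → ℝ} (hψ : Test ψ) {b0 : ℝ}
    (hb0 : 0 ≤ b0) (hlo : MidLo b0 ψ) (hhi : MidHi (1 / 2) ψ) {α : ℝ} (hα : 0 < α) {δ : ℝ}
    (hδ : 0 < δ) : ∃ J0 : ℕ, ∀ J, J0 ≤ J → ∀ P : ℕ → ℝ, Lev J P → P J < 1 → ∀ μ : ℝ, 0 ≤ μ → μ < 1 →
    ∃ (N0 : ℕ) (η : ℝ), 0 < η ∧ ∀ N, N0 ≤ N → ∀ n, N ≤ 2 * n → n ≤ N → ∀ κ : ℝ, 0 ≤ κ →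
      N * κ ^ 4 ≤ η → 0 < (Crest.Agent.R146.Sph_409.uS n).real (DD n κ) →
      ∀ (I : Type) [Fintype I] (u : I → ℝ), ∑ i, u i ^ 2 = μ → ∀ ε : ℝ, 0 ≤ ε → ε ≤ 1 →
      α * ε ≤ 1 - μ →
      ∫ A, XF ψ μ κ u A
          ∂(Measure.pi fun _ : Fin (numPatterns N α) × (I ⊕ Fin n) => mixtureLaw ε) ≤
        N * (α * Th J ψ P + SP J P - 1 / 2 * Real.log (1 - μ) + δ) := by
  obtain ⟨K, hK⟩ := Test_bdd hψ
  obtain ⟨J0, hJ0⟩ := low_bound hUB hψ hb0 hlo hhi hα hδ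
  refine ⟨J0, fun J hJ P hP hP1 μ hμ0 hμ1 => ?_⟩
  obtain ⟨N0, η, hη, h⟩ := hJ0 J hJ P hP hP1 μ hμ0 hμ1
  refine ⟨max N0 1, η, hη, ?_⟩
  intro N hN n hn1 hn2 κ hκ hκη hDpos I _ u hu ε h0 h1 hαε
  have hNpos : 1 ≤ N := (le_max_right _ _).trans hN
  have hn : 0 < n := by omega
  have hD : uSph n (DD n κ) ≠ 0 := by
    intro hz
    have h2 : (uSph n).real (DD n κ) = 0 := by rw [Measure.real, hz]; rfl
    have h3 : (0 : ℝ) < (uSph n).real (DD n κ) := hDpos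
    linarith
  have : IsProbabilityMeasure (mixtureLaw ε) := isProb_mixtureLaw ε
  rw [integral_XF (M := numPatterns N α) hn (Test_cont hψ).measurable hK μ κ hD u (mixtureLaw ε)]
  exact h N ((le_max_left _ _).trans hN) n hn1 hn2 κ hκ hκη hD I u hu ε h0 h1 hαε

end Crest.Agent.R146L878
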