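import Crest.Agent.R146.LocXR_508
import Crest.Agent.R146.RepairNet_840

/-!
Row 146, node LOC (LOCCORE), helper840: finite nets of localised blocks with masses on a grid
(`LocXR_508.NETP`).
-/

set_option autoImplicit false

open Filter Set
open scoped Topology

namespace Crest.Agent.R146.LocNet_840

open Crest.Agent.R146.LocXR_508
open Crest.Agent.R146.RepairNet_840 (exists_net)

/-- the pairs of a net point and a shell which meet -/
def Meet {I : Type} [Fintype I] (h ρ : ℝ) (q : EuclideanSpace ℝ I × ℕ)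
    (w : EuclideanSpace ℝ I) : Prop :=
  ‖w - q.1‖ ≤ ρ ∧ (q.2 : ℝ) * h ≤ ‖w‖ ^ 2 ∧ ‖w‖ ^ 2 ≤ (q.2 + 1) * h

theorem scaled {I : Type} [Fintype I] {h : ℝ} (hh : 0 < h) {k : ℕ} {w : EuclideanSpace ℝ I}
    (h1 : (k : ℝ) * h ≤ ‖w‖ ^ 2) (h2 : ‖w‖ ^ 2 ≤ (k + 1) * h) :
    ‖(√(k * h) / ‖w‖) • w‖ ^ 2 = k * h ∧ ‖w - (√(k * h) / ‖w‖) • w‖ ≤ √h := by
  have hkh : 0 ≤ (k : ℝ) * h := by positivity
  rcases (norm_nonneg w).eq_or_lt with h0 | h0
  · have hw : w = 0 := norm_eq_zero.1 h0.symm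
    subst hw
    simp only [norm_zero, ne_eq, OfNat.ofNat_ne_zero, not_false_eq_true, zero_pow] at h1
    have : (k : ℝ) * h = 0 := le_antisymm h1 hkh
    rw [this]
    simp
  · have e1 : ‖(√(k * h) / ‖w‖) • w‖ = √(k * h) := by
      rw [norm_smul, Real.norm_eq_abs, abs_of_nonneg (by positivity), div_mul_cancel₀ _ h0.ne']
    refine ⟨by rw [e1, Real.sq_sqrt hkh], ?_⟩
    have hle : √(k * h) ≤ ‖w‖ := by
      rw [Real.sqrt_le_left (norm_nonneg w)]
      exact h1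
    have e2 : w - (√(k * h) / ‖w‖) • w = (1 - √(k * h) / ‖w‖) • w := by
      rw [sub_smul, one_smul]
    have h3 : 0 ≤ 1 - √(k * h) / ‖w‖ := by
      rw [sub_nonneg, div_le_one h0]; exact hle
    rw [e2, norm_smul, Real.norm_eq_abs, abs_of_nonneg h3]
    have h4 : (1 - √(k * h) / ‖w‖) * ‖w‖ = ‖w‖ - √(k * h) := by
      field_simp
    rw [h4]
    have h5 : ‖w‖ ≤ √h + √(k * h) := by
      have h6 : ‖w‖ ^ 2 ≤ (√h + √(k * h)) ^ 2 := by
        have a1 := Real.sq_sqrt hh.le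
        have a2 := Real.sq_sqrt hkh
        have a3 := mul_nonneg (Real.sqrt_nonneg h) (Real.sqrt_nonneg (k * h))
        nlinarith
      exact le_of_sq_le_sq h6 (by positivity)
    linarith

/-- **NETP**. -/
theorem netp : NETP := by
  intro h hh hh1
  classical
  obtain ⟨j, hj⟩ := exists_pow_lt_of_lt_one (Real.sqrt_pos.2 hh) (show (1 / 2 : ℝ) < 1 by norm_num)
  set K : ℕ := ⌊1 / h⌋₊ + 1 with hK
  refine ⟨5 ^ j * K, fun I _ => ?_⟩
  obtain ⟨T, hTc, hT⟩ := exists_net (EuclideanSpace ℝ I) j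
  set ρ : ℝ := (1 / 2 : ℝ) ^ j with hρ
  let Q : Finset (EuclideanSpace ℝ I × ℕ) :=
    (T ×ˢ Finset.range K).filter fun q => ∃ w, Meet h ρ q w
  let pick : EuclideanSpace ℝ I × ℕ → EuclideanSpace ℝ I := fun q =>
    if hq : ∃ w, Meet h ρ q w then (√(q.2 * h) / ‖hq.choose‖) • hq.choose else 0
  have hpick : ∀ q, (∃ w, Meet h ρ q w) → ‖pick q‖ ^ 2 = q.2 * h ∧
      ∃ w0, Meet h ρ q w0 ∧ ‖w0 - pick q‖ ≤ √h := by
    intro q hq
    have hs := hq.choose_spec
    have h1 := scaled hh hs.2.1 hs.2.2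
    have e : pick q = (√(q.2 * h) / ‖hq.choose‖) • hq.choose := by
      simp only [pick]
      rw [dif_pos hq]
    rw [e]
    exact ⟨h1.1, hq.choose, hs, h1.2⟩
  have hsq : ∀ x : EuclideanSpace ℝ I, ‖x‖ ^ 2 = ∑ i, x i ^ 2 := fun x =>
    EuclideanSpace.real_norm_sq_eq x
  refine ⟨Q.image fun q => fun i => pick q i, ?_, ?_, ?_⟩
  · refine Finset.card_image_le.trans ((Finset.card_filter_le _ _).trans ?_)
    rw [Finset.card_product, Finset.card_range, pow_succ, mul_pow]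
    have h1 : 1 ≤ K := by omega
    rw [finrank_euclideanSpace] at hTc
    have h2 : (1 : ℕ) ≤ K ^ Fintype.card I := Nat.one_le_pow _ _ h1
    have h3 : (1 : ℕ) ≤ 5 ^ j := Nat.one_le_pow _ _ (by norm_num)
    calc T.card * K ≤ (5 ^ j) ^ Fintype.card I * K := Nat.mul_le_mul_right _ hTc
      _ ≤ (5 ^ j) ^ Fintype.card I * K ^ Fintype.card I * (5 ^ j * K) := by
          have : (5 ^ j) ^ Fintype.card I * 1 * (1 * K) ≤
              (5 ^ j) ^ Fintype.card I * K ^ Fintype.card I * (5 ^ j * K) := by gcongr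
          simpa using this
  · intro u hu
    obtain ⟨q, hq, rfl⟩ := Finset.mem_image.1 hu
    obtain ⟨hq1, hq2⟩ := Finset.mem_filter.1 hq
    refine ⟨q.2, ?_, ?_⟩
    · have h1 : q.2 < K := Finset.mem_range.1 (Finset.mem_product.1 hq1).2
      have h2 : (q.2 : ℝ) ≤ 1 / h := (Nat.le_floor_iff (by positivity)).1 (by omega)
      rwa [le_div_iff₀ hh] at h2
    · rw [← (hpick q hq2).1, hsq]
  · intro w hw
    set w' : EuclideanSpace ℝ I := WithLp.toLp 2 w with hw'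
    have hwn : ‖w'‖ ^ 2 = ∑ i, w i ^ 2 := by rw [hsq]
    have hw1 : ‖w'‖ ^ 2 ≤ 1 := by rw [hwn]; exact hw
    have hw2 : ‖w'‖ ≤ 1 := by
      have h1 : ‖w'‖ ^ 2 ≤ 1 ^ 2 := by rw [one_pow]; exact hw1
      exact le_of_sq_le_sq h1 zero_le_one
    obtain ⟨v, hvT, hv⟩ := hT w' hw2
    set k : ℕ := ⌊‖w'‖ ^ 2 / h⌋₊ with hk
    have hk1 : (k : ℝ) * h ≤ ‖w'‖ ^ 2 := by
      rw [← le_div_iff₀ hh]; exact Nat.floor_le (by positivity)
    have hk2 : ‖w'‖ ^ 2 ≤ (k + 1) * h := by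
      rw [← div_le_iff₀ hh]; exact (Nat.lt_floor_add_one _).le
    have hkK : k < K := by
      rw [hK]
      refine Nat.lt_succ_of_le (Nat.floor_le_floor ?_)
      exact div_le_div_of_nonneg_right hw1 hh.le
    have hmeet : Meet h ρ (v, k) w' := ⟨hv, hk1, hk2⟩
    obtain ⟨p1, w0, p2, p3⟩ := hpick (v, k) ⟨w', hmeet⟩
    refine ⟨fun i => pick (v, k) i, Finset.mem_image.2 ⟨(v, k), Finset.mem_filter.2
      ⟨Finset.mem_product.2 ⟨hvT, Finset.mem_range.2 hkK⟩, w', hmeet⟩, rfl⟩, ?_, ?_, ?_⟩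
    · have : ∑ i, (pick (v, k) i) ^ 2 ≤ ∑ i, w i ^ 2 := by
        rw [← hsq (pick (v, k)), p1, ← hwn]; exact hk1
      exact this
    · have : ∑ i, w i ^ 2 ≤ ∑ i, (pick (v, k) i) ^ 2 + h := by
        rw [← hsq (pick (v, k)), p1, ← hwn]
        have : ((v, k) : EuclideanSpace ℝ I × ℕ).2 = k := rfl
        rw [this]
        linarith
      exact this
    · have e : ∑ i, (w i - pick (v, k) i) ^ 2 = ‖w' - pick (v, k)‖ ^ 2 := by
        rw [hsq]
        rfl
      show ∑ i, (w i - pick (v, k) i) ^ 2 ≤ 9 * h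
      rw [e]
      have hρh : ρ ≤ √h := hj.le
      have d1 : ‖w' - v‖ ≤ √h := hv.trans hρh
      have d2 : ‖w0 - v‖ ≤ √h := p2.1.trans hρh
      have d3 : ‖w' - pick (v, k)‖ ≤ 3 * √h := by
        have e2 : w' - pick (v, k) = (w' - v) + ((v - w0) + (w0 - pick (v, k))) := by abel
        rw [e2]
        have n1 := norm_add_le (w' - v) ((v - w0) + (w0 - pick (v, k)))
        have n2 := norm_add_le (v - w0) (w0 - pick (v, k))
        rw [norm_sub_rev v w0] at n2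
        linarith
      have d4 := Real.sq_sqrt hh.le
      have d5 := norm_nonneg (w' - pick (v, k))
      nlinarith

end Crest.Agent.R146.LocNet_840
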