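import Crest.Agent.R146.Sph2_409

/-!
# Row 146, SPHERE part 3 (helper409): Gaussian domination, tails, moments

* `uS_le_stdGaussian` : for `A` with `r • A ⊆ A` (`r ≥ 1`), `uS A ≤ 2 γ(√(N/2) A)`, `N ≥ 16`;
* `uS_coord_tail`, `uS_sup_tail` : `uS (∃ i, t < |y i|) ≤ 4 N exp (-N t² / 4)`;
* `integral_radLaw_sq`, `integral_radLaw_pow4` : moments of the norm;
* `integral_inner_sq`, `integral_inner_pow4`, `integral_coord_sq`, `integral_coord_pow4`.
-/

set_option autoImplicit false

open MeasureTheory MeasureTheory.Measure ProbabilityTheory Set Filter Topology Metric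
open scoped ENNReal NNReal Real Pointwise

noncomputable section

namespace Crest.Agent.R146.Sph_409

open Crest.ProbabilityR.Perceptron
open Crest.Agent.R166.Gauss286 (gv)

/-! ### Gaussian domination -/

theorem radLaw_ge {N : ℕ} (hN : 16 ≤ N) : 1 / 2 ≤ (radLaw N).real {r | √(N / 2) ≤ r} := by
  have hNN : (16 : ℝ) ≤ N := by exact_mod_cast hN
  have : NeZero N := ⟨by omega⟩
  have hw := radLaw_window N (c := (N : ℝ) / 2) (by positivity)
  have h1 : 2 * (N : ℝ) / (N / 2) ^ 2 ≤ 1 / 2 := by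
    rw [div_le_div_iff₀ (by positivity) (by norm_num)]
    nlinarith
  have hSm : MeasurableSet {r : ℝ | (N : ℝ) / 2 ≤ |r ^ 2 - N|} :=
    measurableSet_le measurable_const (by fun_prop)
  have h2 : (radLaw N).real {r : ℝ | (N : ℝ) / 2 ≤ |r ^ 2 - N|}ᶜ ≤
      (radLaw N).real {r | √(N / 2) ≤ r} := by
    rw [measureReal_def, measureReal_def]
    refine ENNReal.toReal_mono (measure_ne_top _ _) (measure_mono_ae ?_)
    filter_upwards [ae_radLaw_pos N] with r hr hrS
    have h3 : |r ^ 2 - N| < N / 2 := not_le.1 hrS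
    rw [abs_lt] at h3
    exact (Real.sqrt_le_sqrt (by linarith [h3.1] : (N : ℝ) / 2 ≤ r ^ 2)).trans
      (le_of_eq (Real.sqrt_sq hr.le))
  rw [probReal_compl_eq_one_sub hSm] at h2
  linarith

theorem uS_le_stdGaussian {N : ℕ} (hN : 16 ≤ N) {A : Set (En N)} (hA : MeasurableSet A)
    (hmul : ∀ x ∈ A, ∀ r : ℝ, 1 ≤ r → r • x ∈ A) :
    (uS N).real {y | (y : En N) ∈ A} ≤
      2 * (stdGaussian (En N)).real {x | (√(N / 2))⁻¹ • x ∈ A} := by
  have : NeZero N := ⟨by omega⟩
  have hNN : (16 : ℝ) ≤ N := by exact_mod_cast hN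
  set c : ℝ := √(N / 2) with hc_def
  have hc : 0 < c := Real.sqrt_pos.2 (by positivity)
  have hB : MeasurableSet {x : En N | c⁻¹ • x ∈ A} := by
    have hm : Measurable fun x : En N => c⁻¹ • x := by fun_prop
    exact hm hA
  have hind : Measurable (indicator {x : En N | c⁻¹ • x ∈ A} (fun _ => (1 : ℝ≥0∞))) :=
    measurable_const.indicator hB
  have hAs : MeasurableSet {y : UnitSphere N | (y : En N) ∈ A} := measurable_subtype_coe hA
  have h1 : (stdGaussian (En N)) {x | c⁻¹ • x ∈ A} =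
      ∫⁻ r, ∫⁻ y, indicator {x : En N | c⁻¹ • x ∈ A} (fun _ => (1 : ℝ≥0∞)) (r • (y : En N))
        ∂uS N ∂radLaw N := by
    rw [← lintegral_stdGaussian_polar N hind, lintegral_indicator hB]
    simp
  have hRm : MeasurableSet {r : ℝ | c ≤ r} := measurableSet_Ici
  have h2 : (radLaw N) {r | c ≤ r} * (uS N) {y | (y : En N) ∈ A} ≤
      (stdGaussian (En N)) {x | c⁻¹ • x ∈ A} := by
    rw [h1, mul_comm, ← lintegral_indicator_const hRm]
    refine lintegral_mono fun r => ?_
    by_cases hr : r ∈ {r : ℝ | c ≤ r}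
    · rw [Set.indicator_of_mem hr, ← one_mul ((uS N) _), ← lintegral_indicator_const hAs]
      refine lintegral_mono fun y => ?_
      by_cases hy : y ∈ {y : UnitSphere N | (y : En N) ∈ A}
      · rw [Set.indicator_of_mem hy]
        have hmem : r • (y : En N) ∈ {x : En N | c⁻¹ • x ∈ A} := by
          change c⁻¹ • (r • (y : En N)) ∈ A
          rw [smul_smul]
          refine hmul _ hy _ ?_
          rw [inv_mul_eq_div, one_le_div hc]
          exact hr
        rw [Set.indicator_of_mem hmem]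
      · rw [Set.indicator_of_notMem hy]
        exact zero_le
    · rw [Set.indicator_of_notMem hr]
      exact zero_le
  have h3 : (radLaw N).real {r | c ≤ r} * (uS N).real {y | (y : En N) ∈ A} ≤
      (stdGaussian (En N)).real {x | c⁻¹ • x ∈ A} := by
    simp only [measureReal_def]
    rw [← ENNReal.toReal_mul]
    exact ENNReal.toReal_mono (measure_ne_top _ _) h2
  have h4 := radLaw_ge hN
  have h5 : 0 ≤ (uS N).real {y | (y : En N) ∈ A} := measureReal_nonneg
  nlinarith

/-! ### tails -/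

theorem gaussianReal_tail {t : ℝ} (ht : 0 ≤ t) :
    (gaussianReal 0 1).real {x | t ≤ |x|} ≤ 2 * Real.exp (-t ^ 2 / 2) := by
  have hsub : HasSubgaussianMGF (fun x : ℝ => x) 1 (gaussianReal 0 1) := by
    refine ⟨fun s => integrable_exp_mul_gaussianReal s, fun s => ?_⟩
    have := congrFun (mgf_id_gaussianReal (μ := 0) (v := 1)) s
    simp only [mgf, id] at this ⊢
    rw [this]
    simp
  have hneg : HasSubgaussianMGF (fun x : ℝ => -x) 1 (gaussianReal 0 1) := hsub.neg
  have h1 := hsub.measure_ge_le ht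
  have h2 := hneg.measure_ge_le ht
  have h3 : {x : ℝ | t ≤ |x|} ⊆ {x | t ≤ x} ∪ {x | t ≤ -x} := by
    intro x hx
    rcases le_abs.1 (show t ≤ |x| from hx) with h | h
    · exact Or.inl h
    · exact Or.inr h
  calc (gaussianReal 0 1).real {x | t ≤ |x|}
      ≤ (gaussianReal 0 1).real ({x | t ≤ x} ∪ {x | t ≤ -x}) := measureReal_mono h3
    _ ≤ (gaussianReal 0 1).real {x | t ≤ x} + (gaussianReal 0 1).real {x | t ≤ -x} :=
        measureReal_union_le _ _
    _ ≤ Real.exp (-t ^ 2 / (2 * (1 : ℝ≥0))) + Real.exp (-t ^ 2 / (2 * (1 : ℝ≥0))) :=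
        add_le_add h1 h2
    _ = 2 * Real.exp (-t ^ 2 / 2) := by push_cast; ring_nf

theorem map_apply_stdGaussian {N : ℕ} (i : Fin N) :
    (stdGaussian (En N)).map (fun x => x i) = gaussianReal 0 1 := by
  rw [stdGaussian_eq_map, Measure.map_map (by fun_prop) (measurable_toLp' N)]
  exact (measurePreserving_eval (fun _ : Fin N => gaussianReal 0 1) i).map_eq

/-- Tail of one coordinate. -/
theorem uS_coord_tail {N : ℕ} (hN : 16 ≤ N) (i : Fin N) {t : ℝ} (ht : 0 ≤ t) :
    (uS N).real {y | t ≤ |(y : En N) i|} ≤ 4 * Real.exp (-(N * t ^ 2) / 4) := by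
  have hNN : (16 : ℝ) ≤ N := by exact_mod_cast hN
  set c : ℝ := √(N / 2) with hc_def
  have hc : 0 < c := Real.sqrt_pos.2 (by positivity)
  have hA : MeasurableSet {x : En N | t ≤ |x i|} := measurableSet_le measurable_const (by fun_prop)
  have h := uS_le_stdGaussian hN hA (fun x hx r hr => by
    change t ≤ |(r • x) i|
    rw [PiLp.smul_apply, smul_eq_mul, abs_mul, abs_of_pos (by linarith)]
    have hx' : t ≤ |x i| := hx
    nlinarith [abs_nonneg (x i)])
  refine h.trans ?_
  rw [← hc_def]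
  have h2 : (stdGaussian (En N)).real {x | c⁻¹ • x ∈ {x : En N | t ≤ |x i|}} =
      (gaussianReal 0 1).real {x | t * c ≤ |x|} := by
    rw [← map_apply_stdGaussian i, map_measureReal_apply (by fun_prop)
      (measurableSet_le measurable_const (by fun_prop))]
    congr 1
    ext x
    simp only [Set.mem_ofPred_eq, PiLp.smul_apply, smul_eq_mul, abs_mul, abs_inv, abs_of_pos hc,
      mem_preimage]
    rw [inv_mul_eq_div, le_div_iff₀ hc]
  rw [h2]
  have h3 := gaussianReal_tail (t := t * c) (by positivity)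
  have h4 : -(t * c) ^ 2 / 2 = -(N * t ^ 2) / 4 := by
    rw [mul_pow, hc_def, Real.sq_sqrt (by positivity)]
    ring
  rw [h4] at h3
  linarith

/-- **Delocalisation**: tail of the sup norm. -/
theorem uS_sup_tail {N : ℕ} (hN : 16 ≤ N) {t : ℝ} (ht : 0 ≤ t) :
    (uS N).real {y | ∃ i, t ≤ |(y : En N) i|} ≤ 4 * N * Real.exp (-(N * t ^ 2) / 4) := by
  have h1 : {y : UnitSphere N | ∃ i, t ≤ |(y : En N) i|} =
      ⋃ i, {y : UnitSphere N | t ≤ |(y : En N) i|} := by
    ext y; simp
  rw [h1]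
  calc (uS N).real (⋃ i, {y : UnitSphere N | t ≤ |(y : En N) i|})
      ≤ ∑ i, (uS N).real {y : UnitSphere N | t ≤ |(y : En N) i|} :=
        measureReal_iUnion_fintype_le _
    _ ≤ ∑ _i : Fin N, 4 * Real.exp (-(N * t ^ 2) / 4) :=
        Finset.sum_le_sum fun i _ => uS_coord_tail hN i ht
    _ = _ := by
        rw [Finset.sum_const, Finset.card_univ, Fintype.card_fin, nsmul_eq_mul]; ring

/-- Delocalisation, limit form: `uS (∃ i, N^(τ - 1/2) ≤ |y i|) → 0` for every `τ > 0`. -/
theorem tendsto_uS_sup {τ : ℝ} (hτ : 0 < τ) :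
    Tendsto (fun N : ℕ => (uS N).real {y | ∃ i, (N : ℝ) ^ (τ - 1 / 2) ≤ |(y : En N) i|})
      atTop (𝓝 0) := by
  have h1 : ∀ᶠ N : ℕ in atTop, (uS N).real {y | ∃ i, (N : ℝ) ^ (τ - 1 / 2) ≤ |(y : En N) i|} ≤
      4 * N * Real.exp (-(N : ℝ) ^ (2 * τ) / 4) := by
    filter_upwards [eventually_ge_atTop 16] with N hN
    have hNpos : (0 : ℝ) < N := by
      have : (16 : ℝ) ≤ N := by exact_mod_cast hN
      linarith
    have h := uS_sup_tail hN (t := (N : ℝ) ^ (τ - 1 / 2)) (by positivity)
    have e : (N : ℝ) * ((N : ℝ) ^ (τ - 1 / 2)) ^ 2 = (N : ℝ) ^ (2 * τ) := by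
      rw [← Real.rpow_natCast, ← Real.rpow_mul hNpos.le]
      nth_rewrite 1 [← Real.rpow_one (N : ℝ)]
      rw [← Real.rpow_add hNpos]
      congr 1
      push_cast
      ring
    rwa [e] at h
  have h2 : Tendsto (fun N : ℕ => 4 * (N : ℝ) * Real.exp (-(N : ℝ) ^ (2 * τ) / 4)) atTop (𝓝 0) := by
    have h3 : Tendsto (fun x : ℝ => x ^ (1 / (2 * τ)) * Real.exp (-(1 / 4) * x)) atTop (𝓝 0) :=
      tendsto_rpow_mul_exp_neg_mul_atTop_nhds_zero _ _ (by norm_num)
    have h4 : Tendsto (fun N : ℕ => (N : ℝ) ^ (2 * τ)) atTop atTop :=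
      (tendsto_rpow_atTop (by positivity)).comp tendsto_natCast_atTop_atTop
    have h5 := (h3.comp h4).const_mul 4
    rw [mul_zero] at h5
    refine h5.congr' ?_
    filter_upwards [eventually_gt_atTop 0] with N hN
    have hNpos : (0 : ℝ) < N := by exact_mod_cast hN
    simp only [Function.comp_apply]
    rw [← Real.rpow_mul hNpos.le]
    have : 2 * τ * (1 / (2 * τ)) = 1 := by field_simp
    rw [this, Real.rpow_one]
    ring_nf
  exact squeeze_zero' (Filter.Eventually.of_forall fun N => measureReal_nonneg) h1 h2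

/-! ### moments -/

theorem integrable_norm_pow4 (N : ℕ) :
    Integrable (fun x : En N => ‖x‖ ^ 4) (stdGaussian (En N)) := by
  have h := ((integrable_norm_sq_sub_sq N).const_mul 2).add
    (integrable_const (μ := stdGaussian (En N)) (2 * (N : ℝ) ^ 2))
  refine h.mono' (by fun_prop) (Filter.Eventually.of_forall fun x => ?_)
  rw [Real.norm_eq_abs, abs_of_nonneg (by positivity)]
  simp only [Pi.add_apply]
  nlinarith [sq_nonneg (‖x‖ ^ 2 - 2 * N)]

theorem integrable_norm_sq (N : ℕ) :
    Integrable (fun x : En N => ‖x‖ ^ 2) (stdGaussian (En N)) := by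
  have h := (integrable_norm_pow4 N).add (integrable_const (μ := stdGaussian (En N)) (1 : ℝ))
  refine h.mono' (by fun_prop) (Filter.Eventually.of_forall fun x => ?_)
  rw [Real.norm_eq_abs, abs_of_nonneg (by positivity)]
  simp only [Pi.add_apply]
  nlinarith [sq_nonneg (‖x‖ ^ 2 - 1)]

theorem integral_norm_sq (N : ℕ) : ∫ x : En N, ‖x‖ ^ 2 ∂stdGaussian (En N) = N := by
  rw [integral_stdGaussian_toLp N (by fun_prop)]
  simp only [norm_toLp_sq]
  rw [integral_finsetSum _ fun i _ => ?_]
  · have : ∀ i : Fin N, ∫ x : Fin N → ℝ, x i ^ 2 ∂gv (Fin N) = 1 := fun i => by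
      rw [integral_comp_eval (μ := fun _ : Fin N => gaussianReal 0 1) (f := fun x : ℝ => x ^ 2)
        (by fun_prop)]
      exact Crest.Agent.R166.Gauss286.int_x2
    simp [this]
  · exact integrable_comp_eval (μ := fun _ : Fin N => gaussianReal 0 1) (f := fun x : ℝ => x ^ 2)
      Crest.Agent.R166.Gauss286.integrable_x2

theorem integral_norm_pow4 (N : ℕ) :
    ∫ x : En N, ‖x‖ ^ 4 ∂stdGaussian (En N) = N * (N + 2) := by
  have h := integral_norm_sq_sub_sq N
  have e : ∀ x : En N, (‖x‖ ^ 2 - N) ^ 2 = (‖x‖ ^ 4 - 2 * N * ‖x‖ ^ 2) + (N : ℝ) ^ 2 :=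
    fun x => by ring
  simp only [e] at h
  have hi : Integrable (fun x : En N => ‖x‖ ^ 4 - 2 * N * ‖x‖ ^ 2) (stdGaussian (En N)) :=
    (integrable_norm_pow4 N).sub ((integrable_norm_sq N).const_mul _)
  rw [integral_add hi (integrable_const _), integral_sub (integrable_norm_pow4 N)
    ((integrable_norm_sq N).const_mul _), integral_const_mul, integral_norm_sq] at h
  simp only [integral_const, probReal_univ, smul_eq_mul, one_mul] at h
  linarith

theorem integral_radLaw_sq (N : ℕ) : ∫ r, r ^ 2 ∂radLaw N = N := by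
  unfold radLaw
  rw [integral_map measurable_norm.aemeasurable (by fun_prop), integral_norm_sq]

theorem integral_radLaw_pow4 (N : ℕ) : ∫ r, r ^ 4 ∂radLaw N = N * (N + 2) := by
  unfold radLaw
  rw [integral_map measurable_norm.aemeasurable (by fun_prop), integral_norm_pow4]

/-- law of a linear form of a standard Gaussian vector -/
theorem map_inner_stdGaussian {N : ℕ} (w : En N) :
    (stdGaussian (En N)).map (fun x => inner ℝ w x) = gaussianReal 0 (‖w‖₊ ^ 2) := by
  have h := IsGaussian.map_eq_gaussianReal (μ := stdGaussian (En N)) (innerSL ℝ w)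
  rw [variance_dual_stdGaussian, innerSL_apply_norm] at h
  have h0 : ∫ x, innerSL ℝ w x ∂stdGaussian (En N) = 0 := integral_strongDual_stdGaussian _
  rw [h0] at h
  have e : (‖w‖ ^ 2).toNNReal = ‖w‖₊ ^ 2 := by
    rw [Real.toNNReal_pow (norm_nonneg w), norm_toNNReal]
  rw [e] at h
  exact h

theorem integral_inner_sq_stdGaussian {N : ℕ} (w : En N) :
    ∫ x, inner ℝ w x ^ 2 ∂stdGaussian (En N) = ‖w‖ ^ 2 := by
  have h : ∫ x, inner ℝ w x ^ 2 ∂stdGaussian (En N) =
      ∫ t, t ^ 2 ∂((stdGaussian (En N)).map (fun x => inner ℝ w x)) := by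
    rw [integral_map (by fun_prop) (by fun_prop)]
  have hv := variance_fun_id_gaussianReal (μ := 0) (v := ‖w‖₊ ^ 2)
  rw [variance_eq_integral (by fun_prop), integral_id_gaussianReal] at hv
  rw [h, map_inner_stdGaussian]
  simpa using hv

theorem gaussianReal_eq_scale (v : ℝ) :
    gaussianReal 0 (Real.toNNReal (v ^ 2)) = (gaussianReal 0 1).map (fun x => v * x) := by
  rw [gaussianReal_map_const_mul]
  congr 1
  · simp
  · rw [mul_one]
    ext
    simp [sq_nonneg]

theorem integral_inner_pow4_stdGaussian {N : ℕ} (w : En N) :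
    ∫ x, inner ℝ w x ^ 4 ∂stdGaussian (En N) = 3 * ‖w‖ ^ 4 := by
  have h : ∫ x, inner ℝ w x ^ 4 ∂stdGaussian (En N) =
      ∫ t, t ^ 4 ∂((stdGaussian (En N)).map (fun x => inner ℝ w x)) := by
    rw [integral_map (by fun_prop) (by fun_prop)]
  have e : (‖w‖₊ ^ 2 : ℝ≥0) = Real.toNNReal (‖w‖ ^ 2) := by
    rw [Real.toNNReal_pow (norm_nonneg w), norm_toNNReal]
  rw [h, map_inner_stdGaussian, e, gaussianReal_eq_scale, integral_map (by fun_prop) (by fun_prop)]
  simp only [mul_pow]
  rw [integral_const_mul, Crest.Agent.R166.Gauss286.int_x4]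
  ring

theorem integrable_inner_pow {N : ℕ} (w : En N) (k : ℕ) (hk : k = 2 ∨ k = 4) :
    Integrable (fun x => inner ℝ w x ^ k) (stdGaussian (En N)) := by
  have hb : ∀ x : En N, ‖(inner ℝ w x : ℝ) ^ k‖ ≤ ‖w‖ ^ k * ‖x‖ ^ k := fun x => by
    rw [norm_pow, ← mul_pow]
    exact pow_le_pow_left₀ (norm_nonneg _) (norm_inner_le_norm w x) k
  rcases hk with rfl | rfl
  · exact ((integrable_norm_sq N).const_mul _).mono' (by fun_prop)
      (Filter.Eventually.of_forall hb)
  · exact ((integrable_norm_pow4 N).const_mul _).mono' (by fun_prop)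
      (Filter.Eventually.of_forall hb)

/-- second moment of a linear form under the uniform law. -/
theorem integral_inner_sq {N : ℕ} [NeZero N] (w : En N) :
    ∫ y : UnitSphere N, inner ℝ w (y : En N) ^ 2 ∂uS N = ‖w‖ ^ 2 / N := by
  have h := integral_stdGaussian_polar N (integrable_inner_pow w 2 (Or.inl rfl))
  simp only [real_inner_smul_right, mul_pow, integral_const_mul] at h
  rw [integral_mul_const, integral_radLaw_sq, integral_inner_sq_stdGaussian] at h
  have hN : (N : ℝ) ≠ 0 := by exact_mod_cast NeZero.ne N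
  rw [eq_div_iff hN]
  linarith

/-- fourth moment of a linear form under the uniform law. -/
theorem integral_inner_pow4 {N : ℕ} [NeZero N] (w : En N) :
    ∫ y : UnitSphere N, inner ℝ w (y : En N) ^ 4 ∂uS N = 3 * ‖w‖ ^ 4 / (N * (N + 2)) := by
  have h := integral_stdGaussian_polar N (integrable_inner_pow w 4 (Or.inr rfl))
  simp only [real_inner_smul_right, mul_pow, integral_const_mul] at h
  rw [integral_mul_const, integral_radLaw_pow4, integral_inner_pow4_stdGaussian] at h
  have hN : (N : ℝ) ≠ 0 := by exact_mod_cast NeZero.ne N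
  rw [eq_div_iff (by positivity)]
  linarith

theorem inner_single_left {N : ℕ} (i : Fin N) (x : En N) :
    inner ℝ (EuclideanSpace.single i (1 : ℝ)) x = x i := by
  rw [EuclideanSpace.inner_single_left]
  simp

theorem integral_coord_sq {N : ℕ} [NeZero N] (i : Fin N) :
    ∫ y : UnitSphere N, (y : En N) i ^ 2 ∂uS N = 1 / N := by
  have h := integral_inner_sq (EuclideanSpace.single i (1 : ℝ))
  simp only [inner_single_left] at h
  rw [h]
  simp

theorem integral_coord_pow4 {N : ℕ} [NeZero N] (i : Fin N) :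
    ∫ y : UnitSphere N, (y : En N) i ^ 4 ∂uS N = 3 / (N * (N + 2)) := by
  have h := integral_inner_pow4 (EuclideanSpace.single i (1 : ℝ))
  simp only [inner_single_left] at h
  rw [h]
  simp

theorem integral_inner {N : ℕ} (w : En N) :
    ∫ y : UnitSphere N, inner ℝ w (y : En N) ∂uS N = 0 := by
  have h := integral_sphMap (LinearIsometryEquiv.neg ℝ (E := En N))
    (fun y : UnitSphere N => (inner ℝ w (y : En N) : ℝ))
  simp only [coe_sphMap, LinearIsometryEquiv.coe_neg, inner_neg_right, integral_neg] at h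
  linarith

end Crest.Agent.R146.Sph_409
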