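import Crest.Agent.R146.LocXR_508
import Crest.Agent.R146.Sph3_409
import Crest.Agent.R146.RepairNet_840

/-!
Row 146, node LOC (task 13), helper508: the sequences `κN N = N^(-5/12)`, `K0 N = ⌈N^(5/6)⌉`.
-/

set_option autoImplicit false

open MeasureTheory ProbabilityTheory Filter Set
open scoped ENNReal NNReal Topology

namespace Crest.Agent.R146.LocSeq_508

open Crest.ProbabilityR.Perceptron
open Crest.Agent.R146.Sph_409

noncomputable section

def kN (N : ℕ) : ℝ := (N : ℝ) ^ (-(5 / 12) : ℝ)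

def K0 (N : ℕ) : ℕ := ⌈(N : ℝ) ^ (5 / 6 : ℝ)⌉₊

theorem kN_pos {N : ℕ} (hN : 0 < N) : 0 < kN N := by
  unfold kN
  have : (0 : ℝ) < N := by exact_mod_cast hN
  positivity

theorem kN_sq {N : ℕ} (hN : 0 < N) : kN N ^ 2 = (N : ℝ) ^ (-(5 / 6) : ℝ) := by
  unfold kN
  have : (0 : ℝ) < N := by exact_mod_cast hN
  rw [← Real.rpow_natCast, ← Real.rpow_mul this.le]; norm_num

theorem kN_inv_le {N : ℕ} (hN : 0 < N) : (kN N ^ 2)⁻¹ ≤ K0 N := by
  have h0 : (0 : ℝ) < N := by exact_mod_cast hN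
  rw [kN_sq hN, ← Real.rpow_neg h0.le, neg_neg]
  exact Nat.le_ceil _

theorem K0_le (N : ℕ) : (K0 N : ℝ) ≤ (N : ℝ) ^ (5 / 6 : ℝ) + 1 :=
  (Nat.ceil_lt_add_one (by positivity)).le

theorem tendsto_nat_rpow_neg {a : ℝ} (ha : 0 < a) :
    Tendsto (fun N : ℕ => (N : ℝ) ^ (-a)) atTop (𝓝 0) :=
  (tendsto_rpow_neg_atTop ha).comp tendsto_natCast_atTop_atTop

theorem tendsto_K0_log : Tendsto (fun N : ℕ => (K0 N : ℝ) * Real.log N / N) atTop (𝓝 0) := by
  have h1 : Tendsto (fun N : ℕ => Real.log (N : ℝ) / (N : ℝ) ^ (1 / 6 : ℝ)) atTop (𝓝 0) := by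
    have := (isLittleO_log_rpow_atTop (r := 1 / 6) (by norm_num)).tendsto_div_nhds_zero
    exact this.comp tendsto_natCast_atTop_atTop
  have h2 : Tendsto (fun N : ℕ => 2 * (Real.log (N : ℝ) / (N : ℝ) ^ (1 / 6 : ℝ))) atTop (𝓝 0) := by
    simpa using h1.const_mul 2
  refine squeeze_zero' ?_ ?_ h2
  · filter_upwards [eventually_ge_atTop 1] with N hN
    have : (1 : ℝ) ≤ N := by exact_mod_cast hN
    have := Real.log_nonneg this
    positivity
  · filter_upwards [eventually_ge_atTop 1] with N hN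
    have h1N : (1 : ℝ) ≤ N := by exact_mod_cast hN
    have h0 : (0 : ℝ) < N := by linarith
    have hl := Real.log_nonneg h1N
    have e1 : (1 : ℝ) ≤ (N : ℝ) ^ (5 / 6 : ℝ) := Real.one_le_rpow h1N (by norm_num)
    have e2 : (N : ℝ) = (N : ℝ) ^ (5 / 6 : ℝ) * (N : ℝ) ^ (1 / 6 : ℝ) := by
      rw [← Real.rpow_add h0]; norm_num
    have hp : 0 < (N : ℝ) ^ (1 / 6 : ℝ) := by positivity
    have hp2 : 0 < (N : ℝ) ^ (5 / 6 : ℝ) := by positivity
    calc (K0 N : ℝ) * Real.log N / N ≤ (2 * (N : ℝ) ^ (5 / 6 : ℝ)) * Real.log N / N := by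
          have := K0_le N
          gcongr
          linarith
      _ = 2 * (Real.log (N : ℝ) / (N : ℝ) ^ (1 / 6 : ℝ)) := by
          conv_lhs => rw [show (2 * (N : ℝ) ^ (5 / 6 : ℝ)) * Real.log N / N =
            (2 * (N : ℝ) ^ (5 / 6 : ℝ)) * Real.log N / ((N : ℝ) ^ (5 / 6 : ℝ) * (N : ℝ) ^ (1 / 6 : ℝ))
            from by rw [← e2]]
          field_simp

theorem tendsto_K0 : Tendsto (fun N : ℕ => (K0 N : ℝ) / N) atTop (𝓝 0) := by
  refine squeeze_zero' (Eventually.of_forall fun N => by positivity) ?_ tendsto_K0_log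
  filter_upwards [eventually_ge_atTop 3] with N hN
  have h3 : (3 : ℝ) ≤ N := by exact_mod_cast hN
  have h1 : 1 ≤ Real.log N := by
    rw [Real.le_log_iff_exp_le (by linarith)]
    exact Real.exp_one_lt_d9.le.trans (by linarith)
  have h0 : (0 : ℝ) ≤ K0 N := Nat.cast_nonneg _
  gcongr
  nlinarith

theorem tendsto_kN3 : Tendsto (fun N : ℕ => (N : ℝ) * kN N ^ 3) atTop (𝓝 0) := by
  have h1 := tendsto_nat_rpow_neg (a := 1 / 4) (by norm_num)
  refine h1.congr' ?_
  filter_upwards [eventually_ge_atTop 1] with N hN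
  have h0 : (0 : ℝ) < N := by exact_mod_cast hN
  unfold kN
  rw [← Real.rpow_natCast, ← Real.rpow_mul h0.le]
  nth_rewrite 2 [← Real.rpow_one (N : ℝ)]
  rw [← Real.rpow_add h0]
  norm_num

theorem K0_eventually_le {c : ℝ} (hc : 0 < c) : ∀ᶠ N : ℕ in atTop, (K0 N : ℝ) ≤ c * N := by
  filter_upwards [tendsto_K0.eventually (gt_mem_nhds hc), eventually_ge_atTop 1] with N h1 hN
  have h0 : (0 : ℝ) < N := by exact_mod_cast hN
  rw [div_lt_iff₀ h0] at h1
  exact h1.le

/-- the delocalised set has positive measure -/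
theorem DD_pos : ∀ᶠ N : ℕ in atTop, ∀ n : ℕ, N - K0 N ≤ n → n ≤ N → ∀ κ : ℝ, kN N ≤ κ →
    0 < (uS n).real (Crest.Agent.R146L878.DD n κ) := by
  have h1 : Tendsto (fun N : ℕ => 4 * (N : ℝ) * Real.exp (-(N : ℝ) ^ (1 / 6 : ℝ) / 8)) atTop (𝓝 0) := by
    have h2 : Tendsto (fun x : ℝ => 4 * ((8 * x) ^ 6 * Real.exp (-x))) atTop (𝓝 0) := by
      have := (Real.tendsto_pow_mul_exp_neg_atTop_nhds_zero 6).const_mul (4 * 8 ^ 6 : ℝ)
      rw [mul_zero] at this
      refine this.congr fun x => by ring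
    have h3 : Tendsto (fun N : ℕ => (N : ℝ) ^ (1 / 6 : ℝ) / 8) atTop atTop :=
      ((tendsto_rpow_atTop (by norm_num : (0 : ℝ) < 1 / 6)).comp
        tendsto_natCast_atTop_atTop).atTop_div_const (by norm_num)
    refine (h2.comp h3).congr fun N => ?_
    simp only [Function.comp]
    have e : (8 * ((N : ℝ) ^ (1 / 6 : ℝ) / 8)) ^ 6 = N := by
      rw [mul_div_cancel₀ _ (by norm_num : (8 : ℝ) ≠ 0), ← Real.rpow_natCast,
        ← Real.rpow_mul (Nat.cast_nonneg N)]
      norm_num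
    rw [e]; ring_nf
  filter_upwards [h1.eventually (gt_mem_nhds zero_lt_one), K0_eventually_le (c := 1 / 2)
    (by norm_num), eventually_ge_atTop 32] with N hN1 hN2 hN3 n hn hnN κ hκ
  have h0 : (0 : ℝ) < N := by
    have : (32 : ℝ) ≤ N := by exact_mod_cast hN3
    linarith
  have hn2 : (N : ℝ) / 2 ≤ n := by
    have : (N : ℝ) ≤ n + K0 N := by
      have : N ≤ n + K0 N := by omega
      exact_mod_cast this
    linarith
  have hn16 : 16 ≤ n := by
    have : (16 : ℝ) ≤ n := by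
      have : (32 : ℝ) ≤ N := by exact_mod_cast hN3
      linarith
    exact_mod_cast this
  have hnN' : (n : ℝ) ≤ N := by exact_mod_cast hnN
  have : NeZero n := ⟨by omega⟩
  have hk0 := kN_pos (N := N) (by omega)
  have htail := uS_sup_tail hn16 hk0.le
  have hexp : 4 * (n : ℝ) * Real.exp (-(n * kN N ^ 2) / 4) < 1 := by
    refine lt_of_le_of_lt ?_ hN1
    have e1 : (N : ℝ) ^ (1 / 6 : ℝ) = N * kN N ^ 2 := by
      rw [kN_sq (by omega)]
      nth_rewrite 2 [← Real.rpow_one (N : ℝ)]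
      rw [← Real.rpow_add h0]; norm_num
    rw [e1]
    have e2 : -(n * kN N ^ 2) / 4 ≤ -(N * kN N ^ 2) / 8 := by
      have : (N : ℝ) / 2 * kN N ^ 2 ≤ n * kN N ^ 2 :=
        mul_le_mul_of_nonneg_right hn2 (sq_nonneg _)
      linarith
    have e3 := Real.exp_le_exp.2 e2
    have := mul_le_mul (show 4 * (n : ℝ) ≤ 4 * N by linarith) e3 (Real.exp_pos _).le (by positivity)
    exact this
  have hsub : (Crest.Agent.R146L878.DD n κ)ᶜ ⊆ {y : UnitSphere n | ∃ i, kN N ≤ |(y : En n) i|} := by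
    intro y hy
    simp only [Crest.Agent.R146L878.DD, Set.mem_compl_iff, Set.mem_ofPred_eq, not_forall,
      not_le] at hy
    obtain ⟨i, hi⟩ := hy
    exact ⟨i, hκ.trans hi.le⟩
  have hlt : (uS n).real (Crest.Agent.R146L878.DD n κ)ᶜ < 1 :=
    (measureReal_mono hsub).trans_lt (htail.trans_lt hexp)
  have hadd := measureReal_compl (μ := uS n) (Crest.Agent.R146L878.measurableSet_DD (N := n) κ)
  rw [probReal_univ] at hadd
  linarith

/-- number of blocks -/
theorem count {δ : ℝ} (hδ : 0 < δ) (D : ℕ) : ∀ᶠ N : ℕ in atTop,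
    ((∑ I ∈ (Finset.univ : Finset (Finset (Fin N))).filter (fun I => I.card ≤ K0 N),
      D ^ (I.card + 1) : ℕ) : ℝ) ≤ Real.exp (δ * N) := by
  classical
  -- choice of `b`
  obtain ⟨b, hb0, hb⟩ : ∃ b : ℝ, 0 ≤ b ∧ D * Real.exp (-b) ≤ δ / 3 := by
    have h1 : Tendsto (fun b : ℝ => (D : ℝ) * Real.exp (-b)) atTop (𝓝 0) := by
      simpa using (Real.tendsto_exp_neg_atTop_nhds_zero).const_mul (D : ℝ)
    obtain ⟨b, hb⟩ := ((h1.eventually (gt_mem_nhds (show (0 : ℝ) < δ / 3 by positivity))).and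
      (eventually_ge_atTop 0)).exists
    exact ⟨b, hb.2, hb.1.le⟩
  have hc : (0 : ℝ) < δ / (3 * (b + 1)) := by positivity
  filter_upwards [K0_eventually_le hc, eventually_ge_atTop 1,
    (tendsto_natCast_atTop_atTop (R := ℝ)).eventually_ge_atTop (3 * D / δ)] with N hN h1 hD
  have h0 : (0 : ℝ) < N := by exact_mod_cast h1
  have e1 : ((∑ I ∈ (Finset.univ : Finset (Finset (Fin N))).filter (fun I => I.card ≤ K0 N),
      D ^ (I.card + 1) : ℕ) : ℝ) = D * ∑ U ∈ (Finset.univ : Finset (Fin N)).powerset.filter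
        (fun U => (U.card : ℝ) ≤ K0 N), (D : ℝ) ^ U.card := by
    push_cast
    rw [Finset.mul_sum]
    refine Finset.sum_congr ?_ fun I _ => by ring
    ext I; simp
  have h2 := Crest.Agent.R146.RepairNet_840.sum_small_subsets (κ := Fin N) (D : ℝ) b (K0 N)
    (Nat.cast_nonneg _) hb0
  rw [Fintype.card_fin] at h2
  rw [e1]
  have h3 : (D : ℝ) ≤ Real.exp (δ / 3 * N) := by
    have : (D : ℝ) ≤ δ / 3 * N := by
      rw [div_le_iff₀ hδ] at hD
      linarith
    exact this.trans ((le_add_of_nonneg_right zero_le_one).trans (Real.add_one_le_exp _))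
  have h4 : b * (K0 N : ℝ) + D * Real.exp (-b) * N ≤ 2 * δ / 3 * N := by
    have e2 : b * (K0 N : ℝ) ≤ δ / 3 * N := by
      calc b * (K0 N : ℝ) ≤ (b + 1) * (δ / (3 * (b + 1)) * N) := by
            have : (0 : ℝ) ≤ K0 N := Nat.cast_nonneg _
            exact mul_le_mul (by linarith) hN this (by linarith)
        _ = δ / 3 * N := by field_simp
    have e3 : D * Real.exp (-b) * N ≤ δ / 3 * N := mul_le_mul_of_nonneg_right hb h0.le
    linarith
  calc (D : ℝ) * ∑ U ∈ (Finset.univ : Finset (Fin N)).powerset.filter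
        (fun U => (U.card : ℝ) ≤ K0 N), (D : ℝ) ^ U.card
      ≤ Real.exp (δ / 3 * N) * Real.exp (2 * δ / 3 * N) :=
        mul_le_mul h3 (h2.trans (Real.exp_le_exp.2 h4))
          (Finset.sum_nonneg fun _ _ => by positivity) (Real.exp_pos _).le
    _ = Real.exp (δ * N) := by rw [← Real.exp_add]; ring_nf

end

end Crest.Agent.R146.LocSeq_508
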