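import Crest.Agent.R146.LocAsm1_508
import Crest.Agent.R146.LocSeq_508
import Crest.Agent.R146.LocLow_878
import Crest.Agent.R146.LocConc_840
import Crest.Agent.R146.LocNet_840
import Crest.Agent.R146.High_840
import Crest.Agent.R146.Large_840
import Crest.Agent.R146.Conc_237

/-!
Row 146, node LOC (task 13), helper508: probabilistic lemmas of the final assembly of `LOCCORE`.
-/

set_option autoImplicit false

open MeasureTheory ProbabilityTheory Filter Set
open scoped ENNReal NNReal Topology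

namespace Crest.Agent.R146.LocAsm_508

open Crest.ProbabilityR.Perceptron
open Crest.Agent.R146.Sph_409
open Crest.Agent.R146.LocXR_508
open Crest.Agent.R146.LocCov_508
open Crest.Agent.R146.LocCore_508 (Tcut QLow LOCCORE)

noncomputable section

variable {N M : ℕ}

/-- concentration of one block, as a function of the full array -/
theorem conc_block {ν : Measure ℝ} [IsProbabilityMeasure ν] {ψ : ℝ → ℝ} {K : ℝ}
    (hψ : Measurable ψ) (hK : ∀ x, |ψ x| ≤ K) (I : Finset (Fin N)) (u : {i // i ∈ I} → ℝ)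
    (μ κ : ℝ) {t : ℝ} (ht : 0 ≤ t) :
    (Measure.pi fun _ : Fin M × Fin N => ν)
      {A | (∫ A', XF ψ μ κ u A' ∂(Measure.pi fun _ : Fin M × ({i // i ∈ I} ⊕ Fin (N - I.card)) => ν))
        + t ≤ XF ψ μ κ u (fun p : Fin M × ({i // i ∈ I} ⊕ Fin (N - I.card)) =>
          A (p.1, EI I p.2))} ≤
      ENNReal.ofReal (Real.exp (-t ^ 2 / (2 * M * K ^ 2))) := by
  have h := Crest.Agent.R146.LocConc_840.xconc ν ψ K hψ hK M (N - I.card) {i // i ∈ I} u μ κ t ht
  refine le_trans (le_of_eq ?_) h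
  let e : Fin M × ({i // i ∈ I} ⊕ Fin (N - I.card)) ≃ Fin M × Fin N :=
    Equiv.prodCongr (Equiv.refl _) (EI I)
  have h1 := (measurePreserving_piCongrLeft (fun _ : Fin M × Fin N => ν) e).symm
  have h2 := h1.measure_preimage_equiv
    {A : Fin M × ({i // i ∈ I} ⊕ Fin (N - I.card)) → ℝ |
      (∫ A', XF ψ μ κ u A' ∂(Measure.pi fun _ : Fin M × ({i // i ∈ I} ⊕ Fin (N - I.card)) => ν))
        + t ≤ XF ψ μ κ u A}
  rw [← h2]
  rfl

/-- integral bound from a bad set -/
theorem integral_le_bad {Ω : Type} [MeasurableSpace Ω] {P : Measure Ω} [IsProbabilityMeasure P]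
    {f : Ω → ℝ} (hf : Integrable f P) {a b : ℝ} {S : Set Ω}
    (h1 : ∀ A, A ∉ S → f A ≤ a) (h2 : ∀ A, f A ≤ a + b) :
    ∫ A, f A ∂P ≤ a + b * (P S).toReal := by
  have hm := measurableSet_toMeasurable P S
  have h3 : ∀ A, f A ≤ a + (toMeasurable P S).indicator (fun _ => b) A := by
    intro A
    by_cases hA : A ∈ toMeasurable P S
    · rw [Set.indicator_of_mem hA]; exact h2 A
    · rw [Set.indicator_of_notMem hA, add_zero]
      exact h1 A fun h => hA (subset_toMeasurable P S h)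
  have h4 : Integrable (fun A => a + (toMeasurable P S).indicator (fun _ => b) A) P :=
    (integrable_const a).add ((integrable_const b).indicator hm)
  refine (integral_mono hf h4 h3).trans (le_of_eq ?_)
  rw [integral_add (integrable_const a) ((integrable_const b).indicator hm), integral_const,
    integral_indicator_const _ hm, measureReal_def, measureReal_def, measure_toMeasurable,
    measure_univ]
  simp [mul_comm]

/-- the energy in the high region -/
theorem high_energy [NeZero N] {ψ : ℝ → ℝ} {b c0 R s ρ : ℝ} {K0 : ℕ} (hb : 0 ≤ b)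
    (hψ : ∀ x, ψ x ≤ c0 - b / 2 * Tcut R x ^ 2) {A : Fin M × Fin N → ℝ}
    (hA : ¬ ∃ y : Fin N → ℝ, ∑ i, y i ^ 2 = 1 ∧ ∃ I : Finset (Fin N), I.card ≤ K0 ∧
      ∑ i ∈ Iᶜ, y i ^ 2 ≤ s ∧
      √(∑ a, (min (max (-1 - ∑ i, A (a, i) * y i) 0) R) ^ 2) < ρ) :
    ∀ y ∈ Hg N K0 s, ∑ a, ψ (∑ i, A (a, i) * (y : En N) i) ≤ M * c0 - b / 2 * (max ρ 0) ^ 2 := by
  rintro y ⟨I, hI, hy⟩
  have h1 : ρ ≤ √(∑ a, (min (max (-1 - ∑ i, A (a, i) * (y : En N) i) 0) R) ^ 2) := by
    by_contra hc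
    push Not at hc
    exact hA ⟨fun i => (y : En N) i, sum_sq_sphere y, I, hI, hy, hc⟩
  have h2 : (max ρ 0) ^ 2 ≤ ∑ a, (Tcut R (∑ i, A (a, i) * (y : En N) i)) ^ 2 := by
    have h3 : max ρ 0 ≤ √(∑ a, (min (max (-1 - ∑ i, A (a, i) * (y : En N) i) 0) R) ^ 2) :=
      max_le h1 (Real.sqrt_nonneg _)
    have h4 := pow_le_pow_left₀ (le_max_right ρ 0) h3 2
    rwa [Real.sq_sqrt (Finset.sum_nonneg fun _ _ => sq_nonneg _)] at h4
  calc ∑ a, ψ (∑ i, A (a, i) * (y : En N) i)
      ≤ ∑ a : Fin M, (c0 - b / 2 * Tcut R (∑ i, A (a, i) * (y : En N) i) ^ 2) :=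
        Finset.sum_le_sum fun a _ => hψ _
    _ = M * c0 - b / 2 * ∑ a, (Tcut R (∑ i, A (a, i) * (y : En N) i)) ^ 2 := by
        rw [Finset.sum_sub_distrib, ← Finset.mul_sum]; simp
    _ ≤ _ := by
        have := mul_le_mul_of_nonneg_left h2 (show 0 ≤ b / 2 by positivity)
        linarith

/-- the literal pressure -/
theorem pressure_eq {α : ℝ} (ψ : ℝ → ℝ) (A : Patterns N α) :
    spherePressure N α 1 ψ A =
      Real.log (∫ y : UnitSphere N, Real.exp (∑ a, ψ (∑ i, A (a, i) * (y : En N) i)) ∂uS N) / N := by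
  rw [spherePressure_eq_uS]
  simp only [one_mul]
  rfl

end

end Crest.Agent.R146.LocAsm_508
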