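import Crest.Agent.R146.LocAsm2_508

/-!
Row 146, node LOC (task 13), helper508: **LOCCORE**.
-/

set_option autoImplicit false

open MeasureTheory ProbabilityTheory Filter Set
open scoped ENNReal NNReal Topology

namespace Crest.Agent.R146.LocAsm_508

open Crest.ProbabilityR.Perceptron
open Crest.Agent.R146.Sph_409
open Crest.Agent.R146.LocXR_508
open Crest.Agent.R146.LocCov_508
open Crest.Agent.R146.LocSeq_508
open Crest.Agent.R146.LocCore_508 (Tcut QLow LOCCORE)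
open Crest.Agent.R146.P34_734 (Test pM)
open Crest.Agent.R146.S6Def_988 (Lev Th SP)

noncomputable section

/-- choice of the mesh -/
theorem exists_mesh {c s d : ℝ} (hd : 0 < d) : ∃ h : ℝ, 0 < h ∧ h ≤ 1 ∧
    c * √(9 * h + h ^ 2 / (4 * s)) ≤ d := by
  have hc : Continuous fun h : ℝ => c * √(9 * h + h ^ 2 / (4 * s)) := by fun_prop
  have h0 : Tendsto (fun h : ℝ => c * √(9 * h + h ^ 2 / (4 * s))) (𝓝[>] 0) (𝓝 0) := by
    have := (hc.tendsto 0).mono_left (nhdsWithin_le_nhds (s := Set.Ioi 0))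
    simpa using this
  have h1 : ∀ᶠ h in 𝓝[>] (0 : ℝ), c * √(9 * h + h ^ 2 / (4 * s)) < d :=
    h0.eventually (gt_mem_nhds hd)
  have h2 : ∀ᶠ h in 𝓝[>] (0 : ℝ), h ∈ Set.Ioc (0 : ℝ) 1 :=
    Ioc_mem_nhdsGT zero_lt_one
  obtain ⟨h, ha, hb⟩ := (h1.and h2).exists
  exact ⟨h, hb.1, hb.2, ha.le⟩

/-- the high region, all cases -/
theorem high_case {αm C : ℝ} (hC : 0 < C) (hHR : ∀ ν : Measure ℝ,
    Crest.Agent.R146.RepairLaw_840.Good ν →
    ∀ α R q : ℝ, 0 < α → α ≤ αm → 0 < R → 0 ≤ q →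
    (∀ (n : ℕ) (u : Fin n → ℝ), ∑ i, u i ^ 2 = 1 →
      q ≤ ∫ x, (min (max (-1 - ∑ i, u i * x i) 0) R) ^ 2 ∂(Measure.pi fun _ : Fin n => ν)) →
    ∀ s δ : ℝ, 0 < s → s < 1 → 0 < δ → ∀ k : ℕ → ℕ,
      Tendsto (fun N : ℕ => (k N : ℝ) * Real.log N / N) atTop (𝓝 0) →
      Tendsto (fun N : ℕ => (Measure.pi fun _ : Fin (numPatterns N α) × Fin N => ν)
        {A : Patterns N α | ∃ y : Fin N → ℝ, ∑ i, y i ^ 2 = 1 ∧ ∃ I : Finset (Fin N),
          I.card ≤ k N ∧ ∑ i ∈ Iᶜ, y i ^ 2 ≤ s ∧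
          √(∑ a, (min (max (-1 - ∑ i, A (a, i) * y i) 0) R) ^ 2)
            < √(α * q * N) - C * √(s * N) - δ * √N}) atTop (𝓝 0))
    {α ε s b c0 R q d : ℝ} (hα : 0 < α) (hααm : α ≤ αm) (hε0 : 0 ≤ ε) (hε1 : ε ≤ 1 / 2)
    (hs0 : 0 < s) (hs1 : s < 1) {ψ : ℝ → ℝ} (hb : 0 ≤ b) (hR : 0 ≤ R) (hq : 0 ≤ q)
    (hψ : ∀ x, ψ x ≤ c0 - b / 2 * Tcut R x ^ 2) (hQ : QLow ε R q) (hd : 0 < d) :
    ∃ bad : (N : ℕ) → Set (Patterns N α),
      Tendsto (fun N : ℕ => (Measure.pi fun _ : Fin (numPatterns N α) × Fin N => mixtureLaw ε)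
        (bad N)) atTop (𝓝 0) ∧
      ∀ N, 1 ≤ N → ∀ A, A ∉ bad N → ∀ y ∈ Hg N (K0 N) s,
        ∑ a, ψ (∑ i, A (a, i) * (y : En N) i) ≤ numPatterns N α * c0 -
          N * (b / 2 * (max (√(α * q) - C * √s) 0) ^ 2 - d) := by
  rcases hR.lt_or_eq with hRpos | hR0
  · set xp := max (√(α * q) - C * √s) 0 with hxp
    have hxp0 : 0 ≤ xp := le_max_right _ _
    set d3 := d / (b * xp + 1) with hd3
    have hd3pos : 0 < d3 := by positivity
    have hd3b : b * xp * d3 ≤ d := by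
      rw [hd3, ← mul_div_assoc, div_le_iff₀ (by positivity)]
      nlinarith [mul_nonneg hb hxp0]
    refine ⟨fun N => {A : Patterns N α | ∃ y : Fin N → ℝ, ∑ i, y i ^ 2 = 1 ∧ ∃ I : Finset (Fin N),
          I.card ≤ K0 N ∧ ∑ i ∈ Iᶜ, y i ^ 2 ≤ s ∧
          √(∑ a, (min (max (-1 - ∑ i, A (a, i) * y i) 0) R) ^ 2)
            < √(α * q * N) - C * √(s * N) - d3 * √N}, ?_, ?_⟩
    · exact hHR (mixtureLaw ε)
        (Crest.Agent.R146.RepairLaw_840.good_mixtureLaw ε hε0 (by linarith)) α R q hα hααm hRpos hq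
        (fun n u hu => hQ (Fin n) u hu) s d3 hs0 hs1 hd3pos K0 tendsto_K0_log
    · intro N hN A hA y hy
      have : NeZero N := ⟨by omega⟩
      have h1 := high_energy (M := numPatterns N α) hb hψ hA y hy
      refine h1.trans ?_
      have hN0 : (0 : ℝ) ≤ N := Nat.cast_nonneg _
      have e1 : √(α * q * N) - C * √(s * N) - d3 * √N = (√(α * q) - C * √s - d3) * √N := by
        rw [Real.sqrt_mul (by positivity), Real.sqrt_mul hs0.le]; ring
      rw [e1]
      have e2 : (N : ℝ) * (max (√(α * q) - C * √s - d3) 0) ^ 2 =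
          (max ((√(α * q) - C * √s - d3) * √N) 0) ^ 2 := by
        have : max ((√(α * q) - C * √s - d3) * √N) 0 = max (√(α * q) - C * √s - d3) 0 * √N := by
          rw [max_mul_of_nonneg _ _ (Real.sqrt_nonneg _), zero_mul]
        rw [this, mul_pow, Real.sq_sqrt hN0]; ring
      rw [← e2]
      have e3 : xp ^ 2 - 2 * xp * d3 ≤ (max (√(α * q) - C * √s - d3) 0) ^ 2 := by
        set x := √(α * q) - C * √s with hx
        rcases le_total x 0 with h0 | h0
        · have : xp = 0 := by rw [hxp]; exact max_eq_right h0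
          rw [this]; simp only [mul_zero, zero_mul, sub_zero, ne_eq, OfNat.ofNat_ne_zero,
            not_false_eq_true, zero_pow]; exact sq_nonneg _
        · have hxx : xp = x := by rw [hxp]; exact max_eq_left h0
          rw [hxx]
          rcases le_total d3 x with h2 | h2
          · rw [max_eq_left (by linarith)]; nlinarith
          · rw [max_eq_right (by linarith)]; nlinarith
      have e4 := mul_le_mul_of_nonneg_left e3 (show 0 ≤ b / 2 * (N : ℝ) by positivity)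
      have e5 := mul_le_mul_of_nonneg_left hd3b hN0
      nlinarith
  · subst hR0
    have hT : ∀ x, Tcut 0 x = 0 := fun x => by
      unfold Tcut; exact min_eq_right (le_max_right _ _)
    have hq0 : q = 0 := by
      refine le_antisymm ?_ hq
      have := hQ Unit (fun _ => 1) (by simp)
      simpa [hT] using this
    refine ⟨fun _ => ∅, by simp, ?_⟩
    intro N hN A _ y _
    have e1 : max (√(α * q) - C * √s) 0 = 0 := by
      rw [hq0, mul_zero, Real.sqrt_zero]
      exact max_eq_right (by have := Real.sqrt_nonneg s; nlinarith)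
    rw [e1]
    calc ∑ a, ψ (∑ i, A (a, i) * (y : En N) i) ≤ ∑ _a : Fin (numPatterns N α), c0 := by
          refine Finset.sum_le_sum fun a _ => ?_
          have := hψ (∑ i, A (a, i) * (y : En N) i)
          rw [hT] at this
          simpa using this
      _ = numPatterns N α * c0 := by simp
      _ ≤ _ := by
          have : 0 ≤ (N : ℝ) * d := by positivity
          linarith

/-- the low region: means of the blocks -/
theorem low_case (hUB : Crest.Agent.R146.S6U_988.UB) {ψ : ℝ → ℝ} (hψ : Test ψ) {b0 : ℝ}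
    (hb0 : 0 ≤ b0) (hlo : Crest.Agent.R146.LocRec_508.MidLo b0 ψ)
    (hhi : Crest.Agent.R146.LocRec_508.MidHi (1 / 2) ψ) {α : ℝ} (hα : 0 < α) {d ε s h : ℝ}
    (hd : 0 < d) (hε0 : 0 ≤ ε) (hε1 : ε ≤ 1 / 2) (hs0 : 0 < s) (hs1 : s < 1) (hαε : α * ε ≤ s)
    (hh : 0 < h) :
    ∃ J0 : ℕ, ∀ J, J0 ≤ J → ∀ P : ℕ → ℝ, Lev J P → P J < 1 →
    ∀ᶠ N : ℕ in atTop, ∀ I : Finset (Fin N), I.card ≤ K0 N → ∀ u : {i // i ∈ I} → ℝ,
      (∃ k : ℕ, (k : ℝ) * h ≤ 1 ∧ ∑ i, u i ^ 2 = k * h) → ∑ i, u i ^ 2 ≤ 1 - s →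
      ∫ A, XF ψ (∑ i, u i ^ 2) (kN N / √s) u A ∂(Measure.pi fun _ :
        Fin (numPatterns N α) × ({i // i ∈ I} ⊕ Fin (N - I.card)) => mixtureLaw ε) ≤
      N * (α * Th J ψ P + SP J P - 1 / 2 * Real.log (1 - ∑ i, u i ^ 2) + d) := by
  obtain ⟨J0, hJ0⟩ := Crest.Agent.R146L878.low_boundXF hUB hψ hb0 hlo hhi hα hd
  refine ⟨J0, fun J hJ P hP hP1 => ?_⟩
  have key : ∀ k ∈ Finset.range (⌊1 / h⌋₊ + 1), ∀ᶠ N : ℕ in atTop, (k : ℝ) * h ≤ 1 - s →
      ∀ n, N - K0 N ≤ n → n ≤ N → ∀ (I : Type) [Fintype I] (u : I → ℝ), ∑ i, u i ^ 2 = k * h →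
      ∫ A, XF ψ (k * h) (kN N / √s) u A ∂(Measure.pi fun _ :
        Fin (numPatterns N α) × (I ⊕ Fin n) => mixtureLaw ε) ≤
      N * (α * Th J ψ P + SP J P - 1 / 2 * Real.log (1 - k * h) + d) := by
    intro k _
    by_cases hk : (k : ℝ) * h ≤ 1 - s
    · obtain ⟨N0, η, hη, h1⟩ := hJ0 J hJ P hP hP1 (k * h) (by positivity) (by linarith)
      have hη' : 0 < η * s ^ 2 := by positivity
      filter_upwards [eventually_ge_atTop N0, eventually_ge_atTop 1,
        K0_eventually_le (c := 1 / 2) (by norm_num), DD_pos,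
        tendsto_kN3.eventually (gt_mem_nhds hη')] with N hN hN1 hK0 hDD hk3 _ n hn hnN I _ u hu
      have hNp : (0 : ℝ) < N := by exact_mod_cast hN1
      have hN1' : (1 : ℝ) ≤ N := by exact_mod_cast hN1
      have hkN := kN_pos (N := N) (by omega)
      have hkN1 : kN N ≤ 1 := by
        unfold kN
        exact Real.rpow_le_one_of_one_le_of_nonpos hN1' (by norm_num)
      have hn2 : N ≤ 2 * n := by
        have h2 : (N : ℝ) ≤ n + K0 N := by
          have : N ≤ n + K0 N := by omega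
          exact_mod_cast this
        have : (N : ℝ) ≤ 2 * n := by linarith
        exact_mod_cast this
      have hs' : 0 < √s := Real.sqrt_pos.2 hs0
      have hs'1 : √s ≤ 1 := by rw [Real.sqrt_le_one]; exact hs1.le
      refine h1 N hN n hn2 hnN (kN N / √s) (by positivity) ?_ ?_ I u hu ε hε0 (by linarith)
        (by linarith)
      · have e1 : (kN N / √s) ^ 4 = kN N ^ 4 / s ^ 2 := by
          rw [div_pow]; congr 1
          rw [show (4 : ℕ) = 2 * 2 from rfl, pow_mul, Real.sq_sqrt hs0.le]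
        rw [e1, ← mul_div_assoc, div_le_iff₀ (by positivity)]
        have e2 : (N : ℝ) * kN N ^ 4 ≤ N * kN N ^ 3 := by
          have : kN N ^ 4 ≤ kN N ^ 3 := pow_le_pow_of_le_one hkN.le hkN1 (by norm_num)
          exact mul_le_mul_of_nonneg_left this hNp.le
        linarith
      · refine hDD n hn hnN _ ?_
        rw [le_div_iff₀ hs']
        nlinarith
    · exact Eventually.of_forall fun N hc => absurd hc hk
  filter_upwards [(Finset.eventually_all _).2 key] with N hN I hI u hk hus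
  obtain ⟨k, hk1, hk2⟩ := hk
  have hkm : k ∈ Finset.range (⌊1 / h⌋₊ + 1) := by
    rw [Finset.mem_range, Nat.lt_succ_iff]
    refine Nat.le_floor ?_
    rw [le_div_iff₀ hh]; exact hk1
  have hIN : I.card ≤ N := by simpa using I.card_le_univ
  have := hN k hkm (by rw [← hk2]; exact hus) (N - I.card) (by omega) (by omega)
    {i // i ∈ I} u hk2
  rw [hk2]
  exact this

end

end Crest.Agent.R146.LocAsm_508
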