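import Crest.Agent.R146.LocCell_840

/-!
Row 146, node LOC (LOCCORE), helper840: the Prop `BLK` (deterministic one-cell inequality), consumed by
`LocAsm_840.loccore_of`. Nothing is proved here.
-/

set_option autoImplicit false

open MeasureTheory ProbabilityTheory Filter Set Crest.ProbabilityR.Perceptron
open scoped Topology ENNReal NNReal

namespace Crest.Agent.R146.LocBlk_840

open Crest.Agent.R146.Sph_409 (uS En)
open Crest.Agent.R146.LocXR_508
open Crest.Agent.R146.LocHigh_840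
open Crest.Agent.R146.LocCell_840
open Crest.Agent.R146L878 (expo sv DD)
open Crest.Agent.R146.RepairNet_840 (vec)

noncomputable section

/-- the array of a block: columns split along the block -/
def arr {M N : ℕ} (I : Finset (Fin N)) (A : Fin M × Fin N → ℝ) :
    Fin M × ({i // i ∈ I} ⊕ Fin (N - I.card)) → ℝ := fun p => A (p.1, blockEquiv I p.2)

/-- **(BLK)** one-cell inequality. -/
def BLK : Prop := ∀ (ψ : ℝ → ℝ) (K K1 : ℝ), Measurable ψ → (∀ x, |ψ x| ≤ K) → 0 ≤ K1 →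
  (∀ x x', |ψ x - ψ x'| ≤ K1 * |x - x'|) → ∀ (M N k : ℕ) (s h B : ℝ), 0 < k → 0 < s → 0 < h →
  0 ≤ B → ∀ I : Finset (Fin N), I.card < N → ∀ u : {i // i ∈ I} → ℝ, ∑ i, u i ^ 2 < 1 →
  0 < (uS (N - I.card)).real (DD (N - I.card) (kap k s)) →
  ∀ A : Fin M × Fin N → ℝ, (∀ l : Fin M → ℝ, ‖vec A l‖ ≤ B * √(∑ a, l a ^ 2)) →
  ∫ y in cell N k s h I u, Real.exp (expo (fun _ : Fin M => ψ) sv A y) ∂uS N ≤
    Real.exp (K1 * √M * (B * √(10 * h))) *
      (uS N).real {y | ∑ i ∈ Iᶜ, (sv y i) ^ 2 ≤ 1 - ∑ i, u i ^ 2} *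
      Real.exp (XF ψ (∑ i, u i ^ 2) (kap k s) u (arr I A))

end

end Crest.Agent.R146.LocBlk_840
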