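import Crest.Agent.R146.LocHigh_840
import Crest.Agent.R146.LocNet_840

/-!
Row 146, node LOC (LOCCORE), helper840: number of localised coordinates `kN N = ⌊N^(3/4)⌋`, the cells
`cell N k s h I u` of the low region, their covering property and the volume factor.
-/

set_option autoImplicit false

open MeasureTheory ProbabilityTheory Filter Set Crest.ProbabilityR.Perceptron
open scoped Topology ENNReal NNReal

namespace Crest.Agent.R146.LocCell_840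

open Crest.Agent.R146.Sph_409 (uS En)
open Crest.Agent.R146.LocXR_508
open Crest.Agent.R146.LocHigh_840
open Crest.Agent.R146L878 (expo sv measurable_sv DD C16 deloc_tail measurableSet_DD sphereLaw_real_pos)
open Crest.Agent.R146.LocConc_840 (uS_finite)

noncomputable section

/-- number of localised coordinates -/
def kN (N : ℕ) : ℕ := ⌊(N : ℝ) ^ (3 / 4 : ℝ)⌋₊

theorem kN_le (N : ℕ) : (kN N : ℝ) ≤ (N : ℝ) ^ (3 / 4 : ℝ) := Nat.floor_le (by positivity)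

theorem kN_ge {N : ℕ} (hN : 0 < N) : (N : ℝ) ^ (3 / 4 : ℝ) / 2 ≤ kN N := by
  have h1 : (1 : ℝ) ≤ (N : ℝ) ^ (3 / 4 : ℝ) :=
    Real.one_le_rpow (by exact_mod_cast hN) (by norm_num)
  have h2 : (N : ℝ) ^ (3 / 4 : ℝ) < kN N + 1 := Nat.lt_floor_add_one _
  have h3 : (1 : ℝ) ≤ kN N := by
    have : 1 ≤ kN N := (Nat.one_le_floor_iff _).2 h1
    exact_mod_cast this
  linarith

theorem kN_pos {N : ℕ} (hN : 0 < N) : 0 < kN N := by
  have h1 : (1 : ℝ) ≤ (N : ℝ) ^ (3 / 4 : ℝ) :=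
    Real.one_le_rpow (by exact_mod_cast hN) (by norm_num)
  exact (Nat.one_le_floor_iff _).2 h1

theorem small_kN : LocHigh_840.Small kN := by
  unfold LocHigh_840.Small
  have h1 : Tendsto (fun x : ℝ => Real.log x / x ^ (1 / 4 : ℝ)) atTop (𝓝 0) :=
    (isLittleO_log_rpow_atTop (by norm_num : (0 : ℝ) < 1 / 4)).tendsto_div_nhds_zero
  have h2 := h1.comp tendsto_natCast_atTop_atTop (α := ℕ)
  refine tendsto_of_tendsto_of_tendsto_of_le_of_le' tendsto_const_nhds h2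
    (Eventually.of_forall fun N => by positivity) ?_
  filter_upwards [eventually_gt_atTop 0] with N hN
  have hn : (0 : ℝ) < N := by exact_mod_cast hN
  have hlog : 0 ≤ Real.log N := Real.log_natCast_nonneg N
  simp only [Function.comp_apply]
  rw [div_le_div_iff₀ hn (by positivity)]
  have h3 : (N : ℝ) ^ (3 / 4 : ℝ) * (N : ℝ) ^ (1 / 4 : ℝ) = N := by
    rw [← Real.rpow_add hn]; norm_num
  calc (kN N : ℝ) * Real.log N * (N : ℝ) ^ (1 / 4 : ℝ)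
      ≤ (N : ℝ) ^ (3 / 4 : ℝ) * Real.log N * (N : ℝ) ^ (1 / 4 : ℝ) := by
        gcongr
        exact kN_le N
    _ = Real.log N * ((N : ℝ) ^ (3 / 4 : ℝ) * (N : ℝ) ^ (1 / 4 : ℝ)) := by ring
    _ = Real.log N * N := by rw [h3]

theorem tendsto_pow_neg {a : ℝ} (ha : 0 < a) :
    Tendsto (fun N : ℕ => (N : ℝ) ^ (-a)) atTop (𝓝 0) :=
  (tendsto_rpow_neg_atTop ha).comp tendsto_natCast_atTop_atTop

theorem kN_half : ∀ᶠ N : ℕ in atTop, 2 * kN N ≤ N := by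
  have h := (tendsto_pow_neg (by norm_num : (0 : ℝ) < 1 / 4)).eventually
    (gt_mem_nhds (by norm_num : (0 : ℝ) < 1 / 2))
  filter_upwards [h, eventually_gt_atTop 0] with N hN hN0
  have hn : (0 : ℝ) < N := by exact_mod_cast hN0
  have h1 : (N : ℝ) ^ (3 / 4 : ℝ) = N * (N : ℝ) ^ (-(1 / 4) : ℝ) := by
    conv_rhs => rw [show (N : ℝ) * (N : ℝ) ^ (-(1 / 4) : ℝ) =
      (N : ℝ) ^ (1 : ℝ) * (N : ℝ) ^ (-(1 / 4) : ℝ) by rw [Real.rpow_one]]
    rw [← Real.rpow_add hn]; norm_num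
  have h2 := kN_le N
  rw [h1] at h2
  have h3 : (2 : ℝ) * kN N ≤ N := by nlinarith
  exact_mod_cast h3

/-- the width of the delocalised set -/
def kap (k : ℕ) (s : ℝ) : ℝ := 1 / √(k * s)

theorem kap_pos {k : ℕ} {s : ℝ} (hk : 0 < k) (hs : 0 < s) : 0 < kap k s := by
  unfold kap
  have : (0 : ℝ) < k := by exact_mod_cast hk
  positivity

theorem kap_sq {k : ℕ} {s : ℝ} (hk : 0 < k) (hs : 0 < s) : kap k s ^ 2 = 1 / (k * s) := by
  unfold kap
  have : (0 : ℝ) < k := by exact_mod_cast hk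
  rw [div_pow, one_pow, Real.sq_sqrt (by positivity)]

theorem kap_four {s : ℝ} (hs : 0 < s) {η : ℝ} (hη : 0 < η) :
    ∀ᶠ N : ℕ in atTop, (N : ℝ) * kap (kN N) s ^ 4 ≤ η := by
  have h := ((tendsto_pow_neg (by norm_num : (0 : ℝ) < 1 / 2)).const_mul (4 / s ^ 2)).eventually
    (ge_mem_nhds (by simpa using hη))
  filter_upwards [h, eventually_gt_atTop 0] with N hN hN0
  have hn : (0 : ℝ) < N := by exact_mod_cast hN0
  have hk := kN_pos hN0
  have hk' : (0 : ℝ) < kN N := by exact_mod_cast hk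
  have h1 : kap (kN N) s ^ 4 = 1 / (kN N * s) ^ 2 := by
    rw [show kap (kN N) s ^ 4 = (kap (kN N) s ^ 2) ^ 2 by ring, kap_sq hk hs, div_pow, one_pow]
  rw [h1]
  refine le_trans ?_ hN
  have h2 : (N : ℝ) ^ (3 / 2 : ℝ) / 4 ≤ (kN N : ℝ) ^ 2 := by
    have h3 := pow_le_pow_left₀ (by positivity) (kN_ge hN0) 2
    refine le_trans (le_of_eq ?_) h3
    rw [div_pow, ← Real.rpow_natCast ((N : ℝ) ^ (3 / 4 : ℝ)) 2, ← Real.rpow_mul hn.le]
    norm_num
  have h4 : (N : ℝ) ^ (3 / 2 : ℝ) * (N : ℝ) ^ (-(1 / 2) : ℝ) = N := by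
    rw [← Real.rpow_add hn]; norm_num
  rw [mul_pow, mul_one_div, div_le_iff₀ (by positivity)]
  calc (N : ℝ) = (N : ℝ) ^ (3 / 2 : ℝ) / 4 * (4 * (N : ℝ) ^ (-(1 / 2) : ℝ)) := by
        rw [show (N : ℝ) ^ (3 / 2 : ℝ) / 4 * (4 * (N : ℝ) ^ (-(1 / 2) : ℝ)) =
          (N : ℝ) ^ (3 / 2 : ℝ) * (N : ℝ) ^ (-(1 / 2) : ℝ) by ring, h4]
    _ ≤ (kN N : ℝ) ^ 2 * (4 * (N : ℝ) ^ (-(1 / 2) : ℝ)) := by gcongr
    _ = 4 / s ^ 2 * (N : ℝ) ^ (-(1 / 2) : ℝ) * ((kN N : ℝ) ^ 2 * s ^ 2) := by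
        field_simp

theorem C16_nonneg : 0 ≤ C16 := integral_nonneg fun t => by positivity

/-- the delocalised set of the free coordinates has positive measure. -/
theorem DD_pos {s : ℝ} (hs : 0 < s) (hs1 : s < 1) : ∀ᶠ N : ℕ in atTop, ∀ n : ℕ, N ≤ 2 * n → n ≤ N →
    0 < (uS n).real (DD n (kap (kN N) s)) := by
  have h := ((tendsto_pow_neg (by norm_num : (0 : ℝ) < 1)).const_mul (C16 * 2 ^ 7)).eventually
    (gt_mem_nhds (by simp : C16 * 2 ^ 7 * 0 < (1 : ℝ)))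
  filter_upwards [h, eventually_gt_atTop 0] with N hN hN0 n hn1 hn2
  have hn0 : 0 < n := by omega
  have : NeZero n := ⟨hn0.ne'⟩
  have hn : (0 : ℝ) < n := by exact_mod_cast hn0
  have hN' : (0 : ℝ) < N := by exact_mod_cast hN0
  have hk := kN_pos hN0
  have hk' : (0 : ℝ) < kN N := by exact_mod_cast hk
  have hnN : (N : ℝ) ≤ 2 * n := by exact_mod_cast hn1
  have hκ := kap_pos hk hs
  have ht := deloc_tail hn0 hκ
  -- the tail coefficient is less than one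
  have h16 : kap (kN N) s ^ 16 = 1 / (kN N * s) ^ 8 := by
    rw [show kap (kN N) s ^ 16 = (kap (kN N) s ^ 2) ^ 8 by ring, kap_sq hk hs, div_pow, one_pow]
  have hk8 : (kN N * s : ℝ) ^ 8 ≤ (N : ℝ) ^ 6 := by
    calc (kN N * s : ℝ) ^ 8 ≤ ((N : ℝ) ^ (3 / 4 : ℝ) * 1) ^ 8 := by
          gcongr
          exact kN_le N
      _ = (N : ℝ) ^ 6 := by
          rw [mul_one, ← Real.rpow_natCast ((N : ℝ) ^ (3 / 4 : ℝ)) 8, ← Real.rpow_mul hN'.le,
            ← Real.rpow_natCast (N : ℝ) 6]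
          norm_num
  have hcoef : (n : ℝ) * C16 / ((n : ℝ) ^ 8 * kap (kN N) s ^ 16) < 1 := by
    have e1 : (n : ℝ) * C16 / ((n : ℝ) ^ 8 * kap (kN N) s ^ 16) =
        C16 * (kN N * s) ^ 8 / (n : ℝ) ^ 7 := by
      rw [h16]
      field_simp
    rw [e1]
    have e2 : C16 * (kN N * s) ^ 8 / (n : ℝ) ^ 7 ≤ C16 * 2 ^ 7 * (N : ℝ) ^ (-1 : ℝ) := by
      rw [Real.rpow_neg_one, div_le_iff₀ (by positivity)]
      have h7 : ((N : ℝ)) ^ 7 ≤ (2 * n) ^ 7 := by gcongr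
      have hC := C16_nonneg
      calc C16 * (kN N * s) ^ 8 ≤ C16 * (N : ℝ) ^ 6 := by gcongr
        _ = C16 * (N : ℝ)⁻¹ * (N : ℝ) ^ 7 := by field_simp
        _ ≤ C16 * (N : ℝ)⁻¹ * (2 * n) ^ 7 := by gcongr
        _ = C16 * 2 ^ 7 * (N : ℝ)⁻¹ * (n : ℝ) ^ 7 := by ring
    exact lt_of_le_of_lt e2 hN
  have hσ : 0 < (sphereLaw n).real univ := sphereLaw_real_pos
  have hsum := measureReal_add_measureReal_compl (μ := sphereLaw n)
    (measurableSet_DD (N := n) (kap (kN N) s))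
  have hDc : (sphereLaw n).real (DD n (kap (kN N) s))ᶜ < (sphereLaw n).real univ := by
    refine lt_of_le_of_lt ht ?_
    nlinarith
  have hD : 0 < (sphereLaw n).real (DD n (kap (kN N) s)) := by linarith
  have e : (uS n).real (DD n (kap (kN N) s)) =
      ((sphereLaw n) univ)⁻¹.toReal * (sphereLaw n).real (DD n (kap (kN N) s)) := by
    unfold Crest.Agent.R146.Sph_409.uS
    rw [measureReal_ennreal_smul_apply]
  rw [e]
  refine mul_pos ?_ hD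
  refine ENNReal.toReal_pos (ENNReal.inv_ne_zero.2 (measure_ne_top _ _)) ?_
  exact ENNReal.inv_ne_top.2 (Crest.Agent.R146.Sph_409.sphereLaw_univ_ne_zero n)

/-! ### cells -/

/-- the cell of a block `I` and a net point `u` -/
def cell (N k : ℕ) (s h : ℝ) (I : Finset (Fin N)) (u : {i // i ∈ I} → ℝ) : Set (UnitSphere N) :=
  {y | (∀ i, i ∉ I → (sv y i) ^ 2 ≤ 1 / k) ∧ s < ∑ i ∈ Iᶜ, (sv y i) ^ 2 ∧
    ∑ i, u i ^ 2 ≤ ∑ i ∈ I, (sv y i) ^ 2 ∧ ∑ i ∈ I, (sv y i) ^ 2 ≤ ∑ i, u i ^ 2 + h ∧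
    ∑ i : {i // i ∈ I}, (sv y i - u i) ^ 2 ≤ 9 * h}

theorem sum_sv_sq {N : ℕ} (y : UnitSphere N) : ∑ i, sv y i ^ 2 = 1 :=
  Crest.Agent.R146L878.sum_sv_sq y

theorem measurableSet_cell (N k : ℕ) (s h : ℝ) (I : Finset (Fin N)) (u : {i // i ∈ I} → ℝ) :
    MeasurableSet (cell N k s h I u) := by
  have m1 : ∀ i, Measurable fun y : UnitSphere N => sv y i := fun i =>
    (measurable_pi_apply i).comp measurable_sv
  have m2 : ∀ J : Finset (Fin N), Measurable fun y : UnitSphere N => ∑ i ∈ J, (sv y i) ^ 2 :=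
    fun J => Finset.measurable_sum _ fun i _ => (m1 i).pow_const 2
  have e : cell N k s h I u = {y | ∀ i, i ∉ I → (sv y i) ^ 2 ≤ 1 / k} ∩
      ({y | s < ∑ i ∈ Iᶜ, (sv y i) ^ 2} ∩ ({y | ∑ i, u i ^ 2 ≤ ∑ i ∈ I, (sv y i) ^ 2} ∩
      ({y | ∑ i ∈ I, (sv y i) ^ 2 ≤ ∑ i, u i ^ 2 + h} ∩
      {y | ∑ i : {i // i ∈ I}, (sv y i - u i) ^ 2 ≤ 9 * h}))) := rfl
  rw [e]
  refine MeasurableSet.inter ?_ (MeasurableSet.inter ?_ (MeasurableSet.inter ?_
    (MeasurableSet.inter ?_ ?_)))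
  · have e2 : {y : UnitSphere N | ∀ i, i ∉ I → (sv y i) ^ 2 ≤ 1 / k} =
        ⋂ i ∈ Iᶜ, {y : UnitSphere N | (sv y i) ^ 2 ≤ 1 / k} := by
      ext y
      simp
    rw [e2]
    exact Finset.measurableSet_biInter _ fun i _ =>
      measurableSet_le ((m1 i).pow_const 2) measurable_const
  · exact measurableSet_lt measurable_const (m2 _)
  · exact measurableSet_le measurable_const (m2 _)
  · exact measurableSet_le (m2 _) measurable_const
  · refine measurableSet_le (Finset.measurable_sum _ fun i _ => ?_) measurable_const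
    exact ((m1 i).sub_const _).pow_const 2

/-- a net of a block as given by `NETP` -/
def IsNet (h : ℝ) {I : Type} [Fintype I] (S : Finset (I → ℝ)) : Prop :=
  ∀ w : I → ℝ, ∑ i, w i ^ 2 ≤ 1 → ∃ u ∈ S, ∑ i, u i ^ 2 ≤ ∑ i, w i ^ 2 ∧
    ∑ i, w i ^ 2 ≤ ∑ i, u i ^ 2 + h ∧ ∑ i, (w i - u i) ^ 2 ≤ 9 * h

/-- **the low region is covered by the cells.** -/
theorem cover {N k : ℕ} (hk : 0 < k) {s h : ℝ}
    (S : ∀ I : Finset (Fin N), Finset ({i // i ∈ I} → ℝ)) (hS : ∀ I, IsNet h (S I)) :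
    (highSet N k s)ᶜ ⊆ ⋃ I ∈ blocks N k, ⋃ u ∈ (S I).filter (fun u => ∑ i, u i ^ 2 < 1 - s),
      cell N k s h I u := by
  classical
  intro y hy
  have hk' : (0 : ℝ) < k := by exact_mod_cast hk
  set I : Finset (Fin N) := Finset.univ.filter fun i => 1 / (k : ℝ) < (sv y i) ^ 2 with hI
  have htot := sum_sv_sq y
  have hIk : I.card ≤ k := by
    by_contra hcon
    push Not at hcon
    have h1 : (I.card : ℝ) * (1 / k) ≤ ∑ i ∈ I, (sv y i) ^ 2 := by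
      rw [← nsmul_eq_mul]
      exact Finset.card_nsmul_le_sum _ _ _ fun i hi => (Finset.mem_filter.1 hi).2.le
    have h2 : ∑ i ∈ I, (sv y i) ^ 2 ≤ 1 := by
      rw [← htot]
      exact Finset.sum_le_sum_of_subset_of_nonneg (Finset.subset_univ _) fun i _ _ => sq_nonneg _
    have h3 : (k : ℝ) + 1 ≤ I.card := by exact_mod_cast hcon
    have h4 : ((k : ℝ) + 1) * (1 / k) ≤ 1 := by
      refine le_trans ?_ (h1.trans h2)
      gcongr
    rw [mul_one_div, div_le_one hk'] at h4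
    linarith
  have hlow : s < ∑ i ∈ Iᶜ, (sv y i) ^ 2 := by
    by_contra hcon
    exact hy ⟨I, hIk, not_lt.1 hcon⟩
  have hsplit : ∑ i ∈ I, (sv y i) ^ 2 + ∑ i ∈ Iᶜ, (sv y i) ^ 2 = 1 := by
    rw [Finset.sum_add_sum_compl]; exact htot
  have hsub : ∑ i : {i // i ∈ I}, (sv y i) ^ 2 = ∑ i ∈ I, (sv y i) ^ 2 :=
    Finset.sum_coe_sort I (fun i => (sv y i) ^ 2)
  have hc0 : 0 ≤ ∑ i ∈ Iᶜ, (sv y i) ^ 2 := Finset.sum_nonneg fun _ _ => sq_nonneg _
  obtain ⟨u, huS, hu1, hu2, hu3⟩ := hS I (fun i => sv y i) (by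
    show ∑ i : {i // i ∈ I}, (sv y i) ^ 2 ≤ 1
    rw [hsub]; linarith)
  have hu1' : ∑ i, u i ^ 2 ≤ ∑ i ∈ I, (sv y i) ^ 2 := by rw [← hsub]; exact hu1
  have hu2' : ∑ i ∈ I, (sv y i) ^ 2 ≤ ∑ i, u i ^ 2 + h := by rw [← hsub]; exact hu2
  refine mem_iUnion₂.2 ⟨I, Finset.mem_filter.2 ⟨Finset.mem_univ _, hIk⟩, mem_iUnion₂.2
    ⟨u, Finset.mem_filter.2 ⟨huS, by linarith⟩, ?_, hlow, hu1', hu2', hu3⟩⟩
  intro i hi
  by_contra hcon
  exact hi (Finset.mem_filter.2 ⟨Finset.mem_univ _, not_le.1 hcon⟩)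

/-- **volume factor of a block.** -/
theorem vol_tail {N : ℕ} (hN : 0 < N) {s d : ℝ} (hs : 0 < s) (hs1 : s ≤ 1) (hd : 0 < d)
    (I : Finset (Fin N)) : (uS N).real {y : UnitSphere N | ∑ i ∈ Iᶜ, (sv y i) ^ 2 ≤ s} ≤
      (1 / √(1 - Real.exp (-(2 * d))) * (1 / √s)) ^ I.card *
        Real.exp (N * (1 / 2 * Real.log s + d)) := by
  have : NeZero N := ⟨hN.ne'⟩
  set κ : ℝ := 1 - Real.exp (-(2 * d)) with hκ
  have hκ0 : 0 < κ := by
    rw [hκ, sub_pos, Real.exp_lt_one_iff]; linarith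
  have hκ1 : κ < 1 := by rw [hκ]; linarith [Real.exp_pos (-(2 * d))]
  have h1κ : 1 - κ = Real.exp (-(2 * d)) := by rw [hκ]; ring
  have hn : (0 : ℝ) < N := by exact_mod_cast hN
  have h1 := Crest.Agent.R146.LocSph_508.uS_tail (blockEquiv I) hs hs1 hκ0 hκ1
  have e1 : {y : UnitSphere N | ∑ b, ((y : En N) (blockEquiv I (Sum.inr b))) ^ 2 ≤ s} =
      {y : UnitSphere N | ∑ i ∈ Iᶜ, (sv y i) ^ 2 ≤ s} := by
    ext y
    have := sum_block_compl I (fun i => (sv y i) ^ 2)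
    simp only [mem_ofPred_eq]
    rw [← this]
    rfl
  rw [e1] at h1
  have h2 : (uS N).real {y : UnitSphere N | ∑ i ∈ Iᶜ, (sv y i) ^ 2 ≤ s} ≤
      (1 / Real.sqrt κ) ^ (Fintype.card {i // i ∈ I}) * (Real.sqrt (s / (1 - κ))) ^ (N - I.card) :=
    ENNReal.toReal_le_of_le_ofReal (by positivity) h1
  refine h2.trans ?_
  rw [Fintype.card_coe, mul_pow, mul_assoc]
  refine mul_le_mul_of_nonneg_left ?_ (by positivity)
  have hIN : I.card ≤ N := by simpa using Finset.card_le_univ I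
  have e2 : Real.sqrt (s / (1 - κ)) = Real.exp (1 / 2 * (Real.log s + 2 * d)) := by
    rw [h1κ, Real.exp_neg, div_inv_eq_mul, Real.sqrt_eq_rpow, Real.rpow_def_of_pos (by positivity),
      Real.log_mul hs.ne' (Real.exp_pos _).ne', Real.log_exp]
    congr 1
    ring
  have e3 : 1 / √s = Real.exp (-(1 / 2) * Real.log s) := by
    rw [Real.sqrt_eq_rpow, Real.rpow_def_of_pos hs, one_div, ← Real.exp_neg]
    congr 1
    ring
  rw [e2, e3, ← Real.exp_nat_mul, ← Real.exp_nat_mul, ← Real.exp_add, Real.exp_le_exp,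
    Nat.cast_sub hIN]
  have hI0 : (0 : ℝ) ≤ I.card := Nat.cast_nonneg _
  nlinarith

end

end Crest.Agent.R146.LocCell_840
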