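import Crest.Agent.R146.LocDet_508
import Crest.Agent.R146.P34_734

/-!
Row 146, node LOC (task 13), helper508: the frozen intermediate Prop `LOCCORE` between the
finite-`N` localised part (helper508) and the literal `P34_734.LOCUB`.  Nothing is proved here.

* `Tcut R x = min ((-1 - x)_+) R`;
* `QLow ε R q` : `q` is a lower bound of `E Tcut R (u·x)^2` for all unit `u`, `x` with iid entries of
  law `mixtureLaw ε`;
* `LOCCORE` : upper bound of the averaged pressure of the mixture for a smooth potential with second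
  differences in `[-b0, 1/2]`: maximum of the Gaussian functional `α Th + SP` of ANY step profile and of
  the energy bound of the region where all but mass `s` sits on `o(N)` coordinates.
-/

set_option autoImplicit false

open MeasureTheory ProbabilityTheory Filter Crest.ProbabilityR.Perceptron
open scoped Topology

namespace Crest.Agent.R146.LocCore_508

open Crest.Agent.R146.S6Def_988 (Lev Th SP)
open Crest.Agent.R146.LocRec_508 (MidLo MidHi)
open Crest.Agent.R146.P34_734 (Test pM)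

noncomputable section

/-- the truncated violation -/
def Tcut (R x : ℝ) : ℝ := min (max (-1 - x) 0) R

/-- lower bound of the truncated energy of one row -/
def QLow (ε R q : ℝ) : Prop := ∀ (κ : Type) [Fintype κ] (u : κ → ℝ), ∑ i, u i ^ 2 = 1 →
  q ≤ ∫ x, (Tcut R (∑ i, u i * x i)) ^ 2 ∂(Measure.pi fun _ : κ => mixtureLaw ε)

/-- (LOCCORE) finite-`N` part of `LOCUB`. -/
def LOCCORE : Prop := ∀ αm : ℝ, 0 < αm → ∃ C : ℝ, 0 < C ∧
  ∀ α ε s : ℝ, 0 < α → α ≤ αm → 0 ≤ ε → ε ≤ 1 / 2 → 0 < s → s < 1 → α * ε ≤ s →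
  ∀ ψ : ℝ → ℝ, Test ψ → ∀ b0 : ℝ, 0 ≤ b0 → MidLo b0 ψ → MidHi (1 / 2) ψ →
  ∀ b c0 R q : ℝ, 0 ≤ b → 0 ≤ R → 0 ≤ q → (∀ x, ψ x ≤ c0 - b / 2 * Tcut R x ^ 2) → QLow ε R q →
  ∀ δ : ℝ, 0 < δ → ∃ J0 : ℕ, ∀ J, J0 ≤ J → ∀ P : ℕ → ℝ, Lev J P → P J < 1 → ∀ᶠ N : ℕ in atTop,
    pM N α ε ψ ≤ max (α * Th J ψ P + SP J P)
      (α * c0 - b / 2 * (max (√(α * q) - C * √s) 0) ^ 2 + 1 / 2 * Real.log s) + δ

end

end Crest.Agent.R146.LocCore_508
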