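import Crest.Agent.R146.LocCov_508

/-!
Row 146, node LOC (task 13), helper508: the sphere is covered by the high region and the blocks.
-/

set_option autoImplicit false

open MeasureTheory ProbabilityTheory Filter Set
open scoped ENNReal NNReal Topology

namespace Crest.Agent.R146.LocCov_508

open Crest.ProbabilityR.Perceptron
open Crest.Agent.R146.Sph_409
open Crest.Agent.R146.LocSph_508 (nrm nrm_nonneg nrm_sq measurable_nrm uS_split)
open Crest.Agent.R146.LocXR_508

noncomputable section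

variable {N : ℕ}

theorem card_compl_sub (I : Finset (Fin N)) :
    Fintype.card {i // i ∉ I} = N - I.card := by
  classical
  rw [Fintype.card_subtype_compl, Fintype.card_fin, Fintype.card_coe]

/-- the enumeration of the coordinates adapted to `I` -/
def EI (I : Finset (Fin N)) : {i // i ∈ I} ⊕ Fin (N - I.card) ≃ Fin N :=
  (Equiv.sumCongr (Equiv.refl _) (Fintype.equivFinOfCardEq (card_compl_sub I)).symm).trans
    (Equiv.sumCompl fun i => i ∈ I)

@[simp] theorem EI_inl (I : Finset (Fin N)) (a : {i // i ∈ I}) : EI I (Sum.inl a) = a.1 := by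
  simp [EI]

theorem EI_inr (I : Finset (Fin N)) (b : Fin (N - I.card)) : EI I (Sum.inr b) ∉ I := by
  simp only [EI, Equiv.trans_apply, Equiv.sumCongr_apply, Sum.map_inr, Equiv.sumCompl_apply_inr]
  exact ((Fintype.equivFinOfCardEq (card_compl_sub I)).symm b).2

theorem sum_inl (I : Finset (Fin N)) (f : Fin N → ℝ) :
    ∑ a, f (EI I (Sum.inl a)) = ∑ i ∈ I, f i := by
  simp only [EI_inl]
  exact Finset.sum_coe_sort I f

theorem sum_inr (I : Finset (Fin N)) (f : Fin N → ℝ) :
    ∑ b, f (EI I (Sum.inr b)) = ∑ i ∈ Iᶜ, f i := by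
  have h := sum_E (EI I) f
  rw [sum_inl, ← Finset.sum_add_sum_compl I f] at h
  linarith

/-- the high region -/
def Hg (N K0 : ℕ) (s : ℝ) : Set (UnitSphere N) :=
  {y | ∃ I : Finset (Fin N), I.card ≤ K0 ∧ ∑ i ∈ Iᶜ, ((y : En N) i) ^ 2 ≤ s}

theorem continuous_coord (i : Fin N) : Continuous fun y : UnitSphere N => (y : En N) i :=
  (EuclideanSpace.proj i).continuous.comp continuous_subtype_val

theorem measurableSet_Hg (N K0 : ℕ) (s : ℝ) : MeasurableSet (Hg N K0 s) := by
  have e : Hg N K0 s = ⋃ I ∈ (Finset.univ : Finset (Finset (Fin N))).filter (fun I => I.card ≤ K0),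
      {y : UnitSphere N | ∑ i ∈ Iᶜ, ((y : En N) i) ^ 2 ≤ s} := by
    ext y; simp [Hg]
  rw [e]
  refine Finset.measurableSet_biUnion _ fun I _ => ?_
  exact (isClosed_le (continuous_finsetSum _ fun i _ => (continuous_coord i).pow 2)
    continuous_const).measurableSet

theorem le_sum_sum {α : Type} {β : α → Type} (T : Finset α) (S : ∀ a, Finset (β a))
    (f : ∀ a, β a → ℝ≥0∞) {a : α} (ha : a ∈ T) {b : β a} (hb : b ∈ S a) :
    f a b ≤ ∑ a ∈ T, ∑ b ∈ S a, f a b :=
  (Finset.single_le_sum (f := f a) (fun _ _ => zero_le) hb).trans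
    (Finset.single_le_sum (f := fun a => ∑ b ∈ S a, f a b) (fun _ _ => zero_le) ha)

/-- **the cover** -/
theorem cover {κ s h : ℝ} (hκ : 0 < κ) {K0 : ℕ} (hK0 : (κ ^ 2)⁻¹ ≤ K0)
    (S : ∀ I : Finset (Fin N), Finset ({i // i ∈ I} → ℝ))
    (hS : ∀ (I : Finset (Fin N)) (w : {i // i ∈ I} → ℝ), ∑ i, w i ^ 2 ≤ 1 → ∃ u ∈ S I,
      ∑ i, u i ^ 2 ≤ ∑ i, w i ^ 2 ∧ ∑ i, w i ^ 2 ≤ ∑ i, u i ^ 2 + h ∧
      ∑ i, (w i - u i) ^ 2 ≤ 9 * h)
    {F : UnitSphere N → ℝ≥0∞} (hF : Measurable F) :
    ∫⁻ y, F y ∂uS N ≤ ∫⁻ y in Hg N K0 s, F y ∂uS N +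
      ∑ I ∈ (Finset.univ : Finset (Finset (Fin N))).filter (fun I => I.card ≤ K0),
        ∑ u ∈ (S I).filter (fun u => ∑ i, u i ^ 2 ≤ 1 - s),
          ∫⁻ y in Rg (EI I) u s h κ, F y ∂uS N := by
  have hpt : ∀ y : UnitSphere N, F y ≤ (Hg N K0 s).indicator F y +
      ∑ I ∈ (Finset.univ : Finset (Finset (Fin N))).filter (fun I => I.card ≤ K0),
        ∑ u ∈ (S I).filter (fun u => ∑ i, u i ^ 2 ≤ 1 - s),
          (Rg (EI I) u s h κ).indicator F y := by
    intro y
    by_cases hy : y ∈ Hg N K0 s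
    · rw [Set.indicator_of_mem hy]
      exact le_self_add
    · -- the localised set
      set I : Finset (Fin N) := Finset.univ.filter fun i => κ < |(y : En N) i| with hI
      have hmemI : ∀ i, i ∈ I ↔ κ < |(y : En N) i| := fun i => by simp [hI]
      clear_value I
      have hsum := sum_sq_sphere y
      have hcard : I.card ≤ K0 := by
        have h1 : (I.card : ℝ) * κ ^ 2 ≤ 1 := by
          calc (I.card : ℝ) * κ ^ 2 = ∑ _i ∈ I, κ ^ 2 := by rw [Finset.sum_const, nsmul_eq_mul]
            _ ≤ ∑ i ∈ I, ((y : En N) i) ^ 2 := by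
                refine Finset.sum_le_sum fun i hi => ?_
                have h2 := (hmemI i).1 hi
                rw [← sq_abs ((y : En N) i)]
                exact pow_le_pow_left₀ hκ.le h2.le 2
            _ ≤ ∑ i, ((y : En N) i) ^ 2 :=
                Finset.sum_le_sum_of_subset_of_nonneg (Finset.subset_univ _)
                  fun i _ _ => sq_nonneg _
            _ = 1 := hsum
        have h2 : (I.card : ℝ) ≤ (κ ^ 2)⁻¹ := by
          rw [← one_div, le_div_iff₀ (by positivity)]; exact h1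
        exact_mod_cast h2.trans hK0
      have hlow : s ≤ ∑ i ∈ Iᶜ, ((y : En N) i) ^ 2 := by
        by_contra hc
        push Not at hc
        exact hy ⟨I, hcard, hc.le⟩
      have hspl : ∑ i ∈ I, ((y : En N) i) ^ 2 + ∑ i ∈ Iᶜ, ((y : En N) i) ^ 2 = 1 := by
        rw [Finset.sum_add_sum_compl, hsum]
      have hw : ∑ a : {i // i ∈ I}, ((y : En N) a.1) ^ 2 = ∑ i ∈ I, ((y : En N) i) ^ 2 :=
        Finset.sum_coe_sort I fun i => ((y : En N) i) ^ 2
      obtain ⟨u, hu, h1, h2, h3⟩ := hS I (fun a => (y : En N) a.1) (by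
        rw [hw]
        have : 0 ≤ ∑ i ∈ Iᶜ, ((y : En N) i) ^ 2 := Finset.sum_nonneg fun i _ => sq_nonneg _
        linarith)
      have hmem : y ∈ Rg (EI I) u s h κ := by
        refine ⟨fun b => ?_, ?_, ?_, ?_, ?_⟩
        · exact not_lt.1 fun hc => EI_inr I b ((hmemI _).2 hc)
        · rw [sum_inr I fun i => ((y : En N) i) ^ 2]; exact hlow
        · simp only [EI_inl]; exact h1
        · simp only [EI_inl]; exact h2
        · simp only [EI_inl]; exact h3
      have hus : ∑ i, u i ^ 2 ≤ 1 - s := by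
        refine h1.trans ?_
        rw [hw]; linarith
      refine le_trans ?_ le_add_self
      have e1 : F y = (Rg (EI I) u s h κ).indicator F y := by rw [Set.indicator_of_mem hmem]
      rw [e1]
      have hI' : I ∈ (Finset.univ : Finset (Finset (Fin N))).filter (fun I => I.card ≤ K0) :=
        Finset.mem_filter.2 ⟨Finset.mem_univ I, hcard⟩
      have hu' : u ∈ (S I).filter (fun u => ∑ i, u i ^ 2 ≤ 1 - s) :=
        Finset.mem_filter.2 ⟨hu, hus⟩
      have key := le_sum_sum (α := Finset (Fin N)) (β := fun I => {i // i ∈ I} → ℝ)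
        ((Finset.univ : Finset (Finset (Fin N))).filter (fun I => I.card ≤ K0))
        (fun I => (S I).filter (fun u => ∑ i, u i ^ 2 ≤ 1 - s))
        (fun I u => (Rg (EI I) u s h κ).indicator F y) (a := I) hI' (b := u) hu'
      exact key
  refine (lintegral_mono hpt).trans ?_
  rw [lintegral_add_left (hF.indicator (measurableSet_Hg N K0 s)),
    lintegral_indicator (measurableSet_Hg N K0 s)]
  refine add_le_add le_rfl (le_of_eq ?_)
  rw [lintegral_finsetSum]
  · refine Finset.sum_congr rfl fun I _ => ?_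
    rw [lintegral_finsetSum]
    · exact Finset.sum_congr rfl fun u _ => lintegral_indicator (measurableSet_Rg _ _ _ _ _) _
    · exact fun u _ => hF.indicator (measurableSet_Rg _ _ _ _ _)
  · exact fun I _ => Finset.measurable_sum _ fun u _ => hF.indicator (measurableSet_Rg _ _ _ _ _)

end

end Crest.Agent.R146.LocCov_508
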