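import Crest.Agent.R146.LocXR_508

/-!
Row 146, node LOC (task 13), helper508: the covering inequality for one localised block `(I, u)`.
-/

set_option autoImplicit false

open MeasureTheory ProbabilityTheory Filter Set
open scoped ENNReal NNReal Topology

namespace Crest.Agent.R146.LocCov_508

open Crest.ProbabilityR.Perceptron
open Crest.Agent.R146.Sph_409
open Crest.Agent.R146.LocSph_508 (nrm nrm_nonneg nrm_sq measurable_nrm uS_split)
open Crest.Agent.R146.LocXR_508
open Crest.Agent.R146L878 (logZ DD sv expo measurableSet_DD measurable_sv)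

noncomputable section

variable {N n M : ℕ} {I : Type} [Fintype I]

/-- splitting a sum over the coordinates -/
theorem sum_E (E : I ⊕ Fin n ≃ Fin N) (f : Fin N → ℝ) :
    ∑ i, f i = ∑ a, f (E (Sum.inl a)) + ∑ b, f (E (Sum.inr b)) := by
  rw [← Equiv.sum_comp E, Fintype.sum_sum_type]

theorem sum_sq_sphere (y : UnitSphere N) : ∑ i, ((y : En N) i) ^ 2 = 1 := by
  have h := norm_coe_sphere y
  rw [EuclideanSpace.norm_eq, Real.sqrt_eq_one] at h
  simpa [Real.norm_eq_abs, sq_abs] using h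

/-- Lipschitz potentials along a bounded matrix -/
theorem sum_lip {ψ : ℝ → ℝ} {L B D : ℝ} (hL0 : 0 ≤ L) (hB0 : 0 ≤ B)
    (hL : ∀ x y, |ψ x - ψ y| ≤ L * |x - y|) {A : Fin M × Fin N → ℝ}
    (hA : ∀ v : Fin N → ℝ, ∑ a, (∑ i, A (a, i) * v i) ^ 2 ≤ B ^ 2 * ∑ i, v i ^ 2)
    (x x' : Fin M → ℝ) (v : Fin N → ℝ) (hv : ∀ a, x a - x' a = ∑ i, A (a, i) * v i)
    (hD : ∑ i, v i ^ 2 ≤ D) :
    ∑ a, ψ (x a) ≤ L * √M * B * √D + ∑ a, ψ (x' a) := by
  have h1 : ∑ a, (ψ (x a) - ψ (x' a)) ≤ L * ∑ a, |x a - x' a| := by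
    rw [Finset.mul_sum]
    exact Finset.sum_le_sum fun a _ => (le_abs_self _).trans (hL _ _)
  have h2 : ∑ a, |x a - x' a| ≤ √M * √(∑ a, (x a - x' a) ^ 2) := by
    have h := Finset.sum_mul_sq_le_sq_mul_sq Finset.univ (fun _ : Fin M => (1 : ℝ))
      fun a => |x a - x' a|
    simp only [one_mul, one_pow, Finset.sum_const, Finset.card_univ, Fintype.card_fin,
      nsmul_eq_mul, mul_one, sq_abs] at h
    rw [← Real.sqrt_mul (by positivity)]
    exact Real.le_sqrt_of_sq_le h
  have h3 : √(∑ a, (x a - x' a) ^ 2) ≤ B * √D := by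
    have e : ∑ a, (x a - x' a) ^ 2 ≤ B ^ 2 * D := by
      have := hA v
      simp only [← hv] at this
      exact this.trans (mul_le_mul_of_nonneg_left hD (sq_nonneg B))
    calc √(∑ a, (x a - x' a) ^ 2) ≤ √(B ^ 2 * D) := Real.sqrt_le_sqrt e
      _ = B * √D := by rw [Real.sqrt_mul (sq_nonneg B), Real.sqrt_sq hB0]
  have h4 : L * ∑ a, |x a - x' a| ≤ L * (√M * (B * √D)) :=
    mul_le_mul_of_nonneg_left (h2.trans (mul_le_mul_of_nonneg_left h3 (Real.sqrt_nonneg _))) hL0
  rw [Finset.sum_sub_distrib] at h1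
  linarith [show L * (√(M : ℝ) * (B * √D)) = L * √M * B * √D by ring]

/-- region of one block -/
def Rg (E : I ⊕ Fin n ≃ Fin N) (u : I → ℝ) (s h κ : ℝ) : Set (UnitSphere N) :=
  {y | (∀ b, |(y : En N) (E (Sum.inr b))| ≤ κ) ∧ s ≤ ∑ b, ((y : En N) (E (Sum.inr b))) ^ 2 ∧
    ∑ a, u a ^ 2 ≤ ∑ a, ((y : En N) (E (Sum.inl a))) ^ 2 ∧
    ∑ a, ((y : En N) (E (Sum.inl a))) ^ 2 ≤ ∑ a, u a ^ 2 + h ∧
    ∑ a, ((y : En N) (E (Sum.inl a)) - u a) ^ 2 ≤ 9 * h}

theorem measurableSet_Rg (E : I ⊕ Fin n ≃ Fin N) (u : I → ℝ) (s h κ : ℝ) :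
    MeasurableSet (Rg E u s h κ) := by
  have hc : ∀ i : Fin N, Continuous fun y : UnitSphere N => (y : En N) i := fun i =>
    (EuclideanSpace.proj i).continuous.comp continuous_subtype_val
  refine IsClosed.measurableSet ?_
  unfold Rg
  simp only [Set.ofPred_and, Set.ofPred_forall]
  refine IsClosed.inter (isClosed_iInter fun b => isClosed_le (hc _).abs continuous_const)
    (IsClosed.inter (isClosed_le continuous_const
      (continuous_finsetSum _ fun b _ => (hc _).pow 2))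
    (IsClosed.inter (isClosed_le continuous_const
      (continuous_finsetSum _ fun a _ => (hc _).pow 2))
    (IsClosed.inter (isClosed_le (continuous_finsetSum _ fun a _ => (hc _).pow 2)
      continuous_const)
    (isClosed_le (continuous_finsetSum _ fun a _ =>
      ((hc (E (Sum.inl a))).sub (continuous_const : Continuous fun _ : UnitSphere N => u a)).pow 2)
      continuous_const))))

/-- pointwise replacement on the region -/
theorem point_le (E : I ⊕ Fin n ≃ Fin N) (u : I → ℝ) {μ s h κ L B : ℝ} (hu : ∑ a, u a ^ 2 = μ)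
    (hs : 0 < s) (hL0 : 0 ≤ L) (hB0 : 0 ≤ B) {ψ : ℝ → ℝ}
    (hL : ∀ x y, |ψ x - ψ y| ≤ L * |x - y|) {A : Fin M × Fin N → ℝ}
    (hA : ∀ v : Fin N → ℝ, ∑ a, (∑ i, A (a, i) * v i) ^ 2 ≤ B ^ 2 * ∑ i, v i ^ 2)
    {y : UnitSphere N} (hy : y ∈ Rg E u s h κ) :
    (nrm fun b => (y : En N) (E (Sum.inr b))) ^ 2 ≤ 1 - μ ∧
    (∀ j, |(nrm fun b => (y : En N) (E (Sum.inr b)))⁻¹ * (y : En N) (E (Sum.inr j))| ≤ κ / √s) ∧
    ∑ a, ψ (∑ i, A (a, i) * (y : En N) i) ≤ L * √M * B * √(9 * h + h ^ 2 / (4 * s)) +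
      ∑ a, ψ (∑ i, A (a, E (Sum.inl i)) * u i + √(1 - μ) * ∑ j, A (a, E (Sum.inr j)) *
        ((nrm fun b => (y : En N) (E (Sum.inr b)))⁻¹ * (y : En N) (E (Sum.inr j)))) := by
  obtain ⟨h1, h2, h3, h4, h5⟩ := hy
  set ρ := nrm fun b => (y : En N) (E (Sum.inr b)) with hρ
  have hρsq : ρ ^ 2 = ∑ b, ((y : En N) (E (Sum.inr b))) ^ 2 := nrm_sq _
  have hρ0 : 0 ≤ ρ := nrm_nonneg _
  have hsum := sum_sq_sphere y
  rw [sum_E E, ← hρsq] at hsum
  have hρs : √s ≤ ρ := by
    rw [← Real.sqrt_sq hρ0, hρsq]; exact Real.sqrt_le_sqrt h2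
  have hs' : 0 < √s := Real.sqrt_pos.2 hs
  have hρpos : 0 < ρ := hs'.trans_le hρs
  have hle : ρ ^ 2 ≤ 1 - μ := by rw [hu] at h3; linarith
  have hge : 1 - μ - h ≤ ρ ^ 2 := by rw [hu] at h4; linarith
  have hμs : √s ≤ √(1 - μ) := Real.sqrt_le_sqrt ((hρsq ▸ h2).trans hle)
  have hμ0 : 0 ≤ 1 - μ := (sq_nonneg ρ).trans hle
  refine ⟨hle, fun j => ?_, ?_⟩
  · rw [abs_mul, abs_inv, abs_of_pos hρpos, inv_mul_eq_div]
    exact div_le_div₀ ((abs_nonneg _).trans (h1 j)) (h1 j) hs' hρs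
  · -- the difference vector
    set t := √(1 - μ) with ht
    have htsq : t ^ 2 = 1 - μ := Real.sq_sqrt hμ0
    have htρ : (t - ρ) ^ 2 ≤ h ^ 2 / (4 * s) := by
      have e1 : (t - ρ) * (t + ρ) ≤ h := by nlinarith
      have e0 : 0 ≤ t - ρ := by
        have : ρ ≤ t := by
          rw [ht, ← Real.sqrt_sq hρ0]; exact Real.sqrt_le_sqrt hle
        linarith
      have e2 : (t - ρ) * (2 * √s) ≤ h :=
        (mul_le_mul_of_nonneg_left (by linarith) e0).trans e1
      rw [le_div_iff₀ (by positivity)]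
      have e3 : ((t - ρ) * (2 * √s)) ^ 2 ≤ h ^ 2 := pow_le_pow_left₀ (by positivity) e2 2
      have e4 : ((t - ρ) * (2 * √s)) ^ 2 = (t - ρ) ^ 2 * (4 * s) := by
        rw [mul_pow, mul_pow, Real.sq_sqrt hs.le]; ring
      linarith
    let w : I ⊕ Fin n → ℝ := Sum.elim (fun a => (y : En N) (E (Sum.inl a)) - u a)
      fun j => (1 - t * ρ⁻¹) * (y : En N) (E (Sum.inr j))
    let v : Fin N → ℝ := fun i => w (E.symm i)
    have hvE : ∀ x, v (E x) = w x := fun x => by simp [v]
    refine sum_lip hL0 hB0 hL hA (fun a => ∑ i, A (a, i) * (y : En N) i) _ v (fun a => ?_) ?_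
    · rw [sum_E E (fun i => A (a, i) * (y : En N) i), sum_E E (fun i => A (a, i) * v i)]
      simp only [hvE, w, Sum.elim_inl, Sum.elim_inr]
      rw [Finset.mul_sum]
      have e1 : ∑ a_1, A (a, E (Sum.inl a_1)) * ((y : En N) (E (Sum.inl a_1)) - u a_1) =
          ∑ a_1, A (a, E (Sum.inl a_1)) * (y : En N) (E (Sum.inl a_1)) -
            ∑ i, A (a, E (Sum.inl i)) * u i := by
        rw [← Finset.sum_sub_distrib]; exact Finset.sum_congr rfl fun i _ => by ring
      have e2 : ∑ b, A (a, E (Sum.inr b)) * ((1 - t * ρ⁻¹) * (y : En N) (E (Sum.inr b))) =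
          ∑ b, A (a, E (Sum.inr b)) * (y : En N) (E (Sum.inr b)) -
            ∑ i, t * (A (a, E (Sum.inr i)) * (ρ⁻¹ * (y : En N) (E (Sum.inr i)))) := by
        rw [← Finset.sum_sub_distrib]; exact Finset.sum_congr rfl fun i _ => by ring
      rw [e1, e2]; ring
    · rw [sum_E E]
      simp only [hvE, w, Sum.elim_inl, Sum.elim_inr]
      have e1 : ∑ b, ((1 - t * ρ⁻¹) * (y : En N) (E (Sum.inr b))) ^ 2 = (t - ρ) ^ 2 := by
        simp only [mul_pow]
        rw [← Finset.mul_sum, ← hρsq, ← mul_pow]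
        have : (1 - t * ρ⁻¹) * ρ = ρ - t := by field_simp
        rw [this]; ring
      rw [e1]
      linarith

/-- the `lintegral` of the rest -/
theorem lintegral_rest {ψ : ℝ → ℝ} {K : ℝ} (hψ : Measurable ψ) (hK : ∀ x, |ψ x| ≤ K) [NeZero n]
    (μ κ : ℝ) (c : Fin M → ℝ) (A : Fin M × Fin n → ℝ) :
    ∫⁻ z : UnitSphere n in DD n κ,
      ENNReal.ofReal (Real.exp (∑ a, ψ (c a + √(1 - μ) * ∑ j, A (a, j) * (z : En n) j))) ∂uS n ≤
      ENNReal.ofReal (Real.exp (XR ψ μ κ c A)) := by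
  have hm : Measurable fun z : UnitSphere n =>
      Real.exp (∑ a, ψ (c a + √(1 - μ) * ∑ j, A (a, j) * (z : En n) j)) := by
    have hc : ∀ i : Fin n, Measurable fun y : UnitSphere n => (y : En n) i := fun i =>
      ((EuclideanSpace.proj i).continuous.comp continuous_subtype_val).measurable
    refine Real.measurable_exp.comp (Finset.measurable_sum _ fun a _ => hψ.comp ?_)
    exact measurable_const.add (measurable_const.mul
      (Finset.measurable_sum _ fun j _ => measurable_const.mul (hc j)))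
  have hint : Integrable (fun z : UnitSphere n =>
      Real.exp (∑ a, ψ (c a + √(1 - μ) * ∑ j, A (a, j) * (z : En n) j)))
      ((uS n).restrict (DD n κ)) := by
    refine Integrable.of_bound hm.aestronglyMeasurable (Real.exp (M * K))
      (Filter.Eventually.of_forall fun z => ?_)
    rw [Real.norm_eq_abs, abs_of_pos (Real.exp_pos _)]
    refine Real.exp_le_exp.2 ?_
    calc _ ≤ ∑ _a : Fin M, K := Finset.sum_le_sum fun a _ => (le_abs_self _).trans (hK _)
      _ = _ := by simp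
  rw [← ofReal_integral_eq_lintegral_ofReal hint
    (Filter.Eventually.of_forall fun z => (Real.exp_pos _).le)]
  refine ENNReal.ofReal_le_ofReal ?_
  unfold XR logZ expo sv
  exact Real.le_exp_log _

/-- **the block inequality** -/
theorem cov_one [NeZero N] [NeZero n] (E : I ⊕ Fin n ≃ Fin N) (u : I → ℝ) {μ s h κ L B K : ℝ}
    (hu : ∑ a, u a ^ 2 = μ) (hs : 0 < s) (hL0 : 0 ≤ L) (hB0 : 0 ≤ B) {ψ : ℝ → ℝ}
    (hψ : Measurable ψ) (hK : ∀ x, |ψ x| ≤ K)
    (hL : ∀ x y, |ψ x - ψ y| ≤ L * |x - y|) {A : Fin M × Fin N → ℝ}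
    (hA : ∀ v : Fin N → ℝ, ∑ a, (∑ i, A (a, i) * v i) ^ 2 ≤ B ^ 2 * ∑ i, v i ^ 2) :
    ∫⁻ y in Rg E u s h κ, ENNReal.ofReal (Real.exp (∑ a, ψ (∑ i, A (a, i) * (y : En N) i))) ∂uS N ≤
      ENNReal.ofReal (Real.exp (L * √M * B * √(9 * h + h ^ 2 / (4 * s)))) *
        (uS N {y : UnitSphere N | ∑ b, ((y : En N) (E (Sum.inr b))) ^ 2 ≤ 1 - μ} *
          ENNReal.ofReal (Real.exp (XF ψ μ (κ / √s) u
            (fun p : Fin M × (I ⊕ Fin n) => A (p.1, E p.2))))) := by
  set e := L * √M * B * √(9 * h + h ^ 2 / (4 * s)) with he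
  -- the two factors
  let G : (I → ℝ) × ℝ → ℝ≥0∞ := fun p => Set.indicator {r : ℝ | r ^ 2 ≤ 1 - μ} 1 p.2
  let X : (Fin n → ℝ) → ℝ := fun z =>
    ∑ a, ψ (∑ i, A (a, E (Sum.inl i)) * u i + √(1 - μ) * ∑ j, A (a, E (Sum.inr j)) * z j)
  let H : (Fin n → ℝ) → ℝ≥0∞ := Set.indicator {z | ∀ j, |z j| ≤ κ / √s}
    fun z => ENNReal.ofReal (Real.exp (X z))
  have hset : MeasurableSet {r : ℝ | r ^ 2 ≤ 1 - μ} :=
    measurableSet_le (by fun_prop) measurable_const
  have hG : Measurable G := (measurable_one.indicator hset).comp measurable_snd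
  have hD : MeasurableSet {z : Fin n → ℝ | ∀ j, |z j| ≤ κ / √s} := by
    simp only [Set.ofPred_forall]
    exact MeasurableSet.iInter fun j => measurableSet_le (by fun_prop) measurable_const
  have hX : Measurable X := by
    refine Finset.measurable_sum _ fun a _ => hψ.comp ?_
    exact measurable_const.add (measurable_const.mul
      (Finset.measurable_sum _ fun j _ => measurable_const.mul (measurable_pi_apply j)))
  have hH : Measurable H := (ENNReal.measurable_ofReal.comp (Real.measurable_exp.comp hX)).indicator hD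
  have hsplit := uS_split (N := N) (n := n) E hG hH
  have hpt : ∀ y : UnitSphere N, Set.indicator (Rg E u s h κ)
      (fun y : UnitSphere N =>
        ENNReal.ofReal (Real.exp (∑ a, ψ (∑ i, A (a, i) * (y : En N) i)))) y ≤
      ENNReal.ofReal (Real.exp e) * (G ((fun a => (y : En N) (E (Sum.inl a))),
        nrm fun b => (y : En N) (E (Sum.inr b))) *
        H (fun j => (nrm fun b => (y : En N) (E (Sum.inr b)))⁻¹ * (y : En N) (E (Sum.inr j)))) := by
    intro y
    by_cases hy : y ∈ Rg E u s h κ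
    · rw [Set.indicator_of_mem hy]
      obtain ⟨h1, h2, h3⟩ := point_le (κ := κ) E u hu hs hL0 hB0 hL hA hy
      have g1 : G ((fun a => (y : En N) (E (Sum.inl a))),
          nrm fun b => (y : En N) (E (Sum.inr b))) = 1 := by
        simp only [G]
        rw [Set.indicator_of_mem (by exact h1)]; rfl
      have g2 : H (fun j => (nrm fun b => (y : En N) (E (Sum.inr b)))⁻¹ *
          (y : En N) (E (Sum.inr j))) = ENNReal.ofReal (Real.exp (X fun j =>
            (nrm fun b => (y : En N) (E (Sum.inr b)))⁻¹ * (y : En N) (E (Sum.inr j)))) := by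
        simp only [H]
        rw [Set.indicator_of_mem (by exact h2)]
      rw [g1, g2, one_mul, ← ENNReal.ofReal_mul (Real.exp_pos _).le, ← Real.exp_add]
      exact ENNReal.ofReal_le_ofReal (Real.exp_le_exp.2 h3)
    · rw [Set.indicator_of_notMem hy]; exact zero_le
  calc ∫⁻ y in Rg E u s h κ, ENNReal.ofReal (Real.exp (∑ a, ψ (∑ i, A (a, i) * (y : En N) i))) ∂uS N
      = ∫⁻ y, Set.indicator (Rg E u s h κ) (fun y : UnitSphere N =>
          ENNReal.ofReal (Real.exp (∑ a, ψ (∑ i, A (a, i) * (y : En N) i)))) y ∂uS N :=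
        (lintegral_indicator (measurableSet_Rg E u s h κ) _).symm
    _ ≤ ∫⁻ y : UnitSphere N, ENNReal.ofReal (Real.exp e) *
        (G ((fun a => (y : En N) (E (Sum.inl a))), nrm fun b => (y : En N) (E (Sum.inr b))) *
        H (fun j => (nrm fun b => (y : En N) (E (Sum.inr b)))⁻¹ * (y : En N) (E (Sum.inr j)))) ∂uS N :=
        lintegral_mono hpt
    _ = ENNReal.ofReal (Real.exp e) * ((∫⁻ y : UnitSphere N, G ((fun a => (y : En N) (E (Sum.inl a))),
        nrm fun b => (y : En N) (E (Sum.inr b))) ∂uS N) *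
        ∫⁻ z : UnitSphere n, H (fun j => (z : En n) j) ∂uS n) := by
        rw [lintegral_const_mul' _ _ ENNReal.ofReal_ne_top, hsplit]
    _ ≤ _ := by
        refine mul_le_mul' le_rfl (mul_le_mul' ?_ ?_)
        · have e1 : ∀ y : UnitSphere N, G ((fun a => (y : En N) (E (Sum.inl a))),
              nrm fun b => (y : En N) (E (Sum.inr b))) =
              Set.indicator {y : UnitSphere N | ∑ b, ((y : En N) (E (Sum.inr b))) ^ 2 ≤ 1 - μ} 1 y := by
            intro y
            simp only [G, Set.indicator_apply, Set.mem_ofPred_eq, nrm_sq, Pi.one_apply]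
          simp only [e1]
          exact (lintegral_indicator_one_le _)
        · have e2 : ∀ z : UnitSphere n, H (fun j => (z : En n) j) =
              Set.indicator (DD n (κ / √s)) (fun z : UnitSphere n => ENNReal.ofReal (Real.exp
                (∑ a, ψ (∑ i, A (a, E (Sum.inl i)) * u i +
                  √(1 - μ) * ∑ j, A (a, E (Sum.inr j)) * (z : En n) j)))) z := by
            intro z
            simp only [H, X, Set.indicator_apply, DD, sv, Set.mem_ofPred_eq]
          simp only [e2]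
          rw [lintegral_indicator (measurableSet_DD _)]
          exact lintegral_rest hψ hK μ (κ / √s) (fun a => ∑ i, A (a, E (Sum.inl i)) * u i)
            (fun p : Fin M × Fin n => A (p.1, E (Sum.inr p.2)))

end

end Crest.Agent.R146.LocCov_508
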