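import Crest.Agent.R146.LocMix_508

/-!
Row 146, node (G) (localised part), helper508: the deterministic inequality of the localised part
in terms of `Th` and `SP`: mass `μ` on the localised coordinates, levels
`P'_j = (P_j - μ)₊ / (1 - μ)` on the rest.
-/

set_option autoImplicit false

namespace Crest.Agent.R146.LocDet_508

open MeasureTheory ProbabilityTheory Filter Topology Set
open Crest.Agent.R146.LocRec_508 Crest.Agent.R146.LocMix_508
open Crest.Agent.R146.S6Def_988
open Crest.ProbabilityR.Perceptron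
open scoped ENNReal NNReal

noncomputable section

local notation "γ" => gaussianReal 0 1

/-- the exponents of `Th`. -/
def ex (J : ℕ) : ℕ → ℝ := fun j => (j : ℝ) / ((J : ℝ) + 1)

/-- levels of the rest -/
def Pr (μ : ℝ) (P : ℕ → ℝ) (j : ℕ) : ℝ := max (P j - μ) 0 / (1 - μ)

theorem ex_nonneg (J i : ℕ) : 0 ≤ ex J i := by unfold ex; positivity

theorem ex_mono (J : ℕ) {i j : ℕ} (h : i ≤ j) : ex J i ≤ ex J j := by
  unfold ex
  have : (i : ℝ) ≤ j := by exact_mod_cast h
  gcongr

variable {J : ℕ} {P : ℕ → ℝ}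

theorem Lev.lev_nonneg (h : Lev J P) {j : ℕ} (hj : j ≤ J) : 0 ≤ P j :=
  h.nonneg.trans (h.mono 0 j (Nat.zero_le _) hj)

theorem Lev.lev_le (h : Lev J P) {j : ℕ} (hj : j ≤ J) : P j ≤ P J := h.mono j J hj le_rfl

theorem lev_Pr (h : Lev J P) {μ : ℝ} (hμ1 : μ < 1) (hμ0 : 0 ≤ μ) : Lev J (Pr μ P) := by
  have _ := hμ0
  have h1 : 0 < 1 - μ := by linarith
  refine ⟨?_, ?_, ?_⟩
  · unfold Pr; positivity
  · intro i j hij hj
    unfold Pr
    have := h.mono i j hij hj
    gcongr
  · unfold Pr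
    rw [div_le_one h1]
    refine max_le ?_ h1.le
    have := h.le_one; linarith

theorem Pr_lt_one (hP : P J < 1) {μ : ℝ} (hμ1 : μ < 1) : Pr μ P J < 1 := by
  have h1 : 0 < 1 - μ := by linarith
  unfold Pr
  rw [div_lt_one h1]
  exact max_lt (by linarith) h1

theorem tP_zero : tP J P 0 = 0 := by simp [tP]

theorem tP_last : tP J P (J + 2) = 1 := by
  unfold tP
  rw [if_neg (by omega), if_neg (by omega)]

theorem tP_mid {j : ℕ} (h1 : 1 ≤ j) (h2 : j ≤ J + 1) : tP J P j = P (j - 1) := by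
  unfold tP
  rw [if_neg (by omega), if_pos h2]

theorem tP_mono (h : Lev J P) : ∀ i, i < J + 2 → tP J P i ≤ tP J P (i + 1) := by
  intro i hi
  rcases Nat.eq_zero_or_pos i with h0 | h0
  · subst h0
    rw [tP_zero, tP_mid (by omega) (by omega)]
    exact Lev.lev_nonneg h (by omega)
  · rcases Nat.lt_or_ge i (J + 1) with h1 | h1
    · rw [tP_mid (by omega) (by omega), tP_mid (by omega) (by omega)]
      exact h.mono _ _ (by omega) (by omega)
    · have : i = J + 1 := by omega
      subst this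
      rw [tP_mid (by omega) (by omega), tP_last]
      have := h.le_one
      simpa using this

theorem tP_nonneg (h : Lev J P) : ∀ i, i ≤ J + 2 → 0 ≤ tP J P i := by
  intro i
  induction i with
  | zero => intro _; rw [tP_zero]
  | succ i ih => intro hi; exact (ih (by omega)).trans (tP_mono h i (by omega))

theorem tP_Pr {μ : ℝ} (hμ0 : 0 ≤ μ) (hμ1 : μ < 1) (i : ℕ) :
    max (tP J P i) μ = μ + (1 - μ) * tP J (Pr μ P) i := by
  have h1 : (1 - μ) ≠ 0 := by linarith
  unfold tP
  split_ifs with h0 h2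
  · rw [max_eq_right hμ0]; ring
  · unfold Pr
    rw [mul_div_cancel₀ _ h1]
    rcases le_total (P (i - 1)) μ with h | h
    · rw [max_eq_right h, max_eq_right (by linarith)]; ring
    · rw [max_eq_left h, max_eq_left (by linarith)]; ring
  · rw [max_eq_left hμ1.le]; ring

/-- `Th` of the shifted and scaled function at the levels of the rest. -/
theorem Th_rest {μ : ℝ} (hμ0 : 0 ≤ μ) (hμ1 : μ < 1) (f : ℝ → ℝ) (c : ℝ) :
    Th J (fun x => f (c + Real.sqrt (1 - μ) * x)) (Pr μ P) =
      recV f (fun i => max (tP J P i) μ) (ex J) (J + 2) (J + 2) c := by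
  unfold Th
  have hσ2 : Real.sqrt (1 - μ) ^ 2 = 1 - μ := Real.sq_sqrt (by linarith)
  have := recV_scale f (fun i => max (tP J P i) μ) (tP J (Pr μ P)) (ex J) (J + 2)
    (Real.sqrt_nonneg (1 - μ)) c (fun i _ => by
      rw [hσ2, tP_Pr hμ0 hμ1, tP_Pr hμ0 hμ1]; ring) (J + 2) le_rfl 0
  rw [mul_zero, add_zero] at this
  exact this

/-! ### masses -/

/-- mass of the profile after time `μ`. -/
def Dμ (J : ℕ) (P : ℕ → ℝ) (μ : ℝ) (j : ℕ) : ℝ :=
  (1 - max (P J) μ) + ∑ k ∈ Finset.Ico (j + 1) (J + 1),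
    ((k : ℝ) / ((J : ℝ) + 1)) * (max (P k) μ - max (P (k - 1)) μ)

theorem Dμ_zero (h : Lev J P) {j : ℕ} : Dμ J P 0 j = DP J P j := by
  unfold Dμ DP
  rw [max_eq_left (Lev.lev_nonneg h le_rfl)]
  congr 1
  refine Finset.sum_congr rfl fun k hk => ?_
  rw [Finset.mem_Ico] at hk
  rw [max_eq_left (Lev.lev_nonneg h (by omega)), max_eq_left (Lev.lev_nonneg h (by omega))]

theorem Dμ_Pr {μ : ℝ} (hμ1 : μ < 1) (j : ℕ) :
    DP J (Pr μ P) j = Dμ J P μ j / (1 - μ) := by
  have h1 : (1 - μ) ≠ 0 := by linarith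
  have e : ∀ k, Pr μ P k = (max (P k) μ - μ) / (1 - μ) := by
    intro k
    unfold Pr
    congr 1
    rcases le_total (P k) μ with h | h
    · rw [max_eq_right h, max_eq_right (by linarith)]; ring
    · rw [max_eq_left h, max_eq_left (by linarith)]
  unfold DP Dμ
  rw [add_div, Finset.sum_div]
  congr 1
  · rw [e]; field_simp; ring
  · refine Finset.sum_congr rfl fun k _ => ?_
    rw [e, e]; field_simp; ring

theorem Dμ_succ {μ : ℝ} {j : ℕ} (hj : j + 1 ≤ J) :
    Dμ J P μ j = Dμ J P μ (j + 1) +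
      (((j + 1 : ℕ) : ℝ) / ((J : ℝ) + 1)) * (max (P (j + 1)) μ - max (P j) μ) := by
  unfold Dμ
  rw [Finset.sum_eq_sum_Ico_succ_bot (by omega : j + 1 < J + 1)]
  have : j + 1 - 1 = j := by omega
  rw [this]; ring

theorem Dμ_last {μ : ℝ} : Dμ J P μ J = 1 - max (P J) μ := by
  unfold Dμ
  rw [Finset.Ico_self]; simp

theorem maxP_mono (h : Lev J P) {μ : ℝ} {i j : ℕ} (hij : i ≤ j) (hj : j ≤ J) :
    max (P i) μ ≤ max (P j) μ := max_le_max (h.mono i j hij hj) le_rfl

theorem Dμ_pos (h : Lev J P) (hP : P J < 1) {μ : ℝ} (hμ1 : μ < 1) (j : ℕ) : 0 < Dμ J P μ j := by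
  unfold Dμ
  have h1 : max (P J) μ < 1 := max_lt hP hμ1
  have h2 : 0 ≤ ∑ k ∈ Finset.Ico (j + 1) (J + 1),
      ((k : ℝ) / ((J : ℝ) + 1)) * (max (P k) μ - max (P (k - 1)) μ) := by
    refine Finset.sum_nonneg fun k hk => mul_nonneg (by positivity) ?_
    rw [Finset.mem_Ico] at hk
    have := maxP_mono h (μ := μ) (i := k - 1) (j := k) (by omega) (by omega)
    linarith
  linarith

theorem Dμ_anti (h : Lev J P) {μ : ℝ} {j : ℕ} (hj : j + 1 ≤ J) :
    Dμ J P μ (j + 1) ≤ Dμ J P μ j := by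
  rw [Dμ_succ hj]
  have := maxP_mono h (μ := μ) (i := j) (j := j + 1) (by omega) hj
  have h2 : 0 ≤ (((j + 1 : ℕ) : ℝ) / ((J : ℝ) + 1)) * (max (P (j + 1)) μ - max (P j) μ) :=
    mul_nonneg (by positivity) (by linarith)
  linarith

theorem Dμ_le_zero (h : Lev J P) {μ : ℝ} : ∀ j, j ≤ J → Dμ J P μ j ≤ Dμ J P μ 0 := by
  intro j
  induction j with
  | zero => intro _; exact le_rfl
  | succ j ih => intro hj; exact (Dμ_anti h hj).trans (ih (by omega))

/-- the mass of the recursion is `Dμ`. -/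
theorem massV_eq (μ : ℝ) (hμ1 : μ < 1) :
    massV (fun i => max (tP J P i) μ) (ex J) (J + 2) (J + 2) = Dμ J P μ 0 := by
  have key : ∀ j ≤ J, massV (fun i => max (tP J P i) μ) (ex J) (J + 2) (j + 1) =
      Dμ J P μ (J - j) := by
    intro j
    induction j with
    | zero =>
      intro _
      show massV (fun i => max (tP J P i) μ) (ex J) (J + 2) 0 +
        ex J (J + 2 - 1 - 0) * (max (tP J P (J + 2 - 0)) μ - max (tP J P (J + 2 - 1 - 0)) μ) = _
      have e0 : massV (fun i => max (tP J P i) μ) (ex J) (J + 2) 0 = 0 := rfl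
      have e1 : J + 2 - 1 - 0 = J + 1 := by omega
      have e2 : J + 2 - 0 = J + 2 := by omega
      have e3 : J + 1 - 1 = J := by omega
      rw [Nat.sub_zero J, Dμ_last, e0, e1, e2, tP_last, tP_mid (by omega) le_rfl,
        max_eq_left hμ1.le, zero_add, e3]
      have e2 : ex J (J + 1) = 1 := by
        unfold ex; push_cast; rw [div_self]; positivity
      rw [e2, one_mul]
    | succ j ih =>
      intro hj
      have ih' := ih (by omega)
      show massV (fun i => max (tP J P i) μ) (ex J) (J + 2) (j + 1) +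
        ex J (J + 2 - 1 - (j + 1)) * (max (tP J P (J + 2 - (j + 1))) μ -
          max (tP J P (J + 2 - 1 - (j + 1))) μ) = _
      rw [ih']
      have e1 : J + 2 - 1 - (j + 1) = J - j := by omega
      have e2 : J + 2 - (j + 1) = J - j + 1 := by omega
      rw [e1, e2, tP_mid (j := J - j + 1) (by omega) (by omega),
        tP_mid (j := J - j) (by omega) (by omega)]
      have e4 := Dμ_succ (J := J) (P := P) (μ := μ) (j := J - (j + 1)) (by omega)
      have e5 : J - (j + 1) + 1 = J - j := by omega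
      have e6 : J - j + 1 - 1 = J - j := by omega
      have e7 : J - j - 1 = J - (j + 1) := by omega
      rw [e5] at e4
      rw [e6, e7, e4]
      rfl
  have h1 := key J le_rfl
  rw [Nat.sub_self] at h1
  show massV (fun i => max (tP J P i) μ) (ex J) (J + 2) (J + 1) + _ = _
  rw [h1]
  have e1 : J + 2 - 1 - (J + 1) = 0 := by omega
  rw [e1]
  simp [ex]

/-- concavity of the tail mass. -/
theorem massV_concave {t m : ℕ → ℝ} {k : ℕ} (hm : ∀ i j, i ≤ j → m i ≤ m j)
    (htk : t k = 1) (ht0 : ∀ i, i ≤ k → 0 ≤ t i) (ht1 : ∀ i, i ≤ k → t i ≤ 1)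
    {μ : ℝ} (hμ0 : 0 ≤ μ) (hμ1 : μ ≤ 1) :
    ∀ j ≤ k, m (k - j) * ((1 - max (t (k - j)) μ) - (1 - μ) * (1 - t (k - j))) ≤
      massV (fun i => max (t i) μ) m k j - (1 - μ) * massV t m k j := by
  intro j
  induction j with
  | zero =>
    intro _
    simp only [Nat.sub_zero, massV, htk]
    rw [max_eq_left hμ1]; simp
  | succ j ih =>
    intro hj
    have ih' := ih (by omega)
    have e1 : k - (j + 1) = k - 1 - j := by omega
    have e2 : massV (fun i => max (t i) μ) m k (j + 1) =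
      massV (fun i => max (t i) μ) m k j +
        m (k - 1 - j) * (max (t (k - j)) μ - max (t (k - 1 - j)) μ) := rfl
    have e3 : massV t m k (j + 1) =
      massV t m k j + m (k - 1 - j) * (t (k - j) - t (k - 1 - j)) := rfl
    rw [e1, e2, e3]
    have hτ : 0 ≤ (1 - max (t (k - j)) μ) - (1 - μ) * (1 - t (k - j)) := by
      have a0 := ht0 (k - j) (by omega)
      have a1 := ht1 (k - j) (by omega)
      rcases le_total (t (k - j)) μ with h | h
      · rw [max_eq_right h]; nlinarith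
      · rw [max_eq_left h]; nlinarith
    have hmm : m (k - 1 - j) ≤ m (k - j) := hm _ _ (by omega)
    nlinarith [mul_le_mul_of_nonneg_right hmm hτ]

theorem DP_concave (h : Lev J P) {μ : ℝ} (hμ0 : 0 ≤ μ) (hμ1 : μ < 1) :
    (1 - μ) * DP J P 0 ≤ Dμ J P μ 0 := by
  have key := massV_concave (t := tP J P) (m := ex J) (k := J + 2) (fun i j => ex_mono J)
    tP_last (tP_nonneg h) (fun i hi => by
      have : ∀ n, i + n ≤ J + 2 → tP J P i ≤ tP J P (i + n) := by
        intro n
        induction n with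
        | zero => intro _; exact le_rfl
        | succ n ih => intro hn; exact (ih (by omega)).trans (tP_mono h (i + n) (by omega))
      have h2 := this (J + 2 - i) (by omega)
      rw [show i + (J + 2 - i) = J + 2 by omega, tP_last] at h2
      exact h2) hμ0 hμ1.le (J + 2) le_rfl
  rw [Nat.sub_self, massV_eq μ hμ1] at key
  have e : massV (tP J P) (ex J) (J + 2) (J + 2) = DP J P 0 := by
    have := massV_eq (J := J) (P := P) 0 one_pos
    rw [Dμ_zero h] at this
    rw [← this]
    -- `max (tP i) 0 = tP i` on the indices that are read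
    have hcongr : ∀ j ≤ J + 2, massV (fun i => max (tP J P i) 0) (ex J) (J + 2) j =
        massV (tP J P) (ex J) (J + 2) j := by
      intro j
      induction j with
      | zero => intro _; rfl
      | succ j ih =>
        intro hj
        simp only [massV]
        rw [ih (by omega), max_eq_left (tP_nonneg h _ (by omega)),
          max_eq_left (tP_nonneg h _ (by omega))]
    exact (hcongr _ le_rfl).symm
  rw [e] at key
  have e0 : ex J 0 = 0 := by simp [ex]
  rw [e0, zero_mul] at key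
  linarith

theorem Dμ_le_one (h : Lev J P) {μ : ℝ} (hμ0 : 0 ≤ μ) : Dμ J P μ 0 ≤ 1 := by
  unfold Dμ
  have h1 : ∀ n ≤ J, ∑ k ∈ Finset.Ico (0 + 1) (n + 1),
      ((k : ℝ) / ((J : ℝ) + 1)) * (max (P k) μ - max (P (k - 1)) μ) ≤
      max (P n) μ - max (P 0) μ := by
    intro n
    induction n with
    | zero => intro _; simp
    | succ n ih =>
      intro hn
      rw [Finset.sum_Ico_succ_top (by omega)]
      have := ih (by omega)
      have h2 := maxP_mono h (μ := μ) (i := n) (j := n + 1) (by omega) hn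
      have h3 : (((n + 1 : ℕ) : ℝ) / ((J : ℝ) + 1)) ≤ 1 := by
        rw [div_le_one (by positivity)]
        have : ((n + 1 : ℕ) : ℝ) ≤ J := by exact_mod_cast hn
        linarith
      have e : n + 1 - 1 = n := by omega
      rw [e]
      nlinarith
  have h2 := h1 J le_rfl
  have h3 : 0 ≤ max (P 0) μ := le_max_of_le_right hμ0
  linarith

/-! ### entropy -/

theorem log_ratio_ge {a b : ℝ} (ha : 0 < a) (hb : 0 < b) : (a - b) / a ≤ Real.log a - Real.log b := by
  have h := Real.one_sub_inv_le_log_of_pos (div_pos ha hb)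
  rw [Real.log_div ha.ne' hb.ne', inv_div] at h
  have : (a - b) / a = 1 - b / a := by field_simp
  rw [this]; exact h

/-- **Entropy of the rest.** -/
theorem SP_rest (h : Lev J P) (hP : P J < 1) {μ : ℝ} (hμ1 : μ < 1) :
    SP J (Pr μ P) + 1 / 2 * Real.log (1 - μ) ≤ SP J P - μ / (2 * DP J P 0) := by
  have h1μ : 0 < 1 - μ := by linarith
  set D := fun j => Dμ J P μ j with hD
  set E := fun j => Dμ J P 0 j with hE
  have hDpos : ∀ j, 0 < D j := fun j => Dμ_pos h hP hμ1 j
  have hEpos : ∀ j, 0 < E j := fun j => Dμ_pos h hP one_pos j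
  have hE0 : ∀ j, DP J P j = E j := fun j => (Dμ_zero h).symm
  have hD0 : ∀ j, DP J (Pr μ P) j = D j / (1 - μ) := fun j => Dμ_Pr hμ1 j
  have hEle : ∀ j ≤ J, E j ≤ E 0 := fun j hj => Dμ_le_zero h j hj
  have hP0 : ∀ j ≤ J, max (P j) 0 = P j := fun j hj => max_eq_left (Lev.lev_nonneg h hj)
  -- equality of masses above `μ`
  have hDE : ∀ j ≤ J, μ ≤ P j → D j = E j := by
    intro j hj hμ
    simp only [hD, hE, Dμ]
    rw [max_eq_left (hμ.trans (h.mono j J hj le_rfl)), hP0 J le_rfl]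
    congr 1
    refine Finset.sum_congr rfl fun k hk => ?_
    rw [Finset.mem_Ico] at hk
    rw [max_eq_left (hμ.trans (h.mono j k (by omega) (by omega))),
      max_eq_left (hμ.trans (h.mono j (k - 1) (by omega) (by omega))), hP0 k (by omega),
      hP0 (k - 1) (by omega)]
  -- term 0
  have hA : min (P 0) μ / E 0 ≤ P 0 / E 0 - max (P 0 - μ) 0 / D 0 := by
    rcases le_total μ (P 0) with hc | hc
    · rw [min_eq_right hc, max_eq_left (by linarith), hDE 0 (Nat.zero_le _) hc, ← sub_div]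
      apply le_of_eq; congr 1; ring
    · rw [min_eq_left hc, max_eq_right (by linarith)]; simp
  -- middle terms
  have hB : ∀ j, j + 1 ≤ J → (min (P (j + 1)) μ - min (P j) μ) / E 0 ≤
      (((J : ℝ) + 1) / ((j + 1 : ℕ) : ℝ)) * ((Real.log (E j) - Real.log (E (j + 1))) -
        (Real.log (D j) - Real.log (D (j + 1)))) := by
    intro j hj
    have hx : (0 : ℝ) < ((j + 1 : ℕ) : ℝ) := by positivity
    have hJ : (0 : ℝ) < (J : ℝ) + 1 := by positivity
    have hPj := h.mono j (j + 1) (by omega) hj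
    have hEs : E j = E (j + 1) + (((j + 1 : ℕ) : ℝ) / ((J : ℝ) + 1)) * (P (j + 1) - P j) := by
      have := Dμ_succ (J := J) (P := P) (μ := 0) hj
      rw [hP0 _ hj, hP0 _ (by omega)] at this
      exact this
    have hDs : D j = D (j + 1) + (((j + 1 : ℕ) : ℝ) / ((J : ℝ) + 1)) *
        (max (P (j + 1)) μ - max (P j) μ) := Dμ_succ (J := J) (P := P) (μ := μ) hj
    rcases le_total μ (P j) with hc | hc
    · rw [hDE j (by omega) hc, hDE (j + 1) hj (hc.trans hPj), min_eq_right (hc.trans hPj),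
        min_eq_right hc]
      simp
    · rcases le_total μ (P (j + 1)) with hc2 | hc2
      · rw [min_eq_right hc2, min_eq_left hc, hDE (j + 1) hj hc2]
        rw [max_eq_left hc2, max_eq_right hc, hDE (j + 1) hj hc2] at hDs
        have h2 := log_ratio_ge (hEpos j) (hDpos j)
        have h3 : E j - D j = (((j + 1 : ℕ) : ℝ) / ((J : ℝ) + 1)) * (μ - P j) := by
          rw [hEs, hDs]; ring
        rw [h3] at h2
        have h4 : (((j + 1 : ℕ) : ℝ) / ((J : ℝ) + 1)) * (μ - P j) / E 0 ≤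
            (((j + 1 : ℕ) : ℝ) / ((J : ℝ) + 1)) * (μ - P j) / E j :=
          div_le_div_of_nonneg_left (mul_nonneg (by positivity) (by linarith)) (hEpos j)
            (hEle j (by omega))
        have h5 : (μ - P j) / E 0 = (((J : ℝ) + 1) / ((j + 1 : ℕ) : ℝ)) *
            ((((j + 1 : ℕ) : ℝ) / ((J : ℝ) + 1)) * (μ - P j) / E 0) := by
          field_simp
        rw [h5]
        refine mul_le_mul_of_nonneg_left ?_ (by positivity)
        linarith
      · rw [min_eq_left hc2, min_eq_left hc]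
        rw [max_eq_right hc2, max_eq_right hc, sub_self, mul_zero, add_zero] at hDs
        rw [hDs, sub_self, sub_zero]
        have h2 := log_ratio_ge (hEpos j) (hEpos (j + 1))
        have h3 : E j - E (j + 1) = (((j + 1 : ℕ) : ℝ) / ((J : ℝ) + 1)) * (P (j + 1) - P j) := by
          rw [hEs]; ring
        rw [h3] at h2
        have h4 : (((j + 1 : ℕ) : ℝ) / ((J : ℝ) + 1)) * (P (j + 1) - P j) / E 0 ≤
            (((j + 1 : ℕ) : ℝ) / ((J : ℝ) + 1)) * (P (j + 1) - P j) / E j :=
          div_le_div_of_nonneg_left (mul_nonneg (by positivity) (by linarith)) (hEpos j)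
            (hEle j (by omega))
        have h5 : (P (j + 1) - P j) / E 0 = (((J : ℝ) + 1) / ((j + 1 : ℕ) : ℝ)) *
            ((((j + 1 : ℕ) : ℝ) / ((J : ℝ) + 1)) * (P (j + 1) - P j) / E 0) := by
          field_simp
        rw [h5]
        refine mul_le_mul_of_nonneg_left ?_ (by positivity)
        linarith
  -- last term
  have hC : (μ - min (P J) μ) / E 0 ≤ Real.log (E J) - Real.log (D J) := by
    rcases le_total μ (P J) with hc | hc
    · rw [min_eq_right hc, hDE J le_rfl hc]; simp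
    · rw [min_eq_left hc]
      have h2 := log_ratio_ge (hEpos J) (hDpos J)
      have h3 : E J - D J = μ - P J := by
        simp only [hD, hE]
        rw [Dμ_last, Dμ_last, hP0 J le_rfl, max_eq_right hc]; ring
      rw [h3] at h2
      refine le_trans ?_ h2
      exact div_le_div_of_nonneg_left (by linarith) (hEpos J) (hEle J le_rfl)
  -- telescoping
  have hsum : ∑ j ∈ Finset.Ico 1 (J + 1), (min (P j) μ - min (P (j - 1)) μ) / E 0 =
      (min (P J) μ - min (P 0) μ) / E 0 := by
    have : ∀ n, ∑ j ∈ Finset.Ico 1 (n + 1), (min (P j) μ - min (P (j - 1)) μ) / E 0 =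
        (min (P n) μ - min (P 0) μ) / E 0 := by
      intro n
      induction n with
      | zero => simp
      | succ n ih =>
        rw [Finset.sum_Ico_succ_top (by omega), ih]
        have e : n + 1 - 1 = n := by omega
        rw [e, ← add_div]; congr 1; ring
    exact this J
  have hBs : ∑ j ∈ Finset.Ico 1 (J + 1), (min (P j) μ - min (P (j - 1)) μ) / E 0 ≤
      ∑ j ∈ Finset.Ico 1 (J + 1), (((J : ℝ) + 1) / (j : ℝ)) *
        ((Real.log (E (j - 1)) - Real.log (E j)) - (Real.log (D (j - 1)) - Real.log (D j))) := by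
    refine Finset.sum_le_sum fun j hj => ?_
    rw [Finset.mem_Ico] at hj
    obtain ⟨i, rfl⟩ : ∃ i, j = i + 1 := ⟨j - 1, by omega⟩
    simpa using hB i (by omega)
  -- assembly
  have e1 : SP J P = 1 / 2 * (P 0 / E 0 + ∑ j ∈ Finset.Ico 1 (J + 1), (((J : ℝ) + 1) / j) *
      (Real.log (E (j - 1)) - Real.log (E j)) + Real.log (E J)) := by
    unfold SP
    simp only [hE0]
    congr 3
    refine Finset.sum_congr rfl fun j _ => ?_
    rw [Real.log_div (hEpos _).ne' (hEpos _).ne']
  have e2 : SP J (Pr μ P) = 1 / 2 * (max (P 0 - μ) 0 / D 0 + ∑ j ∈ Finset.Ico 1 (J + 1),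
      (((J : ℝ) + 1) / j) * (Real.log (D (j - 1)) - Real.log (D j)) +
        (Real.log (D J) - Real.log (1 - μ))) := by
    unfold SP
    simp only [hD0]
    congr 3
    · unfold Pr
      rw [div_div_div_cancel_right₀ h1μ.ne']
    · refine Finset.sum_congr rfl fun j _ => ?_
      rw [div_div_div_cancel_right₀ h1μ.ne', Real.log_div (hDpos _).ne' (hDpos _).ne']
    · rw [Real.log_div (hDpos _).ne' h1μ.ne']
  rw [e1, e2, hE0 0]
  have e3 : ∑ j ∈ Finset.Ico 1 (J + 1), (((J : ℝ) + 1) / (j : ℝ)) *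
        ((Real.log (E (j - 1)) - Real.log (E j)) - (Real.log (D (j - 1)) - Real.log (D j))) =
      ∑ j ∈ Finset.Ico 1 (J + 1), (((J : ℝ) + 1) / j) * (Real.log (E (j - 1)) - Real.log (E j)) -
      ∑ j ∈ Finset.Ico 1 (J + 1), (((J : ℝ) + 1) / j) * (Real.log (D (j - 1)) - Real.log (D j)) := by
    rw [← Finset.sum_sub_distrib]
    refine Finset.sum_congr rfl fun j _ => ?_
    ring
  rw [e3] at hBs
  have e4 : μ / (2 * E 0) = 1 / 2 * (min (P 0) μ / E 0 +
      (min (P J) μ - min (P 0) μ) / E 0 + (μ - min (P J) μ) / E 0) := by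
    have := (hEpos 0).ne'
    field_simp; ring
  rw [e4]
  linarith [hA, hC, hBs, hsum]

theorem MidLo.mono {κ κ' : ℝ} {F : ℝ → ℝ} (h : MidLo κ F) (hk : κ ≤ κ') : MidLo κ' F := by
  intro y t
  have := h y t
  nlinarith [sq_nonneg t, mul_le_mul_of_nonneg_right hk (sq_nonneg t)]

theorem MidHi.mono {κ κ' : ℝ} {F : ℝ → ℝ} (h : MidHi κ F) (hk : κ ≤ κ') : MidHi κ' F := by
  intro y t
  have := h y t
  nlinarith [sq_nonneg t, mul_le_mul_of_nonneg_right hk (sq_nonneg t)]

/-- **Low region, deterministic part**: mass `μ` on the localised coordinates costs more entropy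
than it gains energy, as soon as `α ε ≤ 1 - μ`. -/
theorem low_ineq (h : Lev J P) (hP : P J < 1) {ψ : ℝ → ℝ} {K b κ : ℝ} (hψ : BC ψ K)
    (hb : 0 ≤ b) (hlo : MidLo b ψ) (hκ0 : 0 ≤ κ) (hκ : κ ≤ 1 / 2) (hhi : MidHi κ ψ)
    {I : Type*} [Fintype I] (u : I → ℝ) {μ : ℝ} (hu : ∑ i, u i ^ 2 = μ) (hμ1 : μ < 1)
    {α ε : ℝ} (hα : 0 ≤ α) (hε0 : 0 ≤ ε) (hε1 : ε ≤ 1) (hαε : α * ε ≤ 1 - μ) :
    α * (∫ x, Th J (fun z => ψ (∑ i, u i * x i + Real.sqrt (1 - μ) * z)) (Pr μ P)
        ∂(Measure.pi fun _ : I => mixtureLaw ε)) + SP J (Pr μ P) + 1 / 2 * Real.log (1 - μ) ≤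
      α * Th J ψ P + SP J P := by
  have hμ0 : 0 ≤ μ := by rw [← hu]; exact Finset.sum_nonneg fun i _ => sq_nonneg _
  have h1μ : 0 < 1 - μ := by linarith
  set F := recV ψ (fun i => max (tP J P i) μ) (ex J) (J + 2) (J + 2) with hF
  have hTh : ∀ c, Th J (fun z => ψ (c + Real.sqrt (1 - μ) * z)) (Pr μ P) = F c := fun c =>
    Th_rest hμ0 hμ1 ψ c
  simp only [hTh]
  have bF : BC F K := recV_BC hψ _ _ _ (ex_nonneg J) _
  set D := Dμ J P μ 0 with hD
  have hDpos : 0 < D := Dμ_pos h hP hμ1 0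
  have hD1 : D ≤ 1 := Dμ_le_one h hμ0
  have hmono : ∀ i, i < J + 2 → max (tP J P i) μ ≤ max (tP J P (i + 1)) μ := fun i hi =>
    max_le_max (tP_mono h i hi) le_rfl
  have hmass : massV (fun i => max (tP J P i) μ) (ex J) (J + 2) (J + 2) = D := massV_eq μ hμ1
  have hLo : MidLo (1 / D) F := by
    have := recV_midLo hψ (ex_nonneg J) hmono hb hlo (J + 2) le_rfl
    rw [hmass] at this
    refine MidLo.mono this ?_
    rw [div_le_div_iff₀ (by positivity) hDpos]
    nlinarith
  have hHi : MidHi (1 / D) F := by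
    have hlt : κ * massV (fun i => max (tP J P i) μ) (ex J) (J + 2) (J + 2) < 1 := by
      rw [hmass]; nlinarith
    have := recV_midHi hψ (ex_nonneg J) hmono hκ0 hhi hlt (J + 2) le_rfl
    rw [hmass] at this
    refine MidHi.mono this ?_
    have h2 : 0 < 1 - κ * D := by nlinarith
    rw [div_le_div_iff₀ h2 hDpos]
    nlinarith
  have hmix := mix_compare bF hHi hLo hε0 hε1 u
  rw [hu] at hmix
  have hsplit := recV_split hψ (ex_nonneg J) (tP_mono h) (k := J + 2) (μ := μ)
    (by rw [tP_last]; exact hμ1.le) (J + 2) le_rfl 0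
  rw [Nat.sub_self, tP_zero, sub_zero, max_eq_left hμ0] at hsplit
  simp only [zero_add] at hsplit
  have hThP : recV ψ (tP J P) (ex J) (J + 2) (J + 2) 0 = Th J ψ P := rfl
  rw [hThP] at hsplit
  have h1 : ∫ x, F (∑ i, u i * x i) ∂(Measure.pi fun _ : I => mixtureLaw ε) ≤
      Th J ψ P + 1 / D * μ * ε / 2 := by
    have := (abs_le.1 hmix).2
    linarith
  have hS := SP_rest h hP hμ1
  have hDP : 0 < DP J P 0 := by rw [← Dμ_zero h]; exact Dμ_pos h hP one_pos 0
  have hconc := DP_concave h hμ0 hμ1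
  have h2 : α * (1 / D * μ * ε / 2) ≤ μ / (2 * DP J P 0) := by
    have h3 : α * (1 / D * μ * ε / 2) = (α * ε) * μ / (2 * D) := by field_simp
    rw [h3]
    rw [div_le_div_iff₀ (by positivity) (by positivity)]
    have h4 : (α * ε) * DP J P 0 ≤ D :=
      (mul_le_mul_of_nonneg_right hαε hDP.le).trans hconc
    nlinarith [mul_le_mul_of_nonneg_right h4 hμ0]
  have h5 := mul_le_mul_of_nonneg_left h1 hα
  rw [mul_add] at h5
  linarith

end

end Crest.Agent.R146.LocDet_508
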