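import Crest.Agent.R146.LocDet_508
import Crest.Agent.R146.VTr_468
import Crest.Agent.R146.MonB_911
import Crest.Agent.R146.Wrap_947
import Crest.Agent.R146.LindLB2_878
import Crest.Agent.R146.Asm0204_734

/-!
Row 146, node LOCUB, helper878: smooth bounded majorants of the truncated penalty with small
positive second differences, and the comparison of the values.
-/

set_option autoImplicit false

open MeasureTheory ProbabilityTheory Set Convolution Filter
open scoped ContDiff Topology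

namespace Crest.Agent.R146L878

open Crest.Agent.R146.LocRec_508 Crest.Agent.R146.P34_734
open Crest.Agent.R146.S6Def_988
open Crest.ProbabilityR.Perceptron

/-! ### mollification -/

section moll

local notation "Lm" => (ContinuousLinearMap.lsmul ℝ ℝ (E := ℝ))

theorem iteratedDeriv_conv {f : ℝ → ℝ} (hf : LocallyIntegrable f) :
    ∀ (n : ℕ) (b : ℝ → ℝ), ContDiff ℝ ∞ b → HasCompactSupport b →
      iteratedDeriv n (b ⋆[Lm, volume] f) = (iteratedDeriv n b) ⋆[Lm, volume] f := by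
  intro n
  induction n with
  | zero => intro b _ _; simp [iteratedDeriv_zero]
  | succ n ih =>
    intro b hb hs
    rw [iteratedDeriv_succ', iteratedDeriv_succ']
    have h1 : deriv (b ⋆[Lm, volume] f) = (deriv b) ⋆[Lm, volume] f := by
      funext x
      exact (hs.hasDerivAt_convolution_left Lm (hb.of_le (by exact_mod_cast le_top)) hf x).deriv
    rw [h1]
    exact ih (deriv b) ((contDiff_infty_iff_deriv (f := b)).1 hb).2 hs.deriv

theorem hasCompactSupport_iteratedDeriv {b : ℝ → ℝ} (hs : HasCompactSupport b) :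
    ∀ n : ℕ, HasCompactSupport (iteratedDeriv n b) := by
  intro n
  induction n with
  | zero => simpa [iteratedDeriv_zero] using hs
  | succ n ih => rw [iteratedDeriv_succ]; exact ih.deriv

/-- mollification of a bounded Lipschitz function, preserving bounds of second differences. -/
theorem exists_Test_approx {f : ℝ → ℝ} {K L : ℝ} (hK : ∀ x, |f x| ≤ K)
    (hL : ∀ x y, |f x - f y| ≤ L * |x - y|) {δ : ℝ} (hδ : 0 < δ) :
    ∃ g : ℝ → ℝ, Test g ∧ (∀ x, |g x| ≤ K) ∧ (∀ x, |f x - g x| ≤ δ) ∧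
      (∀ c, MidLo c f → MidLo c g) ∧ (∀ c, MidHi c f → MidHi c g) := by
  have hK0 : 0 ≤ K := (abs_nonneg _).trans (hK 0)
  have hL0 : 0 ≤ L := by
    have := hL 1 0
    have h2 := (abs_nonneg _).trans this
    simpa using h2
  have hfc : Continuous f := by
    have : LipschitzWith (Real.toNNReal L) f := by
      refine LipschitzWith.of_dist_le_mul fun x y => ?_
      rw [Real.dist_eq, Real.dist_eq, Real.coe_toNNReal L hL0]
      exact hL x y
    exact this.continuous
  set r : ℝ := δ / (L + 1) with hr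
  have hr0 : 0 < r := div_pos hδ (by linarith)
  let φ : ContDiffBump (0 : ℝ) := ⟨r / 2, r, half_pos hr0, half_lt_self hr0⟩
  set b : ℝ → ℝ := φ.normed volume with hb
  have hbC : ContDiff ℝ ∞ b := φ.contDiff_normed
  have hbS : HasCompactSupport b := φ.hasCompactSupport_normed
  have hfl : LocallyIntegrable f := hfc.locallyIntegrable
  have i0 : Integrable b := hbC.continuous.integrable_of_hasCompactSupport hbS
  have hbn : ∀ t, 0 ≤ b t := fun t => φ.nonneg_normed t
  have hint : ∫ t, b t = 1 := φ.integral_normed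
  have hone : ∫ t, |b t| = 1 := by
    have : ∀ t, |b t| = b t := fun t => abs_of_nonneg (hbn t)
    simp only [this]
    exact hint
  have hb0 : ∀ x, |(b ⋆[Lm, volume] f) x| ≤ K := by
    intro x
    have := abs_conv_le i0 hK x
    rwa [hone, mul_one] at this
  have hint2 : ∀ y, Integrable (fun t => b t * f (y - t)) := fun y => by
    have h := (i0.mul_const K)
    refine h.mono' ?_ (Eventually.of_forall fun t => ?_)
    · exact (hbC.continuous.mul (hfc.comp (continuous_const.sub continuous_id))).aestronglyMeasurable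
    · rw [Real.norm_eq_abs, abs_mul, abs_of_nonneg (hbn t)]
      exact mul_le_mul_of_nonneg_left (hK _) (hbn t)
  have hval : ∀ y, (b ⋆[Lm, volume] f) y = ∫ t, b t * f (y - t) := fun y => by
    rw [convolution_def]
    rfl
  have hconst : ∀ c : ℝ, ∫ t, b t * c = c := fun c => by
    rw [integral_mul_const, hint, one_mul]
  refine ⟨b ⋆[Lm, volume] f, ⟨fun n => ?_, fun n => ?_⟩, hb0, fun x => ?_, fun c hc => ?_,
    fun c hc => ?_⟩
  · exact (hbS.contDiff_convolution_left Lm (hbC.of_le (by exact_mod_cast le_top)) hfl)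
  · have hc : Continuous (iteratedDeriv n b) :=
      hbC.continuous_iteratedDeriv n (by exact_mod_cast le_top)
    refine ⟨K * ∫ t, |iteratedDeriv n b t|, fun x => ?_⟩
    rw [iteratedDeriv_conv hfl n b hbC hbS]
    exact abs_conv_le (hc.integrable_of_hasCompactSupport (hasCompactSupport_iteratedDeriv hbS n))
      hK x
  · have h1 := ContDiffBump.dist_normed_convolution_le (φ := φ) (μ := volume) (g := f) (x₀ := x)
      (ε := δ) hfc.aestronglyMeasurable (fun y hy => by
        rw [Real.dist_eq]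
        have hy' : |y - x| < r := by
          rw [Metric.mem_ball, Real.dist_eq] at hy; exact hy
        refine (hL y x).trans ?_
        have : L * |y - x| ≤ L * r := mul_le_mul_of_nonneg_left hy'.le hL0
        refine this.trans ?_
        rw [hr, mul_div_assoc', div_le_iff₀ (by linarith)]
        nlinarith)
    rw [Real.dist_eq, abs_sub_comm] at h1
    exact h1
  · intro y s
    rw [hval, hval, hval]
    have e : 2 * (∫ t, b t * f (y - t)) - c * s ^ 2 =
        ∫ t, (2 * (b t * f (y - t)) - b t * (c * s ^ 2)) := by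
      rw [integral_sub ((hint2 y).const_mul 2) (i0.mul_const _), integral_const_mul, hconst]
    rw [e, ← integral_add (hint2 _) (hint2 _)]
    refine integral_mono (((hint2 y).const_mul 2).sub (i0.mul_const _))
      ((hint2 _).add (hint2 _)) fun t => ?_
    have h := hc (y - t) s
    have e1 : y + s - t = y - t + s := by ring
    have e2 : y - s - t = y - t - s := by ring
    simp only [e1, e2]
    have := mul_le_mul_of_nonneg_left h (hbn t)
    linarith
  · intro y s
    rw [hval, hval, hval]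
    have e : 2 * (∫ t, b t * f (y - t)) + c * s ^ 2 =
        ∫ t, (2 * (b t * f (y - t)) + b t * (c * s ^ 2)) := by
      rw [integral_add ((hint2 y).const_mul 2) (i0.mul_const _), integral_const_mul, hconst]
    rw [e, ← integral_add (hint2 _) (hint2 _)]
    refine integral_mono ((hint2 _).add (hint2 _))
      (((hint2 y).const_mul 2).add (i0.mul_const _)) fun t => ?_
    have h := hc (y - t) s
    have e1 : y + s - t = y - t + s := by ring
    have e2 : y - s - t = y - t - s := by ring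
    simp only [e1, e2]
    have := mul_le_mul_of_nonneg_left h (hbn t)
    linarith

end moll

/-! ### the slowly flattened penalty -/

/-- squared positive part -/
noncomputable def qpp (u : ℝ) : ℝ := max u 0 ^ 2

theorem qpp_nonneg (u : ℝ) : 0 ≤ qpp u := sq_nonneg _

theorem hasDerivAt_qpp (u : ℝ) : HasDerivAt qpp (2 * max u 0) u := by
  rcases lt_trichotomy u 0 with h | h | h
  · have h1 : qpp =ᶠ[𝓝 u] fun _ => (0 : ℝ) := by
      filter_upwards [Iio_mem_nhds h] with x hx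
      unfold qpp
      rw [max_eq_right (le_of_lt hx)]; ring
    rw [max_eq_right h.le, mul_zero]
    exact (hasDerivAt_const u (0 : ℝ)).congr_of_eventuallyEq h1
  · subst h
    rw [max_self, mul_zero, hasDerivAt_iff_isLittleO]
    refine Asymptotics.IsBigO.trans_isLittleO (g := fun x : ℝ => x ^ 2) ?_ ?_
    · refine Asymptotics.IsBigO.of_bound 1 (Eventually.of_forall fun x => ?_)
      simp only [qpp, max_self, smul_zero, sub_zero, Real.norm_eq_abs, one_mul]
      rw [show max x 0 ^ 2 - (0 : ℝ) ^ 2 = max x 0 ^ 2 by ring, abs_of_nonneg (sq_nonneg (max x 0)),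
        abs_of_nonneg (sq_nonneg x)]
      rcases le_total x 0 with h | h
      · rw [max_eq_right h]; nlinarith [sq_nonneg x]
      · rw [max_eq_left h]
    · simp only [sub_zero]
      exact Asymptotics.isLittleO_pow_id one_lt_two
  · have h1 : qpp =ᶠ[𝓝 u] fun x => x ^ 2 := by
      filter_upwards [Ioi_mem_nhds h] with x hx
      unfold qpp
      rw [max_eq_left (le_of_lt hx)]
    rw [max_eq_left h.le]
    have := (hasDerivAt_pow 2 u).congr_of_eventuallyEq h1
    simpa using this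

/-- second differences of `qpp` are monotone -/
theorem qpp_diff_mono (t : ℝ) :
    Monotone fun u => qpp (u + t) + qpp (u - t) - 2 * qpp u := by
  have hd : ∀ u, HasDerivAt (fun u => qpp (u + t) + qpp (u - t) - 2 * qpp u)
      (2 * max (u + t) 0 + 2 * max (u - t) 0 - 2 * (2 * max u 0)) u := by
    intro u
    have h1 : HasDerivAt (fun u => qpp (u + t)) (2 * max (u + t) 0) u := by
      exact (hasDerivAt_qpp (u + t)).comp_add_const u t
    have h2 : HasDerivAt (fun u => qpp (u - t)) (2 * max (u - t) 0) u := by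
      exact (hasDerivAt_qpp (u - t)).comp_sub_const u t
    exact (h1.add h2).sub ((hasDerivAt_qpp u).const_mul 2)
  refine monotone_of_deriv_nonneg (fun u => (hd u).differentiableAt) fun u => ?_
  rw [(hd u).deriv]
  have a1 : u + t ≤ max (u + t) 0 := le_max_left _ _
  have a2 : u - t ≤ max (u - t) 0 := le_max_left _ _
  have a3 : 0 ≤ max (u + t) 0 := le_max_right _ _
  have a4 : 0 ≤ max (u - t) 0 := le_max_right _ _
  rcases le_total u 0 with h | h
  · rw [max_eq_right h]; linarith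
  · rw [max_eq_left h]; linarith

theorem qpp_diff_nonneg (u t : ℝ) : 0 ≤ qpp (u + t) + qpp (u - t) - 2 * qpp u := by
  have h := qpp_diff_mono t (show min u (-|t|) ≤ u from min_le_left _ _)
  refine le_trans (le_of_eq ?_) h
  have h1 : min u (-|t|) ≤ -|t| := min_le_right _ _
  have h2 := neg_abs_le t
  have h3 := le_abs_self t
  have h4 := abs_nonneg t
  simp only [qpp]
  rw [max_eq_right (by linarith), max_eq_right (by linarith), max_eq_right (by linarith)]
  ring

theorem qpp_diff_le (u t : ℝ) : qpp (u + t) + qpp (u - t) - 2 * qpp u ≤ 2 * t ^ 2 := by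
  have h := qpp_diff_mono t (show u ≤ max u |t| from le_max_left _ _)
  refine h.trans (le_of_eq ?_)
  have h1 : |t| ≤ max u |t| := le_max_right _ _
  have h2 := neg_abs_le t
  have h3 := le_abs_self t
  have h4 := abs_nonneg t
  simp only [qpp]
  rw [max_eq_left (show (0 : ℝ) ≤ max u |t| + t by linarith),
    max_eq_left (show (0 : ℝ) ≤ max u |t| - t by linarith),
    max_eq_left (show (0 : ℝ) ≤ max u |t| by linarith)]
  ring

/-- the penalty, followed down to depth `ℓ` and then flattened with second derivative `κ` -/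
noncomputable def FR (b k κ ℓ x : ℝ) : ℝ :=
  -(b / 2) * qpp (k - x) + ((b + κ) / 2) * qpp (k - ℓ - x) -
    (κ / 2) * qpp (k - (ℓ + b * ℓ / κ) - x)

theorem FR_midHi {b k κ ℓ : ℝ} (hb : 0 < b) (hκ : 0 < κ) (hℓ : 0 ≤ ℓ) : MidHi κ (FR b k κ ℓ) := by
  intro y t
  unfold FR
  have m1 := qpp_diff_mono t (show k - ℓ - y ≤ k - y by linarith)
  simp only at m1
  have m2 := qpp_diff_le (k - ℓ - y) t
  have m3 := qpp_diff_nonneg (k - (ℓ + b * ℓ / κ) - y) t
  have e1 : k - (y + t) = k - y - t := by ring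
  have e2 : k - (y - t) = k - y + t := by ring
  have e3 : k - ℓ - (y + t) = k - ℓ - y - t := by ring
  have e4 : k - ℓ - (y - t) = k - ℓ - y + t := by ring
  have e5 : k - (ℓ + b * ℓ / κ) - (y + t) = k - (ℓ + b * ℓ / κ) - y - t := by ring
  have e6 : k - (ℓ + b * ℓ / κ) - (y - t) = k - (ℓ + b * ℓ / κ) - y + t := by ring
  rw [e1, e2, e3, e4, e5, e6]
  have n1 := mul_le_mul_of_nonneg_left m1 (show 0 ≤ b / 2 by positivity)
  have n2 := mul_le_mul_of_nonneg_left m2 (show 0 ≤ κ / 2 by positivity)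
  have n3 := mul_nonneg (show 0 ≤ κ / 2 by positivity) m3
  nlinarith

theorem FR_midLo {b k κ ℓ : ℝ} (hb : 0 < b) (hκ : 0 < κ) : MidLo (b + κ) (FR b k κ ℓ) := by
  intro y t
  unfold FR
  have m1 := qpp_diff_le (k - y) t
  have m2 := qpp_diff_nonneg (k - ℓ - y) t
  have m3 := qpp_diff_le (k - (ℓ + b * ℓ / κ) - y) t
  have e1 : k - (y + t) = k - y - t := by ring
  have e2 : k - (y - t) = k - y + t := by ring
  have e3 : k - ℓ - (y + t) = k - ℓ - y - t := by ring
  have e4 : k - ℓ - (y - t) = k - ℓ - y + t := by ring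
  have e5 : k - (ℓ + b * ℓ / κ) - (y + t) = k - (ℓ + b * ℓ / κ) - y - t := by ring
  have e6 : k - (ℓ + b * ℓ / κ) - (y - t) = k - (ℓ + b * ℓ / κ) - y + t := by ring
  rw [e1, e2, e3, e4, e5, e6]
  have n1 := mul_le_mul_of_nonneg_left m1 (show 0 ≤ b / 2 by positivity)
  have n2 := mul_nonneg (show 0 ≤ (b + κ) / 2 by positivity) m2
  have n3 := mul_le_mul_of_nonneg_left m3 (show 0 ≤ κ / 2 by positivity)
  nlinarith

/-- derivative of `FR` -/
theorem hasDerivAt_FR (b k κ ℓ x : ℝ) : HasDerivAt (FR b k κ ℓ)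
    (b * max (k - x) 0 - (b + κ) * max (k - ℓ - x) 0 +
      κ * max (k - (ℓ + b * ℓ / κ) - x) 0) x := by
  have h : ∀ c : ℝ, HasDerivAt (fun x => qpp (c - x)) (-(2 * max (c - x) 0)) x := by
    intro c
    exact (hasDerivAt_qpp (c - x)).comp_const_sub c x
  have := (((h k).const_mul (-(b / 2))).add ((h (k - ℓ)).const_mul ((b + κ) / 2))).sub
    ((h (k - (ℓ + b * ℓ / κ))).const_mul (κ / 2))
  refine this.congr_deriv ?_
  ring

theorem FR_deriv_bounds {b k κ ℓ : ℝ} (hb : 0 < b) (hκ : 0 < κ) (hℓ : 0 ≤ ℓ) (x : ℝ) :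
    0 ≤ b * max (k - x) 0 - (b + κ) * max (k - ℓ - x) 0 +
      κ * max (k - (ℓ + b * ℓ / κ) - x) 0 ∧
    b * max (k - x) 0 - (b + κ) * max (k - ℓ - x) 0 +
      κ * max (k - (ℓ + b * ℓ / κ) - x) 0 ≤ b * ℓ := by
  have hp : 0 ≤ b * ℓ / κ := by positivity
  have hpe : κ * (b * ℓ / κ) = b * ℓ := by field_simp
  have hbl : 0 ≤ b * ℓ := by positivity
  rcases le_total (k - x) 0 with h1 | h1
  · rw [max_eq_right h1, max_eq_right (by linarith), max_eq_right (by linarith)]
    constructor <;> nlinarith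
  · rw [max_eq_left h1]
    rcases le_total (k - ℓ - x) 0 with h2 | h2
    · rw [max_eq_right h2, max_eq_right (by linarith)]
      constructor <;> nlinarith
    · rw [max_eq_left h2]
      rcases le_total (k - (ℓ + b * ℓ / κ) - x) 0 with h3 | h3
      · rw [max_eq_right h3]
        constructor
        · nlinarith
        · nlinarith
      · rw [max_eq_left h3]
        have : b * (k - x) - (b + κ) * (k - ℓ - x) + κ * (k - (ℓ + b * ℓ / κ) - x) = 0 := by
          have e : κ * (k - (ℓ + b * ℓ / κ) - x) = κ * (k - ℓ - x) - κ * (b * ℓ / κ) := by ring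
          rw [e, hpe]; ring
        rw [this]
        exact ⟨le_rfl, hbl⟩

theorem FR_mono {b k κ ℓ : ℝ} (hb : 0 < b) (hκ : 0 < κ) (hℓ : 0 ≤ ℓ) : Monotone (FR b k κ ℓ) :=
  monotone_of_deriv_nonneg (fun x => (hasDerivAt_FR b k κ ℓ x).differentiableAt) fun x => by
    rw [(hasDerivAt_FR b k κ ℓ x).deriv]
    exact (FR_deriv_bounds hb hκ hℓ x).1

theorem FR_lip {b k κ ℓ : ℝ} (hb : 0 < b) (hκ : 0 < κ) (hℓ : 0 ≤ ℓ) (x y : ℝ) :
    |FR b k κ ℓ x - FR b k κ ℓ y| ≤ b * ℓ * |x - y| := by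
  have h := Convex.norm_image_sub_le_of_norm_hasDerivWithin_le (𝕜 := ℝ) (f := FR b k κ ℓ)
    (f' := fun x => b * max (k - x) 0 - (b + κ) * max (k - ℓ - x) 0 +
      κ * max (k - (ℓ + b * ℓ / κ) - x) 0) (C := b * ℓ) (s := Set.univ) (x := y) (y := x)
    (fun z _ => (hasDerivAt_FR b k κ ℓ z).hasDerivWithinAt)
    (fun z _ => by
      have := FR_deriv_bounds (k := k) hb hκ hℓ z
      rw [Real.norm_eq_abs, abs_of_nonneg this.1]
      exact this.2) convex_univ (Set.mem_univ _) (Set.mem_univ _)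
  simpa [Real.norm_eq_abs] using h

/-- above the penalty -/
theorem FR_ge_fq {b k κ ℓ : ℝ} (hb : 0 < b) (hκ : 0 < κ) (hℓ : 0 ≤ ℓ) (x : ℝ) :
    fq b k x ≤ FR b k κ ℓ x := by
  unfold fq FR
  have hp : 0 ≤ b * ℓ / κ := by positivity
  have h1 : qpp (k - (ℓ + b * ℓ / κ) - x) ≤ qpp (k - ℓ - x) := by
    unfold qpp
    exact pow_le_pow_left₀ (le_max_right _ _) (max_le_max (by linarith) le_rfl) 2
  have h2 := qpp_nonneg (k - ℓ - x)
  have h3 : qpp (k - x) = max (k - x) 0 ^ 2 := rfl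
  rw [← h3]
  nlinarith

/-- value far to the left -/
theorem FR_left {b k κ ℓ : ℝ} (hκ : 0 < κ) (hb : 0 < b) (hℓ : 0 ≤ ℓ) {x : ℝ}
    (hx : x ≤ k - (ℓ + b * ℓ / κ)) :
    FR b k κ ℓ x = -(b * ℓ ^ 2 / 2 + (b * ℓ) ^ 2 / (2 * κ)) := by
  have hp : 0 ≤ b * ℓ / κ := by positivity
  have hpe : κ * (b * ℓ / κ) = b * ℓ := by field_simp
  unfold FR qpp
  rw [max_eq_left (show 0 ≤ k - x by linarith), max_eq_left (show 0 ≤ k - ℓ - x by linarith),
    max_eq_left (show 0 ≤ k - (ℓ + b * ℓ / κ) - x by linarith)]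
  have e : (b * ℓ) ^ 2 / (2 * κ) = (κ / 2) * (b * ℓ / κ) ^ 2 := by field_simp
  rw [e]
  have e2 : (κ / 2) * (k - (ℓ + b * ℓ / κ) - x) ^ 2 =
      (κ / 2) * (k - ℓ - x) ^ 2 - (κ * (b * ℓ / κ)) * (k - ℓ - x) +
        (κ / 2) * (b * ℓ / κ) ^ 2 := by ring
  rw [e2, hpe]
  ring

/-- bounded below -/
theorem FR_ge_neg {b k κ ℓ : ℝ} (hb : 0 < b) (hκ : 0 < κ) (hℓ : 0 ≤ ℓ) (x : ℝ) :
    -(b * ℓ ^ 2 / 2 + (b * ℓ) ^ 2 / (2 * κ)) ≤ FR b k κ ℓ x := by
  have h1 := FR_left (k := k) hκ hb hℓ (min_le_right x (k - (ℓ + b * ℓ / κ)))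
  rw [← h1]
  exact FR_mono hb hκ hℓ (min_le_left _ _)

theorem FR_nonpos {b k κ ℓ : ℝ} (hb : 0 < b) (hκ : 0 < κ) (hℓ : 0 ≤ ℓ) (x : ℝ) :
    FR b k κ ℓ x ≤ 0 := by
  have hp : 0 ≤ b * ℓ / κ := by positivity
  have h1 : FR b k κ ℓ (max x k) = 0 := by
    have hx : k ≤ max x k := le_max_right _ _
    unfold FR qpp
    rw [max_eq_right (show k - max x k ≤ 0 by linarith),
      max_eq_right (show k - ℓ - max x k ≤ 0 by linarith),
      max_eq_right (show k - (ℓ + b * ℓ / κ) - max x k ≤ 0 by linarith)]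
    ring
  rw [← h1]
  exact FR_mono hb hκ hℓ (le_max_left _ _)

/-- below the truncated penalty -/
theorem FR_le_fqL {b k κ ℓ : ℝ} (hb : 0 < b) (hκ : 0 < κ) (hℓ : 0 ≤ ℓ) (x : ℝ) :
    FR b k κ ℓ x ≤ fqL (b * ℓ ^ 2 / 2) b k x := by
  have hp : 0 ≤ b * ℓ / κ := by positivity
  unfold fqL
  rcases le_total (k - ℓ) x with h | h
  · refine le_trans (le_of_eq ?_) (le_max_left _ _)
    unfold FR qpp fq
    rw [max_eq_right (show k - ℓ - x ≤ 0 by linarith),
      max_eq_right (show k - (ℓ + b * ℓ / κ) - x ≤ 0 by linarith)]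
    ring
  · refine le_trans (FR_mono hb hκ hℓ h) (le_trans (le_of_eq ?_) (le_max_right _ _))
    unfold FR qpp
    rw [max_eq_left (show 0 ≤ k - (k - ℓ) by linarith),
      max_eq_right (show k - ℓ - (k - ℓ) ≤ 0 by linarith),
      max_eq_right (show k - (ℓ + b * ℓ / κ) - (k - ℓ) ≤ 0 by linarith)]
    ring

/-- **Smooth majorant** of the truncated penalty. -/
theorem exists_smooth_majorant {b k κ : ℝ} (hb : 0 < b) (hκ : 0 < κ) {L' δ : ℝ} (hL' : 0 < L')
    (hδ : 0 < δ) :
    ∃ (F : ℝ → ℝ) (K : ℝ), Test F ∧ (∀ x, |F x| ≤ K) ∧ MidLo (b + κ) F ∧ MidHi κ F ∧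
      (∃ L0, 0 < L0 ∧ ∀ L, L0 ≤ L → ∀ x, fqL L b k x ≤ F x) ∧
      ∀ x, F x ≤ fqL L' b k x + δ := by
  set ℓ : ℝ := Real.sqrt (2 * L' / b) with hℓd
  have hℓ : 0 < ℓ := Real.sqrt_pos.2 (by positivity)
  have hℓ2 : ℓ ^ 2 = 2 * L' / b := Real.sq_sqrt (by positivity)
  have hL'e : b * ℓ ^ 2 / 2 = L' := by rw [hℓ2]; field_simp
  set L0 : ℝ := b * ℓ ^ 2 / 2 + (b * ℓ) ^ 2 / (2 * κ) with hL0
  have hL0p : 0 < L0 := by positivity
  have hK : ∀ x, |FR b k κ ℓ x| ≤ L0 := fun x => by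
    rw [abs_le]
    exact ⟨FR_ge_neg hb hκ hℓ.le x, (FR_nonpos hb hκ hℓ.le x).trans hL0p.le⟩
  obtain ⟨g, hg, hgK, hfg, hlo, hhi⟩ := exists_Test_approx hK (FR_lip hb hκ hℓ.le) (half_pos hδ)
  refine ⟨fun x => g x + δ / 2, L0 + δ / 2, ⟨fun n => ?_, fun n => ?_⟩, fun x => ?_, ?_, ?_,
    ⟨L0, hL0p, fun L hL x => ?_⟩, fun x => ?_⟩
  · exact (hg.smooth n).add contDiff_const
  · obtain ⟨C, hC⟩ := hg.bd n
    refine ⟨C + δ / 2, fun x => ?_⟩
    cases n with
    | zero =>
      simp only [iteratedDeriv_zero] at hC ⊢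
      have := hC x
      refine (abs_add_le _ _).trans ?_
      rw [abs_of_pos (half_pos hδ)]
      linarith
    | succ n =>
      have e : iteratedDeriv (n + 1) (fun x => g x + δ / 2) = iteratedDeriv (n + 1) g := by
        rw [iteratedDeriv_succ', iteratedDeriv_succ']
        congr 1
        funext x
        exact deriv_add_const _
      rw [e]
      have := hC x
      linarith [half_pos hδ]
  · refine (abs_add_le _ _).trans ?_
    rw [abs_of_pos (half_pos hδ)]
    linarith [hgK x]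
  · intro y t
    have := hlo _ (FR_midLo (k := k) (ℓ := ℓ) hb hκ) y t
    simp only
    linarith
  · intro y t
    have := hhi _ (FR_midHi (k := k) hb hκ hℓ.le) y t
    simp only
    linarith
  · have h1 : fqL L b k x ≤ FR b k κ ℓ x := by
      refine max_le (FR_ge_fq hb hκ hℓ.le x) ?_
      refine le_trans ?_ (FR_ge_neg hb hκ hℓ.le x)
      linarith
    have := (abs_le.1 (hfg x)).2
    simp only
    linarith
  · have h1 := FR_le_fqL (k := k) hb hκ hℓ.le x
    rw [hL'e] at h1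
    have := (abs_le.1 (hfg x)).1
    simp only
    linarith

/-! ### values -/

theorem Test.add {F ψ : ℝ → ℝ} (hF : Test F) (hψ : Test ψ) : Test fun x => F x + ψ x := by
  refine ⟨fun n => (hF.smooth n).add (hψ.smooth n), fun n => ?_⟩
  obtain ⟨C1, h1⟩ := hF.bd n
  obtain ⟨C2, h2⟩ := hψ.bd n
  refine ⟨C1 + C2, fun x => ?_⟩
  have e : iteratedDeriv n (fun x => F x + ψ x) x = iteratedDeriv n F x + iteratedDeriv n ψ x :=
    iteratedDeriv_fun_add (hF.smooth n).contDiffAt (hψ.smooth n).contDiffAt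
  rw [e]
  exact (abs_add_le _ _).trans (add_le_add (h1 x) (h2 x))

/-- a test function has bounded value, first and second derivative -/
theorem Test.c2 {F : ℝ → ℝ} (hF : Test F) :
    ContDiff ℝ 2 F ∧ ∃ C, ∀ x, |F x| ≤ C ∧ |deriv F x| ≤ C ∧ |deriv (deriv F) x| ≤ C := by
  obtain ⟨C0, h0⟩ := hF.bd 0
  obtain ⟨C1, h1⟩ := hF.bd 1
  obtain ⟨C2, h2⟩ := hF.bd 2
  refine ⟨hF.smooth 2, max C0 (max C1 C2), fun x => ⟨?_, ?_, ?_⟩⟩
  · have := h0 x
    rw [iteratedDeriv_zero] at this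
    exact this.trans (le_max_left _ _)
  · have := h1 x
    rw [iteratedDeriv_one] at this
    exact this.trans ((le_max_left _ _).trans (le_max_right _ _))
  · have := h2 x
    rw [iteratedDeriv_succ, iteratedDeriv_one] at this
    exact this.trans ((le_max_right _ _).trans (le_max_right _ _))

open Crest.Agent.R146.VTr_468 Crest.Agent.R146.Mono_930 Crest.Agent.R146.MonoShift_930 in
/-- the value of `F ≤ fqL L' + δ` against the value of the penalty -/
theorem V_le_of_le (W : BS) {b k L' c δ K Kψ : ℝ} (hb : 0 < b) (hL' : 0 ≤ L') (hc : 0 ≤ c)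
    {F ψ : ℝ → ℝ} (hF : Measurable F) (hFK : ∀ x, |F x| ≤ K) (hψK : ∀ x, |ψ x| ≤ Kψ)
    (hψc : ∀ x y, |ψ x - ψ y| ≤ c * |x - y|) (hFL : ∀ x, F x ≤ fqL L' b k x + δ)
    (m : OverlapProfile) :
    W.V (fun x => F x + ψ x) m ≤ W.V (fun x => fq b k x + ψ x) m +
      ∫ z, (fqL L' b k (z - c) - fq b k (z - c)) ∂(gaussianReal 0 1) + δ := by
  have hψ := cont_of_lip hc hψc
  have hB2 := memLp_B1 W
  have q1 : QG (fun x => fqL L' b k x + ψ x) := (qg_fqL L' hb).add_bdd hψ.measurable hψK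
  have qF : QG (fun x => F x + ψ x) := by
    refine ⟨hF.add hψ.measurable, K + Kψ, fun x => ?_⟩
    have h1 := hFK x
    have h2 := hψK x
    have h3 : 0 ≤ K := (abs_nonneg _).trans h1
    have h4 : 0 ≤ Kψ := (abs_nonneg _).trans h2
    refine (abs_add_le _ _).trans ?_
    nlinarith [sq_nonneg x]
  have h1 : W.V (fun x => F x + ψ x) m ≤ W.V (fun x => fqL L' b k x + ψ x) m + δ := by
    unfold BS.V controlValue
    refine csSup_le ⟨_, _, isAdmissible_zero W.P W.B W.meas m, rfl⟩ ?_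
    rintro x ⟨v, hv, rfl⟩
    have hle : controlPayoff W.P W.B (fun x => F x + ψ x) m v ≤
        controlPayoff W.P W.B (fun x => fqL L' b k x + ψ x) m v + δ := by
      rw [payoff_eq, payoff_eq]
      have i1 := qF.integrable (memLp_end hB2 hv)
      have i2 := q1.integrable (memLp_end hB2 hv)
      have h2 := integral_mono i1 (i2.add (integrable_const δ)) fun o => by
        have := hFL (W.B 1 o + dsp m v o)
        show F (W.B 1 o + dsp m v o) + ψ (W.B 1 o + dsp m v o) ≤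
          (fqL L' b k (W.B 1 o + dsp m v o) + ψ (W.B 1 o + dsp m v o)) + δ
        linarith
      rw [integral_add' i2 (integrable_const δ)] at h2
      simp only [integral_const, probReal_univ, one_smul] at h2
      linarith
    refine hle.trans (add_le_add_left ?_ _)
    refine le_csSup (bddAbove_payoffs W.P W.B W.meas (K := Kψ) (fun x => ?_) m) ⟨v, hv, rfl⟩
    have e1 := fqL_nonpos (k := k) (x := x) hb hL'
    have e2 := (abs_le.1 (hψK x)).2
    linarith
  have h2 := vtr W b k L' c hb hL' hc ψ ⟨Kψ, hψK⟩ hψc m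
  linarith

/-- near minimisers among step profiles for a bounded Lipschitz potential -/
theorem exists_step (W : BS) (hVID : Crest.Agent.R146.S6U_988.VID) (hVL : Crest.Agent.R146.S6U_988.VL) {α : ℝ} (hα : 0 < α)
    {f : ℝ → ℝ} (hf : Test f) {δ : ℝ} (hδ : 0 < δ) (m : OverlapProfile) (hm : m.entropy ≠ ⊤) :
    ∃ J0 : ℕ, ∀ J, J0 ≤ J → ∃ P : ℕ → ℝ, Lev J P ∧ P J < 1 ∧
      α * Th J f P + SP J P ≤ α * W.V f m + m.entropy.toReal + δ := by
  obtain ⟨c, hc0, hc⟩ := Test_lip hf
  obtain ⟨K, hK⟩ := Test_bdd hf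
  set ε : ℝ := δ / (2 * (α * c ^ 2 + 1)) with hε
  have hden : 0 < α * c ^ 2 + 1 := by positivity
  have hε0 : 0 < ε := by positivity
  obtain ⟨J0, hJ0⟩ := Crest.Agent.R146.MonB_911.apx m hm ε hε0
  refine ⟨J0, fun J hJ => ?_⟩
  obtain ⟨P, hP, hP1, hent, hle, hint⟩ := hJ0 J hJ
  refine ⟨P, hP, hP1, ?_⟩
  have hent2 := Crest.Agent.R146.MonB_911.ent J P hP hP1
  have hSP0 := Crest.Agent.R146.Wrap_947.SP_nonneg hP hP1
  have hSP : SP J P ≤ m.entropy.toReal + ε := by
    rw [hent2, ← ENNReal.ofReal_toReal hm, ← ENNReal.ofReal_add ENNReal.toReal_nonneg hε0.le] at hent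
    rwa [ENNReal.ofReal_le_ofReal_iff (by positivity)] at hent
  have hBL : BL K c f := ⟨hK, hc⟩
  have hV := (hVL W.Ω W.P W.B W.meas W.br f K c hBL m (mP J P)
    (Crest.Agent.R146.Wrap_947.le_mP_Icc hP m hle)).2
  have hid := hVID W.Ω W.P W.B W.meas W.br f (Test.c2 hf).1 (Test.c2 hf).2 J P hP
  rw [hid] at hV
  have hV2 : Th J f P ≤ W.V f m + c ^ 2 * ε :=
    hV.trans (add_le_add_right (mul_le_mul_of_nonneg_left hint (sq_nonneg c)) _)
  have h3 := mul_le_mul_of_nonneg_left hV2 hα.le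
  have h4 : α * (c ^ 2 * ε) + ε = δ / 2 := by
    rw [hε]; field_simp
  nlinarith

/-- **Smooth majorant and near minimisers**: the interface of LOCUB. -/
theorem exists_FR_step (W : BS) (hVID : Crest.Agent.R146.S6U_988.VID) (hVL : Crest.Agent.R146.S6U_988.VL) {α b k : ℝ} (hα : 0 < α)
    (hb : 0 < b) {κ : ℝ} (hκ : 0 < κ) {ψ : ℝ → ℝ} (hψ : Test ψ) {δ : ℝ} (hδ : 0 < δ) :
    ∃ (F : ℝ → ℝ) (K : ℝ), Test F ∧ (∀ x, |F x| ≤ K) ∧ MidLo (b + κ) F ∧ MidHi κ F ∧
      (∃ L0, 0 < L0 ∧ ∀ L, L0 ≤ L → ∀ x, fqL L b k x ≤ F x) ∧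
      ∃ J0 : ℕ, ∀ J, J0 ≤ J → ∃ P : ℕ → ℝ, Lev J P ∧ P J < 1 ∧
        α * Th J (fun x => F x + ψ x) P + SP J P ≤ W.Pv α (fun x => fq b k x + ψ x) + δ := by
  obtain ⟨c, hc0, hc⟩ := Test_lip hψ
  obtain ⟨Kψ, hKψ⟩ := Test_bdd hψ
  set η : ℝ := δ / (8 * α) with hη
  have hη0 : 0 < η := by positivity
  have hdt := Crest.Agent.R146.VTr_468.dtail b k c hb
  have hev := (hdt.eventually (gt_mem_nhds hη0)).and (eventually_gt_atTop (0 : ℝ))
  obtain ⟨L', hL'1, hL'0⟩ := hev.exists
  obtain ⟨F, K, hF, hFK, hlo, hhi, hL0, hFL⟩ := exists_smooth_majorant (k := k) hb hκ hL'0 hη0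
  refine ⟨F, K, hF, hFK, hlo, hhi, hL0, ?_⟩
  obtain ⟨x, ⟨m, hm, rfl⟩, hx⟩ := Real.lt_sInf_add_pos
    (Crest.Agent.R146.Asm0204_734.vals_nonempty W α fun x => fq b k x + ψ x) (half_pos hδ)
  obtain ⟨J0, hJ0⟩ := exists_step W hVID hVL hα (Test.add hF hψ) (show 0 < δ / 4 by positivity) m hm
  refine ⟨J0, fun J hJ => ?_⟩
  obtain ⟨P, hP, hP1, hle⟩ := hJ0 J hJ
  refine ⟨P, hP, hP1, hle.trans ?_⟩
  have hV := V_le_of_le W hb hL'0.le hc0 (Test_cont hF).measurable hFK hKψ hc hFL m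
  have hV2 := mul_le_mul_of_nonneg_left hV hα.le
  have h5 : α * (∫ z, (fqL L' b k (z - c) - fq b k (z - c)) ∂(gaussianReal 0 1)) ≤ α * η :=
    mul_le_mul_of_nonneg_left hL'1.le hα.le
  have h6 : α * η = δ / 8 := by rw [hη]; field_simp
  unfold BS.Pv
  nlinarith

end Crest.Agent.R146L878
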