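import Crest.Agent.R146.LocXR_508
import Crest.Agent.R146.LocConc_840
import Crest.Agent.R146.High_840

/-!
Row 146, node LOC (LOCCORE), helper840: the region of the sphere where all but mass `s` sits on
`k N = o(N / log N)` coordinates.

* `count_le` : weighted number of small blocks is `exp (o(N))`;
* `high_vol` : volume of the high region;
* `high_energy` : with high probability the energy is large on the high region;
* `high_part` : the partition function of the high region.
-/

set_option autoImplicit false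

open MeasureTheory ProbabilityTheory Filter Set Crest.ProbabilityR.Perceptron
open scoped Topology ENNReal NNReal

namespace Crest.Agent.R146.LocHigh_840

open Crest.Agent.R146.Sph_409 (uS En)
open Crest.Agent.R146.LocXR_508
open Crest.Agent.R146.LocCore_508 (Tcut QLow)
open Crest.Agent.R146L878 (expo sv measurable_sv)
open Crest.Agent.R146.LocConc_840 (uS_finite)

noncomputable section

/-- `k log N = o(N)` -/
def Small (k : ℕ → ℕ) : Prop := Tendsto (fun N : ℕ => (k N : ℝ) * Real.log N / N) atTop (𝓝 0)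

/-- the blocks of at most `k` coordinates -/
def blocks (N k : ℕ) : Finset (Finset (Fin N)) :=
  (Finset.univ : Finset (Finset (Fin N))).filter fun I => I.card ≤ k

/-- **counting of blocks.** -/
theorem count_le {k : ℕ → ℕ} (hk : Small k) (D d : ℝ) (hD : 0 ≤ D) (hd : 0 < d) :
    ∀ᶠ N : ℕ in atTop, ∑ I ∈ blocks N (k N), D ^ I.card ≤ Real.exp (d * N) := by
  have h1 : Tendsto (fun N : ℕ => D / (N : ℝ)) atTop (𝓝 0) := tendsto_const_div_atTop_nhds_zero_nat D
  have h2 : Tendsto (fun N : ℕ => (k N : ℝ) * Real.log N / N + D / (N : ℝ)) atTop (𝓝 0) := by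
    simpa using Tendsto.add hk h1
  filter_upwards [h2.eventually (gt_mem_nhds hd), eventually_gt_atTop 0] with N hN hN0
  have hn : (0 : ℝ) < N := by exact_mod_cast hN0
  have h3 := Crest.Agent.R146.RepairNet_840.sum_small_subsets (κ := Fin N) D (Real.log N) (k N) hD
    (Real.log_natCast_nonneg N)
  have e : blocks N (k N) = (Finset.univ : Finset (Fin N)).powerset.filter
      (fun U => (U.card : ℝ) ≤ k N) := by
    ext U
    simp [blocks]
  rw [e]
  refine h3.trans (Real.exp_le_exp.2 ?_)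
  rw [Fintype.card_fin, Real.exp_neg, Real.exp_log hn]
  have h4 : Real.log N * k N + D * (N : ℝ)⁻¹ * N =
      ((k N : ℝ) * Real.log N / N + D / (N : ℝ)) * N := by
    field_simp
  rw [h4]
  gcongr

/-- the splitting of the coordinates along a block -/
def blockEquiv {N : ℕ} (I : Finset (Fin N)) : {i // i ∈ I} ⊕ Fin (N - I.card) ≃ Fin N :=
  (Equiv.sumCongr (Equiv.refl _) (Fintype.equivFinOfCardEq (α := {i // ¬ i ∈ I}) (by
    rw [Fintype.card_subtype_compl, Fintype.card_fin, Fintype.card_coe])).symm).trans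
    (Equiv.sumCompl fun i => i ∈ I)

theorem blockEquiv_inl {N : ℕ} (I : Finset (Fin N)) (i : {i // i ∈ I}) :
    blockEquiv I (Sum.inl i) = i := by
  simp [blockEquiv]

theorem sum_block_compl {N : ℕ} (I : Finset (Fin N)) (f : Fin N → ℝ) :
    ∑ b, f (blockEquiv I (Sum.inr b)) = ∑ i ∈ Iᶜ, f i := by
  classical
  have h1 : ∑ i, f i = ∑ i : {i // i ∈ I}, f i + ∑ b, f (blockEquiv I (Sum.inr b)) := by
    rw [← Equiv.sum_comp (blockEquiv I) f, Fintype.sum_sum_type]
    have h0 : ∀ i : {i // i ∈ I}, f (blockEquiv I (Sum.inl i)) = f i := fun i => by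
      rw [blockEquiv_inl]
    simp only [h0]
  have h2 : ∑ i, f i = ∑ i ∈ I, f i + ∑ i ∈ Iᶜ, f i := (Finset.sum_add_sum_compl I f).symm
  have h3 : ∑ i : {i // i ∈ I}, f i = ∑ i ∈ I, f i := Finset.sum_coe_sort I f
  linarith

/-- the high region: all but mass `s` sits on `k` coordinates -/
def highSet (N k : ℕ) (s : ℝ) : Set (UnitSphere N) :=
  {y | ∃ I : Finset (Fin N), I.card ≤ k ∧ ∑ i ∈ Iᶜ, (sv y i) ^ 2 ≤ s}

theorem highSet_eq (N k : ℕ) (s : ℝ) : highSet N k s =
    ⋃ I ∈ blocks N k, {y : UnitSphere N | ∑ i ∈ Iᶜ, (sv y i) ^ 2 ≤ s} := by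
  ext y
  simp [highSet, blocks]

theorem measurableSet_highSet (N k : ℕ) (s : ℝ) : MeasurableSet (highSet N k s) := by
  rw [highSet_eq]
  refine Finset.measurableSet_biUnion _ fun I _ => measurableSet_le ?_ measurable_const
  refine Finset.measurable_sum _ fun i _ => ?_
  exact ((measurable_pi_apply i).comp measurable_sv).pow_const 2

/-- **volume of the high region.** -/
theorem high_vol {k : ℕ → ℕ} (hk : Small k) (s d : ℝ) (hs : 0 < s) (hs1 : s < 1) (hd : 0 < d) :
    ∀ᶠ N : ℕ in atTop, (uS N).real (highSet N (k N) s) ≤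
      Real.exp (N * (1 / 2 * Real.log s + d)) := by
  -- the parameter of the Chernoff bound
  set κ : ℝ := 1 - Real.exp (-d) with hκ
  have hκ0 : 0 < κ := by
    rw [hκ, sub_pos, Real.exp_lt_one_iff]; linarith
  have hκ1 : κ < 1 := by rw [hκ]; linarith [Real.exp_pos (-d)]
  have h1κ : 1 - κ = Real.exp (-d) := by rw [hκ]; ring
  set D : ℝ := 1 / √κ * (1 / √s) with hD
  have hD0 : 0 ≤ D := by positivity
  filter_upwards [count_le hk D (d / 2) hD0 (by positivity), eventually_gt_atTop 0] with N hN hN0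
  have : NeZero N := ⟨hN0.ne'⟩
  have hn : (0 : ℝ) < N := by exact_mod_cast hN0
  have hone : ∀ I ∈ blocks N (k N), (uS N).real {y : UnitSphere N | ∑ i ∈ Iᶜ, (sv y i) ^ 2 ≤ s} ≤
      D ^ I.card * Real.exp (N * (1 / 2 * Real.log s + d / 2)) := by
    intro I _
    have h1 := Crest.Agent.R146.LocSph_508.uS_tail (blockEquiv I) hs hs1.le hκ0 hκ1
    have e1 : {y : UnitSphere N | ∑ b, ((y : En N) (blockEquiv I (Sum.inr b))) ^ 2 ≤ s} =
        {y : UnitSphere N | ∑ i ∈ Iᶜ, (sv y i) ^ 2 ≤ s} := by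
      ext y
      have := sum_block_compl I (fun i => (sv y i) ^ 2)
      simp only [mem_ofPred_eq]
      rw [← this]
      rfl
    rw [e1] at h1
    have h2 : (uS N).real {y : UnitSphere N | ∑ i ∈ Iᶜ, (sv y i) ^ 2 ≤ s} ≤
        (1 / Real.sqrt κ) ^ (Fintype.card {i // i ∈ I}) * (Real.sqrt (s / (1 - κ))) ^ (N - I.card) :=
      ENNReal.toReal_le_of_le_ofReal (by positivity) h1
    refine h2.trans ?_
    rw [Fintype.card_coe, hD, mul_pow, mul_assoc]
    refine mul_le_mul_of_nonneg_left ?_ (by positivity)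
    -- the factor of the rest
    have hIN : I.card ≤ N := by simpa using Finset.card_le_univ I
    have e2 : Real.sqrt (s / (1 - κ)) = Real.exp (1 / 2 * (Real.log s + d)) := by
      rw [h1κ, Real.exp_neg, div_inv_eq_mul, Real.sqrt_eq_rpow, Real.rpow_def_of_pos (by positivity),
        Real.log_mul hs.ne' (Real.exp_pos d).ne', Real.log_exp]
      congr 1
      ring
    have e3 : 1 / √s = Real.exp (-(1 / 2) * Real.log s) := by
      rw [Real.sqrt_eq_rpow, Real.rpow_def_of_pos hs, one_div, ← Real.exp_neg]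
      congr 1
      ring
    rw [e2, e3, ← Real.exp_nat_mul, ← Real.exp_nat_mul, ← Real.exp_add, Real.exp_le_exp,
      Nat.cast_sub hIN]
    have hI0 : (0 : ℝ) ≤ I.card := Nat.cast_nonneg _
    nlinarith
  have hsum : (uS N).real (highSet N (k N) s) ≤
      ∑ I ∈ blocks N (k N), (uS N).real {y : UnitSphere N | ∑ i ∈ Iᶜ, (sv y i) ^ 2 ≤ s} := by
    rw [highSet_eq]
    exact measureReal_biUnion_finset_le _ _
  calc (uS N).real (highSet N (k N) s)
      ≤ ∑ I ∈ blocks N (k N), D ^ I.card * Real.exp (N * (1 / 2 * Real.log s + d / 2)) :=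
        hsum.trans (Finset.sum_le_sum hone)
    _ = (∑ I ∈ blocks N (k N), D ^ I.card) * Real.exp (N * (1 / 2 * Real.log s + d / 2)) := by
        rw [Finset.sum_mul]
    _ ≤ Real.exp (d / 2 * N) * Real.exp (N * (1 / 2 * Real.log s + d / 2)) := by gcongr
    _ = Real.exp (N * (1 / 2 * Real.log s + d)) := by
        rw [← Real.exp_add]
        congr 1
        ring

/-- the energy bound of the high region -/
def eHigh (α b c0 q C s : ℝ) : ℝ := α * c0 - b / 2 * (max (√(α * q) - C * √s) 0) ^ 2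

/-- scalar part of the energy bound -/
theorem scalar_low {E δ g n T : ℝ} (hδ : 0 ≤ δ) (hEg : E ≤ g) (hg : 0 ≤ g) (hn : 0 ≤ n)
    (hT : 0 ≤ T) (hy : (E - δ) * √n ≤ √T) : n * ((max E 0) ^ 2 - 2 * (δ * g)) ≤ T := by
  have hsN : √n ^ 2 = n := Real.sq_sqrt hn
  have hsT : √T ^ 2 = T := Real.sq_sqrt hT
  have hδg : 0 ≤ δ * g := mul_nonneg hδ hg
  rcases le_total E δ with h | h
  · have h1 : (max E 0) ^ 2 ≤ 2 * (δ * g) := by
      rcases le_total E 0 with h2 | h2
      · rw [max_eq_right h2]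
        nlinarith
      · rw [max_eq_left h2]
        have : E * E ≤ δ * g := mul_le_mul h hEg h2 hδ
        nlinarith
    have h3 : n * ((max E 0) ^ 2 - 2 * (δ * g)) ≤ 0 :=
      mul_nonpos_of_nonneg_of_nonpos hn (by linarith)
    linarith
  · have h2 : 0 ≤ (E - δ) * √n := mul_nonneg (by linarith) (Real.sqrt_nonneg _)
    have h3 : ((E - δ) * √n) ^ 2 ≤ √T ^ 2 := pow_le_pow_left₀ h2 hy 2
    rw [mul_pow, hsN, hsT] at h3
    have h4 : (max E 0) ^ 2 - 2 * (δ * g) ≤ (E - δ) ^ 2 := by
      rw [max_eq_left (by linarith)]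
      have : E * δ ≤ g * δ := mul_le_mul_of_nonneg_right hEg hδ
      nlinarith [sq_nonneg δ]
    calc n * ((max E 0) ^ 2 - 2 * (δ * g)) ≤ n * (E - δ) ^ 2 := mul_le_mul_of_nonneg_left h4 hn
      _ = (E - δ) ^ 2 * n := mul_comm _ _
      _ ≤ T := h3

/-- **energy of the high region.** -/
theorem high_energy (αm : ℝ) (hαm : 0 < αm) : ∃ C : ℝ, 0 < C ∧ ∀ α ε s : ℝ, 0 < α → α ≤ αm →
    0 ≤ ε → ε ≤ 1 / 2 → 0 < s → s < 1 → ∀ (ψ : ℝ → ℝ) (b c0 R q : ℝ), 0 ≤ b → 0 ≤ R → 0 ≤ q →
    (∀ x, ψ x ≤ c0 - b / 2 * Tcut R x ^ 2) → QLow ε R q → ∀ d : ℝ, 0 < d → ∀ k : ℕ → ℕ, Small k →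
    Tendsto (fun N : ℕ => (patternLawMix N α ε) {A : Patterns N α |
      ∃ y ∈ highSet N (k N) s, N * (eHigh α b c0 q C s + d) <
        expo (fun _ : Fin (numPatterns N α) => ψ) sv A y}) atTop (𝓝 0) := by
  obtain ⟨C, hC, hmain⟩ := Crest.Agent.R146.High_840.high_region αm hαm
  refine ⟨C, hC, ?_⟩
  intro α ε s hα hααm hε0 hε1 hs hs1 ψ b c0 R q hb hR hq hψ hQ d hd k hk
  have hgood := Crest.Agent.R146.RepairLaw_840.good_mixtureLaw ε hε0 (by linarith)
  -- the slack of the energy bound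
  set δ : ℝ := d / (4 * (b * √(α * q) + 1)) with hδ
  have hden : 0 < b * √(α * q) + 1 := by positivity
  have hδ0 : 0 < δ := by positivity
  have hδb : b * (δ * √(α * q)) ≤ d / 4 := by
    have : δ * (b * √(α * q) + 1) = d / 4 := by rw [hδ]; field_simp
    nlinarith
  set E : ℝ := √(α * q) - C * √s with hE
  -- deterministic part: large energy implies the bound
  have hdet : ∀ᶠ N : ℕ in atTop, ∀ (A : Patterns N α) (y : UnitSphere N),
      √(α * q * N) - C * √(s * N) - δ * √N ≤
        √(∑ a, (min (max (-1 - ∑ i, A (a, i) * sv y i) 0) R) ^ 2) →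
      expo (fun _ : Fin (numPatterns N α) => ψ) sv A y ≤ N * (eHigh α b c0 q C s + d) := by
    have hev : ∀ᶠ N : ℕ in atTop, |c0| / (d / 2) ≤ (N : ℝ) :=
      tendsto_natCast_atTop_atTop.eventually_ge_atTop _
    filter_upwards [hev] with N hN A y hy
    rw [div_le_iff₀ (by positivity)] at hN
    have hn : (0 : ℝ) ≤ N := Nat.cast_nonneg _
    set M : ℕ := numPatterns N α with hM
    have hMle : (M : ℝ) ≤ α * N := Nat.floor_le (by positivity)
    have hMge : α * N - 1 ≤ M := by
      have h1 : α * N < M + 1 := Nat.lt_floor_add_one _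
      linarith
    have hMc : M * c0 ≤ α * N * c0 + |c0| := by
      have h1 := le_abs_self c0
      have h2 := neg_abs_le c0
      rcases le_total 0 c0 with h | h
      · nlinarith
      · nlinarith
    set T : ℝ := ∑ a : Fin M, (min (max (-1 - ∑ i, A (a, i) * sv y i) 0) R) ^ 2 with hT
    have hT0 : 0 ≤ T := Finset.sum_nonneg fun _ _ => sq_nonneg _
    have hexpo : expo (fun _ : Fin M => ψ) sv A y ≤ M * c0 - b / 2 * T := by
      unfold expo
      calc ∑ a : Fin M, ψ (∑ i, A (a, i) * sv y i)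
          ≤ ∑ a : Fin M, (c0 - b / 2 * (min (max (-1 - ∑ i, A (a, i) * sv y i) 0) R) ^ 2) :=
            Finset.sum_le_sum fun a _ => hψ _
        _ = M * c0 - b / 2 * T := by
            rw [Finset.sum_sub_distrib, Finset.sum_const, Finset.card_univ, Fintype.card_fin,
              nsmul_eq_mul, ← Finset.mul_sum]
    have hTlow : N * ((max E 0) ^ 2 - 2 * (δ * √(α * q))) ≤ T := by
      have e1 : √(α * q * N) = √(α * q) * √N := Real.sqrt_mul (by positivity) _
      have e2 : √(s * N) = √s * √N := Real.sqrt_mul hs.le _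
      rw [e1, e2] at hy
      have e3 : √(α * q) * √N - C * (√s * √N) - δ * √N = (E - δ) * √N := by rw [hE]; ring
      rw [e3] at hy
      have hEq : E ≤ √(α * q) := by
        rw [hE]
        have : 0 ≤ C * √s := by positivity
        linarith
      exact scalar_low hδ0.le hEq (Real.sqrt_nonneg _) hn hT0 hy
    have h5 : b / 2 * (N * ((max E 0) ^ 2 - 2 * (δ * √(α * q)))) ≤ b / 2 * T :=
      mul_le_mul_of_nonneg_left hTlow (by positivity)
    have h6 : (N : ℝ) * (b * (δ * √(α * q))) ≤ N * (d / 4) := mul_le_mul_of_nonneg_left hδb hn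
    unfold eHigh
    have h7 : (N : ℝ) * (α * c0 - b / 2 * (max E 0) ^ 2 + d) =
        α * N * c0 - b / 2 * (N * ((max E 0) ^ 2 - 2 * (δ * √(α * q)))) -
          N * (b * (δ * √(α * q))) + N * d := by ring
    rw [h7]
    have h8 : (N : ℝ) * d = N * (d / 2) + N * (d / 4) + N * (d / 4) := by ring
    have h9 : 0 ≤ (N : ℝ) * (d / 4) := by positivity
    linarith
  rcases hR.eq_or_lt with hR0 | hR0
  · -- `R = 0` : then `q = 0` and the bound is trivial
    have hq0 : q = 0 := by
      refine le_antisymm ?_ hq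
      have h1 := hQ (Fin 1) (fun _ => 1) (by simp)
      refine h1.trans (le_of_eq ?_)
      have : ∀ x : Fin 1 → ℝ, (Tcut R (∑ i : Fin 1, (1 : ℝ) * x i)) ^ 2 = 0 := by
        intro x
        unfold Tcut
        rw [← hR0, min_eq_right (le_max_right _ _)]
        norm_num
      simp only [this, integral_zero]
    refine tendsto_const_nhds.congr' ?_
    filter_upwards [hdet] with N hN
    symm
    rw [← nonpos_iff_eq_zero]
    refine (measure_mono ?_).trans (measure_empty (μ := patternLawMix N α ε)).le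
    rintro A ⟨y, -, hlt⟩
    refine absurd (hN A y ?_) (not_le.2 hlt)
    refine le_trans ?_ (Real.sqrt_nonneg _)
    rw [hq0, mul_zero, zero_mul, Real.sqrt_zero]
    have h1 : 0 ≤ C * √(s * N) := by positivity
    have h2 : 0 ≤ δ * √(N : ℝ) := by positivity
    linarith
  · have h1 := hmain (mixtureLaw ε) hgood α R q hα hααm hR0 hq (fun n u hu => hQ (Fin n) u hu)
      s δ hs hs1 hδ0 k hk
    refine tendsto_of_tendsto_of_tendsto_of_le_of_le' tendsto_const_nhds h1
      (Eventually.of_forall fun _ => zero_le) ?_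
    filter_upwards [hdet] with N hN
    refine measure_mono ?_
    rintro A ⟨y, ⟨I, hI, hyI⟩, hlt⟩
    refine ⟨sv y, ?_, I, hI, hyI, ?_⟩
    · have h2 : ‖(y : EuclideanSpace ℝ (Fin N))‖ = 1 := by simp
      have h3 := EuclideanSpace.real_norm_sq_eq (y : EuclideanSpace ℝ (Fin N))
      rw [h2, one_pow] at h3
      exact h3.symm
    · by_contra hcon
      exact absurd (hN A y (not_lt.1 hcon)) (not_le.2 hlt)

/-- **partition function of the high region.** -/
theorem high_part (αm : ℝ) (hαm : 0 < αm) : ∃ C : ℝ, 0 < C ∧ ∀ α ε s : ℝ, 0 < α → α ≤ αm →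
    0 ≤ ε → ε ≤ 1 / 2 → 0 < s → s < 1 → ∀ (ψ : ℝ → ℝ), Measurable ψ → ∀ K : ℝ, (∀ x, |ψ x| ≤ K) →
    ∀ (b c0 R q : ℝ), 0 ≤ b → 0 ≤ R → 0 ≤ q →
    (∀ x, ψ x ≤ c0 - b / 2 * Tcut R x ^ 2) → QLow ε R q → ∀ d : ℝ, 0 < d → ∀ k : ℕ → ℕ, Small k →
    Tendsto (fun N : ℕ => (patternLawMix N α ε) {A : Patterns N α |
      Real.exp (N * (eHigh α b c0 q C s + 1 / 2 * Real.log s + d)) <
        ∫ y in highSet N (k N) s, Real.exp (expo (fun _ : Fin (numPatterns N α) => ψ) sv A y) ∂uS N})
      atTop (𝓝 0) := by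
  obtain ⟨C, hC, hmain⟩ := high_energy αm hαm
  refine ⟨C, hC, ?_⟩
  intro α ε s hα hααm hε0 hε1 hs hs1 ψ hψm K hK b c0 R q hb hR hq hψ hQ d hd k hk
  have h1 := hmain α ε s hα hααm hε0 hε1 hs hs1 ψ b c0 R q hb hR hq hψ hQ (d / 2) (by positivity)
    k hk
  refine tendsto_of_tendsto_of_tendsto_of_le_of_le' tendsto_const_nhds h1
    (Eventually.of_forall fun _ => zero_le) ?_
  filter_upwards [high_vol hk s (d / 2) hs hs1 (by positivity)] with N hN
  refine measure_mono ?_
  intro A hA
  by_contra hcon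
  have hle : ∀ y ∈ highSet N (k N) s, expo (fun _ : Fin (numPatterns N α) => ψ) sv A y ≤
      N * (eHigh α b c0 q C s + d / 2) := by
    intro y hy
    by_contra h
    exact hcon ⟨y, hy, not_le.1 h⟩
  have hint : Integrable (fun y : UnitSphere N =>
      Real.exp (expo (fun _ : Fin (numPatterns N α) => ψ) sv A y)) (uS N) :=
    Crest.Agent.R146L878.integrable_exp_expo (fun _ => hψm)
      (fun _ x => (le_abs_self _).trans (hK x)) (uS N) measurable_sv A
  have h2 : ∫ y in highSet N (k N) s,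
      Real.exp (expo (fun _ : Fin (numPatterns N α) => ψ) sv A y) ∂uS N ≤
      Real.exp (N * (eHigh α b c0 q C s + d / 2)) * (uS N).real (highSet N (k N) s) := by
    calc _ ≤ ∫ _y in highSet N (k N) s, Real.exp (N * (eHigh α b c0 q C s + d / 2)) ∂uS N :=
          setIntegral_mono_on hint.integrableOn (integrable_const _).integrableOn
            (measurableSet_highSet _ _ _) fun y hy => Real.exp_le_exp.2 (hle y hy)
      _ = _ := by
          rw [setIntegral_const, smul_eq_mul, mul_comm]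
  have h3 : Real.exp (N * (eHigh α b c0 q C s + d / 2)) * (uS N).real (highSet N (k N) s) ≤
      Real.exp (N * (eHigh α b c0 q C s + 1 / 2 * Real.log s + d)) := by
    calc _ ≤ Real.exp (N * (eHigh α b c0 q C s + d / 2)) *
          Real.exp (N * (1 / 2 * Real.log s + d / 2)) := by gcongr
      _ = _ := by
          rw [← Real.exp_add]
          congr 1
          ring
  have hA' : Real.exp (N * (eHigh α b c0 q C s + 1 / 2 * Real.log s + d)) <
        ∫ y in highSet N (k N) s,
          Real.exp (expo (fun _ : Fin (numPatterns N α) => ψ) sv A y) ∂uS N := hA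
  linarith

end

end Crest.Agent.R146.LocHigh_840
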