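import Crest.Agent.R146.LocDet_508
import Crest.Agent.R146.LindD_846
import Crest.Agent.R146.S6Lit_663
import Crest.Agent.R146.LindLB2_878
import Crest.Agent.R146.Wrap_947

/-!
Row 146, node LOCCORE, helper878: the upper bound for one fixed localised part.

Rows are split as `(X, G)`: `X : Fin M × κ → ℝ` (localised coordinates, direction and mass in
`u : κ → ℝ`), `G : Fin M × Fin n → ℝ` (the rest).  Lindeberg on the rest over the delocalised part of
the small sphere, the Gaussian upper bound `UB` with the row functions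
`ψ (∑ u_i X(a,i) + √(1-μ) x)`, average over `X`.
-/

set_option autoImplicit false

open MeasureTheory ProbabilityTheory Set Filter
open scoped Topology

namespace Crest.Agent.R146L878

open Crest.Agent.R146.LocRec_508 Crest.Agent.R146.LocDet_508 Crest.Agent.R146.P34_734
open Crest.Agent.R146.S6Def_988
open Crest.Agent.R146.PressC_663 (uSph crd measurable_crd isProb_uSph)
open Crest.Agent.R146.LindC_846 (Setup field)
open Crest.ProbabilityR.Perceptron

variable {κ : Type} [Fintype κ] {n M : ℕ}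

/-- shift of the row `a` -/
noncomputable def cL (u : κ → ℝ) (X : Fin M × κ → ℝ) (a : Fin M) : ℝ := ∑ i, u i * X (a, i)

/-- log partition function of the rest with shifts `c a` and scale `r`. -/
noncomputable def Fc (ρm : Measure (UnitSphere n)) (ψ : ℝ → ℝ) (r : ℝ) (c : Fin M → ℝ)
    (G : Fin M × Fin n → ℝ) : ℝ :=
  Real.log (∫ w, Real.exp (∑ a, ψ (c a + r * ∑ j, G (a, j) * crd n w j)) ∂ρm)

theorem Fc_uSph (ψ : ℝ → ℝ) (r : ℝ) (c : Fin M → ℝ) (G : Fin M × Fin n → ℝ) :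
    Fc (uSph n) ψ r c G = Crest.Agent.R146.PressC_663.logZ (uSph n) (crd n) (fun a x => ψ (c a + r * x)) G := rfl

theorem sv_eq_crd (w : UnitSphere n) : sv w = crd n w := rfl

section fixed

variable {ψ : ℝ → ℝ} {K0 : ℝ}

theorem measurable_Fc_exp (hψ : Measurable ψ) (r : ℝ) (c : Fin M → ℝ) (G : Fin M × Fin n → ℝ) :
    Measurable fun w : UnitSphere n =>
      Real.exp (∑ a, ψ (c a + r * ∑ j, G (a, j) * crd n w j)) := by
  refine Real.measurable_exp.comp (Finset.measurable_fun_sum _ fun a _ => hψ.comp ?_)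
  refine (measurable_const.add ((Finset.measurable_fun_sum _ fun j _ => ?_).const_mul r))
  exact ((measurable_pi_apply j).comp (measurable_crd n)).const_mul _

theorem Fc_sum_le (hK0 : ∀ x, |ψ x| ≤ K0) (r : ℝ) (c : Fin M → ℝ) (G : Fin M × Fin n → ℝ)
    (w : UnitSphere n) : |∑ a, ψ (c a + r * ∑ j, G (a, j) * crd n w j)| ≤ M * K0 := by
  refine (Finset.abs_sum_le_sum_abs _ _).trans ((Finset.sum_le_sum fun a _ => hK0 _).trans ?_)
  simp

theorem integrable_Fc_exp (hψ : Measurable ψ) (hK0 : ∀ x, |ψ x| ≤ K0) (ρm : Measure (UnitSphere n))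
    [IsFiniteMeasure ρm] (r : ℝ) (c : Fin M → ℝ) (G : Fin M × Fin n → ℝ) :
    Integrable (fun w : UnitSphere n =>
      Real.exp (∑ a, ψ (c a + r * ∑ j, G (a, j) * crd n w j))) ρm := by
  refine Integrable.of_bound (C := Real.exp (M * K0))
    (measurable_Fc_exp hψ r c G).aestronglyMeasurable (Eventually.of_forall fun w => ?_)
  rw [Real.norm_eq_abs, abs_of_pos (Real.exp_pos _)]
  exact Real.exp_le_exp.2 ((le_abs_self _).trans (Fc_sum_le hK0 r c G w))

/-- the delocalised part of the small sphere -/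
noncomputable abbrev uD (n : ℕ) (ρ : ℝ) : Measure (UnitSphere n) := (uSph n).restrict (DD n ρ)

theorem Fc_restrict_le (hn : 0 < n) (hψ : Measurable ψ) (hK0 : ∀ x, |ψ x| ≤ K0) {ρ : ℝ}
    (hD : uSph n (DD n ρ) ≠ 0) (r : ℝ) (c : Fin M → ℝ) (G : Fin M × Fin n → ℝ) :
    Fc (uD n ρ) ψ r c G ≤ Fc (uSph n) ψ r c G := by
  have := isProb_uSph hn
  unfold Fc
  have hi := integrable_Fc_exp hψ hK0 (uSph n) r c G
  have hi' := integrable_Fc_exp hψ hK0 (uD n ρ) r c G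
  refine Real.log_le_log ?_ ?_
  · have hlow : ∀ w : UnitSphere n, Real.exp (-(M * K0)) ≤
        Real.exp (∑ a, ψ (c a + r * ∑ j, G (a, j) * crd n w j)) := fun w =>
      Real.exp_le_exp.2 (neg_le_of_abs_le (Fc_sum_le hK0 r c G w))
    have h := integral_mono (integrable_const _) hi' hlow
    rw [integral_const, smul_eq_mul] at h
    refine lt_of_lt_of_le (mul_pos ?_ (Real.exp_pos _)) h
    rw [Measure.real, Measure.restrict_apply_univ]
    exact ENNReal.toReal_pos hD (measure_ne_top _ _)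
  · exact setIntegral_le_integral hi (Eventually.of_forall fun w => (Real.exp_pos _).le)

/-- clipped coordinates -/
noncomputable def tc (r ρ : ℝ) (j : Fin n) (w : UnitSphere n) : ℝ :=
  if |crd n w j| ≤ ρ then r * crd n w j else 0

theorem measurable_tc (r ρ : ℝ) (j : Fin n) : Measurable (tc (n := n) r ρ j) := by
  unfold tc
  have h : Measurable fun w : UnitSphere n => crd n w j :=
    (measurable_pi_apply j).comp (measurable_crd n)
  exact Measurable.ite (measurableSet_le h.abs measurable_const) (h.const_mul r) measurable_const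

theorem abs_tc_le {r ρ : ℝ} (hρ : 0 ≤ ρ) (j : Fin n) (w : UnitSphere n) :
    |tc r ρ j w| ≤ |r| * ρ := by
  unfold tc
  split_ifs with h
  · rw [abs_mul]; exact mul_le_mul_of_nonneg_left h (abs_nonneg r)
  · rw [abs_zero]; positivity

theorem Fc_eq_logZ (r ρ : ℝ) (c : Fin M → ℝ) (G : Fin M × Fin n → ℝ) :
    Fc (uD n ρ) ψ r c G =
      Crest.Agent.R146.LindC_846.logZ (uD n ρ) (fun _ : Fin M => ψ) (fun a _ => c a) (tc r ρ) G := by
  unfold Fc Crest.Agent.R146.LindC_846.logZ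
  congr 1
  refine setIntegral_congr_fun (measurableSet_DD ρ) fun w hw => ?_
  simp only
  congr 1
  refine Finset.sum_congr rfl fun a _ => ?_
  congr 1
  unfold field
  congr 1
  rw [Finset.mul_sum]
  refine Finset.sum_congr rfl fun j _ => ?_
  have h : |crd n w j| ≤ ρ := hw j
  unfold tc
  rw [if_pos h]
  ring

variable {Kp : ℝ}

theorem setup (hn : 0 < n) {ρ : ℝ} (hD : uSph n (DD n ρ) ≠ 0) (hρ : 0 ≤ ρ)
    (hp : Crest.Agent.R146.LindA_846.IsPot Kp ψ) (hK0 : ∀ x, |ψ x| ≤ K0) (r : ℝ) (c : Fin M → ℝ) :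
    Setup (uD n ρ) Kp K0 (|r| * ρ) (fun _ : Fin M => ψ) (fun a _ => c a) (tc r ρ) := by
  have := isProb_uSph hn
  refine ⟨inferInstance, ⟨?_⟩, fun _ => hp, fun _ x => (le_abs_self _).trans (hK0 x),
    fun _ => measurable_const, measurable_tc r ρ, by positivity, fun j w => abs_tc_le hρ j w⟩
  intro h
  apply hD
  have := congrArg (fun m => m univ) h
  simpa [Measure.restrict_apply_univ] using this

/-- Lindeberg error -/
noncomputable def errL (Kp : ℝ) (M n : ℕ) (r ρ : ℝ) : ℝ :=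
  M * n * (52 * Crest.Agent.R146.LindA_846.cK Kp ^ 4 * (|r| * ρ) ^ 4 * Crest.Agent.R146.LindD_846.m4c)

/-- Lindeberg on the rest -/
theorem lind_rest (hn : 0 < n) {ρ : ℝ} (hD : uSph n (DD n ρ) ≠ 0) (hρ : 0 ≤ ρ)
    (hp : Crest.Agent.R146.LindA_846.IsPot Kp ψ) (hK0 : ∀ x, |ψ x| ≤ K0) (r : ℝ) (c : Fin M → ℝ) {ε : ℝ}
    (h0 : 0 ≤ ε) (h1 : ε ≤ 1) :
    ∫ G, Fc (uD n ρ) ψ r c G ∂(Measure.pi fun _ : Fin M × Fin n => mixtureLaw ε) ≤
      ∫ G, Fc (uD n ρ) ψ r c G ∂(Measure.pi fun _ : Fin M × Fin n => gaussianReal 0 1) +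
        errL Kp M n r ρ := by
  have h := Crest.Agent.R146.LindD_846.lindeberg_mix (setup hn hD hρ hp hK0 r c) h0 h1
  simp only [← Fc_eq_logZ, Fintype.card_fin] at h
  have := (abs_le.1 h).2
  unfold errL
  linarith

/-- the row functions -/
noncomputable def fr (ψ : ℝ → ℝ) (r : ℝ) (c : Fin M → ℝ) (a : ℕ) (x : ℝ) : ℝ :=
  ψ ((if h : a < M then c ⟨a, h⟩ else 0) + r * x)

omit [Fintype κ] in
theorem fr_coe (r : ℝ) (c : Fin M → ℝ) (a : Fin M) :
    fr ψ r c (a : ℕ) = fun x => ψ (c a + r * x) := by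
  funext x
  unfold fr
  rw [dif_pos a.2]

theorem fr_BL (hK0 : ∀ x, |ψ x| ≤ K0) {L : ℝ} (hL0 : 0 ≤ L)
    (hL : ∀ x y, |ψ x - ψ y| ≤ L * |x - y|) {r : ℝ} (hr : |r| ≤ 1) (c : Fin M → ℝ) (a : ℕ) :
    BL K0 L (fr ψ r c a) := by
  refine ⟨fun x => hK0 _, fun x y => ?_⟩
  unfold fr
  refine (hL _ _).trans (mul_le_mul_of_nonneg_left ?_ hL0)
  rw [show ∀ z : ℝ, z + r * x - (z + r * y) = r * (x - y) by intro z; ring, abs_mul]
  calc |r| * |x - y| ≤ 1 * |x - y| := mul_le_mul_of_nonneg_right hr (abs_nonneg _)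
    _ = |x - y| := one_mul _

theorem integral_gauss_Fc (hn : 0 < n) (r : ℝ) (c : Fin M → ℝ) :
    ∫ G, Fc (uSph n) ψ r c G ∂(Measure.pi fun _ : Fin M × Fin n => gaussianReal 0 1) =
      n * pN n (fr ψ r c) M := by
  have hn' : (n : ℝ) ≠ 0 := by exact_mod_cast hn.ne'
  rw [Crest.Agent.R146.S6Lit_663.pN_eq, ← mul_assoc, mul_inv_cancel₀ hn', one_mul]
  refine integral_congr_ae (Eventually.of_forall fun G => ?_)
  simp only [Fc_uSph, fr_coe]

theorem abs_Fc_le (hψ : Measurable ψ) (hK0 : ∀ x, |ψ x| ≤ K0) (ρm : Measure (UnitSphere n))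
    [IsFiniteMeasure ρm] (hρm : 0 < ρm.real univ) (r : ℝ) (c : Fin M → ℝ) (G : Fin M × Fin n → ℝ) :
    |Fc ρm ψ r c G| ≤ M * K0 + |Real.log (ρm.real univ)| := by
  have hi := integrable_Fc_exp hψ hK0 ρm r c G
  have h1 := integral_mono (integrable_const _) hi fun w =>
    Real.exp_le_exp.2 (neg_le_of_abs_le (Fc_sum_le hK0 r c G w))
  have h2 := integral_mono hi (integrable_const _) fun w =>
    Real.exp_le_exp.2 (le_of_abs_le (Fc_sum_le hK0 r c G w))
  rw [integral_const, smul_eq_mul] at h1 h2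
  have hpos : 0 < ∫ w, Real.exp (∑ a, ψ (c a + r * ∑ j, G (a, j) * crd n w j)) ∂ρm :=
    lt_of_lt_of_le (mul_pos hρm (Real.exp_pos _)) h1
  have e1 := Real.log_le_log (mul_pos hρm (Real.exp_pos _)) h1
  have e2 := Real.log_le_log hpos h2
  rw [Real.log_mul hρm.ne' (Real.exp_pos _).ne', Real.log_exp] at e1 e2
  unfold Fc
  rw [abs_le]
  have a1 := neg_abs_le (Real.log (ρm.real univ))
  have a2 := le_abs_self (Real.log (ρm.real univ))
  constructor <;> linarith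

/-- joint measurability -/
theorem measurable_Fc (hψ : Measurable ψ) (ρm : Measure (UnitSphere n)) [IsFiniteMeasure ρm]
    (r : ℝ) : Measurable fun p : (Fin M → ℝ) × (Fin M × Fin n → ℝ) => Fc ρm ψ r p.1 p.2 := by
  unfold Fc
  refine Real.measurable_log.comp ?_
  have h : Measurable fun p : ((Fin M → ℝ) × (Fin M × Fin n → ℝ)) × UnitSphere n =>
      Real.exp (∑ a, ψ (p.1.1 a + r * ∑ j, p.1.2 (a, j) * crd n p.2 j)) := by
    refine Real.measurable_exp.comp (Finset.measurable_fun_sum _ fun a _ => hψ.comp ?_)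
    refine ((measurable_pi_apply a).comp (measurable_fst.comp measurable_fst)).add
      ((Finset.measurable_fun_sum _ fun j _ => ?_).const_mul r)
    exact ((measurable_pi_apply (a, j)).comp (measurable_snd.comp measurable_fst)).mul
      ((measurable_pi_apply j).comp ((measurable_crd n).comp measurable_snd))
  exact (h.stronglyMeasurable.integral_prod_right' (ν := ρm)).measurable

theorem integrable_Fc (hψ : Measurable ψ) (hK0 : ∀ x, |ψ x| ≤ K0) (ρm : Measure (UnitSphere n))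
    [IsFiniteMeasure ρm] (hρm : 0 < ρm.real univ) (r : ℝ) (c : Fin M → ℝ)
    (Q : Measure (Fin M × Fin n → ℝ)) [IsFiniteMeasure Q] : Integrable (Fc ρm ψ r c) Q := by
  refine Integrable.of_bound (C := M * K0 + |Real.log (ρm.real univ)|) ?_
    (Eventually.of_forall fun G => abs_Fc_le hψ hK0 ρm hρm r c G)
  exact ((measurable_Fc hψ ρm r).comp (measurable_const.prodMk measurable_id)).aestronglyMeasurable

theorem uD_real_pos (hn : 0 < n) {ρ : ℝ} (hD : uSph n (DD n ρ) ≠ 0) : 0 < (uD n ρ).real univ := by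
  have := isProb_uSph hn
  rw [Measure.real, Measure.restrict_apply_univ]
  exact ENNReal.toReal_pos hD (measure_ne_top _ _)

/-- **fixed shifts** -/
theorem fixedX (hn : 0 < n) {ρ : ℝ} (hD : uSph n (DD n ρ) ≠ 0) (hρ : 0 ≤ ρ)
    (hp : Crest.Agent.R146.LindA_846.IsPot Kp ψ) (hψ : Measurable ψ) (hK0 : ∀ x, |ψ x| ≤ K0)
    {L : ℝ} (hL0 : 0 ≤ L) (hL : ∀ x y, |ψ x - ψ y| ≤ L * |x - y|) {r : ℝ} (hr : |r| ≤ 1)
    {J : ℕ} {Q : ℕ → ℝ} {ε' : ℝ}
    (hUB : ∀ f : ℕ → ℝ → ℝ, (∀ a, BL K0 L (f a)) →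
      pN n f M ≤ (n : ℝ)⁻¹ * ∑ a ∈ Finset.range M, Th J (f a) Q + SP J Q + ε')
    (c : Fin M → ℝ) {ε : ℝ} (h0 : 0 ≤ ε) (h1 : ε ≤ 1) :
    ∫ G, Fc (uD n ρ) ψ r c G ∂(Measure.pi fun _ : Fin M × Fin n => mixtureLaw ε) ≤
      ∑ a : Fin M, Th J (fun x => ψ (c a + r * x)) Q + n * (SP J Q + ε') + errL Kp M n r ρ := by
  have hn' : (n : ℝ) ≠ 0 := by exact_mod_cast hn.ne'
  have hn0 : (0 : ℝ) < n := by exact_mod_cast hn
  have := isProb_uSph hn
  have e1 := lind_rest hn hD hρ hp hK0 r c h0 h1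
  have e2 : ∫ G, Fc (uD n ρ) ψ r c G ∂(Measure.pi fun _ : Fin M × Fin n => gaussianReal 0 1) ≤
      ∫ G, Fc (uSph n) ψ r c G ∂(Measure.pi fun _ : Fin M × Fin n => gaussianReal 0 1) :=
    integral_mono (integrable_Fc hψ hK0 _ (uD_real_pos hn hD) r c _)
      (integrable_Fc hψ hK0 _ (by rw [probReal_univ]; exact one_pos) r c _)
      fun G => Fc_restrict_le hn hψ hK0 hD r c G
  rw [integral_gauss_Fc hn] at e2
  have e3 := hUB (fr ψ r c) (fr_BL hK0 hL0 hL hr c)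
  have e4 : (n : ℝ) * pN n (fr ψ r c) M ≤
      ∑ a : Fin M, Th J (fun x => ψ (c a + r * x)) Q + n * (SP J Q + ε') := by
    have := mul_le_mul_of_nonneg_left e3 hn0.le
    refine this.trans (le_of_eq ?_)
    rw [mul_add, mul_add, ← mul_assoc, mul_inv_cancel₀ hn', one_mul, Finset.sum_range]
    simp only [fr_coe]
    ring
  linarith

/-- **averaged over the localised coordinates** -/
theorem avgX (hn : 0 < n) {ρ : ℝ} (hD : uSph n (DD n ρ) ≠ 0) (hρ : 0 ≤ ρ)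
    (hp : Crest.Agent.R146.LindA_846.IsPot Kp ψ) (hψ : Measurable ψ) (hK0 : ∀ x, |ψ x| ≤ K0)
    {L : ℝ} (hL0 : 0 ≤ L) (hL : ∀ x y, |ψ x - ψ y| ≤ L * |x - y|) {r : ℝ} (hr : |r| ≤ 1)
    {J : ℕ} {Q : ℕ → ℝ} {ε' : ℝ}
    (hUB : ∀ f : ℕ → ℝ → ℝ, (∀ a, BL K0 L (f a)) →
      pN n f M ≤ (n : ℝ)⁻¹ * ∑ a ∈ Finset.range M, Th J (f a) Q + SP J Q + ε')
    {F : ℝ → ℝ} {KF : ℝ} (hF : BC F KF) (hFT : ∀ c, Th J (fun x => ψ (c + r * x)) Q = F c)
    (u : κ → ℝ) {ε : ℝ} (h0 : 0 ≤ ε) (h1 : ε ≤ 1) :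
    ∫ X, (∫ G, Fc (uD n ρ) ψ r (cL u X) G ∂(Measure.pi fun _ : Fin M × Fin n => mixtureLaw ε))
        ∂(Measure.pi fun _ : Fin M × κ => mixtureLaw ε) ≤
      M * (∫ x, Th J (fun z => ψ (∑ i, u i * x i + r * z)) Q
        ∂(Measure.pi fun _ : κ => mixtureLaw ε)) + n * (SP J Q + ε') + errL Kp M n r ρ := by
  have := isProb_uSph hn
  have : IsProbabilityMeasure (mixtureLaw ε) := isProb_mixtureLaw ε
  have hcm : Measurable fun X : Fin M × κ → ℝ => cL u X := by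
    refine measurable_pi_lambda _ fun a => ?_
    unfold cL
    exact Finset.measurable_fun_sum _ fun i _ => (measurable_pi_apply (a, i)).const_mul _
  have hFm : ∀ a : Fin M, Measurable fun X : Fin M × κ → ℝ => F (cL u X a) := fun a =>
    hF.cont.measurable.comp ((measurable_pi_apply a).comp hcm)
  have hFi : ∀ a : Fin M, Integrable (fun X : Fin M × κ → ℝ => F (cL u X a))
      (Measure.pi fun _ : Fin M × κ => mixtureLaw ε) := fun a =>
    Integrable.of_bound (hFm a).aestronglyMeasurable KF (Eventually.of_forall fun X => hF.bd _)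
  have hpt : ∀ X : Fin M × κ → ℝ,
      ∫ G, Fc (uD n ρ) ψ r (cL u X) G ∂(Measure.pi fun _ : Fin M × Fin n => mixtureLaw ε) ≤
        ∑ a : Fin M, F (cL u X a) + (n * (SP J Q + ε') + errL Kp M n r ρ) := by
    intro X
    have := fixedX hn hD hρ hp hψ hK0 hL0 hL hr hUB (cL u X) h0 h1
    simp only [hFT] at this
    linarith
  have hmeas : Measurable fun X : Fin M × κ → ℝ =>
      ∫ G, Fc (uD n ρ) ψ r (cL u X) G ∂(Measure.pi fun _ : Fin M × Fin n => mixtureLaw ε) := by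
    have h : Measurable fun p : (Fin M × κ → ℝ) × (Fin M × Fin n → ℝ) =>
        Fc (uD n ρ) ψ r (cL u p.1) p.2 :=
      (measurable_Fc hψ (uD n ρ) r).comp ((hcm.comp measurable_fst).prodMk measurable_snd)
    exact (h.stronglyMeasurable.integral_prod_right'
      (ν := Measure.pi fun _ : Fin M × Fin n => mixtureLaw ε)).measurable
  have hint : Integrable (fun X : Fin M × κ → ℝ =>
      ∫ G, Fc (uD n ρ) ψ r (cL u X) G ∂(Measure.pi fun _ : Fin M × Fin n => mixtureLaw ε))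
      (Measure.pi fun _ : Fin M × κ => mixtureLaw ε) := by
    refine Integrable.of_bound hmeas.aestronglyMeasurable
      (M * K0 + |Real.log ((uD n ρ).real univ)|) (Eventually.of_forall fun X => ?_)
    have h := norm_integral_le_of_norm_le_const
      (μ := Measure.pi fun _ : Fin M × Fin n => mixtureLaw ε)
      (f := fun G => Fc (uD n ρ) ψ r (cL u X) G) (C := M * K0 + |Real.log ((uD n ρ).real univ)|)
      (Eventually.of_forall fun G => abs_Fc_le hψ hK0 _ (uD_real_pos hn hD) r (cL u X) G)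
    rwa [probReal_univ (μ := Measure.pi fun _ : Fin M × Fin n => mixtureLaw ε), mul_one] at h
  have hsum : Integrable (fun X : Fin M × κ → ℝ => ∑ a : Fin M, F (cL u X a))
      (Measure.pi fun _ : Fin M × κ => mixtureLaw ε) := integrable_finsetSum _ fun a _ => hFi a
  refine (integral_mono hint (hsum.add (integrable_const _)) hpt).trans (le_of_eq ?_)
  rw [integral_add' hsum (integrable_const _), integral_const, probReal_univ, one_smul,
    integral_finsetSum _ fun a _ => hFi a]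
  have hone : ∀ a : Fin M, ∫ X, F (cL u X a) ∂(Measure.pi fun _ : Fin M × κ => mixtureLaw ε) =
      ∫ x, F (∑ i, u i * x i) ∂(Measure.pi fun _ : κ => mixtureLaw ε) := by
    intro a
    have h := Crest.Agent.R141.U.integral_curry (ι := Fin M) (κ := κ) (mixtureLaw ε)
      (fun y => F (∑ i, u i * y a i))
    have h2 : ∫ X, F (cL u X a) ∂(Measure.pi fun _ : Fin M × κ => mixtureLaw ε) =
        ∫ y, F (∑ i, u i * y a i)
          ∂(Measure.pi fun _ : Fin M => Measure.pi fun _ : κ => mixtureLaw ε) := h.symm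
    rw [h2]
    have hm : Measurable fun x : κ → ℝ => F (∑ i, u i * x i) :=
      hF.cont.measurable.comp (Finset.measurable_fun_sum _ fun i _ =>
        (measurable_pi_apply i).const_mul _)
    exact integral_comp_eval (μ := fun _ : Fin M => Measure.pi fun _ : κ => mixtureLaw ε)
      (i := a) hm.aestronglyMeasurable
  simp only [hone, hFT, Finset.sum_const, Finset.card_univ, Fintype.card_fin, nsmul_eq_mul]
  ring

end fixed

/-! ### asymptotic form -/

theorem Test.isPot {ψ : ℝ → ℝ} (h : Test ψ) : ∃ Kp, Crest.Agent.R146.LindA_846.IsPot Kp ψ := by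
  obtain ⟨C1, h1⟩ := h.bd 1
  obtain ⟨C2, h2⟩ := h.bd 2
  obtain ⟨C3, h3⟩ := h.bd 3
  obtain ⟨C4, h4⟩ := h.bd 4
  refine ⟨max (max C1 C2) (max C3 C4), Crest.Agent.R146.LindA_846.IsPot.of_contDiff (h.smooth 4) ?_⟩
  intro k hk1 hk4 x
  interval_cases k
  · exact (h1 x).trans ((le_max_left _ _).trans (le_max_left _ _))
  · exact (h2 x).trans ((le_max_right _ _).trans (le_max_left _ _))
  · exact (h3 x).trans ((le_max_left _ _).trans (le_max_right _ _))
  · exact (h4 x).trans ((le_max_right _ _).trans (le_max_right _ _))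

/-- the value of the rest as a function of the shift -/
theorem Th_rest_BC {J : ℕ} {P : ℕ → ℝ} {μ : ℝ} (hμ0 : 0 ≤ μ) (hμ1 : μ < 1) {ψ : ℝ → ℝ} {K : ℝ}
    (hψ : BC ψ K) : ∃ F : ℝ → ℝ, BC F K ∧
      ∀ c, Th J (fun x => ψ (c + Real.sqrt (1 - μ) * x)) (Pr μ P) = F c :=
  ⟨_, recV_BC hψ _ _ _ (ex_nonneg J) _, fun c => Th_rest hμ0 hμ1 ψ c⟩

/-- **(L1)** the upper bound for one fixed localised part, uniformly in it. -/
theorem L1_asym (hUB : Crest.Agent.R146.S6U_988.UB) {ψ : ℝ → ℝ} (hψ : Test ψ) (αm : ℝ) {δ : ℝ}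
    (hδ : 0 < δ) : ∃ J0 : ℕ, ∀ J, J0 ≤ J → ∀ P : ℕ → ℝ, Lev J P → P J < 1 → ∀ μ : ℝ, 0 ≤ μ → μ < 1 →
    ∃ n0 : ℕ, ∃ η : ℝ, 0 < η ∧ ∀ n, n0 ≤ n → ∀ M : ℕ, (M : ℝ) ≤ αm * n → ∀ ρ : ℝ, 0 ≤ ρ →
      n * ρ ^ 4 ≤ η → uSph n (DD n ρ) ≠ 0 → ∀ (κ : Type) [Fintype κ] (u : κ → ℝ) (ε : ℝ), 0 ≤ ε →
      ε ≤ 1 →
      ∫ X, (∫ G, Fc (uD n ρ) ψ (Real.sqrt (1 - μ)) (cL u X) G
          ∂(Measure.pi fun _ : Fin M × Fin n => mixtureLaw ε))
          ∂(Measure.pi fun _ : Fin M × κ => mixtureLaw ε) ≤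
        M * (∫ x, Th J (fun z => ψ (∑ i, u i * x i + Real.sqrt (1 - μ) * z)) (Pr μ P)
          ∂(Measure.pi fun _ : κ => mixtureLaw ε)) + n * (SP J (Pr μ P) + δ) := by
  obtain ⟨K, hK⟩ := Test_bdd hψ
  obtain ⟨L, hL0, hL⟩ := Test_lip hψ
  obtain ⟨Kp, hKp⟩ := Test.isPot hψ
  obtain ⟨J0, hJ0⟩ := hUB K L αm (δ / 2) (half_pos hδ)
  refine ⟨J0, fun J hJ P hP hP1 μ hμ0 hμ1 => ?_⟩
  obtain ⟨N0, hN0⟩ := hJ0 J hJ (Pr μ P) (lev_Pr hP hμ1 hμ0) (Pr_lt_one hP1 hμ1)
  have hm4 : 0 ≤ Crest.Agent.R146.LindD_846.m4c := by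
    unfold Crest.Agent.R146.LindD_846.m4c; positivity
  set C0 : ℝ := 52 * Crest.Agent.R146.LindA_846.cK Kp ^ 4 * Crest.Agent.R146.LindD_846.m4c with hC0
  have hC00 : 0 ≤ C0 := by positivity
  refine ⟨max N0 1, δ / (2 * (|αm| * C0 + 1)), by positivity, ?_⟩
  intro n hn M hM ρ hρ hρη hD κ _ u ε h0 h1
  have hn1 : 0 < n := lt_of_lt_of_le one_pos ((le_max_right _ _).trans hn)
  have hn0 : (0 : ℝ) < n := by exact_mod_cast hn1
  obtain ⟨F, hF, hFT⟩ := Th_rest_BC (J := J) (P := P) hμ0 hμ1 (ψ := ψ) (K := K) ⟨Test_cont hψ, hK⟩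
  have hr : |Real.sqrt (1 - μ)| ≤ 1 := by
    rw [abs_of_nonneg (Real.sqrt_nonneg _)]
    exact Real.sqrt_le_one.2 (by linarith)
  have key := avgX hn1 hD hρ hKp (Test_cont hψ).measurable hK hL0 hL hr
    (fun f hf => hN0 n ((le_max_left _ _).trans hn) M hM f hf) hF hFT u h0 h1
  have herr : errL Kp M n (Real.sqrt (1 - μ)) ρ ≤ n * (δ / 2) := by
    unfold errL
    have hr4 : (|Real.sqrt (1 - μ)| * ρ) ^ 4 ≤ ρ ^ 4 := by
      refine pow_le_pow_left₀ (by positivity) ?_ 4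
      calc |Real.sqrt (1 - μ)| * ρ ≤ 1 * ρ := mul_le_mul_of_nonneg_right hr hρ
        _ = ρ := one_mul _
    have hM2 : (M : ℝ) ≤ |αm| * n := hM.trans (mul_le_mul_of_nonneg_right (le_abs_self _) hn0.le)
    have hρ4 : 0 ≤ ρ ^ 4 := by positivity
    have s1 : (M : ℝ) * n * (52 * Crest.Agent.R146.LindA_846.cK Kp ^ 4 *
        (|Real.sqrt (1 - μ)| * ρ) ^ 4 * Crest.Agent.R146.LindD_846.m4c) ≤
        (|αm| * n) * n * (C0 * ρ ^ 4) := by
      have t1 : 52 * Crest.Agent.R146.LindA_846.cK Kp ^ 4 *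
        (|Real.sqrt (1 - μ)| * ρ) ^ 4 * Crest.Agent.R146.LindD_846.m4c ≤ C0 * ρ ^ 4 := by
        rw [hC0]
        nlinarith [mul_le_mul_of_nonneg_left hr4 hC00]
      exact mul_le_mul (mul_le_mul_of_nonneg_right hM2 hn0.le) t1 (by positivity) (by positivity)
    refine s1.trans ?_
    have hden : 0 < |αm| * C0 + 1 := by positivity
    have s2 : |αm| * C0 * (n * ρ ^ 4) ≤ |αm| * C0 * (δ / (2 * (|αm| * C0 + 1))) :=
      mul_le_mul_of_nonneg_left hρη (by positivity)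
    have s3 : |αm| * C0 * (δ / (2 * (|αm| * C0 + 1))) ≤ δ / 2 := by
      rw [mul_div_assoc', div_le_div_iff₀ (by positivity) (by norm_num)]
      nlinarith [hden, hδ]
    nlinarith [mul_le_mul_of_nonneg_left (s2.trans s3) hn0.le]
  have : (n : ℝ) * (SP J (Pr μ P) + δ) = n * (SP J (Pr μ P) + δ / 2) + n * (δ / 2) := by ring
  linarith

/-- **(LOW)** one fixed localised part, with the deterministic inequality `low_ineq`. -/
theorem low_bound (hUB : Crest.Agent.R146.S6U_988.UB) {ψ : ℝ → ℝ} (hψ : Test ψ) {b0 : ℝ}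
    (hb0 : 0 ≤ b0) (hlo : MidLo b0 ψ) (hhi : MidHi (1 / 2) ψ) {α : ℝ} (hα : 0 < α) {δ : ℝ}
    (hδ : 0 < δ) : ∃ J0 : ℕ, ∀ J, J0 ≤ J → ∀ P : ℕ → ℝ, Lev J P → P J < 1 → ∀ μ : ℝ, 0 ≤ μ → μ < 1 →
    ∃ N0 : ℕ, ∃ η : ℝ, 0 < η ∧ ∀ N, N0 ≤ N → ∀ n, N ≤ 2 * n → n ≤ N → ∀ ρ : ℝ, 0 ≤ ρ →
      N * ρ ^ 4 ≤ η → uSph n (DD n ρ) ≠ 0 → ∀ (κ : Type) [Fintype κ] (u : κ → ℝ),
      ∑ i, u i ^ 2 = μ → ∀ ε : ℝ, 0 ≤ ε → ε ≤ 1 → α * ε ≤ 1 - μ →
      ∫ X, (∫ G, Fc (uD n ρ) ψ (Real.sqrt (1 - μ)) (cL u X) G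
          ∂(Measure.pi fun _ : Fin (numPatterns N α) × Fin n => mixtureLaw ε))
          ∂(Measure.pi fun _ : Fin (numPatterns N α) × κ => mixtureLaw ε) ≤
        N * (α * Th J ψ P + SP J P - 1 / 2 * Real.log (1 - μ) + δ) := by
  obtain ⟨K, hK⟩ := Test_bdd hψ
  have hK0 : 0 ≤ K := (abs_nonneg _).trans (hK 0)
  obtain ⟨J0, hJ0⟩ := L1_asym hUB hψ (2 * α) (half_pos hδ)
  refine ⟨J0, fun J hJ P hP hP1 μ hμ0 hμ1 => ?_⟩
  obtain ⟨n0, η, hη, hn0⟩ := hJ0 J hJ P hP hP1 μ hμ0 hμ1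
  obtain ⟨N1, hN1⟩ := exists_nat_gt (2 * K / δ)
  refine ⟨max (2 * n0) (max N1 1), η, hη, ?_⟩
  intro N hN n hn1 hn2 ρ hρ hρη hD κ _ u hu ε h0 h1 hαε
  have hN1' : 1 ≤ N := (le_max_right _ _).trans ((le_max_right _ _).trans hN)
  have hNpos : (0 : ℝ) < N := by exact_mod_cast hN1'
  have hnN : (n : ℝ) ≤ N := by exact_mod_cast hn2
  have hNn : (N : ℝ) ≤ 2 * n := by exact_mod_cast hn1
  have hM : (numPatterns N α : ℝ) ≤ α * N := Nat.floor_le (by positivity)
  have hM2 : α * N < (numPatterns N α : ℝ) + 1 := Nat.lt_floor_add_one _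
  have hn0n : n0 ≤ n := by
    have : 2 * n0 ≤ N := (le_max_left _ _).trans hN
    omega
  have key := hn0 n hn0n (numPatterns N α) (by nlinarith) ρ hρ
    (le_trans (mul_le_mul_of_nonneg_right hnN (by positivity)) hρη) hD κ u ε h0 h1
  have hlow := low_ineq hP hP1 (ψ := ψ) (K := K) (b := b0) (κ := 1 / 2) ⟨Test_cont hψ, hK⟩ hb0 hlo
    (by norm_num) le_rfl hhi u hu hμ1 hα.le h0 h1 hαε
  set T : ℝ := ∫ x, Th J (fun z => ψ (∑ i, u i * x i + Real.sqrt (1 - μ) * z)) (Pr μ P)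
    ∂(Measure.pi fun _ : κ => mixtureLaw ε) with hT
  have hTK : |T| ≤ K := by
    obtain ⟨F, hF, hFT⟩ := Th_rest_BC (J := J) (P := P) hμ0 hμ1 (ψ := ψ) (K := K)
      ⟨Test_cont hψ, hK⟩
    have : IsProbabilityMeasure (mixtureLaw ε) := isProb_mixtureLaw ε
    rw [hT]
    simp only [hFT]
    have h := norm_integral_le_of_norm_le_const (μ := Measure.pi fun _ : κ => mixtureLaw ε)
      (f := fun x => F (∑ i, u i * x i)) (C := K) (Eventually.of_forall fun x => hF.bd _)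
    rwa [probReal_univ, mul_one] at h
  have hS0 : 0 ≤ SP J (Pr μ P) :=
    Crest.Agent.R146.Wrap_947.SP_nonneg (lev_Pr hP hμ1 hμ0) (Pr_lt_one hP1 hμ1)
  have e1 : (numPatterns N α : ℝ) * T ≤ α * N * T + K := by
    have h3 : -( (α * N - numPatterns N α) * T) ≤ K := by
      have h4 : |(α * N - numPatterns N α) * T| ≤ 1 * K := by
        rw [abs_mul]
        refine mul_le_mul ?_ hTK (abs_nonneg _) zero_le_one
        rw [abs_of_nonneg (by linarith)]
        linarith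
      have := neg_abs_le ((α * N - numPatterns N α) * T)
      linarith
    nlinarith
  have e2 : (n : ℝ) * (SP J (Pr μ P) + δ / 2) ≤ N * (SP J (Pr μ P) + δ / 2) :=
    mul_le_mul_of_nonneg_right hnN (by linarith)
  have e3 : K ≤ N * (δ / 2) := by
    have : (N1 : ℝ) ≤ N := by
      exact_mod_cast (le_max_left _ _).trans ((le_max_right _ _).trans hN)
    have h5 : 2 * K / δ < N := lt_of_lt_of_le hN1 this
    rw [div_lt_iff₀ hδ] at h5
    linarith
  have e4 := mul_le_mul_of_nonneg_left hlow hNpos.le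
  nlinarith

end Crest.Agent.R146L878
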