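import Crest.Agent.R146.Sph2_409
import Crest.Agent.R146.LocCore_508

/-!
Row 146, node LOC, helper508: the uniform law of the sphere split along a set of coordinates
(via the Gaussian representation of helper409).
-/

set_option autoImplicit false

open MeasureTheory ProbabilityTheory Filter Set
open scoped ENNReal NNReal Topology

namespace Crest.Agent.R146.LocSph_508

open Crest.ProbabilityR.Perceptron
open Crest.Agent.R146.Sph_409
open Crest.Agent.R166.Gauss286 (gv)

noncomputable section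

/-- splitting the coordinates of a product law. -/
theorem mp_split {α₁ α₂ ι X : Type*} [Fintype α₁] [Fintype α₂] [Fintype ι] [MeasurableSpace X]
    (E : α₁ ⊕ α₂ ≃ ι) (ν : Measure X) [SigmaFinite ν] :
    MeasurePreserving (fun x : ι → X => ((fun a => x (E (Sum.inl a))), fun b => x (E (Sum.inr b))))
      (Measure.pi fun _ : ι => ν)
      ((Measure.pi fun _ : α₁ => ν).prod (Measure.pi fun _ : α₂ => ν)) := by
  have h1 := (measurePreserving_piCongrLeft (fun _ : ι => ν) E).symm
  have h2 := measurePreserving_sumPiEquivProdPi (X := fun _ : α₁ ⊕ α₂ => X) (fun _ => ν)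
  have h3 := h2.comp h1
  convert h3 using 1
  funext x
  simp only [Function.comp_apply]
  ext a
  · rfl
  · rfl

/-- the norm of a function. -/
def nrm {α : Type*} [Fintype α] (x : α → ℝ) : ℝ := Real.sqrt (∑ i, x i ^ 2)

theorem nrm_nonneg {α : Type*} [Fintype α] (x : α → ℝ) : 0 ≤ nrm x := Real.sqrt_nonneg _

theorem nrm_sq {α : Type*} [Fintype α] (x : α → ℝ) : nrm x ^ 2 = ∑ i, x i ^ 2 :=
  Real.sq_sqrt (Finset.sum_nonneg fun _ _ => sq_nonneg _)

theorem measurable_nrm {α : Type*} [Fintype α] : Measurable (nrm : (α → ℝ) → ℝ) := by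
  unfold nrm; fun_prop

theorem norm_eq_nrm {N : ℕ} (x : En N) : ‖x‖ = nrm (fun i => x i) := by
  unfold nrm
  rw [EuclideanSpace.norm_eq]
  congr 1
  refine Finset.sum_congr rfl fun i _ => ?_
  rw [Real.norm_eq_abs, sq_abs]

theorem nrm_smul {α : Type*} [Fintype α] (c : ℝ) (x : α → ℝ) :
    nrm (fun i => c * x i) = |c| * nrm x := by
  unfold nrm
  have : ∑ i, (c * x i) ^ 2 = c ^ 2 * ∑ i, x i ^ 2 := by
    rw [Finset.mul_sum]; exact Finset.sum_congr rfl fun i _ => by ring
  rw [this, Real.sqrt_mul (sq_nonneg c), Real.sqrt_sq_eq_abs]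

/-- polar form for functions of coordinates. -/
theorem lintegral_gv_polar (n : ℕ) [NeZero n] {F : (Fin n → ℝ) → ℝ≥0∞} (hF : Measurable F) :
    ∫⁻ b, F b ∂gv (Fin n) =
      ∫⁻ r, ∫⁻ z : UnitSphere n, F (fun j => r * (z : En n) j) ∂uS n ∂radLaw n := by
  have hm : Measurable fun x : En n => F (fun j => x j) :=
    hF.comp (measurable_pi_lambda _ fun j => by fun_prop)
  have h1 := lintegral_stdGaussian_toLp n hm
  have h2 := lintegral_stdGaussian_polar n hm
  rw [h1] at h2
  exact h2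

variable {N : ℕ} {α₁ : Type*} [Fintype α₁] {n : ℕ}

/-- **Splitting of the uniform law.** The direction of the block `Fin n` of coordinates is uniform
and independent of the other coordinates and of the norm of the block. -/
theorem uS_split [NeZero N] [NeZero n] (E : α₁ ⊕ Fin n ≃ Fin N)
    {G : (α₁ → ℝ) × ℝ → ℝ≥0∞} (hG : Measurable G) {H : (Fin n → ℝ) → ℝ≥0∞} (hH : Measurable H) :
    ∫⁻ y : UnitSphere N, G ((fun a => (y : En N) (E (Sum.inl a))),
        nrm fun b => (y : En N) (E (Sum.inr b))) *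
        H (fun j => (nrm fun b => (y : En N) (E (Sum.inr b)))⁻¹ * (y : En N) (E (Sum.inr j))) ∂uS N =
      (∫⁻ y : UnitSphere N, G ((fun a => (y : En N) (E (Sum.inl a))),
        nrm fun b => (y : En N) (E (Sum.inr b))) ∂uS N) *
        ∫⁻ z : UnitSphere n, H (fun j => (z : En n) j) ∂uS n := by
  classical
  -- the general computation
  have key : ∀ {H : (Fin n → ℝ) → ℝ≥0∞}, Measurable H →
      ∫⁻ y : UnitSphere N, G ((fun a => (y : En N) (E (Sum.inl a))),
        nrm fun b => (y : En N) (E (Sum.inr b))) *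
        H (fun j => (nrm fun b => (y : En N) (E (Sum.inr b)))⁻¹ * (y : En N) (E (Sum.inr j))) ∂uS N =
      (∫⁻ a, ∫⁻ r, G ((fun i => (Real.sqrt (∑ i, a i ^ 2 + r ^ 2))⁻¹ * a i),
        (Real.sqrt (∑ i, a i ^ 2 + r ^ 2))⁻¹ * r) ∂radLaw n ∂(Measure.pi fun _ : α₁ => gaussianReal 0 1)) *
        ∫⁻ z : UnitSphere n, H (fun j => (z : En n) j) ∂uS n := by
    intro H hH
    have mG : Measurable fun x : En N => G ((fun a => x (E (Sum.inl a))),
        nrm fun b => x (E (Sum.inr b))) := by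
      refine hG.comp (Measurable.prodMk (measurable_pi_lambda _ fun a => by fun_prop)
        (measurable_nrm.comp (measurable_pi_lambda _ fun a => by fun_prop)))
    have mH : Measurable fun x : En N =>
        H (fun j => (nrm fun b => x (E (Sum.inr b)))⁻¹ * x (E (Sum.inr j))) := by
      refine hH.comp (measurable_pi_lambda _ fun j => ?_)
      exact ((measurable_nrm.comp (measurable_pi_lambda _ fun a => by fun_prop)).inv).mul
        (by fun_prop)
    refine (lintegral_normalize N (mG.mul mH)).symm.trans ?_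
    have mnorm : Measurable fun x : En N => ‖x‖⁻¹ • x := by fun_prop
    refine (lintegral_stdGaussian_toLp N ((mG.mul mH).comp mnorm)).trans ?_
    -- split the Gaussian vector
    have hsplit := mp_split E (gaussianReal 0 1)
    set Φ : (α₁ → ℝ) × (Fin n → ℝ) → ℝ≥0∞ := fun p =>
      G ((fun i => (Real.sqrt (∑ i, p.1 i ^ 2 + ∑ j, p.2 j ^ 2))⁻¹ * p.1 i),
        (Real.sqrt (∑ i, p.1 i ^ 2 + ∑ j, p.2 j ^ 2))⁻¹ * nrm p.2) *
      H (fun j => (nrm p.2)⁻¹ * p.2 j) with hΦ
    have mΦ : Measurable Φ := by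
      have m0 : Measurable fun p : (α₁ → ℝ) × (Fin n → ℝ) =>
          (Real.sqrt (∑ i, p.1 i ^ 2 + ∑ j, p.2 j ^ 2))⁻¹ := by fun_prop
      have m1 : Measurable fun p : (α₁ → ℝ) × (Fin n → ℝ) => nrm p.2 :=
        measurable_nrm.comp measurable_snd
      refine (hG.comp (Measurable.prodMk (measurable_pi_lambda _ fun a => ?_) (m0.mul m1))).mul
        (hH.comp (measurable_pi_lambda _ fun j => ?_))
      · exact m0.mul (by fun_prop)
      · exact m1.inv.mul (by fun_prop)
    have e1 : ∀ x : Fin N → ℝ, x ≠ 0 → (∃ j, x (E (Sum.inr j)) ≠ 0) →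
        G ((fun a => (‖(WithLp.toLp 2 x : En N)‖⁻¹ • (WithLp.toLp 2 x : En N)) (E (Sum.inl a))),
          nrm fun b => (‖(WithLp.toLp 2 x : En N)‖⁻¹ • (WithLp.toLp 2 x : En N)) (E (Sum.inr b))) *
        H (fun j => (nrm fun b => (‖(WithLp.toLp 2 x : En N)‖⁻¹ • (WithLp.toLp 2 x : En N))
          (E (Sum.inr b)))⁻¹ * (‖(WithLp.toLp 2 x : En N)‖⁻¹ • (WithLp.toLp 2 x : En N))
            (E (Sum.inr j))) =
        Φ ((fun a => x (E (Sum.inl a))), fun b => x (E (Sum.inr b))) := by
      intro x hx hx2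
      have hn : ‖(WithLp.toLp 2 x : En N)‖ = Real.sqrt (∑ i, x (E (Sum.inl i)) ^ 2 +
          ∑ j, x (E (Sum.inr j)) ^ 2) := by
        rw [norm_eq_nrm]
        unfold nrm
        congr 1
        rw [← Equiv.sum_comp E (fun i => x i ^ 2), Fintype.sum_sum_type]
      have hn0 : 0 < ‖(WithLp.toLp 2 x : En N)‖ := by
        rw [norm_pos_iff]
        intro h
        exact hx (by simpa using h)
      have hc : ∀ i, (‖(WithLp.toLp 2 x : En N)‖⁻¹ • (WithLp.toLp 2 x : En N)) i =
          ‖(WithLp.toLp 2 x : En N)‖⁻¹ * x i := fun i => by simp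
      simp only [hc]
      rw [nrm_smul, abs_of_pos (inv_pos.2 hn0)]
      simp only [hΦ, ← hn]
      congr 2
      funext j
      have hb : 0 < nrm fun b => x (E (Sum.inr b)) := by
        unfold nrm
        refine Real.sqrt_pos.2 ?_
        obtain ⟨j, hj⟩ := hx2
        exact Finset.sum_pos' (fun i _ => sq_nonneg _) ⟨j, Finset.mem_univ _, by positivity⟩
      field_simp
    have e2 : ∫⁻ x : Fin N → ℝ, Φ ((fun a => x (E (Sum.inl a))), fun b => x (E (Sum.inr b)))
        ∂(gv (Fin N)) = ∫⁻ p, Φ p ∂((Measure.pi fun _ : α₁ => gaussianReal 0 1).prod (gv (Fin n))) :=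
      hsplit.lintegral_comp mΦ
    have hae : ∀ᵐ x ∂gv (Fin N), ∃ j, x (E (Sum.inr j)) ≠ 0 := by
      have j0 : Fin n := ⟨0, Nat.pos_of_ne_zero (NeZero.ne n)⟩
      have h0 : ∀ᵐ t ∂gaussianReal 0 1, t ≠ 0 := by
        have := nullSingletonClass_gaussianReal (μ := 0) (v := 1) one_ne_zero
        rw [ae_iff]
        simp
      have h1 := (measurePreserving_eval (fun _ : Fin N => gaussianReal 0 1)
        (E (Sum.inr j0))).quasiMeasurePreserving.ae h0
      filter_upwards [h1] with x hx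
      exact ⟨j0, hx⟩
    have e3 : ∫⁻ x : Fin N → ℝ,
        G ((fun a => (‖(WithLp.toLp 2 x : En N)‖⁻¹ • (WithLp.toLp 2 x : En N)) (E (Sum.inl a))),
          nrm fun b => (‖(WithLp.toLp 2 x : En N)‖⁻¹ • (WithLp.toLp 2 x : En N)) (E (Sum.inr b))) *
        H (fun j => (nrm fun b => (‖(WithLp.toLp 2 x : En N)‖⁻¹ • (WithLp.toLp 2 x : En N))
          (E (Sum.inr b)))⁻¹ * (‖(WithLp.toLp 2 x : En N)‖⁻¹ • (WithLp.toLp 2 x : En N))
            (E (Sum.inr j))) ∂(gv (Fin N)) =
        ∫⁻ x : Fin N → ℝ, Φ ((fun a => x (E (Sum.inl a))), fun b => x (E (Sum.inr b)))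
          ∂(gv (Fin N)) := by
      refine lintegral_congr_ae ?_
      filter_upwards [hae] with x hx
      refine e1 x (fun h => ?_) hx
      obtain ⟨j, hj⟩ := hx
      exact hj (by rw [h]; rfl)
    refine e3.trans (e2.trans ?_)
    rw [lintegral_prod _ mΦ.aemeasurable]
    -- inner polar integration
    have e4 : ∀ a : α₁ → ℝ, ∫⁻ b, Φ (a, b) ∂gv (Fin n) =
        (∫⁻ r, G ((fun i => (Real.sqrt (∑ i, a i ^ 2 + r ^ 2))⁻¹ * a i),
          (Real.sqrt (∑ i, a i ^ 2 + r ^ 2))⁻¹ * r) ∂radLaw n) *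
          ∫⁻ z : UnitSphere n, H (fun j => (z : En n) j) ∂uS n := by
      intro a
      refine (lintegral_gv_polar n (F := fun b => Φ (a, b))
        (mΦ.comp measurable_prodMk_left)).trans ?_
      have mr : Measurable fun r : ℝ => G ((fun i => (Real.sqrt (∑ i, a i ^ 2 + r ^ 2))⁻¹ * a i),
          (Real.sqrt (∑ i, a i ^ 2 + r ^ 2))⁻¹ * r) := by
        refine hG.comp (Measurable.prodMk (measurable_pi_lambda _ fun i => ?_) ?_)
        · fun_prop
        · fun_prop
      rw [← lintegral_mul_const _ mr]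
      refine lintegral_congr_ae ?_
      filter_upwards [ae_radLaw_pos n] with r hr
      have hz : ∀ z : UnitSphere n, Φ (a, fun j => r * (z : En n) j) =
          G ((fun i => (Real.sqrt (∑ i, a i ^ 2 + r ^ 2))⁻¹ * a i),
            (Real.sqrt (∑ i, a i ^ 2 + r ^ 2))⁻¹ * r) * H (fun j => (z : En n) j) := by
        intro z
        have hz1 : nrm (fun j => (z : En n) j) = 1 := by
          rw [← norm_eq_nrm]; exact norm_coe_sphere z
        have hz2 : nrm (fun j => r * (z : En n) j) = r := by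
          rw [nrm_smul, hz1, mul_one, abs_of_pos hr]
        have hz3 : ∑ j, (r * (z : En n) j) ^ 2 = r ^ 2 := by
          rw [← nrm_sq, hz2]
        simp only [hΦ]
        rw [hz2, hz3]
        congr 2
        funext j
        field_simp
      simp only [hz]
      rw [lintegral_const_mul]
      exact hH.comp (measurable_pi_lambda _ fun j => by fun_prop)
    simp only [e4]
    rw [lintegral_mul_const]
    have mr2 : Measurable fun p : (α₁ → ℝ) × ℝ =>
        G ((fun i => (Real.sqrt (∑ i, p.1 i ^ 2 + p.2 ^ 2))⁻¹ * p.1 i),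
          (Real.sqrt (∑ i, p.1 i ^ 2 + p.2 ^ 2))⁻¹ * p.2) := by
      refine hG.comp (Measurable.prodMk (measurable_pi_lambda _ fun i => ?_) ?_)
      · fun_prop
      · fun_prop
    exact mr2.lintegral_prod_right'
  rw [key hH]
  have h1 := key (H := fun _ => 1) measurable_const
  simp only [mul_one, lintegral_const, measure_univ] at h1
  rw [h1]

/-! ### the tail of the norm of a block -/

theorem integral_exp_sq_gauss {c : ℝ} (hc : c < 1 / 2) :
    Integrable (fun x : ℝ => Real.exp (c * x ^ 2)) (gaussianReal 0 1) ∧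
    ∫ x, Real.exp (c * x ^ 2) ∂gaussianReal 0 1 = 1 / Real.sqrt (1 - 2 * c) := by
  have hb : 0 < 1 / 2 - c := by linarith
  have hval : ∫ x, Real.exp (c * x ^ 2) ∂gaussianReal 0 1 = 1 / Real.sqrt (1 - 2 * c) := by
    rw [Crest.Agent.R146.LocRec_508.integral_gauss]
    have e : ∀ x : ℝ, (Real.sqrt (2 * Real.pi))⁻¹ * Real.exp (-x ^ 2 / 2) * Real.exp (c * x ^ 2) =
        (Real.sqrt (2 * Real.pi))⁻¹ * Real.exp (-(1 / 2 - c) * x ^ 2) := by
      intro x
      rw [mul_assoc, ← Real.exp_add]; ring_nf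
    simp only [e]
    rw [integral_const_mul, integral_gaussian, ← Real.sqrt_inv, ← Real.sqrt_mul (by positivity)]
    rw [show (1 : ℝ) / Real.sqrt (1 - 2 * c) = Real.sqrt ((1 - 2 * c)⁻¹) by
      rw [Real.sqrt_inv, one_div]]
    congr 1
    have hpi := Real.pi_pos.ne'
    have h2 : (1 - 2 * c) ≠ 0 := by linarith
    have h3 : (1 / 2 - c) ≠ 0 := hb.ne'
    field_simp
  refine ⟨?_, hval⟩
  by_contra hni
  have h0 := integral_undef hni
  rw [hval] at h0
  have : 0 < 1 / Real.sqrt (1 - 2 * c) := by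
    have : 0 < 1 - 2 * c := by linarith
    positivity
  linarith

theorem uS_tail [NeZero N] (E : α₁ ⊕ Fin n ≃ Fin N) {s κ : ℝ} (hs0 : 0 < s) (hs1 : s ≤ 1)
    (hκ0 : 0 < κ) (hκ1 : κ < 1) :
    uS N {y : UnitSphere N | ∑ b, ((y : En N) (E (Sum.inr b))) ^ 2 ≤ s} ≤
      ENNReal.ofReal ((1 / Real.sqrt κ) ^ (Fintype.card α₁) * (Real.sqrt (s / (1 - κ))) ^ n) := by
  classical
  set lam := (1 - κ) / (2 * s) with hlam
  have hlam0 : 0 < lam := div_pos (by linarith) (by linarith)
  have hls : 2 * (lam * s) = 1 - κ := by rw [hlam]; field_simp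
  -- weights
  set c : Fin N → ℝ := fun i => Sum.elim (fun _ : α₁ => lam * s) (fun _ : Fin n => -(lam * (1 - s)))
    (E.symm i) with hcdef
  have hc : ∀ i, c i < 1 / 2 := by
    intro i
    simp only [hcdef]
    cases E.symm i with
    | inl a => simp only [Sum.elim_inl]; linarith
    | inr b =>
      simp only [Sum.elim_inr]
      have : 0 ≤ lam * (1 - s) := mul_nonneg hlam0.le (by linarith)
      linarith
  have mset : MeasurableSet {x : En N | ∑ b, (x (E (Sum.inr b))) ^ 2 ≤ s} := by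
    refine measurableSet_le ?_ measurable_const
    fun_prop
  have h1 : uS N {y : UnitSphere N | ∑ b, ((y : En N) (E (Sum.inr b))) ^ 2 ≤ s} =
      ∫⁻ x, ({x : En N | ∑ b, (x (E (Sum.inr b))) ^ 2 ≤ s}.indicator 1 (‖x‖⁻¹ • x))
        ∂stdGaussian (En N) := by
    rw [lintegral_normalize N (measurable_one.indicator mset)]
    have e : ∀ y : UnitSphere N, ({x : En N | ∑ b, (x (E (Sum.inr b))) ^ 2 ≤ s}.indicator
        (1 : En N → ℝ≥0∞) (y : En N)) =
        {y : UnitSphere N | ∑ b, ((y : En N) (E (Sum.inr b))) ^ 2 ≤ s}.indicator 1 y := by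
      intro y
      by_cases hy : ∑ b, ((y : En N) (E (Sum.inr b))) ^ 2 ≤ s
      · rw [indicator_of_mem (by exact hy), indicator_of_mem (by exact hy)]; rfl
      · rw [indicator_of_notMem (by exact hy), indicator_of_notMem (by exact hy)]
    simp only [e]
    rw [lintegral_indicator_one]
    exact measurable_subtype_coe mset
  rw [h1]
  have hpt : ∀ x : Fin N → ℝ, ({x : En N | ∑ b, (x (E (Sum.inr b))) ^ 2 ≤ s}.indicator 1
      (‖(WithLp.toLp 2 x : En N)‖⁻¹ • (WithLp.toLp 2 x : En N)) : ℝ≥0∞) ≤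
      ENNReal.ofReal (∏ i, Real.exp (c i * x i ^ 2)) := by
    intro x
    by_cases hx : (‖(WithLp.toLp 2 x : En N)‖⁻¹ • (WithLp.toLp 2 x : En N)) ∈
        {x : En N | ∑ b, (x (E (Sum.inr b))) ^ 2 ≤ s}
    · rw [indicator_of_mem hx]
      rw [← Real.exp_sum]
      simp only [Pi.one_apply]
      rw [← ENNReal.ofReal_one]
      refine ENNReal.ofReal_le_ofReal ?_
      refine Real.one_le_exp ?_
      have hx' : ∑ b, ((‖(WithLp.toLp 2 x : En N)‖⁻¹ * x (E (Sum.inr b)))) ^ 2 ≤ s := by
        simpa using hx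
      have hsum : ∑ i, c i * x i ^ 2 = lam * (s * ∑ i, x i ^ 2 - ∑ b, x (E (Sum.inr b)) ^ 2) := by
        rw [← Equiv.sum_comp E (fun i => c i * x i ^ 2), Fintype.sum_sum_type,
          ← Equiv.sum_comp E (fun i => x i ^ 2), Fintype.sum_sum_type]
        simp only [hcdef, Equiv.symm_apply_apply, Sum.elim_inl, Sum.elim_inr]
        rw [← Finset.mul_sum, ← Finset.mul_sum]
        ring
      rw [hsum]
      refine mul_nonneg hlam0.le ?_
      have hn : ‖(WithLp.toLp 2 x : En N)‖ ^ 2 = ∑ i, x i ^ 2 := norm_toLp_sq x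
      rcases (norm_nonneg (WithLp.toLp 2 x : En N)).eq_or_lt with h0 | h0
      · rw [← h0] at hn
        have hz : ∀ i, x i = 0 := by
          intro i
          have h2 : ∑ i, x i ^ 2 = 0 := by rw [← hn]; norm_num
          have h3 := (Finset.sum_eq_zero_iff_of_nonneg (fun i _ => sq_nonneg (x i))).1 h2 i
            (Finset.mem_univ i)
          exact pow_eq_zero_iff (two_ne_zero) |>.1 h3
        simp [hz]
      · have h4 : ∑ b, x (E (Sum.inr b)) ^ 2 =
            ‖(WithLp.toLp 2 x : En N)‖ ^ 2 *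
              ∑ b, ((‖(WithLp.toLp 2 x : En N)‖⁻¹ * x (E (Sum.inr b)))) ^ 2 := by
          rw [Finset.mul_sum]
          refine Finset.sum_congr rfl fun b _ => ?_
          field_simp
        rw [h4, ← hn]
        nlinarith [mul_le_mul_of_nonneg_left hx' (sq_nonneg ‖(WithLp.toLp 2 x : En N)‖)]
    · rw [indicator_of_notMem hx]; exact zero_le
  have hmN : Measurable fun x : En N => ‖x‖⁻¹ • x := by fun_prop
  rw [lintegral_stdGaussian_toLp N (F := fun x => ({x : En N | ∑ b, (x (E (Sum.inr b))) ^ 2 ≤ s}.indicator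
    1 (‖x‖⁻¹ • x))) ((measurable_one.indicator mset).comp hmN)]
  refine (lintegral_mono hpt).trans ?_
  have hint : Integrable (fun x : Fin N → ℝ => ∏ i, Real.exp (c i * x i ^ 2)) (gv (Fin N)) :=
    Integrable.fintype_prod (f := fun i (t : ℝ) => Real.exp (c i * t ^ 2))
      (μ := fun _ => gaussianReal 0 1) fun i => (integral_exp_sq_gauss (hc i)).1
  rw [← ofReal_integral_eq_lintegral_ofReal hint
    (ae_of_all _ fun x => Finset.prod_nonneg fun i _ => (Real.exp_pos _).le)]
  refine ENNReal.ofReal_le_ofReal ?_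
  have hprod : ∫ x : Fin N → ℝ, ∏ i, Real.exp (c i * x i ^ 2) ∂gv (Fin N) =
      ∏ i, (1 / Real.sqrt (1 - 2 * c i)) := by
    have := integral_fintype_prod_eq_prod (𝕜 := ℝ) (μ := fun _ : Fin N => gaussianReal 0 1)
      (f := fun (i : Fin N) (t : ℝ) => Real.exp (c i * t ^ 2))
    refine this.trans ?_
    exact Finset.prod_congr rfl fun i _ => (integral_exp_sq_gauss (hc i)).2
  rw [hprod, ← Equiv.prod_comp E, Fintype.prod_sum_type]
  simp only [hcdef, Equiv.symm_apply_apply, Sum.elim_inl, Sum.elim_inr, Finset.prod_const,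
    Finset.card_univ, Fintype.card_fin]
  have e1 : 1 - 2 * (lam * s) = κ := by rw [hls]; ring
  rw [e1]
  refine mul_le_mul_of_nonneg_left ?_ (by positivity)
  have h5 : 1 / Real.sqrt (1 - 2 * -(lam * (1 - s))) ≤ Real.sqrt (s / (1 - κ)) := by
    rw [one_div, ← Real.sqrt_inv]
    refine Real.sqrt_le_sqrt ?_
    have h6 : 1 - 2 * -(lam * (1 - s)) = 1 + (1 - κ) * (1 - s) / s := by
      rw [hlam]; field_simp; ring
    rw [h6]
    have h7 : 0 < 1 - κ := by linarith
    have h8 : (1 - κ) / s ≤ 1 + (1 - κ) * (1 - s) / s := by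
      rw [div_le_iff₀ hs0]
      have : (1 + (1 - κ) * (1 - s) / s) * s = s + (1 - κ) * (1 - s) := by field_simp
      rw [this]
      nlinarith
    calc (1 + (1 - κ) * (1 - s) / s)⁻¹ ≤ ((1 - κ) / s)⁻¹ := inv_anti₀ (by positivity) h8
      _ = s / (1 - κ) := by rw [inv_div]
  exact pow_le_pow_left₀ (by positivity) h5 n

end

end Crest.Agent.R146.LocSph_508
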