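import Crest.Agent.R146.LocCore_508
import Crest.Agent.R146.LocSph_508
import Crest.Agent.R146.Deloc3_878

/-!
Row 146, node LOC (task 13), helper508: the rest system of one localised block and the frozen
Props of its three probabilistic inputs.  Nothing is proved here.

* `XR ψ μ κ c A` : log partition function of the free coordinates (unit sphere of `ℝ^n`, restricted
  to `|z_j| ≤ κ`), row `a` shifted by `c a`, mass `1 - μ`;
* `XF ψ μ κ u A` : the same with `c a = ∑ i, A (a, inl i) * u i`;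
* `XMEAN` : upper bound of its mean (Lindeberg + UB + average over `c`);
* `XCONC` : concentration from above;
* `NETP`  : finite nets of blocks with masses on a grid.
-/

set_option autoImplicit false

open MeasureTheory ProbabilityTheory Filter Crest.ProbabilityR.Perceptron
open scoped Topology

namespace Crest.Agent.R146.LocXR_508

open Crest.Agent.R146.S6Def_988 (Lev Th SP)
open Crest.Agent.R146.LocDet_508 (Pr)
open Crest.Agent.R146.P34_734 (Test)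
open Crest.Agent.R146.Sph_409 (uS)

noncomputable section

/-- log partition function of the free coordinates, row `a` shifted by `c a` -/
def XR (ψ : ℝ → ℝ) (μ κ : ℝ) {M n : ℕ} (c : Fin M → ℝ) (A : Fin M × Fin n → ℝ) : ℝ :=
  Crest.Agent.R146L878.logZ ((uS n).restrict (Crest.Agent.R146L878.DD n κ))
    (fun a x => ψ (c a + √(1 - μ) * x)) Crest.Agent.R146L878.sv A

/-- the same as a function of the full array on `I ⊕ Fin n`, localised vector `u` -/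
def XF (ψ : ℝ → ℝ) (μ κ : ℝ) {I : Type} [Fintype I] (u : I → ℝ) {M n : ℕ}
    (A : Fin M × (I ⊕ Fin n) → ℝ) : ℝ :=
  XR ψ μ κ (fun a => ∑ i, A (a, Sum.inl i) * u i) (fun p : Fin M × Fin n => A (p.1, Sum.inr p.2))

/-- (XMEAN) the mean of `XF` -/
def XMEAN : Prop := ∀ ψ : ℝ → ℝ, Test ψ → ∀ αm ε δ : ℝ, 0 < αm → 0 ≤ ε → ε ≤ 1 / 2 → 0 < δ →
  ∃ J0 : ℕ, ∀ J, J0 ≤ J → ∀ P : ℕ → ℝ, Lev J P → P J < 1 → ∀ μ : ℝ, 0 ≤ μ → μ < 1 →
  ∃ (n0 : ℕ) (C : ℝ), 0 ≤ C ∧ ∀ n, n0 ≤ n → ∀ M : ℕ, (M : ℝ) ≤ αm * n →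
  ∀ (I : Type) [Fintype I] (u : I → ℝ), ∑ i, u i ^ 2 = μ → ∀ κ : ℝ, 0 ≤ κ →
    0 < (uS n).real (Crest.Agent.R146L878.DD n κ) →
    ∫ A, XF ψ μ κ u A ∂(Measure.pi fun _ : Fin M × (I ⊕ Fin n) => mixtureLaw ε) ≤
      M * (∫ x, Th J (fun z => ψ (∑ i, u i * x i + √(1 - μ) * z)) (Pr μ P)
        ∂(Measure.pi fun _ : I => mixtureLaw ε)) + n * SP J (Pr μ P) + δ * n +
        C * (M * n) * κ ^ 3

/-- (XCONC) upper tail of `XF`, any law of the entries -/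
def XCONC : Prop := ∀ (ν : Measure ℝ) [IsProbabilityMeasure ν] (ψ : ℝ → ℝ) (K : ℝ), Measurable ψ →
  (∀ x, |ψ x| ≤ K) → ∀ (M n : ℕ) (I : Type) [Fintype I] (u : I → ℝ) (μ κ t : ℝ), 0 ≤ t →
    (Measure.pi fun _ : Fin M × (I ⊕ Fin n) => ν)
      {A | (∫ A', XF ψ μ κ u A' ∂(Measure.pi fun _ : Fin M × (I ⊕ Fin n) => ν)) + t ≤
        XF ψ μ κ u A} ≤ ENNReal.ofReal (Real.exp (-t ^ 2 / (2 * M * K ^ 2)))

/-- (NETP) net of the blocks: masses on the grid `k h`, from below, within `3 √h`. -/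
def NETP : Prop := ∀ h : ℝ, 0 < h → h ≤ 1 → ∃ D : ℕ, ∀ (I : Type) [Fintype I],
  ∃ S : Finset (I → ℝ), S.card ≤ D ^ (Fintype.card I + 1) ∧
    (∀ u ∈ S, ∃ k : ℕ, (k : ℝ) * h ≤ 1 ∧ ∑ i, u i ^ 2 = k * h) ∧
    ∀ w : I → ℝ, ∑ i, w i ^ 2 ≤ 1 → ∃ u ∈ S, ∑ i, u i ^ 2 ≤ ∑ i, w i ^ 2 ∧
      ∑ i, w i ^ 2 ≤ ∑ i, u i ^ 2 + h ∧ ∑ i, (w i - u i) ^ 2 ≤ 9 * h

end

end Crest.Agent.R146.LocXR_508
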