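import Crest.Agent.R146.LocL1_878
import Crest.Agent.R146.LocXR_508

/-!
Row 146, node LOCCORE, helper878: `XMEAN` of `LocXR_508` from `UB`.
-/

set_option autoImplicit false

open MeasureTheory ProbabilityTheory Set Filter
open scoped Topology

namespace Crest.Agent.R146L878

open Crest.Agent.R146.LocRec_508 Crest.Agent.R146.LocDet_508 Crest.Agent.R146.P34_734
open Crest.Agent.R146.S6Def_988
open Crest.Agent.R146.PressC_663 (uSph crd measurable_crd isProb_uSph)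
open Crest.Agent.R146.LocXR_508
open Crest.ProbabilityR.Perceptron

theorem abs_sv_le_one {n : ℕ} (w : UnitSphere n) (i : Fin n) : |sv w i| ≤ 1 := by
  have h := sum_sv_sq w
  have h1 : sv w i ^ 2 ≤ 1 := by
    rw [← h]
    exact Finset.single_le_sum (f := fun j => sv w j ^ 2) (fun j _ => sq_nonneg _)
      (Finset.mem_univ i)
  exact abs_le_one_iff_mul_self_le_one.2 (by nlinarith)

theorem DD_min (n : ℕ) (κ : ℝ) : DD n κ = DD n (min κ 1) := by
  ext w
  refine ⟨fun h i => le_min (h i) (abs_sv_le_one w i), fun h i => (h i).trans (min_le_left _ _)⟩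

variable {n M : ℕ}

theorem XR_eq (ψ : ℝ → ℝ) (μ κ : ℝ) (c : Fin M → ℝ) (A : Fin M × Fin n → ℝ) :
    XR ψ μ κ c A = Fc (uD n κ) ψ (Real.sqrt (1 - μ)) c A := rfl

theorem XF_eq (ψ : ℝ → ℝ) (μ κ : ℝ) {I : Type} [Fintype I] (u : I → ℝ)
    (A : Fin M × (I ⊕ Fin n) → ℝ) :
    XF ψ μ κ u A = Fc (uD n κ) ψ (Real.sqrt (1 - μ))
      (cL u fun q : Fin M × I => A (q.1, Sum.inl q.2))
      (fun q : Fin M × Fin n => A (q.1, Sum.inr q.2)) := by
  unfold XF
  rw [XR_eq]
  congr 1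
  funext a
  unfold cL
  exact Finset.sum_congr rfl fun i _ => mul_comm _ _

theorem measurable_cL {I : Type} [Fintype I] (u : I → ℝ) :
    Measurable fun X : Fin M × I → ℝ => cL u X := by
  refine measurable_pi_lambda _ fun a => ?_
  unfold cL
  exact Finset.measurable_fun_sum _ fun i _ => (measurable_pi_apply (a, i)).const_mul _

/-- the mean of `XF` as an iterated integral -/
theorem integral_XF (hn : 0 < n) {ψ : ℝ → ℝ} (hψ : Measurable ψ) {K0 : ℝ} (hK0 : ∀ x, |ψ x| ≤ K0)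
    (μ κ : ℝ) (hD : uSph n (DD n κ) ≠ 0) {I : Type} [Fintype I] (u : I → ℝ) (ν : Measure ℝ)
    [IsProbabilityMeasure ν] :
    ∫ A, XF ψ μ κ u A ∂(Measure.pi fun _ : Fin M × (I ⊕ Fin n) => ν) =
      ∫ X, (∫ G, Fc (uD n κ) ψ (Real.sqrt (1 - μ)) (cL u X) G
        ∂(Measure.pi fun _ : Fin M × Fin n => ν)) ∂(Measure.pi fun _ : Fin M × I => ν) := by
  have := isProb_uSph hn
  set E := (Equiv.prodSumDistrib (Fin M) I (Fin n)).symm with hE
  have hmp := Crest.Agent.R146.LocSph_508.mp_split E ν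
  set H : (Fin M × I → ℝ) × (Fin M × Fin n → ℝ) → ℝ := fun p =>
    Fc (uD n κ) ψ (Real.sqrt (1 - μ)) (cL u p.1) p.2 with hH
  have hHm : Measurable H :=
    (measurable_Fc hψ (uD n κ) (Real.sqrt (1 - μ))).comp
      (((measurable_cL u).comp measurable_fst).prodMk measurable_snd)
  have hHi : Integrable H ((Measure.pi fun _ : Fin M × I => ν).prod
      (Measure.pi fun _ : Fin M × Fin n => ν)) :=
    Integrable.of_bound hHm.aestronglyMeasurable (M * K0 + |Real.log ((uD n κ).real univ)|)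
      (Eventually.of_forall fun p => abs_Fc_le hψ hK0 _ (uD_real_pos hn hD) _ _ _)
  have e1 : ∫ A, XF ψ μ κ u A ∂(Measure.pi fun _ : Fin M × (I ⊕ Fin n) => ν) =
      ∫ p, H p ∂((Measure.pi fun _ : Fin M × I => ν).prod
        (Measure.pi fun _ : Fin M × Fin n => ν)) := by
    rw [← hmp.map_eq, integral_map hmp.measurable.aemeasurable (by
      rw [hmp.map_eq]; exact hHm.aestronglyMeasurable)]
    refine integral_congr_ae (Eventually.of_forall fun A => ?_)
    simp only [XF_eq, hH]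
    rfl
  rw [e1, integral_prod _ hHi]

/-- **XMEAN** -/
theorem xmean (hUB : Crest.Agent.R146.S6U_988.UB) : XMEAN := by
  intro ψ hψ αm ε δ hαm h0 h1 hδ
  obtain ⟨K, hK⟩ := Test_bdd hψ
  obtain ⟨L, hL0, hL⟩ := Test_lip hψ
  obtain ⟨Kp, hKp⟩ := Test.isPot hψ
  obtain ⟨J0, hJ0⟩ := hUB K L αm δ hδ
  refine ⟨J0, fun J hJ P hP hP1 μ hμ0 hμ1 => ?_⟩
  obtain ⟨N0, hN0⟩ := hJ0 J hJ (Pr μ P) (lev_Pr hP hμ1 hμ0) (Pr_lt_one hP1 hμ1)
  have hm4 : 0 ≤ Crest.Agent.R146.LindD_846.m4c := by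
    unfold Crest.Agent.R146.LindD_846.m4c; positivity
  refine ⟨max N0 1, 52 * Crest.Agent.R146.LindA_846.cK Kp ^ 4 * Crest.Agent.R146.LindD_846.m4c,
    by positivity, ?_⟩
  intro n hn M hM I _ u hu κ hκ hDpos
  have hn1 : 0 < n := lt_of_lt_of_le one_pos ((le_max_right _ _).trans hn)
  have hn0 : (0 : ℝ) < n := by exact_mod_cast hn1
  have := isProb_uSph hn1
  obtain ⟨F, hF, hFT⟩ := Th_rest_BC (J := J) (P := P) hμ0 hμ1 (ψ := ψ) (K := K) ⟨Test_cont hψ, hK⟩
  have hr : |Real.sqrt (1 - μ)| ≤ 1 := by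
    rw [abs_of_nonneg (Real.sqrt_nonneg _)]
    exact Real.sqrt_le_one.2 (by linarith)
  set κ' : ℝ := min κ 1 with hκ'
  have hκ'0 : 0 ≤ κ' := le_min hκ zero_le_one
  have hκ'1 : κ' ≤ 1 := min_le_right _ _
  have hDe : DD n κ = DD n κ' := DD_min n κ
  have hD : uSph n (DD n κ') ≠ 0 := by
    intro h
    have h2 : (uSph n).real (DD n κ) = 0 := by rw [hDe, Measure.real, h]; rfl
    have h3 : (0 : ℝ) < (uSph n).real (DD n κ) := hDpos
    linarith
  have hD' : uSph n (DD n κ) ≠ 0 := by rw [hDe]; exact hD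
  have key := avgX (κ := I) hn1 hD hκ'0 hKp (Test_cont hψ).measurable hK hL0 hL hr
    (fun f hf => hN0 n ((le_max_left _ _).trans hn) M hM f hf) hF hFT u h0
      (h1.trans (by norm_num))
  have hprob : IsProbabilityMeasure (mixtureLaw ε) := isProb_mixtureLaw ε
  have e1 := integral_XF (M := M) hn1 (Test_cont hψ).measurable hK μ κ hD' u (mixtureLaw ε)
  have e2 : (uD n κ : Measure (UnitSphere n)) = uD n κ' := by
    unfold uD; rw [hDe]
  rw [e1, e2]
  have herr : errL Kp M n (Real.sqrt (1 - μ)) κ' ≤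
      52 * Crest.Agent.R146.LindA_846.cK Kp ^ 4 * Crest.Agent.R146.LindD_846.m4c * (M * n) *
        κ ^ 3 := by
    unfold errL
    have hr4 : (|Real.sqrt (1 - μ)| * κ') ^ 4 ≤ κ' ^ 4 := by
      refine pow_le_pow_left₀ (by positivity) ?_ 4
      calc |Real.sqrt (1 - μ)| * κ' ≤ 1 * κ' := mul_le_mul_of_nonneg_right hr hκ'0
        _ = κ' := one_mul _
    have h4 : κ' ^ 4 ≤ κ' ^ 3 := pow_le_pow_of_le_one hκ'0 hκ'1 (by norm_num)
    have h5 : κ' ^ 3 ≤ κ ^ 3 := pow_le_pow_left₀ hκ'0 (min_le_left _ _) 3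
    have h6 := hr4.trans (h4.trans h5)
    have hc : 0 ≤ (M : ℝ) * n * (52 * Crest.Agent.R146.LindA_846.cK Kp ^ 4 *
      Crest.Agent.R146.LindD_846.m4c) := by positivity
    have := mul_le_mul_of_nonneg_left h6 hc
    calc _ = (M : ℝ) * n * (52 * Crest.Agent.R146.LindA_846.cK Kp ^ 4 *
        Crest.Agent.R146.LindD_846.m4c) * (|Real.sqrt (1 - μ)| * κ') ^ 4 := by ring
      _ ≤ _ := this
      _ = _ := by ring
  have e3 : (n : ℝ) * (SP J (Pr μ P) + δ) = n * SP J (Pr μ P) + δ * n := by ring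
  linarith

end Crest.Agent.R146L878
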