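import Crest.Agent.R146.LocRec2_508
import Crest.Agent.R146.LindD_846

/-!
Row 146, node (G) (localised part), helper508: a linear form of a row of law `mixtureLaw ε`
compared with a Gaussian of the same variance, for functions with bounded second differences.
-/

set_option autoImplicit false

namespace Crest.Agent.R146.LocMix_508

open MeasureTheory ProbabilityTheory Filter Topology Set
open Crest.Agent.R146.LocRec_508
open Crest.Agent.R146.LindC_846 Crest.Agent.R146.LindD_846
open Crest.ProbabilityR.Perceptron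
open scoped ENNReal NNReal

noncomputable section

local notation "γ" => gaussianReal 0 1

/-- law of a linear form of a standard Gaussian vector. -/
theorem map_lin_gaussian {I : Type*} [Fintype I] (u : I → ℝ) :
    (Measure.pi fun _ : I => gaussianReal 0 1).map (fun x : I → ℝ => ∑ i, u i * x i) =
      gaussianReal 0 (Real.toNNReal (∑ i, u i ^ 2)) := by
  have hm : Measurable fun x : I → ℝ => ∑ i, u i * x i := by fun_prop
  have hp : IsProbabilityMeasure ((Measure.pi fun _ : I => gaussianReal 0 1).map
      (fun x : I → ℝ => ∑ i, u i * x i)) := Measure.isProbabilityMeasure_map hm.aemeasurable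
  have hs : 0 ≤ ∑ i, u i ^ 2 := Finset.sum_nonneg fun i _ => sq_nonneg _
  refine Measure.ext_of_charFun ?_
  funext t
  rw [charFun_gaussianReal, charFun_apply_real, integral_map hm.aemeasurable (by fun_prop)]
  have h1 : ∀ x : I → ℝ, Complex.exp (t * ((∑ i, u i * x i : ℝ) : ℂ) * Complex.I) =
      ∏ i, Complex.exp ((t * u i : ℝ) * (x i : ℂ) * Complex.I) := by
    intro x
    rw [← Complex.exp_sum]
    congr 1
    push_cast
    rw [Finset.mul_sum, Finset.sum_mul]
    refine Finset.sum_congr rfl fun i _ => ?_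
    ring
  simp_rw [h1]
  rw [integral_fintype_prod_eq_prod (𝕜 := ℂ)
    (f := fun (i : I) (s : ℝ) => Complex.exp ((t * u i : ℝ) * (s : ℂ) * Complex.I))]
  have h2 : ∀ i : I, ∫ s, Complex.exp ((t * u i : ℝ) * (s : ℂ) * Complex.I) ∂gaussianReal 0 1 =
      Complex.exp (-((t * u i : ℝ) : ℂ) ^ 2 / 2) := by
    intro i
    have := charFun_gaussianReal (μ := 0) (v := 1) (t * u i)
    rw [charFun_apply_real] at this
    rw [this]
    congr 1
    push_cast
    ring
  simp_rw [h2]
  rw [← Complex.exp_sum]
  congr 1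
  rw [Real.coe_toNNReal _ hs]
  push_cast
  rw [Finset.sum_mul, Finset.sum_div, mul_zero, zero_mul, zero_sub, ← Finset.sum_neg_distrib]
  refine Finset.sum_congr rfl fun i _ => ?_
  ring

theorem integral_lin_gaussian {I : Type*} [Fintype I] (u : I → ℝ) {φ : ℝ → ℝ}
    (hφ : Continuous φ) :
    ∫ x, φ (∑ i, u i * x i) ∂(Measure.pi fun _ : I => gaussianReal 0 1) =
      ∫ g, φ (Real.sqrt (∑ i, u i ^ 2) * g) ∂γ := by
  have hs : 0 ≤ ∑ i, u i ^ 2 := Finset.sum_nonneg fun i _ => sq_nonneg _
  have hm : Measurable fun x : I → ℝ => ∑ i, u i * x i := by fun_prop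
  have h1 : (gaussianReal 0 1).map (fun g : ℝ => Real.sqrt (∑ i, u i ^ 2) * g) =
      gaussianReal 0 (Real.toNNReal (∑ i, u i ^ 2)) := by
    rw [gaussianReal_map_const_mul]
    congr 1
    · simp
    · ext
      simp [Real.sq_sqrt hs, Real.coe_toNNReal _ hs]
  rw [← integral_map (f := φ) hm.aemeasurable hφ.aestronglyMeasurable, map_lin_gaussian, ← h1,
    integral_map (by fun_prop) hφ.aestronglyMeasurable]

theorem integral_sq_gauss : ∫ g, g ^ 2 ∂γ = 1 := by
  have := sq_moment_gaussianReal 1
  simpa using this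

/-- average of a semiconcave function over a symmetric Gaussian increment. -/
theorem MidHi.avg {F : ℝ → ℝ} {K κ : ℝ} (hF : BC F K) (h : MidHi κ F) (z s : ℝ) :
    ∫ g, F (z + s * g) ∂γ ≤ F z + κ * s ^ 2 / 2 := by
  have hsym : ∫ g, F (z + s * g) ∂γ = ∫ g, F (z - s * g) ∂γ := by
    have hmap : (gaussianReal 0 1).map (fun x : ℝ => -x) = gaussianReal 0 1 := by
      rw [gaussianReal_map_neg]; simp
    have hc := hF.cont
    conv_lhs => rw [← hmap]
    rw [integral_map (by fun_prop) (by fun_prop)]
    refine integral_congr_ae (Eventually.of_forall fun g => ?_)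
    simp only
    congr 1; ring
  have i1 := hF.integrable z s
  have i2 : Integrable (fun g : ℝ => F (z - s * g)) γ := by
    have := hF.integrable z (-s)
    refine this.congr (Eventually.of_forall fun g => ?_)
    simp only
    congr 1; ring
  have hsq : Integrable (fun g : ℝ => g ^ 2) γ := integrable_pow_gaussianReal 1 2
  have h1 := integral_mono (μ := γ) (i1.add i2)
    ((integrable_const (2 * F z)).add (hsq.const_mul (κ * s ^ 2))) (fun g => by
      have := h z (s * g)
      show F (z + s * g) + F (z - s * g) ≤ 2 * F z + κ * s ^ 2 * g ^ 2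
      nlinarith [this])
  rw [Pi.add_def, integral_add i1 i2, Pi.add_def, integral_add (integrable_const _)
    (hsq.const_mul _), ← hsym] at h1
  have h3 : ∫ a : ℝ, κ * s ^ 2 * a ^ 2 ∂γ = κ * s ^ 2 := by
    rw [integral_const_mul, integral_sq_gauss, mul_one]
  rw [h3] at h1
  simp only [integral_const, probReal_univ, one_smul] at h1
  linarith

theorem MidLo.avg {F : ℝ → ℝ} {K κ : ℝ} (hF : BC F K) (h : MidLo κ F) (z s : ℝ) :
    F z - κ * s ^ 2 / 2 ≤ ∫ g, F (z + s * g) ∂γ := by
  have hF' : BC (fun x => -F x) K := ⟨hF.cont.neg, fun x => by rw [abs_neg]; exact hF.bd x⟩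
  have h' : MidHi κ (fun x => -F x) := fun y t => by have := h y t; linarith
  have := MidHi.avg hF' h' z s
  rw [integral_neg] at this
  linarith

/-- one coordinate of law `mixtureLaw ε` against a standard Gaussian one. -/
theorem one_coord {F : ℝ → ℝ} {K κ : ℝ} (hF : BC F K) (h1 : MidHi κ F) (h2 : MidLo κ F)
    {ε : ℝ} (hε0 : 0 ≤ ε) (hε1 : ε ≤ 1) (y u : ℝ) :
    |∫ x, F (y + u * x) ∂mixtureLaw ε - ∫ x, F (y + u * x) ∂γ| ≤ κ * u ^ 2 * ε / 2 := by
  have hc := hF.cont
  -- the Gaussian integrals with variance `v`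
  have hv : ∀ v : ℝ, 0 ≤ v → ∫ x, F (y + u * x) ∂gaussianReal 0 (Real.toNNReal v) =
      ∫ g, F (y + u * Real.sqrt v * g) ∂γ := by
    intro v hv
    have h3 : (gaussianReal 0 1).map (fun g : ℝ => Real.sqrt v * g) =
        gaussianReal 0 (Real.toNNReal v) := by
      rw [gaussianReal_map_const_mul]
      congr 1
      · simp
      · ext
        simp [Real.sq_sqrt hv, Real.coe_toNNReal _ hv]
    rw [← h3, integral_map (by fun_prop) (by fun_prop)]
    refine integral_congr_ae (Eventually.of_forall fun g => ?_)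
    simp only
    congr 1; ring
  have bI : ∀ v : ℝ, Integrable (fun x : ℝ => F (y + u * x)) (gaussianReal 0 (Real.toNNReal v)) := by
    intro v
    refine Integrable.mono' (integrable_const K) (by fun_prop) (Eventually.of_forall fun x => ?_)
    rw [Real.norm_eq_abs]; exact hF.bd _
  rw [integral_mixtureLaw (bI _) (bI _), hv _ (by linarith), hv _ (by linarith)]
  -- splitting off an increment of variance `ε u²`
  have two : ∀ v w : ℝ, 0 ≤ v → 0 ≤ w → ∫ g, F (y + u * Real.sqrt (v + w) * g) ∂γ =
      ∫ g, (∫ g', F (y + u * Real.sqrt v * g + u * Real.sqrt w * g') ∂γ) ∂γ := by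
    intro v w hv hw
    have := integral_two (φ := fun z => F (y + u * z)) (by fun_prop) (K := K)
      (fun x => hF.bd _) hv hw 0
    have e1 : ∀ g g' : ℝ, y + u * (0 + Real.sqrt v * g + Real.sqrt w * g') =
        y + u * Real.sqrt v * g + u * Real.sqrt w * g' := by intro g g'; ring
    have e2 : ∀ g : ℝ, y + u * (0 + Real.sqrt (v + w) * g) = y + u * Real.sqrt (v + w) * g := by
      intro g; ring
    simp only [e1, e2] at this
    exact this.symm
  have bnd : ∀ v w : ℝ, 0 ≤ v → 0 ≤ w →
      |∫ g, F (y + u * Real.sqrt (v + w) * g) ∂γ - ∫ g, F (y + u * Real.sqrt v * g) ∂γ| ≤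
        κ * (u ^ 2 * w) / 2 := by
    intro v w hv hw
    rw [two v w hv hw]
    have hinner : ∀ g, |(∫ g', F (y + u * Real.sqrt v * g + u * Real.sqrt w * g') ∂γ) -
        F (y + u * Real.sqrt v * g)| ≤ κ * (u ^ 2 * w) / 2 := by
      intro g
      have a1 := MidHi.avg hF h1 (y + u * Real.sqrt v * g) (u * Real.sqrt w)
      have a2 := MidLo.avg hF h2 (y + u * Real.sqrt v * g) (u * Real.sqrt w)
      have e : (u * Real.sqrt w) ^ 2 = u ^ 2 * w := by rw [mul_pow, Real.sq_sqrt hw]
      rw [e] at a1 a2
      rw [abs_le]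
      constructor <;> linarith
    have i1 : Integrable (fun g => ∫ g', F (y + u * Real.sqrt v * g + u * Real.sqrt w * g') ∂γ) γ := by
      have hcont : Continuous fun g : ℝ => ∫ g', F (y + u * Real.sqrt v * g + u * Real.sqrt w * g') ∂γ := by
        refine continuous_of_dominated (bound := fun _ => K) (fun y => by fun_prop) (fun y => ?_)
          (integrable_const _) (Eventually.of_forall fun g => by fun_prop)
        exact Eventually.of_forall fun g => by rw [Real.norm_eq_abs]; exact hF.bd _
      refine Integrable.mono' (integrable_const K) hcont.aestronglyMeasurable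
        (Eventually.of_forall fun g => ?_)
      refine (norm_integral_le_of_norm_le_const (C := K) (Eventually.of_forall fun g' => ?_)).trans ?_
      · rw [Real.norm_eq_abs]; exact hF.bd _
      · simp
    rw [← integral_sub i1 (hF.integrable _ _)]
    have hn := norm_integral_le_of_norm_le_const (μ := γ) (C := κ * (u ^ 2 * w) / 2)
      (f := fun g => (∫ g', F (y + u * Real.sqrt v * g + u * Real.sqrt w * g') ∂γ) -
        F (y + u * Real.sqrt v * g))
      (Eventually.of_forall fun g => by rw [Real.norm_eq_abs]; exact hinner g)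
    rw [Real.norm_eq_abs] at hn
    simpa using hn
  have b1 := bnd 1 ε zero_le_one hε0
  have b2 := bnd (1 - ε) ε (by linarith) hε0
  rw [sub_add_cancel] at b2
  rw [Real.sqrt_one, mul_one] at b1 b2
  rw [abs_le] at b1 b2 ⊢
  have e : κ * (u ^ 2 * ε) / 2 = κ * u ^ 2 * ε / 2 := by ring
  rw [e] at b1 b2
  constructor <;> linarith [b1.1, b1.2, b2.1, b2.2]

/-- **Mixture comparison.** -/
theorem mix_compare {I : Type*} [Fintype I] {F : ℝ → ℝ} {K κ : ℝ} (hF : BC F K) (h1 : MidHi κ F)
    (h2 : MidLo κ F) {ε : ℝ} (hε0 : 0 ≤ ε) (hε1 : ε ≤ 1) (u : I → ℝ) :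
    |∫ x, F (∑ i, u i * x i) ∂(Measure.pi fun _ : I => mixtureLaw ε) -
      ∫ g, F (Real.sqrt (∑ i, u i ^ 2) * g) ∂γ| ≤ κ * (∑ i, u i ^ 2) * ε / 2 := by
  classical
  have hc := hF.cont
  rw [← integral_lin_gaussian u hc]
  have hm : Measurable fun x : I → ℝ => F (∑ i, u i * x i) :=
    hc.measurable.comp (by fun_prop)
  have key := LindC_846.swap (ι := I) (μ := fun _ => mixtureLaw ε) (ν := fun _ => gaussianReal 0 1)
    (fun _ => isProbabilityMeasure_mixtureLaw ε) (fun _ => inferInstance)
    (fun _ => by simpa using integrable_pow_mixtureLaw ε 1)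
    (fun _ => by simpa using integrable_pow_gaussianReal 1 1) hm (C0 := K) (C1 := 0)
    (fun x => by simpa using hF.bd _) (δ := fun i => κ * u i ^ 2 * ε / 2) (fun i x => by
      have e : ∀ t : ℝ, ∑ j, u j * Function.update x i t j =
          (∑ j ∈ Finset.univ.erase i, u j * x j) + u i * t := by
        intro t
        rw [← Finset.add_sum_erase Finset.univ _ (Finset.mem_univ i), Function.update_self,
          add_comm]
        congr 1
        refine Finset.sum_congr rfl fun j hj => ?_
        rw [Function.update_of_ne (Finset.ne_of_mem_erase hj)]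
      simp only [e]
      exact one_coord hF h1 h2 hε0 hε1 _ _)
  refine key.trans (le_of_eq ?_)
  rw [Finset.mul_sum, Finset.sum_mul, Finset.sum_div]

end

end Crest.Agent.R146.LocMix_508
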