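import Crest.Agent.R146.LocCore_508

/-!
Row 146, node G7 (`P34_734.LOCUB` from `LocCore_508.LOCCORE`), part (d): the smooth potentials.
helper930.

* `Fp b R` : `C^{1,1}` bounded potential, `= -(b/2)(-1-x)_+^2` for `x ≥ -1-R`, second differences in
  `[-b, 1/4]`;
* `mollify` : bounded Lipschitz function with second differences in `[-κ₁, κ₂]` is uniformly close to
  a `Test` function with the same bounds;
* `exists_pot` : the potential used for `LOCUB`.
-/

set_option autoImplicit false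

open MeasureTheory ProbabilityTheory Filter Set Convolution
open scoped Topology ContDiff

namespace Crest.Agent.R146.LocPot_930

open Crest.Agent.R146.LocRec_508 (MidLo MidHi BC)
open Crest.Agent.R146.P34_734 (Test fq fqL)
open Crest.Agent.R146.LocCore_508 (Tcut)

noncomputable section

/-! ### The function `hs` and its primitive -/

/-- derivative of the penalty as a function of the violation -/
def hs (b R x : ℝ) : ℝ := max 0 (min (b * x) (b * R - (x - R) / 4))

/-- penalty as a function of the violation -/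
def Hp (b R y : ℝ) : ℝ := ∫ s in (0 : ℝ)..y, hs b R s

/-- the potential -/
def Fp (b R x : ℝ) : ℝ := -Hp b R (-1 - x)

lemma continuous_hs (b R : ℝ) : Continuous (hs b R) := by
  unfold hs
  fun_prop

lemma hs_nonneg (b R x : ℝ) : 0 ≤ hs b R x := le_max_left _ _

lemma hs_of_nonpos {b R x : ℝ} (hb : 0 ≤ b) (hx : x ≤ 0) : hs b R x = 0 := by
  unfold hs
  refine max_eq_left ((min_le_left _ _).trans ?_)
  exact mul_nonpos_of_nonneg_of_nonpos hb hx

lemma hs_of_mem {b R x : ℝ} (hb : 0 ≤ b) (h0 : 0 ≤ x) (hx : x ≤ R) : hs b R x = b * x := by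
  unfold hs
  have h1 : b * x ≤ b * R := mul_le_mul_of_nonneg_left hx hb
  rw [min_eq_left (by linarith), max_eq_right (by positivity)]

lemma hs_le_lin {b R x : ℝ} (hb : 0 ≤ b) (h0 : 0 ≤ x) : hs b R x ≤ b * x := by
  unfold hs
  exact max_le (by positivity) (min_le_left _ _)

lemma hs_le {b R : ℝ} (hb : 0 ≤ b) (hR : 0 ≤ R) (x : ℝ) : hs b R x ≤ b * R := by
  unfold hs
  refine max_le (by positivity) ?_
  rcases le_total x R with h | h
  · exact (min_le_left _ _).trans (mul_le_mul_of_nonneg_left h hb)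
  · exact (min_le_right _ _).trans (by linarith)

lemma hs_of_large {b R x : ℝ} (hx : R + 4 * (b * R) ≤ x) : hs b R x = 0 := by
  unfold hs
  refine max_eq_left ((min_le_right _ _).trans ?_)
  linarith

lemma hs_sub_le {b R x y : ℝ} (hb : 0 ≤ b) (hyx : y ≤ x) : hs b R x - hs b R y ≤ b * (x - y) := by
  have hxy : 0 ≤ b * (x - y) := mul_nonneg hb (by linarith)
  unfold hs
  have h1 : min (b * x) (b * R - (x - R) / 4) ≤ min (b * y) (b * R - (y - R) / 4) + b * (x - y) := by
    rw [← min_add_add_right]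
    refine min_le_min (le_of_eq (by ring)) (by linarith)
  have h2 : max 0 (min (b * x) (b * R - (x - R) / 4)) ≤
      max 0 (min (b * y) (b * R - (y - R) / 4)) + b * (x - y) := by
    refine max_le ?_ (h1.trans ?_)
    · have := le_max_left 0 (min (b * y) (b * R - (y - R) / 4))
      linarith
    · have := le_max_right 0 (min (b * y) (b * R - (y - R) / 4))
      linarith
  linarith

lemma hs_sub_ge {b R x y : ℝ} (hb : 0 ≤ b) (hyx : y ≤ x) : hs b R y - hs b R x ≤ (x - y) / 4 := by
  have hxy : 0 ≤ (x - y) / 4 := by linarith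
  unfold hs
  have h1 : min (b * y) (b * R - (y - R) / 4) ≤ min (b * x) (b * R - (x - R) / 4) + (x - y) / 4 := by
    rw [← min_add_add_right]
    have h0 : b * y ≤ b * x := mul_le_mul_of_nonneg_left hyx hb
    refine min_le_min (by linarith) (by linarith)
  have h2 : max 0 (min (b * y) (b * R - (y - R) / 4)) ≤
      max 0 (min (b * x) (b * R - (x - R) / 4)) + (x - y) / 4 := by
    refine max_le ?_ (h1.trans ?_)
    · have := le_max_left 0 (min (b * x) (b * R - (x - R) / 4))
      linarith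
    · have := le_max_right 0 (min (b * x) (b * R - (x - R) / 4))
      linarith
  linarith

lemma ii_hs (b R u v : ℝ) : IntervalIntegrable (hs b R) volume u v :=
  (continuous_hs b R).intervalIntegrable _ _

lemma hasDerivAt_Hp (b R y : ℝ) : HasDerivAt (Hp b R) (hs b R y) y :=
  intervalIntegral.integral_hasDerivAt_right (ii_hs b R 0 y)
    ((continuous_hs b R).stronglyMeasurableAtFilter _ _) (continuous_hs b R).continuousAt

lemma continuous_Hp (b R : ℝ) : Continuous (Hp b R) :=
  continuous_iff_continuousAt.2 fun y => (hasDerivAt_Hp b R y).continuousAt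

lemma Hp_mono (b R : ℝ) : Monotone (Hp b R) := by
  refine monotone_of_deriv_nonneg (fun y => (hasDerivAt_Hp b R y).differentiableAt) fun y => ?_
  rw [(hasDerivAt_Hp b R y).deriv]
  exact hs_nonneg _ _ _

lemma Hp_zero (b R : ℝ) : Hp b R 0 = 0 := by simp [Hp]

lemma Hp_of_nonpos {b R y : ℝ} (hb : 0 ≤ b) (hy : y ≤ 0) : Hp b R y = 0 := by
  unfold Hp
  rw [intervalIntegral.integral_symm]
  have : ∫ s in y..0, hs b R s = ∫ s in y..0, (0 : ℝ) := by
    refine intervalIntegral.integral_congr fun s hs => ?_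
    rw [uIcc_of_le hy] at hs
    exact hs_of_nonpos hb hs.2
  rw [this]; simp

lemma Hp_nonneg (b R : ℝ) {y : ℝ} (hy : 0 ≤ y) : 0 ≤ Hp b R y := by
  rw [← Hp_zero b R]
  exact Hp_mono b R hy

lemma Hp_nonneg' {b R : ℝ} (hb : 0 ≤ b) (y : ℝ) : 0 ≤ Hp b R y := by
  rcases le_total y 0 with h | h
  · rw [Hp_of_nonpos hb h]
  · exact Hp_nonneg b R h

lemma integral_lin (b y : ℝ) : ∫ s in (0 : ℝ)..y, b * s = b / 2 * y ^ 2 := by
  rw [intervalIntegral.integral_const_mul, integral_id]; ring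

lemma Hp_of_mem {b R y : ℝ} (hb : 0 ≤ b) (h0 : 0 ≤ y) (hy : y ≤ R) : Hp b R y = b / 2 * y ^ 2 := by
  unfold Hp
  rw [← integral_lin]
  refine intervalIntegral.integral_congr fun s hs => ?_
  rw [uIcc_of_le h0] at hs
  exact hs_of_mem hb hs.1 (hs.2.trans hy)

lemma Hp_le_sq {b R y : ℝ} (hb : 0 ≤ b) (h0 : 0 ≤ y) : Hp b R y ≤ b / 2 * y ^ 2 := by
  unfold Hp
  rw [← integral_lin]
  refine intervalIntegral.integral_mono_on h0 (ii_hs b R 0 y)
    ((continuous_const.mul continuous_id).intervalIntegrable _ _) fun s hs => ?_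
  exact hs_le_lin hb hs.1

lemma Hp_le {b R : ℝ} (hb : 0 ≤ b) (hR : 0 ≤ R) (y : ℝ) :
    Hp b R y ≤ b * R ^ 2 * (1 + 4 * b) := by
  have hM : 0 ≤ R + 4 * (b * R) := by positivity
  have key : Hp b R (R + 4 * (b * R)) ≤ b * R ^ 2 * (1 + 4 * b) := by
    have : Hp b R (R + 4 * (b * R)) ≤ ∫ _s in (0 : ℝ)..(R + 4 * (b * R)), b * R := by
      unfold Hp
      exact intervalIntegral.integral_mono_on hM (ii_hs b R _ _)
        (continuous_const.intervalIntegrable _ _) fun s _ => hs_le hb hR s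
    rw [intervalIntegral.integral_const] at this
    simp only [smul_eq_mul, sub_zero] at this
    calc Hp b R (R + 4 * (b * R)) ≤ (R + 4 * (b * R)) * (b * R) := this
      _ = b * R ^ 2 * (1 + 4 * b) := by ring
  rcases le_total y (R + 4 * (b * R)) with h | h
  · exact (Hp_mono b R h).trans key
  · have h1 : Hp b R y = Hp b R (R + 4 * (b * R)) := by
      have h2 : Hp b R y - Hp b R (R + 4 * (b * R)) = ∫ s in (R + 4 * (b * R))..y, hs b R s := by
        unfold Hp
        rw [intervalIntegral.integral_interval_sub_left (ii_hs b R _ _) (ii_hs b R _ _)]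
      have h3 : ∫ s in (R + 4 * (b * R))..y, hs b R s = ∫ s in (R + 4 * (b * R))..y, (0 : ℝ) := by
        refine intervalIntegral.integral_congr fun s hs => ?_
        rw [uIcc_of_le h] at hs
        exact hs_of_large hs.1
      rw [h3] at h2
      simp at h2
      linarith
    rw [h1]; exact key

/-! ### The potential `Fp` -/

lemma hasDerivAt_Fp (b R x : ℝ) : HasDerivAt (Fp b R) (hs b R (-1 - x)) x := by
  have h1 : HasDerivAt (fun x : ℝ => -1 - x) (-1) x := by
    simpa using (hasDerivAt_id x).const_sub (-1)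
  have h2 : HasDerivAt (fun x : ℝ => -Hp b R (-1 - x)) (-(hs b R (-1 - x) * (-1))) x :=
    (HasDerivAt.comp x (hasDerivAt_Hp b R (-1 - x)) h1).neg
  exact h2.congr_deriv (by ring)

lemma continuous_Fp (b R : ℝ) : Continuous (Fp b R) :=
  continuous_iff_continuousAt.2 fun x => (hasDerivAt_Fp b R x).continuousAt

lemma Fp_nonpos {b R : ℝ} (hb : 0 ≤ b) (x : ℝ) : Fp b R x ≤ 0 := by
  unfold Fp
  have := Hp_nonneg' (R := R) hb (-1 - x)
  linarith

lemma Fp_ge {b R : ℝ} (hb : 0 ≤ b) (hR : 0 ≤ R) (x : ℝ) : -(b * R ^ 2 * (1 + 4 * b)) ≤ Fp b R x := by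
  unfold Fp
  have := Hp_le hb hR (-1 - x)
  linarith

lemma abs_Fp_le {b R : ℝ} (hb : 0 ≤ b) (hR : 0 ≤ R) (x : ℝ) :
    |Fp b R x| ≤ b * R ^ 2 * (1 + 4 * b) := by
  rw [abs_of_nonpos (Fp_nonpos hb x)]
  have := Fp_ge hb hR x
  linarith

lemma Hp_max (b R : ℝ) (hb : 0 ≤ b) (y : ℝ) : Hp b R y = Hp b R (max y 0) := by
  rcases le_total y 0 with h | h
  · rw [max_eq_right h, Hp_zero, Hp_of_nonpos hb h]
  · rw [max_eq_left h]

/-- `fq ≤ Fp` -/
lemma fq_le_Fp {b R : ℝ} (hb : 0 ≤ b) (x : ℝ) : fq b (-1) x ≤ Fp b R x := by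
  unfold Fp fq
  rw [Hp_max b R hb]
  have := Hp_le_sq (R := R) hb (le_max_right (-1 - x) 0)
  linarith

lemma fqL_le_Fp {b R L : ℝ} (hb : 0 ≤ b) (hR : 0 ≤ R) (hL : b * R ^ 2 * (1 + 4 * b) ≤ L) (x : ℝ) :
    fqL L b (-1) x ≤ Fp b R x := by
  unfold fqL
  refine max_le (fq_le_Fp hb x) ?_
  have := Fp_ge hb hR x
  linarith

lemma Fp_le_fqL {b R : ℝ} (hb : 0 ≤ b) (hR : 0 ≤ R) (x : ℝ) :
    Fp b R x ≤ fqL (b * R ^ 2 / 2) b (-1) x := by
  unfold Fp fqL fq
  rw [Hp_max b R hb]
  rcases le_total (max (-1 - x) 0) R with h | h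
  · rw [Hp_of_mem hb (le_max_right _ _) h]
    refine le_max_of_le_left (le_of_eq (by ring))
  · refine le_max_of_le_right ?_
    have h1 := Hp_mono b R h
    rw [Hp_of_mem hb hR le_rfl] at h1
    linarith

lemma Fp_le_Tcut {b R R' : ℝ} (hb : 0 ≤ b) (hR : 0 ≤ R) (hRR : R ≤ R') (x : ℝ) :
    Fp b R' x ≤ -(b / 2 * Tcut R x ^ 2) := by
  unfold Fp Tcut
  rw [Hp_max b R' hb]
  have h0 : 0 ≤ min (max (-1 - x) 0) R := le_min (le_max_right _ _) hR
  have h1 := Hp_mono b R' (min_le_left (max (-1 - x) 0) R)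
  rw [Hp_of_mem hb h0 ((min_le_right _ _).trans hRR)] at h1
  linarith

/-! ### Second differences -/

/-- a function with derivative `F'`, `F' x - F' y ≤ κ (x - y)`, is `MidHi κ` -/
lemma midHi_of_deriv {F F' : ℝ → ℝ} (hF : ∀ x, HasDerivAt F (F' x) x) {κ : ℝ}
    (h : ∀ x y, y ≤ x → F' x - F' y ≤ κ * (x - y)) : MidHi κ F := by
  have main : ∀ y t, 0 ≤ t → F (y + t) + F (y - t) ≤ 2 * F y + κ * t ^ 2 := by
    intro y t ht
    let g : ℝ → ℝ := fun t => F (y + t) + F (y - t) - κ * t ^ 2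
    have hg : ∀ t, HasDerivAt g (F' (y + t) - F' (y - t) - 2 * κ * t) t := by
      intro t
      have h1 : HasDerivAt (fun t : ℝ => F (y + t)) (F' (y + t)) t := by
        have h0 : HasDerivAt (fun t : ℝ => y + t) 1 t := (hasDerivAt_id t).const_add y
        exact (HasDerivAt.comp t (hF (y + t)) h0).congr_deriv (by ring)
      have h2 : HasDerivAt (fun t : ℝ => F (y - t)) (-F' (y - t)) t := by
        have h0 : HasDerivAt (fun t : ℝ => y - t) (-1) t := (hasDerivAt_id t).const_sub y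
        exact (HasDerivAt.comp t (hF (y - t)) h0).congr_deriv (by ring)
      have h3 : HasDerivAt (fun t : ℝ => κ * t ^ 2) (2 * κ * t) t := by
        exact ((hasDerivAt_pow 2 t).const_mul κ).congr_deriv (by norm_num; ring)
      exact ((h1.add h2).sub h3).congr_deriv (by ring)
    have hanti : AntitoneOn g (Ici 0) := by
      refine antitoneOn_of_deriv_nonpos (convex_Ici 0)
        (fun t _ => (hg t).continuousAt.continuousWithinAt)
        (fun t _ => (hg t).differentiableAt.differentiableWithinAt) fun t ht => ?_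
      rw [interior_Ici] at ht
      rw [(hg t).deriv]
      have ht0 : 0 < t := ht
      have := h (y + t) (y - t) (by linarith)
      nlinarith
    have := hanti (mem_Ici.2 le_rfl) (mem_Ici.2 ht) ht
    simp only [g] at this
    simp only [add_zero, sub_zero] at this
    nlinarith
  intro y t
  rcases le_total 0 t with ht | ht
  · exact main y t ht
  · have := main y (-t) (by linarith)
    have e1 : y + -t = y - t := by ring
    have e2 : y - -t = y + t := by ring
    rw [e1, e2] at this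
    nlinarith

lemma MidHi.neg {F : ℝ → ℝ} {κ : ℝ} (h : MidHi κ F) : MidLo κ fun x => -F x := by
  intro y t
  have := h y t
  linarith

lemma MidLo.neg {F : ℝ → ℝ} {κ : ℝ} (h : MidLo κ F) : MidHi κ fun x => -F x := by
  intro y t
  have := h y t
  linarith

lemma midLo_of_deriv {F F' : ℝ → ℝ} (hF : ∀ x, HasDerivAt F (F' x) x) {κ : ℝ}
    (h : ∀ x y, y ≤ x → F' y - F' x ≤ κ * (x - y)) : MidLo κ F := by
  have h1 : MidHi κ fun x => -F x :=
    midHi_of_deriv (F' := fun x => -F' x) (fun x => (hF x).neg) fun x y hxy => by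
      have := h x y hxy
      linarith
  have := MidHi.neg h1
  simpa using this

lemma MidHi.add {F G : ℝ → ℝ} {a b : ℝ} (h : MidHi a F) (h' : MidHi b G) :
    MidHi (a + b) fun x => F x + G x := by
  intro y t
  have := h y t
  have := h' y t
  nlinarith

lemma MidLo.add {F G : ℝ → ℝ} {a b : ℝ} (h : MidLo a F) (h' : MidLo b G) :
    MidLo (a + b) fun x => F x + G x := by
  intro y t
  have := h y t
  have := h' y t
  nlinarith

lemma MidHi.add_const {F : ℝ → ℝ} {a : ℝ} (h : MidHi a F) (c : ℝ) :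
    MidHi a fun x => F x + c := by
  intro y t
  have := h y t
  linarith

lemma MidLo.add_const {F : ℝ → ℝ} {a : ℝ} (h : MidLo a F) (c : ℝ) :
    MidLo a fun x => F x + c := by
  intro y t
  have := h y t
  linarith

lemma MidHi.mono {F : ℝ → ℝ} {a b : ℝ} (h : MidHi a F) (hab : a ≤ b) : MidHi b F := by
  intro y t
  have := h y t
  nlinarith [sq_nonneg t]

lemma MidLo.mono {F : ℝ → ℝ} {a b : ℝ} (h : MidLo a F) (hab : a ≤ b) : MidLo b F := by
  intro y t
  have := h y t
  nlinarith [sq_nonneg t]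

lemma MidHi.const_mul {F : ℝ → ℝ} {a c : ℝ} (h : MidHi a F) (hc : 0 ≤ c) :
    MidHi (c * a) fun x => c * F x := by
  intro y t
  have := mul_le_mul_of_nonneg_left (h y t) hc
  linarith

lemma MidLo.const_mul {F : ℝ → ℝ} {a c : ℝ} (h : MidLo a F) (hc : 0 ≤ c) :
    MidLo (c * a) fun x => c * F x := by
  intro y t
  have := mul_le_mul_of_nonneg_left (h y t) hc
  linarith

lemma Fp_hi {b : ℝ} (hb : 0 ≤ b) (R : ℝ) : MidHi (1 / 4) (Fp b R) :=
  midHi_of_deriv (hasDerivAt_Fp b R) fun x y hxy => by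
    have := hs_sub_ge (R := R) hb (x := -1 - y) (y := -1 - x) (by linarith)
    linarith

lemma Fp_lo {b : ℝ} (hb : 0 ≤ b) (R : ℝ) : MidLo b (Fp b R) :=
  midLo_of_deriv (hasDerivAt_Fp b R) fun x y hxy => by
    have := hs_sub_le (R := R) hb (x := -1 - y) (y := -1 - x) (by linarith)
    have e : b * (-1 - y - (-1 - x)) = b * (x - y) := by ring
    linarith

lemma Fp_lip {b R : ℝ} (hb : 0 ≤ b) (hR : 0 ≤ R) (x y : ℝ) :
    |Fp b R x - Fp b R y| ≤ b * R * |x - y| := by
  have := Convex.norm_image_sub_le_of_norm_hasDerivWithin_le (f := Fp b R)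
    (f' := fun x => hs b R (-1 - x)) (s := univ) (C := b * R) (x := y) (y := x)
    (fun z _ => (hasDerivAt_Fp b R z).hasDerivWithinAt)
    (fun z _ => by
      rw [Real.norm_eq_abs, abs_of_nonneg (hs_nonneg _ _ _)]
      exact hs_le hb hR _) convex_univ (mem_univ _) (mem_univ _)
  simpa [Real.norm_eq_abs] using this

lemma BC_Fp {b R : ℝ} (hb : 0 ≤ b) (hR : 0 ≤ R) : BC (Fp b R) (b * R ^ 2 * (1 + 4 * b)) :=
  ⟨continuous_Fp b R, abs_Fp_le hb hR⟩

end

end Crest.Agent.R146.LocPot_930
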