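import Crest.Agent.R146.LocRec_508
import Crest.Agent.R146.S6Def_988

/-!
Row 146, node (G) (localised part), helper508: the nested recursion `recV` started at an
intermediate time `μ` (time points `max (t i) μ`): semigroup, Jensen, scaling, semiconvexity and
semiconcavity constants.
-/

set_option autoImplicit false

namespace Crest.Agent.R146.LocRec_508

open MeasureTheory ProbabilityTheory Filter Topology Set
open Crest.ProbabilityR.InvariantGlass
open Crest.Agent.R146.S6Def_988
open scoped ENNReal NNReal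

noncomputable section

local notation "γ" => gaussianReal 0 1

theorem gaussOp_zero_width (a : ℝ) (F : ℝ → ℝ) (z : ℝ) : gaussOp a 0 F z = F z := by
  unfold gaussOp
  split_ifs with h0
  · simp
  · simp only [Real.sqrt_zero, zero_mul, add_zero, integral_const, probReal_univ, one_smul,
      Real.log_exp]
    field_simp

/-- two independent Gaussian increments make one. -/
theorem integral_two {φ : ℝ → ℝ} (hφ : Continuous φ) {K : ℝ} (hK : ∀ x, |φ x| ≤ K) {v w : ℝ}
    (hv : 0 ≤ v) (hw : 0 ≤ w) (x : ℝ) :
    ∫ g, (∫ g', φ (x + Real.sqrt v * g + Real.sqrt w * g') ∂γ) ∂γ =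
      ∫ g, φ (x + Real.sqrt (v + w) * g) ∂γ := by
  have hmeas : Measurable φ := hφ.measurable
  have hlaw : ((gaussianReal 0 1).prod (gaussianReal 0 1)).map
      (fun p : ℝ × ℝ => Real.sqrt v * p.1 + Real.sqrt w * p.2) =
      (gaussianReal 0 1).map (fun g => Real.sqrt (v + w) * g) := by
    have h1 : (gaussianReal 0 1).map (fun g : ℝ => Real.sqrt v * g) =
        gaussianReal 0 (Real.toNNReal v) := by
      rw [gaussianReal_map_const_mul]
      congr 1
      · simp
      · ext
        simp [Real.sq_sqrt hv, Real.coe_toNNReal _ hv]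
    have h2 : (gaussianReal 0 1).map (fun g : ℝ => Real.sqrt w * g) =
        gaussianReal 0 (Real.toNNReal w) := by
      rw [gaussianReal_map_const_mul]
      congr 1
      · simp
      · ext
        simp [Real.sq_sqrt hw, Real.coe_toNNReal _ hw]
    have h3 : (gaussianReal 0 1).map (fun g : ℝ => Real.sqrt (v + w) * g) =
        gaussianReal 0 (Real.toNNReal (v + w)) := by
      rw [gaussianReal_map_const_mul]
      congr 1
      · simp
      · ext
        simp [Real.sq_sqrt (add_nonneg hv hw), Real.coe_toNNReal _ (add_nonneg hv hw)]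
    rw [h3, Real.toNNReal_add hv hw]
    have h4 : gaussianReal 0 (Real.toNNReal v) ∗ gaussianReal 0 (Real.toNNReal w) =
        gaussianReal (0 + 0) (Real.toNNReal v + Real.toNNReal w) := gaussianReal_conv_gaussianReal
    rw [add_zero] at h4
    rw [← h4, Measure.conv, ← h1, ← h2, Measure.map_prod_map _ _ (by fun_prop) (by fun_prop),
      Measure.map_map (by fun_prop) (by fun_prop)]
    rfl
  have e1 : ∫ g, (∫ g', φ (x + Real.sqrt v * g + Real.sqrt w * g') ∂γ) ∂γ =
      ∫ p : ℝ × ℝ, φ (x + (Real.sqrt v * p.1 + Real.sqrt w * p.2)) ∂((γ).prod γ) := by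
    rw [integral_prod]
    · refine integral_congr_ae (Eventually.of_forall fun g => ?_)
      simp only
      refine integral_congr_ae (Eventually.of_forall fun g' => ?_)
      simp only
      rw [add_assoc]
    · refine Integrable.mono' (integrable_const K) ?_ (Eventually.of_forall fun p => ?_)
      · exact (hmeas.comp (by fun_prop)).aestronglyMeasurable
      · rw [Real.norm_eq_abs]; exact hK _
  rw [e1]
  have e2 : ∫ p : ℝ × ℝ, φ (x + (Real.sqrt v * p.1 + Real.sqrt w * p.2)) ∂((γ).prod γ) =
      ∫ y, φ (x + y) ∂(((γ).prod γ).map (fun p : ℝ × ℝ => Real.sqrt v * p.1 + Real.sqrt w * p.2)) := by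
    rw [integral_map (by fun_prop) (by fun_prop)]
  rw [e2, hlaw, integral_map (by fun_prop) (by fun_prop)]

/-- semigroup property of `gaussOp a`. -/
theorem gaussOp_semigroup {F : ℝ → ℝ} {K : ℝ} (hF : BC F K) {a : ℝ} (ha : 0 ≤ a) {v w : ℝ}
    (hv : 0 ≤ v) (hw : 0 ≤ w) (x : ℝ) :
    gaussOp a v (gaussOp a w F) x = gaussOp a (v + w) F x := by
  by_cases h0 : a = 0
  · subst h0
    simp only [gaussOp, if_true]
    exact integral_two hF.cont hF.bd hv hw x
  · have ha' : 0 < a := lt_of_le_of_ne ha (Ne.symm h0)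
    have hpos := fun z => integral_exp_pos hF a z (Real.sqrt w)
    simp only [gaussOp, if_neg h0]
    congr 2
    have e : ∀ z : ℝ, Real.exp (a * (a⁻¹ * Real.log (∫ g, Real.exp (a * F (z + Real.sqrt w * g)) ∂γ)))
        = ∫ g, Real.exp (a * F (z + Real.sqrt w * g)) ∂γ := by
      intro z
      rw [← mul_assoc, mul_inv_cancel₀ h0, one_mul, Real.exp_log (hpos z)]
    simp only [e]
    have hc := hF.cont
    refine integral_two (φ := fun y => Real.exp (a * F y)) (by fun_prop)
      (K := Real.exp (|a| * K)) (fun y => ?_) hv hw x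
    rw [abs_of_pos (Real.exp_pos _)]
    refine Real.exp_le_exp.2 ?_
    calc a * F y ≤ |a * F y| := le_abs_self _
      _ = |a| * |F y| := abs_mul _ _
      _ ≤ |a| * K := mul_le_mul_of_nonneg_left (hF.bd _) (abs_nonneg a)

/-- scaling of `gaussOp`. -/
theorem gaussOp_scale (a w : ℝ) (F : ℝ → ℝ) {σ : ℝ} (hσ : 0 ≤ σ) (c x : ℝ) :
    gaussOp a w (fun y => F (c + σ * y)) x = gaussOp a (σ ^ 2 * w) F (c + σ * x) := by
  have hs : Real.sqrt (σ ^ 2 * w) = σ * Real.sqrt w := by
    rw [Real.sqrt_mul (sq_nonneg σ), Real.sqrt_sq hσ]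
  unfold gaussOp
  rw [hs]
  have e : ∀ g : ℝ, c + σ * (x + Real.sqrt w * g) = c + σ * x + σ * Real.sqrt w * g := by
    intro g; ring
  simp only [e]

theorem recV_scale (f : ℝ → ℝ) (t t' m : ℕ → ℝ) (k : ℕ) {σ : ℝ} (hσ : 0 ≤ σ) (c : ℝ)
    (ht : ∀ i, i < k → t (i + 1) - t i = σ ^ 2 * (t' (i + 1) - t' i)) :
    ∀ j ≤ k, ∀ x, recV (fun y => f (c + σ * y)) t' m k j x = recV f t m k j (c + σ * x) := by
  intro j
  induction j with
  | zero => intro _ x; rfl
  | succ j ih =>
    intro hj x
    have ih' := ih (by omega)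
    have e : recV (fun y => f (c + σ * y)) t' m k j = fun y => recV f t m k j (c + σ * y) := by
      funext y; exact ih' y
    show gaussOp (m (k - 1 - j)) (t' (k - j) - t' (k - 1 - j))
      (recV (fun y => f (c + σ * y)) t' m k j) x =
      gaussOp (m (k - 1 - j)) (t (k - j) - t (k - 1 - j)) (recV f t m k j) (c + σ * x)
    rw [e, gaussOp_scale _ _ _ hσ]
    have h1 : k - j = (k - 1 - j) + 1 := by omega
    rw [h1, ht (k - 1 - j) (by omega)]

theorem recV_BC {f : ℝ → ℝ} {K : ℝ} (hf : BC f K) (t m : ℕ → ℝ) (k : ℕ) (hm : ∀ i, 0 ≤ m i) :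
    ∀ j, BC (recV f t m k j) K := by
  intro j
  induction j with
  | zero => exact hf
  | succ j ih => exact gaussOp_BC ih (hm _) _

/-- the recursion from time `μ`, averaged over the missing increment, is below the recursion. -/
theorem recV_split {f : ℝ → ℝ} {K : ℝ} (hf : BC f K) {t m : ℕ → ℝ} {k : ℕ} (hm : ∀ i, 0 ≤ m i)
    (ht : ∀ i, i < k → t i ≤ t (i + 1)) {μ : ℝ} (hμ : μ ≤ t k) :
    ∀ j ≤ k, ∀ x, ∫ g, recV f (fun i => max (t i) μ) m k j
      (x + Real.sqrt (max (μ - t (k - j)) 0) * g) ∂γ ≤ recV f t m k j x := by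
  intro j
  induction j with
  | zero =>
    intro _ x
    have e : max (μ - t (k - 0)) 0 = 0 := by
      rw [Nat.sub_zero]; exact max_eq_right (by linarith)
    rw [e]
    simp [recV]
  | succ j ih =>
    intro hj x
    have ih' := ih (by omega)
    set t1 := t (k - j) with ht1
    set t0 := t (k - 1 - j) with ht0
    have h1 : k - j = (k - 1 - j) + 1 := by omega
    have h01 : t0 ≤ t1 := by
      rw [ht0, ht1, h1]; exact ht _ (by omega)
    have e0 : k - (j + 1) = k - 1 - j := by omega
    rw [e0, ← ht0]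
    set a := m (k - 1 - j) with ha_def
    have ha : 0 ≤ a := hm _
    set Rμ := recV f (fun i => max (t i) μ) m k j with hRμ
    set R := recV f t m k j with hR
    have bμ : BC Rμ K := recV_BC hf _ m k hm j
    have bR : BC R K := recV_BC hf _ m k hm j
    have eμ : recV f (fun i => max (t i) μ) m k (j + 1) =
        gaussOp a (max t1 μ - max t0 μ) Rμ := rfl
    have eR : recV f t m k (j + 1) = gaussOp a (t1 - t0) R := rfl
    rw [eμ, eR]
    rcases le_total μ t0 with h | h
    · -- `μ ≤ t0`
      have hle : ∀ y, Rμ y ≤ R y := by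
        intro y
        have := ih' y
        rw [max_eq_right (by linarith : μ - t1 ≤ 0)] at this
        simpa using this
      rw [max_eq_right (by linarith : μ - t0 ≤ 0), max_eq_left h, max_eq_left (h.trans h01)]
      simp only [Real.sqrt_zero, zero_mul, add_zero, integral_const, probReal_univ, one_smul]
      exact gaussOp_mono bμ bR ha _ hle x
    · rw [max_eq_left (by linarith : (0:ℝ) ≤ μ - t0), max_eq_right h]
      rcases le_total μ t1 with h' | h'
      · have hle : ∀ y, Rμ y ≤ R y := by
          intro y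
          have := ih' y
          rw [max_eq_right (by linarith : μ - t1 ≤ 0)] at this
          simpa using this
        rw [max_eq_left h']
        have b1 := gaussOp_BC bμ ha (t1 - μ)
        have b2 := gaussOp_BC bR ha (t1 - μ)
        calc ∫ g, gaussOp a (t1 - μ) Rμ (x + Real.sqrt (μ - t0) * g) ∂γ
            ≤ ∫ g, gaussOp a (t1 - μ) R (x + Real.sqrt (μ - t0) * g) ∂γ :=
              integral_mono (b1.integrable _ _) (b2.integrable _ _)
                fun g => gaussOp_mono bμ bR ha _ hle _
          _ ≤ gaussOp a (μ - t0) (gaussOp a (t1 - μ) R) x := gaussOp_jensen b2 ha _ _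
          _ = gaussOp a (t1 - t0) R x := by
              rw [gaussOp_semigroup bR ha (by linarith) (by linarith)]
              ring_nf
      · rw [max_eq_right h', sub_self]
        have e2 : gaussOp a 0 Rμ = Rμ := by funext z; exact gaussOp_zero_width a Rμ z
        rw [e2]
        have e3 : μ - t0 = (t1 - t0) + (μ - t1) := by ring
        rw [e3, ← integral_two bμ.cont bμ.bd (by linarith) (by linarith) x]
        have hle : ∀ y, ∫ g', Rμ (y + Real.sqrt (μ - t1) * g') ∂γ ≤ R y := by
          intro y
          have := ih' y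
          rw [max_eq_left (by linarith : 0 ≤ μ - t1)] at this
          exact this
        calc ∫ g, ∫ g', Rμ (x + Real.sqrt (t1 - t0) * g + Real.sqrt (μ - t1) * g') ∂γ ∂γ
            ≤ ∫ g, R (x + Real.sqrt (t1 - t0) * g) ∂γ := by
              refine integral_mono ?_ (bR.integrable _ _) fun g => hle _
              have b0 : BC (gaussOp 0 (μ - t1) Rμ) K := gaussOp_BC bμ le_rfl _
              have := b0.integrable x (Real.sqrt (t1 - t0))
              refine this.congr (Eventually.of_forall fun g => ?_)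
              simp [gaussOp]
          _ ≤ gaussOp a (t1 - t0) R x := gaussOp_jensen bR ha _ _

/-- the mass `∑ m_i (t_{i+1} - t_i)` of the last `j` intervals. -/
def massV (t m : ℕ → ℝ) (k : ℕ) : ℕ → ℝ
  | 0 => 0
  | j + 1 => massV t m k j + m (k - 1 - j) * (t (k - j) - t (k - 1 - j))

theorem massV_nonneg {t m : ℕ → ℝ} {k : ℕ} (hm : ∀ i, 0 ≤ m i)
    (ht : ∀ i, i < k → t i ≤ t (i + 1)) : ∀ j ≤ k, 0 ≤ massV t m k j := by
  intro j
  induction j with
  | zero => intro _; exact le_rfl
  | succ j ih =>
    intro hj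
    have h1 : k - j = (k - 1 - j) + 1 := by omega
    have h2 := ht (k - 1 - j) (by omega)
    rw [← h1] at h2
    exact add_nonneg (ih (by omega)) (mul_nonneg (hm _) (by linarith))

theorem massV_mono {t m : ℕ → ℝ} {k : ℕ} (hm : ∀ i, 0 ≤ m i)
    (ht : ∀ i, i < k → t i ≤ t (i + 1)) {i j : ℕ} (hij : i ≤ j) (hj : j ≤ k) :
    massV t m k i ≤ massV t m k j := by
  induction j with
  | zero => rw [Nat.le_zero.1 hij]
  | succ j ih =>
    rcases Nat.lt_or_ge i (j + 1) with h | h
    · have h1 : k - j = (k - 1 - j) + 1 := by omega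
      have h2 := ht (k - 1 - j) (by omega)
      rw [← h1] at h2
      have := ih (by omega) (by omega)
      show _ ≤ massV t m k j + m (k - 1 - j) * (t (k - j) - t (k - 1 - j))
      have h3 : 0 ≤ m (k - 1 - j) * (t (k - j) - t (k - 1 - j)) :=
        mul_nonneg (hm _) (by linarith)
      linarith
    · have : i = j + 1 := by omega
      rw [this]

theorem recV_midLo {f : ℝ → ℝ} {K : ℝ} (hf : BC f K) {t m : ℕ → ℝ} {k : ℕ} (hm : ∀ i, 0 ≤ m i)
    (ht : ∀ i, i < k → t i ≤ t (i + 1)) {κ : ℝ} (hκ : 0 ≤ κ) (h : MidLo κ f) :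
    ∀ j ≤ k, MidLo (κ / (1 + κ * massV t m k j)) (recV f t m k j) := by
  intro j
  induction j with
  | zero => intro _; simpa [massV, recV] using h
  | succ j ih =>
    intro hj
    have ih' := ih (by omega)
    have h1 : k - j = (k - 1 - j) + 1 := by omega
    have h2 := ht (k - 1 - j) (by omega)
    rw [← h1] at h2
    have hM := massV_nonneg hm ht j (by omega)
    have hpos : 0 < 1 + κ * massV t m k j := by positivity
    have b := recV_BC hf t m k hm j
    have hw : 0 ≤ t (k - j) - t (k - 1 - j) := by linarith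
    have key := gaussOp_midLo b (hm (k - 1 - j)) hw (κ := κ / (1 + κ * massV t m k j))
      (by positivity) ih'
    have e : κ / (1 + κ * massV t m k j) /
        (1 + κ / (1 + κ * massV t m k j) * m (k - 1 - j) * (t (k - j) - t (k - 1 - j))) =
        κ / (1 + κ * massV t m k (j + 1)) := by
      have hM2 : massV t m k (j + 1) =
        massV t m k j + m (k - 1 - j) * (t (k - j) - t (k - 1 - j)) := rfl
      rw [hM2, div_div]
      congr 1
      field_simp
      ring
    rw [e] at key
    exact key

theorem recV_midHi {f : ℝ → ℝ} {K : ℝ} (hf : BC f K) {t m : ℕ → ℝ} {k : ℕ} (hm : ∀ i, 0 ≤ m i)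
    (ht : ∀ i, i < k → t i ≤ t (i + 1)) {κ : ℝ} (hκ : 0 ≤ κ) (h : MidHi κ f)
    (hlt : κ * massV t m k k < 1) :
    ∀ j ≤ k, MidHi (κ / (1 - κ * massV t m k j)) (recV f t m k j) := by
  intro j
  induction j with
  | zero => intro _; simpa [massV, recV] using h
  | succ j ih =>
    intro hj
    have ih' := ih (by omega)
    have h1 : k - j = (k - 1 - j) + 1 := by omega
    have h2 := ht (k - 1 - j) (by omega)
    rw [← h1] at h2
    have hlt1 : κ * massV t m k (j + 1) < 1 :=
      lt_of_le_of_lt (mul_le_mul_of_nonneg_left (massV_mono hm ht hj le_rfl) hκ) hlt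
    have hlt0 : κ * massV t m k j < 1 :=
      lt_of_le_of_lt (mul_le_mul_of_nonneg_left (massV_mono hm ht (by omega) le_rfl) hκ) hlt
    have hM2 : massV t m k (j + 1) =
        massV t m k j + m (k - 1 - j) * (t (k - j) - t (k - 1 - j)) := rfl
    have hpos : 0 < 1 - κ * massV t m k j := by linarith
    have b := recV_BC hf t m k hm j
    have hw : 0 ≤ t (k - j) - t (k - 1 - j) := by linarith
    have hlt2 : κ / (1 - κ * massV t m k j) * m (k - 1 - j) * (t (k - j) - t (k - 1 - j)) < 1 := by
      rw [div_mul_eq_mul_div, div_mul_eq_mul_div, div_lt_one hpos]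
      rw [hM2] at hlt1
      nlinarith
    have key := gaussOp_midHi b (hm (k - 1 - j)) hw (κ := κ / (1 - κ * massV t m k j)) hlt2 ih'
    have e : κ / (1 - κ * massV t m k j) /
        (1 - κ / (1 - κ * massV t m k j) * m (k - 1 - j) * (t (k - j) - t (k - 1 - j))) =
        κ / (1 - κ * massV t m k (j + 1)) := by
      rw [hM2, div_div]
      congr 1
      field_simp
      ring
    rw [e] at key
    exact key

end

end Crest.Agent.R146.LocRec_508
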