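import Mathlib
import Crest.Prelude.Def_InvariantGlass
import Crest.Agent.Lib.PrekopaLeindler

/-!
Row 146, node (G) (localised part), helper508: the Gaussian operator `gaussOp a w` on bounded
continuous functions: monotonicity, Jensen, semiconvexity and semiconcavity
(`MidLo`, `MidHi`: symmetric second differences).
-/

set_option autoImplicit false

namespace Crest.Agent.R146.LocRec_508

open MeasureTheory ProbabilityTheory Filter Topology Set
open Crest.ProbabilityR.InvariantGlass
open scoped ENNReal NNReal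

noncomputable section

/-- bounded continuous functions -/
structure BC (F : ℝ → ℝ) (K : ℝ) : Prop where
  cont : Continuous F
  bd : ∀ x, |F x| ≤ K

/-- symmetric semiconvexity -/
def MidLo (κ : ℝ) (F : ℝ → ℝ) : Prop := ∀ y t, 2 * F y - κ * t ^ 2 ≤ F (y + t) + F (y - t)

/-- symmetric semiconcavity -/
def MidHi (κ : ℝ) (F : ℝ → ℝ) : Prop := ∀ y t, F (y + t) + F (y - t) ≤ 2 * F y + κ * t ^ 2

local notation "γ" => gaussianReal 0 1

theorem BC.integrable_exp {F : ℝ → ℝ} {K : ℝ} (hF : BC F K) (a y s : ℝ) :
    Integrable (fun g : ℝ => Real.exp (a * F (y + s * g))) γ := by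
  have hc := hF.cont
  refine Integrable.mono' (integrable_const (Real.exp (|a| * K))) (by fun_prop)
    (Eventually.of_forall fun g => ?_)
  rw [Real.norm_eq_abs, abs_of_pos (Real.exp_pos _)]
  refine Real.exp_le_exp.2 ?_
  calc a * F (y + s * g) ≤ |a * F (y + s * g)| := le_abs_self _
    _ = |a| * |F (y + s * g)| := abs_mul _ _
    _ ≤ |a| * K := mul_le_mul_of_nonneg_left (hF.bd _) (abs_nonneg a)

theorem BC.integrable {F : ℝ → ℝ} {K : ℝ} (hF : BC F K) (y s : ℝ) :
    Integrable (fun g : ℝ => F (y + s * g)) γ := by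
  have hc := hF.cont
  refine Integrable.mono' (integrable_const K) (by fun_prop)
    (Eventually.of_forall fun g => ?_)
  rw [Real.norm_eq_abs]
  exact hF.bd _

theorem integral_exp_pos {F : ℝ → ℝ} {K : ℝ} (hF : BC F K) (a y s : ℝ) :
    0 < ∫ g, Real.exp (a * F (y + s * g)) ∂γ := by
  refine (integral_pos_iff_support_of_nonneg (fun g => (Real.exp_pos _).le)
    (hF.integrable_exp a y s)).2 ?_
  have : Function.support (fun g : ℝ => Real.exp (a * F (y + s * g))) = univ := by
    ext g
    simp [(Real.exp_pos _).ne']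
  rw [this]
  simp

/-- Jensen: the linear average is below `gaussOp a`, `a ≥ 0`. -/
theorem gaussOp_jensen {F : ℝ → ℝ} {K : ℝ} (hF : BC F K) {a : ℝ} (ha : 0 ≤ a) (w y : ℝ) :
    ∫ g, F (y + Real.sqrt w * g) ∂γ ≤ gaussOp a w F y := by
  unfold gaussOp
  split_ifs with h0
  · exact le_rfl
  · have ha' : 0 < a := lt_of_le_of_ne ha (Ne.symm h0)
    set s := Real.sqrt w
    set m := ∫ g, F (y + s * g) ∂γ with hm
    have hp := integral_exp_pos hF a y s
    have key : Real.exp (a * m) ≤ ∫ g, Real.exp (a * F (y + s * g)) ∂γ := by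
      have h1 : ∀ g : ℝ, Real.exp (a * m) * (1 + (a * F (y + s * g) - a * m)) ≤
          Real.exp (a * F (y + s * g)) := by
        intro g
        have h2 := Real.add_one_le_exp (a * F (y + s * g) - a * m)
        have h3 : Real.exp (a * F (y + s * g)) =
            Real.exp (a * m) * Real.exp (a * F (y + s * g) - a * m) := by
          rw [← Real.exp_add]; ring_nf
        rw [h3]
        refine mul_le_mul_of_nonneg_left ?_ (Real.exp_pos _).le
        linarith
      have h4 := integral_mono (f := fun g => Real.exp (a * m) * (1 + (a * F (y + s * g) - a * m)))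
        (g := fun g => Real.exp (a * F (y + s * g))) (μ := γ) ?_ (hF.integrable_exp a y s) h1
      · have h5 : ∫ g, Real.exp (a * m) * (1 + (a * F (y + s * g) - a * m)) ∂γ =
            Real.exp (a * m) := by
          rw [integral_const_mul]
          have h6 : ∫ g, (1 + (a * F (y + s * g) - a * m)) ∂γ = 1 := by
            have e : (fun g : ℝ => (1 + (a * F (y + s * g) - a * m))) =
                fun g => (1 - a * m) + a * F (y + s * g) := by
              funext g; ring
            rw [e, integral_add (integrable_const _) ((hF.integrable y s).const_mul a),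
              integral_const_mul, integral_const]
            simp only [probReal_univ, smul_eq_mul, one_mul]
            rw [← hm]; ring
          rw [h6, mul_one]
        rw [h5] at h4
        exact h4
      · refine Integrable.const_mul ?_ _
        exact (integrable_const _).add (((hF.integrable y s).const_mul a).sub (integrable_const _))
    have h7 : a * m ≤ Real.log (∫ g, Real.exp (a * F (y + s * g)) ∂γ) := by
      rw [← Real.log_exp (a * m)]
      exact Real.log_le_log (Real.exp_pos _) key
    rw [inv_mul_eq_div, le_div_iff₀ ha']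
    linarith

/-- `gaussOp` is monotone. -/
theorem gaussOp_mono {F G : ℝ → ℝ} {K L : ℝ} (hF : BC F K) (hG : BC G L) {a : ℝ} (ha : 0 ≤ a)
    (w : ℝ) (h : ∀ x, F x ≤ G x) (y : ℝ) : gaussOp a w F y ≤ gaussOp a w G y := by
  unfold gaussOp
  split_ifs with h0
  · exact integral_mono (hF.integrable y _) (hG.integrable y _) fun g => h _
  · have ha' : 0 < a := lt_of_le_of_ne ha (Ne.symm h0)
    refine mul_le_mul_of_nonneg_left ?_ (inv_nonneg.2 ha)
    refine Real.log_le_log (integral_exp_pos hF a y _) ?_
    refine integral_mono (hF.integrable_exp a y _) (hG.integrable_exp a y _) fun g => ?_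
    exact Real.exp_le_exp.2 (mul_le_mul_of_nonneg_left (h _) ha)

/-- `gaussOp` of a constant. -/
theorem gaussOp_const {a : ℝ} (w c y : ℝ) : gaussOp a w (fun _ => c) y = c := by
  unfold gaussOp
  split_ifs with h0
  · simp
  · simp only [integral_const, probReal_univ, one_smul, Real.log_exp]
    field_simp

theorem gaussOp_add_const {F : ℝ → ℝ} {K : ℝ} (hF : BC F K) (a w c y : ℝ) :
    gaussOp a w (fun x => F x + c) y = gaussOp a w F y + c := by
  unfold gaussOp
  split_ifs with h0
  · rw [integral_add (hF.integrable y _) (integrable_const _)]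
    simp
  · have e : (fun g : ℝ => Real.exp (a * (F (y + Real.sqrt w * g) + c))) =
        fun g => Real.exp (a * c) * Real.exp (a * F (y + Real.sqrt w * g)) := by
      funext g; rw [← Real.exp_add]; ring_nf
    rw [e, integral_const_mul, Real.log_mul (Real.exp_pos _).ne' (integral_exp_pos hF a y _).ne',
      Real.log_exp]
    field_simp
    ring

theorem gaussOp_continuous {F : ℝ → ℝ} {K : ℝ} (hF : BC F K) (a w : ℝ) :
    Continuous (gaussOp a w F) := by
  have hc := hF.cont
  unfold gaussOp
  split_ifs with h0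
  · refine continuous_of_dominated (bound := fun _ => K) (fun y => by fun_prop) (fun y => ?_)
      (integrable_const _) (Eventually.of_forall fun g => by fun_prop)
    exact Eventually.of_forall fun g => by rw [Real.norm_eq_abs]; exact hF.bd _
  · have h1 : Continuous fun y => ∫ g, Real.exp (a * F (y + Real.sqrt w * g)) ∂γ := by
      refine continuous_of_dominated (bound := fun _ => Real.exp (|a| * K))
        (fun y => by fun_prop) (fun y => ?_) (integrable_const _)
        (Eventually.of_forall fun g => by fun_prop)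
      refine Eventually.of_forall fun g => ?_
      rw [Real.norm_eq_abs, abs_of_pos (Real.exp_pos _)]
      refine Real.exp_le_exp.2 ?_
      calc a * F (y + Real.sqrt w * g) ≤ |a * F (y + Real.sqrt w * g)| := le_abs_self _
        _ = |a| * |F (y + Real.sqrt w * g)| := abs_mul _ _
        _ ≤ |a| * K := mul_le_mul_of_nonneg_left (hF.bd _) (abs_nonneg a)
    exact continuous_const.mul (h1.log fun y => (integral_exp_pos hF a y _).ne')

theorem gaussOp_BC {F : ℝ → ℝ} {K : ℝ} (hF : BC F K) {a : ℝ} (ha : 0 ≤ a) (w : ℝ) :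
    BC (gaussOp a w F) K := by
  refine ⟨gaussOp_continuous hF a w, fun y => ?_⟩
  have hK : 0 ≤ K := (abs_nonneg _).trans (hF.bd 0)
  have cK : BC (fun _ : ℝ => K) K := ⟨continuous_const, fun _ => by rw [abs_of_nonneg hK]⟩
  have cK' : BC (fun _ : ℝ => -K) K :=
    ⟨continuous_const, fun _ => by rw [abs_neg, abs_of_nonneg hK]⟩
  rw [abs_le]
  constructor
  · have := gaussOp_mono cK' hF ha w (fun x => (abs_le.1 (hF.bd x)).1) y
    rwa [gaussOp_const] at this
  · have := gaussOp_mono hF cK ha w (fun x => (abs_le.1 (hF.bd x)).2) y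
    rwa [gaussOp_const] at this

/-! ### shift of the Gaussian -/

theorem integral_gauss (φ : ℝ → ℝ) :
    ∫ g, φ g ∂γ = ∫ x, (Real.sqrt (2 * Real.pi))⁻¹ * Real.exp (-x ^ 2 / 2) * φ x := by
  rw [integral_gaussianReal_eq_integral_smul one_ne_zero]
  refine integral_congr_ae (Eventually.of_forall fun x => ?_)
  simp [gaussianPDFReal]

theorem integral_gauss_shift (φ : ℝ → ℝ) (s : ℝ) :
    ∫ g, φ g ∂γ = ∫ g, φ (g - s) * Real.exp (g * s - s ^ 2 / 2) ∂γ := by
  rw [integral_gauss, integral_gauss,
    ← integral_sub_right_eq_self (fun x => (Real.sqrt (2 * Real.pi))⁻¹ *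
      Real.exp (-x ^ 2 / 2) * φ x) s]
  refine integral_congr_ae (Eventually.of_forall fun x => ?_)
  simp only
  have : Real.exp (-(x - s) ^ 2 / 2) = Real.exp (-x ^ 2 / 2) * Real.exp (x * s - s ^ 2 / 2) := by
    rw [← Real.exp_add]; ring_nf
  rw [this]; ring

/-- the shifted form of the exponential average -/
theorem expAvg_shift {F : ℝ → ℝ} {w : ℝ} (hw : 0 < w) (a α y : ℝ) :
    ∫ g, Real.exp (a * F (y + Real.sqrt w * g)) ∂γ =
      ∫ g, Real.exp (a * F (α * y + Real.sqrt w * g) + g * ((1 - α) * y / Real.sqrt w) -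
        ((1 - α) * y / Real.sqrt w) ^ 2 / 2) ∂γ := by
  have hs : 0 < Real.sqrt w := Real.sqrt_pos.2 hw
  rw [integral_gauss_shift _ ((1 - α) * y / Real.sqrt w)]
  refine integral_congr_ae (Eventually.of_forall fun g => ?_)
  simp only
  rw [← Real.exp_add]
  have : y + Real.sqrt w * (g - (1 - α) * y / Real.sqrt w) = α * y + Real.sqrt w * g := by
    field_simp; ring
  rw [this]
  ring_nf

theorem integrable_exp_lin (c : ℝ) : Integrable (fun g : ℝ => Real.exp (c * g)) γ := by
  exact integrable_exp_mul_gaussianReal c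

theorem BC.integrable_shift {F : ℝ → ℝ} {K : ℝ} (hF : BC F K) (a z r s : ℝ) :
    Integrable (fun g : ℝ => Real.exp (a * F (z + r * g) + g * s - s ^ 2 / 2)) γ := by
  have hc := hF.cont
  refine Integrable.mono' ((integrable_exp_lin s).const_mul (Real.exp (|a| * K - s ^ 2 / 2)))
    (by fun_prop) (Eventually.of_forall fun g => ?_)
  rw [Real.norm_eq_abs, abs_of_pos (Real.exp_pos _), ← Real.exp_add]
  refine Real.exp_le_exp.2 ?_
  have h1 : a * F (z + r * g) ≤ |a| * K := by
    calc a * F (z + r * g) ≤ |a * F (z + r * g)| := le_abs_self _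
      _ = |a| * |F (z + r * g)| := abs_mul _ _
      _ ≤ |a| * K := mul_le_mul_of_nonneg_left (hF.bd _) (abs_nonneg a)
  linarith

/-- algebra for the semiconvexity step -/
theorem alg_lo {a κ w α t r : ℝ} (hr : r ≠ 0) (hrw : r ^ 2 = w) (hα : α * (1 + κ * a * w) = 1) :
    a * κ * α ^ 2 * t ^ 2 + ((1 - α) * t / r) ^ 2 = a * (κ * α) * t ^ 2 := by
  have h1 : 1 - α = κ * a * w * α := by linarith
  have h2 : (1 - α) * t / r = κ * a * r * α * t := by
    rw [h1, ← hrw]; field_simp
  rw [h2, mul_pow, mul_pow, mul_pow, mul_pow, hrw]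
  have h3 : α + κ * a * w * α = 1 := by linarith
  calc a * κ * α ^ 2 * t ^ 2 + κ ^ 2 * a ^ 2 * w * α ^ 2 * t ^ 2
      = a * κ * α * t ^ 2 * (α + κ * a * w * α) := by ring
    _ = _ := by rw [h3]; ring

/-- semiconvexity is preserved by `gaussOp`, with the Riccati constant. -/
theorem gaussOp_midLo {F : ℝ → ℝ} {K : ℝ} (hF : BC F K) {a : ℝ} (ha : 0 ≤ a) {w : ℝ}
    (hw : 0 ≤ w) {κ : ℝ} (hκ : 0 ≤ κ) (h : MidLo κ F) :
    MidLo (κ / (1 + κ * a * w)) (gaussOp a w F) := by
  rcases hw.eq_or_lt with hw0 | hw
  · subst hw0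
    intro y t
    have e : ∀ z, gaussOp a 0 F z = F z := by
      intro z
      unfold gaussOp
      split_ifs with h0
      · simp
      · simp only [Real.sqrt_zero, zero_mul, add_zero, integral_const, probReal_univ, one_smul,
          Real.log_exp]
        field_simp
    rw [e, e, e]
    simpa using h y t
  by_cases h0 : a = 0
  · subst h0
    intro y t
    simp only [gaussOp, if_true, mul_zero, zero_mul, add_zero, div_one]
    have h1 := integral_mono (μ := γ) (f := fun g => 2 * F (y + Real.sqrt w * g) - κ * t ^ 2)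
      (g := fun g => F (y + t + Real.sqrt w * g) + F (y - t + Real.sqrt w * g))
      (((hF.integrable y _).const_mul 2).sub (integrable_const _))
      ((hF.integrable _ _).add (hF.integrable _ _)) (fun g => by
        have := h (y + Real.sqrt w * g) t
        have e1 : y + Real.sqrt w * g + t = y + t + Real.sqrt w * g := by ring
        have e2 : y + Real.sqrt w * g - t = y - t + Real.sqrt w * g := by ring
        rw [e1, e2] at this
        exact this)
    rw [integral_sub ((hF.integrable y _).const_mul 2) (integrable_const _), integral_const_mul,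
      integral_add (hF.integrable _ _) (hF.integrable _ _)] at h1
    simpa using h1
  have ha' : 0 < a := lt_of_le_of_ne ha (Ne.symm h0)
  have hden : 0 < 1 + κ * a * w := by positivity
  set r := Real.sqrt w with hr
  have hr0 : 0 < r := Real.sqrt_pos.2 hw
  have hrw : r ^ 2 = w := Real.sq_sqrt hw.le
  set α := (1 + κ * a * w)⁻¹ with hα
  have hα1 : α * (1 + κ * a * w) = 1 := inv_mul_cancel₀ hden.ne'
  have hκα : κ / (1 + κ * a * w) = κ * α := by rw [hα, div_eq_mul_inv]
  rw [hκα]
  intro y t
  -- notation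
  set G : ℝ → ℝ := fun z => ∫ g, Real.exp (a * F (z + r * g)) ∂γ with hG
  have hGpos : ∀ z, 0 < G z := fun z => integral_exp_pos hF a z r
  have hGO : ∀ z, gaussOp a w F z = a⁻¹ * Real.log (G z) := by
    intro z; unfold gaussOp; rw [if_neg h0]
  -- the shifted integrand
  set Q : ℝ → ℝ → ℝ := fun z g => a * F (α * z + r * g) + g * ((1 - α) * z / r) -
        ((1 - α) * z / r) ^ 2 / 2 with hQ
  have hGQ : ∀ z, G z = ∫ g, Real.exp (Q z g) ∂γ := fun z => expAvg_shift hw a α z
  have hQi : ∀ z, Integrable (fun g => Real.exp (Q z g)) γ := fun z =>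
    hF.integrable_shift a (α * z) r ((1 - α) * z / r)
  have hpt : ∀ g, 2 * Q y g - a * (κ * α) * t ^ 2 ≤ Q (y + t) g + Q (y - t) g := by
    intro g
    have h1 := h (α * y + r * g) (α * t)
    have e1 : α * y + r * g + α * t = α * (y + t) + r * g := by ring
    have e2 : α * y + r * g - α * t = α * (y - t) + r * g := by ring
    rw [e1, e2] at h1
    have h2 := mul_le_mul_of_nonneg_left h1 ha
    have h3 := alg_lo (t := t) hr0.ne' hrw hα1
    have e3 : ((1 - α) * (y + t) / r) = (1 - α) * y / r + (1 - α) * t / r := by ring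
    have e4 : ((1 - α) * (y - t) / r) = (1 - α) * y / r - (1 - α) * t / r := by ring
    simp only [hQ]
    rw [e3, e4]
    nlinarith [h2, h3]
  -- Cauchy-Schwarz through AM-GM with the normalising constants
  have key : Real.log (G y) ≤ (Real.log (G (y + t)) + Real.log (G (y - t))) / 2 +
      a * (κ * α) * t ^ 2 / 2 := by
    set A := Real.log (G (y + t))
    set B := Real.log (G (y - t))
    have h5 : ∀ g, Real.exp (Q y g - ((A + B) / 2 + a * (κ * α) * t ^ 2 / 2)) ≤
        (1 / 2) * Real.exp (-A) * Real.exp (Q (y + t) g) +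
        (1 / 2) * Real.exp (-B) * Real.exp (Q (y - t) g) := by
      intro g
      have h6 : Q y g - ((A + B) / 2 + a * (κ * α) * t ^ 2 / 2) ≤
          ((Q (y + t) g - A) + (Q (y - t) g - B)) / 2 := by
        have := hpt g; linarith
      refine (Real.exp_le_exp.2 h6).trans ?_
      have h7 : Real.exp (((Q (y + t) g - A) + (Q (y - t) g - B)) / 2) ≤
          (Real.exp (Q (y + t) g - A) + Real.exp (Q (y - t) g - B)) / 2 := by
        set u := Q (y + t) g - A
        set v := Q (y - t) g - B
        have e5 : Real.exp ((u + v) / 2) = Real.exp (u / 2) * Real.exp (v / 2) := by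
          rw [← Real.exp_add]; ring_nf
        have e6 : Real.exp u = Real.exp (u / 2) ^ 2 := by
          rw [← Real.exp_nat_mul]; ring_nf
        have e7 : Real.exp v = Real.exp (v / 2) ^ 2 := by
          rw [← Real.exp_nat_mul]; ring_nf
        rw [e5, e6, e7]
        nlinarith [sq_nonneg (Real.exp (u / 2) - Real.exp (v / 2))]
      refine h7.trans (le_of_eq ?_)
      have e8 : Real.exp (Q (y + t) g - A) = Real.exp (-A) * Real.exp (Q (y + t) g) := by
        rw [← Real.exp_add]; ring_nf
      have e9 : Real.exp (Q (y - t) g - B) = Real.exp (-B) * Real.exp (Q (y - t) g) := by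
        rw [← Real.exp_add]; ring_nf
      rw [e8, e9]; ring
    have h8 := integral_mono (μ := γ) (((hQi y).const_mul
        (Real.exp (-((A + B) / 2 + a * (κ * α) * t ^ 2 / 2)))).congr
        (Eventually.of_forall fun g => by
          show Real.exp (-((A + B) / 2 + a * (κ * α) * t ^ 2 / 2)) * Real.exp (Q y g) =
            Real.exp (Q y g - ((A + B) / 2 + a * (κ * α) * t ^ 2 / 2))
          rw [← Real.exp_add]; ring_nf))
      (((hQi (y + t)).const_mul ((1 / 2) * Real.exp (-A))).add
        ((hQi (y - t)).const_mul ((1 / 2) * Real.exp (-B)))) h5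
    rw [Pi.add_def, integral_add ((hQi (y + t)).const_mul _) ((hQi (y - t)).const_mul _),
      integral_const_mul, integral_const_mul, ← hGQ, ← hGQ] at h8
    have h9 : ∫ g, Real.exp (Q y g - ((A + B) / 2 + a * (κ * α) * t ^ 2 / 2)) ∂γ =
        Real.exp (-((A + B) / 2 + a * (κ * α) * t ^ 2 / 2)) * G y := by
      rw [hGQ, ← integral_const_mul]
      refine integral_congr_ae (Eventually.of_forall fun g => ?_)
      simp only
      rw [← Real.exp_add]; ring_nf
    rw [h9] at h8
    have eA : Real.exp (-A) * G (y + t) = 1 := by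
      rw [Real.exp_neg, Real.exp_log (hGpos _), inv_mul_cancel₀ (hGpos _).ne']
    have eB : Real.exp (-B) * G (y - t) = 1 := by
      rw [Real.exp_neg, Real.exp_log (hGpos _), inv_mul_cancel₀ (hGpos _).ne']
    have h10 : Real.exp (-((A + B) / 2 + a * (κ * α) * t ^ 2 / 2)) * G y ≤ 1 := by
      calc _ ≤ _ := h8
        _ = (1 / 2) * (Real.exp (-A) * G (y + t)) + (1 / 2) * (Real.exp (-B) * G (y - t)) := by
          ring
        _ = 1 := by rw [eA, eB]; ring
    rw [Real.exp_neg, inv_mul_le_iff₀ (Real.exp_pos _), mul_one] at h10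
    calc Real.log (G y) ≤ Real.log (Real.exp ((A + B) / 2 + a * (κ * α) * t ^ 2 / 2)) :=
          Real.log_le_log (hGpos y) h10
      _ = _ := Real.log_exp _
  rw [hGO, hGO, hGO]
  have h11 : a⁻¹ * (a * (κ * α) * t ^ 2) = (κ * α) * t ^ 2 := by field_simp
  have h12 := mul_le_mul_of_nonneg_left key (inv_nonneg.2 ha)
  nlinarith [h11, h12]

/-- algebra for the semiconcavity step -/
theorem alg_hi {a κ w α t r δ : ℝ} (hr : r ≠ 0) (hrw : r ^ 2 = w)
    (hα : α * (1 - κ * a * w) = 1) (hκ : κ * a * w ≤ 1) :
    a * κ * (α * t + r * δ) ^ 2 + 2 * δ * ((1 - α) * t / r) - ((1 - α) * t / r) ^ 2 - δ ^ 2 ≤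
      a * (κ * α) * t ^ 2 := by
  have h1 : 1 - α = -(κ * a * w * α) := by linarith
  have h2 : (1 - α) * t / r = -(κ * a * r * α * t) := by
    rw [h1, ← hrw]; field_simp
  rw [h2]
  have h3 : α - κ * a * w * α = 1 := by linarith
  have h4 : a * (κ * α) * t ^ 2 - (a * κ * (α * t + r * δ) ^ 2 + 2 * δ * (-(κ * a * r * α * t)) -
      (-(κ * a * r * α * t)) ^ 2 - δ ^ 2) =
      a * κ * α * t ^ 2 * (1 - (α - κ * a * r ^ 2 * α)) + δ ^ 2 * (1 - κ * a * r ^ 2) := by
    ring
  rw [hrw, h3] at h4
  have h5 : 0 ≤ δ ^ 2 * (1 - κ * a * w) := mul_nonneg (sq_nonneg _) (by linarith)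
  linarith

/-- semiconcavity is preserved by `gaussOp`, with the Riccati constant (Prekopa-Leindler). -/
theorem gaussOp_midHi {F : ℝ → ℝ} {K : ℝ} (hF : BC F K) {a : ℝ} (ha : 0 ≤ a) {w : ℝ}
    (hw : 0 ≤ w) {κ : ℝ} (hκ1 : κ * a * w < 1) (h : MidHi κ F) :
    MidHi (κ / (1 - κ * a * w)) (gaussOp a w F) := by
  rcases hw.eq_or_lt with hw0 | hw
  · subst hw0
    intro y t
    have e : ∀ z, gaussOp a 0 F z = F z := by
      intro z
      unfold gaussOp
      split_ifs with h0
      · simp
      · simp only [Real.sqrt_zero, zero_mul, add_zero, integral_const, probReal_univ, one_smul,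
          Real.log_exp]
        field_simp
    rw [e, e, e]
    simpa using h y t
  by_cases h0 : a = 0
  · subst h0
    intro y t
    simp only [gaussOp, if_true, mul_zero, zero_mul, sub_zero, div_one]
    have h1 := integral_mono (μ := γ)
      (f := fun g => F (y + t + Real.sqrt w * g) + F (y - t + Real.sqrt w * g))
      (g := fun g => 2 * F (y + Real.sqrt w * g) + κ * t ^ 2)
      ((hF.integrable _ _).add (hF.integrable _ _))
      (((hF.integrable y _).const_mul 2).add (integrable_const _)) (fun g => by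
        have := h (y + Real.sqrt w * g) t
        have e1 : y + Real.sqrt w * g + t = y + t + Real.sqrt w * g := by ring
        have e2 : y + Real.sqrt w * g - t = y - t + Real.sqrt w * g := by ring
        rw [e1, e2] at this
        exact this)
    rw [integral_add ((hF.integrable y _).const_mul 2) (integrable_const _), integral_const_mul,
      integral_add (hF.integrable _ _) (hF.integrable _ _)] at h1
    simpa using h1
  have ha' : 0 < a := lt_of_le_of_ne ha (Ne.symm h0)
  have hden : 0 < 1 - κ * a * w := by linarith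
  set r := Real.sqrt w with hr
  have hr0 : 0 < r := Real.sqrt_pos.2 hw
  have hrw : r ^ 2 = w := Real.sq_sqrt hw.le
  set α := (1 - κ * a * w)⁻¹ with hα
  have hα1 : α * (1 - κ * a * w) = 1 := inv_mul_cancel₀ hden.ne'
  have hκα : κ / (1 - κ * a * w) = κ * α := by rw [hα, div_eq_mul_inv]
  rw [hκα]
  intro y t
  set G : ℝ → ℝ := fun z => ∫ g, Real.exp (a * F (z + r * g)) ∂γ with hG
  have hGpos : ∀ z, 0 < G z := fun z => integral_exp_pos hF a z r
  have hGO : ∀ z, gaussOp a w F z = a⁻¹ * Real.log (G z) := by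
    intro z; unfold gaussOp; rw [if_neg h0]
  set Q : ℝ → ℝ → ℝ := fun z g => a * F (α * z + r * g) + g * ((1 - α) * z / r) -
        ((1 - α) * z / r) ^ 2 / 2 with hQ
  have hGQ : ∀ z, G z = ∫ g, Real.exp (Q z g) ∂γ := fun z => expAvg_shift hw a α z
  set c0 := (Real.sqrt (2 * Real.pi))⁻¹ with hc0
  have hc0pos : 0 < c0 := by rw [hc0]; positivity
  -- densities on the line
  set d : ℝ → ℝ → ℝ := fun z x => c0 * Real.exp (-x ^ 2 / 2) * Real.exp (Q z x) with hd
  have hGd : ∀ z, G z = ∫ x, d z x := by
    intro z; rw [hGQ, integral_gauss]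
  have hdpos : ∀ z x, 0 < d z x := fun z x => by
    simp only [hd]; positivity
  have hdint : ∀ z, Integrable (d z) := by
    intro z
    by_contra hni
    have := integral_undef hni
    rw [← hGd] at this
    exact (hGpos z).ne' this
  have hFc := hF.cont
  have hdm : ∀ z, Measurable (d z) := by
    intro z
    have : Continuous (d z) := by
      simp only [hd, hQ]; fun_prop
    exact this.measurable
  -- pointwise inequality
  have hpt : ∀ x x' : ℝ, Q (y + t) x + Q (y - t) x' - (x ^ 2 + x' ^ 2) / 2 ≤
      2 * Q y ((x + x') / 2) - ((x + x') / 2) ^ 2 + a * (κ * α) * t ^ 2 := by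
    intro x x'
    set δ := (x - x') / 2 with hδ
    set mm := (x + x') / 2 with hmm
    have hx : x = mm + δ := by rw [hmm, hδ]; ring
    have hx' : x' = mm - δ := by rw [hmm, hδ]; ring
    have h1 := h (α * y + r * mm) (α * t + r * δ)
    have e1 : α * y + r * mm + (α * t + r * δ) = α * (y + t) + r * x := by rw [hx]; ring
    have e2 : α * y + r * mm - (α * t + r * δ) = α * (y - t) + r * x' := by rw [hx']; ring
    rw [e1, e2] at h1
    have h2 := mul_le_mul_of_nonneg_left h1 ha
    have h3 := alg_hi (t := t) (δ := δ) hr0.ne' hrw hα1 hκ1.le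
    have e3 : ((1 - α) * (y + t) / r) = (1 - α) * y / r + (1 - α) * t / r := by ring
    have e4 : ((1 - α) * (y - t) / r) = (1 - α) * y / r - (1 - α) * t / r := by ring
    simp only [hQ]
    rw [e3, e4]
    set S := (1 - α) * y / r
    set T := (1 - α) * t / r
    have e5 : a * F (α * (y + t) + r * x) + x * (S + T) - (S + T) ^ 2 / 2 +
        (a * F (α * (y - t) + r * x') + x' * (S - T) - (S - T) ^ 2 / 2) - (x ^ 2 + x' ^ 2) / 2 =
        a * (F (α * (y + t) + r * x) + F (α * (y - t) + r * x')) + 2 * mm * S + 2 * δ * T - S ^ 2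
          - T ^ 2 - mm ^ 2 - δ ^ 2 := by
      rw [hx, hx']; ring
    rw [e5]
    nlinarith [h2, h3]
  have key : (Real.log (G (y + t)) + Real.log (G (y - t))) / 2 ≤ Real.log (G y) +
      a * (κ * α) * t ^ 2 / 2 := by
    set E := Real.exp (a * (κ * α) * t ^ 2 / 2) with hE
    have hEpos : 0 < E := Real.exp_pos _
    have hPL := Lib.PrekopaLeindler.pl_real (t := 1 / 2) (by norm_num) (by norm_num)
      (f := fun x => ENNReal.ofReal (d (y + t) x)) (g := fun x => ENNReal.ofReal (d (y - t) x))
      (h := fun x => ENNReal.ofReal (E * d y x)) (hdm _).ennreal_ofReal (hdm _).ennreal_ofReal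
      ((hdm y).const_mul E).ennreal_ofReal ?_
    · rw [← ofReal_integral_eq_lintegral_ofReal (hdint _) (ae_of_all _ fun x => (hdpos _ x).le),
        ← ofReal_integral_eq_lintegral_ofReal (hdint _) (ae_of_all _ fun x => (hdpos _ x).le),
        ← ofReal_integral_eq_lintegral_ofReal ((hdint y).const_mul E)
          (ae_of_all _ fun x => (mul_pos hEpos (hdpos _ x)).le), ← hGd, ← hGd,
        integral_const_mul, ← hGd] at hPL
      have e1 : (1 : ℝ) - 1 / 2 = 1 / 2 := by norm_num
      rw [e1, ENNReal.ofReal_rpow_of_pos (hGpos _), ENNReal.ofReal_rpow_of_pos (hGpos _),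
        ← ENNReal.ofReal_mul (Real.rpow_nonneg (hGpos _).le _),
        ENNReal.ofReal_le_ofReal_iff (mul_pos hEpos (hGpos _)).le] at hPL
      have h2 := Real.log_le_log (mul_pos (Real.rpow_pos_of_pos (hGpos _) _)
        (Real.rpow_pos_of_pos (hGpos _) _)) hPL
      rw [Real.log_mul (Real.rpow_pos_of_pos (hGpos _) _).ne'
        (Real.rpow_pos_of_pos (hGpos _) _).ne', Real.log_rpow (hGpos _), Real.log_rpow (hGpos _),
        Real.log_mul hEpos.ne' (hGpos _).ne', hE, Real.log_exp] at h2
      linarith
    · intro x x'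
      have e1 : (1 : ℝ) - 1 / 2 = 1 / 2 := by norm_num
      rw [e1, ENNReal.ofReal_rpow_of_pos (hdpos _ _), ENNReal.ofReal_rpow_of_pos (hdpos _ _),
        ← ENNReal.ofReal_mul (Real.rpow_nonneg (hdpos _ _).le _)]
      refine ENNReal.ofReal_le_ofReal ?_
      have e2 : (1 / 2 : ℝ) * x + 1 / 2 * x' = (x + x') / 2 := by ring
      rw [e2]
      have e3 : ∀ z u, d z u = Real.exp (Real.log c0 - u ^ 2 / 2 + Q z u) := by
        intro z u
        have e4 : c0 = Real.exp (Real.log c0) := (Real.exp_log hc0pos).symm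
        have e5 : d z u = Real.exp (Real.log c0) * Real.exp (-u ^ 2 / 2) * Real.exp (Q z u) := by
          rw [← e4]
        rw [e5, ← Real.exp_add, ← Real.exp_add]
        congr 1
        ring
      rw [e3, e3, e3, hE, ← Real.exp_mul, ← Real.exp_mul, ← Real.exp_add, ← Real.exp_add]
      refine Real.exp_le_exp.2 ?_
      have := hpt x x'
      nlinarith [this]
  rw [hGO, hGO, hGO]
  have h11 : a⁻¹ * (a * (κ * α) * t ^ 2) = (κ * α) * t ^ 2 := by field_simp
  have h12 := mul_le_mul_of_nonneg_left key (inv_nonneg.2 ha)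
  nlinarith [h11, h12]

end

end Crest.Agent.R146.LocRec_508
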