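import Crest.Agent.R146.VTr_468
import Crest.Agent.R146.P34b_323
import Crest.Agent.R146.LocCore_508
import Crest.Agent.R146.CtlG_130
import Crest.Agent.R146.MonB_911
import Crest.Agent.R146.Wrap_947
import Crest.Agent.R146.G7Pot_435

/-!
Row 146, node G7 of LOCUB, parts (d)+(e) of post 960 (helper468).

* `value_le_add` : `ψ ≤ f + d` implies `V_ψ(m) ≤ V_f(m) + d` (bounded measurable functions);
* `value_step_near` : the value at step profiles, `α Th J ψ P + SP J P ≤ Pv α (fq + h θ) + δ`;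
* `Pot` : the smooth potential of (d);
* `locv_of` : LOCV from the existence of `Pot`.
-/

set_option autoImplicit false
set_option linter.unusedSectionVars false
set_option linter.unusedVariables false

open MeasureTheory ProbabilityTheory Filter Set Crest.ProbabilityR.Perceptron
open scoped Topology

namespace Crest.Agent.R146.LocV_468

open Crest.Agent.R146.S6Def_988 (Lev Th SP mP BL)
open Crest.Agent.R146.LocRec_508 (MidLo MidHi)
open Crest.Agent.R146.LocCore_508 (Tcut)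
open Crest.Agent.R146.P34_734
open Crest.Agent.R146.P34b_323 (test_lipschitz continuous_fqL abs_fqL_le)

/-- a bounded change of the potential from above -/
theorem value_le_add {Ω : Type} [MeasurableSpace Ω] {P : Measure Ω} [IsProbabilityMeasure P]
    {B : NNReal → Ω → ℝ} {hBm : ∀ t, Measurable (B t)} {ψ f : ℝ → ℝ}
    (hψm : Measurable ψ) (hfm : Measurable f) {K : ℝ} (hψ : ∀ x, |ψ x| ≤ K) (hf : ∀ x, |f x| ≤ K)
    {d : ℝ} (h : ∀ x, ψ x ≤ f x + d) (m : OverlapProfile) :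
    controlValue P B hBm ψ m ≤ controlValue P B hBm f m + d := by
  refine CtlF_130.value_le m fun v hv => ?_
  have h1 : controlPayoff P B ψ m v ≤ controlPayoff P B f m v + d := by
    rw [CtlF_130.payoff_eq m hv, CtlF_130.payoff_eq m hv]
    have hX := CtlF_130.meas_end m hBm hv.1
    have i1 : Integrable (fun ω => ψ (B 1 ω + ∫ t in (0:ℝ)..1, m.toFun t * v t.toNNReal ω)) P :=
      Integrable.of_bound (hψm.comp hX).aestronglyMeasurable K
        (ae_of_all _ fun ω => by rw [Real.norm_eq_abs]; exact hψ _)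
    have i2 : Integrable (fun ω => f (B 1 ω + ∫ t in (0:ℝ)..1, m.toFun t * v t.toNNReal ω)) P :=
      Integrable.of_bound (hfm.comp hX).aestronglyMeasurable K
        (ae_of_all _ fun ω => by rw [Real.norm_eq_abs]; exact hf _)
    have h2 : ∫ ω, ψ (B 1 ω + ∫ t in (0:ℝ)..1, m.toFun t * v t.toNNReal ω) ∂P ≤
        (∫ ω, f (B 1 ω + ∫ t in (0:ℝ)..1, m.toFun t * v t.toNNReal ω) ∂P) + d := by
      have h3 : ∫ ω, (f (B 1 ω + ∫ t in (0:ℝ)..1, m.toFun t * v t.toNNReal ω) + d) ∂P =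
          (∫ ω, f (B 1 ω + ∫ t in (0:ℝ)..1, m.toFun t * v t.toNNReal ω) ∂P) + d := by
        rw [integral_add i2 (integrable_const d)]
        simp
      rw [← h3]
      exact integral_mono i1 (i2.add (integrable_const d)) fun ω => h _
    linarith
  have h2 := CtlF_130.le_value (hBm := hBm) m hf hv
  linarith

theorem test_bdd {ψ : ℝ → ℝ} (h : Test ψ) : ∃ K, 0 ≤ K ∧ ∀ x, |ψ x| ≤ K := by
  obtain ⟨K, hK⟩ := h.bd 0
  refine ⟨max K 0, le_max_right _ _, fun x => ?_⟩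
  have := hK x
  rw [iteratedDeriv_zero] at this
  exact this.trans (le_max_left _ _)

theorem test_c2 {ψ : ℝ → ℝ} (h : Test ψ) : ContDiff ℝ 2 ψ ∧
    ∃ C, ∀ x, |ψ x| ≤ C ∧ |deriv ψ x| ≤ C ∧ |deriv (deriv ψ) x| ≤ C := by
  refine ⟨h.smooth 2, ?_⟩
  obtain ⟨K0, h0⟩ := h.bd 0
  obtain ⟨K1, h1⟩ := h.bd 1
  obtain ⟨K2, h2⟩ := h.bd 2
  refine ⟨max K0 (max K1 K2), fun x => ⟨?_, ?_, ?_⟩⟩
  · have := h0 x
    rw [iteratedDeriv_zero] at this
    exact this.trans (le_max_left _ _)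
  · have := h1 x
    rw [iteratedDeriv_one] at this
    exact this.trans ((le_max_left _ _).trans (le_max_right _ _))
  · have := h2 x
    rw [iteratedDeriv_succ, iteratedDeriv_one] at this
    exact this.trans ((le_max_right _ _).trans (le_max_right _ _))

/-- the value of `ψ` at step profiles -/
theorem value_step_near (W : BS) {α : ℝ} (hα : 0 ≤ α) {g ψ : ℝ → ℝ} (hψ : Test ψ) {e : ℝ}
    (hV : ∀ m : OverlapProfile, W.V ψ m ≤ W.V g m + e) {δ : ℝ} (hδ : 0 < δ) :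
    ∃ J0 : ℕ, ∀ J, J0 ≤ J → ∃ P : ℕ → ℝ, Lev J P ∧ P J < 1 ∧
      α * Th J ψ P + SP J P ≤ W.Pv α g + α * e + δ := by
  have hne : (W.vals α g).Nonempty :=
    ⟨_, AsmP_663.oneProf, by rw [AsmP_663.entropy_oneProf]; exact ENNReal.zero_ne_top, rfl⟩
  obtain ⟨x, ⟨m, hm, rfl⟩, hx⟩ := Real.lt_sInf_add_pos hne (show 0 < δ / 2 by positivity)
  obtain ⟨K, hK0, hK⟩ := test_bdd hψ
  obtain ⟨c, hc0, hc⟩ := test_lipschitz hψ
  obtain ⟨hC2, hCb⟩ := test_c2 hψ
  set η : ℝ := δ / (2 * (α * c ^ 2 + 1)) with hη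
  have hden : 0 < α * c ^ 2 + 1 := by positivity
  have hη0 : 0 < η := by positivity
  obtain ⟨J0, hJ0⟩ := MonB_911.apx m hm η hη0
  refine ⟨J0, fun J hJ => ?_⟩
  obtain ⟨P, hP, hP1, hent, hle, hint⟩ := hJ0 J hJ
  refine ⟨P, hP, hP1, ?_⟩
  -- the control value
  have h1 : controlValue W.P W.B W.meas ψ (mP J P) = Th J ψ P :=
    CtlG_130.vid W.Ω W.P W.B W.meas W.br ψ hC2 hCb J P hP
  have hBL : BL K c ψ := ⟨hK, hc⟩
  have h2 := (CtlG_130.vl W.Ω W.P W.B W.meas W.br ψ K c hBL m (mP J P)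
    (Wrap_947.le_mP_Icc hP m hle)).2
  rw [h1] at h2
  have h3 : c ^ 2 * ∫ t in (0:ℝ)..1, ((mP J P).toFun t - m.toFun t) ≤ c ^ 2 * η :=
    mul_le_mul_of_nonneg_left hint (sq_nonneg c)
  have h4 : controlValue W.P W.B W.meas ψ m ≤ W.V g m + e := hV m
  have h5 : Th J ψ P ≤ W.V g m + e + c ^ 2 * η := by linarith
  -- the entropy
  have h6 : SP J P ≤ m.entropy.toReal + η := by
    have e1 : (mP J P).entropy = ENNReal.ofReal (SP J P) := MonB_911.ent J P hP hP1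
    have e2 : (ENNReal.ofReal (SP J P)).toReal ≤ (m.entropy + ENNReal.ofReal η).toReal := by
      rw [← e1]
      exact ENNReal.toReal_mono (by simp [hm]) hent
    rw [ENNReal.toReal_add hm ENNReal.ofReal_ne_top, ENNReal.toReal_ofReal hη0.le] at e2
    have e3 : SP J P ≤ (ENNReal.ofReal (SP J P)).toReal := by
      rw [ENNReal.toReal_ofReal']
      exact le_max_left _ _
    linarith
  have h7 : (α * c ^ 2 + 1) * η = δ / 2 := by
    rw [hη]; field_simp
  have h8 := mul_le_mul_of_nonneg_left h5 hα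
  have h9 : α * Th J ψ P + SP J P ≤
      (α * W.V g m + m.entropy.toReal) + α * e + (α * c ^ 2 + 1) * η := by nlinarith
  have h10 : W.Pv α g = sInf (W.vals α g) := rfl
  rw [h10]
  linarith

/-- statement of the potential node (d) of helper435 (post 990) -/
def POT : Prop := ∀ b R d : ℝ, 0 < b → 0 ≤ R → 0 < d → ∃ F : ℝ → ℝ, ∃ L1 : ℝ, Test F ∧
  MidLo b F ∧ MidHi (1 / 4) F ∧ (∀ L, L1 ≤ L → ∀ x, fqL L b (-1) x ≤ F x) ∧
  (∀ x, F x ≤ fqL (b * R ^ 2 / 2) b (-1) x + d) ∧ (∀ x, F x ≤ d - b / 2 * Tcut R x ^ 2)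

/-- adding the test function (helper435, post 990) -/
def POTADD : Prop := ∀ (b h T : ℝ) (F θ : ℝ → ℝ), Test F → MidLo b F → MidHi (1 / 4) F → Test θ →
  (∀ x, |iteratedDeriv 2 θ x| ≤ T) → |h| * T ≤ 1 / 4 →
  Test (fun x => F x + h * θ x) ∧ MidLo (b + 1 / 4) (fun x => F x + h * θ x) ∧
  MidHi (1 / 2) (fun x => F x + h * θ x)

theorem Tcut_mono {R R' : ℝ} (h : R ≤ R') (x : ℝ) : Tcut R x ≤ Tcut R' x :=
  min_le_min le_rfl h

theorem Tcut_nonneg {R : ℝ} (h : 0 ≤ R) (x : ℝ) : 0 ≤ Tcut R x :=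
  le_min (le_max_right _ _) h

theorem test_const_mul {θ : ℝ → ℝ} (hθ : Test θ) (h : ℝ) : Test (fun x => h * θ x) := by
  refine ⟨fun n => contDiff_const.mul (hθ.smooth n), fun n => ?_⟩
  obtain ⟨C, hC⟩ := hθ.bd n
  refine ⟨|h| * C, fun x => ?_⟩
  have e : iteratedDeriv n (fun x => h * θ x) x = h * iteratedDeriv n θ x :=
    iteratedDeriv_const_mul_field h θ
  rw [e, abs_mul]
  exact mul_le_mul_of_nonneg_left (hC x) (abs_nonneg h)

/-- **(LOCV)**, parts (d)+(e) of post 960 in the form of post 1015, from the potential. -/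
theorem locv_of (hpot : POT) (hadd : POTADD) (W : BS) {al b : ℝ} (hal : 0 < al) (hb : 0 < b)
    {θ : ℝ → ℝ} (hθ : Test θ) {T : ℝ} (hT : ∀ x, |θ x| ≤ T) (hT2 : ∀ x, |iteratedDeriv 2 θ x| ≤ T)
    {h : ℝ} (hh : |h| * T ≤ 1 / 8) {R d : ℝ} (hR : 0 ≤ R) (hd : 0 < d) :
    ∃ ψ : ℝ → ℝ, Test ψ ∧ MidLo (b + 1 / 4) ψ ∧ MidHi (1 / 2) ψ ∧
      (∃ L1 : ℝ, ∀ L, L1 ≤ L → ∀ x, fqL L b (-1) x + h * θ x ≤ ψ x) ∧
      (∀ x, ψ x ≤ (|h| * T + d) - b / 2 * Tcut R x ^ 2) ∧
      ∃ J0 : ℕ, ∀ J, J0 ≤ J → ∃ P : ℕ → ℝ, Lev J P ∧ P J < 1 ∧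
        al * Th J ψ P + SP J P ≤ W.Pv al (fun x => fq b (-1) x + h * θ x) + d := by
  -- the Lipschitz constant of the perturbation
  have hht : Test (fun x => h * θ x) := test_const_mul hθ h
  obtain ⟨c, hc0, hc⟩ := test_lipschitz hht
  obtain ⟨K, hK0, hK⟩ := test_bdd hht
  -- the truncation level
  have h1 : ∀ᶠ L : ℝ in atTop, ∫ z, (fqL L b (-1) (z - c) - fq b (-1) (z - c)) ∂(gaussianReal 0 1)
      ≤ d / (4 * al) :=
    (VTr_468.dtail b (-1) c hb).eventually_le_const (by positivity)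
  obtain ⟨La, hLa⟩ := (h1.and (eventually_ge_atTop 0)).exists_forall_of_atTop
  set R2 : ℝ := max R (Real.sqrt (2 * |La| / b)) with hR2
  have hRR2 : R ≤ R2 := le_max_left _ _
  have hR20 : 0 ≤ R2 := hR.trans hRR2
  have hL2 : La ≤ b * R2 ^ 2 / 2 := by
    have e1 : Real.sqrt (2 * |La| / b) ≤ R2 := le_max_right _ _
    have e2 : 2 * |La| / b ≤ R2 ^ 2 := by
      rw [← Real.sq_sqrt (show 0 ≤ 2 * |La| / b by positivity)]
      exact pow_le_pow_left₀ (Real.sqrt_nonneg _) e1 2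
    rw [div_le_iff₀ hb] at e2
    have := le_abs_self La
    nlinarith
  set L2 : ℝ := b * R2 ^ 2 / 2 with hL2d
  obtain ⟨herr, hL20⟩ := hLa L2 hL2
  -- the potential
  set d' : ℝ := min d (d / (4 * al)) with hd'
  have hd'0 : 0 < d' := lt_min hd (by positivity)
  obtain ⟨F, L1, hF, hlo, hhi, hF1, hF2, hF3⟩ := hpot b R2 d' hb hR20 hd'0
  obtain ⟨t1, t2, t3⟩ := hadd b h T F θ hF hlo hhi hθ hT2 (by linarith)
  refine ⟨fun x => F x + h * θ x, t1, t2, t3, ⟨L1, fun L hL x => ?_⟩, fun x => ?_, ?_⟩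
  · have := hF1 L hL x
    simpa using this
  · have e1 := hF3 x
    have e2 : h * θ x ≤ |h| * T := by
      calc h * θ x ≤ |h * θ x| := le_abs_self _
        _ = |h| * |θ x| := abs_mul _ _
        _ ≤ |h| * T := mul_le_mul_of_nonneg_left (hT x) (abs_nonneg h)
    have e3 : Tcut R x ^ 2 ≤ Tcut R2 x ^ 2 :=
      pow_le_pow_left₀ (Tcut_nonneg hR x) (Tcut_mono hRR2 x) 2
    have e4 : d' ≤ d := min_le_left _ _
    have e5 : b / 2 * Tcut R x ^ 2 ≤ b / 2 * Tcut R2 x ^ 2 :=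
      mul_le_mul_of_nonneg_left e3 (by positivity)
    show F x + h * θ x ≤ _
    linarith
  · have hV : ∀ m : OverlapProfile, W.V (fun x => F x + h * θ x) m ≤
        W.V (fun x => fq b (-1) x + h * θ x) m + (d' + d / (4 * al)) := by
      intro m
      obtain ⟨KF, hKF0, hKF⟩ := test_bdd t1
      have e1 : W.V (fun x => F x + h * θ x) m ≤
          W.V (fun x => fqL L2 b (-1) x + h * θ x) m + d' := by
        refine value_le_add (K := max KF (L2 + K)) (t1.smooth 0).continuous.measurable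
          (((continuous_fqL L2 b (-1)).add (hht.smooth 0).continuous).measurable)
          (fun x => (hKF x).trans (le_max_left _ _))
          (fun x => ((abs_add_le _ _).trans (add_le_add (abs_fqL_le hL20 hb.le (-1) x)
            (hK x))).trans (le_max_right _ _)) (fun x => ?_) m
        have := hF2 x
        show F x + h * θ x ≤ fqL L2 b (-1) x + h * θ x + d'
        linarith
      have e2 : W.V (fun x => fqL L2 b (-1) x + h * θ x) m ≤
          W.V (fun x => fq b (-1) x + h * θ x) m +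
            ∫ z, (fqL L2 b (-1) (z - c) - fq b (-1) (z - c)) ∂(gaussianReal 0 1) :=
        VTr_468.vtr W b (-1) L2 c hb hL20 hc0 (fun x => h * θ x) ⟨K, hK⟩ hc m
      linarith
    obtain ⟨J0, hJ0⟩ := value_step_near W hal.le t1 hV (show 0 < d / 2 by positivity)
    refine ⟨J0, fun J hJ => ?_⟩
    obtain ⟨P, hP, hP1, hP2⟩ := hJ0 J hJ
    refine ⟨P, hP, hP1, hP2.trans ?_⟩
    have e3 : d' ≤ d / (4 * al) := min_le_right _ _
    have e4 : al * (d' + d / (4 * al)) ≤ d / 2 := by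
      calc al * (d' + d / (4 * al)) ≤ al * (d / (4 * al) + d / (4 * al)) := by gcongr
        _ = d / 2 := by field_simp; ring
    linarith

theorem pot : POT := fun _ _ _ hb hR hd => G7Pot_435.potential hb hR hd

theorem potadd : POTADD := by
  intro b h T F θ hF hlo hhi hθ hT2 hh
  have h1 : MidHi T θ := G7Pot_435.test_midHi hθ hT2
  have h2 : MidLo T θ := G7Pot_435.test_midLo hθ hT2
  refine ⟨G7Pot_435.Test.add' hF (G7Pot_435.Test.const_mul' hθ h), ?_, ?_⟩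
  · have h3 := G7Pot_435.MidLo.add' hlo (G7Pot_435.midLo_smul h1 h2 h)
    exact LocDet_508.MidLo.mono h3 (by linarith)
  · have h3 := G7Pot_435.MidHi.add' hhi (G7Pot_435.midHi_smul h1 h2 h)
    exact LocDet_508.MidHi.mono h3 (by linarith)

/-- **(LOCV)**, parts (d)+(e) of post 960 in the form of post 1015. -/
theorem locv (W : BS) {al b : ℝ} (hal : 0 < al) (hb : 0 < b)
    {θ : ℝ → ℝ} (hθ : Test θ) {T : ℝ} (hT : ∀ x, |θ x| ≤ T) (hT2 : ∀ x, |iteratedDeriv 2 θ x| ≤ T)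
    {h : ℝ} (hh : |h| * T ≤ 1 / 8) {R d : ℝ} (hR : 0 ≤ R) (hd : 0 < d) :
    ∃ ψ : ℝ → ℝ, Test ψ ∧ MidLo (b + 1 / 4) ψ ∧ MidHi (1 / 2) ψ ∧
      (∃ L1 : ℝ, ∀ L, L1 ≤ L → ∀ x, fqL L b (-1) x + h * θ x ≤ ψ x) ∧
      (∀ x, ψ x ≤ (|h| * T + d) - b / 2 * Tcut R x ^ 2) ∧
      ∃ J0 : ℕ, ∀ J, J0 ≤ J → ∃ P : ℕ → ℝ, Lev J P ∧ P J < 1 ∧
        al * Th J ψ P + SP J P ≤ W.Pv al (fun x => fq b (-1) x + h * θ x) + d :=
  locv_of pot potadd W hal hb hθ hT hT2 hh hR hd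

end Crest.Agent.R146.LocV_468
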