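import Crest.Agent.R146.TipSeq_791
import Crest.Agent.R146.StepK_692
import Crest.Agent.R146.PtS4b_489
import Crest.Agent.R146.StepAppr_522

/-!
Row 146, package PT-APRI, no-gap lemma, nodes N5 and N0 (helper489).

* `qc_of`    : on an interval `[a,b]` where the weight of the limit profile is constant, if
  `Ls (A n) ≥ 0` on `[a,b)` for large `n` then the limit `T` is quasi-convex on `[a,b]`;
* `qc_all`, `nogap_of` : `Ls ≥ 0` near the tip (with `t0` independent of the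
  sequence, for sequences with any extra property `G`) implies `NOGAP`;
* `eps_lim`  : `(1-t)/D(t)² → 0`.
-/

set_option autoImplicit false

namespace Crest.Agent.R146.NoGapQc_489

open Set MeasureTheory Filter Topology
open Crest.Agent.R146.StepDef_791 Crest.Agent.R146.StepApx_856 Crest.Agent.R146.TipSeq_791
open Crest.Agent.R146.PtScalA_45 Crest.Agent.R146.PtS4b_489

noncomputable section

/-- nonnegative right derivative implies monotone -/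
theorem mono_of_right {f f' : ℝ → ℝ} {a b : ℝ} (hc : ContinuousOn f (Ico a b))
    (hd : ∀ t ∈ Ico a b, HasDerivWithinAt f (f' t) (Ici t) t) (h0 : ∀ t ∈ Ico a b, 0 ≤ f' t) :
    MonotoneOn f (Ico a b) := by
  intro x hx y hy hxy
  have hsub : Icc x y ⊆ Ico a b := fun t ht => ⟨hx.1.trans ht.1, ht.2.trans_lt hy.2⟩
  have h := image_le_of_deriv_right_le_deriv_boundary (f := fun _ => f x) (f' := fun _ => 0)
    (a := x) (b := y) continuousOn_const (fun t _ => hasDerivWithinAt_const _ _ _)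
    (B := f) (B' := f') le_rfl (hc.mono hsub)
    (fun t ht => hd t (hsub ⟨ht.1, ht.2.le⟩)) (fun t ht => h0 t (hsub ⟨ht.1, ht.2.le⟩))
  exact h ⟨hxy, le_rfl⟩

variable {P : Prof} {T S : ℝ → ℝ}

/-- one step datum with constant weight on `[a,b)` -/
theorem qc_one {A : SD} {p Y Yx Yxx : ℝ → ℝ → ℝ} {x0 : ℝ} (hB : Back A) (hC : Clock A)
    (hL : Law A x0 p Y Yx Yxx) (hS : Scal A x0 p) {a b z : ℝ} (ha : 0 ≤ a) (hb : b ≤ A.T)
    (hm : ∀ t ∈ Ico a b, A.m t = z) (hpos : ∀ t ∈ Ico a b, 0 ≤ Ls A x0 p t) {x y w : ℝ}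
    (hx : a ≤ x) (hxy : x ≤ y) (hyw : y ≤ w) (hw : w ≤ b) :
    Ts A x0 p y ≤ max (Ts A x0 p x) (Ts A x0 p w) := by
  have hsub : Icc a b ⊆ Icc 0 A.T := fun t ht => ⟨ha.trans ht.1, ht.2.trans hb⟩
  have hsub' : Ico a b ⊆ Ico 0 A.T := fun t ht => ⟨ha.trans ht.1, ht.2.trans_le hb⟩
  refine qc_step (a := a) (b := b) (K := fun t => Ns A x0 p t - 2 * A.b t * Zs A x0 p t)
    (g := fun t => A.D t ^ 2) (hS.cont.1.mono hsub) (fun t ht => hS.Ts_t t (hsub' ht))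
    (fun t _ => by have := A.D_pos t; positivity) ?_ hx hxy hyw hw
  refine mono_of_right ?_ (fun t ht => StepK_692.KD_t hB hC hL t (hsub' ht)) fun t ht =>
    mul_nonneg (sq_nonneg _) (hpos t ht)
  have hbc : ContinuousOn A.b (Ico a b) := by
    have h1 : ContinuousOn (fun t => z / A.D t) (Ico a b) :=
      continuousOn_const.div hC.D_cont.continuousOn fun t _ => (A.D_pos t).ne'
    refine h1.congr fun t ht => ?_
    show A.m t / A.D t = z / A.D t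
    rw [hm t ht]
  have hsub2 : Ico a b ⊆ Icc 0 A.T := fun t ht => ⟨ha.trans ht.1, ht.2.le.trans hb⟩
  exact ((hS.cont.2.2.1.mono hsub2).sub ((continuousOn_const.mul hbc).mul
    (hS.cont.2.2.2.mono hsub2))).mul (hC.D_cont.continuousOn.pow 2)

/-- **N5**, one sequence -/
theorem qc_of (Q : PreSeq P T S) {a b : ℝ} (ha0 : 0 ≤ a) (hab : a < b) (hb : b < 1)
    (haF : ∀ n, a ∈ Q.F n) (hbF : ∀ n, b ∈ Q.F n) (hm : ∀ t ∈ Icc a b, P.m t = P.m a)
    (hL : ∀ᶠ n in atTop, ∀ t ∈ Ico a b, 0 ≤ Ls (Q.A n) 1 (Q.p n) t) {x y z : ℝ}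
    (hx : a ≤ x) (hxy : x ≤ y) (hyz : y ≤ z) (hz : z ≤ b) : T y ≤ max (T x) (T z) := by
  have hP := StepAppr_522.isProf P
  have hb0 : 0 < b := ha0.trans_lt hab
  have haf := affine_of_const hP ha0 hb.le (z := P.m a) fun t ht => hm t ⟨ht.1, ht.2.le⟩
  have key : ∀ᶠ n in atTop, Ts (Q.A n) 1 (Q.p n) y ≤
      max (Ts (Q.A n) 1 (Q.p n) x) (Ts (Q.A n) 1 (Q.p n) z) := by
    filter_upwards [hL] with n hn
    have hbT : b ≤ (Q.A n).T := by
      obtain ⟨l, hl, hlt⟩ := (Q.apx n).grid0 ⟨hb0.le, hb⟩ (Or.inr (hbF n))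
      rw [← hlt]
      exact (Q.apx n).t_le hl
    exact qc_one (Q.back n) (Q.clock n) (Q.law n) (Q.scal n) ha0 hbT
      (fun t ht => (Q.apx n).m_affine ⟨ha0, hab.trans hb⟩ (Or.inr (haF n)) ⟨hb0.le, hb⟩ (hbF n)
        haf ht) hn hx hxy hyz hz
  obtain ⟨q, hq1, hq2⟩ := exists_between hb
  have hlim : ∀ s ∈ Icc a b, Tendsto (fun n => Ts (Q.A n) 1 (Q.p n) s) atTop (𝓝 (T s)) :=
    fun s hs => (Q.T_lim q ⟨hb0.trans hq1, hq2⟩).tendsto_at ⟨ha0.trans hs.1, (hs.2.trans hq1.le)⟩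
  exact le_of_tendsto_of_tendsto (hlim y ⟨hx.trans hxy, hyz.trans hz⟩)
    ((hlim x ⟨hx, (hxy.trans hyz).trans hz⟩).max (hlim z ⟨(hx.trans hxy).trans hyz, hz⟩)) key

/-- **N5**, assembly with an arbitrary restriction `G` on the sequences (e.g. a universal bound of the
law slope): `Ls ≥ 0` near the tip, with `t0` independent of the sequence. -/
theorem qc_all {G : PreSeq P T S → Prop}
    (hQ : ∀ F0 : Finset ℝ, (∀ x ∈ F0, x ∈ Icc (0 : ℝ) 1) →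
      ∃ Q : PreSeq P T S, (∀ n, F0 ⊆ Q.F n) ∧ G Q)
    (H : ∃ t0 : ℝ, t0 < 1 ∧ ∀ Q : PreSeq P T S, G Q → ∀ b : ℝ, b < 1 → ∀ᶠ n in atTop,
      ∀ t ∈ Icc t0 b, 0 ≤ t → 0 ≤ Ls (Q.A n) 1 (Q.p n) t) :
    ∃ t0 : ℝ, t0 < 1 ∧ ∀ a b, t0 ≤ a → 0 ≤ a → a < b → b < 1 → (∀ t ∈ Icc a b, P.m t = P.m a) →
      ∀ x y z, a ≤ x → x ≤ y → y ≤ z → z ≤ b → T y ≤ max (T x) (T z) := by
  obtain ⟨t0, ht0, h⟩ := H
  refine ⟨t0, ht0, fun a b hta ha0 hab hb hm x y z hx hxy hyz hz => ?_⟩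
  obtain ⟨Q, hF, hG⟩ := hQ {a, b} (by
    intro x hx
    simp only [Finset.mem_insert, Finset.mem_singleton] at hx
    rcases hx with rfl | rfl
    · exact ⟨ha0, (hab.trans hb).le⟩
    · exact ⟨ha0.trans hab.le, hb.le⟩)
  refine qc_of Q ha0 hab hb (fun n => hF n (by simp)) (fun n => hF n (by simp)) hm ?_ hx hxy hyz hz
  filter_upwards [h Q hG b hb] with n hn t ht
  exact hn t ⟨hta.trans ht.1, ht.2.le⟩ (ha0.trans ht.1)

/-- the form with the universal bound of the law slope (hypothesis of `TipSeq_791.NOGAP`) -/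
def Slp (CY : ℝ → ℝ) (Q : PreSeq P T S) : Prop :=
  ∀ t0 ∈ Ioo (0 : ℝ) 1, ∀ᶠ n in atTop, ∀ x,
    -(CY t0 * (1 + (Q.A n).u t0 x)) ≤ Q.Y n t0 x ∧ Q.Y n t0 x ≤ CY t0 * (1 + (Q.A n).w t0 x)

/-- `NOGAP` from positivity of `Ls` near the tip -/
theorem nogap_of (H : ∀ (P : Prof) (T S CY : ℝ → ℝ), (∃ Q : PreSeq P T S, Slp CY Q) →
    ∃ t0 : ℝ, t0 < 1 ∧ ∀ Q : PreSeq P T S, Slp CY Q → ∀ b : ℝ, b < 1 → ∀ᶠ n in atTop,
      ∀ t ∈ Icc t0 b, 0 ≤ t → 0 ≤ Ls (Q.A n) 1 (Q.p n) t) : NOGAP := by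
  intro P T S CY hQ
  obtain ⟨Q0, _, hQ0⟩ := hQ ∅ (by simp)
  exact qc_all (G := Slp CY) hQ (H P T S CY ⟨Q0, hQ0⟩)

/-- **N0**: `(1-t)/D(t)² → 0` -/
theorem eps_lim (P : Prof) (hpos : ∀ t ∈ Ico (0 : ℝ) 1, 0 < P.D t)
    (hint : IntervalIntegrable (fun t => 1 / (P.D t) ^ 2) volume 0 1) :
    Tendsto (fun t => (1 - t) / (P.D t) ^ 2) (𝓝[<] 1) (𝓝 0) := by
  have hP := StepAppr_522.isProf P
  -- the tail of the integral
  have h1 : Tendsto (fun t => ∫ s in t..1, 1 / (P.D s) ^ 2) (𝓝[<] 1) (𝓝 0) := by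
    have h3 : ContinuousOn (fun x => ∫ s in (1 : ℝ)..x, 1 / (P.D s) ^ 2) (uIcc 1 0) :=
      intervalIntegral.continuousOn_primitive_interval' hint.symm (by simp)
    rw [uIcc_of_ge zero_le_one] at h3
    have h4 : Tendsto (fun x => ∫ s in (1 : ℝ)..x, 1 / (P.D s) ^ 2) (𝓝[Icc 0 1] 1) (𝓝 0) := by
      have := (h3 1 ⟨zero_le_one, le_rfl⟩).tendsto
      simpa using this
    have h5 : (𝓝[<] (1 : ℝ)) ≤ 𝓝[Icc 0 1] 1 := by
      rw [← nhdsWithin_Ioo_eq_nhdsLT zero_lt_one]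
      exact nhdsWithin_mono _ Ioo_subset_Icc_self
    have h6 := (h4.mono_left h5).neg
    rw [neg_zero] at h6
    refine h6.congr fun t => ?_
    rw [intervalIntegral.integral_symm]
    simp
  refine squeeze_zero' ?_ ?_ h1
  · filter_upwards [Ioo_mem_nhdsLT (zero_lt_one (α := ℝ))] with t ht
    exact div_nonneg (sub_nonneg.2 ht.2.le) (sq_nonneg _)
  · filter_upwards [Ioo_mem_nhdsLT (zero_lt_one (α := ℝ))] with t ht
    have hsub : IntervalIntegrable (fun s => 1 / (P.D s) ^ 2) volume t 1 := by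
      refine hint.mono_set ?_
      rw [uIcc_of_le zero_le_one, uIcc_of_le ht.2.le]
      exact Icc_subset_Icc ht.1.le le_rfl
    have h2 : ∫ _ in t..1, 1 / (P.D t) ^ 2 = (1 - t) / (P.D t) ^ 2 := by
      simp [div_eq_mul_inv]
    rw [← h2]
    refine intervalIntegral.integral_mono_on_of_le_Ioo ht.2.le intervalIntegrable_const hsub
      fun s hs => ?_
    have hs0 : 0 < P.D s := hpos s ⟨(ht.1.trans hs.1).le, hs.2⟩
    have hst : P.D s ≤ P.D t :=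
      hP.anti ⟨ht.1.le, ht.2.le⟩ ⟨(ht.1.trans hs.1).le, hs.2.le⟩ hs.1.le
    exact one_div_le_one_div_of_le (by positivity) (pow_le_pow_left₀ hs0.le hst 2)

end

end Crest.Agent.R146.NoGapQc_489
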