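import Crest.Agent.R146.NoGapL_546
import Crest.Agent.R146.NoGapQc_489
import Crest.Agent.R146.Apri_384

/-!
Row 146, PT, no-gap lemma (helper546): assembly of `TipSeq_791.NOGAP` from

* `LOW`  : forgetting lower bound of the law slope (helper384);
* `CERT` : the energy certificate and the lower slope band (helper87).
-/

set_option autoImplicit false

namespace Crest.Agent.R146.NoGapM_546

open MeasureTheory Set Filter Topology
open scoped Interval
open Crest.Agent.R146.NoGapX_649 Crest.Agent.R146.StepDef_791 Crest.Agent.R146.MaxPCmp_371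
open Crest.Agent.R146.TipSeq_791 Crest.Agent.R146.StepApx_856 Crest.Agent.R146.Pos_371
open Crest.Agent.R146.PtScalA_45 (Prof)

noncomputable section

/-- **LOW** (helper384) -/
def LOW : Prop := ∀ (A : SD) (x0 : ℝ) (p Y Yx Yxx : ℝ → ℝ → ℝ), Back A → Clock A →
  Law A x0 p Y Yx Yxx → (∀ t ∈ Icc (0 : ℝ) 1, (1 - t) * A.b t ≤ 1) →
  (∀ t ∈ Ioc (0 : ℝ) 1, (1 - t) * A.bl t ≤ 1) → ∀ t0 ∈ Ioo 0 A.T,
  (∀ t ∈ Icc t0 A.T, 21 * √(1 - t) ≤ A.D t) → ∀ C : ℝ, 1 ≤ C →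
  (∀ x, -Flat_384.Q C 15 A.E t0 x ≤ Y t0 x) →
  ∀ t ∈ Icc t0 A.T, ∀ x, -Flat_384.Q C 15 A.E t x ≤ Y t x

/-- **CERT** (helper87) -/
def CERT : Prop := ∀ A : SD, Back A → (∀ t ∈ Icc (0 : ℝ) 1, (1 - t) * A.b t ≤ 1) →
  ∀ t ∈ Ioo 0 A.T,
    (∀ x, 1 / 2 ≤ A.V t x → 2 / 5 * (√(1 - t))⁻¹ * (1 - A.V t x) ≤ A.P t x) ∧
    (∀ xa x, A.V t xa ≤ 1 / 1000 → xa ≤ x → 1 / 2 ≤ A.V t x →
      (√(1 - t))⁻¹ ^ 3 / 20000 ≤ ∫ z in xa..x, II (A.b t) (A.V t) (A.P t) (A.Px t) z)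

section

variable {A : SD} {x0 : ℝ} {p Y Yx Yxx : ℝ → ℝ → ℝ}

theorem b_comm (hb : ∀ t ∈ Icc (0 : ℝ) 1, (1 - t) * A.b t ≤ 1) :
    ∀ t ∈ Ico (0 : ℝ) A.T, A.b t * (1 - t) ≤ 1 := fun t ht => by
  have := hb t ⟨ht.1, (ht.2.trans A.hT1).le⟩
  linarith

theorem u_le (hB : Back A) (hb : ∀ t ∈ Icc (0 : ℝ) 1, (1 - t) * A.b t ≤ 1) :
    ∀ t ∈ Icc 0 A.T, ∀ x, A.u t x ≤ √(1 - t) * Mills_384.hz (x / √(1 - t)) := by
  obtain ⟨M, hM⟩ := hB.bsys
  refine Apri_384.u_le_hz hM le_rfl A.hT1 (b_comm hb) fun x => ?_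
  rw [hB.u_T]
  exact mul_le_mul_of_nonneg_left (Mills_384.U0_le_hz _) (Real.sqrt_nonneg _)

theorem P_le (hB : Back A) (hb : ∀ t ∈ Icc (0 : ℝ) 1, (1 - t) * A.b t ≤ 1) :
    ∀ t ∈ Icc 0 A.T, ∀ x, A.P t x ≤ (√(1 - t))⁻¹ * √(A.V t x * (1 - A.V t x)) := by
  obtain ⟨M, hM⟩ := hB.bsys
  refine Apri_384.P_le_root hM A.hT1 (b_comm hb) fun x => ?_
  rw [hB.P_T, hB.V_T]
  have h1 := Mills_384.ph_sq_le (x / √A.dl)
  have h2 : StepStart_483.ph (x / √A.dl) ≤
      √(StepStart_483.Phi (x / √A.dl) * (1 - StepStart_483.Phi (x / √A.dl))) :=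
    Real.le_sqrt_of_sq_le h1
  have h3 : (√(1 - A.T))⁻¹ = (√A.dl)⁻¹ := rfl
  rw [h3, div_eq_inv_mul]
  exact mul_le_mul_of_nonneg_left h2 (by positivity)

theorem Ls_nonneg_at (hK : CERT) (hB : Back A) (hL : Law A x0 p Y Yx Yxx)
    (hb : ∀ t ∈ Icc (0 : ℝ) 1, (1 - t) * A.b t ≤ 1) {t : ℝ} (ht' : t ∈ Ioo 0 A.T) {C : ℝ}
    (hC : 0 ≤ C) (hY : ∀ x, -Flat_384.Q C 15 A.E t x ≤ Y t x)
    (h1 : 17 * C * (A.E t * √(1 - t)) ≤ 1 / 10 ^ 10) (h2 : A.E t * √(1 - t) ≤ 1 / 2000) :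
    0 ≤ Ls A x0 p t := by
  have ht : t ∈ Ioc 0 A.T := ⟨ht'.1, ht'.2.le⟩
  have htI : t ∈ Icc 0 A.T := ⟨ht.1.le, ht.2⟩
  have ht1 : t < 1 := ht.2.trans_lt A.hT1
  obtain ⟨M, hM⟩ := hB.bsys
  set r := √(1 - t) with hr
  have hr0 : 0 < r := Real.sqrt_pos.2 (by linarith)
  have hr2 : r ^ 2 = 1 - t := Real.sq_sqrt (by linarith)
  have hE := A.E_pos t
  obtain ⟨hK1, hK2⟩ := hK A hB hb t ht'
  have e1 : 1 / r⁻¹ = r := by rw [one_div, inv_inv]
  refine NoGapL_546.Ls_nonneg_of (s := r⁻¹) hB hL ht (inv_pos.2 hr0) ?_ ?_ hK1 hK2 ?_ ?_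
  · have h3 := hb t ⟨ht.1.le, ht1.le⟩
    rw [← hr2] at h3
    have h4 : (r⁻¹) ^ 2 = 1 / r ^ 2 := by rw [inv_pow, one_div]
    rw [h4, le_div_iff₀ (by positivity)]
    linarith
  · intro x
    have h3 := P_le hB hb t htI x
    have hP0 := (hB.P_pos t htI x).le
    have hV0 := (hM.V_pos t htI x).le
    have hV1 := (hM.V_lt t htI x).le
    have h4 : A.P t x ^ 2 ≤ ((√(1 - t))⁻¹ * √(A.V t x * (1 - A.V t x))) ^ 2 :=
      pow_le_pow_left₀ hP0 h3 2
    rw [mul_pow, Real.sq_sqrt (mul_nonneg hV0 (by linarith)), ← hr] at h4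
    have h5 : 0 ≤ (r⁻¹) ^ 2 := by positivity
    have h6 : A.V t x * (1 - A.V t x) ≤ 2 * (1 - A.V t x) := by nlinarith
    nlinarith [mul_le_mul_of_nonneg_left h6 h5]
  · rw [e1]
    have h3 := u_le hB hb t htI 0
    rw [zero_div] at h3
    have h4 := Mills_384.hz_zero_le
    have h5 := mul_le_mul_of_nonneg_left h4 hr0.le
    rw [← hr] at h3
    linarith
  · intro x hx
    have e2 : 1000 / r⁻¹ = 1000 * r := by rw [div_inv_eq_mul]
    rw [e2] at hx
    have h3 : -(x * A.E t) ≤ 1 / 2 := by nlinarith [mul_le_mul_of_nonneg_right hx hE.le]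
    have h4 : sg (-(x * A.E t)) ≤ 2 := by
      unfold sg
      have h5 : √(1 + (-(x * A.E t)) ^ 2) ≤ 2 - -(x * A.E t) := by
        apply Real.sqrt_le_iff.2
        constructor
        · linarith
        · nlinarith
      linarith
    have h5 := hY x
    unfold Flat_384.Q at h5
    have h6 : C * A.E t * (15 + sg (-(x * A.E t))) ≤ C * A.E t * 17 :=
      mul_le_mul_of_nonneg_left (by linarith) (by positivity)
    have h7 : C * A.E t * 17 ≤ r⁻¹ / 10 ^ 10 := by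
      have h8 : C * A.E t * 17 = 17 * C * (A.E t * r) * r⁻¹ := by field_simp
      rw [h8, div_eq_inv_mul]
      have := mul_le_mul_of_nonneg_right h1 (inv_pos.2 hr0).le
      rw [one_div] at this
      exact this
    linarith

end

/-- **NOGAP** from `LOW` and `CERT` -/
theorem nogap (hW : LOW) (hK : CERT) : NOGAP := by
  intro P T S CY hQ
  obtain ⟨Q0, _, _⟩ := hQ ∅ (by simp)
  refine NoGapQc_489.qc_all (G := fun Q => ∀ t0 ∈ Ioo (0 : ℝ) 1, ∀ᶠ n in atTop, ∀ x,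
      -(CY t0 * (1 + (Q.A n).u t0 x)) ≤ Q.Y n t0 x ∧
        Q.Y n t0 x ≤ CY t0 * (1 + (Q.A n).w t0 x)) hQ ?_
  have hlim := NoGapQc_489.eps_lim P Q0.pos Q0.int2
  have hpos := Q0.pos
  -- the first time
  obtain ⟨a1, ha1, ha⟩ : ∃ a1 ∈ Ioo (0 : ℝ) 1, ∀ t ∈ Ico a1 1, (1 - t) / (P.D t) ^ 2 ≤ 1 / 441 := by
    have h1 : ∀ᶠ t in 𝓝[<] (1 : ℝ), (1 - t) / (P.D t) ^ 2 < 1 / 441 :=
      hlim.eventually (gt_mem_nhds (by norm_num))
    obtain ⟨l, hl, hl2⟩ := (mem_nhdsLT_iff_exists_Ioo_subset).1 h1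
    refine ⟨(max l 0 + 1) / 2, ⟨?_, ?_⟩, fun t ht => ?_⟩
    · have := le_max_right l 0
      linarith
    · have : max l 0 < 1 := max_lt hl one_pos
      linarith
    · have h2 : max l 0 < 1 := max_lt hl one_pos
      exact (hl2 ⟨by linarith [le_max_left l 0, ht.1], ht.2⟩).le
  set e0 : ℝ := 1 / (P.D a1 + 1) with he0
  have hDa : 0 < P.D a1 := hpos a1 ⟨ha1.1.le, ha1.2⟩
  have he0p : 0 < e0 := by positivity
  set c := max (CY a1) 0 with hc
  have hc0 : 0 ≤ c := le_max_right _ _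
  set C : ℝ := 1 + c / e0 + c / e0 ^ 2 with hC
  have hC1 : 1 ≤ C := by
    have h1 : 0 ≤ c / e0 := by positivity
    have h2 : 0 ≤ c / e0 ^ 2 := by positivity
    linarith
  have hC0 : 0 < C := by linarith
  set δ : ℝ := min (1 / (17 * C * 10 ^ 10)) (1 / 2000) with hδ
  have hδ0 : 0 < δ := lt_min (by positivity) (by norm_num)
  obtain ⟨a2, ha2, ha2'⟩ : ∃ a2 ∈ Ioo a1 1, ∀ t ∈ Ico a2 1, (1 - t) / (P.D t) ^ 2 ≤ δ ^ 2 := by
    have h1 : ∀ᶠ t in 𝓝[<] (1 : ℝ), (1 - t) / (P.D t) ^ 2 < δ ^ 2 :=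
      hlim.eventually (gt_mem_nhds (by positivity))
    obtain ⟨l, hl, hl2⟩ := (mem_nhdsLT_iff_exists_Ioo_subset).1 h1
    have h2 : max l a1 < 1 := max_lt hl ha1.2
    refine ⟨(max l a1 + 1) / 2, ⟨?_, ?_⟩, fun t ht => ?_⟩
    · have := le_max_right l a1
      linarith
    · linarith
    · exact (hl2 ⟨by linarith [le_max_left l a1, ht.1], ht.2⟩).le
  refine ⟨a2, ha2.2, fun Q hG b hb1 => ?_⟩
  have hT : ∀ᶠ n in atTop, max b a1 < (Q.A n).T :=
    (tendsto_T Q.apx Q.ε_lim).eventually (lt_mem_nhds (max_lt hb1 ha1.2))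
  have hε : ∀ᶠ n in atTop, Q.ε n < 1 := Q.ε_lim.eventually (gt_mem_nhds one_pos)
  filter_upwards [hT, hε, hG a1 ha1] with n hTn hεn hYn t ht ht0
  set A := Q.A n with hA
  have hapx := Q.apx n
  have hbA : ∀ t ∈ Icc (0 : ℝ) 1, (1 - t) * A.b t ≤ 1 := fun t ht => hapx.b_le ht
  have hblA : ∀ t ∈ Ioc (0 : ℝ) 1, (1 - t) * A.bl t ≤ 1 := fun t ht => hapx.bl_le ht
  have ha1T : a1 < A.T := (le_max_right _ _).trans_lt hTn
  have hbT : b < A.T := (le_max_left _ _).trans_lt hTn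
  have hBn := Q.back n
  have hLn := Q.law n
  obtain ⟨M, hM⟩ := hBn.bsys
  have hEle : ∀ t ∈ Ico (0 : ℝ) 1, A.E t ≤ (P.D t)⁻¹ := fun t ht =>
    inv_anti₀ (hpos t ht) (hapx.D_le t ⟨ht.1, ht.2.le⟩)
  -- the clock condition
  have h21 : ∀ t ∈ Icc a1 A.T, 21 * √(1 - t) ≤ A.D t := by
    intro t ht
    have ht1 : t < 1 := ht.2.trans_lt A.hT1
    have hD := hpos t ⟨ha1.1.le.trans ht.1, ht1⟩
    have h1 := ha t ⟨ht.1, ht1⟩
    rw [div_le_iff₀ (by positivity)] at h1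
    have h2 : √(1 - t) ≤ P.D t / 21 := by
      apply Real.sqrt_le_iff.2
      constructor
      · positivity
      · nlinarith
    have h3 := hapx.D_le t ⟨ha1.1.le.trans ht.1, ht1.le⟩
    linarith
  -- the initial bound
  have hinit : ∀ x, -Flat_384.Q C 15 A.E a1 x ≤ Q.Y n a1 x := by
    intro x
    have h1 := (hYn x).1
    have hE0 : e0 ≤ A.E a1 := by
      rw [he0, one_div]
      refine inv_anti₀ (A.D_pos a1) ?_
      have := hapx.le_D a1 ⟨ha1.1.le, ha1.2.le⟩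
      linarith
    have hEp := A.E_pos a1
    have haI : a1 ∈ Icc 0 A.T := ⟨ha1.1.le, ha1T.le⟩
    have hr1 : √(1 - a1) ≤ 1 := by
      rw [Real.sqrt_le_one]
      linarith [ha1.1]
    have hr0 : 0 < √(1 - a1) := Real.sqrt_pos.2 (by linarith [ha1.2])
    have hu0 := (hBn.u_pos a1 haI x).le
    -- `u ≤ 1 + max (-x) 0`
    have hu : A.u a1 x ≤ 1 + max (-x) 0 := by
      rcases le_total x 0 with hx | hx
      · have h2 := u_le hBn hbA a1 haI x
        have h3 := Mills_384.hz_le (x / √(1 - a1))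
        have h4 := mul_le_mul_of_nonneg_left h3 hr0.le
        have h5 : √(1 - a1) * (1 + |x / √(1 - a1)|) = √(1 - a1) + |x| := by
          rw [abs_div, abs_of_pos hr0]
          field_simp
        rw [h5, abs_of_nonpos hx] at h4
        rw [max_eq_left (by linarith)]
        linarith
      · have h2 := u_le hBn hbA a1 haI 0
        rw [zero_div] at h2
        have h3 := Mills_384.hz_zero_le
        have h4 : √(1 - a1) * Mills_384.hz 0 ≤ 1 * 0.8 :=
          mul_le_mul hr1 h3 (Mills_384.hz_pos 0).le zero_le_one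
        have hanti : Antitone (A.u a1) := by
          refine antitone_of_hasDerivAt_nonpos (fun y => hBn.u_x a1 haI y) fun y => ?_
          have := hM.V_lt a1 haI y
          simp only [Pi.zero_apply]
          linarith
        have h5 := hanti hx
        rw [max_eq_right (by linarith)]
        norm_num at h4 ⊢
        linarith
    have hsg : 2 * (max (-x) 0) * A.E a1 ≤ sg (-(x * A.E a1)) := by
      rcases le_total x 0 with hx | hx
      · rw [max_eq_left (by linarith)]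
        unfold sg
        have h2 : -(x * A.E a1) ≤ √(1 + (-(x * A.E a1)) ^ 2) := by
          apply Real.le_sqrt_of_sq_le
          linarith
        linarith
      · rw [max_eq_right (by linarith)]
        have := (Flat_384.sg1_pos 0)
        have h3 := sg_pos (-(x * A.E a1))
        simp only [mul_zero, zero_mul]
        exact h3.le
    unfold Flat_384.Q
    have hm0 : 0 ≤ max (-x) 0 := le_max_right _ _
    have h6 : CY a1 * (1 + A.u a1 x) ≤ c * (2 + max (-x) 0) :=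
      mul_le_mul (le_max_left _ _) (by linarith) (by linarith) hc0
    have h7 : C * A.E a1 * (15 + 2 * (max (-x) 0) * A.E a1) ≤
        C * A.E a1 * (15 + sg (-(x * A.E a1))) :=
      mul_le_mul_of_nonneg_left (by linarith) (by positivity)
    have h8 : c ≤ C * A.E a1 := by
      have h9 : c = c / e0 * e0 := by field_simp
      have h10 : c / e0 ≤ C := by
        have : 0 ≤ c / e0 ^ 2 := by positivity
        linarith
      rw [h9]
      exact mul_le_mul h10 hE0 he0p.le hC0.le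
    have h9 : c ≤ C * A.E a1 * A.E a1 := by
      have h10 : c = c / e0 ^ 2 * (e0 * e0) := by field_simp
      have h11 : c / e0 ^ 2 ≤ C := by
        have : 0 ≤ c / e0 := by positivity
        linarith
      rw [h10, mul_assoc]
      exact mul_le_mul h11 (mul_le_mul hE0 hE0 he0p.le hEp.le) (by positivity) hC0.le
    have h10 : c * max (-x) 0 ≤ C * A.E a1 * A.E a1 * max (-x) 0 :=
      mul_le_mul_of_nonneg_right h9 hm0
    have h11 : 0 ≤ C * A.E a1 * A.E a1 * max (-x) 0 := by positivity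
    nlinarith
  have hlow := hW A 1 (Q.p n) (Q.Y n) (Q.Yx n) (Q.Yxx n) hBn (Q.clock n) hLn hbA hblA a1
    ⟨ha1.1, ha1T⟩ h21 C hC1 hinit
  have htpos : 0 < t := (ha1.1.trans ha2.1).trans_le ht.1
  have htT' : t < A.T := ht.2.trans_lt hbT
  have htT : t ≤ A.T := htT'.le
  have ht1 : t < 1 := htT.trans_lt A.hT1
  -- smallness
  have hsm : A.E t * √(1 - t) ≤ δ := by
    have hD := hpos t ⟨htpos.le, ht1⟩
    have h1 := ha2' t ⟨ht.1, ht1⟩
    rw [div_le_iff₀ (by positivity)] at h1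
    have h2 : √(1 - t) ≤ δ * P.D t := by
      apply Real.sqrt_le_iff.2
      constructor
      · positivity
      · nlinarith
    have h3 := hEle t ⟨htpos.le, ht1⟩
    calc A.E t * √(1 - t) ≤ (P.D t)⁻¹ * (δ * P.D t) :=
          mul_le_mul h3 h2 (Real.sqrt_nonneg _) (by positivity)
      _ = δ := by field_simp
  refine Ls_nonneg_at hK hBn hLn hbA ⟨htpos, htT'⟩ hC0.le
    (hlow t ⟨ha2.1.le.trans ht.1, htT⟩) ?_ (hsm.trans (min_le_right _ _))
  have h1 : A.E t * √(1 - t) ≤ 1 / (17 * C * 10 ^ 10) := hsm.trans (min_le_left _ _)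
  have h2 := mul_le_mul_of_nonneg_left h1 (show 0 ≤ 17 * C by positivity)
  refine h2.trans (le_of_eq ?_)
  field_simp

end

end Crest.Agent.R146.NoGapM_546
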