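import Crest.Agent.R146.MaxP_371

/-!
Weak maximum principle, abstract form (`max_core`: any positive barrier `φ`), and the version with ONE-SIDED second
space derivatives (`backward_max1`, `forward_max1`), so that barriers which are only `C¹` and piecewise `C²` are allowed.
-/

set_option autoImplicit false

open Set Filter Topology

namespace Crest.Agent.R146.MaxP2_371

open MaxP_371

/-- Abstract maximum principle: `w ≤ 0` on `K` as soon as `w` cannot touch a positive multiple of the positive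
barrier `φ` from below, and `w ≤ ε φ` off a compact set for every `ε > 0`. -/
theorem max_core {X : Type*} [TopologicalSpace X] {K : Set X} {w φ : X → ℝ}
    (hw : ContinuousOn w K) (hφ : ContinuousOn φ K) (hφpos : ∀ p ∈ K, 0 < φ p)
    (hinf : ∀ ε : ℝ, 0 < ε → ∃ L ⊆ K, IsCompact L ∧ ∀ p ∈ K, p ∉ L → w p ≤ ε * φ p)
    (htouch : ∀ p ∈ K, ∀ S : ℝ, 0 < S → (∀ q ∈ K, w q ≤ S * φ q) → w p = S * φ p → False) :
    ∀ p ∈ K, w p ≤ 0 := by
  intro p0 hp0
  by_contra hcon
  push Not at hcon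
  set s0 : ℝ := w p0 / φ p0 with hs0
  have hs0pos : 0 < s0 := div_pos hcon (hφpos _ hp0)
  obtain ⟨L, hLK, hLc, hL⟩ := hinf (s0 / 2) (by linarith)
  have hp0L : p0 ∈ L := by
    by_contra h
    have h1 := hL p0 hp0 h
    have h2 : w p0 = s0 * φ p0 := by rw [hs0, div_mul_cancel₀ _ (hφpos _ hp0).ne']
    have h3 := hφpos _ hp0
    nlinarith
  have hr : ContinuousOn (fun p => w p / φ p) L :=
    (hw.mono hLK).div (hφ.mono hLK) (fun p hp => (hφpos p (hLK hp)).ne')
  obtain ⟨q, hqL, hqmax⟩ := hLc.exists_isMaxOn ⟨p0, hp0L⟩ hr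
  set S : ℝ := w q / φ q with hS
  have hSs0 : s0 ≤ S := hqmax hp0L
  have hSpos : 0 < S := lt_of_lt_of_le hs0pos hSs0
  refine htouch q (hLK hqL) S hSpos ?_ ?_
  · intro p hp
    by_cases hpL : p ∈ L
    · have h1 : w p / φ p ≤ S := hqmax hpL
      exact (div_le_iff₀ (hφpos p hp)).1 h1
    · have h1 := hL p hp hpL
      have h2 := hφpos p hp
      nlinarith
  · rw [hS, div_mul_cancel₀ _ (hφpos q (hLK hqL)).ne']

/-- second order necessary condition at a local maximum, right-sided second derivative -/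
lemma second_deriv_nonpos_right {f f' : ℝ → ℝ} {f'' x : ℝ}
    (hf : ∀ᶠ y in 𝓝 x, HasDerivAt f (f' y) y) (hf' : HasDerivWithinAt f' f'' (Ici x) x)
    (hmax : IsLocalMax f x) : f' x = 0 ∧ f'' ≤ 0 := by
  have hx0 : f' x = 0 := hmax.hasDerivAt_eq_zero hf.self_of_nhds
  refine ⟨hx0, ?_⟩
  by_contra hcon
  push Not at hcon
  have h1 : Tendsto (slope f' x) (𝓝[>] x) (𝓝 f'') := by
    have := (hasDerivWithinAt_iff_tendsto_slope.1 hf')
    have e : Ici x \ {x} = Ioi x := by
      ext s; simp only [Set.mem_sdiff, mem_Ici, mem_singleton_iff, mem_Ioi]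
      constructor
      · rintro ⟨h1, h2⟩; exact lt_of_le_of_ne h1 (Ne.symm h2)
      · intro h; exact ⟨h.le, ne_of_gt h⟩
    rwa [e] at this
  have h2 : ∀ᶠ y in 𝓝[>] x, 0 < slope f' x y := h1.eventually (lt_mem_nhds hcon)
  rw [eventually_nhdsWithin_iff] at h2
  have h3 := (h2.and hf).and hmax
  obtain ⟨ε, hε, hball⟩ := Metric.eventually_nhds_iff.1 h3
  have hmem : ∀ y ∈ Icc x (x + ε/2), dist y x < ε := by
    intro y hy
    rw [Real.dist_eq, abs_of_nonneg (by linarith [hy.1])]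
    linarith [hy.2]
  have hmono : StrictMonoOn f (Icc x (x + ε/2)) := by
    apply strictMonoOn_of_deriv_pos (convex_Icc _ _)
    · intro y hy
      exact ((hball (hmem y hy)).1.2).continuousAt.continuousWithinAt
    · intro y hy
      rw [interior_Icc] at hy
      have hyI : y ∈ Icc x (x + ε/2) := ⟨hy.1.le, hy.2.le⟩
      rw [((hball (hmem y hyI)).1.2).deriv]
      have hs := (hball (hmem y hyI)).1.1 (by simpa using hy.1)
      rw [slope_def_field, hx0, sub_zero] at hs
      have : 0 < y - x := by linarith [hy.1]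
      exact (div_pos_iff_of_pos_right this).1 hs
  have hxm : x ∈ Icc x (x + ε/2) := ⟨le_refl _, by linarith⟩
  have hym : x + ε/2 ∈ Icc x (x + ε/2) := ⟨by linarith, le_refl _⟩
  have hlt := hmono hxm hym (by linarith)
  have hle := (hball (hmem _ hym)).2
  linarith

/-- second order necessary condition at a local maximum, left-sided second derivative -/
lemma second_deriv_nonpos_left {f f' : ℝ → ℝ} {f'' x : ℝ}
    (hf : ∀ᶠ y in 𝓝 x, HasDerivAt f (f' y) y) (hf' : HasDerivWithinAt f' f'' (Iic x) x)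
    (hmax : IsLocalMax f x) : f' x = 0 ∧ f'' ≤ 0 := by
  have hneg : Tendsto (fun y : ℝ => -y) (𝓝 (-x)) (𝓝 x) := by
    have := (continuous_neg (G := ℝ)).tendsto (-x)
    rwa [neg_neg] at this
  have h := second_deriv_nonpos_right (f := fun y => f (-y)) (f' := fun y => - f' (-y))
    (f'' := f'') (x := -x) ?_ ?_ ?_
  · refine ⟨?_, h.2⟩
    have h1 := h.1
    simp only [neg_neg] at h1
    linarith
  · filter_upwards [hneg.eventually hf] with y hy
    have h1 := HasDerivAt.comp y hy (hasDerivAt_neg y)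
    have h2 : f' (-y) * -1 = - f' (-y) := by ring
    rw [h2] at h1
    exact h1
  · have h1 : HasDerivWithinAt (fun s : ℝ => -s) (-1) (Ici (-x)) (-x) :=
      (hasDerivAt_neg (-x)).hasDerivWithinAt
    have h2 : MapsTo (fun s : ℝ => -s) (Ici (-x)) (Iic x) := by
      intro s hs
      have : -x ≤ s := hs
      simp only [mem_Iic]; linarith
    have hf2 : HasDerivWithinAt f' f'' (Iic x) (-(-x)) := by rwa [neg_neg]
    have h3 := HasDerivWithinAt.comp (-x) hf2 h1 h2
    have h4 := h3.neg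
    have h5 : -(f'' * -1) = f'' := by ring
    rw [h5] at h4
    exact h4
  · have h1 : ∀ᶠ y in 𝓝 (-x), f (-y) ≤ f x := hneg.eventually hmax
    filter_upwards [h1] with y hy
    simpa using hy

/-- second derivative from one of the two sides -/
def HasSide (w' : ℝ → ℝ) (wxx x : ℝ) : Prop :=
  HasDerivWithinAt w' wxx (Ici x) x ∨ HasDerivWithinAt w' wxx (Iic x) x

lemma HasSide.of_hasDerivAt {w' : ℝ → ℝ} {wxx x : ℝ} (h : HasDerivAt w' wxx x) : HasSide w' wxx x :=
  Or.inl h.hasDerivWithinAt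

lemma HasSide.sub {f' : ℝ → ℝ} {f'' x : ℝ} (h : HasSide f' f'' x) {g' : ℝ → ℝ} {g'' : ℝ}
    (hg : HasDerivAt g' g'' x) : HasSide (fun y => f' y - g' y) (f'' - g'') x := by
  rcases h with h | h
  · exact Or.inl (h.sub hg.hasDerivWithinAt)
  · exact Or.inr (h.sub hg.hasDerivWithinAt)

lemma HasSide.nonpos {f f' : ℝ → ℝ} {f'' x : ℝ} (h : HasSide f' f'' x)
    (hf : ∀ᶠ y in 𝓝 x, HasDerivAt f (f' y) y) (hmax : IsLocalMax f x) : f' x = 0 ∧ f'' ≤ 0 := by
  rcases h with h | h
  · exact second_deriv_nonpos_right hf h hmax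
  · exact second_deriv_nonpos_left hf h hmax

/-- Local data for the backward inequality at `(t,x)`, one-sided second derivative. -/
def BackIneq1 (K : Set (ℝ × ℝ)) (w : ℝ → ℝ → ℝ) (A B C t x : ℝ) : Prop :=
  ∃ (wt wxx a b c : ℝ) (w' : ℝ → ℝ),
    (∀ᶠ s in 𝓝[>] t, (s, x) ∈ K) ∧ (∀ᶠ y in 𝓝 x, (t, y) ∈ K) ∧
    HasDerivWithinAt (fun s => w s x) wt (Ici t) t ∧
    (∀ᶠ y in 𝓝 x, HasDerivAt (w t) (w' y) y) ∧ HasSide w' wxx x ∧
    0 ≤ a ∧ a ≤ A * (1 + x ^ 2) ∧ |b| ≤ B * (1 + |x|) ∧ c ≤ C ∧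
    0 ≤ wt + a * wxx + b * w' x + c * w t x

/-- Local data for the forward inequality at `(t,x)`, one-sided second derivative. -/
def ForwIneq1 (K : Set (ℝ × ℝ)) (w : ℝ → ℝ → ℝ) (A B C t x : ℝ) : Prop :=
  ∃ (wt wxx a b c : ℝ) (w' : ℝ → ℝ),
    (∀ᶠ s in 𝓝[<] t, (s, x) ∈ K) ∧ (∀ᶠ y in 𝓝 x, (t, y) ∈ K) ∧
    HasDerivWithinAt (fun s => w s x) wt (Iic t) t ∧
    (∀ᶠ y in 𝓝 x, HasDerivAt (w t) (w' y) y) ∧ HasSide w' wxx x ∧
    0 ≤ a ∧ a ≤ A * (1 + x ^ 2) ∧ |b| ≤ B * (1 + |x|) ∧ c ≤ C ∧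
    wt ≤ a * wxx + b * w' x + c * w t x

/-- the exponential-quadratic barrier is a strict supersolution -/
lemma barrier_neg {A B C a b c x : ℝ} (haA : a ≤ A * (1 + x ^ 2))
    (hbB : |b| ≤ B * (1 + |x|)) (hcC : c ≤ C) :
    -(2 * |A| + 4 * |B| + |C| + 1) * (1 + x ^ 2) + 2 * a + 2 * b * x + c * (1 + x ^ 2) < 0 := by
  have hx2 : |x| + |x| ^ 2 ≤ 2 * (1 + x ^ 2) := by
    rw [← sq_abs x]; nlinarith [sq_nonneg (|x| - 1)]
  have hbx : 2 * b * x ≤ 4 * |B| * (1 + x ^ 2) := by
    have h5 : 2 * b * x ≤ 2 * (|b| * |x|) := by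
      have := le_abs_self (b * x)
      rw [abs_mul] at this
      linarith
    have h6 : |b| ≤ |B| * (1 + |x|) :=
      hbB.trans (mul_le_mul_of_nonneg_right (le_abs_self B) (by positivity))
    have h7 : |b| * |x| ≤ |B| * (1 + |x|) * |x| := mul_le_mul_of_nonneg_right h6 (abs_nonneg _)
    have h8 : |B| * (1 + |x|) * |x| ≤ |B| * (2 * (1 + x ^ 2)) := by
      have : |B| * (1 + |x|) * |x| = |B| * (|x| + |x| ^ 2) := by ring
      rw [this]
      exact mul_le_mul_of_nonneg_left hx2 (abs_nonneg _)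
    linarith
  have haA' : a ≤ |A| * (1 + x ^ 2) :=
    haA.trans (mul_le_mul_of_nonneg_right (le_abs_self A) (by positivity))
  have hcC' : c * (1 + x ^ 2) ≤ |C| * (1 + x ^ 2) :=
    mul_le_mul_of_nonneg_right (hcC.trans (le_abs_self C)) (by positivity)
  have hp : 0 < 1 + x ^ 2 := by positivity
  nlinarith

/-- **Weak maximum principle (backward form), one-sided second derivatives.** -/
theorem backward_max1 {K : Set (ℝ × ℝ)} (hK : IsClosed K) {t0 t1 : ℝ}
    (hKt : ∀ p ∈ K, t0 ≤ p.1 ∧ p.1 ≤ t1) {w : ℝ → ℝ → ℝ}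
    (hw : ContinuousOn (fun p : ℝ × ℝ => w p.1 p.2) K)
    {A B C M : ℝ} (hM : ∀ p ∈ K, w p.1 p.2 ≤ M * (1 + |p.2|))
    (hloc : ∀ t x, (t, x) ∈ K → 0 < w t x → BackIneq1 K w A B C t x) :
    ∀ t x, (t, x) ∈ K → w t x ≤ 0 := by
  set κ : ℝ := 2 * |A| + 4 * |B| + |C| + 1 with hκ
  have hκpos : 0 < κ := by positivity
  set φ : ℝ → ℝ → ℝ := fun t x => Real.exp (κ * (t1 - t)) * (1 + x ^ 2) with hφ
  have hφpos : ∀ t x, 0 < φ t x := fun t x => by simp only [hφ]; positivity
  have hφge : ∀ p ∈ K, 1 + p.2 ^ 2 ≤ φ p.1 p.2 := by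
    intro p hp
    have h1 : 1 ≤ Real.exp (κ * (t1 - p.1)) := by
      apply Real.one_le_exp
      exact mul_nonneg hκpos.le (by linarith [(hKt p hp).2])
    simp only [hφ]
    nlinarith [sq_nonneg p.2]
  have key := max_core (K := K) (w := fun p : ℝ × ℝ => w p.1 p.2)
    (φ := fun p : ℝ × ℝ => φ p.1 p.2) hw (by simp only [hφ]; fun_prop)
    (fun p _ => hφpos _ _) ?_ ?_
  · intro t x h; exact key (t, x) h
  · -- behaviour at infinity
    intro ε hε
    set R : ℝ := 2 * |M| / ε + 2 with hR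
    have hRpos : 0 < R := by positivity
    refine ⟨K ∩ (Icc t0 t1 ×ˢ Icc (-R) R), inter_subset_left,
      (isCompact_Icc.prod isCompact_Icc).inter_left hK, ?_⟩
    intro p hp hpL
    have hRp : R ≤ |p.2| := by
      by_contra h
      push Not at h
      exact hpL ⟨hp, ⟨hKt p hp, ⟨(abs_lt.1 h).1.le, (abs_lt.1 h).2.le⟩⟩⟩
    have h1 : w p.1 p.2 ≤ |M| * (1 + |p.2|) := by
      refine (hM p hp).trans ?_
      exact mul_le_mul_of_nonneg_right (le_abs_self M) (by positivity)
    have hx : (2:ℝ) ≤ |p.2| := by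
      have : 0 ≤ 2 * |M| / ε := by positivity
      linarith
    have h3 : 2 * |M| ≤ ε * (|p.2| - 2) := by
      have h4 : 2 * |M| / ε ≤ |p.2| - 2 := by linarith
      have := (div_le_iff₀ hε).1 h4
      linarith
    have h5 : p.2 ^ 2 = |p.2| ^ 2 := (sq_abs _).symm
    have h6 : |M| * (1 + |p.2|) ≤ |M| * (2 * |p.2|) :=
      mul_le_mul_of_nonneg_left (by linarith) (abs_nonneg _)
    have h7 : |M| * (2 * |p.2|) ≤ ε * (|p.2| - 2) * |p.2| := by nlinarith
    have h8 : w p.1 p.2 ≤ ε * (1 + p.2 ^ 2) := by rw [h5]; nlinarith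
    exact h8.trans (mul_le_mul_of_nonneg_left (hφge p hp) hε.le)
  · -- touching
    rintro ⟨t, x⟩ hpK S hSpos hall heq
    simp only at hpK hall heq
    have hwpos : 0 < w t x := by rw [heq]; exact mul_pos hSpos (hφpos _ _)
    obtain ⟨wt, wxx, a, b, c, w', hKs, hKy, hwt, hwx, hwxx, ha0, haA, hbB, hcC, hpde⟩ :=
      hloc t x hpK hwpos
    have hwle : ∀ s y, (s, y) ∈ K → w s y - S * φ s y ≤ 0 := by
      intro s y hsy
      have := hall (s, y) hsy
      simp only at this
      linarith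
    have hweq : w t x - S * φ t x = 0 := by linarith
    have hφt : HasDerivAt (fun s => φ s x) (-κ * φ t x) t := by
      have h1 : HasDerivAt (fun s : ℝ => κ * (t1 - s)) (-κ) t := by
        have := ((hasDerivAt_const t t1).sub (hasDerivAt_id t)).const_mul κ
        simpa using this
      have h2 := h1.exp.mul_const (1 + x ^ 2)
      have h3 : HasDerivAt (fun s => φ s x) (Real.exp (κ * (t1 - t)) * -κ * (1 + x ^ 2)) t := h2
      convert h3 using 1
      simp only [hφ]; ring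
    have hgt : HasDerivWithinAt (fun s => w s x - S * φ s x) (wt - S * (-κ * φ t x)) (Ici t) t :=
      hwt.sub ((hφt.const_mul S).hasDerivWithinAt)
    have h1 : wt - S * (-κ * φ t x) ≤ 0 := by
      apply deriv_right_nonpos hgt
      filter_upwards [hKs] with s hs
      rw [hweq]; exact hwle s x hs
    set e : ℝ := Real.exp (κ * (t1 - t)) with he
    have hepos : 0 < e := Real.exp_pos _
    have hφx : ∀ y, HasDerivAt (fun y => φ t y) (e * (2 * y)) y := by
      intro y
      have h1 : HasDerivAt (fun y : ℝ => 1 + y ^ 2) (2 * y) y := by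
        have := (hasDerivAt_pow 2 y).const_add 1
        simpa using this
      exact h1.const_mul e
    have hφxx : HasDerivAt (fun y : ℝ => e * (2 * y)) (e * 2) x := by
      have := ((hasDerivAt_id x).const_mul 2).const_mul e
      simpa using this
    have hmaxx : IsLocalMax (fun y => w t y - S * φ t y) x := by
      filter_upwards [hKy] with y hy
      rw [hweq]; exact hwle t y hy
    have h2 := (hwxx.sub (hφxx.const_mul S)).nonpos (f := fun y => w t y - S * φ t y)
      (by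
        filter_upwards [hwx] with y hy
        exact hy.sub ((hφx y).const_mul S)) hmaxx
    obtain ⟨h2a, h2b⟩ := h2
    have hφe : φ t x = e * (1 + x ^ 2) := rfl
    have h9 : -κ * (1 + x ^ 2) + 2 * a + 2 * b * x + c * (1 + x ^ 2) < 0 :=
      barrier_neg haA hbB hcC
    have h10 : a * (wxx - S * (e * 2)) ≤ 0 := mul_nonpos_of_nonneg_of_nonpos ha0 h2b
    have h11 : w' x = S * (e * (2 * x)) := by linarith
    have h12 : w t x = S * (e * (1 + x ^ 2)) := by rw [← hφe]; linarith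
    rw [h11, h12] at hpde
    rw [hφe] at h1
    have h13 : 0 ≤ S * e * (-κ * (1 + x ^ 2) + 2 * a + 2 * b * x + c * (1 + x ^ 2)) := by
      nlinarith
    have h14 : S * e * (-κ * (1 + x ^ 2) + 2 * a + 2 * b * x + c * (1 + x ^ 2)) < 0 :=
      mul_neg_of_pos_of_neg (mul_pos hSpos hepos) h9
    linarith

/-- **Weak maximum principle (forward form), one-sided second derivatives.** -/
theorem forward_max1 {K : Set (ℝ × ℝ)} (hK : IsClosed K) {t0 t1 : ℝ}
    (hKt : ∀ p ∈ K, t0 ≤ p.1 ∧ p.1 ≤ t1) {w : ℝ → ℝ → ℝ}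
    (hw : ContinuousOn (fun p : ℝ × ℝ => w p.1 p.2) K)
    {A B C M : ℝ} (hM : ∀ p ∈ K, w p.1 p.2 ≤ M * (1 + |p.2|))
    (hloc : ∀ t x, (t, x) ∈ K → 0 < w t x → ForwIneq1 K w A B C t x) :
    ∀ t x, (t, x) ∈ K → w t x ≤ 0 := by
  set K2 : Set (ℝ × ℝ) := (fun p : ℝ × ℝ => (-p.1, p.2)) ⁻¹' K with hK2
  have hcm : Continuous (fun p : ℝ × ℝ => ((-p.1, p.2) : ℝ × ℝ)) := by fun_prop
  have key := backward_max1 (K := K2) (hK.preimage hcm) (t0 := -t1) (t1 := -t0)
    (fun p hp => ⟨by linarith [(hKt _ hp).2], by linarith [(hKt _ hp).1]⟩)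
    (w := fun t x => w (-t) x) (A := A) (B := B) (C := C) (M := M)
    (by
      have h := hw.comp hcm.continuousOn (s := K2) (fun p hp => hp)
      exact h)
    (fun p hp => hM _ hp)
    (by
      intro t x htx hpos
      obtain ⟨wt, wxx, a, b, c, w', hKs, hKy, hwt, hwx, hwxx, ha0, haA, hbB, hcC, hpde⟩ :=
        hloc (-t) x htx hpos
      refine ⟨-wt, wxx, a, b, c, w', ?_, hKy, ?_, hwx, hwxx, ha0, haA, hbB, hcC, by linarith⟩
      · have hneg : Tendsto (fun s : ℝ => -s) (𝓝[>] t) (𝓝[<] (-t)) := by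
          apply tendsto_nhdsWithin_of_tendsto_nhds_of_eventually_within
          · exact (continuous_neg.tendsto t).mono_left nhdsWithin_le_nhds
          · filter_upwards [self_mem_nhdsWithin] with s hs
            have : t < s := hs
            simpa using this
        exact hneg.eventually hKs
      · have h1 : HasDerivWithinAt (fun s : ℝ => -s) (-1) (Ici t) t :=
          (hasDerivAt_neg t).hasDerivWithinAt
        have h2 : MapsTo (fun s : ℝ => -s) (Ici t) (Iic (-t)) := by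
          intro s hs
          have : t ≤ s := hs
          simpa using this
        have h3 := HasDerivWithinAt.scomp (x := t) (h := fun s : ℝ => -s) (h' := -1)
          (g₁ := fun s => w s x) (g₁' := wt) (t' := Iic (-t)) (s := Ici t)
          hwt h1 h2
        have h4 : (-1 : ℝ) • wt = -wt := by simp
        rw [h4] at h3
        exact h3)
  intro t x htx
  have := key (-t) x (by simpa [hK2] using htx)
  simpa using this

end Crest.Agent.R146.MaxP2_371
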