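import Crest.Agent.R146.MaxP2_371

/-!
Comparison lemmas for the tip system of row 146 (helper371), in `x`-space, one-sided time derivatives.

Notation: `u ≥ 0`, `V = 1 + u_x ∈ (0,1)`, `P = V_x = u_xx ≥ 0`, `R = 1 - V`, `b ≥ 0`.
  `u_t = -(P/2 + b u V)`, `V_t = -(P_x/2 + b u P) + b V (1-V)`, `P_t = -(P_xx/2 + b u P_x) + b (2-3V) P`.
-/

set_option autoImplicit false

open Set Filter Topology

namespace Crest.Agent.R146.MaxPCmp_371

open MaxP_371 MaxP2_371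

/-- the strip `[t0,t1] × ℝ` -/
abbrev strip (t0 t1 : ℝ) : Set (ℝ × ℝ) := Icc t0 t1 ×ˢ (univ : Set ℝ)

lemma strip_closed (t0 t1 : ℝ) : IsClosed (strip t0 t1) := isClosed_Icc.prod isClosed_univ

lemma strip_time {t0 t1 : ℝ} (p : ℝ × ℝ) (hp : p ∈ strip t0 t1) : t0 ≤ p.1 ∧ p.1 ≤ t1 := hp.1

lemma strip_ev_right {t0 t1 t : ℝ} (ht : t ∈ Ico t0 t1) (x : ℝ) :
    ∀ᶠ s in 𝓝[>] t, (s, x) ∈ strip t0 t1 := by
  have h1 : ∀ᶠ s in 𝓝[>] t, s < t1 := by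
    exact (eventually_lt_nhds ht.2).filter_mono nhdsWithin_le_nhds
  filter_upwards [h1, self_mem_nhdsWithin] with s hs hst
  exact ⟨⟨ht.1.trans (le_of_lt hst), hs.le⟩, mem_univ _⟩

lemma strip_ev_left {t0 t1 t : ℝ} (ht : t ∈ Ioc t0 t1) (x : ℝ) :
    ∀ᶠ s in 𝓝[<] t, (s, x) ∈ strip t0 t1 := by
  have h1 : ∀ᶠ s in 𝓝[<] t, t0 < s := by
    exact (eventually_gt_nhds ht.1).filter_mono nhdsWithin_le_nhds
  filter_upwards [h1, self_mem_nhdsWithin] with s hs hst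
  exact ⟨⟨hs.le, (le_of_lt hst).trans ht.2⟩, mem_univ _⟩

lemma strip_ev_x {t0 t1 t : ℝ} (ht : t ∈ Icc t0 t1) (x : ℝ) :
    ∀ᶠ y in 𝓝 x, (t, y) ∈ strip t0 t1 :=
  Eventually.of_forall fun y => ⟨ht, mem_univ y⟩

/-- **Strip version, backward.** -/
theorem backward_strip {t0 t1 : ℝ} {w : ℝ → ℝ → ℝ}
    (hw : ContinuousOn (fun p : ℝ × ℝ => w p.1 p.2) (strip t0 t1))
    {A B C M : ℝ} (hM : ∀ t ∈ Icc t0 t1, ∀ x, w t x ≤ M * (1 + |x|))
    (hterm : ∀ x, w t1 x ≤ 0)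
    (hloc : ∀ t ∈ Ico t0 t1, ∀ x, 0 < w t x → ∃ (wt wxx a b c : ℝ) (w' : ℝ → ℝ),
      HasDerivWithinAt (fun s => w s x) wt (Ici t) t ∧
      (∀ᶠ y in 𝓝 x, HasDerivAt (w t) (w' y) y) ∧ HasSide w' wxx x ∧
      0 ≤ a ∧ a ≤ A * (1 + x ^ 2) ∧ |b| ≤ B * (1 + |x|) ∧ c ≤ C ∧
      0 ≤ wt + a * wxx + b * w' x + c * w t x) :
    ∀ t ∈ Icc t0 t1, ∀ x, w t x ≤ 0 := by
  intro t ht x
  refine backward_max1 (strip_closed t0 t1) strip_time hw (A := A) (B := B) (C := C) (M := M)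
    (fun p hp => hM p.1 hp.1 p.2) ?_ t x ⟨ht, mem_univ _⟩
  intro t x htx hpos
  have htI : t ∈ Icc t0 t1 := htx.1
  have htlt : t < t1 := by
    rcases lt_or_eq_of_le htI.2 with h | h
    · exact h
    · exfalso; rw [h] at hpos; exact absurd (hterm x) (not_le.2 hpos)
  obtain ⟨wt, wxx, a, b, c, w', h1, h2, h3, h4, h5, h6, h7, h8⟩ := hloc t ⟨htI.1, htlt⟩ x hpos
  exact ⟨wt, wxx, a, b, c, w', strip_ev_right ⟨htI.1, htlt⟩ x, strip_ev_x htI x,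
    h1, h2, h3, h4, h5, h6, h7, h8⟩

/-- **Strip version, forward.** -/
theorem forward_strip {t0 t1 : ℝ} {w : ℝ → ℝ → ℝ}
    (hw : ContinuousOn (fun p : ℝ × ℝ => w p.1 p.2) (strip t0 t1))
    {A B C M : ℝ} (hM : ∀ t ∈ Icc t0 t1, ∀ x, w t x ≤ M * (1 + |x|))
    (hinit : ∀ x, w t0 x ≤ 0)
    (hloc : ∀ t ∈ Ioc t0 t1, ∀ x, 0 < w t x → ∃ (wt wxx a b c : ℝ) (w' : ℝ → ℝ),
      HasDerivWithinAt (fun s => w s x) wt (Iic t) t ∧
      (∀ᶠ y in 𝓝 x, HasDerivAt (w t) (w' y) y) ∧ HasSide w' wxx x ∧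
      0 ≤ a ∧ a ≤ A * (1 + x ^ 2) ∧ |b| ≤ B * (1 + |x|) ∧ c ≤ C ∧
      wt ≤ a * wxx + b * w' x + c * w t x) :
    ∀ t ∈ Icc t0 t1, ∀ x, w t x ≤ 0 := by
  intro t ht x
  refine forward_max1 (strip_closed t0 t1) strip_time hw (A := A) (B := B) (C := C) (M := M)
    (fun p hp => hM p.1 hp.1 p.2) ?_ t x ⟨ht, mem_univ _⟩
  intro t x htx hpos
  have htI : t ∈ Icc t0 t1 := htx.1
  have htlt : t0 < t := by
    rcases lt_or_eq_of_le htI.1 with h | h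
    · exact h
    · exfalso; rw [← h] at hpos; exact absurd (hinit x) (not_le.2 hpos)
  obtain ⟨wt, wxx, a, b, c, w', h1, h2, h3, h4, h5, h6, h7, h8⟩ := hloc t ⟨htlt, htI.2⟩ x hpos
  exact ⟨wt, wxx, a, b, c, w', strip_ev_left ⟨htlt, htI.2⟩ x, strip_ev_x htI x,
    h1, h2, h3, h4, h5, h6, h7, h8⟩

/-- The backward tip system on `[t0,t1]` (classical on `[t0,t1)`, continuous on `[t0,t1]`). -/
structure BSys (t0 t1 : ℝ) (b : ℝ → ℝ) (u V P Px Pxx : ℝ → ℝ → ℝ) (M : ℝ) : Prop where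
  hux : ∀ t ∈ Ico t0 t1, ∀ x, HasDerivAt (u t) (V t x - 1) x
  hVx : ∀ t ∈ Ico t0 t1, ∀ x, HasDerivAt (V t) (P t x) x
  hPx : ∀ t ∈ Ico t0 t1, ∀ x, HasDerivAt (P t) (Px t x) x
  hPxx : ∀ t ∈ Ico t0 t1, ∀ x, HasDerivAt (Px t) (Pxx t x) x
  hut : ∀ t ∈ Ico t0 t1, ∀ x,
    HasDerivWithinAt (fun s => u s x) (-(P t x / 2 + b t * u t x * V t x)) (Ici t) t
  hVt : ∀ t ∈ Ico t0 t1, ∀ x,
    HasDerivWithinAt (fun s => V s x)
      (-(Px t x / 2 + b t * u t x * P t x) + b t * V t x * (1 - V t x)) (Ici t) t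
  hPt : ∀ t ∈ Ico t0 t1, ∀ x,
    HasDerivWithinAt (fun s => P s x)
      (-(Pxx t x / 2 + b t * u t x * Px t x) + b t * (2 - 3 * V t x) * P t x) (Ici t) t
  cu : ContinuousOn (fun p : ℝ × ℝ => u p.1 p.2) (strip t0 t1)
  cV : ContinuousOn (fun p : ℝ × ℝ => V p.1 p.2) (strip t0 t1)
  cP : ContinuousOn (fun p : ℝ × ℝ => P p.1 p.2) (strip t0 t1)
  b_nonneg : ∀ t ∈ Icc t0 t1, 0 ≤ b t
  b_le : ∀ t ∈ Icc t0 t1, b t ≤ M
  V_pos : ∀ t ∈ Icc t0 t1, ∀ x, 0 < V t x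
  V_lt : ∀ t ∈ Icc t0 t1, ∀ x, V t x < 1
  u_nonneg : ∀ t ∈ Icc t0 t1, ∀ x, 0 ≤ u t x
  u_le : ∀ t ∈ Icc t0 t1, ∀ x, u t x ≤ M * (1 + |x|)
  P_nonneg : ∀ t ∈ Icc t0 t1, ∀ x, 0 ≤ P t x
  P_le : ∀ t ∈ Icc t0 t1, ∀ x, P t x ≤ M

namespace BSys

variable {t0 t1 : ℝ} {b : ℝ → ℝ} {u V P Px Pxx : ℝ → ℝ → ℝ} {M : ℝ}

lemma drift_le (h : BSys t0 t1 b u V P Px Pxx M) {t : ℝ} (ht : t ∈ Icc t0 t1) (x : ℝ) :
    |b t * u t x| ≤ M * M * (1 + |x|) := by
  have h1 := h.b_nonneg t ht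
  have h2 := h.b_le t ht
  have h3 := h.u_nonneg t ht x
  have h4 := h.u_le t ht x
  rw [abs_of_nonneg (mul_nonneg h1 h3), mul_assoc]
  exact mul_le_mul h2 h4 h3 (h1.trans h2)

lemma mono (h : BSys t0 t1 b u V P Px Pxx M) {t : ℝ} (ht : t ∈ Ico t0 t1) : Monotone (V t) := by
  apply monotone_of_deriv_nonneg
  · intro x; exact (h.hVx t ht x).differentiableAt
  · intro x; rw [(h.hVx t ht x).deriv]; exact h.P_nonneg t ⟨ht.1, ht.2.le⟩ x

/-- (B1) `u` is monotone in `b`: comparison of two backward systems. -/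
theorem u_le_u {b2 : ℝ → ℝ} {u2 V2 P2 Px2 Pxx2 : ℝ → ℝ → ℝ} {M2 : ℝ}
    (h : BSys t0 t1 b u V P Px Pxx M) (h2 : BSys t0 t1 b2 u2 V2 P2 Px2 Pxx2 M2)
    (hb : ∀ t ∈ Ico t0 t1, b t ≤ b2 t) (hterm : ∀ x, u t1 x ≤ u2 t1 x) :
    ∀ t ∈ Icc t0 t1, ∀ x, u t x ≤ u2 t x := by
  have key := backward_strip (t0 := t0) (t1 := t1) (w := fun t x => u t x - u2 t x)
    (h.cu.sub h2.cu) (A := 1) (B := M * M2) (C := M) (M := M) ?_ ?_ ?_
  · intro t ht x
    have := key t ht x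
    linarith
  · intro t ht x
    have h3 := h.u_le t ht x
    have h4 := h2.u_nonneg t ht x
    linarith
  · intro x; have := hterm x; linarith
  · intro t ht x hpos
    have htI : t ∈ Icc t0 t1 := ⟨ht.1, ht.2.le⟩
    refine ⟨_, P t x - P2 t x, 1/2, b t * u2 t x, b t * V t x,
      fun y => (V t y - 1) - (V2 t y - 1), (h.hut t ht x).sub (h2.hut t ht x),
      Eventually.of_forall fun y => (h.hux t ht y).sub (h2.hux t ht y), ?_, by norm_num, ?_, ?_, ?_, ?_⟩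
    · exact HasSide.of_hasDerivAt (((h.hVx t ht x).sub_const 1).sub ((h2.hVx t ht x).sub_const 1))
    · nlinarith [sq_nonneg x]
    · have h1 := h.b_nonneg t htI
      have h5 := h.b_le t htI
      have h3 := h2.u_nonneg t htI x
      have h4 := h2.u_le t htI x
      rw [abs_of_nonneg (mul_nonneg h1 h3), mul_assoc]
      exact mul_le_mul h5 h4 h3 (h1.trans h5)
    · have h1 := h.b_nonneg t htI
      have h5 := h.b_le t htI
      have h6 := h.V_pos t htI x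
      have h7 := h.V_lt t htI x
      nlinarith
    · have h1 := hb t ht
      have h3 := h2.u_nonneg t htI x
      have h4 := h2.V_pos t htI x
      have h5 : 0 ≤ (b2 t - b t) * (u2 t x * V2 t x) :=
        mul_nonneg (by linarith) (mul_nonneg h3 h4.le)
      nlinarith

/-- derivative data for `P - g K(V)` -/
lemma slope_data (h : BSys t0 t1 b u V P Px Pxx M) {t : ℝ} (ht : t ∈ Ico t0 t1) (x : ℝ)
    {g : ℝ → ℝ} {g' : ℝ} (hg : HasDerivWithinAt g g' (Ici t) t)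
    {K K' : ℝ → ℝ} {K'' : ℝ} (hK : ∀ v ∈ Ioo (0:ℝ) 1, HasDerivAt K (K' v) v)
    (hK' : HasSide K' K'' (V t x)) :
    HasDerivWithinAt (fun s => P s x - g s * K (V s x))
      ((-(Pxx t x / 2 + b t * u t x * Px t x) + b t * (2 - 3 * V t x) * P t x) -
        (g' * K (V t x) + g t * (K' (V t x) *
          (-(Px t x / 2 + b t * u t x * P t x) + b t * V t x * (1 - V t x))))) (Ici t) t ∧
    (∀ᶠ y in 𝓝 x, HasDerivAt (fun y => P t y - g t * K (V t y))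
      (Px t y - g t * (K' (V t y) * P t y)) y) ∧
    HasSide (fun y => Px t y - g t * (K' (V t y) * P t y))
      (Pxx t x - g t * (K'' * P t x * P t x + K' (V t x) * Px t x)) x := by
  have htI : t ∈ Icc t0 t1 := ⟨ht.1, ht.2.le⟩
  have hVI : ∀ y, V t y ∈ Ioo (0:ℝ) 1 := fun y => ⟨h.V_pos t htI y, h.V_lt t htI y⟩
  refine ⟨?_, ?_, ?_⟩
  · have h1 : HasDerivWithinAt (fun s => K (V s x))
        (K' (V t x) * (-(Px t x / 2 + b t * u t x * P t x) + b t * V t x * (1 - V t x)))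
        (Ici t) t := (hK _ (hVI x)).comp_hasDerivWithinAt t (h.hVt t ht x)
    exact (h.hPt t ht x).sub (hg.mul h1)
  · refine Eventually.of_forall fun y => ?_
    have h1 : HasDerivAt (fun y => K (V t y)) (K' (V t y) * P t y) y :=
      (hK _ (hVI y)).comp y (h.hVx t ht y)
    exact (h.hPx t ht y).sub (h1.const_mul (g t))
  · rcases hK' with hK' | hK'
    · left
      have hmaps : MapsTo (V t) (Ici x) (Ici (V t x)) := fun y hy => h.mono ht hy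
      have h1 : HasDerivWithinAt (fun y => K' (V t y)) (K'' * P t x) (Ici x) x :=
        hK'.comp x (h.hVx t ht x).hasDerivWithinAt hmaps
      have h2 := h1.mul (h.hPx t ht x).hasDerivWithinAt
      exact (h.hPxx t ht x).hasDerivWithinAt.sub (h2.const_mul (g t))
    · right
      have hmaps : MapsTo (V t) (Iic x) (Iic (V t x)) := fun y hy => h.mono ht hy
      have h1 : HasDerivWithinAt (fun y => K' (V t y)) (K'' * P t x) (Iic x) x :=
        hK'.comp x (h.hVx t ht x).hasDerivWithinAt hmaps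
      have h2 := h1.mul (h.hPx t ht x).hasDerivWithinAt
      exact (h.hPxx t ht x).hasDerivWithinAt.sub (h2.const_mul (g t))

/-- **Slope comparison, upper barrier** (P-function, no inversion): `V_x ≤ g(t) K(V)`. -/
theorem slope_le (h : BSys t0 t1 b u V P Px Pxx M)
    {g g' : ℝ → ℝ} (hg : ∀ t ∈ Ico t0 t1, HasDerivWithinAt g (g' t) (Ici t) t)
    (hgc : ContinuousOn g (Icc t0 t1)) (hg0 : ∀ t ∈ Icc t0 t1, 0 ≤ g t)
    {K K' K'' : ℝ → ℝ} (hKc : ContinuousOn K (Ioo 0 1)) (hK0 : ∀ v ∈ Ioo (0:ℝ) 1, 0 ≤ K v)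
    (hK : ∀ v ∈ Ioo (0:ℝ) 1, HasDerivAt K (K' v) v)
    (hK' : ∀ v ∈ Ioo (0:ℝ) 1, HasSide K' (K'' v) v)
    (hconc : ∀ v ∈ Ioo (0:ℝ) 1, K'' v ≤ 0)
    (hineq : ∀ t ∈ Ico t0 t1, ∀ v ∈ Ioo (0:ℝ) 1,
      g' t * K v + g t ^ 3 * (K v ^ 2 * K'' v) / 2
        + b t * g t * (v * (1 - v) * K' v - (2 - 3 * v) * K v) ≤ 0)
    (hterm : ∀ x, P t1 x ≤ g t1 * K (V t1 x)) :
    ∀ t ∈ Icc t0 t1, ∀ x, P t x ≤ g t * K (V t x) := by
  have hVI : ∀ t ∈ Icc t0 t1, ∀ y, V t y ∈ Ioo (0:ℝ) 1 :=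
    fun t ht y => ⟨h.V_pos t ht y, h.V_lt t ht y⟩
  have key := backward_strip (t0 := t0) (t1 := t1) (w := fun t x => P t x - g t * K (V t x))
    ?_ (A := 1) (B := M * M) (C := M) (M := M) ?_ ?_ ?_
  · intro t ht x
    have := key t ht x
    linarith
  · refine h.cP.sub (ContinuousOn.mul ?_ ?_)
    · exact hgc.comp continuous_fst.continuousOn (fun p hp => hp.1)
    · exact hKc.comp h.cV (fun p hp => hVI p.1 hp.1 p.2)
  · intro t ht x
    have h1 := h.P_le t ht x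
    have h2 : 0 ≤ g t * K (V t x) := mul_nonneg (hg0 t ht) (hK0 _ (hVI t ht x))
    have h3 := h.P_nonneg t ht x
    have h4 : 0 ≤ |x| := abs_nonneg x
    have h5 : 0 ≤ M := h3.trans h1
    nlinarith
  · intro x; have := hterm x; linarith
  · intro t ht x hpos
    have htI : t ∈ Icc t0 t1 := ⟨ht.1, ht.2.le⟩
    set v := V t x with hv
    have hvI : v ∈ Ioo (0:ℝ) 1 := hVI t htI x
    obtain ⟨d1, d2, d3⟩ := h.slope_data ht x (hg t ht) hK (hK' v hvI)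
    refine ⟨_, _, 1/2, b t * u t x,
      g t * K'' v * (P t x + g t * K v) / 2 - b t * (2 - 3 * v), _, d1, d2, d3, by norm_num, ?_,
      h.drift_le htI x, ?_, ?_⟩
    · nlinarith [sq_nonneg x]
    · have h1 := h.b_nonneg t htI
      have h5 := h.b_le t htI
      have h6 : 0 ≤ P t x + g t * K v :=
        add_nonneg (h.P_nonneg t htI x) (mul_nonneg (hg0 t htI) (hK0 v hvI))
      have h7 : g t * K'' v * (P t x + g t * K v) ≤ 0 :=
        mul_nonpos_of_nonpos_of_nonneg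
          (mul_nonpos_of_nonneg_of_nonpos (hg0 t htI) (hconc v hvI)) h6
      have h8 : -(b t * (2 - 3 * v)) ≤ b t := by nlinarith [hvI.1, hvI.2]
      linarith
    · have h9 := hineq t ht v hvI
      simp only [← hv]
      nlinarith

/-- **Slope comparison, lower barrier**: `g(t) K(V) ≤ V_x`. -/
theorem le_slope (h : BSys t0 t1 b u V P Px Pxx M)
    {g g' : ℝ → ℝ} {G : ℝ} (hg : ∀ t ∈ Ico t0 t1, HasDerivWithinAt g (g' t) (Ici t) t)
    (hgc : ContinuousOn g (Icc t0 t1)) (hg0 : ∀ t ∈ Icc t0 t1, 0 ≤ g t)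
    (hgG : ∀ t ∈ Icc t0 t1, g t ≤ G)
    {K K' K'' : ℝ → ℝ} {KM : ℝ} (hKc : ContinuousOn K (Ioo 0 1))
    (hK0 : ∀ v ∈ Ioo (0:ℝ) 1, 0 ≤ K v) (hKM : ∀ v ∈ Ioo (0:ℝ) 1, K v ≤ KM)
    (hK : ∀ v ∈ Ioo (0:ℝ) 1, HasDerivAt K (K' v) v)
    (hK' : ∀ v ∈ Ioo (0:ℝ) 1, HasSide K' (K'' v) v)
    (hconc : ∀ v ∈ Ioo (0:ℝ) 1, K'' v ≤ 0)
    (hineq : ∀ t ∈ Ico t0 t1, ∀ v ∈ Ioo (0:ℝ) 1,
      0 ≤ g' t * K v + g t ^ 3 * (K v ^ 2 * K'' v) / 2
        + b t * g t * (v * (1 - v) * K' v - (2 - 3 * v) * K v))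
    (hterm : ∀ x, g t1 * K (V t1 x) ≤ P t1 x) :
    ∀ t ∈ Icc t0 t1, ∀ x, g t * K (V t x) ≤ P t x := by
  have hVI : ∀ t ∈ Icc t0 t1, ∀ y, V t y ∈ Ioo (0:ℝ) 1 :=
    fun t ht y => ⟨h.V_pos t ht y, h.V_lt t ht y⟩
  have key := backward_strip (t0 := t0) (t1 := t1) (w := fun t x => g t * K (V t x) - P t x)
    ?_ (A := 1) (B := M * M) (C := M) (M := G * KM) ?_ ?_ ?_
  · intro t ht x
    have := key t ht x
    linarith
  · refine ContinuousOn.sub (ContinuousOn.mul ?_ ?_) h.cP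
    · exact hgc.comp continuous_fst.continuousOn (fun p hp => hp.1)
    · exact hKc.comp h.cV (fun p hp => hVI p.1 hp.1 p.2)
  · intro t ht x
    have h1 : g t * K (V t x) ≤ G * KM :=
      mul_le_mul (hgG t ht) (hKM _ (hVI t ht x)) (hK0 _ (hVI t ht x)) ((hg0 t ht).trans (hgG t ht))
    have h2 : 0 ≤ g t * K (V t x) := mul_nonneg (hg0 t ht) (hK0 _ (hVI t ht x))
    have h3 := h.P_nonneg t ht x
    have h4 : 0 ≤ |x| := abs_nonneg x
    nlinarith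
  · intro x; have := hterm x; linarith
  · intro t ht x hpos
    have htI : t ∈ Icc t0 t1 := ⟨ht.1, ht.2.le⟩
    set v := V t x with hv
    have hvI : v ∈ Ioo (0:ℝ) 1 := hVI t htI x
    obtain ⟨d1, d2, d3⟩ := h.slope_data ht x (hg t ht) hK (hK' v hvI)
    have e1 : (fun s => g s * K (V s x) - P s x) = fun s => -(P s x - g s * K (V s x)) := by
      funext s; ring
    have e2 : (fun y => g t * K (V t y) - P t y) = fun y => -(P t y - g t * K (V t y)) := by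
      funext s; ring
    refine ⟨-((-(Pxx t x / 2 + b t * u t x * Px t x) + b t * (2 - 3 * V t x) * P t x) -
        (g' t * K (V t x) + g t * (K' (V t x) *
          (-(Px t x / 2 + b t * u t x * P t x) + b t * V t x * (1 - V t x))))),
      -(Pxx t x - g t * (K'' v * P t x * P t x + K' (V t x) * Px t x)), 1/2, b t * u t x,
      g t * K'' v * (P t x + g t * K v) / 2 - b t * (2 - 3 * v),
      fun y => -(Px t y - g t * (K' (V t y) * P t y)), ?_, ?_, ?_, by norm_num, ?_,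
      h.drift_le htI x, ?_, ?_⟩
    · rw [e1]; exact d1.neg
    · rw [e2]; filter_upwards [d2] with y hy; exact hy.neg
    · rcases d3 with d3 | d3
      · exact Or.inl d3.neg
      · exact Or.inr d3.neg
    · nlinarith [sq_nonneg x]
    · have h1 := h.b_nonneg t htI
      have h5 := h.b_le t htI
      have h6 : 0 ≤ P t x + g t * K v :=
        add_nonneg (h.P_nonneg t htI x) (mul_nonneg (hg0 t htI) (hK0 v hvI))
      have h7 : g t * K'' v * (P t x + g t * K v) ≤ 0 :=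
        mul_nonpos_of_nonpos_of_nonneg
          (mul_nonpos_of_nonneg_of_nonpos (hg0 t htI) (hconc v hvI)) h6
      have h8 : -(b t * (2 - 3 * v)) ≤ b t := by nlinarith [hvI.1, hvI.2]
      linarith
    · have h9 := hineq t ht v hvI
      simp only [← hv]
      nlinarith

end BSys

end Crest.Agent.R146.MaxPCmp_371
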