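import Mathlib

/-!
Weak maximum principles with one-sided time derivatives (row 146, helper371).

`backward_max` : a function `w` on a closed set `K ⊆ [t0,t1] × ℝ`, continuous, of at most linear growth in `x`,
which satisfies at every point of `K` where it is positive a backward parabolic differential inequality
`0 ≤ w_t + a w_xx + b w_x + c w` (right time derivative, `0 ≤ a ≤ A(1+x²)`, `|b| ≤ B(1+|x|)`, `c ≤ C`)
is nonpositive.  (In particular `w` is nonpositive on the part of `K` where no inequality is available,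
such as the terminal time and the lateral boundary: this is part of the hypothesis.)
-/

set_option autoImplicit false

open Set Filter Topology

namespace Crest.Agent.R146.MaxP_371

/-- right derivative of a function which has a right local maximum is nonpositive -/
lemma deriv_right_nonpos {g : ℝ → ℝ} {g' t : ℝ} (hg : HasDerivWithinAt g g' (Ici t) t)
    (hmax : ∀ᶠ s in 𝓝[>] t, g s ≤ g t) : g' ≤ 0 := by
  have h1 : Tendsto (slope g t) (𝓝[>] t) (𝓝 g') := by
    have := (hasDerivWithinAt_iff_tendsto_slope.1 hg)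
    have e : Ici t \ {t} = Ioi t := by
      ext s; simp only [Set.mem_sdiff, mem_Ici, mem_singleton_iff, mem_Ioi]
      constructor
      · rintro ⟨h1, h2⟩; exact lt_of_le_of_ne h1 (Ne.symm h2)
      · intro h; exact ⟨h.le, ne_of_gt h⟩
    rwa [e] at this
  refine le_of_tendsto h1 ?_
  filter_upwards [hmax, self_mem_nhdsWithin] with s hs hst
  rw [slope_def_field]
  exact div_nonpos_of_nonpos_of_nonneg (by linarith) (by have : t < s := hst; linarith)

/-- left derivative of a function which has a left local maximum is nonnegative -/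
lemma deriv_left_nonneg {g : ℝ → ℝ} {g' t : ℝ} (hg : HasDerivWithinAt g g' (Iic t) t)
    (hmax : ∀ᶠ s in 𝓝[<] t, g s ≤ g t) : 0 ≤ g' := by
  have h1 : Tendsto (slope g t) (𝓝[<] t) (𝓝 g') := by
    have := (hasDerivWithinAt_iff_tendsto_slope.1 hg)
    have e : Iic t \ {t} = Iio t := by
      ext s; simp only [Set.mem_sdiff, mem_Iic, mem_singleton_iff, mem_Iio]
      constructor
      · rintro ⟨h1, h2⟩; exact lt_of_le_of_ne h1 h2
      · intro h; exact ⟨h.le, ne_of_lt h⟩
    rwa [e] at this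
  refine ge_of_tendsto h1 ?_
  filter_upwards [hmax, self_mem_nhdsWithin] with s hs hst
  rw [slope_def_field]
  exact div_nonneg_of_nonpos (by linarith) (by have : s < t := hst; linarith)

/-- second order necessary condition at a local maximum -/
lemma second_deriv_nonpos {f f' : ℝ → ℝ} {f'' x : ℝ}
    (hf : ∀ᶠ y in 𝓝 x, HasDerivAt f (f' y) y) (hf' : HasDerivAt f' f'' x)
    (hmax : IsLocalMax f x) : f' x = 0 ∧ f'' ≤ 0 := by
  have hx0 : f' x = 0 := hmax.hasDerivAt_eq_zero hf.self_of_nhds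
  refine ⟨hx0, ?_⟩
  by_contra hcon
  push Not at hcon
  -- f' y / (y-x) → f'' > 0, so f' > 0 on (x, x+ε)
  have h1 : Tendsto (slope f' x) (𝓝[≠] x) (𝓝 f'') := hasDerivAt_iff_tendsto_slope.1 hf'
  have h2 : ∀ᶠ y in 𝓝[≠] x, 0 < slope f' x y := h1.eventually (lt_mem_nhds hcon)
  rw [eventually_nhdsWithin_iff] at h2
  have h3 := (h2.and hf).and hmax
  obtain ⟨ε, hε, hball⟩ := Metric.eventually_nhds_iff.1 h3
  -- on [x, x+ε/2] f is strictly monotone
  have hmem : ∀ y ∈ Icc x (x + ε/2), dist y x < ε := by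
    intro y hy
    rw [Real.dist_eq, abs_of_nonneg (by linarith [hy.1])]
    linarith [hy.2]
  have hmono : StrictMonoOn f (Icc x (x + ε/2)) := by
    apply strictMonoOn_of_deriv_pos (convex_Icc _ _)
    · intro y hy
      exact ((hball (hmem y hy)).1.2).continuousAt.continuousWithinAt
    · intro y hy
      rw [interior_Icc] at hy
      have hyI : y ∈ Icc x (x + ε/2) := ⟨hy.1.le, hy.2.le⟩
      rw [((hball (hmem y hyI)).1.2).deriv]
      have hs := (hball (hmem y hyI)).1.1 (by simpa using ne_of_gt hy.1)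
      rw [slope_def_field, hx0, sub_zero] at hs
      have : 0 < y - x := by linarith [hy.1]
      exact (div_pos_iff_of_pos_right this).1 hs
  have hxm : x ∈ Icc x (x + ε/2) := ⟨le_refl _, by linarith⟩
  have hym : x + ε/2 ∈ Icc x (x + ε/2) := ⟨by linarith, le_refl _⟩
  have hlt := hmono hxm hym (by linarith)
  have hle := (hball (hmem _ hym)).2
  linarith

/-- Local data for the backward inequality at the point `(t,x)`. -/
def BackIneq (K : Set (ℝ × ℝ)) (w : ℝ → ℝ → ℝ) (A B C t x : ℝ) : Prop :=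
  ∃ (wt wxx a b c : ℝ) (w' : ℝ → ℝ),
    (∀ᶠ s in 𝓝[>] t, (s, x) ∈ K) ∧ (∀ᶠ y in 𝓝 x, (t, y) ∈ K) ∧
    HasDerivWithinAt (fun s => w s x) wt (Ici t) t ∧
    (∀ᶠ y in 𝓝 x, HasDerivAt (w t) (w' y) y) ∧ HasDerivAt w' wxx x ∧
    0 ≤ a ∧ a ≤ A * (1 + x ^ 2) ∧ |b| ≤ B * (1 + |x|) ∧ c ≤ C ∧
    0 ≤ wt + a * wxx + b * w' x + c * w t x

/-- Local data for the forward inequality at the point `(t,x)`. -/
def ForwIneq (K : Set (ℝ × ℝ)) (w : ℝ → ℝ → ℝ) (A B C t x : ℝ) : Prop :=
  ∃ (wt wxx a b c : ℝ) (w' : ℝ → ℝ),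
    (∀ᶠ s in 𝓝[<] t, (s, x) ∈ K) ∧ (∀ᶠ y in 𝓝 x, (t, y) ∈ K) ∧
    HasDerivWithinAt (fun s => w s x) wt (Iic t) t ∧
    (∀ᶠ y in 𝓝 x, HasDerivAt (w t) (w' y) y) ∧ HasDerivAt w' wxx x ∧
    0 ≤ a ∧ a ≤ A * (1 + x ^ 2) ∧ |b| ≤ B * (1 + |x|) ∧ c ≤ C ∧
    wt ≤ a * wxx + b * w' x + c * w t x

/-- **Weak maximum principle (backward form).** -/
theorem backward_max {K : Set (ℝ × ℝ)} (hK : IsClosed K) {t0 t1 : ℝ}
    (hKt : ∀ p ∈ K, t0 ≤ p.1 ∧ p.1 ≤ t1) {w : ℝ → ℝ → ℝ}
    (hw : ContinuousOn (fun p : ℝ × ℝ => w p.1 p.2) K)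
    {A B C M : ℝ} (hM : ∀ p ∈ K, w p.1 p.2 ≤ M * (1 + |p.2|))
    (hloc : ∀ t x, (t, x) ∈ K → 0 < w t x → BackIneq K w A B C t x) :
    ∀ t x, (t, x) ∈ K → w t x ≤ 0 := by
  intro ta xa hta
  by_contra hcon
  push Not at hcon
  set κ : ℝ := 2 * |A| + 4 * |B| + |C| + 1 with hκ
  have hκpos : 0 < κ := by positivity
  set φ : ℝ → ℝ → ℝ := fun t x => Real.exp (κ * (t1 - t)) * (1 + x ^ 2) with hφ
  have hφpos : ∀ t x, 0 < φ t x := fun t x => by simp only [hφ]; positivity
  have hφge : ∀ p ∈ K, 1 + p.2 ^ 2 ≤ φ p.1 p.2 := by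
    intro p hp
    have h1 : 1 ≤ Real.exp (κ * (t1 - p.1)) := by
      apply Real.one_le_exp
      exact mul_nonneg hκpos.le (by linarith [(hKt p hp).2])
    simp only [hφ]
    nlinarith [sq_nonneg p.2]
  set r : ℝ × ℝ → ℝ := fun p => w p.1 p.2 / φ p.1 p.2 with hr
  have hrc : ContinuousOn r K := by
    apply hw.div
    · simp only [hφ]
      fun_prop
    · intro p _; exact (hφpos _ _).ne'
  set s0 : ℝ := r (ta, xa) with hs0
  have hs0pos : 0 < s0 := div_pos hcon (hφpos _ _)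
  -- choice of R
  obtain ⟨R, hRpos, hR⟩ : ∃ R : ℝ, 0 < R ∧ ∀ p ∈ K, R ≤ |p.2| → r p < s0 := by
    refine ⟨2 * |M| / s0 + 2, by positivity, ?_⟩
    intro p hp hRp
    have h1 : w p.1 p.2 ≤ |M| * (1 + |p.2|) := by
      refine (hM p hp).trans ?_
      exact mul_le_mul_of_nonneg_right (le_abs_self M) (by positivity)
    have hx : (2:ℝ) ≤ |p.2| := by
      have : 0 ≤ 2 * |M| / s0 := by positivity
      linarith
    have h2 : |M| * (1 + |p.2|) < s0 * (1 + p.2 ^ 2) := by
      have h3 : 2 * |M| ≤ s0 * (|p.2| - 2) := by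
        have h4 : 2 * |M| / s0 ≤ |p.2| - 2 := by linarith
        have := (div_le_iff₀ hs0pos).1 h4
        linarith
      have h5 : p.2 ^ 2 = |p.2| ^ 2 := (sq_abs _).symm
      rw [h5]
      have h6 : |M| * (1 + |p.2|) ≤ |M| * (2 * |p.2|) :=
        mul_le_mul_of_nonneg_left (by linarith) (abs_nonneg _)
      have h7 : |M| * (2 * |p.2|) ≤ s0 * (|p.2| - 2) * |p.2| := by nlinarith
      nlinarith
    have h3 : r p ≤ (|M| * (1 + |p.2|)) / φ p.1 p.2 :=
      div_le_div_of_nonneg_right h1 (hφpos _ _).le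
    refine lt_of_le_of_lt h3 ?_
    rw [div_lt_iff₀ (hφpos _ _)]
    exact lt_of_lt_of_le h2 (mul_le_mul_of_nonneg_left (hφge p hp) hs0pos.le)
  -- compactness
  set K' : Set (ℝ × ℝ) := K ∩ (Icc t0 t1 ×ˢ Icc (-R) R) with hK'
  have hK'c : IsCompact K' := (isCompact_Icc.prod isCompact_Icc).inter_left hK
  have hxa : |xa| < R := by
    by_contra h
    push Not at h
    exact lt_irrefl _ (hR (ta, xa) hta h)
  have hne : K'.Nonempty := by
    refine ⟨(ta, xa), hta, ⟨⟨(hKt _ hta).1, (hKt _ hta).2⟩, ?_⟩⟩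
    exact ⟨(abs_lt.1 hxa).1.le, (abs_lt.1 hxa).2.le⟩
  obtain ⟨⟨t, x⟩, hpK', hpmax⟩ := hK'c.exists_isMaxOn hne (hrc.mono inter_subset_left)
  have hpK : (t, x) ∈ K := hpK'.1
  set S : ℝ := r (t, x) with hS
  have hSs0 : s0 ≤ S := by
    have hmem : (ta, xa) ∈ K' := by
      refine ⟨hta, ⟨⟨(hKt _ hta).1, (hKt _ hta).2⟩, ?_⟩⟩
      exact ⟨(abs_lt.1 hxa).1.le, (abs_lt.1 hxa).2.le⟩
    exact hpmax hmem
  have hSpos : 0 < S := lt_of_lt_of_le hs0pos hSs0
  have hall : ∀ p ∈ K, r p ≤ S := by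
    intro p hp
    by_cases h : |p.2| ≤ R
    · have hmem : p ∈ K' := ⟨hp, ⟨⟨(hKt _ hp).1, (hKt _ hp).2⟩, abs_le.1 h⟩⟩
      exact hpmax hmem
    · push Not at h
      exact (hR p hp h.le).le.trans hSs0
  have hwle : ∀ s y, (s, y) ∈ K → w s y - S * φ s y ≤ 0 := by
    intro s y hsy
    have := hall (s, y) hsy
    simp only [hr] at this
    rw [div_le_iff₀ (hφpos _ _)] at this
    linarith
  have hweq : w t x - S * φ t x = 0 := by
    have : S = w t x / φ t x := rfl
    rw [this, div_mul_cancel₀ _ (hφpos _ _).ne', sub_self]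
  have hwpos : 0 < w t x := by
    have : w t x = S * φ t x := by linarith
    rw [this]; exact mul_pos hSpos (hφpos _ _)
  obtain ⟨wt, wxx, a, b, c, w', hKs, hKy, hwt, hwx, hwxx, ha0, haA, hbB, hcC, hpde⟩ :=
    hloc t x hpK hwpos
  -- time derivative
  have hφt : HasDerivAt (fun s => φ s x) (-κ * φ t x) t := by
    have h1 : HasDerivAt (fun s : ℝ => κ * (t1 - s)) (-κ) t := by
      have := ((hasDerivAt_const t t1).sub (hasDerivAt_id t)).const_mul κ
      simpa using this
    have h2 := h1.exp.mul_const (1 + x ^ 2)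
    have h3 : HasDerivAt (fun s => φ s x) (Real.exp (κ * (t1 - t)) * -κ * (1 + x ^ 2)) t := h2
    convert h3 using 1
    simp only [hφ]; ring
  have hgt : HasDerivWithinAt (fun s => w s x - S * φ s x) (wt - S * (-κ * φ t x)) (Ici t) t :=
    hwt.sub ((hφt.const_mul S).hasDerivWithinAt)
  have h1 : wt - S * (-κ * φ t x) ≤ 0 := by
    apply deriv_right_nonpos hgt
    filter_upwards [hKs] with s hs
    rw [hweq]; exact hwle s x hs
  -- space derivatives
  set e : ℝ := Real.exp (κ * (t1 - t)) with he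
  have hepos : 0 < e := Real.exp_pos _
  have hφx : ∀ y, HasDerivAt (fun y => φ t y) (e * (2 * y)) y := by
    intro y
    have h1 : HasDerivAt (fun y : ℝ => 1 + y ^ 2) (2 * y) y := by
      have := (hasDerivAt_pow 2 y).const_add 1
      simpa using this
    exact h1.const_mul e
  have hφxx : HasDerivAt (fun y : ℝ => e * (2 * y)) (e * 2) x := by
    have := ((hasDerivAt_id x).const_mul 2).const_mul e
    simpa using this
  have hmaxx : IsLocalMax (fun y => w t y - S * φ t y) x := by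
    filter_upwards [hKy] with y hy
    rw [hweq]; exact hwle t y hy
  have h2 := second_deriv_nonpos (f := fun y => w t y - S * φ t y)
    (f' := fun y => w' y - S * (e * (2 * y))) (f'' := wxx - S * (e * 2)) (x := x)
    (by
      filter_upwards [hwx] with y hy
      exact hy.sub ((hφx y).const_mul S))
    (hwxx.sub (hφxx.const_mul S)) hmaxx
  obtain ⟨h2a, h2b⟩ := h2
  -- combine
  have hφe : φ t x = e * (1 + x ^ 2) := rfl
  have hx2 : |x| + |x| ^ 2 ≤ 2 * (1 + x ^ 2) := by
    rw [← sq_abs x]; nlinarith [sq_nonneg (|x| - 1)]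
  have hbx : 2 * b * x ≤ 4 * |B| * (1 + x ^ 2) := by
    have h5 : 2 * b * x ≤ 2 * (|b| * |x|) := by
      have := le_abs_self (b * x)
      rw [abs_mul] at this
      linarith
    have h6 : |b| ≤ |B| * (1 + |x|) :=
      hbB.trans (mul_le_mul_of_nonneg_right (le_abs_self B) (by positivity))
    have h7 : |b| * |x| ≤ |B| * (1 + |x|) * |x| := mul_le_mul_of_nonneg_right h6 (abs_nonneg _)
    have h8 : |B| * (1 + |x|) * |x| ≤ |B| * (2 * (1 + x ^ 2)) := by
      have : |B| * (1 + |x|) * |x| = |B| * (|x| + |x| ^ 2) := by ring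
      rw [this]
      exact mul_le_mul_of_nonneg_left hx2 (abs_nonneg _)
    linarith
  have haA' : a ≤ |A| * (1 + x ^ 2) :=
    haA.trans (mul_le_mul_of_nonneg_right (le_abs_self A) (by positivity))
  have hcC' : c * (1 + x ^ 2) ≤ |C| * (1 + x ^ 2) :=
    mul_le_mul_of_nonneg_right (hcC.trans (le_abs_self C)) (by positivity)
  have h9 : -κ * (1 + x ^ 2) + 2 * a + 2 * b * x + c * (1 + x ^ 2) < 0 := by
    have hp : 0 < 1 + x ^ 2 := by positivity
    rw [hκ]
    nlinarith
  -- 0 ≤ wt + a wxx + b w' + c w ≤ S * e * (…) < 0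
  have h10 : a * (wxx - S * (e * 2)) ≤ 0 := mul_nonpos_of_nonneg_of_nonpos ha0 h2b
  have h11 : w' x = S * (e * (2 * x)) := by linarith
  have h12 : w t x = S * (e * (1 + x ^ 2)) := by rw [← hφe]; linarith
  rw [h11, h12] at hpde
  rw [hφe] at h1
  have h13 : 0 ≤ S * e * (-κ * (1 + x ^ 2) + 2 * a + 2 * b * x + c * (1 + x ^ 2)) := by
    nlinarith
  have h14 : S * e * (-κ * (1 + x ^ 2) + 2 * a + 2 * b * x + c * (1 + x ^ 2)) < 0 :=
    mul_neg_of_pos_of_neg (mul_pos hSpos hepos) h9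
  linarith

/-- **Weak maximum principle (forward form).** -/
theorem forward_max {K : Set (ℝ × ℝ)} (hK : IsClosed K) {t0 t1 : ℝ}
    (hKt : ∀ p ∈ K, t0 ≤ p.1 ∧ p.1 ≤ t1) {w : ℝ → ℝ → ℝ}
    (hw : ContinuousOn (fun p : ℝ × ℝ => w p.1 p.2) K)
    {A B C M : ℝ} (hM : ∀ p ∈ K, w p.1 p.2 ≤ M * (1 + |p.2|))
    (hloc : ∀ t x, (t, x) ∈ K → 0 < w t x → ForwIneq K w A B C t x) :
    ∀ t x, (t, x) ∈ K → w t x ≤ 0 := by
  set K2 : Set (ℝ × ℝ) := (fun p : ℝ × ℝ => (-p.1, p.2)) ⁻¹' K with hK2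
  have hcm : Continuous (fun p : ℝ × ℝ => ((-p.1, p.2) : ℝ × ℝ)) := by fun_prop
  have key := backward_max (K := K2) (hK.preimage hcm) (t0 := -t1) (t1 := -t0)
    (fun p hp => ⟨by linarith [(hKt _ hp).2], by linarith [(hKt _ hp).1]⟩)
    (w := fun t x => w (-t) x) (A := A) (B := B) (C := C) (M := M)
    (by
      have h := hw.comp hcm.continuousOn (s := K2) (fun p hp => hp)
      exact h)
    (fun p hp => hM _ hp)
    (by
      intro t x htx hpos
      obtain ⟨wt, wxx, a, b, c, w', hKs, hKy, hwt, hwx, hwxx, ha0, haA, hbB, hcC, hpde⟩ :=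
        hloc (-t) x htx hpos
      refine ⟨-wt, wxx, a, b, c, w', ?_, hKy, ?_, hwx, hwxx, ha0, haA, hbB, hcC, by linarith⟩
      · have hneg : Tendsto (fun s : ℝ => -s) (𝓝[>] t) (𝓝[<] (-t)) := by
          apply tendsto_nhdsWithin_of_tendsto_nhds_of_eventually_within
          · exact (continuous_neg.tendsto t).mono_left nhdsWithin_le_nhds
          · filter_upwards [self_mem_nhdsWithin] with s hs
            have : t < s := hs
            simpa using this
        exact hneg.eventually hKs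
      · have h1 : HasDerivWithinAt (fun s : ℝ => -s) (-1) (Ici t) t :=
          (hasDerivAt_neg t).hasDerivWithinAt
        have h2 : MapsTo (fun s : ℝ => -s) (Ici t) (Iic (-t)) := by
          intro s hs
          have : t ≤ s := hs
          simpa using this
        have h3 := HasDerivWithinAt.scomp (x := t) (h := fun s : ℝ => -s) (h' := -1)
          (g₁ := fun s => w s x) (g₁' := wt) (t' := Iic (-t)) (s := Ici t)
          hwt h1 h2
        have h4 : (-1 : ℝ) • wt = -wt := by simp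
        rw [h4] at h3
        exact h3)
  intro t x htx
  have := key (-t) x (by simpa [hK2] using htx)
  simpa using this

end Crest.Agent.R146.MaxP_371
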