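import Mathlib

/-!
# Row 146: generic parabolic maximum principles (helper86)

* `mp_compact` : `[0,T] × D`, coefficients arbitrary (degenerate, unbounded), `c ≤ A`,
  `limsup u ≤ 0` at the boundary of `D` uniformly in time.
* `mp_growth` : whole line, polynomial growth.
* backward versions `mp_compact_back`, `mp_growth_back`.
-/

set_option autoImplicit false

noncomputable section

open Set Filter Topology

namespace Crest.Agent.R146.MaxP_86

/-- first order condition and second order condition at an interior maximum of a function of one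
variable which has a derivative near the point and a second derivative at the point. -/
theorem deriv_conditions_of_isMax {D : Set ℝ} (hD : IsOpen D) {f f' : ℝ → ℝ} {f'' x₀ : ℝ}
    (hx : x₀ ∈ D) (hf : ∀ x ∈ D, HasDerivAt f (f' x) x) (hf' : HasDerivAt f' f'' x₀)
    (hmax : ∀ x ∈ D, f x ≤ f x₀) : f' x₀ = 0 ∧ f'' ≤ 0 := by
  have hloc : IsLocalMax f x₀ := by
    filter_upwards [hD.mem_nhds hx] with x hxD using hmax x hxD
  have h0 : f' x₀ = 0 := by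
    have := hloc.hasDerivAt_eq_zero (hf x₀ hx)
    exact this
  refine ⟨h0, ?_⟩
  by_contra hpos
  push Not at hpos
  -- f' > 0 to the right of x₀
  have h1 : ∀ᶠ x in 𝓝[>] x₀, 0 < f' x := by
    have hslope := hasDerivAt_iff_tendsto_slope.1 hf'
    have h2 : ∀ᶠ x in 𝓝[≠] x₀, 0 < slope f' x₀ x := hslope.eventually (lt_mem_nhds hpos)
    have h3 : ∀ᶠ x in 𝓝[>] x₀, 0 < slope f' x₀ x :=
      h2.filter_mono (nhdsWithin_mono _ (fun y hy => ne_of_gt hy))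
    filter_upwards [h3, self_mem_nhdsWithin] with x hx1 hx2
    have hx2' : (0 : ℝ) < x - x₀ := sub_pos.2 hx2
    rw [slope_def_field, h0, sub_zero] at hx1
    exact (div_pos_iff_of_pos_right hx2').1 hx1
  have h4 : ∀ᶠ x in 𝓝[>] x₀, x ∈ D := (hD.mem_nhds hx |> fun h => nhdsWithin_le_nhds h)
  obtain ⟨δ, hδ, hball⟩ : ∃ δ > x₀, Ioo x₀ δ ⊆ {x | 0 < f' x ∧ x ∈ D} := by
    have := h1.and h4
    rw [eventually_iff] at this
    obtain ⟨δ, hδ, h⟩ := (mem_nhdsGT_iff_exists_Ioo_subset).1 this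
    exact ⟨δ, hδ, h⟩
  set y := (x₀ + δ) / 2 with hy
  have hδ' : x₀ < δ := hδ
  have hxy : x₀ < y := by rw [hy]; linarith
  have hyδ : y < δ := by rw [hy]; linarith
  have hmono : f x₀ < f y := by
    have hcont : ContinuousOn f (Icc x₀ y) := by
      intro x hx1
      rcases eq_or_lt_of_le hx1.1 with h | h
      · rw [← h]; exact (hf x₀ hx).continuousAt.continuousWithinAt
      · exact (hf x (hball ⟨h, lt_of_le_of_lt hx1.2 hyδ⟩).2).continuousAt.continuousWithinAt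
    have hsm : StrictMonoOn f (Icc x₀ y) := by
      apply strictMonoOn_of_deriv_pos (convex_Icc _ _) hcont
      intro x hx1
      rw [interior_Icc] at hx1
      have hm := hball (show x ∈ Ioo x₀ δ from ⟨hx1.1, hx1.2.trans hyδ⟩)
      rw [(hf x hm.2).deriv]
      exact hm.1
    exact hsm (left_mem_Icc.2 hxy.le) (right_mem_Icc.2 hxy.le) hxy
  have := hmax y (hball ⟨hxy, hyδ⟩).2
  linarith

/-- left derivative at a maximum over `[0, t]` is nonnegative -/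
theorem left_deriv_nonneg_of_isMax {f : ℝ → ℝ} {f' t : ℝ} (ht : 0 < t)
    (hf : HasDerivWithinAt f f' (Iic t) t) (hmax : ∀ s ∈ Icc 0 t, f s ≤ f t) : 0 ≤ f' := by
  have hslope := (hasDerivWithinAt_iff_tendsto_slope' (s := Iio t) (by simp)).1
    (hf.mono Iio_subset_Iic_self)
  refine ge_of_tendsto hslope ?_
  have h1 : ∀ᶠ s in 𝓝[<] t, s ∈ Ioo 0 t := Ioo_mem_nhdsLT ht
  filter_upwards [h1] with s hs
  rw [slope_def_field]
  have h2 : f s - f t ≤ 0 := sub_nonpos.2 (hmax s ⟨hs.1.le, hs.2.le⟩)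
  have h3 : s - t < 0 := sub_neg.2 hs.2
  exact div_nonneg_of_nonpos h2 h3.le

/-- **Parabolic maximum principle, compact version.**  `u` is a (sub)solution at the points where it
is positive; the coefficients are arbitrary except `0 ≤ a` and `c ≤ A`; `u` is asymptotically `≤ 0`
off compact subsets of `D`, uniformly in time. -/
theorem mp_compact {T A : ℝ} {D : Set ℝ} (hD : IsOpen D)
    {u ut ux uxx a B c : ℝ → ℝ → ℝ}
    (hcont : ContinuousOn (fun p : ℝ × ℝ => u p.1 p.2) (Icc 0 T ×ˢ D))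
    (hut : ∀ t ∈ Ioc 0 T, ∀ x ∈ D, HasDerivWithinAt (fun s => u s x) (ut t x) (Iic t) t)
    (hux : ∀ t ∈ Ioc 0 T, ∀ x ∈ D, HasDerivAt (fun y => u t y) (ux t x) x)
    (huxx : ∀ t ∈ Ioc 0 T, ∀ x ∈ D, HasDerivAt (fun y => ux t y) (uxx t x) x)
    (ha : ∀ t ∈ Ioc 0 T, ∀ x ∈ D, 0 < u t x → 0 ≤ a t x)
    (hc : ∀ t ∈ Ioc 0 T, ∀ x ∈ D, 0 < u t x → c t x ≤ A)
    (heq : ∀ t ∈ Ioc 0 T, ∀ x ∈ D, 0 < u t x →
      ut t x ≤ a t x * uxx t x + B t x * ux t x + c t x * u t x)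
    (hinit : ∀ x ∈ D, u 0 x ≤ 0)
    (hbd : ∀ ε > 0, ∃ K : Set ℝ, IsCompact K ∧ K ⊆ D ∧
      ∀ t ∈ Icc 0 T, ∀ x ∈ D, x ∉ K → u t x ≤ ε) :
    ∀ t ∈ Icc 0 T, ∀ x ∈ D, u t x ≤ 0 := by
  intro t₁ ht₁ x₁ hx₁
  by_contra hneg
  push Not at hneg
  -- `φ = exp (-M t) u`
  set M : ℝ := |A| + 1 with hM
  have hMpos : 0 < M := by positivity
  have hAM : A < M := by rw [hM]; linarith [le_abs_self A]
  set φ : ℝ × ℝ → ℝ := fun p => Real.exp (-M * p.1) * u p.1 p.2 with hφ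
  have hT0 : 0 ≤ T := ht₁.1.trans ht₁.2
  set η := φ (t₁, x₁) with hη
  have hηpos : 0 < η := mul_pos (Real.exp_pos _) hneg
  obtain ⟨K, hK, hKD, hKb⟩ := hbd (η / 2) (by positivity)
  have hx₁K : x₁ ∈ K := by
    by_contra hx
    have h1 := hKb t₁ ht₁ x₁ hx₁ hx
    have h2 : φ (t₁, x₁) ≤ u t₁ x₁ := by
      show Real.exp (-M * t₁) * u t₁ x₁ ≤ u t₁ x₁
      have : Real.exp (-M * t₁) ≤ 1 := Real.exp_le_one_iff.2 (by nlinarith [ht₁.1])
      nlinarith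
    rw [← hη] at h2
    linarith
  have hφc : ContinuousOn φ (Icc 0 T ×ˢ K) := by
    apply ContinuousOn.mul
    · exact (Real.continuous_exp.comp (continuous_const.mul continuous_fst)).continuousOn
    · exact hcont.mono (prod_mono_right hKD)
  obtain ⟨⟨t₀, x₀⟩, hm, hmax⟩ := (isCompact_Icc.prod hK).exists_isMaxOn
    ⟨(t₁, x₁), ⟨ht₁, hx₁K⟩⟩ hφc
  have ht₀ : t₀ ∈ Icc 0 T := hm.1
  have hx₀K : x₀ ∈ K := hm.2
  have hx₀ : x₀ ∈ D := hKD hx₀K
  have hmaxv : η ≤ φ (t₀, x₀) := hmax (show (t₁, x₁) ∈ Icc 0 T ×ˢ K from ⟨ht₁, hx₁K⟩)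
  have hφ₀ : 0 < φ (t₀, x₀) := hηpos.trans_le hmaxv
  -- global maximality on `[0,T] × D`
  have hglob : ∀ t ∈ Icc 0 T, ∀ x ∈ D, φ (t, x) ≤ φ (t₀, x₀) := by
    intro t ht x hx
    by_cases hxK : x ∈ K
    · exact hmax (show (t, x) ∈ Icc 0 T ×ˢ K from ⟨ht, hxK⟩)
    · have h1 := hKb t ht x hx hxK
      have h2 : Real.exp (-M * t) ≤ 1 := Real.exp_le_one_iff.2 (by nlinarith [ht.1])
      have h3 : φ (t, x) ≤ η / 2 := by
        show Real.exp (-M * t) * u t x ≤ η / 2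
        have h4 := Real.exp_pos (-M * t)
        rcases le_total 0 (u t x) with h | h
        · nlinarith
        · nlinarith [mul_nonneg h4.le (neg_nonneg.2 h)]
      linarith
  have hu₀ : 0 < u t₀ x₀ := by
    have := hφ₀
    exact (mul_pos_iff_of_pos_left (Real.exp_pos _)).1 this
  have ht₀pos : 0 < t₀ := by
    rcases eq_or_lt_of_le ht₀.1 with h | h
    · rw [← h] at hu₀
      exact absurd (hinit x₀ hx₀) (not_le.2 hu₀)
    · exact h
  have ht₀' : t₀ ∈ Ioc 0 T := ⟨ht₀pos, ht₀.2⟩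
  -- space derivatives
  have hsp := deriv_conditions_of_isMax (D := D) hD (f := fun y => u t₀ y) (f' := ux t₀)
    (f'' := uxx t₀ x₀) hx₀ (hux t₀ ht₀') (huxx t₀ ht₀' x₀ hx₀) (by
      intro x hx
      have h1 := hglob t₀ ht₀ x hx
      have h2 : Real.exp (-M * t₀) * u t₀ x ≤ Real.exp (-M * t₀) * u t₀ x₀ := h1
      exact (mul_le_mul_iff_right₀ (Real.exp_pos _)).1 h2)
  -- time derivative
  have htd : HasDerivWithinAt (fun s => Real.exp (-M * s) * u s x₀)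
      (Real.exp (-M * t₀) * (ut t₀ x₀ - M * u t₀ x₀)) (Iic t₀) t₀ := by
    have h1 : HasDerivWithinAt (fun s : ℝ => Real.exp (-M * s)) (Real.exp (-M * t₀) * (-M))
        (Iic t₀) t₀ := by
      have := ((hasDerivAt_id t₀).const_mul (-M)).exp
      simpa using this.hasDerivWithinAt
    have h2 := h1.mul (hut t₀ ht₀' x₀ hx₀)
    have h3 : Real.exp (-M * t₀) * (ut t₀ x₀ - M * u t₀ x₀)
        = Real.exp (-M * t₀) * (-M) * u t₀ x₀ + Real.exp (-M * t₀) * ut t₀ x₀ := by ring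
    rw [h3]
    exact h2
  have htn := left_deriv_nonneg_of_isMax ht₀pos htd (by
    intro s hs
    exact hglob s ⟨hs.1, hs.2.trans ht₀.2⟩ x₀ hx₀)
  have htn' : 0 ≤ ut t₀ x₀ - M * u t₀ x₀ := by
    have := Real.exp_pos (-M * t₀)
    exact nonneg_of_mul_nonneg_right htn this
  have h5 := heq t₀ ht₀' x₀ hx₀ hu₀
  rw [hsp.1] at h5
  have h6 : a t₀ x₀ * uxx t₀ x₀ ≤ 0 :=
    mul_nonpos_of_nonneg_of_nonpos (ha t₀ ht₀' x₀ hx₀ hu₀) hsp.2
  have h7 : c t₀ x₀ * u t₀ x₀ ≤ A * u t₀ x₀ :=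
    mul_le_mul_of_nonneg_right (hc t₀ ht₀' x₀ hx₀ hu₀) hu₀.le
  nlinarith

/-! ### the weight `(1+x^2)^(k+1)` -/

/-- the weight -/
def wt (k : ℕ) (x : ℝ) : ℝ := (1 + x ^ 2) ^ (k + 1)
/-- its derivative -/
def wt1 (k : ℕ) (x : ℝ) : ℝ := (k + 1 : ℝ) * (1 + x ^ 2) ^ k * (2 * x)
/-- its second derivative -/
def wt2 (k : ℕ) (x : ℝ) : ℝ :=
  (k + 1 : ℝ) * ((k : ℝ) * (1 + x ^ 2) ^ (k - 1) * (2 * x)) * (2 * x) +
    (k + 1 : ℝ) * (1 + x ^ 2) ^ k * 2

theorem wt_pos (k : ℕ) (x : ℝ) : 0 < wt k x := by unfold wt; positivity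

theorem hasDerivAt_base (x : ℝ) : HasDerivAt (fun y : ℝ => 1 + y ^ 2) (2 * x) x := by
  have := ((hasDerivAt_pow 2 x).const_add 1)
  simpa using this

theorem hasDerivAt_wt (k : ℕ) (x : ℝ) : HasDerivAt (wt k) (wt1 k x) x := by
  have h := (hasDerivAt_base x).pow (k + 1)
  have h2 : wt1 k x = ((k + 1 : ℕ) : ℝ) * (1 + x ^ 2) ^ (k + 1 - 1) * (2 * x) := by
    unfold wt1; push_cast; rfl
  rw [h2]
  exact h

theorem hasDerivAt_wt1 (k : ℕ) (x : ℝ) : HasDerivAt (wt1 k) (wt2 k x) x := by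
  have h1 := ((hasDerivAt_base x).pow k).const_mul (k + 1 : ℝ)
  have h2 : HasDerivAt (fun y : ℝ => 2 * y) 2 x := by
    simpa using (hasDerivAt_id x).const_mul (2 : ℝ)
  have h3 := h1.mul h2
  unfold wt1 wt2
  exact h3

theorem wt1_abs (k : ℕ) (x : ℝ) : (1 + |x|) * |wt1 k x| ≤ 4 * (k + 1) * wt k x := by
  unfold wt wt1
  rw [abs_mul, abs_mul, abs_of_nonneg (by positivity : (0 : ℝ) ≤ (k : ℝ) + 1),
    abs_of_nonneg (by positivity : (0 : ℝ) ≤ (1 + x ^ 2) ^ k), abs_mul, abs_two]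
  have h1 : (1 + |x|) * (2 * |x|) ≤ 4 * (1 + x ^ 2) := by
    have := sq_abs x
    nlinarith [sq_nonneg (|x| - 1), abs_nonneg x]
  have h2 : (0 : ℝ) ≤ ((k : ℝ) + 1) * (1 + x ^ 2) ^ k := by positivity
  calc (1 + |x|) * (((k : ℝ) + 1) * (1 + x ^ 2) ^ k * (2 * |x|))
      = ((1 + |x|) * (2 * |x|)) * (((k : ℝ) + 1) * (1 + x ^ 2) ^ k) := by ring
    _ ≤ (4 * (1 + x ^ 2)) * (((k : ℝ) + 1) * (1 + x ^ 2) ^ k) :=
        mul_le_mul_of_nonneg_right h1 h2
    _ = 4 * (k + 1) * (1 + x ^ 2) ^ (k + 1) := by ring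

theorem wt2_nonneg (k : ℕ) (x : ℝ) : 0 ≤ wt2 k x := by
  unfold wt2
  have : (k + 1 : ℝ) * ((k : ℝ) * (1 + x ^ 2) ^ (k - 1) * (2 * x)) * (2 * x)
      = (k + 1 : ℝ) * ((k : ℝ) * (1 + x ^ 2) ^ (k - 1)) * (2 * x) ^ 2 := by ring
  rw [this]
  positivity

theorem wt2_le (k : ℕ) (x : ℝ) : (1 + x ^ 2) * wt2 k x ≤ (4 * (k + 1) * k + 2 * (k + 1)) * wt k x := by
  unfold wt wt2
  rcases k with _ | k
  · simp
    nlinarith [sq_nonneg x]
  · have h0 : (0 : ℝ) ≤ (1 + x ^ 2) ^ k := by positivity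
    have h1 : x ^ 2 * (1 + x ^ 2) ^ k ≤ (1 + x ^ 2) ^ (k + 1) := by
      rw [pow_succ (1 + x ^ 2) k]; nlinarith
    have h2 : (0 : ℝ) ≤ 1 + x ^ 2 := by positivity
    have h3 : (0 : ℝ) ≤ (((k + 1 : ℕ) : ℝ) + 1) * ((k + 1 : ℕ) : ℝ) := by positivity
    simp only [Nat.add_sub_cancel]
    have h4 : (1 + x ^ 2) * ((((k + 1 : ℕ) : ℝ) + 1) * (((k + 1 : ℕ) : ℝ) * (1 + x ^ 2) ^ k * (2 * x)) * (2 * x)
        + (((k + 1 : ℕ) : ℝ) + 1) * (1 + x ^ 2) ^ (k + 1) * 2)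
        = 4 * ((((k + 1 : ℕ) : ℝ) + 1) * ((k + 1 : ℕ) : ℝ)) * ((1 + x ^ 2) * (x ^ 2 * (1 + x ^ 2) ^ k))
          + 2 * (((k + 1 : ℕ) : ℝ) + 1) * (1 + x ^ 2) ^ (k + 1 + 1) := by ring
    rw [h4]
    have h5 : (1 + x ^ 2) * (x ^ 2 * (1 + x ^ 2) ^ k) ≤ (1 + x ^ 2) ^ (k + 1 + 1) := by
      rw [pow_succ (1 + x ^ 2) (k + 1), mul_comm ((1 + x ^ 2) ^ (k + 1))]
      exact mul_le_mul_of_nonneg_left h1 h2
    have h6 := mul_le_mul_of_nonneg_left h5 (mul_nonneg (by norm_num : (0 : ℝ) ≤ 4) h3)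
    nlinarith

/-- **Parabolic maximum principle, polynomial growth, whole line.** -/
theorem mp_growth {T A C : ℝ} {k : ℕ}
    {u ut ux uxx a B c : ℝ → ℝ → ℝ}
    (hcont : ContinuousOn (fun p : ℝ × ℝ => u p.1 p.2) (Icc 0 T ×ˢ univ))
    (hut : ∀ t ∈ Ioc 0 T, ∀ x, HasDerivWithinAt (fun s => u s x) (ut t x) (Iic t) t)
    (hux : ∀ t ∈ Ioc 0 T, ∀ x, HasDerivAt (fun y => u t y) (ux t x) x)
    (huxx : ∀ t ∈ Ioc 0 T, ∀ x, HasDerivAt (fun y => ux t y) (uxx t x) x)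
    (hA : 0 ≤ A)
    (ha : ∀ t ∈ Ioc 0 T, ∀ x, 0 < u t x → 0 ≤ a t x)
    (ha' : ∀ t ∈ Ioc 0 T, ∀ x, 0 < u t x → a t x ≤ A * (1 + x ^ 2))
    (hB : ∀ t ∈ Ioc 0 T, ∀ x, 0 < u t x → |B t x| ≤ A * (1 + |x|))
    (hc : ∀ t ∈ Ioc 0 T, ∀ x, 0 < u t x → c t x ≤ A)
    (heq : ∀ t ∈ Ioc 0 T, ∀ x, 0 < u t x →
      ut t x ≤ a t x * uxx t x + B t x * ux t x + c t x * u t x)
    (hinit : ∀ x, u 0 x ≤ 0)
    (hgrow : ∀ t ∈ Icc 0 T, ∀ x, u t x ≤ C * (1 + x ^ 2) ^ k) :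
    ∀ t ∈ Icc 0 T, ∀ x, u t x ≤ 0 := by
  -- constants
  set M : ℝ := A * ((4 * (k + 1) * k + 2 * (k + 1)) + 4 * (k + 1) + 1) with hM
  have hMnn : 0 ≤ M := by positivity
  suffices H : ∀ ε > 0, ∀ t ∈ Icc 0 T, ∀ x, u t x - ε * (Real.exp (M * t) * wt k x) ≤ 0 by
    intro t ht x
    by_contra hneg
    push Not at hneg
    have hE : 0 < Real.exp (M * t) * wt k x := mul_pos (Real.exp_pos _) (wt_pos k x)
    have := H (u t x / (2 * (Real.exp (M * t) * wt k x))) (by positivity) t ht x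
    have h2 : ∀ E : ℝ, 0 < E → ∀ v : ℝ, v / (2 * E) * E = v / 2 := by
      intro E hE v; field_simp
    rw [h2 _ hE] at this
    linarith
  intro ε hε t ht x
  have hEt : ∀ t : ℝ, HasDerivAt (fun s => Real.exp (M * s)) (Real.exp (M * t) * M) t := by
    intro t
    have := ((hasDerivAt_id t).const_mul M).exp
    simpa using this
  refine mp_compact (T := T) (A := A) (D := univ) isOpen_univ
    (u := fun t x => u t x - ε * (Real.exp (M * t) * wt k x))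
    (ut := fun t x => ut t x - ε * (Real.exp (M * t) * M * wt k x))
    (ux := fun t x => ux t x - ε * (Real.exp (M * t) * wt1 k x))
    (uxx := fun t x => uxx t x - ε * (Real.exp (M * t) * wt2 k x))
    (a := a) (B := B) (c := c) ?_ ?_ ?_ ?_ ?_ ?_ ?_ ?_ ?_ t ht x (mem_univ _)
  · refine hcont.sub (Continuous.continuousOn ?_)
    have h1 : Continuous (wt k) := by unfold wt; fun_prop
    exact continuous_const.mul ((Real.continuous_exp.comp (continuous_const.mul continuous_fst)).mul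
      (h1.comp continuous_snd))
  · intro t ht x _
    exact (hut t ht x).sub ((((hEt t).mul_const (wt k x)).const_mul ε).hasDerivWithinAt)
  · intro t ht x _
    exact (hux t ht x).sub (((hasDerivAt_wt k x).const_mul _).const_mul ε)
  · intro t ht x _
    exact (huxx t ht x).sub (((hasDerivAt_wt1 k x).const_mul _).const_mul ε)
  · intro t ht x _ hpos
    have hE : 0 < ε * (Real.exp (M * t) * wt k x) :=
      mul_pos hε (mul_pos (Real.exp_pos _) (wt_pos k x))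
    exact ha t ht x (by linarith)
  · intro t ht x _ hpos
    have hE : 0 < ε * (Real.exp (M * t) * wt k x) :=
      mul_pos hε (mul_pos (Real.exp_pos _) (wt_pos k x))
    exact hc t ht x (by linarith)
  · intro t ht x _ hpos
    have hE : 0 < ε * (Real.exp (M * t) * wt k x) :=
      mul_pos hε (mul_pos (Real.exp_pos _) (wt_pos k x))
    have hu : 0 < u t x := by linarith
    have h1 := heq t ht x hu
    have h2 : a t x * wt2 k x ≤ A * ((4 * (k + 1) * k + 2 * (k + 1)) * wt k x) := by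
      calc a t x * wt2 k x ≤ A * (1 + x ^ 2) * wt2 k x :=
            mul_le_mul_of_nonneg_right (ha' t ht x hu) (wt2_nonneg k x)
        _ = A * ((1 + x ^ 2) * wt2 k x) := by ring
        _ ≤ _ := mul_le_mul_of_nonneg_left (wt2_le k x) hA
    have h3 : B t x * wt1 k x ≤ A * (4 * (k + 1) * wt k x) := by
      calc B t x * wt1 k x ≤ |B t x| * |wt1 k x| := by
            rw [← abs_mul]; exact le_abs_self _
        _ ≤ A * (1 + |x|) * |wt1 k x| :=
            mul_le_mul_of_nonneg_right (hB t ht x hu) (abs_nonneg _)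
        _ = A * ((1 + |x|) * |wt1 k x|) := by ring
        _ ≤ _ := mul_le_mul_of_nonneg_left (wt1_abs k x) hA
    have h4 : c t x * wt k x ≤ A * wt k x :=
      mul_le_mul_of_nonneg_right (hc t ht x hu) (wt_pos k x).le
    have h5 : a t x * wt2 k x + B t x * wt1 k x + c t x * wt k x ≤ M * wt k x := by
      calc _ ≤ A * ((4 * (k + 1) * k + 2 * (k + 1)) * wt k x) + A * (4 * (k + 1) * wt k x)
            + A * wt k x := by linarith
        _ = M * wt k x := by rw [hM]; ring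
    have h6 : 0 < ε * Real.exp (M * t) := mul_pos hε (Real.exp_pos _)
    have h7 := mul_le_mul_of_nonneg_left h5 h6.le
    have h8 : ut t x - ε * (Real.exp (M * t) * M * wt k x)
        ≤ a t x * uxx t x + B t x * ux t x + c t x * u t x
          - ε * Real.exp (M * t) * (a t x * wt2 k x + B t x * wt1 k x + c t x * wt k x) := by
      nlinarith
    calc _ ≤ _ := h8
      _ = _ := by ring
  · intro x _
    have hE : 0 < ε * (Real.exp (M * 0) * wt k x) :=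
      mul_pos hε (mul_pos (Real.exp_pos _) (wt_pos k x))
    have := hinit x
    show u 0 x - ε * (Real.exp (M * 0) * wt k x) ≤ 0
    linarith
  · intro δ hδ
    refine ⟨Icc (-(|C| / ε + 1)) (|C| / ε + 1), isCompact_Icc, subset_univ _, ?_⟩
    intro t ht x _ hx
    have hr : 0 ≤ |C| / ε := by positivity
    have hx2 : |C| / ε < 1 + x ^ 2 := by
      by_contra h
      push Not at h
      apply hx
      have h1 : x ^ 2 ≤ (|C| / ε + 1) ^ 2 := by nlinarith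
      exact abs_le.1 (abs_le_of_sq_le_sq h1 (by positivity))
    have h1 := hgrow t ht x
    have hE1 : (1 : ℝ) ≤ Real.exp (M * t) := Real.one_le_exp (mul_nonneg hMnn ht.1)
    have h2 : |C| < ε * (1 + x ^ 2) := by
      rw [div_lt_iff₀ hε] at hx2
      linarith
    have h3 : (0 : ℝ) < (1 + x ^ 2) ^ k := by positivity
    have h4 : wt k x = (1 + x ^ 2) ^ k * (1 + x ^ 2) := by unfold wt; rw [pow_succ]
    have h5 : C * (1 + x ^ 2) ^ k ≤ ε * wt k x := by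
      rw [h4]
      have := le_abs_self C
      nlinarith
    have h6 : ε * wt k x ≤ ε * (Real.exp (M * t) * wt k x) := by
      have := wt_pos k x
      have h7 : wt k x ≤ Real.exp (M * t) * wt k x := by nlinarith
      exact mul_le_mul_of_nonneg_left h7 hε.le
    show u t x - ε * (Real.exp (M * t) * wt k x) ≤ δ
    linarith

/-! ### backward versions (right time derivatives, terminal condition) -/

theorem hasDerivWithinAt_reverse {f : ℝ → ℝ} {f' t₁ s : ℝ}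
    (h : HasDerivWithinAt f f' (Ici (t₁ - s)) (t₁ - s)) :
    HasDerivWithinAt (fun r => f (t₁ - r)) (-f') (Iic s) s := by
  have h1 : HasDerivWithinAt (fun r : ℝ => t₁ - r) (-1) (Iic s) s := by
    simpa using ((hasDerivAt_id s).const_sub t₁).hasDerivWithinAt
  have h2 : MapsTo (fun r : ℝ => t₁ - r) (Iic s) (Ici (t₁ - s)) := by
    intro r hr
    simp only [mem_Iic] at hr
    simp only [mem_Ici]
    linarith
  have h3 := HasDerivWithinAt.comp (h₂ := f) (h := fun r : ℝ => t₁ - r) s h h1 h2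
  have h4 : -f' = f' * (-1) := by ring
  rw [h4]
  exact h3

/-- **Backward parabolic maximum principle, compact version**, on `[t₀, t₁] × D`. -/
theorem mp_compact_back {t₀ t₁ A : ℝ} {D : Set ℝ} (hD : IsOpen D)
    {u ut ux uxx a B c : ℝ → ℝ → ℝ}
    (hcont : ContinuousOn (fun p : ℝ × ℝ => u p.1 p.2) (Icc t₀ t₁ ×ˢ D))
    (hut : ∀ t ∈ Ico t₀ t₁, ∀ x ∈ D, HasDerivWithinAt (fun s => u s x) (ut t x) (Ici t) t)
    (hux : ∀ t ∈ Ico t₀ t₁, ∀ x ∈ D, HasDerivAt (fun y => u t y) (ux t x) x)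
    (huxx : ∀ t ∈ Ico t₀ t₁, ∀ x ∈ D, HasDerivAt (fun y => ux t y) (uxx t x) x)
    (ha : ∀ t ∈ Ico t₀ t₁, ∀ x ∈ D, 0 < u t x → 0 ≤ a t x)
    (hc : ∀ t ∈ Ico t₀ t₁, ∀ x ∈ D, 0 < u t x → c t x ≤ A)
    (heq : ∀ t ∈ Ico t₀ t₁, ∀ x ∈ D, 0 < u t x →
      -(ut t x) ≤ a t x * uxx t x + B t x * ux t x + c t x * u t x)
    (hterm : ∀ x ∈ D, u t₁ x ≤ 0)
    (hbd : ∀ ε > 0, ∃ K : Set ℝ, IsCompact K ∧ K ⊆ D ∧
      ∀ t ∈ Icc t₀ t₁, ∀ x ∈ D, x ∉ K → u t x ≤ ε) :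
    ∀ t ∈ Icc t₀ t₁, ∀ x ∈ D, u t x ≤ 0 := by
  have hI : ∀ s ∈ Icc (0 : ℝ) (t₁ - t₀), t₁ - s ∈ Icc t₀ t₁ := by
    intro s hs; exact ⟨by linarith [hs.2], by linarith [hs.1]⟩
  have hI' : ∀ s ∈ Ioc (0 : ℝ) (t₁ - t₀), t₁ - s ∈ Ico t₀ t₁ := by
    intro s hs; exact ⟨by linarith [hs.2], by linarith [hs.1]⟩
  have key := mp_compact (T := t₁ - t₀) (A := A) hD
    (u := fun s x => u (t₁ - s) x) (ut := fun s x => -(ut (t₁ - s) x))
    (ux := fun s x => ux (t₁ - s) x) (uxx := fun s x => uxx (t₁ - s) x)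
    (a := fun s x => a (t₁ - s) x) (B := fun s x => B (t₁ - s) x)
    (c := fun s x => c (t₁ - s) x)
    (by
      have h1 : ContinuousOn (fun p : ℝ × ℝ => ((t₁ - p.1, p.2) : ℝ × ℝ))
          (Icc 0 (t₁ - t₀) ×ˢ D) := by fun_prop
      exact hcont.comp h1 (fun p hp => ⟨hI p.1 hp.1, hp.2⟩))
    (fun s hs x hx => hasDerivWithinAt_reverse (hut _ (hI' s hs) x hx))
    (fun s hs x hx => hux _ (hI' s hs) x hx)
    (fun s hs x hx => huxx _ (hI' s hs) x hx)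
    (fun s hs x hx h => ha _ (hI' s hs) x hx h)
    (fun s hs x hx h => hc _ (hI' s hs) x hx h)
    (fun s hs x hx h => heq _ (hI' s hs) x hx h)
    (fun x hx => by simpa using hterm x hx)
    (fun ε hε => by
      obtain ⟨K, hK, hKD, h⟩ := hbd ε hε
      exact ⟨K, hK, hKD, fun s hs x hx hxK => h _ (hI s hs) x hx hxK⟩)
  intro t ht x hx
  have := key (t₁ - t) ⟨by linarith [ht.2], by linarith [ht.1]⟩ x hx
  simpa using this

/-- **Backward parabolic maximum principle, polynomial growth, whole line**, on `[t₀, t₁]`. -/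
theorem mp_growth_back {t₀ t₁ A C : ℝ} {k : ℕ}
    {u ut ux uxx a B c : ℝ → ℝ → ℝ}
    (hcont : ContinuousOn (fun p : ℝ × ℝ => u p.1 p.2) (Icc t₀ t₁ ×ˢ univ))
    (hut : ∀ t ∈ Ico t₀ t₁, ∀ x, HasDerivWithinAt (fun s => u s x) (ut t x) (Ici t) t)
    (hux : ∀ t ∈ Ico t₀ t₁, ∀ x, HasDerivAt (fun y => u t y) (ux t x) x)
    (huxx : ∀ t ∈ Ico t₀ t₁, ∀ x, HasDerivAt (fun y => ux t y) (uxx t x) x)
    (hA : 0 ≤ A)
    (ha : ∀ t ∈ Ico t₀ t₁, ∀ x, 0 < u t x → 0 ≤ a t x)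
    (ha' : ∀ t ∈ Ico t₀ t₁, ∀ x, 0 < u t x → a t x ≤ A * (1 + x ^ 2))
    (hB : ∀ t ∈ Ico t₀ t₁, ∀ x, 0 < u t x → |B t x| ≤ A * (1 + |x|))
    (hc : ∀ t ∈ Ico t₀ t₁, ∀ x, 0 < u t x → c t x ≤ A)
    (heq : ∀ t ∈ Ico t₀ t₁, ∀ x, 0 < u t x →
      -(ut t x) ≤ a t x * uxx t x + B t x * ux t x + c t x * u t x)
    (hterm : ∀ x, u t₁ x ≤ 0)
    (hgrow : ∀ t ∈ Icc t₀ t₁, ∀ x, u t x ≤ C * (1 + x ^ 2) ^ k) :
    ∀ t ∈ Icc t₀ t₁, ∀ x, u t x ≤ 0 := by
  have hI : ∀ s ∈ Icc (0 : ℝ) (t₁ - t₀), t₁ - s ∈ Icc t₀ t₁ := by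
    intro s hs; exact ⟨by linarith [hs.2], by linarith [hs.1]⟩
  have hI' : ∀ s ∈ Ioc (0 : ℝ) (t₁ - t₀), t₁ - s ∈ Ico t₀ t₁ := by
    intro s hs; exact ⟨by linarith [hs.2], by linarith [hs.1]⟩
  have key := mp_growth (T := t₁ - t₀) (A := A) (C := C) (k := k)
    (u := fun s x => u (t₁ - s) x) (ut := fun s x => -(ut (t₁ - s) x))
    (ux := fun s x => ux (t₁ - s) x) (uxx := fun s x => uxx (t₁ - s) x)
    (a := fun s x => a (t₁ - s) x) (B := fun s x => B (t₁ - s) x)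
    (c := fun s x => c (t₁ - s) x)
    (by
      have h1 : ContinuousOn (fun p : ℝ × ℝ => ((t₁ - p.1, p.2) : ℝ × ℝ))
          (Icc 0 (t₁ - t₀) ×ˢ univ) := by fun_prop
      exact hcont.comp h1 (fun p hp => ⟨hI p.1 hp.1, hp.2⟩))
    (fun s hs x => hasDerivWithinAt_reverse (hut _ (hI' s hs) x))
    (fun s hs x => hux _ (hI' s hs) x)
    (fun s hs x => huxx _ (hI' s hs) x)
    hA
    (fun s hs x h => ha _ (hI' s hs) x h)
    (fun s hs x h => ha' _ (hI' s hs) x h)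
    (fun s hs x h => hB _ (hI' s hs) x h)
    (fun s hs x h => hc _ (hI' s hs) x h)
    (fun s hs x h => heq _ (hI' s hs) x h)
    (fun x => by simpa using hterm x)
    (fun s hs x => hgrow _ (hI s hs) x)
  intro t ht x
  have := key (t₁ - t) ⟨by linarith [ht.2], by linarith [ht.1]⟩ x
  simpa using this

end Crest.Agent.R146.MaxP_86
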