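import Mathlib

/-!
# McDiarmid's bounded differences inequality on a finite product of probability spaces
(helper468, node H2 of LOCUB, post 902)

`X : ι → Type*` measurable spaces with probability measures `μ i`, `F` measurable and bounded,
`|F x - F (update x i y)| ≤ c i`:

* `integral_exp_le` : `∫ exp (t F) ≤ exp (t² Σ c_i² / 8) exp (t ∫ F)`;
* `mcdiarmid_upper`, `mcdiarmid_lower` : tails `exp (-2 s² / Σ c_i²)`;
* `mcdiarmid`, `mcdiarmid'` : the iid forms with `exp (-2 t² / (|ι| c²))`.
-/

set_option autoImplicit false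
set_option linter.unusedSectionVars false
set_option linter.unusedVariables false

open MeasureTheory ProbabilityTheory
open scoped ENNReal NNReal

namespace Crest.Agent.R146.McD_468

/-- Hoeffding's lemma for a function of oscillation at most `c` -/
theorem hoeff {Y : Type*} [MeasurableSpace Y] (ρ : Measure Y) [IsProbabilityMeasure ρ]
    (g : Y → ℝ) (hg : Measurable g) (c : ℝ) (h : ∀ y z, |g y - g z| ≤ c) (t : ℝ) :
    ∫ y, Real.exp (t * g y) ∂ρ ≤
      Real.exp (t ^ 2 * c ^ 2 / 8) * Real.exp (t * ∫ y, g y ∂ρ) := by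
  obtain ⟨y0⟩ : Nonempty Y := by
    by_contra hne
    rw [not_nonempty_iff] at hne
    have : ρ Set.univ = 1 := measure_univ
    simp [Set.univ_eq_empty_iff.2 hne] at this
  have : Nonempty Y := ⟨y0⟩
  have hc : 0 ≤ c := le_trans (abs_nonneg _) (h y0 y0)
  have hbdd : BddBelow (Set.range g) := ⟨g y0 - c, by
    rintro _ ⟨y, rfl⟩
    have := (abs_le.1 (h y0 y)).2
    linarith⟩
  set a := ⨅ y, g y with ha
  have h1 : ∀ y, a ≤ g y := fun y => ciInf_le hbdd y
  have h2 : ∀ y, g y ≤ a + c := by
    intro y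
    have : g y - c ≤ a := le_ciInf fun z => by
      have := (abs_le.1 (h y z)).2
      linarith
    linarith
  have hs := hasSubgaussianMGF_of_mem_Icc (μ := ρ) (X := g) (a := a) (b := a + c)
    hg.aemeasurable (ae_of_all _ fun y => ⟨h1 y, h2 y⟩)
  have hm := hs.mgf_le t
  have e1 : mgf (fun ω => g ω - ρ[g]) ρ t =
      (∫ y, Real.exp (t * g y) ∂ρ) * Real.exp (-(t * ∫ y, g y ∂ρ)) := by
    rw [mgf, ← integral_mul_const]
    apply integral_congr_ae
    filter_upwards with y
    rw [← Real.exp_add]
    congr 1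
    ring
  rw [e1] at hm
  have e2 : (((‖a + c - a‖₊ / 2) ^ 2 : ℝ≥0) : ℝ) * t ^ 2 / 2 = t ^ 2 * c ^ 2 / 8 := by
    push_cast
    rw [Real.norm_eq_abs, add_sub_cancel_left, div_pow, sq_abs]
    ring
  rw [e2] at hm
  have h3 : 0 < Real.exp (t * ∫ y, g y ∂ρ) := Real.exp_pos _
  calc ∫ y, Real.exp (t * g y) ∂ρ
      = ((∫ y, Real.exp (t * g y) ∂ρ) * Real.exp (-(t * ∫ y, g y ∂ρ))) *
          Real.exp (t * ∫ y, g y ∂ρ) := by
        rw [mul_assoc, ← Real.exp_add]; simp
    _ ≤ _ := by gcongr

variable {ι : Type*} [Fintype ι] [DecidableEq ι] {X : ι → Type*} [∀ i, MeasurableSpace (X i)]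
  (μ : ∀ i, Measure (X i)) [∀ i, IsProbabilityMeasure (μ i)]

/-- resampling one coordinate preserves the product law -/
theorem mp_update (i : ι) :
    MeasurePreserving (fun p : (∀ i, X i) × X i => Function.update p.1 i p.2)
      ((Measure.pi μ).prod (μ i)) (Measure.pi μ) := by
  refine ⟨measurable_update', ?_⟩
  symm
  apply Measure.pi_eq
  intro A hA
  have hpi : MeasurableSet (Set.pi (Set.univ : Set ι) A) :=
    MeasurableSet.univ_pi hA
  rw [Measure.map_apply measurable_update' hpi]
  have h1 : (fun p : (∀ i, X i) × X i => Function.update p.1 i p.2) ⁻¹'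
        (Set.pi (Set.univ : Set ι) A) =
      (Set.pi (Set.univ : Set ι) (Function.update A i Set.univ)) ×ˢ (A i) := by
    ext p
    simp only [Set.mem_preimage, Set.mem_pi, Set.mem_univ, forall_true_left, Set.mem_prod]
    constructor
    · intro h
      refine ⟨fun j => ?_, ?_⟩
      · by_cases hj : j = i
        · subst hj; simp
        · have := h j
          rw [Function.update_of_ne hj] at this ⊢
          exact this
      · have := h i
        rwa [Function.update_self] at this
    · rintro ⟨h, h'⟩ j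
      by_cases hj : j = i
      · subst hj
        rw [Function.update_self]; exact h'
      · have := h j
        rw [Function.update_of_ne hj] at this ⊢
        exact this
  rw [h1, Measure.prod_prod, Measure.pi_pi, ← Finset.mul_prod_erase _ _ (Finset.mem_univ i),
    Function.update_self, measure_univ, one_mul,
    ← Finset.prod_erase_mul (s := Finset.univ) (fun j => (μ j) (A j)) (Finset.mem_univ i)]
  congr 1
  apply Finset.prod_congr rfl
  intro j hj
  rw [Function.update_of_ne (Finset.ne_of_mem_erase hj)]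

/-- average over one coordinate -/
noncomputable def avg (i : ι) (F : (∀ i, X i) → ℝ) : (∀ i, X i) → ℝ :=
  fun x => ∫ y, F (Function.update x i y) ∂(μ i)

theorem measurable_upd (i : ι) (x : ∀ i, X i) : Measurable fun y : X i => Function.update x i y :=
  measurable_update x

theorem avg_meas (i : ι) {F : (∀ i, X i) → ℝ} (hF : Measurable F) : Measurable (avg μ i F) := by
  have h : StronglyMeasurable (fun p : (∀ i, X i) × X i => F (Function.update p.1 i p.2)) :=
    (hF.comp measurable_update').stronglyMeasurable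
  exact h.integral_prod_right.measurable

theorem integrable_of_bdd {Y : Type*} [MeasurableSpace Y] (ρ : Measure Y) [IsProbabilityMeasure ρ]
    {g : Y → ℝ} (hg : Measurable g) {C : ℝ} (h : ∀ y, |g y| ≤ C) : Integrable g ρ :=
  Integrable.of_bound hg.aestronglyMeasurable C (ae_of_all _ fun y => by
    rw [Real.norm_eq_abs]; exact h y)

theorem avg_bdd (i : ι) {F : (∀ i, X i) → ℝ} {C : ℝ} (hF : ∀ x, |F x| ≤ C) (x : ∀ i, X i) :
    |avg μ i F x| ≤ C := by
  have := norm_integral_le_of_norm_le_const (μ := μ i) (f := fun y => F (Function.update x i y))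
    (C := C) (ae_of_all _ fun y => by rw [Real.norm_eq_abs]; exact hF _)
  simpa [avg, Real.norm_eq_abs] using this

theorem avg_update_self (i : ι) (F : (∀ i, X i) → ℝ) (x : ∀ i, X i) (y : X i) :
    avg μ i F (Function.update x i y) = avg μ i F x := by
  simp [avg]

theorem avg_update_of_forall {i j : ι} (F : (∀ i, X i) → ℝ)
    (h : ∀ x (y : X j), F (Function.update x j y) = F x) (x : ∀ i, X i) (y : X j) :
    avg μ i F (Function.update x j y) = avg μ i F x := by
  by_cases hij : i = j
  · subst hij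
    exact avg_update_self μ i F x y
  · simp only [avg]
    congr 1
    ext z
    rw [Function.update_comm (Ne.symm hij)]
    exact h _ _

theorem avg_osc {i j : ι} {F : (∀ i, X i) → ℝ} (hF : Measurable F) {C : ℝ}
    (hb : ∀ x, |F x| ≤ C) (c : ℝ)
    (h : ∀ x (y : X j), |F x - F (Function.update x j y)| ≤ c) (x : ∀ i, X i) (y : X j) :
    |avg μ i F x - avg μ i F (Function.update x j y)| ≤ c := by
  have hc : 0 ≤ c := le_trans (abs_nonneg _) (h x y)
  by_cases hij : i = j
  · subst hij
    rw [avg_update_self, sub_self, abs_zero]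
    exact hc
  · have i1 : Integrable (fun z => F (Function.update x i z)) (μ i) :=
      integrable_of_bdd (μ i) (hF.comp (measurable_upd i _)) (fun z => hb _)
    have i2 : Integrable (fun z => F (Function.update (Function.update x j y) i z)) (μ i) :=
      integrable_of_bdd (μ i) (hF.comp (measurable_upd i _)) (fun z => hb _)
    simp only [avg]
    rw [← integral_sub i1 i2]
    have := norm_integral_le_of_norm_le_const (μ := μ i)
      (f := fun z => F (Function.update x i z) -
        F (Function.update (Function.update x j y) i z)) (C := c)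
      (ae_of_all _ fun z => by
        rw [Real.norm_eq_abs, Function.update_comm (Ne.symm hij)]
        exact h _ _)
    simpa [Real.norm_eq_abs] using this

theorem integral_avg (i : ι) {F : (∀ i, X i) → ℝ} (hF : Measurable F) {C : ℝ}
    (hb : ∀ x, |F x| ≤ C) :
    ∫ x, avg μ i F x ∂(Measure.pi μ) = ∫ x, F x ∂(Measure.pi μ) := by
  have hmp := mp_update μ i
  have hI : Integrable (fun p : (∀ i, X i) × X i => F (Function.update p.1 i p.2))
      ((Measure.pi μ).prod (μ i)) :=
    integrable_of_bdd _ (hF.comp measurable_update') (fun p => hb _)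
  have h1 : ∫ x, F x ∂(Measure.pi μ) =
      ∫ p : (∀ i, X i) × X i, F (Function.update p.1 i p.2) ∂((Measure.pi μ).prod (μ i)) := by
    conv_lhs => rw [← hmp.map_eq]
    rw [integral_map hmp.measurable.aemeasurable hF.aestronglyMeasurable]
  rw [h1, integral_prod _ hI]
  rfl

theorem exp_bdd {F : (∀ i, X i) → ℝ} {C : ℝ} (hb : ∀ x, |F x| ≤ C) (t : ℝ) (x : ∀ i, X i) :
    |Real.exp (t * F x)| ≤ Real.exp (|t| * C) := by
  rw [abs_of_pos (Real.exp_pos _)]
  apply Real.exp_le_exp.2
  calc t * F x ≤ |t * F x| := le_abs_self _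
    _ = |t| * |F x| := abs_mul _ _
    _ ≤ |t| * C := by gcongr; exact hb x

theorem integral_exp_avg_le (i : ι) {F : (∀ i, X i) → ℝ} (hF : Measurable F) {C : ℝ}
    (hb : ∀ x, |F x| ≤ C) (c t : ℝ)
    (h : ∀ x (y : X i), |F x - F (Function.update x i y)| ≤ c) :
    ∫ x, Real.exp (t * F x) ∂(Measure.pi μ) ≤
      Real.exp (t ^ 2 * c ^ 2 / 8) * ∫ x, Real.exp (t * avg μ i F x) ∂(Measure.pi μ) := by
  have hE : Measurable fun x => Real.exp (t * F x) := (hF.const_mul t).exp
  rw [← integral_avg μ i hE (exp_bdd hb t), ← integral_const_mul]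
  apply integral_mono
  · exact integrable_of_bdd _ (avg_meas μ i hE) (avg_bdd μ i (exp_bdd hb t))
  · exact (integrable_of_bdd _ ((avg_meas μ i hF).const_mul t).exp
      (exp_bdd (avg_bdd μ i hb) t)).const_mul _
  · intro x
    refine hoeff (μ i) (fun y => F (Function.update x i y)) (hF.comp (measurable_upd i x)) c ?_ t
    intro y z
    have := h (Function.update x i y) z
    rwa [Function.update_idem] at this

theorem exists_partial {F : (∀ i, X i) → ℝ} (hF : Measurable F) {C : ℝ}
    (hb : ∀ x, |F x| ≤ C) (c : ι → ℝ) (t : ℝ)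
    (h : ∀ i x (y : X i), |F x - F (Function.update x i y)| ≤ c i) (s : Finset ι) :
    ∃ G : (∀ i, X i) → ℝ, Measurable G ∧ (∀ x, |G x| ≤ C) ∧
      (∀ i ∈ s, ∀ x (y : X i), G (Function.update x i y) = G x) ∧
      (∀ i x (y : X i), |G x - G (Function.update x i y)| ≤ c i) ∧
      (∫ x, G x ∂(Measure.pi μ) = ∫ x, F x ∂(Measure.pi μ)) ∧
      ∫ x, Real.exp (t * F x) ∂(Measure.pi μ) ≤
        Real.exp (t ^ 2 * (∑ i ∈ s, c i ^ 2) / 8) * ∫ x, Real.exp (t * G x) ∂(Measure.pi μ) := by
  induction s using Finset.induction_on with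
  | empty =>
    refine ⟨F, hF, hb, by simp, h, rfl, by simp⟩
  | insert j s hj ih =>
    obtain ⟨G, hG, hGb, hG1, hG2, hG3, hG4⟩ := ih
    refine ⟨avg μ j G, avg_meas μ j hG, avg_bdd μ j hGb, ?_, ?_, ?_, ?_⟩
    · intro i hi x y
      rcases Finset.mem_insert.1 hi with rfl | hi
      · exact avg_update_self μ i G x y
      · exact avg_update_of_forall μ G (hG1 i hi) x y
    · intro i x y
      exact avg_osc μ hG hGb (c i) (hG2 i) x y
    · rw [integral_avg μ j hG hGb, hG3]
    · refine hG4.trans ?_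
      rw [Finset.sum_insert hj]
      calc Real.exp (t ^ 2 * (∑ i ∈ s, c i ^ 2) / 8) * ∫ x, Real.exp (t * G x) ∂(Measure.pi μ)
          ≤ Real.exp (t ^ 2 * (∑ i ∈ s, c i ^ 2) / 8) *
            (Real.exp (t ^ 2 * c j ^ 2 / 8) *
              ∫ x, Real.exp (t * avg μ j G x) ∂(Measure.pi μ)) := by
            gcongr
            exact integral_exp_avg_le μ j hG hGb (c j) t (hG2 j)
        _ = _ := by
            rw [← mul_assoc, ← Real.exp_add]
            congr 2
            ring

theorem eq_of_forall_update {β : Type*} (G : (∀ i, X i) → β)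
    (h : ∀ i x (y : X i), G (Function.update x i y) = G x) (x x' : ∀ i, X i) : G x = G x' := by
  have key : ∀ s : Finset ι, G (fun i => if i ∈ s then x' i else x i) = G x := by
    intro s
    induction s using Finset.induction_on with
    | empty => simp
    | insert j s hj ih =>
      rw [← ih, ← h j (fun i => if i ∈ s then x' i else x i) (x' j)]
      congr 1
      ext i
      by_cases hij : i = j
      · subst hij; simp
      · rw [Function.update_of_ne hij]
        simp [hij]
  have := key Finset.univ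
  simpa using this.symm

/-- exponential moment bound (McDiarmid) -/
theorem integral_exp_le {F : (∀ i, X i) → ℝ} (hF : Measurable F) {C : ℝ}
    (hb : ∀ x, |F x| ≤ C) (c : ι → ℝ) (t : ℝ)
    (h : ∀ i x (y : X i), |F x - F (Function.update x i y)| ≤ c i) :
    ∫ x, Real.exp (t * F x) ∂(Measure.pi μ) ≤
      Real.exp (t ^ 2 * (∑ i, c i ^ 2) / 8) * Real.exp (t * ∫ x, F x ∂(Measure.pi μ)) := by
  obtain ⟨G, hG, hGb, hG1, hG2, hG3, hG4⟩ := exists_partial μ hF hb c t h Finset.univ
  obtain ⟨x0⟩ : Nonempty (∀ i, X i) := by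
    by_contra hne
    rw [not_nonempty_iff] at hne
    have : (Measure.pi μ) Set.univ = 1 := measure_univ
    simp [Set.univ_eq_empty_iff.2 hne] at this
  have hconst : ∀ x, G x = G x0 := fun x =>
    eq_of_forall_update G (fun i => hG1 i (Finset.mem_univ i)) x x0
  have e1 : ∫ x, G x ∂(Measure.pi μ) = G x0 := by
    simp_rw [hconst]; simp
  have e2 : ∫ x, Real.exp (t * G x) ∂(Measure.pi μ) = Real.exp (t * G x0) := by
    simp_rw [hconst]; simp
  rw [e2, ← e1, hG3] at hG4
  exact hG4

/-- upper tail -/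
theorem mcdiarmid_upper {F : (∀ i, X i) → ℝ} (hF : Measurable F) {C : ℝ}
    (hb : ∀ x, |F x| ≤ C) (c : ι → ℝ)
    (h : ∀ i x (y : X i), |F x - F (Function.update x i y)| ≤ c i) (s : ℝ) (hs : 0 ≤ s) :
    (Measure.pi μ).real {x | (∫ z, F z ∂(Measure.pi μ)) + s ≤ F x} ≤
      Real.exp (-2 * s ^ 2 / ∑ i, c i ^ 2) := by
  set S := ∑ i, c i ^ 2 with hS
  have hS0 : 0 ≤ S := Finset.sum_nonneg fun i _ => sq_nonneg _
  rcases hS0.eq_or_lt with h0 | h0
  · rw [← h0]
    simp only [div_zero, Real.exp_zero]
    exact measureReal_le_one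
  set t := 4 * s / S with ht
  have ht0 : 0 ≤ t := by positivity
  have hI : Integrable (fun x => Real.exp (t * F x)) (Measure.pi μ) :=
    integrable_of_bdd _ (hF.const_mul t).exp (exp_bdd hb t)
  have h1 := measure_ge_le_exp_mul_mgf (μ := Measure.pi μ) (X := F) (t := t)
    ((∫ z, F z ∂(Measure.pi μ)) + s) ht0 hI
  have h2 := integral_exp_le μ hF hb c t h
  refine h1.trans ?_
  calc Real.exp (-t * ((∫ z, F z ∂(Measure.pi μ)) + s)) * mgf F (Measure.pi μ) t
      ≤ Real.exp (-t * ((∫ z, F z ∂(Measure.pi μ)) + s)) *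
        (Real.exp (t ^ 2 * S / 8) * Real.exp (t * ∫ x, F x ∂(Measure.pi μ))) := by
        gcongr
        exact h2
    _ = Real.exp (-2 * s ^ 2 / S) := by
        rw [← Real.exp_add, ← Real.exp_add]
        congr 1
        rw [ht]
        field_simp
        ring

/-- lower tail -/
theorem mcdiarmid_lower {F : (∀ i, X i) → ℝ} (hF : Measurable F) {C : ℝ}
    (hb : ∀ x, |F x| ≤ C) (c : ι → ℝ)
    (h : ∀ i x (y : X i), |F x - F (Function.update x i y)| ≤ c i) (s : ℝ) (hs : 0 ≤ s) :
    (Measure.pi μ).real {x | F x ≤ (∫ z, F z ∂(Measure.pi μ)) - s} ≤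
      Real.exp (-2 * s ^ 2 / ∑ i, c i ^ 2) := by
  have h1 := mcdiarmid_upper μ (F := fun x => - F x) hF.neg (C := C)
    (fun x => by rw [abs_neg]; exact hb x) c
    (fun i x y => by
      have := h i x y
      rw [← abs_neg] at this
      convert this using 2
      ring) s hs
  convert h1 using 2
  ext x
  simp only [Set.mem_ofPred_eq, integral_neg]
  constructor <;> intro h <;> linarith

/-- iid form, upper tail -/
theorem mcdiarmid {ι X : Type*} [Fintype ι] [DecidableEq ι] [MeasurableSpace X]
    (G : Measure X) [IsProbabilityMeasure G] {F : (ι → X) → ℝ} (hF : Measurable F)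
    (hb : ∃ C, ∀ x, |F x| ≤ C) (c : ℝ)
    (h : ∀ i x y, |F (Function.update x i y) - F x| ≤ c) (t : ℝ) (ht : 0 ≤ t) :
    (Measure.pi fun _ : ι => G) {x | (∫ z, F z ∂(Measure.pi fun _ : ι => G)) + t ≤ F x} ≤
      ENNReal.ofReal (Real.exp (-2 * t ^ 2 / (Fintype.card ι * c ^ 2))) := by
  obtain ⟨C, hC⟩ := hb
  have h1 := mcdiarmid_upper (fun _ : ι => G) hF hC (fun _ => c)
    (fun i x y => by rw [abs_sub_comm]; exact h i x y) t ht
  rw [Finset.sum_const, Finset.card_univ, nsmul_eq_mul] at h1
  rw [← ENNReal.ofReal_toReal (measure_ne_top _ _)]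
  exact ENNReal.ofReal_le_ofReal h1

/-- iid form, lower tail -/
theorem mcdiarmid' {ι X : Type*} [Fintype ι] [DecidableEq ι] [MeasurableSpace X]
    (G : Measure X) [IsProbabilityMeasure G] {F : (ι → X) → ℝ} (hF : Measurable F)
    (hb : ∃ C, ∀ x, |F x| ≤ C) (c : ℝ)
    (h : ∀ i x y, |F (Function.update x i y) - F x| ≤ c) (t : ℝ) (ht : 0 ≤ t) :
    (Measure.pi fun _ : ι => G) {x | F x ≤ (∫ z, F z ∂(Measure.pi fun _ : ι => G)) - t} ≤
      ENNReal.ofReal (Real.exp (-2 * t ^ 2 / (Fintype.card ι * c ^ 2))) := by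
  obtain ⟨C, hC⟩ := hb
  have h1 := mcdiarmid_lower (fun _ : ι => G) hF hC (fun _ => c)
    (fun i x y => by rw [abs_sub_comm]; exact h i x y) t ht
  rw [Finset.sum_const, Finset.card_univ, nsmul_eq_mul] at h1
  rw [← ENNReal.ofReal_toReal (measure_ne_top _ _)]
  exact ENNReal.ofReal_le_ofReal h1

end Crest.Agent.R146.McD_468
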