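import Crest.Agent.R146.StepStart_483

/-!
Mills ratio facts (row 146, helper384). `hz z = φ(z)/Φ(z)`; `hz' = -z hz - hz²`, `0 ≤ 1 + hz'`
(`= Φ⁻²(Φ² - zφΦ - φ²)`), `0 < z + hz`, `hz ≤ 1 + |z|`, `U0 ≤ hz`, `hz(-5) ≤ 5.195`, `φ(0) ≥ .398`,
`φ² ≤ Φ(1-Φ)`.
`hz` is the exact self-similar profile of `ν = 1`.
-/

set_option autoImplicit false

open Set Filter Topology

namespace Crest.Agent.R146.Mills_384

open StepStart_483 StepDef_791

noncomputable section

lemma m1 (z : ℝ) : 0 < ph z + z * Phi z := by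
  have h := add_U0_pos z
  rw [U0_eq] at h
  linarith

lemma ph_mul_le (z : ℝ) : ph z * (1 + z ^ 2 / 2) ≤ 1 := by
  rw [ph_eq]
  have h1 : 1 + z ^ 2 / 2 ≤ Real.exp (z ^ 2 / 2) := by
    have := Real.add_one_le_exp (z ^ 2 / 2)
    linarith
  have h2 : (1 : ℝ) ≤ √(2 * Real.pi) := by
    rw [Real.one_le_sqrt]
    have := Real.pi_gt_three
    linarith
  have h3 : (√(2 * Real.pi))⁻¹ ≤ 1 := inv_le_one_of_one_le₀ h2
  have h4 : Real.exp (-z ^ 2 / 2) * Real.exp (z ^ 2 / 2) = 1 := by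
    rw [← Real.exp_add]
    have : -z ^ 2 / 2 + z ^ 2 / 2 = 0 := by ring
    rw [this, Real.exp_zero]
  have h5 : 0 < Real.exp (-z ^ 2 / 2) := Real.exp_pos _
  have h6 : 0 ≤ (√(2 * Real.pi))⁻¹ := by positivity
  calc (√(2 * Real.pi))⁻¹ * Real.exp (-z ^ 2 / 2) * (1 + z ^ 2 / 2)
      ≤ (√(2 * Real.pi))⁻¹ * Real.exp (-z ^ 2 / 2) * Real.exp (z ^ 2 / 2) :=
        mul_le_mul_of_nonneg_left h1 (by positivity)
    _ = (√(2 * Real.pi))⁻¹ := by rw [mul_assoc, h4, mul_one]
    _ ≤ 1 := h3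

lemma z_ph_tendsto : Tendsto (fun z => z * ph z) atBot (𝓝 0) := by
  have h1 : Tendsto (fun z : ℝ => 2 / z) atBot (𝓝 0) := by
    have := (tendsto_inv_atBot_zero (𝕜 := ℝ)).const_mul 2
    simpa [div_eq_mul_inv] using this
  refine tendsto_of_tendsto_of_tendsto_of_le_of_le' h1 tendsto_const_nhds ?_ ?_
  · filter_upwards [eventually_lt_atBot (0:ℝ)] with z hz
    have h2 := ph_mul_le z
    have h3 := ph_pos z
    rw [div_le_iff_of_neg hz]
    nlinarith
  · filter_upwards [eventually_lt_atBot (0:ℝ)] with z hz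
    exact (mul_neg_of_neg_of_pos hz (ph_pos z)).le

/-- `m2 z = (1+z²) Φ + z φ ≥ 0` -/
lemma m2_deriv (z : ℝ) : HasDerivAt (fun z => (1 + z ^ 2) * Phi z + z * ph z)
    (2 * (ph z + z * Phi z)) z := by
  have h1 : HasDerivAt (fun z : ℝ => 1 + z ^ 2) (2 * z) z := by
    simpa using (hasDerivAt_pow 2 z).const_add 1
  have h2 := (h1.mul (Phi_deriv z)).add ((hasDerivAt_id z).mul (ph_deriv z))
  refine h2.congr_deriv ?_
  simp only [id]
  ring

lemma m2 (z : ℝ) : 0 ≤ (1 + z ^ 2) * Phi z + z * ph z := by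
  by_contra hcon
  push Not at hcon
  have hmono : Monotone (fun z => (1 + z ^ 2) * Phi z + z * ph z) := by
    apply monotone_of_deriv_nonneg (fun z => (m2_deriv z).differentiableAt)
    intro y
    rw [(m2_deriv y).deriv]
    have := m1 y
    linarith
  have h1 : ∀ᶠ y in atBot, y * ph y ≤ (1 + z ^ 2) * Phi z + z * ph z := by
    filter_upwards [eventually_le_atBot z] with y hy
    have h2 := hmono hy
    have h3 : 0 ≤ (1 + y ^ 2) * Phi y := mul_nonneg (by positivity) (Phi_nonneg y)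
    simp only at h2
    linarith
  have h4 := le_of_tendsto z_ph_tendsto h1
  linarith

lemma m3_deriv (z : ℝ) : HasDerivAt (fun z => Phi z ^ 2 - z * ph z * Phi z - ph z ^ 2)
    (ph z * ((1 + z ^ 2) * Phi z + z * ph z)) z := by
  have h1 := ((Phi_deriv z).pow 2).sub ((((hasDerivAt_id z).mul (ph_deriv z))).mul (Phi_deriv z))
  have h2 := h1.sub ((ph_deriv z).pow 2)
  refine h2.congr_deriv ?_
  simp only [id, Pi.mul_apply]
  ring

lemma m3 (z : ℝ) : 0 ≤ Phi z ^ 2 - z * ph z * Phi z - ph z ^ 2 := by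
  by_contra hcon
  push Not at hcon
  have hmono : Monotone (fun z => Phi z ^ 2 - z * ph z * Phi z - ph z ^ 2) := by
    apply monotone_of_deriv_nonneg (fun z => (m3_deriv z).differentiableAt)
    intro y
    rw [(m3_deriv y).deriv]
    exact mul_nonneg (ph_pos y).le (m2 y)
  have ht : Tendsto (fun y => -(ph y ^ 2)) atBot (𝓝 0) := by
    have := (ph_tendsto_atBot.pow 2).neg
    simpa using this
  have h1 : ∀ᶠ y in atBot, -(ph y ^ 2) ≤ Phi z ^ 2 - z * ph z * Phi z - ph z ^ 2 := by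
    filter_upwards [eventually_le_atBot z, eventually_le_atBot (0:ℝ)] with y hy hy0
    have h2 := hmono hy
    simp only at h2
    have h3 : 0 ≤ -y * ph y * Phi y :=
      mul_nonneg (mul_nonneg (by linarith) (ph_pos y).le) (Phi_nonneg y)
    nlinarith [sq_nonneg (Phi y)]
  have h4 := le_of_tendsto ht h1
  linarith

/-- the Mills ratio `φ/Φ` -/
def hz (z : ℝ) : ℝ := ph z / Phi z

/-- its derivative `-z h - h²` -/
def hz1 (z : ℝ) : ℝ := -(z * hz z) - hz z ^ 2

/-- its second derivative -/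
def hz2 (z : ℝ) : ℝ := -hz z - z * hz1 z - 2 * hz z * hz1 z

lemma hz_pos (z : ℝ) : 0 < hz z := div_pos (ph_pos z) (Phi_pos z)

lemma hz_deriv (z : ℝ) : HasDerivAt hz (hz1 z) z := by
  have h := (ph_deriv z).div (Phi_deriv z) (Phi_pos z).ne'
  refine h.congr_deriv ?_
  have := (Phi_pos z).ne'
  unfold hz1 hz
  field_simp

lemma hz1_deriv (z : ℝ) : HasDerivAt hz1 (hz2 z) z := by
  have h := (((hasDerivAt_id z).mul (hz_deriv z)).neg).sub ((hz_deriv z).pow 2)
  refine h.congr_deriv ?_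
  unfold hz2
  simp only [id]
  ring

/-- the equation of the `ν = 1` profile -/
lemma hz_eq (z : ℝ) : -hz z + z * hz1 z + hz2 z + 2 * hz z * (1 + hz1 z) = 0 := by
  unfold hz2; ring

lemma one_add_hz1 (z : ℝ) : 0 ≤ 1 + hz1 z := by
  have h := m3 z
  have hp := Phi_pos z
  have e : 1 + hz1 z = (Phi z ^ 2 - z * ph z * Phi z - ph z ^ 2) / Phi z ^ 2 := by
    unfold hz1 hz
    field_simp
    ring
  rw [e]
  exact div_nonneg h (by positivity)

lemma z_add_hz (z : ℝ) : 0 < z + hz z := by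
  have h := m1 z
  have hp := Phi_pos z
  have e : z + hz z = (ph z + z * Phi z) / Phi z := by
    unfold hz
    field_simp
    ring
  rw [e]
  exact div_pos h hp

lemma hz1_nonpos (z : ℝ) : hz1 z ≤ 0 := by
  have h1 := z_add_hz z
  have h2 := hz_pos z
  unfold hz1
  nlinarith

lemma hz_mul_le (z : ℝ) : hz z * (z + hz z) ≤ 1 := by
  have := one_add_hz1 z
  unfold hz1 at this
  nlinarith

lemma hz_le (z : ℝ) : hz z ≤ 1 + |z| := by
  by_contra hcon
  push Not at hcon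
  have h1 := hz_mul_le z
  have h2 := abs_nonneg z
  have h3 := neg_abs_le z
  have h4 := hz_pos z
  nlinarith

lemma hz_neg5 : hz (-5) ≤ 5.195 := by
  by_contra hcon
  push Not at hcon
  have h1 := hz_mul_le (-5)
  nlinarith

lemma U0_le_hz (z : ℝ) : U0 z ≤ hz z := by
  have h := m1 z
  have hp := Phi_pos z
  have hl := Phi_lt_one z
  rw [U0_eq]
  unfold hz
  rw [le_div_iff₀ hp]
  nlinarith [mul_pos h (sub_pos.2 hl)]

lemma ph_zero_ge : 0.398 ≤ ph 0 := by
  rw [ph_eq]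
  have h1 : √(2 * Real.pi) ≤ 1 / 0.398 := by
    rw [Real.sqrt_le_left (by norm_num)]
    have := Real.pi_lt_d2
    norm_num at this ⊢
    linarith
  have h2 : 0 < √(2 * Real.pi) := by positivity
  have h3 : Real.exp (-(0:ℝ) ^ 2 / 2) = 1 := by norm_num
  rw [h3, mul_one, ← one_div, le_div_iff₀ h2]
  have : 0.398 * √(2 * Real.pi) ≤ 0.398 * (1 / 0.398) := mul_le_mul_of_nonneg_left h1 (by norm_num)
  norm_num at this ⊢
  linarith

lemma ph_zero_le : ph 0 ≤ 0.4 := by
  rw [ph_eq]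
  have h1 : 1 / 0.4 ≤ √(2 * Real.pi) := by
    rw [Real.le_sqrt (by norm_num) (by positivity)]
    have := Real.pi_gt_d2
    norm_num at this ⊢
    linarith
  have h2 : 0 < √(2 * Real.pi) := by positivity
  have h3 : Real.exp (-(0:ℝ) ^ 2 / 2) = 1 := by norm_num
  rw [h3, mul_one, ← one_div, div_le_iff₀ h2]
  have : 0.4 * (1 / 0.4) ≤ 0.4 * √(2 * Real.pi) := mul_le_mul_of_nonneg_left h1 (by norm_num)
  norm_num at this ⊢
  linarith

lemma Phi_zero : Phi 0 = 1 / 2 := by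
  have h := Phi_neg 0
  rw [neg_zero] at h
  linarith

lemma hz_zero_le : hz 0 ≤ 0.8 := by
  unfold hz
  rw [Phi_zero]
  have := ph_zero_le
  linarith

/-- `1 - 2Φ(z) + zφ(z) ≥ 0` for `z ≤ 0` -/
lemma m5 {z : ℝ} (hzn : z ≤ 0) : 0 ≤ 1 - 2 * Phi z + z * ph z := by
  have hd : ∀ y, HasDerivAt (fun y => 1 - 2 * Phi y + y * ph y) (-(ph y * (1 + y ^ 2))) y := by
    intro y
    have h1 := (((Phi_deriv y).const_mul 2).const_sub 1).add ((hasDerivAt_id y).mul (ph_deriv y))
    refine h1.congr_deriv ?_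
    simp only [id]
    ring
  have hanti : Antitone (fun y => 1 - 2 * Phi y + y * ph y) := by
    apply antitone_of_deriv_nonpos (fun y => (hd y).differentiableAt)
    intro y
    rw [(hd y).deriv]
    have := mul_pos (ph_pos y) (show (0:ℝ) < 1 + y ^ 2 by positivity)
    linarith
  have h := hanti hzn
  simp only [Phi_zero] at h
  linarith

lemma ph_sq_le_neg {z : ℝ} (hzn : z ≤ 0) : ph z ^ 2 ≤ Phi z * (1 - Phi z) := by
  have h3 := m3 z
  have h5 := m5 hzn
  have hp := Phi_pos z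
  nlinarith [mul_nonneg hp.le h5]

lemma ph_sq_le (z : ℝ) : ph z ^ 2 ≤ Phi z * (1 - Phi z) := by
  rcases le_total z 0 with h | h
  · exact ph_sq_le_neg h
  · have h1 := ph_sq_le_neg (z := -z) (by linarith)
    rw [ph_neg, Phi_neg] at h1
    nlinarith

end

end Crest.Agent.R146.Mills_384
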