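import Crest.Agent.R164.GCalc3

/-!
Row 146, node MON (task 24), part A: directional derivatives of the nested recursion of Gaussian
operators with an arbitrary `C²` terminal function; monotonicity in the tail order; Lipschitz bound
(helper422).
-/

set_option autoImplicit false

namespace Crest.Agent.R146.MonA_422

open MeasureTheory ProbabilityTheory Filter Topology Set
open Crest.ProbabilityR.InvariantGlass Crest.Agent.R164.GC

noncomputable section

/-- `gaussOp_sm` for every nonnegative exponent -/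
theorem gaussOp_sm' {f f1 f2 : ℝ → ℝ} {C : ℝ} (h : Sm f f1 f2 C) {a : ℝ} (ha : 0 ≤ a) (v : ℝ) :
    Sm (gaussOp a v f) (tE a v f f1) (g2 a v f f1 f2) (C + a) := by
  refine ⟨gaussOp_deriv_x h a v, fun x => ?_, ?_, fun x => tE_abs_le h.lip a v h.B1 x,
    fun x => ?_⟩
  · have := tE_deriv_x h a v h.B1.eg h.B2.eg h.d2 x
    unfold g2
    simp only [sq]
    exact this
  · unfold g2
    have c1 := (tE_BC h.lip a v h.B2).cont
    have c2 := (tE_BC h.lip a v (h.B1.pow 2)).cont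
    have c3 := (tE_BC h.lip a v h.B1).cont
    fun_prop
  · unfold g2
    have b1 := tE_abs_le h.lip a v h.B2 x
    have b2 := tE_abs_le h.lip a v (h.B1.pow 2) x
    have b3 := tE_sq_le h.lip a v h.B1.eg x
    have b4 := sq_nonneg (tE a v f f1 x)
    rw [one_pow] at b2
    have b5 := (le_abs_self _).trans b2
    have b6 : 0 ≤ a * (tE a v f (fun y => f1 y ^ 2) x - tE a v f f1 x ^ 2) :=
      mul_nonneg ha (by linarith)
    have b7 : a * (tE a v f (fun y => f1 y ^ 2) x - tE a v f f1 x ^ 2) ≤ a * 1 :=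
      mul_le_mul_of_nonneg_left (by linarith) ha
    rw [abs_le] at b1 ⊢
    constructor <;> linarith [b1.1, b1.2]

/-- the recursion along a list of `(v, w)`: exponents `a, a + w_0, a + w_0 + w_1, ...` -/
def ch (f : ℝ → ℝ) : ℝ → List (ℝ × ℝ) → ℝ → ℝ
  | _, [] => f
  | a, (v, w) :: L => gaussOp a v (ch f (a + w) L)

/-- first derivative -/
def ch1 (f f1 : ℝ → ℝ) : ℝ → List (ℝ × ℝ) → ℝ → ℝ
  | _, [] => f1
  | a, (v, w) :: L => tE a v (ch f (a + w) L) (ch1 f f1 (a + w) L)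

/-- second derivative -/
def ch2 (f f1 f2 : ℝ → ℝ) : ℝ → List (ℝ × ℝ) → ℝ → ℝ
  | _, [] => f2
  | a, (v, w) :: L => g2 a v (ch f (a + w) L) (ch1 f f1 (a + w) L) (ch2 f f1 f2 (a + w) L)

/-- admissible lists: nonnegative exponents, variances and exponent increments -/
def Ad : ℝ → List (ℝ × ℝ) → Prop
  | a, [] => 0 ≤ a
  | a, (v, w) :: L => 0 ≤ a ∧ 0 ≤ v ∧ 0 ≤ w ∧ Ad (a + w) L

/-- bound of the second derivative -/
def Cb (C : ℝ) : ℝ → List (ℝ × ℝ) → ℝ
  | _, [] => C
  | a, (_, w) :: L => Cb C (a + w) L + a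

theorem ch_sm {f f1 f2 : ℝ → ℝ} {C : ℝ} (hf : Sm f f1 f2 C) : ∀ (L : List (ℝ × ℝ)) (a : ℝ),
    Ad a L → Sm (ch f a L) (ch1 f f1 a L) (ch2 f f1 f2 a L) (Cb C a L)
  | [], _, _ => hf
  | (v, w) :: L, a, h => gaussOp_sm' (ch_sm hf L (a + w) h.2.2.2) h.1 v

/-- `f'' + a f'^2` is a martingale along the recursion -/
theorem ch_heat {f f1 f2 : ℝ → ℝ} {C : ℝ} (hf : Sm f f1 f2 C) {v w : ℝ} {L : List (ℝ × ℝ)}
    {a : ℝ} (h : Ad a ((v, w) :: L)) (x : ℝ) :
    ch2 f f1 f2 a ((v, w) :: L) x + a * ch1 f f1 a ((v, w) :: L) x ^ 2 =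
      tE a v (ch f (a + w) L)
        (fun y => ch2 f f1 f2 (a + w) L y + a * ch1 f f1 (a + w) L y ^ 2) x :=
  g2_add (ch_sm hf L (a + w) h.2.2.2) a v x

/-- the directional derivative of the recursion -/
def DG (f f1 f2 : ℝ → ℝ) : ℝ → List (ℝ × ℝ × ℝ) → ℝ → ℝ
  | _, [] => fun _ => 0
  | a, (v, w, δ) :: L => tE a v (ch f (a + w) (L.map pr))
      (fun y => DG f f1 f2 (a + w) L y + 1 / 2 * δ * (ch2 f f1 f2 (a + w) (L.map pr) y +
        a * ch1 f f1 (a + w) (L.map pr) y ^ 2))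

theorem DG_BC {f f1 f2 : ℝ → ℝ} {C : ℝ} (hf : Sm f f1 f2 C) :
    ∀ (L : List (ℝ × ℝ × ℝ)) (a : ℝ), Ad a (L.map pr) → ∃ K, BC (DG f f1 f2 a L) K
  | [], _, _ => ⟨_, BC.const 0⟩
  | (v, w, δ) :: L, a, h => by
      obtain ⟨K, hK⟩ := DG_BC hf L (a + w) h.2.2.2
      have hS := ch_sm hf (L.map pr) (a + w) h.2.2.2
      exact ⟨_, tE_BC hS.lip a v (hK.add ((hS.B2.add ((hS.B1.pow 2).const_mul a)).const_mul _))⟩

/-- the moved lists stay admissible -/
theorem ad_sh : ∀ (L : List (ℝ × ℝ × ℝ)) (a : ℝ), Ad a (L.map pr) →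
    (∀ q ∈ L, 0 ≤ q.1 + q.2.2) → ∀ t, 0 ≤ t → t ≤ 1 → Ad a (L.map (sh t))
  | [], _, h, _, _, _, _ => h
  | (v, w, δ) :: L, a, h, h1, t, ht, ht1 => by
      refine ⟨h.1, ?_, h.2.2.1, ad_sh L (a + w) h.2.2.2
        (fun q hq => h1 q (List.mem_cons_of_mem _ hq)) t ht ht1⟩
      have h2 : 0 ≤ v + δ := h1 (v, w, δ) List.mem_cons_self
      have h3 : 0 ≤ v := h.2.1
      show 0 ≤ v + t * δ
      nlinarith

/-- Lipschitz constant of the path -/
def Kb (C : ℝ) : ℝ → List (ℝ × ℝ × ℝ) → ℝ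
  | _, [] => 0
  | a, (_, w, δ) :: L => Kb C (a + w) L + |δ| * (1 / 2 * (Cb C (a + w) (L.map pr) + |a| * 1 ^ 2))

/-- **directional derivative of the recursion at `t = 0+`** -/
theorem ch_path {f f1 f2 : ℝ → ℝ} {C : ℝ} (hf : Sm f f1 f2 C) :
    ∀ (L : List (ℝ × ℝ × ℝ)) (a : ℝ), Ad a (L.map pr) → (∀ q ∈ L, 0 ≤ q.1 + q.2.2) →
    (∀ t, 0 ≤ t → t ≤ 1 → ∀ y, |ch f a (L.map (sh t)) y - ch f a (L.map (sh 0)) y| ≤
      Kb C a L * t) ∧
    CC (fun t => ch f a (L.map (sh t))) (DG f f1 f2 a L)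
  | [], a, _, _ => by
      refine ⟨fun t _ _ y => by simp [ch, Kb], ?_⟩
      intro t y y0 _ _ _
      simp [DG, ch]
  | (v, w, δ) :: L, a, h, h1 => by
      have h1' : ∀ q ∈ L, 0 ≤ q.1 + q.2.2 := fun q hq => h1 q (List.mem_cons_of_mem _ hq)
      obtain ⟨hK, hcc⟩ := ch_path hf L (a + w) h.2.2.2 h1'
      have hadm := ad_sh L (a + w) h.2.2.2 h1'
      have hlip : ∀ t, 0 ≤ t → t ≤ 1 → Lip1 (ch f (a + w) (L.map (sh t))) :=
        fun t ht ht1 => (ch_sm hf _ _ (hadm t ht ht1)).lip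
      have hS0 := ch_sm hf (L.map pr) (a + w) h.2.2.2
      have hv : 0 ≤ v := h.2.1
      have hv' : 0 ≤ v + δ := h1 (v, w, δ) List.mem_cons_self
      have hS : Sm (ch f (a + w) (L.map (sh 0))) (ch1 f f1 (a + w) (L.map pr))
          (ch2 f f1 f2 (a + w) (L.map pr)) (Cb C (a + w) (L.map pr)) := by
        rw [sh_zero]; exact hS0
      obtain ⟨KW, hKW⟩ := DG_BC hf L (a + w) h.2.2.2
      constructor
      · intro t ht ht1 y
        show |gaussOp a (v + t * δ) (ch f (a + w) (L.map (sh t))) y -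
          gaussOp a (v + 0 * δ) (ch f (a + w) (L.map (sh 0))) y| ≤ _
        rw [zero_mul, add_zero]
        have b1 := gaussOp_abs_sub_le h.1 (hlip t ht ht1) (hlip 0 le_rfl zero_le_one)
          (v + t * δ) y (hK t ht ht1)
        have hvt : 0 ≤ v + t * δ := by nlinarith
        obtain ⟨ξ, _, _, hξ⟩ := gaussOp_mvt hS a hv hvt y
        have hB : BC (fun y => ch2 f f1 f2 (a + w) (L.map pr) y + a *
            ch1 f f1 (a + w) (L.map pr) y ^ 2)
            (Cb C (a + w) (L.map pr) + |a| * 1 ^ 2) :=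
          hS.B2.add ((hS.B1.pow 2).const_mul a)
        have b2 : |gaussOp a (v + t * δ) (ch f (a + w) (L.map (sh 0))) y -
            gaussOp a v (ch f (a + w) (L.map (sh 0))) y| ≤
            |δ| * (1 / 2 * (Cb C (a + w) (L.map pr) + |a| * 1 ^ 2)) * t := by
          rw [hξ, abs_mul, abs_mul, add_sub_cancel_left, abs_mul, abs_of_nonneg ht,
            abs_of_pos (by norm_num : (0 : ℝ) < 1 / 2)]
          have b3 := tE_abs_le hS.lip a ξ hB y
          have b4 : 0 ≤ t * |δ| := by positivity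
          calc t * |δ| * (1 / 2 * |tE a ξ (ch f (a + w) (L.map (sh 0))) (fun y =>
                ch2 f f1 f2 (a + w) (L.map pr) y + a * ch1 f f1 (a + w) (L.map pr) y ^ 2) y|)
              ≤ t * |δ| * (1 / 2 * (Cb C (a + w) (L.map pr) + |a| * 1 ^ 2)) := by
                refine mul_le_mul_of_nonneg_left ?_ b4
                linarith
            _ = _ := by ring
        have := abs_sub_le (gaussOp a (v + t * δ) (ch f (a + w) (L.map (sh t))) y)
          (gaussOp a (v + t * δ) (ch f (a + w) (L.map (sh 0))) y)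
          (gaussOp a v (ch f (a + w) (L.map (sh 0))) y)
        show _ ≤ (Kb C (a + w) L + |δ| * (1 / 2 * (Cb C (a + w) (L.map pr) + |a| * 1 ^ 2))) * t
        linarith
      · have hstep := path_step (F := fun t => ch f (a + w) (L.map (sh t))) h.1 hS hlip hK hKW
          hcc hv hv'
        have e : (fun x => tE a v (ch f (a + w) (L.map (sh 0))) (fun y =>
            DG f f1 f2 (a + w) L y + 1 / 2 * δ *
              (ch2 f f1 f2 (a + w) (L.map pr) y + a * ch1 f f1 (a + w) (L.map pr) y ^ 2)) x) =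
            DG f f1 f2 a ((v, w, δ) :: L) := by
          rw [sh_zero]
          rfl
        rw [e] at hstep
        exact hstep

/-! ### bounds of the directional derivative -/

/-- `Σ_l w_l (Σ_{i ≥ l} δ_i)` -/
def Bs : List (ℝ × ℝ × ℝ) → ℝ
  | [] => 0
  | (_, w, _) :: L => w * dsum L + Bs L

/-- all tails of the weighted sums are nonnegative -/
def Good : List (ℝ × ℝ × ℝ) → Prop
  | [] => True
  | (_, w, _) :: L => 0 ≤ w * dsum L + Bs L ∧ Good L

/-- `Σ_l w_l |Σ_{i ≥ l} δ_i|` -/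
def As : List (ℝ × ℝ × ℝ) → ℝ
  | [] => 0
  | (_, w, _) :: L => w * |dsum L| + As L

theorem dsum_cons (v w δ : ℝ) (L : List (ℝ × ℝ × ℝ)) : dsum ((v, w, δ) :: L) = δ + dsum L := by
  simp [dsum]

theorem dsum_nil : dsum ([] : List (ℝ × ℝ × ℝ)) = 0 := by simp [dsum]

theorem DG_ge {f f1 f2 : ℝ → ℝ} {C : ℝ} (hf : Sm f f1 f2 C) :
    ∀ (L : List (ℝ × ℝ × ℝ)) (a : ℝ), Ad a (L.map pr) → Good L → ∀ x,
    1 / 2 * dsum L * (ch2 f f1 f2 a (L.map pr) x + a * ch1 f f1 a (L.map pr) x ^ 2) +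
      1 / 2 * Bs L * ch1 f f1 a (L.map pr) x ^ 2 ≤ DG f f1 f2 a L x
  | [], a, _, _, x => by simp [DG, dsum, Bs]
  | (v, w, δ) :: L, a, h, hg, x => by
      have ih := DG_ge hf L (a + w) h.2.2.2 hg.2
      have hS := ch_sm hf (L.map pr) (a + w) h.2.2.2
      obtain ⟨K, hK⟩ := DG_BC hf L (a + w) h.2.2.2
      have hheat := ch_heat hf (v := v) (w := w) (L := L.map pr) (a := a) h x
      set c1 : ℝ → ℝ := ch1 f f1 (a + w) (L.map pr) with hc1
      set c2 : ℝ → ℝ := ch2 f f1 f2 (a + w) (L.map pr) with hc2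
      have hQ : BC (fun y => c2 y + a * c1 y ^ 2) (Cb C (a + w) (L.map pr) + |a| * 1 ^ 2) :=
        hS.B2.add ((hS.B1.pow 2).const_mul a)
      have m1 : tE a v (ch f (a + w) (L.map pr)) (fun y =>
          1 / 2 * (dsum L + δ) * (c2 y + a * c1 y ^ 2) +
          1 / 2 * (w * dsum L + Bs L) * c1 y ^ 2) x ≤
          tE a v (ch f (a + w) (L.map pr)) (fun y => DG f f1 f2 (a + w) L y + 1 / 2 * δ *
            (c2 y + a * c1 y ^ 2)) x := by
        refine tE_mono hS.lip a v ((hQ.eg.const_mul _).add ((hS.B1.eg.pow 2).const_mul _))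
          (hK.eg.add (hQ.eg.const_mul _)) (fun y => ?_) x
        have := ih y
        nlinarith [this]
      have m2 : tE a v (ch f (a + w) (L.map pr)) (fun y =>
          1 / 2 * (dsum L + δ) * (c2 y + a * c1 y ^ 2) +
          1 / 2 * (w * dsum L + Bs L) * c1 y ^ 2) x =
          1 / 2 * (dsum L + δ) * tE a v (ch f (a + w) (L.map pr))
            (fun y => c2 y + a * c1 y ^ 2) x +
          1 / 2 * (w * dsum L + Bs L) * tE a v (ch f (a + w) (L.map pr)) (fun y => c1 y ^ 2) x := by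
        rw [tE_add hS.lip a v (hQ.eg.const_mul _) ((hS.B1.eg.pow 2).const_mul _), tE_const_mul,
          tE_const_mul]
      have m3 := tE_sq_le hS.lip a v hS.B1.eg x
      have m4 : 1 / 2 * (w * dsum L + Bs L) * (tE a v (ch f (a + w) (L.map pr)) c1 x) ^ 2 ≤
          1 / 2 * (w * dsum L + Bs L) * tE a v (ch f (a + w) (L.map pr)) (fun y => c1 y ^ 2) x :=
        mul_le_mul_of_nonneg_left m3 (by have := hg.1; linarith)
      rw [m2, ← hheat] at m1
      show 1 / 2 * dsum ((v, w, δ) :: L) * (ch2 f f1 f2 a ((v, w) :: L.map pr) x +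
          a * ch1 f f1 a ((v, w) :: L.map pr) x ^ 2) +
        1 / 2 * (w * dsum L + Bs L) * (tE a v (ch f (a + w) (L.map pr)) c1 x) ^ 2 ≤
          tE a v (ch f (a + w) (L.map pr)) (fun y => DG f f1 f2 (a + w) L y + 1 / 2 * δ *
            (c2 y + a * c1 y ^ 2)) x
      rw [dsum_cons, add_comm δ]
      linarith

theorem As_nonneg : ∀ (L : List (ℝ × ℝ × ℝ)), (∀ q ∈ L, 0 ≤ q.2.1) → 0 ≤ As L
  | [], _ => le_rfl
  | (v, w, δ) :: L, h => by
      have h1 : 0 ≤ w := h (v, w, δ) List.mem_cons_self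
      have h2 := As_nonneg L fun q hq => h q (List.mem_cons_of_mem _ hq)
      show 0 ≤ w * |dsum L| + As L
      positivity

theorem DG_abs {f f1 f2 : ℝ → ℝ} {C : ℝ} (hf : Sm f f1 f2 C) :
    ∀ (L : List (ℝ × ℝ × ℝ)) (a : ℝ), Ad a (L.map pr) → ∀ x,
    |DG f f1 f2 a L x - 1 / 2 * dsum L * (ch2 f f1 f2 a (L.map pr) x +
      a * ch1 f f1 a (L.map pr) x ^ 2)| ≤ 1 / 2 * As L
  | [], a, _, x => by simp [DG, dsum, As]
  | (v, w, δ) :: L, a, h, x => by
      have ih := DG_abs hf L (a + w) h.2.2.2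
      have hS := ch_sm hf (L.map pr) (a + w) h.2.2.2
      obtain ⟨K, hK⟩ := DG_BC hf L (a + w) h.2.2.2
      have hheat := ch_heat hf (v := v) (w := w) (L := L.map pr) (a := a) h x
      set c1 : ℝ → ℝ := ch1 f f1 (a + w) (L.map pr) with hc1
      set c2 : ℝ → ℝ := ch2 f f1 f2 (a + w) (L.map pr) with hc2
      have hQ : BC (fun y => c2 y + a * c1 y ^ 2) (Cb C (a + w) (L.map pr) + |a| * 1 ^ 2) :=
        hS.B2.add ((hS.B1.pow 2).const_mul a)
      have hw : 0 ≤ w := h.2.2.1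
      have hBC : BC (fun y => (DG f f1 f2 (a + w) L y + 1 / 2 * δ * (c2 y + a * c1 y ^ 2)) -
          1 / 2 * (dsum L + δ) * (c2 y + a * c1 y ^ 2)) (1 / 2 * (w * |dsum L| + As L)) := by
        refine ⟨(hK.cont.add (hQ.cont.const_mul _)).sub (hQ.cont.const_mul _), fun y => ?_⟩
        have e : (DG f f1 f2 (a + w) L y + 1 / 2 * δ * (c2 y + a * c1 y ^ 2)) -
            1 / 2 * (dsum L + δ) * (c2 y + a * c1 y ^ 2) =
            (DG f f1 f2 (a + w) L y - 1 / 2 * dsum L * (c2 y + (a + w) * c1 y ^ 2)) +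
            1 / 2 * w * dsum L * c1 y ^ 2 := by ring
        rw [e]
        refine (abs_add_le _ _).trans ?_
        have h1 := ih y
        have h2 : |1 / 2 * w * dsum L * c1 y ^ 2| ≤ 1 / 2 * (w * |dsum L|) := by
          rw [abs_mul, abs_mul, abs_mul, abs_of_nonneg hw,
            abs_of_pos (by norm_num : (0 : ℝ) < 1 / 2), abs_of_nonneg (sq_nonneg (c1 y))]
          have h3 : c1 y ^ 2 ≤ 1 := by
            have := hS.b1 y
            rw [← sq_abs]
            exact pow_le_one₀ (abs_nonneg _) this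
          have h4 : 0 ≤ 1 / 2 * w * |dsum L| := by positivity
          calc 1 / 2 * w * |dsum L| * c1 y ^ 2 ≤ 1 / 2 * w * |dsum L| * 1 :=
                mul_le_mul_of_nonneg_left h3 h4
            _ = _ := by ring
        linarith
      have m1 := tE_abs_le hS.lip a v hBC x
      have m2 : tE a v (ch f (a + w) (L.map pr)) (fun y =>
          (DG f f1 f2 (a + w) L y + 1 / 2 * δ * (c2 y + a * c1 y ^ 2)) -
          1 / 2 * (dsum L + δ) * (c2 y + a * c1 y ^ 2)) x =
          tE a v (ch f (a + w) (L.map pr)) (fun y => DG f f1 f2 (a + w) L y + 1 / 2 * δ *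
            (c2 y + a * c1 y ^ 2)) x - 1 / 2 * (dsum L + δ) *
          tE a v (ch f (a + w) (L.map pr)) (fun y => c2 y + a * c1 y ^ 2) x := by
        rw [tE_sub hS.lip a v (hK.eg.add (hQ.eg.const_mul _)) (hQ.eg.const_mul _), tE_const_mul]
      rw [m2, ← hheat] at m1
      show |tE a v (ch f (a + w) (L.map pr)) (fun y => DG f f1 f2 (a + w) L y + 1 / 2 * δ *
            (c2 y + a * c1 y ^ 2)) x - 1 / 2 * dsum ((v, w, δ) :: L) *
            (ch2 f f1 f2 a ((v, w) :: L.map pr) x + a * ch1 f f1 a ((v, w) :: L.map pr) x ^ 2)| ≤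
          1 / 2 * (w * |dsum L| + As L)
      rw [dsum_cons, add_comm δ]
      exact m1

/-! ### along the segment -/

/-- the list of directions based at time `t0` of the segment -/
def seg (t0 : ℝ) (q : ℝ × ℝ × ℝ) : ℝ × ℝ × ℝ := (q.1 + t0 * q.2.2, q.2.1, (1 - t0) * q.2.2)

theorem sh_seg (t0 s : ℝ) (q : ℝ × ℝ × ℝ) : sh s (seg t0 q) = sh (t0 + s * (1 - t0)) q := by
  simp only [sh, seg, Prod.mk.injEq, and_true]
  ring

theorem pr_seg (t0 : ℝ) (q : ℝ × ℝ × ℝ) : pr (seg t0 q) = sh t0 q := rfl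

theorem map_sh_seg (t0 s : ℝ) (L : List (ℝ × ℝ × ℝ)) :
    (L.map (seg t0)).map (sh s) = L.map (sh (t0 + s * (1 - t0))) := by
  rw [List.map_map]
  exact List.map_congr_left fun q _ => sh_seg t0 s q

theorem map_pr_seg (t0 : ℝ) (L : List (ℝ × ℝ × ℝ)) :
    (L.map (seg t0)).map pr = L.map (sh t0) := by
  rw [List.map_map]
  rfl

theorem dsum_seg (t0 : ℝ) : ∀ L : List (ℝ × ℝ × ℝ), dsum (L.map (seg t0)) = (1 - t0) * dsum L
  | [] => by simp [dsum]
  | (v, w, δ) :: L => by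
      have := dsum_seg t0 L
      rw [List.map_cons]
      show dsum ((_, _, (1 - t0) * δ) :: L.map (seg t0)) = _
      rw [dsum_cons, dsum_cons, this]
      ring

theorem Bs_seg (t0 : ℝ) : ∀ L : List (ℝ × ℝ × ℝ), Bs (L.map (seg t0)) = (1 - t0) * Bs L
  | [] => by simp [Bs]
  | (v, w, δ) :: L => by
      have := Bs_seg t0 L
      rw [List.map_cons]
      show w * dsum (L.map (seg t0)) + Bs (L.map (seg t0)) = (1 - t0) * (w * dsum L + Bs L)
      rw [dsum_seg, this]
      ring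

theorem As_seg {t0 : ℝ} (h : t0 ≤ 1) :
    ∀ L : List (ℝ × ℝ × ℝ), As (L.map (seg t0)) = (1 - t0) * As L
  | [] => by simp [As]
  | (v, w, δ) :: L => by
      have := As_seg h L
      rw [List.map_cons]
      show w * |dsum (L.map (seg t0))| + As (L.map (seg t0)) = (1 - t0) * (w * |dsum L| + As L)
      rw [dsum_seg, this, abs_mul, abs_of_nonneg (by linarith : (0 : ℝ) ≤ 1 - t0)]
      ring

theorem Good_seg {t0 : ℝ} (h : t0 ≤ 1) :
    ∀ L : List (ℝ × ℝ × ℝ), Good L → Good (L.map (seg t0))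
  | [], _ => trivial
  | (v, w, δ) :: L, hg => by
      have ih := Good_seg h L hg.2
      rw [List.map_cons]
      refine ⟨?_, ih⟩
      rw [dsum_seg, Bs_seg]
      have := mul_nonneg (by linarith : (0 : ℝ) ≤ 1 - t0) hg.1
      linarith

theorem Cb_nonneg {C : ℝ} (hC : 0 ≤ C) : ∀ (L : List (ℝ × ℝ)) (a : ℝ), Ad a L → 0 ≤ Cb C a L
  | [], _, _ => hC
  | (v, w) :: L, a, h => add_nonneg (Cb_nonneg hC L (a + w) h.2.2.2) h.1

theorem Cb_congr {C : ℝ} : ∀ (L : List (ℝ × ℝ × ℝ)) (a t : ℝ),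
    Cb C a (L.map (sh t)) = Cb C a (L.map pr)
  | [], _, _ => rfl
  | (v, w, δ) :: L, a, t => by
      have := Cb_congr (C := C) L (a + w) t
      show Cb C (a + w) (L.map (sh t)) + a = Cb C (a + w) (L.map pr) + a
      rw [this]

theorem Kb_seg {C : ℝ} {t0 : ℝ} (h : t0 ≤ 1) : ∀ (L : List (ℝ × ℝ × ℝ)) (a : ℝ),
    Kb C a (L.map (seg t0)) = (1 - t0) * Kb C a L
  | [], a => by simp [Kb]
  | (v, w, δ) :: L, a => by
      have := Kb_seg (C := C) h L (a + w)
      rw [List.map_cons]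
      show Kb C (a + w) (L.map (seg t0)) + |(1 - t0) * δ| *
        (1 / 2 * (Cb C (a + w) ((L.map (seg t0)).map pr) + |a| * 1 ^ 2)) =
        (1 - t0) * (Kb C (a + w) L + |δ| * (1 / 2 * (Cb C (a + w) (L.map pr) + |a| * 1 ^ 2)))
      rw [map_pr_seg, Cb_congr, this, abs_mul, abs_of_nonneg (by linarith : (0 : ℝ) ≤ 1 - t0)]
      ring

section segment

variable {f f1 f2 : ℝ → ℝ} {C : ℝ} (hf : Sm f f1 f2 C) {L : List (ℝ × ℝ × ℝ)} {a : ℝ}
  (hL : Ad a (L.map pr)) (hL1 : ∀ q ∈ L, 0 ≤ q.1 + q.2.2)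

include hf hL hL1

theorem seg_lip {t0 t : ℝ} (h0 : 0 ≤ t0) (h1 : t0 ≤ t) (h2 : t ≤ 1) (x : ℝ) :
    |ch f a (L.map (sh t)) x - ch f a (L.map (sh t0)) x| ≤ Kb C a L * (t - t0) := by
  rcases eq_or_lt_of_le (h1.trans h2) with h3 | h3
  · have : t = t0 := le_antisymm (by linarith) h1
    subst this
    simp
  · have hA : Ad a ((L.map (seg t0)).map pr) := by
      rw [map_pr_seg]; exact ad_sh L a hL hL1 t0 h0 h3.le
    have hA1 : ∀ q ∈ L.map (seg t0), 0 ≤ q.1 + q.2.2 := by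
      intro q hq
      rw [List.mem_map] at hq
      obtain ⟨p, hp, rfl⟩ := hq
      have := hL1 p hp
      show 0 ≤ p.1 + t0 * p.2.2 + (1 - t0) * p.2.2
      linarith
    have hp : 0 < 1 - t0 := by linarith
    have key := (ch_path hf (L.map (seg t0)) a hA hA1).1 ((t - t0) / (1 - t0))
      (div_nonneg (by linarith) hp.le) (by rw [div_le_one hp]; linarith) x
    rw [map_sh_seg, map_sh_seg, Kb_seg h3.le, zero_mul, add_zero,
      div_mul_cancel₀ _ hp.ne'] at key
    have e1 : t0 + (t - t0) = t := by ring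
    have e2 : (1 - t0) * Kb C a L * ((t - t0) / (1 - t0)) = Kb C a L * (t - t0) := by
      field_simp
    rwa [e1, e2] at key

theorem seg_cont (x : ℝ) : ContinuousOn (fun t => ch f a (L.map (sh t)) x) (Icc 0 1) := by
  have h : LipschitzOnWith (Real.toNNReal (Kb C a L)) (fun t => ch f a (L.map (sh t)) x)
      (Icc 0 1) := by
    refine LipschitzOnWith.of_dist_le_mul fun s hs t ht => ?_
    rw [Real.dist_eq, Real.dist_eq]
    have hK : 0 ≤ Kb C a L := by
      have := (abs_nonneg _).trans (seg_lip hf hL hL1 le_rfl zero_le_one le_rfl x)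
      simpa using this
    rw [Real.coe_toNNReal _ hK]
    rcases le_total s t with hst | hst
    · rw [abs_sub_comm, abs_sub_comm s t, abs_of_nonneg (by linarith : 0 ≤ t - s)]
      exact seg_lip hf hL hL1 hs.1 hst ht.2 x
    · rw [abs_of_nonneg (by linarith : 0 ≤ s - t)]
      exact seg_lip hf hL hL1 ht.1 hst hs.2 x
  exact h.continuousOn

theorem seg_deriv {t0 : ℝ} (h0 : 0 ≤ t0) (h1 : t0 < 1) (x : ℝ) :
    Tendsto (fun n : ℕ => (ch f a (L.map (sh (t0 + 1 / ((n : ℝ) + 1) * (1 - t0)))) x -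
      ch f a (L.map (sh t0)) x) / (1 / ((n : ℝ) + 1))) atTop
      (𝓝 (DG f f1 f2 a (L.map (seg t0)) x)) := by
  have hA : Ad a ((L.map (seg t0)).map pr) := by
    rw [map_pr_seg]; exact ad_sh L a hL hL1 t0 h0 h1.le
  have hA1 : ∀ q ∈ L.map (seg t0), 0 ≤ q.1 + q.2.2 := by
    intro q hq
    rw [List.mem_map] at hq
    obtain ⟨p, hp, rfl⟩ := hq
    have := hL1 p hp
    show 0 ≤ p.1 + t0 * p.2.2 + (1 - t0) * p.2.2
    linarith
  have key := (ch_path hf (L.map (seg t0)) a hA hA1).2 (fun n : ℕ => 1 / ((n : ℝ) + 1))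
    (fun _ => x) x (fun n => ⟨by positivity, by
      rw [div_le_one (by positivity)]; have := Nat.cast_nonneg (α := ℝ) n; linarith⟩)
    tendsto_one_div_add_atTop_nhds_zero_nat tendsto_const_nhds
  refine key.congr fun n => ?_
  simp only [map_sh_seg, zero_mul, add_zero]

/-- general principle: a bound of the one-sided derivative along the segment -/
theorem seg_le {m : ℝ} (x : ℝ)
    (hm : ∀ t0, 0 ≤ t0 → t0 < 1 → -(DG f f1 f2 a (L.map (seg t0)) x) ≤ m * (1 - t0)) :
    ch f a (L.map (sh 0)) x - m ≤ ch f a (L.map (sh 1)) x := by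
  have key := image_le_of_liminf_slope_right_le_deriv_boundary (a := 0) (b := 1)
    (f := fun t => -(ch f a (L.map (sh t)) x)) (seg_cont hf hL hL1 x).neg
    (B := fun t => -(ch f a (L.map (sh 0)) x) + m * t) (B' := fun _ => m) (by simp)
    (by fun_prop)
    (fun t _ => by
      have := ((hasDerivAt_id t).const_mul m).const_add (-(ch f a (L.map (sh 0)) x))
      simpa using this.hasDerivWithinAt)
    (fun t ht r hr => by
      have h1 := seg_deriv hf hL hL1 ht.1 ht.2 x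
      have hp : 0 < 1 - t := by have := ht.2; linarith
      -- the slopes
      set z : ℕ → ℝ := fun n => t + 1 / ((n : ℝ) + 1) * (1 - t) with hz
      have hz0 : Tendsto z atTop (𝓝[>] t) := by
        refine tendsto_nhdsWithin_iff.2 ⟨?_, Eventually.of_forall fun n => ?_⟩
        · have := (tendsto_one_div_add_atTop_nhds_zero_nat (𝕜 := ℝ)).mul_const (1 - t)
          have := this.const_add t
          simpa [hz] using this
        · show t < t + 1 / ((n : ℝ) + 1) * (1 - t)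
          have : 0 < 1 / ((n : ℝ) + 1) * (1 - t) := by positivity
          linarith
      have hsl : Tendsto (fun n => slope (fun t => -(ch f a (L.map (sh t)) x)) t (z n)) atTop
          (𝓝 (-(DG f f1 f2 a (L.map (seg t)) x) / (1 - t))) := by
        have h2 := (h1.neg).div_const (1 - t)
        refine h2.congr fun n => ?_
        rw [slope_def_field]
        have hn : (0 : ℝ) < (n : ℝ) + 1 := by positivity
        have e : z n - t = 1 / ((n : ℝ) + 1) * (1 - t) := by rw [hz]; ring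
        rw [e]
        rw [neg_div', div_div]
        congr 1
        ring
      have hlt : -(DG f f1 f2 a (L.map (seg t)) x) / (1 - t) < r := by
        rw [div_lt_iff₀ hp]
        have := hm t ht.1 ht.2
        have h3 := mul_lt_mul_of_pos_right hr hp
        linarith
      have hev : ∀ᶠ n in atTop, slope (fun t => -(ch f a (L.map (sh t)) x)) t (z n) < r :=
        hsl.eventually_lt_const hlt
      exact hz0.frequently hev.frequently)
  have := key (right_mem_Icc.2 zero_le_one)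
  simp only [mul_one] at this
  linarith

/-- **monotonicity** -/
theorem ch_mono (hd : dsum L = 0) (hg : Good L) (hB : 0 ≤ Bs L) (x : ℝ) :
    ch f a (L.map (sh 0)) x ≤ ch f a (L.map (sh 1)) x := by
  have := seg_le hf hL hL1 (m := 0) x (fun t0 h0 h1 => by
    have hA : Ad a ((L.map (seg t0)).map pr) := by
      rw [map_pr_seg]; exact ad_sh L a hL hL1 t0 h0 h1.le
    have h2 := DG_ge hf (L.map (seg t0)) a hA (Good_seg h1.le L hg) x
    rw [dsum_seg, hd, Bs_seg] at h2
    have h3 : 0 ≤ (1 - t0) * Bs L := mul_nonneg (by linarith) hB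
    have h4 := mul_nonneg h3 (sq_nonneg (ch1 f f1 a ((L.map (seg t0)).map pr) x))
    linarith)
  linarith

/-- **Lipschitz bound** -/
theorem ch_lip_ge (hd : dsum L = 0) (x : ℝ) :
    ch f a (L.map (sh 0)) x - 1 / 2 * As L ≤ ch f a (L.map (sh 1)) x := by
  refine seg_le hf hL hL1 x fun t0 h0 h1 => ?_
  have hA : Ad a ((L.map (seg t0)).map pr) := by
    rw [map_pr_seg]; exact ad_sh L a hL hL1 t0 h0 h1.le
  have h2 := DG_abs hf (L.map (seg t0)) a hA x
  rw [dsum_seg, hd, As_seg h1.le] at h2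
  have h3 := (abs_le.1 h2).1
  linarith

end segment

end

end Crest.Agent.R146.MonA_422
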