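import Crest.Agent.R146.MonA_422
import Crest.Agent.R146.S6Def_988

/-!
Row 146, node MON (task 24), part B: smoothing of Lipschitz functions, link with `recV` / `Th`,
final statements (M1), (M2), (M5) (helper422).
-/

set_option autoImplicit false

namespace Crest.Agent.R146.MonB_422

open MeasureTheory ProbabilityTheory Filter Topology Set
open Crest.ProbabilityR.InvariantGlass Crest.Agent.R164.GC
open Crest.Agent.R146.MonA_422 Crest.Agent.R146.S6Def_988

noncomputable section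

/-! ### smoothing by moving averages -/

/-- moving average -/
def mv (h : ℝ) (f : ℝ → ℝ) (x : ℝ) : ℝ := h⁻¹ * ∫ y in x..(x + h), f y

theorem mv_deriv {h : ℝ} {f : ℝ → ℝ} (hf : Continuous f) (x : ℝ) :
    HasDerivAt (mv h f) (h⁻¹ * (f (x + h) - f x)) x := by
  have hi : ∀ a b : ℝ, IntervalIntegrable f volume a b := fun a b => hf.intervalIntegrable a b
  have h1 : HasDerivAt (fun x => ∫ y in (0 : ℝ)..x, f y) (f x) x :=
    intervalIntegral.integral_hasDerivAt_right (hi _ _)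
      (hf.stronglyMeasurableAtFilter _ _) hf.continuousAt
  have h2 : HasDerivAt (fun x => ∫ y in (0 : ℝ)..(x + h), f y) (f (x + h)) x := by
    have h3 : HasDerivAt (fun x => ∫ y in (0 : ℝ)..x, f y) (f (x + h)) (x + h) :=
      intervalIntegral.integral_hasDerivAt_right (hi _ _)
        (hf.stronglyMeasurableAtFilter _ _) hf.continuousAt
    exact h3.comp_add_const x h
  have h4 := (h2.sub h1).const_mul h⁻¹
  refine h4.congr_of_eventuallyEq (Eventually.of_forall fun z => ?_)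
  show h⁻¹ * ∫ y in z..(z + h), f y = h⁻¹ * ((∫ y in (0 : ℝ)..(z + h), f y) -
    ∫ y in (0 : ℝ)..z, f y)
  rw [intervalIntegral.integral_interval_sub_left (hi _ _) (hi _ _)]

theorem mv_sub_le {h : ℝ} (hh : 0 < h) {f : ℝ → ℝ} (hf : Continuous f) {c : ℝ} (x z : ℝ)
    (hc : ∀ y ∈ Icc x (x + h), |f y - z| ≤ c) : |mv h f x - z| ≤ c := by
  have hi : ∀ a b : ℝ, IntervalIntegrable f volume a b := fun a b => hf.intervalIntegrable a b
  have e : mv h f x - z = h⁻¹ * ∫ y in x..(x + h), (f y - z) := by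
    rw [intervalIntegral.integral_sub (hi _ _) (by simp), intervalIntegral.integral_const,
      smul_eq_mul, add_sub_cancel_left]
    unfold mv
    field_simp
  rw [e, abs_mul, abs_of_pos (inv_pos.2 hh)]
  have h1 : ‖∫ y in x..(x + h), (f y - z)‖ ≤ c * |x + h - x| := by
    refine intervalIntegral.norm_integral_le_of_norm_le_const fun y hy => ?_
    rw [uIoc_of_le (by linarith)] at hy
    exact hc y ⟨hy.1.le, hy.2⟩
  rw [Real.norm_eq_abs, add_sub_cancel_left, abs_of_pos hh] at h1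
  calc h⁻¹ * |∫ y in x..(x + h), (f y - z)| ≤ h⁻¹ * (c * h) :=
        mul_le_mul_of_nonneg_left h1 (inv_pos.2 hh).le
    _ = c := by field_simp

theorem mv_cont {h : ℝ} {f : ℝ → ℝ} (hf : Continuous f) : Continuous (mv h f) :=
  continuous_iff_continuousAt.2 fun x => (mv_deriv hf x).continuousAt

/-- smoothing of a 1-Lipschitz function -/
theorem smooth1 {f : ℝ → ℝ} (hf : ∀ x y, |f x - f y| ≤ |x - y|) {η : ℝ} (hη : 0 < η) :
    ∃ g g1 g2 : ℝ → ℝ, ∃ C : ℝ, Sm g g1 g2 C ∧ ∀ x, |g x - f x| ≤ η := by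
  have hfc : Continuous f := by
    have : LipschitzWith 1 f := LipschitzWith.of_dist_le_mul fun x y => by
      rw [Real.dist_eq, Real.dist_eq, NNReal.coe_one, one_mul]; exact hf x y
    exact this.continuous
  set h : ℝ := η / 2 with hh
  have hpos : 0 < h := by positivity
  set u : ℝ → ℝ := mv h f with hu
  have huc : Continuous u := mv_cont hfc
  have hud : ∀ x, HasDerivAt u (h⁻¹ * (f (x + h) - f x)) x := mv_deriv hfc
  have hu1 : ∀ x, |h⁻¹ * (f (x + h) - f x)| ≤ 1 := by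
    intro x
    rw [abs_mul, abs_of_pos (inv_pos.2 hpos)]
    have h1 := hf (x + h) x
    rw [add_sub_cancel_left, abs_of_pos hpos] at h1
    calc h⁻¹ * |f (x + h) - f x| ≤ h⁻¹ * h := mul_le_mul_of_nonneg_left h1 (inv_pos.2 hpos).le
      _ = 1 := by field_simp
  have hul : ∀ x y, |u x - u y| ≤ |x - y| := by
    intro x y
    have h1 := Convex.norm_image_sub_le_of_norm_hasDerivWithin_le (f := u)
      (f' := fun x => h⁻¹ * (f (x + h) - f x)) (C := 1)
      (s := univ) (fun x _ => (hud x).hasDerivWithinAt) (fun x _ => hu1 x) convex_univ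
      (mem_univ y) (mem_univ x)
    rwa [Real.norm_eq_abs, Real.norm_eq_abs, one_mul] at h1
  refine ⟨mv h u, fun x => h⁻¹ * (u (x + h) - u x),
    fun x => h⁻¹ * (h⁻¹ * (f (x + h + h) - f (x + h)) - h⁻¹ * (f (x + h) - f x)), h⁻¹ * 2,
    ⟨fun x => mv_deriv huc x, fun x => ?_, ?_, fun x => ?_, fun x => ?_⟩, fun x => ?_⟩
  · exact (((hud (x + h)).comp_add_const x h).sub (hud x)).const_mul h⁻¹
  · fun_prop
  · rw [abs_mul, abs_of_pos (inv_pos.2 hpos)]
    have h1 := hul (x + h) x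
    rw [add_sub_cancel_left, abs_of_pos hpos] at h1
    calc h⁻¹ * |u (x + h) - u x| ≤ h⁻¹ * h := mul_le_mul_of_nonneg_left h1 (inv_pos.2 hpos).le
      _ = 1 := by field_simp
  · rw [abs_mul, abs_of_pos (inv_pos.2 hpos)]
    refine mul_le_mul_of_nonneg_left ?_ (inv_pos.2 hpos).le
    refine (abs_sub _ _).trans ?_
    have h1 := hu1 (x + h)
    have h2 := hu1 x
    linarith
  · have h1 : |mv h u x - u x| ≤ h := by
      refine mv_sub_le hpos huc x (u x) fun y hy => ?_
      refine (hul y x).trans ?_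
      rw [abs_of_nonneg (by linarith [hy.1])]
      linarith [hy.2]
    have h2 : |u x - f x| ≤ h := by
      refine mv_sub_le hpos hfc x (f x) fun y hy => ?_
      refine (hf y x).trans ?_
      rw [abs_of_nonneg (by linarith [hy.1])]
      linarith [hy.2]
    have h3 := abs_sub_le (mv h u x) (u x) (f x)
    have h4 : h + h = η := by rw [hh]; ring
    linarith

/-! ### scaling and the link with `recV` -/

theorem gaussOp_scale {c : ℝ} (hc : c ≠ 0) (a v : ℝ) (f : ℝ → ℝ) (x : ℝ) :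
    gaussOp a v (fun y => c * f y) x = c * gaussOp (a * c) v f x := by
  unfold gaussOp
  by_cases ha : a = 0
  · subst ha
    rw [if_pos rfl, if_pos (zero_mul c), integral_const_mul]
  · rw [if_neg ha, if_neg (mul_ne_zero ha hc)]
    have e : ∀ g : ℝ, Real.exp (a * (c * f (x + Real.sqrt v * g))) =
        Real.exp (a * c * f (x + Real.sqrt v * g)) := fun g => by ring_nf
    simp only [e]
    field_simp

/-- the list of cells `i, ..., i + n - 1` -/
def lst (t m : ℕ → ℝ) : ℕ → ℕ → List (ℝ × ℝ)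
  | _, 0 => []
  | i, n + 1 => (t (i + 1) - t i, m (i + 1) - m i) :: lst t m (i + 1) n

/-- the list of directions -/
def lst3 (t t' m : ℕ → ℝ) : ℕ → ℕ → List (ℝ × ℝ × ℝ)
  | _, 0 => []
  | i, n + 1 => (t (i + 1) - t i, m (i + 1) - m i, (t' (i + 1) - t' i) - (t (i + 1) - t i)) ::
      lst3 t t' m (i + 1) n

theorem lst3_pr (t t' m : ℕ → ℝ) : ∀ n i, (lst3 t t' m i n).map pr = lst t m i n
  | 0, _ => rfl
  | n + 1, i => by
      show pr _ :: (lst3 t t' m (i + 1) n).map pr = _ :: _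
      rw [lst3_pr t t' m n (i + 1)]
      rfl

theorem lst3_sh1 (t t' m : ℕ → ℝ) : ∀ n i, (lst3 t t' m i n).map (sh 1) = lst t' m i n
  | 0, _ => rfl
  | n + 1, i => by
      show sh 1 _ :: (lst3 t t' m (i + 1) n).map (sh 1) = _ :: _
      rw [lst3_sh1 t t' m n (i + 1)]
      congr 1
      simp only [sh, Prod.mk.injEq, and_true]
      ring

theorem recV_eq (f : ℝ → ℝ) (t m : ℕ → ℝ) (k : ℕ) : ∀ j, j ≤ k →
    recV f t m k j = ch f (m (k - j)) (lst t m (k - j) j)
  | 0, _ => rfl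
  | j + 1, h => by
      have ih := recV_eq f t m k j (by omega)
      have e1 : k - j = (k - 1 - j) + 1 := by omega
      have e2 : k - (j + 1) = k - 1 - j := by omega
      rw [e2]
      show gaussOp (m (k - 1 - j)) (t (k - j) - t (k - 1 - j)) (recV f t m k j) =
        gaussOp (m (k - 1 - j)) (t (k - 1 - j + 1) - t (k - 1 - j))
          (ch f (m (k - 1 - j) + (m (k - 1 - j + 1) - m (k - 1 - j))) (lst t m (k - 1 - j + 1) j))
      rw [ih, add_sub_cancel, e1]

/-- scaling of the recursion -/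
theorem recV_scale {c : ℝ} (hc : c ≠ 0) (f : ℝ → ℝ) (t m : ℕ → ℝ) (k : ℕ) : ∀ j x,
    recV (fun y => c * f y) t m k j x = c * recV f t (fun i => m i * c) k j x
  | 0, _ => rfl
  | j + 1, x => by
      have ih : recV (fun y => c * f y) t m k j = fun x => c * recV f t (fun i => m i * c) k j x :=
        funext fun x => recV_scale hc f t m k j x
      show gaussOp _ _ (recV (fun y => c * f y) t m k j) x = c * gaussOp _ _ _ x
      rw [ih]
      exact gaussOp_scale hc _ _ _ _

theorem ad_lst {t m : ℕ → ℝ} (ht : Monotone t) (hm : Monotone m) (hm0 : 0 ≤ m 0) :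
    ∀ n i, Ad (m i) (lst t m i n)
  | 0, i => hm0.trans (hm (Nat.zero_le i))
  | n + 1, i => by
      refine ⟨hm0.trans (hm (Nat.zero_le i)), sub_nonneg.2 (ht (Nat.le_succ i)),
        sub_nonneg.2 (hm (Nat.le_succ i)), ?_⟩
      rw [add_sub_cancel]
      exact ad_lst ht hm hm0 n (i + 1)

theorem lst3_nonneg {t t' m : ℕ → ℝ} (ht' : Monotone t') :
    ∀ n i, ∀ q ∈ lst3 t t' m i n, 0 ≤ q.1 + q.2.2
  | 0, _, q, hq => by simp [lst3] at hq
  | n + 1, i, q, hq => by
      rw [lst3, List.mem_cons] at hq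
      rcases hq with rfl | hq
      · have := ht' (Nat.le_succ i)
        show 0 ≤ t (i + 1) - t i + ((t' (i + 1) - t' i) - (t (i + 1) - t i))
        linarith
      · exact lst3_nonneg ht' n (i + 1) q hq

theorem dsum_lst3 (t t' m : ℕ → ℝ) : ∀ n i, dsum (lst3 t t' m i n) =
    (t' (i + n) - t (i + n)) - (t' i - t i)
  | 0, i => by simp [lst3, dsum]
  | n + 1, i => by
      rw [lst3, dsum_cons, dsum_lst3 t t' m n (i + 1)]
      have : i + 1 + n = i + (n + 1) := by omega
      rw [this]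
      ring

theorem Bs_lst3 {t t' m : ℕ → ℝ} : ∀ n i, t' (i + n) = t (i + n) →
    Bs (lst3 t t' m i n) = ∑ l ∈ Finset.Ico i (i + n), (m (l + 1) - m l) * (t (l + 1) - t' (l + 1))
  | 0, i, _ => by simp [lst3, Bs]
  | n + 1, i, h => by
      have e : i + (n + 1) = i + 1 + n := by omega
      rw [e] at h ⊢
      rw [lst3, Bs, Bs_lst3 n (i + 1) h, dsum_lst3, h, sub_self, zero_sub,
        Finset.sum_eq_sum_Ico_succ_bot (by omega : i < i + 1 + n)]
      ring

theorem good_lst3 {t t' m : ℕ → ℝ} : ∀ n i, t' (i + n) = t (i + n) →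
    (∀ k, i ≤ k → k ≤ i + n → 0 ≤ Bs (lst3 t t' m k (i + n - k))) → Good (lst3 t t' m i n)
  | 0, i, _, _ => trivial
  | n + 1, i, h, hB => by
      have e : i + (n + 1) = i + 1 + n := by omega
      refine ⟨?_, good_lst3 n (i + 1) (by rw [← e]; exact h) fun k h1 h2 => ?_⟩
      · have := hB i le_rfl (by omega)
        have e2 : i + (n + 1) - i = n + 1 := by omega
        rw [e2] at this
        exact this
      · have := hB k (by omega) (by omega)
        rwa [e] at this

theorem As_lst3 {t t' m : ℕ → ℝ} : ∀ n i, t' (i + n) = t (i + n) →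
    As (lst3 t t' m i n) = ∑ l ∈ Finset.Ico i (i + n), (m (l + 1) - m l) * |t (l + 1) - t' (l + 1)|
  | 0, i, _ => by simp [lst3, As]
  | n + 1, i, h => by
      have e : i + (n + 1) = i + 1 + n := by omega
      rw [e] at h ⊢
      rw [lst3, As, As_lst3 n (i + 1) h, dsum_lst3, h, sub_self, zero_sub,
        Finset.sum_eq_sum_Ico_succ_bot (by omega : i < i + 1 + n), neg_sub]

/-! ### the general statement for `recV` -/

/-- exponents and times -/
structure TM (k : ℕ) (t m : ℕ → ℝ) : Prop where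
  t_mono : Monotone t
  m_mono : Monotone m
  m_nonneg : 0 ≤ m 0

theorem TM.scale {k : ℕ} {t m : ℕ → ℝ} (h : TM k t m) {c : ℝ} (hc : 0 ≤ c) :
    TM k t (fun i => m i * c) :=
  ⟨h.t_mono, fun _ _ hij => mul_le_mul_of_nonneg_right (h.m_mono hij) hc,
    mul_nonneg h.m_nonneg hc⟩

theorem gaussOp_lip1 {a : ℝ} (ha : 0 ≤ a) {f : ℝ → ℝ} (hf : Lip1 f) (v : ℝ) :
    Lip1 (gaussOp a v f) := by
  intro x y
  -- shift
  have hsh : Lip1 (fun z => f (z + (x - y))) := by
    intro p q
    have := hf (p + (x - y)) (q + (x - y))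
    rwa [add_sub_add_right_eq_sub] at this
  have h1 : gaussOp a v f x = gaussOp a v (fun z => f (z + (x - y))) y := by
    unfold gaussOp
    have e : ∀ g : ℝ, x + Real.sqrt v * g = y + Real.sqrt v * g + (x - y) := fun g => by ring
    simp only [e]
  have h2 := gaussOp_abs_sub_le ha hsh hf v y (c := |x - y|) fun z => by
    rw [abs_le]
    have h3 := hf (z + (x - y)) z
    have h4 := hf z (z + (x - y))
    rw [add_sub_cancel_left] at h3
    rw [sub_add_cancel_left, abs_neg] at h4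
    constructor <;> linarith
  rw [h1]
  have := (abs_le.1 h2).2
  linarith

theorem ch_lip1 {f : ℝ → ℝ} (hf : Lip1 f) : ∀ (L : List (ℝ × ℝ)) (a : ℝ), Ad a L →
    Lip1 (ch f a L)
  | [], _, _ => hf
  | (v, w) :: L, a, h => gaussOp_lip1 h.1 (ch_lip1 hf L (a + w) h.2.2.2) v

theorem ch_abs_sub_le {f f' : ℝ → ℝ} (hf : Lip1 f) (hf' : Lip1 f') {c : ℝ}
    (h : ∀ y, |f y - f' y| ≤ c) : ∀ (L : List (ℝ × ℝ)) (a : ℝ), Ad a L → ∀ x,
    |ch f a L x - ch f' a L x| ≤ c
  | [], _, _, x => h x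
  | (v, w) :: L, a, hA, x =>
      gaussOp_abs_sub_le hA.1 (ch_lip1 hf L (a + w) hA.2.2.2) (ch_lip1 hf' L (a + w) hA.2.2.2)
        v x (ch_abs_sub_le hf hf' h L (a + w) hA.2.2.2)

theorem lip1_iff {f : ℝ → ℝ} : Lip1 f ↔ ∀ x y, |f x - f y| ≤ |x - y| := by
  constructor
  · intro h x y
    have h1 := h x y
    have h2 := h y x
    rw [abs_sub_comm] at h2
    rw [abs_le]
    constructor <;> linarith
  · intro h x y
    have := (abs_le.1 (h x y)).2
    linarith

section core

variable {t t' m : ℕ → ℝ} {k : ℕ} {f : ℝ → ℝ}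

theorem ch_mono_lip (ht : TM k t m) (ht' : TM k t' m) (h0 : t' 0 = t 0) (hk : t' k = t k)
    (hf : Lip1 f) (hB : ∀ i, i ≤ k → 0 ≤ ∑ l ∈ Finset.Ico i k,
      (m (l + 1) - m l) * (t (l + 1) - t' (l + 1))) (x : ℝ) :
    ch f (m 0) (lst t m 0 k) x ≤ ch f (m 0) (lst t' m 0 k) x := by
  refine le_of_forall_pos_le_add fun η hη => ?_
  obtain ⟨g, g1, g2, C, hS, hg⟩ := smooth1 (lip1_iff.1 hf) (half_pos hη)
  have hA : Ad (m 0) ((lst3 t t' m 0 k).map pr) := by
    rw [lst3_pr]; exact ad_lst ht.t_mono ht.m_mono ht.m_nonneg k 0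
  have hA' : Ad (m 0) (lst t' m 0 k) := ad_lst ht'.t_mono ht'.m_mono ht'.m_nonneg k 0
  have hk' : t' (0 + k) = t (0 + k) := by rw [zero_add]; exact hk
  have hBs : ∀ i, 0 ≤ i → i ≤ 0 + k → 0 ≤ Bs (lst3 t t' m i (0 + k - i)) := by
    intro i _ hi
    have e : i + (0 + k - i) = k := by omega
    rw [Bs_lst3 _ _ (by rw [e]; exact hk), e]
    exact hB i (by omega)
  have hB0 : 0 ≤ Bs (lst3 t t' m 0 k) := by
    have := hBs 0 le_rfl (Nat.zero_le _)
    rwa [zero_add, Nat.sub_zero] at this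
  have key := ch_mono hS hA (lst3_nonneg ht'.t_mono k 0)
    (by rw [dsum_lst3, hk', h0]; ring) (good_lst3 k 0 hk' hBs) hB0 x
  rw [sh_zero, lst3_pr, lst3_sh1] at key
  have hgl : Lip1 g := hS.lip
  have e1 := ch_abs_sub_le hgl hf hg (lst t m 0 k) (m 0)
    (ad_lst ht.t_mono ht.m_mono ht.m_nonneg k 0) x
  have e2 := ch_abs_sub_le hgl hf hg (lst t' m 0 k) (m 0) hA' x
  have := (abs_le.1 e1).1
  have := (abs_le.1 e2).2
  linarith

theorem ch_lip_lip (ht : TM k t m) (ht' : TM k t' m) (h0 : t' 0 = t 0) (hk : t' k = t k)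
    (hf : Lip1 f) (x : ℝ) :
    ch f (m 0) (lst t m 0 k) x - 1 / 2 * ∑ l ∈ Finset.Ico 0 k,
      (m (l + 1) - m l) * |t (l + 1) - t' (l + 1)| ≤ ch f (m 0) (lst t' m 0 k) x := by
  refine le_of_forall_pos_le_add fun η hη => ?_
  obtain ⟨g, g1, g2, C, hS, hg⟩ := smooth1 (lip1_iff.1 hf) (half_pos hη)
  have hA : Ad (m 0) ((lst3 t t' m 0 k).map pr) := by
    rw [lst3_pr]; exact ad_lst ht.t_mono ht.m_mono ht.m_nonneg k 0
  have hA' : Ad (m 0) (lst t' m 0 k) := ad_lst ht'.t_mono ht'.m_mono ht'.m_nonneg k 0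
  have hk' : t' (0 + k) = t (0 + k) := by rw [zero_add]; exact hk
  have key := ch_lip_ge hS hA (lst3_nonneg ht'.t_mono k 0)
    (by rw [dsum_lst3, hk', h0]; ring) x
  rw [sh_zero, lst3_pr, lst3_sh1, As_lst3 k 0 hk', zero_add] at key
  have hgl : Lip1 g := hS.lip
  have e1 := ch_abs_sub_le hgl hf hg (lst t m 0 k) (m 0)
    (ad_lst ht.t_mono ht.m_mono ht.m_nonneg k 0) x
  have e2 := ch_abs_sub_le hgl hf hg (lst t' m 0 k) (m 0) hA' x
  have := (abs_le.1 e1).1
  have := (abs_le.1 e2).2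
  linarith

end core

end

end Crest.Agent.R146.MonB_422
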