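import Crest.Agent.R146.Mono_930

/-!
Row 146: quantitative form of node (7) of post 308. If `D_{m₁} ≤ D_{m₂} + δ` on `[0,1]` and `f` is
`L`-Lipschitz and bounded above then `V_f(m₁) ≤ V_f(m₂) + L² δ / 2`.

The control `v` for `m₁` is transported by the time change of the remaining mass shifted by `δ`; the last
mass `δ` is lost, and `L |v| ≤ L²/2 + v²/2` on it.
-/

set_option autoImplicit false

namespace Crest.Agent.R146.MonoShift_930

open MeasureTheory Set Crest.ProbabilityR.Perceptron Crest.Agent.R146.Mono_930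

section TimeChange

variable (m₁ m₂ : OverlapProfile) (δ : NNReal)

/-- The set `{s ∈ [0,1] : D₁ s ≤ D₂ (min t 1) + δ}`. -/
def hitSet (t : NNReal) : Set ℝ :=
  {s | s ∈ Icc (0 : ℝ) 1 ∧ m₁.tail s ≤ m₂.tail (min (t : ℝ) 1) + δ}

theorem one_mem_hitSet (t : NNReal) : (1 : ℝ) ∈ hitSet m₁ m₂ δ t := by
  refine ⟨⟨zero_le_one, le_rfl⟩, ?_⟩
  rw [tail_one]
  exact add_nonneg (tail_nonneg m₂ (le_min t.2 zero_le_one) (min_le_right _ _)) δ.2

theorem bddBelow_hitSet (t : NNReal) : BddBelow (hitSet m₁ m₂ δ t) := ⟨0, fun _ hs => hs.1.1⟩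

theorem isClosed_hitSet (t : NNReal) : IsClosed (hitSet m₁ m₂ δ t) :=
  (continuousOn_tail m₁).preimage_isClosed_of_isClosed isClosed_Icc
    (isClosed_Iic (a := m₂.tail (min (t : ℝ) 1) + δ))

/-- The time change (as a real number). -/
noncomputable def tauR (t : NNReal) : ℝ := sInf (hitSet m₁ m₂ δ t)

theorem tauR_mem (t : NNReal) : tauR m₁ m₂ δ t ∈ hitSet m₁ m₂ δ t :=
  (isClosed_hitSet m₁ m₂ δ t).csInf_mem ⟨1, one_mem_hitSet m₁ m₂ δ t⟩ (bddBelow_hitSet m₁ m₂ δ t)

theorem tauR_nonneg (t : NNReal) : 0 ≤ tauR m₁ m₂ δ t := (tauR_mem m₁ m₂ δ t).1.1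

theorem tauR_le_one (t : NNReal) : tauR m₁ m₂ δ t ≤ 1 := (tauR_mem m₁ m₂ δ t).1.2

/-- The time change. -/
noncomputable def tau (t : NNReal) : NNReal := ⟨tauR m₁ m₂ δ t, tauR_nonneg m₁ m₂ δ t⟩

theorem tau_mono : Monotone (tau m₁ m₂ δ) := by
  intro s t hst
  show tauR m₁ m₂ δ s ≤ tauR m₁ m₂ δ t
  refine csInf_le (bddBelow_hitSet m₁ m₂ δ s) ?_
  have h := tauR_mem m₁ m₂ δ t
  refine ⟨h.1, h.2.trans ?_⟩
  have := tail_anti m₂ (le_min s.2 zero_le_one)
    (min_le_min_right (1 : ℝ) (by exact_mod_cast hst : (s : ℝ) ≤ (t : ℝ))) (min_le_right _ _)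
  exact add_le_add this le_rfl

theorem measurable_tau : Measurable (tau m₁ m₂ δ) := (tau_mono m₁ m₂ δ).measurable

theorem tau_le (h : ∀ t ∈ Icc (0 : ℝ) 1, m₁.tail t ≤ m₂.tail t + δ) (t : NNReal) :
    tau m₁ m₂ δ t ≤ t := by
  show tauR m₁ m₂ δ t ≤ (t : ℝ)
  refine (csInf_le (bddBelow_hitSet m₁ m₂ δ t) (?_ : min (t : ℝ) 1 ∈ _)).trans (min_le_left _ _)
  exact ⟨⟨le_min t.2 zero_le_one, min_le_right _ _⟩,
    h _ ⟨le_min t.2 zero_le_one, min_le_right _ _⟩⟩

/-- Galois connection: `τ t ≤ s ↔ D₁ s ≤ D₂ t + δ` for `s, t ∈ [0,1]`. -/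
theorem tauR_le_iff {t : ℝ} (ht : t ∈ Icc (0 : ℝ) 1) {s : ℝ} (hs : s ∈ Icc (0 : ℝ) 1) :
    tauR m₁ m₂ δ (Real.toNNReal t) ≤ s ↔ m₁.tail s ≤ m₂.tail t + δ := by
  have hmin : min ((Real.toNNReal t : NNReal) : ℝ) 1 = t := by
    rw [Real.coe_toNNReal _ ht.1]; exact min_eq_left ht.2
  constructor
  · intro h
    have h1 := (tauR_mem m₁ m₂ δ (Real.toNNReal t)).2
    rw [hmin] at h1
    exact (tail_anti m₁ (tauR_nonneg m₁ m₂ δ _) h hs.2).trans h1
  · intro h
    refine csInf_le (bddBelow_hitSet m₁ m₂ δ _) ⟨hs, ?_⟩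
    rw [hmin]; exact h

/-- The set of times `t ∈ [0,1]` with `D₂ t + δ < D₁ 0`. -/
def goodSet : Set ℝ := {t | t ∈ Icc (0 : ℝ) 1 ∧ m₂.tail t < m₁.tail 0 - δ}

theorem measurableSet_goodSet : MeasurableSet (goodSet m₁ m₂ δ) := measurableSet_lt m₂ _

/-- The set of times `t ∈ [0,1]` with `δ ≤ D₁ t`. -/
def keepSet : Set ℝ := {t | t ∈ Icc (0 : ℝ) 1 ∧ (δ : ℝ) ≤ m₁.tail t}

theorem measurableSet_keepSet : MeasurableSet (keepSet m₁ δ) :=
  ((continuousOn_tail m₁).preimage_isClosed_of_isClosed isClosed_Icc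
    (isClosed_Ici (a := (δ : ℝ)))).measurableSet

theorem massMeasure_univ (m : OverlapProfile) : massMeasure m univ = ENNReal.ofReal (m.tail 0) := by
  have h1 : massMeasure m univ = massMeasure m (Icc (0 : ℝ) 1) := by
    rw [← measure_add_measure_compl (μ := massMeasure m) (measurableSet_Icc (a := (0 : ℝ)) (b := 1)),
      massMeasure_compl, add_zero]
  have h2 : massMeasure m (Icc (0 : ℝ) 1) = massMeasure m (Ioc (0 : ℝ) 1) := by
    refine le_antisymm ?_ (measure_mono Ioc_subset_Icc_self)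
    rw [← Ioc_union_left (zero_le_one' ℝ)]
    refine (measure_union_le _ _).trans ?_
    have : massMeasure m {0} = 0 := by
      rw [massMeasure_apply m (measurableSet_singleton 0)]
      refine le_antisymm ?_ zero_le
      refine (lintegral_mono_set inter_subset_left).trans ?_
      simp
    rw [this, add_zero]
  rw [h1, h2, massMeasure_Ioc m le_rfl zero_le_one]

theorem massMeasure_singleton (m : OverlapProfile) (s : ℝ) : massMeasure m {s} = 0 := by
  rw [massMeasure_apply m (measurableSet_singleton s)]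
  refine le_antisymm ?_ zero_le
  refine (lintegral_mono_set inter_subset_left).trans ?_
  simp

theorem keep_Ioc {s : ℝ} (hs : s ∈ Icc (0 : ℝ) 1) :
    massMeasure m₁ (Ioc s 1 ∩ keepSet m₁ δ) = ENNReal.ofReal (m₁.tail s - δ) := by
  rcases lt_or_ge (m₁.tail s) δ with hlt | hge
  · have : Ioc s 1 ∩ keepSet m₁ δ = ∅ := by
      ext t
      simp only [mem_inter_iff, mem_Ioc, keepSet, mem_ofPred_eq, mem_empty_iff_false, iff_false,
        not_and, not_le]
      rintro ⟨h1, h2⟩ _
      exact (tail_anti m₁ hs.1 h1.le h2).trans_lt hlt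
    rw [this, measure_empty, ENNReal.ofReal_of_nonpos (by linarith)]
  · have hL := massMeasure_lt m₁ (c := (δ : ℝ)) δ.2 (hge.trans (tail_anti m₁ le_rfl hs.1 hs.2))
    have hA := massMeasure_Ioc m₁ hs.1 hs.2
    have hunion : Ioc s 1 = (Ioc s 1 ∩ keepSet m₁ δ) ∪ {t | t ∈ Icc (0 : ℝ) 1 ∧ m₁.tail t < δ} := by
      ext t
      simp only [mem_union, mem_inter_iff, mem_Ioc, keepSet, mem_ofPred_eq]
      constructor
      · rintro ⟨h1, h2⟩
        rcases lt_or_ge (m₁.tail t) δ with h | h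
        · exact Or.inr ⟨⟨hs.1.trans h1.le, h2⟩, h⟩
        · exact Or.inl ⟨⟨h1, h2⟩, ⟨hs.1.trans h1.le, h2⟩, h⟩
      · rintro (h | ⟨h1, h2⟩)
        · exact h.1
        · refine ⟨?_, h1.2⟩
          by_contra hcon
          push Not at hcon
          exact absurd (hge.trans (tail_anti m₁ h1.1 hcon hs.2)) (not_le.2 h2)
    have hdisj : Disjoint (Ioc s 1 ∩ keepSet m₁ δ) {t | t ∈ Icc (0 : ℝ) 1 ∧ m₁.tail t < δ} := by
      rw [Set.disjoint_left]
      rintro t ⟨_, h1⟩ ⟨_, h2⟩
      exact absurd h1.2 (not_le.2 h2)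
    have hm := measure_union hdisj (μ := massMeasure m₁) (measurableSet_lt m₁ δ)
    rw [← hunion, hA, hL] at hm
    rw [ENNReal.ofReal_sub _ (NNReal.coe_nonneg δ), hm]
    exact (ENNReal.add_sub_cancel_right ENNReal.ofReal_ne_top).symm

theorem map_tau (h : ∀ t ∈ Icc (0 : ℝ) 1, m₁.tail t ≤ m₂.tail t + δ) :
    ((massMeasure m₂).restrict (goodSet m₁ m₂ δ)).map
      (fun t => ((tau m₁ m₂ δ (Real.toNNReal t) : NNReal) : ℝ)) =
      (massMeasure m₁).restrict (keepSet m₁ δ) := by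
  have hmeas : Measurable (fun t : ℝ => ((tau m₁ m₂ δ (Real.toNNReal t) : NNReal) : ℝ)) :=
    measurable_coe_nnreal_real.comp ((measurable_tau m₁ m₂ δ).comp measurable_real_toNNReal)
  have h00 : m₁.tail 0 ≤ m₂.tail 0 + δ := h 0 ⟨le_rfl, zero_le_one⟩
  have hlt : ∀ c : ℝ, c ≤ m₂.tail 0 →
      massMeasure m₂ {t | t ∈ Icc (0 : ℝ) 1 ∧ m₂.tail t < c} = ENNReal.ofReal c := by
    intro c hc
    rcases lt_or_ge c 0 with hc0 | hc0
    · have : {t | t ∈ Icc (0 : ℝ) 1 ∧ m₂.tail t < c} = ∅ := by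
        ext t
        simp only [mem_ofPred_eq, mem_empty_iff_false, iff_false, not_and, not_lt]
        intro ht
        exact hc0.le.trans (tail_nonneg m₂ ht.1 ht.2)
      rw [this, measure_empty, ENNReal.ofReal_of_nonpos hc0.le]
    · exact massMeasure_lt m₂ hc0 hc
  have huniv : (((massMeasure m₂).restrict (goodSet m₁ m₂ δ)).map
        (fun t => ((tau m₁ m₂ δ (Real.toNNReal t) : NNReal) : ℝ))) univ =
        ENNReal.ofReal (m₁.tail 0 - δ) := by
    rw [Measure.map_apply hmeas MeasurableSet.univ, preimage_univ,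
      Measure.restrict_apply MeasurableSet.univ, univ_inter]
    exact hlt _ (by linarith)
  have hIoi : ∀ s ∈ Icc (0 : ℝ) 1,
      (((massMeasure m₂).restrict (goodSet m₁ m₂ δ)).map
        (fun t => ((tau m₁ m₂ δ (Real.toNNReal t) : NNReal) : ℝ))) (Ioi s) =
        ENNReal.ofReal (m₁.tail s - δ) := by
    intro s hs
    rw [Measure.map_apply hmeas measurableSet_Ioi,
      Measure.restrict_apply (hmeas measurableSet_Ioi)]
    have hset : (fun t => ((tau m₁ m₂ δ (Real.toNNReal t) : NNReal) : ℝ)) ⁻¹' Ioi s ∩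
        goodSet m₁ m₂ δ = {t | t ∈ Icc (0 : ℝ) 1 ∧ m₂.tail t < m₁.tail s - δ} := by
      ext t
      simp only [mem_inter_iff, mem_preimage, mem_Ioi, goodSet, mem_ofPred_eq]
      constructor
      · rintro ⟨h1, h2, _⟩
        refine ⟨h2, ?_⟩
        by_contra hcon
        push Not at hcon
        exact absurd ((tauR_le_iff m₁ m₂ δ h2 hs).2 (by linarith)) (not_le.2 h1)
      · rintro ⟨h1, h2⟩
        have := tail_anti m₁ le_rfl hs.1 hs.2
        refine ⟨?_, h1, by linarith⟩
        by_contra hcon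
        push Not at hcon
        have := (tauR_le_iff m₁ m₂ δ h1 hs).1 hcon
        linarith
    rw [hset, hlt _ (by have := tail_anti m₁ le_rfl hs.1 hs.2; linarith)]
  -- the target side
  have hRfull : ∀ S : Set ℝ, MeasurableSet S →
      ((massMeasure m₁).restrict (keepSet m₁ δ)) S =
      massMeasure m₁ ((S ∩ Ioc (0 : ℝ) 1) ∩ keepSet m₁ δ) := by
    intro S hS
    rw [Measure.restrict_apply hS]
    refine le_antisymm ?_ (measure_mono fun t ht => ⟨ht.1.1, ht.2⟩)
    have hsub : S ∩ keepSet m₁ δ ⊆ ((S ∩ Ioc (0 : ℝ) 1) ∩ keepSet m₁ δ) ∪ {0} := by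
      rintro t ⟨h1, h2⟩
      rcases eq_or_lt_of_le h2.1.1 with h0 | h0
      · exact Or.inr h0.symm
      · exact Or.inl ⟨⟨h1, h0, h2.1.2⟩, h2⟩
    refine (measure_mono hsub).trans ((measure_union_le _ _).trans ?_)
    rw [massMeasure_singleton, add_zero]
  have hRuniv : ((massMeasure m₁).restrict (keepSet m₁ δ)) univ = ENNReal.ofReal (m₁.tail 0 - δ) := by
    rw [hRfull _ MeasurableSet.univ, univ_inter, keep_Ioc m₁ δ ⟨le_rfl, zero_le_one⟩]
  have : IsFiniteMeasure (((massMeasure m₂).restrict (goodSet m₁ m₂ δ)).map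
      (fun t => ((tau m₁ m₂ δ (Real.toNNReal t) : NNReal) : ℝ))) :=
    Measure.isFiniteMeasure_map _ _
  refine Measure.ext_of_Iic _ _ fun s => ?_
  have hc : ∀ μ : Measure ℝ, IsFiniteMeasure μ → μ (Iic s) = μ univ - μ (Ioi s) := by
    intro μ hμ
    have h1 := measure_compl (μ := μ) (measurableSet_Ioi (a := s)) (measure_ne_top _ _)
    rwa [compl_Ioi] at h1
  rw [hc _ inferInstance, hc _ inferInstance, huniv, hRuniv]
  congr 1
  rcases lt_or_ge s 0 with hs0 | hs0
  · have e1 : (((massMeasure m₂).restrict (goodSet m₁ m₂ δ)).map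
        (fun t => ((tau m₁ m₂ δ (Real.toNNReal t) : NNReal) : ℝ))) (Ioi s) =
        ENNReal.ofReal (m₁.tail 0 - δ) := by
      rw [← huniv, Measure.map_apply hmeas measurableSet_Ioi,
        Measure.map_apply hmeas MeasurableSet.univ]
      congr 1
      ext t
      simp only [mem_preimage, mem_Ioi, mem_univ, iff_true]
      exact hs0.trans_le (NNReal.coe_nonneg _)
    have e2 : ((massMeasure m₁).restrict (keepSet m₁ δ)) (Ioi s) =
        ENNReal.ofReal (m₁.tail 0 - δ) := by
      rw [hRfull _ measurableSet_Ioi]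
      have : Ioi s ∩ Ioc (0 : ℝ) 1 = Ioc 0 1 := inter_eq_right.2 fun t ht => hs0.trans ht.1
      rw [this, keep_Ioc m₁ δ ⟨le_rfl, zero_le_one⟩]
    rw [e1, e2]
  rcases le_or_gt s 1 with hs1 | hs1
  · rw [hIoi s ⟨hs0, hs1⟩, hRfull _ measurableSet_Ioi]
    have : Ioi s ∩ Ioc (0 : ℝ) 1 = Ioc s 1 := by
      ext t
      simp only [mem_inter_iff, mem_Ioi, mem_Ioc]
      exact ⟨fun h => ⟨h.1, h.2.2⟩, fun h => ⟨h.1, hs0.trans_lt h.1, h.2⟩⟩
    rw [this, keep_Ioc m₁ δ ⟨hs0, hs1⟩]
  · have e1 : (((massMeasure m₂).restrict (goodSet m₁ m₂ δ)).map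
        (fun t => ((tau m₁ m₂ δ (Real.toNNReal t) : NNReal) : ℝ))) (Ioi s) = 0 := by
      rw [Measure.map_apply hmeas measurableSet_Ioi]
      convert measure_empty (μ := (massMeasure m₂).restrict (goodSet m₁ m₂ δ))
      ext t
      simp only [mem_preimage, mem_Ioi, mem_empty_iff_false, iff_false, not_lt]
      exact (tauR_le_one m₁ m₂ δ _).trans hs1.le
    have e2 : ((massMeasure m₁).restrict (keepSet m₁ δ)) (Ioi s) = 0 := by
      rw [hRfull _ measurableSet_Ioi]
      have : Ioi s ∩ Ioc (0 : ℝ) 1 = ∅ := by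
        ext t
        simp only [mem_inter_iff, mem_Ioi, mem_Ioc, mem_empty_iff_false, iff_false]
        rintro ⟨h1, _, h2⟩
        linarith
      rw [this, empty_inter, measure_empty]
    rw [e1, e2]

theorem massMeasure_compl_keep : massMeasure m₁ (keepSet m₁ δ)ᶜ ≤ ENNReal.ofReal δ := by
  have hsub : (keepSet m₁ δ)ᶜ ⊆ {t | t ∈ Icc (0 : ℝ) 1 ∧ m₁.tail t < δ} ∪ (Icc (0 : ℝ) 1)ᶜ := by
    intro t ht
    by_cases hI : t ∈ Icc (0 : ℝ) 1
    · refine Or.inl ⟨hI, ?_⟩
      by_contra hcon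
      push Not at hcon
      exact ht ⟨hI, hcon⟩
    · exact Or.inr hI
  refine (measure_mono hsub).trans ((measure_union_le _ _).trans ?_)
  rw [massMeasure_compl, add_zero]
  rcases le_or_gt (δ : ℝ) (m₁.tail 0) with hle | hgt
  · exact (massMeasure_lt m₁ δ.2 hle).le
  · refine (measure_mono (subset_univ _)).trans ?_
    rw [massMeasure_univ]
    exact ENNReal.ofReal_le_ofReal hgt.le

end TimeChange

/-! ### The transported control -/

variable {Ω : Type*} [MeasurableSpace Ω]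

open Classical in
/-- The transported control. -/
noncomputable def transport (m₁ m₂ : OverlapProfile) (δ : NNReal) (v : NNReal → Ω → ℝ) :
    NNReal → Ω → ℝ :=
  fun t ω => (if (t : ℝ) ∈ goodSet m₁ m₂ δ then (1 : ℝ) else 0) * v (tau m₁ m₂ δ t) ω

theorem isProgressive_transport {m₁ m₂ : OverlapProfile} {δ : NNReal}
    (h : ∀ t ∈ Icc (0 : ℝ) 1, m₁.tail t ≤ m₂.tail t + δ)
    (F : Filtration NNReal ‹MeasurableSpace Ω›) {v : NNReal → Ω → ℝ} (hv : IsProgressive F v) :
    IsProgressive F (transport m₁ m₂ δ v) := by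
  classical
  unfold transport
  refine IsProgressive.mul ?_ ?_
  · refine isProgressive_det F
      (g := fun t : NNReal => if (t : ℝ) ∈ goodSet m₁ m₂ δ then (1 : ℝ) else 0) ?_
    refine Measurable.ite ?_ measurable_const measurable_const
    exact measurable_coe_nnreal_real (measurableSet_goodSet m₁ m₂ δ)
  · exact hv.comp (isProgressive_det F (measurable_tau m₁ m₂ δ)) fun t _ => tau_le m₁ m₂ δ h t

omit [MeasurableSpace Ω] in
theorem transport_path {m₁ m₂ : OverlapProfile} {δ : NNReal} (v : NNReal → Ω → ℝ) (ω : Ω) (t : ℝ)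
    (ht : t ∈ goodSet m₁ m₂ δ) :
    transport m₁ m₂ δ v (Real.toNNReal t) ω = v (tau m₁ m₂ δ (Real.toNNReal t)) ω := by
  unfold transport
  rw [Real.coe_toNNReal _ ht.1.1, if_pos ht, one_mul]

omit [MeasurableSpace Ω] in
theorem transport_path' {m₁ m₂ : OverlapProfile} {δ : NNReal} (v : NNReal → Ω → ℝ) (ω : Ω) (t : ℝ)
    (ht0 : t ∈ Icc (0 : ℝ) 1) (ht : t ∉ goodSet m₁ m₂ δ) :
    transport m₁ m₂ δ v (Real.toNNReal t) ω = 0 := by
  unfold transport
  rw [Real.coe_toNNReal _ ht0.1, if_neg ht, zero_mul]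

theorem tau_fix {m₁ m₂ : OverlapProfile} {δ : NNReal} (t : ℝ) :
    Real.toNNReal (min ((tau m₁ m₂ δ (Real.toNNReal t) : NNReal) : ℝ) 1) =
      tau m₁ m₂ δ (Real.toNNReal t) := by
  have h : ((tau m₁ m₂ δ (Real.toNNReal t) : NNReal) : ℝ) ≤ 1 := tauR_le_one m₁ m₂ δ _
  rw [min_eq_left h, Real.toNNReal_coe]

/-- The path of a process, cut at time `1`. -/
def path (v : NNReal → Ω → ℝ) (ω : Ω) (t : ℝ) : ℝ := v (Real.toNNReal (min t 1)) ω

theorem measurable_uncurry_path (F : Filtration NNReal ‹MeasurableSpace Ω›) {v : NNReal → Ω → ℝ}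
    (hv : IsProgressive F v) : Measurable fun p : ℝ × Ω => path v p.2 p.1 := by
  have h1 := hv 1
  have hfst : Measurable fun t : ℝ =>
      (⟨Real.toNNReal (min t 1), by
        simp only [mem_Iic]
        rw [← Real.toNNReal_one]
        exact Real.toNNReal_le_toNNReal (min_le_right _ _)⟩ : Iic (1 : NNReal)) := by
    refine Measurable.subtype_mk ?_
    exact measurable_real_toNNReal.comp (measurable_id.min measurable_const)
  have h2 : @Measurable (ℝ × Ω) (Iic (1 : NNReal) × Ω) _ (Subtype.instMeasurableSpace.prod (F 1))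
      (fun p => (⟨Real.toNNReal (min p.1 1), by
        simp only [mem_Iic]
        rw [← Real.toNNReal_one]
        exact Real.toNNReal_le_toNNReal (min_le_right _ _)⟩, p.2)) := by
    refine Measurable.prodMk (hfst.comp measurable_fst) ?_
    exact (measurable_id'' (F.le 1)).comp measurable_snd
  exact h1.comp h2

theorem lintegral_transport {m₁ m₂ : OverlapProfile} {δ : NNReal}
    (h : ∀ t ∈ Icc (0 : ℝ) 1, m₁.tail t ≤ m₂.tail t + δ)
    (F : Filtration NNReal ‹MeasurableSpace Ω›) {v : NNReal → Ω → ℝ} (hv : IsProgressive F v)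
    (ω : Ω) :
    ∫⁻ t in Icc (0 : ℝ) 1,
        ENNReal.ofReal (m₂.toFun t * transport m₁ m₂ δ v (Real.toNNReal t) ω ^ 2) =
      ∫⁻ t in keepSet m₁ δ, ENNReal.ofReal (path v ω t ^ 2) ∂massMeasure m₁ := by
  have hmeas : Measurable (fun t : ℝ => ((tau m₁ m₂ δ (Real.toNNReal t) : NNReal) : ℝ)) :=
    measurable_coe_nnreal_real.comp ((measurable_tau m₁ m₂ δ).comp measurable_real_toNNReal)
  rw [lintegral_cost m₂ (fun t => transport m₁ m₂ δ v (Real.toNNReal t) ω)
      (measurable_path F (isProgressive_transport h F hv) ω)]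
  rw [← map_tau m₁ m₂ δ h, lintegral_map ?_ hmeas]
  · have hg := measurableSet_goodSet m₁ m₂ δ
    rw [← lintegral_add_compl _ hg]
    have hz : ∫⁻ t in (goodSet m₁ m₂ δ)ᶜ,
        ENNReal.ofReal (transport m₁ m₂ δ v (Real.toNNReal (min t 1)) ω ^ 2) ∂massMeasure m₂ = 0 := by
      have h0 : ∀ᵐ t ∂(massMeasure m₂).restrict (goodSet m₁ m₂ δ)ᶜ,
          ENNReal.ofReal (transport m₁ m₂ δ v (Real.toNNReal (min t 1)) ω ^ 2) = 0 := by
        rw [ae_restrict_iff' hg.compl]
        have hI : ∀ᵐ t ∂massMeasure m₂, t ∈ Icc (0 : ℝ) 1 := by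
          rw [ae_iff]; exact massMeasure_compl m₂
        filter_upwards [hI] with t ht htg
        rw [min_eq_left ht.2, transport_path' v ω t ht htg]
        simp
      rw [lintegral_congr_ae h0]
      simp
    rw [hz, add_zero]
    refine setLIntegral_congr_fun hg fun t ht => ?_
    show ENNReal.ofReal (transport m₁ m₂ δ v (Real.toNNReal (min t 1)) ω ^ 2) = _
    rw [min_eq_left ht.1.2, transport_path v ω t ht, path, tau_fix]
  · exact ((measurable_path F hv ω).pow_const 2).ennreal_ofReal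

theorem integral_transport {m₁ m₂ : OverlapProfile} {δ : NNReal}
    (h : ∀ t ∈ Icc (0 : ℝ) 1, m₁.tail t ≤ m₂.tail t + δ)
    (F : Filtration NNReal ‹MeasurableSpace Ω›) {v : NNReal → Ω → ℝ} (hv : IsProgressive F v)
    (ω : Ω) :
    ∫ t in (0 : ℝ)..1, m₂.toFun t * transport m₁ m₂ δ v (Real.toNNReal t) ω =
      ∫ t in keepSet m₁ δ, path v ω t ∂massMeasure m₁ := by
  have hmeas : Measurable (fun t : ℝ => ((tau m₁ m₂ δ (Real.toNNReal t) : NNReal) : ℝ)) :=
    measurable_coe_nnreal_real.comp ((measurable_tau m₁ m₂ δ).comp measurable_real_toNNReal)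
  have hpm : Measurable (path v ω) := measurable_path F hv ω
  rw [integral_displ m₂ (fun t => transport m₁ m₂ δ v (Real.toNNReal t) ω)]
  rw [← map_tau m₁ m₂ δ h, integral_map hmeas.aemeasurable hpm.aestronglyMeasurable]
  have hg := measurableSet_goodSet m₁ m₂ δ
  rw [← integral_indicator hg]
  refine integral_congr_ae ?_
  have hI : ∀ᵐ t ∂massMeasure m₂, t ∈ Icc (0 : ℝ) 1 := by
    rw [ae_iff]; exact massMeasure_compl m₂
  filter_upwards [hI] with t ht
  by_cases htg : t ∈ goodSet m₁ m₂ δ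
  · rw [indicator_of_mem htg, min_eq_left ht.2, transport_path v ω t htg, path, tau_fix]
  · rw [indicator_of_notMem htg, min_eq_left ht.2, transport_path' v ω t ht htg]

/-! ### The comparison -/

variable (P : Measure Ω) (B : NNReal → Ω → ℝ) (hB : ∀ t, Measurable (B t))

theorem controlCost_eq {m : OverlapProfile} {v : NNReal → Ω → ℝ}
    (hv : IsProgressive (brownianFiltration B hB) v) :
    controlCost P m v = ∫⁻ ω, ∫⁻ t, ENNReal.ofReal (path v ω t ^ 2) ∂massMeasure m ∂P := by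
  unfold controlCost
  refine lintegral_congr fun ω => ?_
  exact lintegral_cost m (fun t => v (Real.toNNReal t) ω) (measurable_path _ hv ω)

/-- **Quantitative node (7)**: if `D_{m₁} ≤ D_{m₂} + δ` on `[0,1]`, `f` is `L`-Lipschitz and bounded
above and `f (B₁ + A)` is integrable for integrable `A`, then `V_f(m₁) ≤ V_f(m₂) + L² δ / 2`. -/
theorem controlValue_le_add_of_tail_le [IsProbabilityMeasure P] {f : ℝ → ℝ} {K L : ℝ}
    (hf : ∀ x, f x ≤ K) (hL : ∀ x y, |f x - f y| ≤ L * |x - y|)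
    (hint : ∀ A : Ω → ℝ, Integrable A P → Integrable (fun ω => f (B 1 ω + A ω)) P)
    {m₁ m₂ : OverlapProfile} {δ : NNReal}
    (h : ∀ t ∈ Icc (0 : ℝ) 1, m₁.tail t ≤ m₂.tail t + δ) :
    controlValue P B hB f m₁ ≤ controlValue P B hB f m₂ + L ^ 2 * δ / 2 := by
  have hL0 : 0 ≤ L := by
    have := (abs_nonneg _).trans (hL 1 0)
    simpa using this
  unfold controlValue
  refine csSup_le ⟨_, _, isAdmissible_zero P B hB m₁, rfl⟩ ?_
  rintro x ⟨v, hv, rfl⟩
  have hvp := hv.1
  have htp := isProgressive_transport h (brownianFiltration B hB) hvp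
  -- notation
  set μ := massMeasure m₁ with hμ
  set R := keepSet m₁ δ with hR
  have hRm : MeasurableSet R := measurableSet_keepSet m₁ δ
  set q : Ω → ENNReal := fun ω => ∫⁻ t in R, ENNReal.ofReal (path v ω t ^ 2) ∂μ with hq
  set q' : Ω → ENNReal := fun ω => ∫⁻ t in Rᶜ, ENNReal.ofReal (path v ω t ^ 2) ∂μ with hq'
  have hjoint : Measurable fun p : Ω × ℝ => ENNReal.ofReal (path v p.1 p.2 ^ 2) :=
    (((measurable_uncurry_path (brownianFiltration B hB) hvp).comp measurable_swap).pow_const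
      2).ennreal_ofReal
  have hqm : Measurable q := Measurable.lintegral_prod_right' (ν := μ.restrict R) hjoint
  have hqm' : Measurable q' := Measurable.lintegral_prod_right' (ν := μ.restrict Rᶜ) hjoint
  have hcost1 : controlCost P m₁ v = ∫⁻ ω, q ω ∂P + ∫⁻ ω, q' ω ∂P := by
    rw [controlCost_eq P B hB hvp, ← lintegral_add_left hqm]
    refine lintegral_congr fun ω => ?_
    exact (lintegral_add_compl _ hRm).symm
  have hcost2 : controlCost P m₂ (transport m₁ m₂ δ v) = ∫⁻ ω, q ω ∂P := by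
    unfold controlCost
    exact lintegral_congr fun ω => lintegral_transport h _ hvp ω
  have hfin : controlCost P m₁ v < ⊤ := hv.2
  have hqfin : ∫⁻ ω, q ω ∂P < ⊤ := by
    refine lt_of_le_of_lt ?_ hfin
    rw [hcost1]; exact le_self_add
  have hqfin' : ∫⁻ ω, q' ω ∂P < ⊤ := by
    refine lt_of_le_of_lt ?_ hfin
    rw [hcost1]; exact le_add_self
  have hadm : IsAdmissibleControl P B hB m₂ (transport m₁ m₂ δ v) := ⟨htp, by rw [hcost2]; exact hqfin⟩
  have hae : ∀ᵐ ω ∂P, q ω < ⊤ ∧ q' ω < ⊤ := by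
    filter_upwards [ae_lt_top hqm hqfin.ne, ae_lt_top hqm' hqfin'.ne] with ω h1 h2
    exact ⟨h1, h2⟩
  -- displacement
  set A : Ω → ℝ := fun ω => ∫ t, path v ω t ∂μ with hA
  set A' : Ω → ℝ := fun ω => ∫ t in R, path v ω t ∂μ with hA'
  have hjoint2 : StronglyMeasurable fun p : Ω × ℝ => path v p.1 p.2 :=
    ((measurable_uncurry_path (brownianFiltration B hB) hvp).comp measurable_swap).stronglyMeasurable
  have hAm : StronglyMeasurable A := hjoint2.integral_prod_right' (ν := μ)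
  have hAm' : StronglyMeasurable A' := hjoint2.integral_prod_right' (ν := μ.restrict R)
  have hpm : ∀ ω, Measurable (path v ω) := fun ω =>
    (measurable_uncurry_path (brownianFiltration B hB) hvp).comp (measurable_prodMk_right (y := ω))
  -- pathwise integrability
  have hpi : ∀ (S : Set ℝ) (ω : Ω), ∫⁻ t in S, ENNReal.ofReal (path v ω t ^ 2) ∂μ < ⊤ →
      IntegrableOn (fun t => path v ω t ^ 2) S μ := by
    intro S ω hS
    refine ⟨((hpm ω).pow_const 2).aestronglyMeasurable, ?_⟩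
    rw [hasFiniteIntegral_iff_ofReal (Filter.Eventually.of_forall fun t => sq_nonneg _)]
    exact hS
  have hpi1 : ∀ (S : Set ℝ) (ω : Ω), IntegrableOn (fun t => path v ω t ^ 2) S μ →
      IntegrableOn (path v ω) S μ := by
    intro S ω hS
    have hg : IntegrableOn (fun t => 1 / 2 + path v ω t ^ 2 / 2) S μ := by
      refine Integrable.add ?_ (hS.div_const 2)
      exact integrable_const _
    refine hg.mono' (hpm ω).aestronglyMeasurable (Filter.Eventually.of_forall fun t => ?_)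
    rw [Real.norm_eq_abs]
    nlinarith [sq_nonneg (|path v ω t| - 1), sq_abs (path v ω t)]
  have hlast : ∀ ω, q' ω < ⊤ → L * |∫ t in Rᶜ, path v ω t ∂μ| ≤ L ^ 2 * δ / 2 + (q' ω).toReal / 2 := by
    intro ω hω
    have hi2 := hpi Rᶜ ω hω
    have hi1 := hpi1 Rᶜ ω hi2
    have hqr : (q' ω).toReal = ∫ t in Rᶜ, path v ω t ^ 2 ∂μ := by
      rw [integral_eq_lintegral_of_nonneg_ae (Filter.Eventually.of_forall fun t => sq_nonneg _)
        ((hpm ω).pow_const 2).aestronglyMeasurable]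
    have hmass : (μ.real Rᶜ) ≤ δ := by
      rw [Measure.real]
      refine ENNReal.toReal_le_of_le_ofReal δ.2 ?_
      exact massMeasure_compl_keep m₁ δ
    calc L * |∫ t in Rᶜ, path v ω t ∂μ| ≤ L * ∫ t in Rᶜ, |path v ω t| ∂μ := by
          refine mul_le_mul_of_nonneg_left ?_ hL0
          exact abs_integral_le_integral_abs
      _ = ∫ t in Rᶜ, L * |path v ω t| ∂μ := by rw [integral_const_mul]
      _ ≤ ∫ t in Rᶜ, (L ^ 2 / 2 + path v ω t ^ 2 / 2) ∂μ := by
          refine integral_mono (hi1.abs.const_mul L) ?_ fun t => ?_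
          · exact (integrable_const _).add (hi2.div_const 2)
          · simp only
            nlinarith [sq_nonneg (|path v ω t| - L), sq_abs (path v ω t)]
      _ = L ^ 2 / 2 * μ.real Rᶜ + (q' ω).toReal / 2 := by
          rw [integral_add (integrable_const _) (hi2.div_const 2), integral_const, integral_div,
            ← hqr, measureReal_restrict_apply_univ, smul_eq_mul]
          ring
      _ ≤ L ^ 2 * δ / 2 + (q' ω).toReal / 2 := by nlinarith [sq_nonneg L]
  have hsplit : ∀ᵐ ω ∂P, A ω - A' ω = ∫ t in Rᶜ, path v ω t ∂μ := by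
    filter_upwards [hae] with ω hω
    have h1 := hpi1 R ω (hpi R ω hω.1)
    have h2 := hpi1 Rᶜ ω (hpi Rᶜ ω hω.2)
    have h3 : Integrable (path v ω) μ := by
      rw [← integrableOn_univ, ← union_compl_self R]
      exact h1.union h2
    have := integral_add_compl hRm h3
    simp only [hA, hA']
    linarith
  have hq_int : Integrable (fun ω => (q ω).toReal) P := integrable_toReal_of_lintegral_ne_top
    hqm.aemeasurable hqfin.ne
  have hq_int' : Integrable (fun ω => (q' ω).toReal) P := integrable_toReal_of_lintegral_ne_top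
    hqm'.aemeasurable hqfin'.ne
  have hbound : ∀ (S : Set ℝ) (ω : Ω), ∫⁻ t in S, ENNReal.ofReal (path v ω t ^ 2) ∂μ < ⊤ →
      |∫ t in S, path v ω t ∂μ| ≤ μ.real S / 2 +
        (∫⁻ t in S, ENNReal.ofReal (path v ω t ^ 2) ∂μ).toReal / 2 := by
    intro S ω hω
    have hi2 := hpi S ω hω
    have hi1 := hpi1 S ω hi2
    have hqr : (∫⁻ t in S, ENNReal.ofReal (path v ω t ^ 2) ∂μ).toReal =
        ∫ t in S, path v ω t ^ 2 ∂μ := by
      rw [integral_eq_lintegral_of_nonneg_ae (Filter.Eventually.of_forall fun t => sq_nonneg _)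
        ((hpm ω).pow_const 2).aestronglyMeasurable]
    calc |∫ t in S, path v ω t ∂μ| ≤ ∫ t in S, |path v ω t| ∂μ := abs_integral_le_integral_abs
      _ ≤ ∫ t in S, (1 / 2 + path v ω t ^ 2 / 2) ∂μ := by
          refine integral_mono hi1.abs ?_ fun t => ?_
          · exact (integrable_const _).add (hi2.div_const 2)
          · simp only
            nlinarith [sq_nonneg (|path v ω t| - 1), sq_abs (path v ω t)]
      _ = μ.real S / 2 + (∫⁻ t in S, ENNReal.ofReal (path v ω t ^ 2) ∂μ).toReal / 2 := by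
          rw [integral_add (integrable_const _) (hi2.div_const 2), integral_const, integral_div,
            ← hqr, measureReal_restrict_apply_univ, smul_eq_mul]
          ring
  have hA'int : Integrable A' P := by
    have hg : Integrable (fun ω => μ.real R / 2 + (q ω).toReal / 2) P :=
      (integrable_const _).add (hq_int.div_const 2)
    refine hg.mono' hAm'.aestronglyMeasurable ?_
    filter_upwards [hae] with ω hω
    rw [Real.norm_eq_abs]
    exact hbound R ω hω.1
  have hAlast : Integrable (fun ω => ∫ t in Rᶜ, path v ω t ∂μ) P := by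
    have hg : Integrable (fun ω => μ.real Rᶜ / 2 + (q' ω).toReal / 2) P :=
      (integrable_const _).add (hq_int'.div_const 2)
    refine hg.mono' (hjoint2.integral_prod_right' (ν := μ.restrict Rᶜ)).aestronglyMeasurable ?_
    filter_upwards [hae] with ω hω
    rw [Real.norm_eq_abs]
    exact hbound Rᶜ ω hω.2
  have hAint : Integrable A P := by
    refine (hA'int.add hAlast).congr ?_
    filter_upwards [hsplit] with ω hω
    simp only [Pi.add_apply]
    linarith
  -- the payoffs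
  have hpay1 : controlPayoff P B f m₁ v =
      ∫ ω, f (B 1 ω + A ω) ∂P - (∫⁻ ω, q ω ∂P).toReal / 2 - (∫⁻ ω, q' ω ∂P).toReal / 2 := by
    unfold controlPayoff
    rw [hcost1, ENNReal.toReal_add hqfin.ne hqfin'.ne]
    have : ∀ ω, ∫ t in (0 : ℝ)..1, m₁.toFun t * v (Real.toNNReal t) ω = A ω := fun ω =>
      integral_displ m₁ (fun t => v (Real.toNNReal t) ω)
    simp only [this]
    ring
  have hpay2 : controlPayoff P B f m₂ (transport m₁ m₂ δ v) =
      ∫ ω, f (B 1 ω + A' ω) ∂P - (∫⁻ ω, q ω ∂P).toReal / 2 := by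
    unfold controlPayoff
    rw [hcost2]
    have : ∀ ω, ∫ t in (0 : ℝ)..1, m₂.toFun t * transport m₁ m₂ δ v (Real.toNNReal t) ω = A' ω :=
      fun ω => integral_transport h _ hvp ω
    simp only [this]
  have hdiff : ∫ ω, f (B 1 ω + A ω) ∂P - ∫ ω, f (B 1 ω + A' ω) ∂P ≤
      L ^ 2 * δ / 2 + (∫⁻ ω, q' ω ∂P).toReal / 2 := by
    rw [← integral_sub (hint A hAint) (hint A' hA'int)]
    have hr : (∫⁻ ω, q' ω ∂P).toReal = ∫ ω, (q' ω).toReal ∂P := by
      rw [integral_toReal hqm'.aemeasurable (by filter_upwards [hae] with ω hω using hω.2)]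
    rw [hr]
    calc ∫ ω, (f (B 1 ω + A ω) - f (B 1 ω + A' ω)) ∂P
        ≤ ∫ ω, (L ^ 2 * δ / 2 + (q' ω).toReal / 2) ∂P := by
          refine integral_mono_ae ((hint A hAint).sub (hint A' hA'int))
            ((integrable_const _).add (hq_int'.div_const 2)) ?_
          filter_upwards [hae, hsplit] with ω hω hs
          have h1 := (le_abs_self _).trans (hL (B 1 ω + A ω) (B 1 ω + A' ω))
          have h2 : B 1 ω + A ω - (B 1 ω + A' ω) = ∫ t in Rᶜ, path v ω t ∂μ := by
            rw [← hs]; ring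
          rw [h2] at h1
          exact h1.trans (hlast ω hω.2)
      _ = L ^ 2 * δ / 2 + (∫ ω, (q' ω).toReal ∂P) / 2 := by
          rw [integral_add (integrable_const _) (hq_int'.div_const 2), integral_const, integral_div]
          simp
  have hle : controlPayoff P B f m₂ (transport m₁ m₂ δ v) ≤
      sSup {x : ℝ | ∃ v : NNReal → Ω → ℝ, IsAdmissibleControl P B hB m₂ v ∧
        x = controlPayoff P B f m₂ v} :=
    le_csSup (bddAbove_payoffs P B hB hf m₂) ⟨_, hadm, rfl⟩
  rw [hpay2] at hle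
  rw [hpay1]
  linarith

/-- Version for bounded Lipschitz `f`. -/
theorem controlValue_le_add_of_tail_le_bdd [IsProbabilityMeasure P] {f : ℝ → ℝ} {K L : ℝ}
    (hf : ∀ x, |f x| ≤ K) (hL : ∀ x y, |f x - f y| ≤ L * |x - y|)
    {m₁ m₂ : OverlapProfile} {δ : ℝ} (hδ : 0 ≤ δ)
    (h : ∀ t ∈ Icc (0 : ℝ) 1, m₁.tail t ≤ m₂.tail t + δ) :
    controlValue P B hB f m₁ ≤ controlValue P B hB f m₂ + L ^ 2 * δ / 2 := by
  have hcont : Continuous f := by
    have hL0 : 0 ≤ L := by
      have := (abs_nonneg _).trans (hL 1 0)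
      simpa using this
    have : LipschitzWith (Real.toNNReal L) f := by
      refine LipschitzWith.of_dist_le_mul fun x y => ?_
      rw [Real.dist_eq, Real.dist_eq, Real.coe_toNNReal _ hL0]
      exact hL x y
    exact this.continuous
  have := controlValue_le_add_of_tail_le P B hB (f := f) (K := K) (L := L)
    (fun x => (le_abs_self _).trans (hf x)) hL
    (fun A hA => Integrable.of_bound
      (hcont.comp_aestronglyMeasurable ((hB 1).aestronglyMeasurable.add hA.1)) K
      (Filter.Eventually.of_forall fun ω => hf _)) (δ := ⟨δ, hδ⟩) (m₁ := m₁) (m₂ := m₂) h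
  exact this

/-- Version for Lipschitz `f` bounded above, with `B 1` integrable. -/
theorem controlValue_le_add_of_tail_le_lip [IsProbabilityMeasure P] (hBi : Integrable (B 1) P)
    {f : ℝ → ℝ} {K L : ℝ} (hf : ∀ x, f x ≤ K) (hL : ∀ x y, |f x - f y| ≤ L * |x - y|)
    {m₁ m₂ : OverlapProfile} {δ : ℝ} (hδ : 0 ≤ δ)
    (h : ∀ t ∈ Icc (0 : ℝ) 1, m₁.tail t ≤ m₂.tail t + δ) :
    controlValue P B hB f m₁ ≤ controlValue P B hB f m₂ + L ^ 2 * δ / 2 := by
  have hcont : Continuous f := by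
    have hL0 : 0 ≤ L := by
      have := (abs_nonneg _).trans (hL 1 0)
      simpa using this
    have : LipschitzWith (Real.toNNReal L) f := by
      refine LipschitzWith.of_dist_le_mul fun x y => ?_
      rw [Real.dist_eq, Real.dist_eq, Real.coe_toNNReal _ hL0]
      exact hL x y
    exact this.continuous
  refine controlValue_le_add_of_tail_le P B hB (f := f) (K := K) (L := L) hf hL
    (fun A hA => ?_) (δ := ⟨δ, hδ⟩) (m₁ := m₁) (m₂ := m₂) h
  have hg : Integrable (fun ω => |f 0| + L * |B 1 ω + A ω|) P :=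
    (integrable_const _).add ((hBi.add hA).abs.const_mul L)
  refine hg.mono' (hcont.comp_aestronglyMeasurable ((hB 1).aestronglyMeasurable.add hA.1)) ?_
  refine Filter.Eventually.of_forall fun ω => ?_
  rw [Real.norm_eq_abs]
  have h1 := hL (B 1 ω + A ω) 0
  rw [sub_zero] at h1
  have h2 : |f (B 1 ω + A ω)| ≤ |f (B 1 ω + A ω) - f 0| + |f 0| := by
    have := abs_add_le (f (B 1 ω + A ω) - f 0) (f 0)
    simpa using this
  linarith

/-- `|V_f(m₁) - V_f(m₂)| ≤ (L²/2) sup |D₁ - D₂|`. -/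
theorem abs_controlValue_sub_le [IsProbabilityMeasure P] {f : ℝ → ℝ} {K L : ℝ}
    (hf : ∀ x, |f x| ≤ K) (hL : ∀ x y, |f x - f y| ≤ L * |x - y|)
    {m₁ m₂ : OverlapProfile} {δ : ℝ} (hδ : 0 ≤ δ)
    (h : ∀ t ∈ Icc (0 : ℝ) 1, |m₁.tail t - m₂.tail t| ≤ δ) :
    |controlValue P B hB f m₁ - controlValue P B hB f m₂| ≤ L ^ 2 * δ / 2 := by
  rw [abs_le]
  have h1 := controlValue_le_add_of_tail_le_bdd P B hB hf hL hδ (m₁ := m₁) (m₂ := m₂)
    fun t ht => by have := (abs_le.1 (h t ht)).2; linarith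
  have h2 := controlValue_le_add_of_tail_le_bdd P B hB hf hL hδ (m₁ := m₂) (m₂ := m₁)
    fun t ht => by have := (abs_le.1 (h t ht)).1; linarith
  constructor <;> linarith

end Crest.Agent.R146.MonoShift_930
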