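import Crest.Prelude.Def_SphericalPressure

/-!
Row 146, node (7) of post 308: the control value `V_f(m)` is monotone in the tail
`D_m(t) = ∫_t^1 m`, for EVERY overlap profile and every bounded `f`.

Proof by time change: the "remaining mass" `r = D(t)` is used as clock. A control `v` for the profile
`m₁` becomes the control `v'_t = v_{τ(t)} 1[D₂ t < D₁ 0]` for `m₂`, with
`τ(t) = inf {s ∈ [0,1] : D₁ s ≤ D₂ t} ≤ t`. The push-forward of `m₂ dt` (on `{D₂ < D₁ 0}`) under `τ` is
`m₁ dt`, so the displacement `∫ m v` and the cost are the same pathwise.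
-/

set_option autoImplicit false

namespace Crest.Agent.R146.Mono_930

open MeasureTheory Set Crest.ProbabilityR.Perceptron

/-! ### The mass measure of a profile -/

/-- The measure `m(t) dt` on `[0,1]`. -/
noncomputable def massMeasure (m : OverlapProfile) : Measure ℝ :=
  (volume.restrict (Icc (0 : ℝ) 1)).withDensity fun t => ENNReal.ofReal (m.toFun t)

theorem measurable_toFun (m : OverlapProfile) : Measurable m.toFun := m.mono.measurable

theorem integrableOn_toFun (m : OverlapProfile) : IntegrableOn m.toFun (Icc (0 : ℝ) 1) := by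
  refine Measure.integrableOn_of_bounded (M := 1) (by simp) (measurable_toFun m).aestronglyMeasurable ?_
  refine (ae_restrict_iff' measurableSet_Icc).2 (Filter.Eventually.of_forall fun t ht => ?_)
  rw [Real.norm_eq_abs, abs_of_nonneg (m.nonneg t ht)]
  exact m.le_one t ht

theorem intervalIntegrable_toFun (m : OverlapProfile) {a b : ℝ} (ha : 0 ≤ a) (hab : a ≤ b)
    (hb : b ≤ 1) : IntervalIntegrable m.toFun volume a b := by
  rw [intervalIntegrable_iff_integrableOn_Ioc_of_le hab]
  exact (integrableOn_toFun m).mono_set fun t ht => ⟨ha.trans ht.1.le, ht.2.trans hb⟩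

theorem tail_one (m : OverlapProfile) : m.tail 1 = 0 := by
  simp [OverlapProfile.tail]

theorem tail_sub (m : OverlapProfile) {s t : ℝ} (hs : 0 ≤ s) (hst : s ≤ t) (ht : t ≤ 1) :
    m.tail s - m.tail t = ∫ r in s..t, m.toFun r := by
  unfold OverlapProfile.tail
  rw [sub_eq_iff_eq_add]
  exact (intervalIntegral.integral_add_adjacent_intervals
    (intervalIntegrable_toFun m hs hst ht)
    (intervalIntegrable_toFun m (hs.trans hst) ht le_rfl)).symm

theorem tail_anti (m : OverlapProfile) {s t : ℝ} (hs : 0 ≤ s) (hst : s ≤ t) (ht : t ≤ 1) :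
    m.tail t ≤ m.tail s := by
  have h := tail_sub m hs hst ht
  have h2 : 0 ≤ ∫ r in s..t, m.toFun r :=
    intervalIntegral.integral_nonneg hst fun r hr => m.nonneg r ⟨hs.trans hr.1, hr.2.trans ht⟩
  linarith

theorem tail_nonneg (m : OverlapProfile) {t : ℝ} (h0 : 0 ≤ t) (h1 : t ≤ 1) : 0 ≤ m.tail t := by
  have := tail_anti m h0 h1 le_rfl
  rwa [tail_one] at this

theorem tail_lip (m : OverlapProfile) {s t : ℝ} (hs : 0 ≤ s) (hst : s ≤ t) (ht : t ≤ 1) :
    m.tail s - m.tail t ≤ t - s := by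
  rw [tail_sub m hs hst ht]
  calc ∫ r in s..t, m.toFun r ≤ ∫ _r in s..t, (1 : ℝ) :=
        intervalIntegral.integral_mono_on hst (intervalIntegrable_toFun m hs hst ht)
          (by simp) fun r hr => m.le_one r ⟨hs.trans hr.1, hr.2.trans ht⟩
    _ = t - s := by simp

theorem continuousOn_tail (m : OverlapProfile) : ContinuousOn m.tail (Icc (0 : ℝ) 1) := by
  have : LipschitzOnWith 1 m.tail (Icc (0 : ℝ) 1) := by
    refine LipschitzOnWith.of_dist_le_mul fun x hx y hy => ?_
    simp only [NNReal.coe_one, one_mul, Real.dist_eq]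
    rcases le_total x y with h | h
    · rw [abs_of_nonneg (sub_nonneg.2 (tail_anti m hx.1 h hy.2)), abs_sub_comm,
        abs_of_nonneg (sub_nonneg.2 h)]
      exact tail_lip m hx.1 h hy.2
    · rw [abs_sub_comm, abs_of_nonneg (sub_nonneg.2 (tail_anti m hy.1 h hx.2)),
        abs_of_nonneg (sub_nonneg.2 h)]
      exact tail_lip m hy.1 h hx.2
  exact this.continuousOn

theorem massMeasure_apply (m : OverlapProfile) {S : Set ℝ} (hS : MeasurableSet S) :
    massMeasure m S = ∫⁻ t in S ∩ Icc 0 1, ENNReal.ofReal (m.toFun t) := by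
  unfold massMeasure
  rw [withDensity_apply _ hS, Measure.restrict_restrict hS]

theorem massMeasure_Ioc (m : OverlapProfile) {t : ℝ} (h0 : 0 ≤ t) (h1 : t ≤ 1) :
    massMeasure m (Ioc t 1) = ENNReal.ofReal (m.tail t) := by
  have hI : Ioc t 1 ∩ Icc (0 : ℝ) 1 = Ioc t 1 :=
    inter_eq_left.2 fun s hs => ⟨h0.trans hs.1.le, hs.2⟩
  rw [massMeasure_apply m measurableSet_Ioc, hI]
  unfold OverlapProfile.tail
  rw [intervalIntegral.integral_of_le h1]
  rw [ofReal_integral_eq_lintegral_ofReal]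
  · exact (integrableOn_toFun m).mono_set fun s hs => ⟨h0.trans hs.1.le, hs.2⟩
  · refine (ae_restrict_iff' measurableSet_Ioc).2 (Filter.Eventually.of_forall fun s hs => ?_)
    exact m.nonneg s ⟨h0.trans hs.1.le, hs.2⟩

instance (m : OverlapProfile) : IsFiniteMeasure (massMeasure m) := by
  refine ⟨?_⟩
  have h : massMeasure m univ ≤ ∫⁻ _t in Icc (0 : ℝ) 1, (1 : ENNReal) := by
    rw [massMeasure_apply m MeasurableSet.univ, univ_inter]
    refine setLIntegral_mono measurable_const fun t ht => ?_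
    exact ENNReal.ofReal_le_one.2 (m.le_one t ht)
  refine h.trans_lt ?_
  simp

theorem massMeasure_compl (m : OverlapProfile) : massMeasure m (Icc (0 : ℝ) 1)ᶜ = 0 := by
  rw [massMeasure_apply m measurableSet_Icc.compl]
  simp

/-- `(m dt) {t ∈ [0,1] : D t < c} = c` for `0 ≤ c ≤ D 0`. -/
theorem massMeasure_lt (m : OverlapProfile) {c : ℝ} (h0 : 0 ≤ c) (h1 : c ≤ m.tail 0) :
    massMeasure m {t | t ∈ Icc (0 : ℝ) 1 ∧ m.tail t < c} = ENNReal.ofReal c := by
  set A : Set ℝ := {t | t ∈ Icc (0 : ℝ) 1 ∧ c ≤ m.tail t} with hA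
  have hAc : IsClosed A := by
    have := (continuousOn_tail m).preimage_isClosed_of_isClosed isClosed_Icc (isClosed_Ici (a := c))
    exact this
  have hA0 : (0 : ℝ) ∈ A := ⟨⟨le_rfl, zero_le_one⟩, h1⟩
  have hbdd : BddAbove A := ⟨1, fun t ht => ht.1.2⟩
  set T := sSup A with hT
  have hTA : T ∈ A := hAc.csSup_mem ⟨0, hA0⟩ hbdd
  have hlt : ∀ t, T < t → t ≤ 1 → m.tail t < c := by
    intro t ht ht1
    by_contra hcon
    push Not at hcon
    have : t ∈ A := ⟨⟨hTA.1.1.trans ht.le, ht1⟩, hcon⟩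
    exact absurd (le_csSup hbdd this) (not_le.2 ht)
  have hTc : m.tail T = c := by
    refine le_antisymm ?_ hTA.2
    rcases eq_or_lt_of_le hTA.1.2 with h | h
    · rw [h, tail_one]; exact h0
    · have hcont : ContinuousWithinAt m.tail (Ioc T 1) T := by
        refine ((continuousOn_tail m) T hTA.1).mono fun s hs => ⟨hTA.1.1.trans hs.1.le, hs.2⟩
      have hne : (nhdsWithin T (Ioc T 1)).NeBot := by
        rw [← mem_closure_iff_nhdsWithin_neBot, closure_Ioc h.ne]
        exact ⟨le_rfl, h.le⟩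
      refine le_of_tendsto hcont ?_
      filter_upwards [self_mem_nhdsWithin] with s hs
      exact (hlt s hs.1 hs.2).le
  have hset : {t | t ∈ Icc (0 : ℝ) 1 ∧ m.tail t < c} = Ioc T 1 := by
    ext t
    constructor
    · rintro ⟨ht, htc⟩
      refine ⟨?_, ht.2⟩
      by_contra hcon
      push Not at hcon
      have := tail_anti m ht.1 hcon hTA.1.2
      exact absurd (hTA.2.trans this) (not_le.2 htc)
    · rintro ⟨ht, ht1⟩
      exact ⟨⟨hTA.1.1.trans ht.le, ht1⟩, hlt t ht ht1⟩
  rw [hset, massMeasure_Ioc m hTA.1.1 hTA.1.2, hTc]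

/-! ### The time change -/

section TimeChange

variable (m₁ m₂ : OverlapProfile)

/-- The set `{s ∈ [0,1] : D₁ s ≤ D₂ (min t 1)}`. -/
def hitSet (t : NNReal) : Set ℝ :=
  {s | s ∈ Icc (0 : ℝ) 1 ∧ m₁.tail s ≤ m₂.tail (min (t : ℝ) 1)}

theorem one_mem_hitSet (t : NNReal) : (1 : ℝ) ∈ hitSet m₁ m₂ t := by
  refine ⟨⟨zero_le_one, le_rfl⟩, ?_⟩
  rw [tail_one]
  exact tail_nonneg m₂ (le_min t.2 zero_le_one) (min_le_right _ _)

theorem bddBelow_hitSet (t : NNReal) : BddBelow (hitSet m₁ m₂ t) := ⟨0, fun _ hs => hs.1.1⟩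

theorem isClosed_hitSet (t : NNReal) : IsClosed (hitSet m₁ m₂ t) :=
  (continuousOn_tail m₁).preimage_isClosed_of_isClosed isClosed_Icc
    (isClosed_Iic (a := m₂.tail (min (t : ℝ) 1)))

/-- The time change (as a real number). -/
noncomputable def tauR (t : NNReal) : ℝ := sInf (hitSet m₁ m₂ t)

theorem tauR_mem (t : NNReal) : tauR m₁ m₂ t ∈ hitSet m₁ m₂ t :=
  (isClosed_hitSet m₁ m₂ t).csInf_mem ⟨1, one_mem_hitSet m₁ m₂ t⟩ (bddBelow_hitSet m₁ m₂ t)

theorem tauR_nonneg (t : NNReal) : 0 ≤ tauR m₁ m₂ t := (tauR_mem m₁ m₂ t).1.1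

theorem tauR_le_one (t : NNReal) : tauR m₁ m₂ t ≤ 1 := (tauR_mem m₁ m₂ t).1.2

/-- The time change. -/
noncomputable def tau (t : NNReal) : NNReal := ⟨tauR m₁ m₂ t, tauR_nonneg m₁ m₂ t⟩

theorem tau_mono : Monotone (tau m₁ m₂) := by
  intro s t hst
  show tauR m₁ m₂ s ≤ tauR m₁ m₂ t
  refine csInf_le (bddBelow_hitSet m₁ m₂ s) ?_
  have h := tauR_mem m₁ m₂ t
  refine ⟨h.1, h.2.trans ?_⟩
  exact tail_anti m₂ (le_min s.2 zero_le_one)
    (min_le_min_right _ (by exact_mod_cast hst)) (min_le_right _ _)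

theorem measurable_tau : Measurable (tau m₁ m₂) := (tau_mono m₁ m₂).measurable

theorem tau_le (h : ∀ t ∈ Icc (0 : ℝ) 1, m₁.tail t ≤ m₂.tail t) (t : NNReal) :
    tau m₁ m₂ t ≤ t := by
  show tauR m₁ m₂ t ≤ (t : ℝ)
  refine (csInf_le (bddBelow_hitSet m₁ m₂ t) (?_ : min (t : ℝ) 1 ∈ _)).trans (min_le_left _ _)
  exact ⟨⟨le_min t.2 zero_le_one, min_le_right _ _⟩,
    h _ ⟨le_min t.2 zero_le_one, min_le_right _ _⟩⟩

/-- Galois connection: `τ t ≤ s ↔ D₁ s ≤ D₂ t` for `s, t ∈ [0,1]`. -/
theorem tauR_le_iff {t : ℝ} (ht : t ∈ Icc (0 : ℝ) 1) {s : ℝ} (hs : s ∈ Icc (0 : ℝ) 1) :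
    tauR m₁ m₂ (Real.toNNReal t) ≤ s ↔ m₁.tail s ≤ m₂.tail t := by
  have hmin : min ((Real.toNNReal t : NNReal) : ℝ) 1 = t := by
    rw [Real.coe_toNNReal _ ht.1]; exact min_eq_left ht.2
  constructor
  · intro h
    have h1 := (tauR_mem m₁ m₂ (Real.toNNReal t)).2
    rw [hmin] at h1
    exact (tail_anti m₁ (tauR_nonneg m₁ m₂ _) h hs.2).trans h1
  · intro h
    refine csInf_le (bddBelow_hitSet m₁ m₂ _) ⟨hs, ?_⟩
    rw [hmin]; exact h

/-- The set of times `t ∈ [0,1]` with `D₂ t < D₁ 0`. -/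
def goodSet : Set ℝ := {t | t ∈ Icc (0 : ℝ) 1 ∧ m₂.tail t < m₁.tail 0}

theorem measurableSet_lt (m : OverlapProfile) (c : ℝ) :
    MeasurableSet {t | t ∈ Icc (0 : ℝ) 1 ∧ m.tail t < c} := by
  have h : {t | t ∈ Icc (0 : ℝ) 1 ∧ m.tail t < c} =
      Icc (0 : ℝ) 1 \ {t | t ∈ Icc (0 : ℝ) 1 ∧ c ≤ m.tail t} := by
    ext t
    simp only [mem_ofPred_eq, mem_sdiff, not_and, not_le]
    constructor
    · rintro ⟨h1, h2⟩; exact ⟨h1, fun _ => h2⟩
    · rintro ⟨h1, h2⟩; exact ⟨h1, h2 h1⟩
  rw [h]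
  refine measurableSet_Icc.diff ?_
  exact ((continuousOn_tail m).preimage_isClosed_of_isClosed isClosed_Icc
    (isClosed_Ici (a := c))).measurableSet

theorem measurableSet_goodSet : MeasurableSet (goodSet m₁ m₂) := measurableSet_lt m₂ _

theorem map_tau (h : ∀ t ∈ Icc (0 : ℝ) 1, m₁.tail t ≤ m₂.tail t) :
    ((massMeasure m₂).restrict (goodSet m₁ m₂)).map
      (fun t => ((tau m₁ m₂ (Real.toNNReal t) : NNReal) : ℝ)) = massMeasure m₁ := by
  have hmeas : Measurable (fun t : ℝ => ((tau m₁ m₂ (Real.toNNReal t) : NNReal) : ℝ)) :=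
    measurable_coe_nnreal_real.comp ((measurable_tau m₁ m₂).comp measurable_real_toNNReal)
  have h00 : m₁.tail 0 ≤ m₂.tail 0 := h 0 ⟨le_rfl, zero_le_one⟩
  have hμ1univ : massMeasure m₁ univ = ENNReal.ofReal (m₁.tail 0) := by
    have h1 : massMeasure m₁ univ = massMeasure m₁ (Icc (0 : ℝ) 1) := by
      rw [← measure_add_measure_compl (μ := massMeasure m₁) (measurableSet_Icc (a := (0 : ℝ)) (b := 1)),
        massMeasure_compl, add_zero]
    have h2 : massMeasure m₁ (Icc (0 : ℝ) 1) = massMeasure m₁ (Ioc (0 : ℝ) 1) := by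
      refine le_antisymm ?_ (measure_mono Ioc_subset_Icc_self)
      rw [← Ioc_union_left (zero_le_one' ℝ)]
      refine (measure_union_le _ _).trans ?_
      have : massMeasure m₁ {0} = 0 := by
        rw [massMeasure_apply m₁ (measurableSet_singleton 0)]
        refine le_antisymm ?_ zero_le
        refine (lintegral_mono_set inter_subset_left).trans ?_
        simp
      rw [this, add_zero]
    rw [h1, h2, massMeasure_Ioc m₁ le_rfl zero_le_one]
  have hIoi : ∀ s ∈ Icc (0 : ℝ) 1,
      (((massMeasure m₂).restrict (goodSet m₁ m₂)).map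
        (fun t => ((tau m₁ m₂ (Real.toNNReal t) : NNReal) : ℝ))) (Ioi s) =
        ENNReal.ofReal (m₁.tail s) := by
    intro s hs
    rw [Measure.map_apply hmeas measurableSet_Ioi,
      Measure.restrict_apply (hmeas measurableSet_Ioi)]
    have hset : (fun t => ((tau m₁ m₂ (Real.toNNReal t) : NNReal) : ℝ)) ⁻¹' Ioi s ∩ goodSet m₁ m₂ =
        {t | t ∈ Icc (0 : ℝ) 1 ∧ m₂.tail t < m₁.tail s} := by
      ext t
      simp only [mem_inter_iff, mem_preimage, mem_Ioi, goodSet, mem_ofPred_eq]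
      constructor
      · rintro ⟨h1, h2, _⟩
        refine ⟨h2, ?_⟩
        by_contra hcon
        push Not at hcon
        exact absurd ((tauR_le_iff m₁ m₂ h2 hs).2 hcon) (not_le.2 h1)
      · rintro ⟨h1, h2⟩
        refine ⟨?_, h1, h2.trans_le (tail_anti m₁ le_rfl hs.1 hs.2)⟩
        by_contra hcon
        push Not at hcon
        exact absurd ((tauR_le_iff m₁ m₂ h1 hs).1 hcon) (not_le.2 h2)
    rw [hset, massMeasure_lt m₂ (tail_nonneg m₁ hs.1 hs.2)
      ((tail_anti m₁ le_rfl hs.1 hs.2).trans h00)]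
  have huniv : (((massMeasure m₂).restrict (goodSet m₁ m₂)).map
        (fun t => ((tau m₁ m₂ (Real.toNNReal t) : NNReal) : ℝ))) univ =
        ENNReal.ofReal (m₁.tail 0) := by
    rw [Measure.map_apply hmeas MeasurableSet.univ, preimage_univ,
      Measure.restrict_apply MeasurableSet.univ, univ_inter]
    exact massMeasure_lt m₂ (tail_nonneg m₁ le_rfl zero_le_one) h00
  have : IsFiniteMeasure (((massMeasure m₂).restrict (goodSet m₁ m₂)).map
      (fun t => ((tau m₁ m₂ (Real.toNNReal t) : NNReal) : ℝ))) :=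
    Measure.isFiniteMeasure_map _ _
  refine Measure.ext_of_Iic _ _ fun s => ?_
  have hc : ∀ μ : Measure ℝ, IsFiniteMeasure μ → μ (Iic s) = μ univ - μ (Ioi s) := by
    intro μ hμ
    have h1 := measure_compl (μ := μ) (measurableSet_Ioi (a := s)) (measure_ne_top _ _)
    rwa [compl_Ioi] at h1
  rw [hc _ inferInstance, hc _ inferInstance, huniv, hμ1univ]
  congr 1
  rcases lt_or_ge s 0 with hs0 | hs0
  · -- everything is `> s`
    have e1 : (((massMeasure m₂).restrict (goodSet m₁ m₂)).map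
        (fun t => ((tau m₁ m₂ (Real.toNNReal t) : NNReal) : ℝ))) (Ioi s) =
        ENNReal.ofReal (m₁.tail 0) := by
      rw [← huniv, Measure.map_apply hmeas measurableSet_Ioi,
        Measure.map_apply hmeas MeasurableSet.univ]
      congr 1
      ext t
      simp only [mem_preimage, mem_Ioi, mem_univ, iff_true]
      exact hs0.trans_le (NNReal.coe_nonneg _)
    have e2 : massMeasure m₁ (Ioi s) = ENNReal.ofReal (m₁.tail 0) := by
      refine le_antisymm ((measure_mono (subset_univ _)).trans hμ1univ.le) ?_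
      rw [← massMeasure_Ioc m₁ le_rfl zero_le_one]
      exact measure_mono fun t ht => hs0.trans ht.1
    rw [e1, e2]
  rcases le_or_gt s 1 with hs1 | hs1
  · rw [hIoi s ⟨hs0, hs1⟩, ← massMeasure_Ioc m₁ hs0 hs1]
    refine le_antisymm (measure_mono fun t ht => ht.1) ?_
    have : Ioi s ⊆ Ioc s 1 ∪ (Icc (0 : ℝ) 1)ᶜ := by
      intro t ht
      by_cases ht1 : t ≤ 1
      · exact Or.inl ⟨ht, ht1⟩
      · exact Or.inr fun hc => ht1 hc.2
    refine (measure_mono this).trans ((measure_union_le _ _).trans ?_)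
    rw [massMeasure_compl, add_zero]
  · have e1 : (((massMeasure m₂).restrict (goodSet m₁ m₂)).map
        (fun t => ((tau m₁ m₂ (Real.toNNReal t) : NNReal) : ℝ))) (Ioi s) = 0 := by
      rw [Measure.map_apply hmeas measurableSet_Ioi]
      convert measure_empty (μ := (massMeasure m₂).restrict (goodSet m₁ m₂))
      ext t
      simp only [mem_preimage, mem_Ioi, mem_empty_iff_false, iff_false, not_lt]
      exact (tauR_le_one m₁ m₂ _).trans hs1.le
    have e2 : massMeasure m₁ (Ioi s) = 0 := by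
      refine le_antisymm ((measure_mono ?_).trans (massMeasure_compl m₁).le) zero_le
      intro t ht hc
      exact absurd hc.2 (not_le.2 (hs1.trans ht))
    rw [e1, e2]

end TimeChange

/-! ### The transported control -/

variable {Ω : Type*} [MeasurableSpace Ω]

open Classical in
/-- The transported control. -/
noncomputable def transport (m₁ m₂ : OverlapProfile) (v : NNReal → Ω → ℝ) : NNReal → Ω → ℝ :=
  fun t ω => (if (t : ℝ) ∈ goodSet m₁ m₂ then (1 : ℝ) else 0) * v (tau m₁ m₂ t) ω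

theorem isProgressive_det (F : Filtration NNReal ‹MeasurableSpace Ω›) {β : Type*}
    [MeasurableSpace β] {g : NNReal → β} (hg : Measurable g) :
    IsProgressive F (fun t (_ : Ω) => g t) := by
  intro i
  exact (hg.comp measurable_subtype_coe).comp measurable_fst

theorem isProgressive_transport {m₁ m₂ : OverlapProfile}
    (h : ∀ t ∈ Icc (0 : ℝ) 1, m₁.tail t ≤ m₂.tail t)
    (F : Filtration NNReal ‹MeasurableSpace Ω›) {v : NNReal → Ω → ℝ} (hv : IsProgressive F v) :
    IsProgressive F (transport m₁ m₂ v) := by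
  classical
  unfold transport
  refine IsProgressive.mul ?_ ?_
  · refine isProgressive_det F (g := fun t : NNReal => if (t : ℝ) ∈ goodSet m₁ m₂ then (1 : ℝ) else 0) ?_
    refine Measurable.ite ?_ measurable_const measurable_const
    exact measurable_coe_nnreal_real (measurableSet_goodSet m₁ m₂)
  · exact hv.comp (isProgressive_det F (measurable_tau m₁ m₂)) fun t _ => tau_le m₁ m₂ h t

/-- For a progressive `v` the path `s ↦ v_s(ω)`, cut at time `1`, is measurable. -/
theorem measurable_path (F : Filtration NNReal ‹MeasurableSpace Ω›) {v : NNReal → Ω → ℝ}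
    (hv : IsProgressive F v) (ω : Ω) :
    Measurable fun t : ℝ => v (Real.toNNReal (min t 1)) ω := by
  have h1 := hv 1
  have hfst : Measurable fun t : ℝ =>
      (⟨Real.toNNReal (min t 1), by
        simp only [mem_Iic]
        rw [← Real.toNNReal_one]
        exact Real.toNNReal_le_toNNReal (min_le_right _ _)⟩ : Iic (1 : NNReal)) := by
    refine Measurable.subtype_mk ?_
    exact measurable_real_toNNReal.comp (measurable_id.min measurable_const)
  exact (h1.comp (measurable_prodMk_right (y := ω))).comp hfst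

/-- Cost integrals against `dt` are integrals against the mass measure. -/
theorem lintegral_cost (m : OverlapProfile) (w : ℝ → ℝ) (hw : Measurable fun t => w (min t 1)) :
    ∫⁻ t in Icc (0 : ℝ) 1, ENNReal.ofReal (m.toFun t * w t ^ 2) =
      ∫⁻ t, ENNReal.ofReal (w (min t 1) ^ 2) ∂massMeasure m := by
  unfold massMeasure
  rw [lintegral_withDensity_eq_lintegral_mul _
    ((measurable_toFun m).ennreal_ofReal) ((hw.pow_const 2).ennreal_ofReal)]
  refine setLIntegral_congr_fun measurableSet_Icc fun t ht => ?_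
  simp only [Pi.mul_apply]
  rw [min_eq_left ht.2, ENNReal.ofReal_mul (m.nonneg t ht)]

theorem integral_displ (m : OverlapProfile) (w : ℝ → ℝ) :
    ∫ t in (0 : ℝ)..1, m.toFun t * w t = ∫ t, w (min t 1) ∂massMeasure m := by
  unfold massMeasure
  rw [integral_withDensity_eq_integral_toReal_smul ((measurable_toFun m).ennreal_ofReal)
    (Filter.Eventually.of_forall fun _ => ENNReal.ofReal_lt_top)]
  rw [intervalIntegral.integral_of_le zero_le_one, ← integral_Icc_eq_integral_Ioc]
  refine setIntegral_congr_fun measurableSet_Icc fun t ht => ?_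
  simp only [smul_eq_mul]
  rw [min_eq_left ht.2, ENNReal.toReal_ofReal (m.nonneg t ht)]

omit [MeasurableSpace Ω] in
theorem transport_path {m₁ m₂ : OverlapProfile} (v : NNReal → Ω → ℝ) (ω : Ω) (t : ℝ)
    (ht : t ∈ goodSet m₁ m₂) :
    transport m₁ m₂ v (Real.toNNReal t) ω = v (tau m₁ m₂ (Real.toNNReal t)) ω := by
  unfold transport
  rw [Real.coe_toNNReal _ ht.1.1, if_pos ht, one_mul]

omit [MeasurableSpace Ω] in
theorem transport_path' {m₁ m₂ : OverlapProfile} (v : NNReal → Ω → ℝ) (ω : Ω) (t : ℝ)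
    (ht0 : t ∈ Icc (0 : ℝ) 1) (ht : t ∉ goodSet m₁ m₂) :
    transport m₁ m₂ v (Real.toNNReal t) ω = 0 := by
  unfold transport
  rw [Real.coe_toNNReal _ ht0.1, if_neg ht, zero_mul]

theorem tau_fix {m₁ m₂ : OverlapProfile} (t : ℝ) :
    Real.toNNReal (min ((tau m₁ m₂ (Real.toNNReal t) : NNReal) : ℝ) 1) =
      tau m₁ m₂ (Real.toNNReal t) := by
  have h : ((tau m₁ m₂ (Real.toNNReal t) : NNReal) : ℝ) ≤ 1 := tauR_le_one m₁ m₂ _
  rw [min_eq_left h, Real.toNNReal_coe]

theorem lintegral_transport {m₁ m₂ : OverlapProfile}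
    (h : ∀ t ∈ Icc (0 : ℝ) 1, m₁.tail t ≤ m₂.tail t)
    (F : Filtration NNReal ‹MeasurableSpace Ω›) {v : NNReal → Ω → ℝ} (hv : IsProgressive F v)
    (ω : Ω) :
    ∫⁻ t in Icc (0 : ℝ) 1,
        ENNReal.ofReal (m₂.toFun t * transport m₁ m₂ v (Real.toNNReal t) ω ^ 2) =
      ∫⁻ t in Icc (0 : ℝ) 1, ENNReal.ofReal (m₁.toFun t * v (Real.toNNReal t) ω ^ 2) := by
  have hmeas : Measurable (fun t : ℝ => ((tau m₁ m₂ (Real.toNNReal t) : NNReal) : ℝ)) :=
    measurable_coe_nnreal_real.comp ((measurable_tau m₁ m₂).comp measurable_real_toNNReal)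
  rw [lintegral_cost m₂ (fun t => transport m₁ m₂ v (Real.toNNReal t) ω)
      (measurable_path F (isProgressive_transport h F hv) ω),
    lintegral_cost m₁ (fun t => v (Real.toNNReal t) ω) (measurable_path F hv ω)]
  rw [← map_tau m₁ m₂ h, lintegral_map ?_ hmeas]
  · have hg := measurableSet_goodSet m₁ m₂
    rw [← lintegral_add_compl _ hg]
    have hz : ∫⁻ t in (goodSet m₁ m₂)ᶜ,
        ENNReal.ofReal (transport m₁ m₂ v (Real.toNNReal (min t 1)) ω ^ 2) ∂massMeasure m₂ = 0 := by
      have h0 : ∀ᵐ t ∂(massMeasure m₂).restrict (goodSet m₁ m₂)ᶜ,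
          ENNReal.ofReal (transport m₁ m₂ v (Real.toNNReal (min t 1)) ω ^ 2) = 0 := by
        rw [ae_restrict_iff' hg.compl]
        have hI : ∀ᵐ t ∂massMeasure m₂, t ∈ Icc (0 : ℝ) 1 := by
          rw [ae_iff]; exact massMeasure_compl m₂
        filter_upwards [hI] with t ht htg
        rw [min_eq_left ht.2, transport_path' v ω t ht htg]
        simp
      rw [lintegral_congr_ae h0]
      simp
    rw [hz, add_zero]
    refine setLIntegral_congr_fun hg fun t ht => ?_
    show ENNReal.ofReal (transport m₁ m₂ v (Real.toNNReal (min t 1)) ω ^ 2) = _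
    rw [min_eq_left ht.1.2, transport_path v ω t ht, tau_fix]
  · exact ((measurable_path F hv ω).pow_const 2).ennreal_ofReal

theorem integral_transport {m₁ m₂ : OverlapProfile}
    (h : ∀ t ∈ Icc (0 : ℝ) 1, m₁.tail t ≤ m₂.tail t)
    (F : Filtration NNReal ‹MeasurableSpace Ω›) {v : NNReal → Ω → ℝ} (hv : IsProgressive F v)
    (ω : Ω) :
    ∫ t in (0 : ℝ)..1, m₂.toFun t * transport m₁ m₂ v (Real.toNNReal t) ω =
      ∫ t in (0 : ℝ)..1, m₁.toFun t * v (Real.toNNReal t) ω := by
  have hmeas : Measurable (fun t : ℝ => ((tau m₁ m₂ (Real.toNNReal t) : NNReal) : ℝ)) :=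
    measurable_coe_nnreal_real.comp ((measurable_tau m₁ m₂).comp measurable_real_toNNReal)
  rw [integral_displ m₂ (fun t => transport m₁ m₂ v (Real.toNNReal t) ω),
    integral_displ m₁ (fun t => v (Real.toNNReal t) ω)]
  rw [← map_tau m₁ m₂ h, integral_map hmeas.aemeasurable
    (measurable_path F hv ω).aestronglyMeasurable]
  have hg := measurableSet_goodSet m₁ m₂
  rw [← integral_indicator hg]
  refine integral_congr_ae ?_
  have hI : ∀ᵐ t ∂massMeasure m₂, t ∈ Icc (0 : ℝ) 1 := by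
    rw [ae_iff]; exact massMeasure_compl m₂
  filter_upwards [hI] with t ht
  by_cases htg : t ∈ goodSet m₁ m₂
  · rw [indicator_of_mem htg, min_eq_left ht.2, transport_path v ω t htg, tau_fix]
  · rw [indicator_of_notMem htg, min_eq_left ht.2, transport_path' v ω t ht htg]

/-! ### Monotonicity of the control value -/

variable (P : Measure Ω) (B : NNReal → Ω → ℝ) (hB : ∀ t, Measurable (B t))

theorem controlCost_transport {m₁ m₂ : OverlapProfile}
    (h : ∀ t ∈ Icc (0 : ℝ) 1, m₁.tail t ≤ m₂.tail t) {v : NNReal → Ω → ℝ}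
    (hv : IsProgressive (brownianFiltration B hB) v) :
    controlCost P m₂ (transport m₁ m₂ v) = controlCost P m₁ v := by
  unfold controlCost
  exact lintegral_congr fun ω => lintegral_transport h _ hv ω

theorem isAdmissible_transport {m₁ m₂ : OverlapProfile}
    (h : ∀ t ∈ Icc (0 : ℝ) 1, m₁.tail t ≤ m₂.tail t) {v : NNReal → Ω → ℝ}
    (hv : IsAdmissibleControl P B hB m₁ v) :
    IsAdmissibleControl P B hB m₂ (transport m₁ m₂ v) := by
  refine ⟨isProgressive_transport h _ hv.1, ?_⟩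
  rw [controlCost_transport P B hB h hv.1]
  exact hv.2

theorem controlPayoff_transport (f : ℝ → ℝ) {m₁ m₂ : OverlapProfile}
    (h : ∀ t ∈ Icc (0 : ℝ) 1, m₁.tail t ≤ m₂.tail t) {v : NNReal → Ω → ℝ}
    (hv : IsProgressive (brownianFiltration B hB) v) :
    controlPayoff P B f m₂ (transport m₁ m₂ v) = controlPayoff P B f m₁ v := by
  unfold controlPayoff
  rw [controlCost_transport P B hB h hv]
  congr 1
  refine integral_congr_ae (Filter.Eventually.of_forall fun ω => ?_)
  simp only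
  rw [integral_transport h _ hv ω]

/-- The zero control is admissible. -/
theorem isAdmissible_zero (m : OverlapProfile) :
    IsAdmissibleControl P B hB m (fun _ _ => 0) := by
  refine ⟨isProgressive_const _ 0, ?_⟩
  simp [controlCost]

/-- Payoffs are bounded above when `f` is. -/
theorem bddAbove_payoffs [IsProbabilityMeasure P] {f : ℝ → ℝ} {K : ℝ} (hf : ∀ x, f x ≤ K)
    (m : OverlapProfile) :
    BddAbove {x : ℝ | ∃ v : NNReal → Ω → ℝ, IsAdmissibleControl P B hB m v ∧
      x = controlPayoff P B f m v} := by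
  refine ⟨max K 0, ?_⟩
  rintro x ⟨v, _, rfl⟩
  unfold controlPayoff
  have h2 : 0 ≤ (controlCost P m v).toReal / 2 := by positivity
  have h1 : ∫ ω, f (B 1 ω + ∫ t in (0 : ℝ)..1, m.toFun t * v (Real.toNNReal t) ω) ∂P ≤ max K 0 := by
    by_cases hi : Integrable
        (fun ω => f (B 1 ω + ∫ t in (0 : ℝ)..1, m.toFun t * v (Real.toNNReal t) ω)) P
    · calc _ ≤ ∫ _ω, K ∂P := integral_mono hi (integrable_const K) fun ω => hf _
        _ = K := by simp
        _ ≤ max K 0 := le_max_left _ _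
    · rw [integral_undef hi]; exact le_max_right _ _
  linarith

/-- **Node (7) of post 308**: the control value is monotone in the tail `D_m(t) = ∫_t^1 m`, for all
overlap profiles and all `f` bounded above. -/
theorem controlValue_mono_of_tail_le [IsProbabilityMeasure P] {f : ℝ → ℝ} {K : ℝ}
    (hf : ∀ x, f x ≤ K) {m₁ m₂ : OverlapProfile}
    (h : ∀ t ∈ Icc (0 : ℝ) 1, m₁.tail t ≤ m₂.tail t) :
    controlValue P B hB f m₁ ≤ controlValue P B hB f m₂ := by
  unfold controlValue
  refine csSup_le_csSup (bddAbove_payoffs P B hB hf m₂)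
    ⟨_, _, isAdmissible_zero P B hB m₁, rfl⟩ ?_
  rintro x ⟨v, hv, rfl⟩
  exact ⟨transport m₁ m₂ v, isAdmissible_transport P B hB h hv,
    (controlPayoff_transport P B hB f h hv.1).symm⟩

/-- The control value only depends on the tail. -/
theorem controlValue_congr_tail [IsProbabilityMeasure P] {f : ℝ → ℝ} {K : ℝ}
    (hf : ∀ x, f x ≤ K) {m₁ m₂ : OverlapProfile}
    (h : ∀ t ∈ Icc (0 : ℝ) 1, m₁.tail t = m₂.tail t) :
    controlValue P B hB f m₁ = controlValue P B hB f m₂ :=
  le_antisymm (controlValue_mono_of_tail_le P B hB hf fun t ht => (h t ht).le)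
    (controlValue_mono_of_tail_le P B hB hf fun t ht => (h t ht).ge)

end Crest.Agent.R146.Mono_930
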