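import Mathlib
import Crest.Agent.R146.NLevB_918

/-!
Row 146, node NLEV, part C (helper918): differentiability of the variational value along test
functions.

* `LT_mid`, `pert_mid` : midpoint convexity of the perturbed pressures;
* `hasDerivAt_of_touch` : a midpoint convex function touched from above by a differentiable function;
* `derPv_of_touch` : `DerPv` from `EpsAt` and a differentiable upper bound with contact at `0`;
* `derPv_of_min` : the version with a minimiser of the variational functional.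
-/

set_option linter.unusedSectionVars false

namespace Crest.Agent.R146.NLev918

open MeasureTheory Filter Topology
open Crest.ProbabilityR.Perceptron
open Crest.Agent.R146.Obs918 (TP joint emp MeanEmp ForceLim GoodWeight)
open Crest.Agent.R146.P34_734
open Crest.Agent.R146.ObsC_548 (pertPressure)
open Crest.Agent.R146.ObsB_548 (LT)

/-! ### Midpoint convexity -/

lemma LT_mid {Ω Y : Type*} [MeasurableSpace Ω] [MeasurableSpace Y] {σ : Measure Y}
    [IsFiniteMeasure σ] {w : Ω → Y → ℝ} (hw : GoodWeight σ w) {S : Ω × Y → ℝ}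
    (hS : Measurable S) (hSb : ∃ K : ℝ, ∀ p, |S p| ≤ K) (t : ℝ) (ω : Ω) :
    2 * LT σ w S 0 ω ≤ LT σ w S t ω + LT σ w S (-t) ω := by
  have h1 := ObsB_548.tilt_pos hw hS hSb t ω
  have h2 := ObsB_548.tilt_pos hw hS hSb (-t) ω
  have h0 := ObsB_548.tilt_pos hw hS hSb 0 ω
  have i1 := ObsB_548.tilt_int hw hS hSb t ω
  have i2 := ObsB_548.tilt_int hw hS hSb (-t) ω
  have i0 := ObsB_548.tilt_int hw hS hSb 0 ω
  set z1 := ∫ y, Real.exp (t * S (ω, y)) * w ω y ∂σ with hz1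
  set z2 := ∫ y, Real.exp (-t * S (ω, y)) * w ω y ∂σ with hz2
  set z0 := ∫ y, Real.exp (0 * S (ω, y)) * w ω y ∂σ with hz0
  have hs : 0 < σ.real Set.univ := by
    rw [measureReal_def]
    exact ENNReal.toReal_pos (by simpa [Measure.measure_univ_eq_zero] using hw.ne)
      (measure_ne_top _ _)
  have key : ∀ c : ℝ, 2 * c * z0 ≤ z1 + c ^ 2 * z2 := by
    intro c
    have e1 : z1 + c ^ 2 * z2 = ∫ y, (Real.exp (t * S (ω, y)) * w ω y +
        c ^ 2 * (Real.exp (-t * S (ω, y)) * w ω y)) ∂σ := by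
      rw [integral_add i1 (i2.const_mul _), integral_const_mul]
    have e2 : 2 * c * z0 = ∫ y, 2 * c * (Real.exp (0 * S (ω, y)) * w ω y) ∂σ := by
      rw [integral_const_mul]
    rw [e1, e2]
    refine integral_mono (i0.const_mul _) (i1.add (i2.const_mul _)) fun y => ?_
    have hwp := (hw.pos ω y).le
    set a := Real.exp (t / 2 * S (ω, y)) with ha
    set b := Real.exp (-(t / 2) * S (ω, y)) with hb
    have ea : Real.exp (t * S (ω, y)) = a ^ 2 := by
      rw [ha, ← Real.exp_nat_mul]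
      congr 1
      push_cast
      ring
    have eb : Real.exp (-t * S (ω, y)) = b ^ 2 := by
      rw [hb, ← Real.exp_nat_mul]
      congr 1
      push_cast
      ring
    have eab : a * b = 1 := by
      rw [ha, hb, ← Real.exp_add]
      rw [show t / 2 * S (ω, y) + -(t / 2) * S (ω, y) = 0 by ring, Real.exp_zero]
    simp only [zero_mul, Real.exp_zero, one_mul]
    rw [ea, eb]
    have h3 : 2 * c ≤ a ^ 2 + c ^ 2 * b ^ 2 := by
      have h4 := sq_nonneg (a - c * b)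
      have h5 : (a - c * b) ^ 2 = a ^ 2 + c ^ 2 * b ^ 2 - 2 * c * (a * b) := by ring
      rw [h5, eab] at h4
      linarith
    nlinarith [mul_le_mul_of_nonneg_right h3 hwp]
  have hprod : z0 ^ 2 ≤ z1 * z2 := by
    have h3 := key (z0 / z2)
    have h4 : 2 * (z0 / z2) * z0 * z2 ≤ (z1 + (z0 / z2) ^ 2 * z2) * z2 :=
      mul_le_mul_of_nonneg_right h3 h2.le
    have e1 : 2 * (z0 / z2) * z0 * z2 = 2 * z0 ^ 2 := by
      field_simp
    have e2 : (z1 + (z0 / z2) ^ 2 * z2) * z2 = z1 * z2 + z0 ^ 2 := by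
      field_simp
    rw [e1, e2] at h4
    linarith
  have hL : LT σ w S t ω + LT σ w S (-t) ω - 2 * LT σ w S 0 ω =
      Real.log (z1 * z2) - Real.log (z0 ^ 2) := by
    unfold ObsB_548.LT
    rw [← hz1, ← hz2, ← hz0, Real.log_div h1.ne' hs.ne', Real.log_div h2.ne' hs.ne',
      Real.log_div h0.ne' hs.ne', Real.log_mul h1.ne' h2.ne', Real.log_pow]
    push_cast
    ring
  have := Real.log_le_log (by positivity) hprod
  linarith

lemma memLp_LT_mix {ε : ℝ} (hε0 : 0 ≤ ε) (hε1 : ε ≤ 1) {N : ℕ} (hN : 0 < N) (α : ℝ) {β : ℝ}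
    (hβ : 0 ≤ β) (s : ℝ) {ψ : ℝ → ℝ} (hψ : Measurable ψ) {K : ℝ} (hK : ∀ x, |ψ x| ≤ K) :
    Integrable (LT (sphereLaw N) (ObsC_548.wg N α β) (ObsC_548.So N α ψ) s)
      (patternLawMix N α ε) := by
  have hK0 : 0 ≤ K := (abs_nonneg _).trans (hK 0)
  have hg := RepairLaw_840.good_mixtureLaw ε hε0 hε1
  have hp := hg.prob
  have hf := ObsC_548.finite_sphere N
  have h1 := ObsC_548.dvar_LT_le hg hN α hβ s hψ hK0 hK
  have h2 : MemLp (LT (sphereLaw N) (ObsC_548.wg N α β) (ObsC_548.So N α ψ) s) 2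
      (Measure.pi fun _ : Fin (numPatterns N α) × Fin N => mixtureLaw ε) := by
    refine ObsB_548.memLp_of_dvar ?_ (ne_top_of_le_ne_top ENNReal.ofReal_ne_top h1)
    exact ObsB_548.measurable_LT (ObsC_548.goodWeight hN α hβ) (ObsC_548.measurable_So N α hψ) s
  exact h2.integrable one_le_two

/-- Midpoint convexity of the averaged perturbed pressure. -/
lemma pert_mid {ε : ℝ} (hε0 : 0 ≤ ε) (hε1 : ε ≤ 1) {N : ℕ} (hN : 0 < N) (α : ℝ) {β : ℝ}
    (hβ : 0 ≤ β) (h : ℝ) {ψ : ℝ → ℝ} (hψ : Measurable ψ) {K : ℝ} (hK : ∀ x, |ψ x| ≤ K) :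
    2 * ∫ A, pertPressure N α β ψ 0 A ∂(patternLawMix N α ε) ≤
      ∫ A, pertPressure N α β ψ h A ∂(patternLawMix N α ε) +
        ∫ A, pertPressure N α β ψ (-h) A ∂(patternLawMix N α ε) := by
  have hf := ObsC_548.finite_sphere N
  have i1 := (memLp_LT_mix hε0 hε1 hN α hβ h hψ hK).div_const (N : ℝ)
  have i2 := (memLp_LT_mix hε0 hε1 hN α hβ (-h) hψ hK).div_const (N : ℝ)
  have i0 := (memLp_LT_mix hε0 hε1 hN α hβ 0 hψ hK).div_const (N : ℝ)
  simp only [ObsC_548.pertPressure_eq]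
  rw [← integral_add i1 i2, ← integral_const_mul]
  refine integral_mono (i0.const_mul 2) (i1.add i2) fun A => ?_
  have h1 := LT_mid (ObsC_548.goodWeight hN α hβ) (ObsC_548.measurable_So N α hψ)
    ⟨_, ObsC_548.So_bdd N α hK⟩ h A
  have hNR : (0 : ℝ) < N := by exact_mod_cast hN
  rw [← add_div, mul_div_assoc']
  exact div_le_div_of_nonneg_right h1 hNR.le

/-- Midpoint inequality for the limit. -/
theorem mid_of_epsAt {W : BS} {α b ε : ℝ} (hb : 0 ≤ b) (hε0 : 0 ≤ ε) (hε1 : ε ≤ 1)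
    (hE : EpsAt W α b ε) {ψ : ℝ → ℝ} (hψ : Test ψ) :
    ∃ h0 : ℝ, 0 < h0 ∧ ∀ h : ℝ, |h| ≤ h0 →
      2 * W.Pv α (fun x => fq b (-1) x + 0 * ψ x) ≤
        W.Pv α (fun x => fq b (-1) x + h * ψ x) + W.Pv α (fun x => fq b (-1) x + (-h) * ψ x) := by
  obtain ⟨h0, hh0, hlim⟩ := hE ψ hψ
  refine ⟨h0, hh0, fun h hh => ?_⟩
  have l0 := hlim 0 (by simpa using hh0.le)
  have l1 := hlim h hh
  have l2 := hlim (-h) (by rwa [abs_neg])
  refine le_of_tendsto_of_tendsto (l0.const_mul 2) (l1.add l2) ?_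
  filter_upwards [eventually_gt_atTop 0] with N hN
  have hψ' : Test fun x => ψ (-1 + x) := Test.shift hψ (-1)
  obtain ⟨K, hK⟩ := Test.bdd hψ'
  have e : ∀ s : ℝ, ∫ A, pertPressure N α b (fun x => ψ (-1 + x)) s A ∂(patternLawMix N α ε) =
      pM N α ε (fun x => fq b (-1) x + s * ψ x) := by
    intro s
    rw [pertPressure_mean]
    congr 1
    funext x
    rw [show (-1 : ℝ) + (1 + x) = x by ring]
  have h1 := pert_mid hε0 hε1 hN α hb h (Test.measurable hψ') hK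
  rw [e, e, e] at h1
  exact h1

/-! ### Touching -/

lemma hasDerivAt_of_touch {p u : ℝ → ℝ} {L h0 : ℝ} (hh0 : 0 < h0)
    (hmid : ∀ h, |h| ≤ h0 → 2 * p 0 ≤ p h + p (-h)) (hup : ∀ h, |h| ≤ h0 → p h ≤ u h)
    (h00 : p 0 = u 0) (hu : HasDerivAt u L 0) : HasDerivAt p L 0 := by
  rw [hasDerivAt_iff_isLittleO] at hu ⊢
  rw [Asymptotics.isLittleO_iff] at hu ⊢
  intro c hc
  have h1 := hu hc
  have h2 : ∀ᶠ h in 𝓝 (0 : ℝ), ‖u (-h) - u 0 - (-h - 0) • L‖ ≤ c * ‖-h - 0‖ := by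
    have ht : Tendsto (fun h : ℝ => -h) (𝓝 0) (𝓝 0) := by
      have := (continuous_neg (G := ℝ)).tendsto 0
      rwa [neg_zero] at this
    exact ht.eventually h1
  have h3 : ∀ᶠ h in 𝓝 (0 : ℝ), |h| ≤ h0 := by
    have : Set.Icc (-h0) h0 ∈ 𝓝 (0 : ℝ) := Icc_mem_nhds (by linarith) hh0
    filter_upwards [this] with h hh
    exact abs_le.2 hh
  filter_upwards [h1, h2, h3] with h e1 e2 e3
  have e4 : |(-h)| ≤ h0 := by rwa [abs_neg]
  have a1 := hmid h e3
  have a2 := hup h e3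
  have a3 := hup (-h) e4
  simp only [sub_zero, Real.norm_eq_abs, smul_eq_mul, abs_neg] at e1 e2 ⊢
  rw [abs_le] at e1 e2 ⊢
  constructor <;> nlinarith [e1.1, e1.2, e2.1, e2.2]

/-- `DerPv` from `EpsAt` at one `ε` and, for every test function, a differentiable upper bound
with contact at `0`. -/
theorem derPv_of_touch {W : BS} {α b ε : ℝ} (hb : 0 ≤ b) (hε0 : 0 ≤ ε) (hε1 : ε ≤ 1)
    (hE : EpsAt W α b ε) {μ : Measure ℝ}
    (hT : ∀ ψ : ℝ → ℝ, Test ψ → ∃ u : ℝ → ℝ, HasDerivAt u (α * ∫ x, ψ x ∂μ) 0 ∧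
      (∀ h, W.Pv α (fun x => fq b (-1) x + h * ψ x) ≤ u h) ∧
      u 0 = W.Pv α (fun x => fq b (-1) x + 0 * ψ x)) : DerPv W α b μ := by
  intro ψ hψ
  obtain ⟨h0, hh0, hmid⟩ := mid_of_epsAt hb hε0 hε1 hE hψ
  obtain ⟨u, hu, hup, hu0⟩ := hT ψ hψ
  exact hasDerivAt_of_touch hh0 hmid (fun h _ => hup h) hu0.symm hu

/-- The set of values is bounded below (from the zero control). -/
lemma bddBelow_vals {W : BS} (hZ : VZERO W) {α b k : ℝ} (hα : 0 ≤ α) (hb : 0 < b) {ψ : ℝ → ℝ}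
    (hψ : Continuous ψ) (hK : ∃ K, ∀ x, |ψ x| ≤ K) :
    BddBelow (W.vals α (fun x => fq b k x + ψ x)) := by
  refine ⟨α * ∫ z, (fq b k z + ψ z) ∂(ProbabilityTheory.gaussianReal 0 1), ?_⟩
  rintro x ⟨m, -, rfl⟩
  have h1 := hZ b k hb ψ hψ hK m
  have h2 := mul_le_mul_of_nonneg_left h1 hα
  have h3 : 0 ≤ m.entropy.toReal := ENNReal.toReal_nonneg
  linarith

/-- **`DerPv` from a minimiser**: the control value at the minimiser is differentiable along test
functions. -/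
theorem derPv_of_min {W : BS} (hZ : VZERO W) {α b ε : ℝ} (hα : 0 < α) (hb : 0 < b)
    (hε0 : 0 ≤ ε) (hε1 : ε ≤ 1) (hE : EpsAt W α b ε) {μ : Measure ℝ} {m : OverlapProfile}
    (hm : m.entropy ≠ ⊤) (hmin : W.Pv α (fq b (-1)) = α * W.V (fq b (-1)) m + m.entropy.toReal)
    (hder : ∀ ψ : ℝ → ℝ, Test ψ → HasDerivAt (fun h => W.V (fun x => fq b (-1) x + h * ψ x) m)
      (∫ x, ψ x ∂μ) 0) : DerPv W α b μ := by
  refine derPv_of_touch hb.le hε0 hε1 hE fun ψ hψ => ?_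
  refine ⟨fun h => α * W.V (fun x => fq b (-1) x + h * ψ x) m + m.entropy.toReal, ?_, ?_, ?_⟩
  · exact ((hder ψ hψ).const_mul α).add_const _
  · intro h
    refine csInf_le ?_ ⟨m, hm, rfl⟩
    obtain ⟨K, hK⟩ := Test.bdd hψ
    refine bddBelow_vals hZ hα.le hb ((Test.continuous hψ).const_mul h) ⟨|h| * K, fun x => ?_⟩
    rw [abs_mul]
    exact mul_le_mul_of_nonneg_left (hK x) (abs_nonneg _)
  · have e : (fun x => fq b (-1) x + 0 * ψ x) = fq b (-1) := by
      funext x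
      rw [zero_mul, add_zero]
    simp only [e]
    rw [hmin]

end Crest.Agent.R146.NLev918
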