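import Crest.Agent.R146.PLim_857

/-!
# Row 146 (helper857): fine configuration spaces and exponentials of Lipschitz functions

`near_exp` : for `U` with `|U u - U v| ≤ Λ ∑ |u i - v i|` and `C` near the sphere,
`(1 - ε) ∫ exp (U (√N y)) ≤ ∑ q exp (U x) ≤ (1 + ε) ∫ exp (U (√N y))`.
-/

set_option autoImplicit false
set_option linter.unusedSectionVars false
set_option linter.style.haveILetI false

namespace Crest.Agent.R146.NearExp857

open Finset MeasureTheory ProbabilityTheory
open Crest.Agent.R146.S6Def_988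
open Crest.ProbabilityR.Perceptron
open Crest.Agent.R146.Sph857 Crest.Agent.R146.Disc857

theorem abs_coord_le {N : ℕ} {x : Fin N → ℝ} (hx : ∑ i, x i ^ 2 = N) (i : Fin N) :
    |x i| ≤ Real.sqrt N := by
  rw [← Real.sqrt_sq_eq_abs]
  refine Real.sqrt_le_sqrt ?_
  rw [← hx]
  exact Finset.single_le_sum (f := fun j => x j ^ 2) (fun j _ => sq_nonneg _) (Finset.mem_univ i)

theorem sum_abs_coord_le {N : ℕ} {x : Fin N → ℝ} (hx : ∑ i, x i ^ 2 = N) :
    ∑ i, |x i| ≤ N * Real.sqrt N := by
  calc ∑ i, |x i| ≤ ∑ _i : Fin N, Real.sqrt N := Finset.sum_le_sum fun i _ => abs_coord_le hx i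
    _ = N * Real.sqrt N := by simp

theorem sum_sq_scaled {N : ℕ} (w : UnitSphere N) : ∑ i, (Real.sqrt N * ys w i) ^ 2 = N := by
  simp only [mul_pow, ← Finset.mul_sum, sum_ys_sq, mul_one]
  exact Real.sq_sqrt (Nat.cast_nonneg N)

theorem abs_max_min_sub_le (B a b : ℝ) :
    |max (-B) (min B a) - max (-B) (min B b)| ≤ |a - b| := by
  calc |max (-B) (min B a) - max (-B) (min B b)| ≤ |min B a - min B b| := by
        have := abs_max_sub_max_le_max (-B) (min B a) (-B) (min B b)
        simpa using this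
    _ ≤ |a - b| := by
        have := abs_min_sub_min_le_max B a B b
        simpa using this

/-- multiplicative closeness -/
theorem near_exp (N : ℕ) (hN : 0 < N) (Λ : ℝ) {ε : ℝ} (hε : 0 < ε) : ∃ δ : ℝ, 0 < δ ∧
    ∀ C : Cfg N, Near C δ → ∀ U : (Fin N → ℝ) → ℝ,
      (∀ u v, |U u - U v| ≤ Λ * ∑ i, |u i - v i|) →
      (1 - ε) * ∫ y, Real.exp (U fun i => Real.sqrt N * ys y i) ∂(sph N) ≤
          ∑ y, C.q y * Real.exp (U (C.x y)) ∧
      ∑ y, C.q y * Real.exp (U (C.x y)) ≤
          (1 + ε) * ∫ y, Real.exp (U fun i => Real.sqrt N * ys y i) ∂(sph N) := by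
  haveI := isProbabilityMeasure_sph hN.ne'
  set Λ' : ℝ := max Λ 0 with hΛ'
  have hΛ0 : 0 ≤ Λ' := le_max_right _ _
  set B : ℝ := Λ' * (N * Real.sqrt N) with hB
  have hB0 : 0 ≤ B := by positivity
  set A : ℝ := Real.exp B * Λ' + 1 with hA
  have hA0 : 0 < A := by positivity
  refine ⟨ε * Real.exp (-B) / A, by positivity, ?_⟩
  intro C hC U hU
  have hU' : ∀ u v, |U u - U v| ≤ Λ' * ∑ i, |u i - v i| := fun u v =>
    (hU u v).trans (mul_le_mul_of_nonneg_right (le_max_left _ _)
      (Finset.sum_nonneg fun i _ => abs_nonneg _))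
  have hUb : ∀ x : Fin N → ℝ, ∑ i, x i ^ 2 = N → |U x - U 0| ≤ B := by
    intro x hx
    refine (hU' x 0).trans ?_
    rw [hB]
    refine mul_le_mul_of_nonneg_left ?_ hΛ0
    simpa using sum_abs_coord_le hx
  set V : (Fin N → ℝ) → ℝ := fun x => max (-B) (min B (U x - U 0)) with hV
  have hVb : ∀ x, |V x| ≤ B := by
    intro x
    rw [hV, abs_le]
    exact ⟨le_max_left _ _, max_le (by linarith) (min_le_left _ _)⟩
  have hVeq : ∀ x : Fin N → ℝ, ∑ i, x i ^ 2 = N → V x = U x - U 0 := by
    intro x hx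
    obtain ⟨h1, h2⟩ := abs_le.mp (hUb x hx)
    simp only [hV]
    rw [min_eq_right h2, max_eq_right h1]
  have hVl : ∀ u v, |V u - V v| ≤ Λ' * ∑ i, |u i - v i| := by
    intro u v
    refine (abs_max_min_sub_le B _ _).trans ?_
    have : U u - U 0 - (U v - U 0) = U u - U v := by ring
    rw [this]; exact hU' u v
  have hlip : ∀ u v, |A⁻¹ * Real.exp (V u) - A⁻¹ * Real.exp (V v)| ≤ ∑ i, |u i - v i| := by
    intro u v
    have hs : 0 ≤ ∑ i, |u i - v i| := Finset.sum_nonneg fun i _ => abs_nonneg _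
    rw [← mul_sub, abs_mul, abs_of_pos (inv_pos.mpr hA0), inv_mul_le_iff₀ hA0]
    calc |Real.exp (V u) - Real.exp (V v)| ≤ Real.exp B * |V u - V v| :=
          abs_exp_sub_exp_le (hVb u) (hVb v)
      _ ≤ Real.exp B * (Λ' * ∑ i, |u i - v i|) := by gcongr; exact hVl u v
      _ ≤ A * ∑ i, |u i - v i| := by rw [hA]; nlinarith
  have hnear := hC (fun x => A⁻¹ * Real.exp (V x)) hlip
  -- rewrite both sides
  have e1 : ∑ y, C.q y * (A⁻¹ * Real.exp (V (C.x y))) =
      A⁻¹ * (Real.exp (-U 0) * ∑ y, C.q y * Real.exp (U (C.x y))) := by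
    rw [Finset.mul_sum, Finset.mul_sum]
    refine Finset.sum_congr rfl fun y _ => ?_
    rw [hVeq _ (C.hx y), sub_eq_add_neg, Real.exp_add]
    ring
  have e2 : ∫ y, A⁻¹ * Real.exp (V fun i => Real.sqrt N * (y : EuclideanSpace ℝ (Fin N)) i) ∂(sph N) =
      A⁻¹ * (Real.exp (-U 0) * ∫ y, Real.exp (U fun i => Real.sqrt N * ys y i) ∂(sph N)) := by
    rw [integral_const_mul, ← integral_const_mul (Real.exp (-U 0))]
    congr 1
    refine integral_congr_ae (Filter.Eventually.of_forall fun y => ?_)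
    simp only
    have := hVeq _ (sum_sq_scaled y)
    simp only [ys] at this
    rw [this, sub_eq_add_neg, Real.exp_add, mul_comm]
    rfl
  have hlow : Real.exp (-B) ≤ Real.exp (-U 0) *
      ∫ y, Real.exp (U fun i => Real.sqrt N * ys y i) ∂(sph N) := by
    have hcont : Continuous U := by
      have h0 : ∀ u v, |(Λ' + 1)⁻¹ * U u - (Λ' + 1)⁻¹ * U v| ≤ ∑ i, |u i - v i| := by
        intro u v
        have hs : 0 ≤ ∑ i, |u i - v i| := Finset.sum_nonneg fun i _ => abs_nonneg _
        have hp : (0 : ℝ) < Λ' + 1 := by linarith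
        rw [← mul_sub, abs_mul, abs_of_pos (inv_pos.mpr hp), inv_mul_le_iff₀ hp]
        calc |U u - U v| ≤ Λ' * ∑ i, |u i - v i| := hU' u v
          _ ≤ (Λ' + 1) * ∑ i, |u i - v i| := by nlinarith
      have h1 := continuous_of_l1 h0
      have h2 : U = fun x => (Λ' + 1) * ((Λ' + 1)⁻¹ * U x) := by
        funext x
        have hp : (0 : ℝ) < Λ' + 1 := by linarith
        field_simp
      rw [h2]
      exact continuous_const.mul h1
    have hci : Integrable (fun y : UnitSphere N => Real.exp (U fun i => Real.sqrt N * ys y i))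
        (sph N) := by
      refine Continuous.integrable_of_hasCompactSupport ?_ (HasCompactSupport.of_compactSpace _)
      exact Real.continuous_exp.comp (hcont.comp (continuous_pi fun i =>
        continuous_const.mul ((continuous_apply i).comp continuous_ys)))
    rw [← integral_const_mul]
    calc Real.exp (-B) = ∫ _y : UnitSphere N, Real.exp (-B) ∂(sph N) := by simp
      _ ≤ _ := by
        refine integral_mono (integrable_const _) (hci.const_mul _) fun y => ?_
        simp only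
        rw [← Real.exp_add]
        refine Real.exp_le_exp.mpr ?_
        have := (abs_le.mp (hUb _ (sum_sq_scaled y))).1
        linarith
  rw [e1, e2, ← mul_sub, abs_mul, abs_of_pos (inv_pos.mpr hA0), inv_mul_le_iff₀ hA0,
    ← mul_sub, abs_mul, abs_of_pos (Real.exp_pos _)] at hnear
  have hA' : A * (ε * Real.exp (-B) / A) = ε * Real.exp (-B) := by field_simp
  rw [hA'] at hnear
  have h3 : Real.exp (-U 0) * |∑ y, C.q y * Real.exp (U (C.x y)) -
      ∫ y, Real.exp (U fun i => Real.sqrt N * ys y i) ∂(sph N)| ≤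
      Real.exp (-U 0) * (ε * ∫ y, Real.exp (U fun i => Real.sqrt N * ys y i) ∂(sph N)) := by
    refine hnear.trans ?_
    calc ε * Real.exp (-B) ≤ ε * (Real.exp (-U 0) *
          ∫ y, Real.exp (U fun i => Real.sqrt N * ys y i) ∂(sph N)) := by gcongr
      _ = _ := by ring
  have h4 := le_of_mul_le_mul_left h3 (Real.exp_pos _)
  obtain ⟨h5, h6⟩ := abs_le.mp h4
  constructor <;> linarith

end Crest.Agent.R146.NearExp857
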