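import Crest.Agent.R146.Sph1_409

/-!
# Row 146, SPHERE part 2 (helper409): norm concentration and the new coordinate

* `integral_norm_sq_sub_sq`, `radLaw_window` : `E (|g|² - N)² = 2 N` and Chebyshev;
* `ins i t y` : the point of `ℝ^(N+1)` with coordinate `i` equal to `t` and the others given by `y`;
* `lintegral_uS_succ` : `y^(N+1) = (u, √(1-u²) y^N)`, exact disintegration along one coordinate;
* `new_coordinate` : lower bound by the Gaussian law for the coordinate `s = √(N+1) u`, `|s| ≤ K`.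
-/

set_option autoImplicit false

open MeasureTheory MeasureTheory.Measure ProbabilityTheory Set Filter Topology Metric
open scoped ENNReal NNReal Real Pointwise

noncomputable section

namespace Crest.Agent.R146.Sph_409

open Crest.ProbabilityR.Perceptron
open Crest.Agent.R166.Gauss286 (gv)

/-! ### concentration of the norm -/

theorem norm_toLp_sq {N : ℕ} (x : Fin N → ℝ) :
    ‖(WithLp.toLp 2 x : En N)‖ ^ 2 = ∑ i, x i ^ 2 := by
  rw [EuclideanSpace.real_norm_sq_eq]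

theorem measurable_toLp' (N : ℕ) : Measurable (WithLp.toLp 2 : (Fin N → ℝ) → En N) :=
  WithLp.measurable_toLp 2 _

theorem stdGaussian_eq_map (N : ℕ) :
    stdGaussian (En N) = (gv (Fin N)).map (WithLp.toLp 2) := (map_pi_eq_stdGaussian).symm

theorem lintegral_stdGaussian_toLp (N : ℕ) {F : En N → ℝ≥0∞} (hF : Measurable F) :
    ∫⁻ x, F x ∂stdGaussian (En N) = ∫⁻ x, F (WithLp.toLp 2 x) ∂gv (Fin N) := by
  rw [stdGaussian_eq_map, lintegral_map hF (measurable_toLp' N)]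

theorem integral_stdGaussian_toLp {G : Type*} [NormedAddCommGroup G] [NormedSpace ℝ G] (N : ℕ)
    {F : En N → G} (hF : AEStronglyMeasurable F (stdGaussian (En N))) :
    ∫ x, F x ∂stdGaussian (En N) = ∫ x, F (WithLp.toLp 2 x) ∂gv (Fin N) := by
  rw [stdGaussian_eq_map] at hF ⊢
  rw [integral_map (measurable_toLp' N).aemeasurable hF]

theorem memLp_norm_sq_sub (N : ℕ) :
    MemLp (fun x : Fin N → ℝ => ∑ i, (x i ^ 2 - 1)) 2 (gv (Fin N)) := by
  refine memLp_finsetSum _ fun i _ => ?_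
  exact Crest.Agent.R166.Gauss286.memLp_sq_sub.comp_measurePreserving
    (measurePreserving_eval (fun _ : Fin N => gaussianReal 0 1) i)

theorem integrable_norm_sq_sub_sq (N : ℕ) :
    Integrable (fun x : En N => (‖x‖ ^ 2 - N) ^ 2) (stdGaussian (En N)) := by
  rw [stdGaussian_eq_map, integrable_map_measure (by fun_prop) (measurable_toLp' N).aemeasurable]
  have h := (memLp_norm_sq_sub N).integrable_sq
  refine h.congr (Filter.Eventually.of_forall fun x => ?_)
  simp only [Function.comp_apply]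
  rw [norm_toLp_sq, Finset.sum_sub_distrib]
  simp

theorem integral_norm_sq_sub_sq (N : ℕ) :
    ∫ x : En N, (‖x‖ ^ 2 - N) ^ 2 ∂stdGaussian (En N) = 2 * N := by
  rw [integral_stdGaussian_toLp N (by fun_prop)]
  have h := Crest.Agent.R166.Gauss286.quad_diag (fun _ : Fin N => (1 : ℝ))
  simp only [one_mul, one_pow, Finset.sum_const, Finset.card_univ, Fintype.card_fin,
    nsmul_eq_mul, mul_one] at h
  rw [← h]
  refine integral_congr_ae (Filter.Eventually.of_forall fun x => ?_)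
  simp only
  rw [norm_toLp_sq, Finset.sum_sub_distrib]
  simp

theorem norm_window (N : ℕ) {c : ℝ} (hc : 0 < c) :
    (stdGaussian (En N)).real {x | c ≤ |‖x‖ ^ 2 - N|} ≤ 2 * N / c ^ 2 := by
  have h := mul_meas_ge_le_integral_of_nonneg (μ := stdGaussian (En N))
    (f := fun x : En N => (‖x‖ ^ 2 - N) ^ 2) (Filter.Eventually.of_forall fun x => sq_nonneg _)
    (integrable_norm_sq_sub_sq N) (c ^ 2)
  rw [integral_norm_sq_sub_sq] at h
  rw [le_div_iff₀ (by positivity), mul_comm]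
  refine le_trans (le_of_eq ?_) h
  congr 2
  ext x
  simp only [Set.mem_ofPred_eq]
  rw [sq_le_sq, abs_of_pos hc]

theorem radLaw_window (N : ℕ) {c : ℝ} (hc : 0 < c) :
    (radLaw N).real {r | c ≤ |r ^ 2 - N|} ≤ 2 * N / c ^ 2 := by
  have hs : MeasurableSet {r : ℝ | c ≤ |r ^ 2 - N|} :=
    measurableSet_le measurable_const (by fun_prop)
  unfold radLaw
  rw [map_measureReal_apply measurable_norm hs]
  exact norm_window N hc

/-! ### inserting a coordinate -/

/-- The point of `ℝ^(N+1)` with coordinate `i` equal to `t`, the other coordinates given by `y`. -/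
def ins {N : ℕ} (i : Fin (N + 1)) (t : ℝ) (y : En N) : En (N + 1) :=
  WithLp.toLp 2 (i.insertNth (α := fun _ => ℝ) t (WithLp.ofLp y))

@[simp] theorem ins_same {N : ℕ} (i : Fin (N + 1)) (t : ℝ) (y : En N) : ins i t y i = t := by
  simp [ins]

@[simp] theorem ins_succAbove {N : ℕ} (i : Fin (N + 1)) (t : ℝ) (y : En N) (j : Fin N) :
    ins i t y (i.succAbove j) = y j := by
  simp [ins]

theorem norm_ins_sq {N : ℕ} (i : Fin (N + 1)) (t : ℝ) (y : En N) :
    ‖ins i t y‖ ^ 2 = t ^ 2 + ‖y‖ ^ 2 := by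
  rw [EuclideanSpace.real_norm_sq_eq, EuclideanSpace.real_norm_sq_eq, Fin.sum_univ_succAbove _ i]
  simp

theorem smul_ins {N : ℕ} (i : Fin (N + 1)) (c t : ℝ) (y : En N) :
    c • ins i t y = ins i (c * t) (c • y) := by
  ext j
  refine Fin.succAboveCases i ?_ (fun k => ?_) j
  · simp
  · simp

theorem continuous_ins {N : ℕ} (i : Fin (N + 1)) :
    Continuous fun p : ℝ × En N => ins i p.1 p.2 := by
  unfold ins
  refine (PiLp.continuous_toLp 2 _).comp ?_
  refine continuous_pi fun j => ?_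
  refine Fin.succAboveCases i ?_ (fun k => ?_) j
  · simpa using continuous_fst
  · simp only [Fin.insertNth_apply_succAbove]
    exact (PiLp.continuous_apply 2 _ k).comp continuous_snd

theorem measurable_ins {N : ℕ} (i : Fin (N + 1)) :
    Measurable fun p : ℝ × En N => ins i p.1 p.2 := (continuous_ins i).measurable

/-- The standard Gaussian law of `ℝ^(N+1)` is a product. -/
theorem map_ins {N : ℕ} (i : Fin (N + 1)) :
    ((gaussianReal 0 1).prod (stdGaussian (En N))).map (fun p => ins i p.1 p.2) =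
      stdGaussian (En (N + 1)) := by
  have h := (measurePreserving_piFinSuccAbove (fun _ : Fin (N + 1) => gaussianReal 0 1) i).symm
  have h2 : gv (Fin (N + 1)) = ((gaussianReal 0 1).prod (gv (Fin N))).map
      (MeasurableEquiv.piFinSuccAbove (fun _ : Fin (N + 1) => ℝ) i).symm := h.map_eq.symm
  rw [stdGaussian_eq_map (N + 1), stdGaussian_eq_map N]
  have e3 : (gaussianReal 0 1).prod ((gv (Fin N)).map (WithLp.toLp 2 : (Fin N → ℝ) → En N)) =
      ((gaussianReal 0 1).prod (gv (Fin N))).map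
        (Prod.map id (WithLp.toLp 2 : (Fin N → ℝ) → En N)) := by
    rw [← Measure.map_prod_map _ _ measurable_id (measurable_toLp' N), Measure.map_id]
  rw [e3, Measure.map_map (measurable_ins i) (measurable_id.prodMap (measurable_toLp' N)),
    h2, Measure.map_map (measurable_toLp' (N + 1)) h.measurable]
  rfl

theorem lintegral_stdGaussian_succ {N : ℕ} (i : Fin (N + 1)) {F : En (N + 1) → ℝ≥0∞}
    (hF : Measurable F) :
    ∫⁻ x, F x ∂stdGaussian (En (N + 1)) =
      ∫⁻ x, ∫⁻ t, F (ins i t x) ∂gaussianReal 0 1 ∂stdGaussian (En N) := by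
  have hm : Measurable fun p : ℝ × En N => F (ins i p.1 p.2) := hF.comp (measurable_ins i)
  rw [← map_ins i, lintegral_map hF (measurable_ins i), lintegral_prod_symm' _ hm]

/-! ### the new coordinate, exact form -/

/-- The average of `F` over the slice `{y i = u}` of the sphere. -/
def slice {N : ℕ} (i : Fin (N + 1)) (F : En (N + 1) → ℝ≥0∞) (u : ℝ) : ℝ≥0∞ :=
  ∫⁻ y, F (ins i u (√(1 - u ^ 2) • (y : En N))) ∂uS N

theorem measurable_slice_arg {N : ℕ} (i : Fin (N + 1)) :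
    Measurable fun p : ℝ × UnitSphere N => ins i p.1 (√(1 - p.1 ^ 2) • (p.2 : En N)) := by
  refine (measurable_ins i).comp (Measurable.prodMk measurable_fst ?_)
  fun_prop

theorem measurable_slice {N : ℕ} [NeZero N] (i : Fin (N + 1)) {F : En (N + 1) → ℝ≥0∞}
    (hF : Measurable F) : Measurable (slice i F) := by
  unfold slice
  exact (hF.comp (measurable_slice_arg i)).lintegral_prod_right'

theorem sqrt_ratio {t r : ℝ} (hr : 0 < r) :
    √(1 - (t / √(t ^ 2 + r ^ 2)) ^ 2) = (√(t ^ 2 + r ^ 2))⁻¹ * r := by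
  have h : 0 < t ^ 2 + r ^ 2 := by positivity
  have h1 : 1 - (t / √(t ^ 2 + r ^ 2)) ^ 2 = ((√(t ^ 2 + r ^ 2))⁻¹ * r) ^ 2 := by
    rw [div_pow, mul_pow, inv_pow, Real.sq_sqrt h.le]
    field_simp
    ring
  rw [h1, Real.sqrt_sq (by positivity)]

theorem slice_ratio {N : ℕ} (i : Fin (N + 1)) (F : En (N + 1) → ℝ≥0∞) {r : ℝ} (hr : 0 < r)
    (t : ℝ) :
    ∫⁻ y : UnitSphere N, F (‖ins i t (r • (y : En N))‖⁻¹ • ins i t (r • (y : En N))) ∂uS N =
      slice i F (t / √(t ^ 2 + r ^ 2)) := by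
  unfold slice
  refine lintegral_congr fun y => ?_
  have e1 : ‖ins i t (r • (y : En N))‖ = √(t ^ 2 + r ^ 2) := by
    rw [← Real.sqrt_sq (norm_nonneg (ins i t (r • (y : En N)))), norm_ins_sq, norm_smul_coe hr.le]
  rw [e1, smul_ins, sqrt_ratio hr, smul_smul, div_eq_inv_mul]

/-- Average over the Gaussian coordinate of the homogeneous extension of `F`. -/
def gAv {N : ℕ} (i : Fin (N + 1)) (F : En (N + 1) → ℝ≥0∞) (x : En N) : ℝ≥0∞ :=
  ∫⁻ t, F (‖ins i t x‖⁻¹ • ins i t x) ∂gaussianReal 0 1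

theorem measurable_gAv_arg {N : ℕ} (i : Fin (N + 1)) {F : En (N + 1) → ℝ≥0∞}
    (hF : Measurable F) :
    Measurable fun p : En N × ℝ => F (‖ins i p.2 p.1‖⁻¹ • ins i p.2 p.1) := by
  have hn : Measurable fun x : En (N + 1) => ‖x‖⁻¹ • x := by fun_prop
  exact (hF.comp hn).comp ((measurable_ins i).comp measurable_swap)

theorem lintegral_gAv {N : ℕ} [NeZero N] (i : Fin (N + 1)) {F : En (N + 1) → ℝ≥0∞}
    (hF : Measurable F) {r : ℝ} (hr : 0 < r) :
    ∫⁻ y : UnitSphere N, gAv i F (r • (y : En N)) ∂uS N =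
      ∫⁻ t, slice i F (t / √(t ^ 2 + r ^ 2)) ∂gaussianReal 0 1 := by
  have hm3 : Measurable fun p : UnitSphere N × ℝ => (r • (p.1 : En N), p.2) := by fun_prop
  have hm2 := (measurable_gAv_arg i hF).comp hm3
  unfold gAv
  rw [lintegral_lintegral_swap (f := fun (y : UnitSphere N) (t : ℝ) =>
    F (‖ins i t (r • (y : En N))‖⁻¹ • ins i t (r • (y : En N)))) hm2.aemeasurable]
  exact lintegral_congr fun t => slice_ratio i F hr t

theorem lintegral_uS_succ_aux {N : ℕ} [NeZero N] (i : Fin (N + 1)) {F : En (N + 1) → ℝ≥0∞}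
    (hF : Measurable F) :
    ∫⁻ y, F (y : En (N + 1)) ∂uS (N + 1) =
      ∫⁻ r, ∫⁻ t, slice i F (t / √(t ^ 2 + r ^ 2)) ∂gaussianReal 0 1 ∂radLaw N := by
  have hn : Measurable fun x : En (N + 1) => ‖x‖⁻¹ • x := by fun_prop
  have hFn : Measurable fun x : En (N + 1) => F (‖x‖⁻¹ • x) := hF.comp hn
  have hG : Measurable (gAv i F) := (measurable_gAv_arg i hF).lintegral_prod_right'
  rw [← lintegral_normalize (N + 1) hF, lintegral_stdGaussian_succ i hFn]
  change ∫⁻ x, gAv i F x ∂stdGaussian (En N) = _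
  rw [lintegral_stdGaussian_polar N hG]
  refine lintegral_congr_ae ?_
  filter_upwards [ae_radLaw_pos N] with r hr
  exact lintegral_gAv i hF hr

/-- The law of the coordinate `i` of a uniform point of the sphere of `ℝ^(N+1)`. -/
def coordLaw (N : ℕ) (i : Fin (N + 1)) : Measure ℝ :=
  (uS (N + 1)).map fun y : UnitSphere (N + 1) => (y : En (N + 1)) i

instance instProbCoordLaw (N : ℕ) (i : Fin (N + 1)) : IsProbabilityMeasure (coordLaw N i) :=
  Measure.isProbabilityMeasure_map (by fun_prop)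

/-- **Disintegration along one coordinate.** -/
theorem lintegral_uS_succ {N : ℕ} [NeZero N] (i : Fin (N + 1)) {F : En (N + 1) → ℝ≥0∞}
    (hF : Measurable F) :
    ∫⁻ y, F (y : En (N + 1)) ∂uS (N + 1) =
      ∫⁻ u, ∫⁻ y, F (ins i u (√(1 - u ^ 2) • (y : En N))) ∂uS N ∂coordLaw N i := by
  have hs := measurable_slice i hF
  have h1 : ∫⁻ u, slice i F u ∂coordLaw N i = ∫⁻ y : UnitSphere (N + 1),
      slice i F ((y : En (N + 1)) i) ∂uS (N + 1) := by
    unfold coordLaw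
    rw [lintegral_map hs (by fun_prop)]
  have hG : Measurable fun x : En (N + 1) => slice i F (x i) := hs.comp (by fun_prop)
  change _ = ∫⁻ u, slice i F u ∂coordLaw N i
  rw [h1, lintegral_uS_succ_aux i hF, lintegral_uS_succ_aux i hG]
  refine lintegral_congr fun r => lintegral_congr fun t => ?_
  conv_rhs => unfold slice
  simp only [ins_same, lintegral_const, measure_univ, mul_one]
  rfl

/-! ### the new coordinate, Gaussian lower bound -/

/-- `T_r(s) = r s / √(n - s²)`. -/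
def tc (n r s : ℝ) : ℝ := r * s / √(n - s ^ 2)

theorem hasDerivAt_tc {n r s : ℝ} (h : s ^ 2 < n) :
    HasDerivAt (tc n r) (r * n / ((n - s ^ 2) * √(n - s ^ 2))) s := by
  have h0 : 0 < n - s ^ 2 := by linarith
  have hs : √(n - s ^ 2) ≠ 0 := (Real.sqrt_pos.2 h0).ne'
  have h1 : HasDerivAt (fun s : ℝ => n - s ^ 2) (-(2 * s)) s := by
    have := (hasDerivAt_pow 2 s).const_sub n
    refine this.congr_deriv ?_
    simp
  have h2 := h1.sqrt h0.ne'
  have h3 := ((hasDerivAt_id s).const_mul r).div h2 hs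
  refine h3.congr_deriv ?_
  simp only [id]
  rw [Real.sq_sqrt h0.le]
  field_simp
  rw [Real.sq_sqrt h0.le]
  ring

theorem tc_inv {n r s : ℝ} (hn : 0 < n) (hr : 0 < r) (h : s ^ 2 < n) :
    tc n r s / √(tc n r s ^ 2 + r ^ 2) = s / √n := by
  have h0 : 0 < n - s ^ 2 := by linarith
  have e1 : tc n r s ^ 2 + r ^ 2 = r ^ 2 * n / (n - s ^ 2) := by
    unfold tc
    rw [div_pow, mul_pow, Real.sq_sqrt h0.le]
    field_simp
    ring
  rw [e1, Real.sqrt_div (by positivity), Real.sqrt_mul (by positivity), Real.sqrt_sq hr.le]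
  unfold tc
  have hs : √(n - s ^ 2) ≠ 0 := (Real.sqrt_pos.2 h0).ne'
  have hs' : √n ≠ 0 := (Real.sqrt_pos.2 hn).ne'
  field_simp

theorem tc_density {n r s K δ : ℝ} (hn : 0 < n) (hr : 0 < r) (hK : |s| ≤ K) (hδ0 : 0 ≤ δ)
    (hδ : δ ≤ 1 / 2) (hKn : K ^ 2 ≤ δ * n) (h1 : n * (1 - δ) ≤ r ^ 2) (h2 : r ^ 2 ≤ n * (1 + δ)) :
    (1 - δ * (1 + 2 * K ^ 2)) * Real.exp (-s ^ 2 / 2) ≤
      r * n / ((n - s ^ 2) * √(n - s ^ 2)) * Real.exp (-(tc n r s) ^ 2 / 2) := by
  have hsK : s ^ 2 ≤ K ^ 2 := by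
    rw [← sq_abs s]
    exact pow_le_pow_left₀ (abs_nonneg s) hK 2
  have h0 : 0 < n - s ^ 2 := by nlinarith
  have hsq : 0 < √(n - s ^ 2) := Real.sqrt_pos.2 h0
  -- first factor
  have f1 : 1 - δ ≤ r * n / ((n - s ^ 2) * √(n - s ^ 2)) := by
    have a1 : √(n - s ^ 2) ≤ √n := Real.sqrt_le_sqrt (by nlinarith [sq_nonneg s])
    have a2 : (n - s ^ 2) * √(n - s ^ 2) ≤ n * √n := by
      apply mul_le_mul (by nlinarith [sq_nonneg s]) a1 hsq.le hn.le
    have a3 : 0 < √n := Real.sqrt_pos.2 hn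
    have a4 : (1 - δ) * √n ≤ r := by
      refine (sq_le_sq₀ (mul_nonneg (by linarith) a3.le) hr.le).1 ?_
      rw [mul_pow, Real.sq_sqrt hn.le]
      nlinarith
    rw [le_div_iff₀ (by positivity)]
    calc (1 - δ) * ((n - s ^ 2) * √(n - s ^ 2)) ≤ (1 - δ) * (n * √n) :=
          mul_le_mul_of_nonneg_left a2 (by linarith)
      _ = (1 - δ) * √n * n := by ring
      _ ≤ r * n := by gcongr
  -- second factor
  have f2 : (1 - 2 * δ * K ^ 2) * Real.exp (-s ^ 2 / 2) ≤ Real.exp (-(tc n r s) ^ 2 / 2) := by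
    have b1 : (tc n r s) ^ 2 ≤ s ^ 2 * (1 + 4 * δ) := by
      unfold tc
      rw [div_pow, mul_pow, Real.sq_sqrt h0.le, div_le_iff₀ h0]
      have b3 : r ^ 2 ≤ (1 + 4 * δ) * (n - s ^ 2) := by nlinarith
      nlinarith [sq_nonneg s]
    have b2 : -s ^ 2 / 2 + (-(2 * δ * K ^ 2)) ≤ -(tc n r s) ^ 2 / 2 := by nlinarith
    calc (1 - 2 * δ * K ^ 2) * Real.exp (-s ^ 2 / 2)
        ≤ Real.exp (-(2 * δ * K ^ 2)) * Real.exp (-s ^ 2 / 2) := by
          gcongr
          have := Real.add_one_le_exp (-(2 * δ * K ^ 2))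
          linarith
      _ = Real.exp (-s ^ 2 / 2 + (-(2 * δ * K ^ 2))) := by rw [Real.exp_add]; ring
      _ ≤ _ := Real.exp_le_exp.2 b2
  have f3 : 0 ≤ Real.exp (-s ^ 2 / 2) := (Real.exp_pos _).le
  calc (1 - δ * (1 + 2 * K ^ 2)) * Real.exp (-s ^ 2 / 2)
      ≤ (1 - δ) * ((1 - 2 * δ * K ^ 2) * Real.exp (-s ^ 2 / 2)) := by
        have : 0 ≤ δ * (2 * δ * K ^ 2) * Real.exp (-s ^ 2 / 2) := by positivity
        nlinarith
    _ ≤ (1 - δ) * Real.exp (-(tc n r s) ^ 2 / 2) :=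
        mul_le_mul_of_nonneg_left f2 (by linarith)
    _ ≤ _ := mul_le_mul_of_nonneg_right f1 (Real.exp_pos _).le

/-- The one-dimensional estimate: for fixed `r` close to `√n`. -/
theorem coordinate_le {n r K δ : ℝ} (hn : 0 < n) (hr : 0 < r) (hδ0 : 0 ≤ δ)
    (hδ : δ ≤ 1 / 2) (hKn : K ^ 2 ≤ δ * n) (h1 : n * (1 - δ) ≤ r ^ 2) (h2 : r ^ 2 ≤ n * (1 + δ))
    {H : ℝ → ℝ≥0∞} (hH : Measurable H) :
    ENNReal.ofReal (1 - δ * (1 + 2 * K ^ 2)) * ∫⁻ s in Icc (-K) K, H (s / √n) ∂gaussianReal 0 1 ≤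
      ∫⁻ t, H (t / √(t ^ 2 + r ^ 2)) ∂gaussianReal 0 1 := by
  have hlt : ∀ s ∈ Icc (-K) K, s ^ 2 < n := fun s hs => by
    have : |s| ≤ K := abs_le.2 ⟨hs.1, hs.2⟩
    have hsK : s ^ 2 ≤ K ^ 2 := by
      rw [← sq_abs s]
      exact pow_le_pow_left₀ (abs_nonneg s) this 2
    nlinarith
  have hg : gaussianReal 0 1 = (volume : Measure ℝ).withDensity (gaussianPDF 0 1) :=
    gaussianReal_of_var_ne_zero 0 one_ne_zero
  have hinj : InjOn (tc n r) (Icc (-K) K) := fun s hs s' hs' h => by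
    have e1 := tc_inv hn hr (hlt s hs)
    have e2 := tc_inv hn hr (hlt s' hs')
    rw [h, e2] at e1
    have : √n ≠ 0 := (Real.sqrt_pos.2 hn).ne'
    field_simp at e1
    exact e1.symm
  have hHm : Measurable fun t : ℝ => H (t / √(t ^ 2 + r ^ 2)) := hH.comp (by fun_prop)
  have hcv := lintegral_image_eq_lintegral_abs_deriv_mul (s := Icc (-K) K) (f := tc n r)
    (f' := fun s => r * n / ((n - s ^ 2) * √(n - s ^ 2))) measurableSet_Icc
    (fun s hs => (hasDerivAt_tc (hlt s hs)).hasDerivWithinAt) hinj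
    (fun t => gaussianPDF 0 1 t * H (t / √(t ^ 2 + r ^ 2)))
  have hle : ∫⁻ t in tc n r '' Icc (-K) K, gaussianPDF 0 1 t * H (t / √(t ^ 2 + r ^ 2)) ≤
      ∫⁻ t, H (t / √(t ^ 2 + r ^ 2)) ∂gaussianReal 0 1 := by
    rw [hg, lintegral_withDensity_eq_lintegral_mul _ (measurable_gaussianPDF 0 1) hHm]
    exact setLIntegral_le_lintegral _ _
  refine le_trans ?_ hle
  have hHs : Measurable fun s : ℝ => H (s / √n) := hH.comp (by fun_prop)
  rw [hcv, hg, restrict_withDensity measurableSet_Icc,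
    lintegral_withDensity_eq_lintegral_mul _ (measurable_gaussianPDF 0 1) hHs,
    ← lintegral_const_mul _ ((measurable_gaussianPDF 0 1).mul hHs)]
  refine setLIntegral_mono' measurableSet_Icc fun s hs => ?_
  have hsn := hlt s hs
  have h0 : 0 < n - s ^ 2 := by linarith
  have hpos : 0 ≤ r * n / ((n - s ^ 2) * √(n - s ^ 2)) := by positivity
  rw [tc_inv hn hr hsn, abs_of_nonneg hpos, Pi.mul_apply, ← mul_assoc, ← mul_assoc]
  refine mul_le_mul' ?_ le_rfl
  unfold gaussianPDF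
  rw [← ENNReal.ofReal_mul hpos]
  have hd := tc_density hn hr (abs_le.2 ⟨hs.1, hs.2⟩) hδ0 hδ hKn h1 h2
  rcases le_or_gt 0 (1 - δ * (1 + 2 * K ^ 2)) with hc | hc
  · rw [← ENNReal.ofReal_mul hc]
    refine ENNReal.ofReal_le_ofReal ?_
    simp only [gaussianPDFReal, NNReal.coe_one, mul_one, sub_zero]
    have hq : (0 : ℝ) ≤ (√(2 * π))⁻¹ := by positivity
    calc (1 - δ * (1 + 2 * K ^ 2)) * ((√(2 * π))⁻¹ * Real.exp (-s ^ 2 / 2))
        = (√(2 * π))⁻¹ * ((1 - δ * (1 + 2 * K ^ 2)) * Real.exp (-s ^ 2 / 2)) := by ring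
      _ ≤ (√(2 * π))⁻¹ * (r * n / ((n - s ^ 2) * √(n - s ^ 2)) *
          Real.exp (-(tc n r s) ^ 2 / 2)) := mul_le_mul_of_nonneg_left hd hq
      _ = _ := by ring
  · rw [ENNReal.ofReal_of_nonpos hc.le, zero_mul]
    exact zero_le

/-- **New coordinate**, quantitative form. -/
theorem new_coordinate_explicit {N : ℕ} [NeZero N] (i : Fin (N + 1)) {K δ : ℝ} (hδ0 : 0 < δ)
    (hδ : δ ≤ 1 / 2) (hKn : K ^ 2 ≤ δ * (N + 1)) (hN : 2 ≤ δ * (N + 1))
    {F : En (N + 1) → ℝ≥0∞} (hF : Measurable F) :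
    ENNReal.ofReal (1 - 8 / (δ ^ 2 * (N + 1))) * (ENNReal.ofReal (1 - δ * (1 + 2 * K ^ 2)) *
      ∫⁻ s in Icc (-K) K, ∫⁻ y, F (ins i (s / √(N + 1)) (√(1 - (s / √(N + 1)) ^ 2) • (y : En N)))
        ∂uS N ∂gaussianReal 0 1) ≤
      ∫⁻ y, F (y : En (N + 1)) ∂uS (N + 1) := by
  set n : ℝ := (N : ℝ) + 1 with hn_def
  have hn : 0 < n := by positivity
  have hs := measurable_slice i hF
  set A : ℝ≥0∞ := ENNReal.ofReal (1 - δ * (1 + 2 * K ^ 2)) *
    ∫⁻ s in Icc (-K) K, slice i F (s / √n) ∂gaussianReal 0 1 with hA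
  change ENNReal.ofReal (1 - 8 / (δ ^ 2 * n)) * A ≤ _
  rw [lintegral_uS_succ_aux i hF]
  set c : ℝ := δ * n - 1 with hc_def
  have hc : 0 < c := by linarith
  set S : Set ℝ := {r | c ≤ |r ^ 2 - N|} with hS_def
  have hSm : MeasurableSet S := measurableSet_le measurable_const (by fun_prop)
  have hwin := radLaw_window N hc
  have key : ∀ᵐ r ∂radLaw N, Sᶜ.indicator (fun _ => A) r ≤
      ∫⁻ t, slice i F (t / √(t ^ 2 + r ^ 2)) ∂gaussianReal 0 1 := by
    filter_upwards [ae_radLaw_pos N] with r hr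
    by_cases hrS : r ∈ S
    · rw [Set.indicator_of_notMem (by simpa using hrS)]
      exact zero_le
    · rw [Set.indicator_of_mem hrS]
      have h3 : |r ^ 2 - N| < c := not_le.1 hrS
      rw [abs_lt] at h3
      exact coordinate_le hn hr hδ0.le hδ hKn (by rw [hc_def] at h3; nlinarith [h3.1])
        (by rw [hc_def] at h3; nlinarith [h3.2]) hs
  refine le_trans ?_ (lintegral_mono_ae key)
  rw [lintegral_indicator_const hSm.compl, mul_comm]
  refine mul_le_mul' le_rfl ?_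
  rw [← ofReal_measureReal (measure_ne_top _ _)]
  refine ENNReal.ofReal_le_ofReal ?_
  rw [probReal_compl_eq_one_sub hSm]
  have h4 : 2 * (N : ℝ) / c ^ 2 ≤ 8 / (δ ^ 2 * n) := by
    have h5 : δ * n / 2 ≤ c := by rw [hc_def]; linarith
    have h6 : 0 < δ * n / 2 := by positivity
    have h7 : (δ * n / 2) ^ 2 ≤ c ^ 2 := pow_le_pow_left₀ h6.le h5 2
    calc 2 * (N : ℝ) / c ^ 2 ≤ 2 * n / (δ * n / 2) ^ 2 := by
          apply div_le_div₀ (by positivity) _ (by positivity) h7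
          rw [hn_def]; linarith
      _ = 8 / (δ ^ 2 * n) := by field_simp; ring
  linarith

/-- **New coordinate.** For `F ≥ 0` on the sphere of `ℝ^(N+1)` the average of `F` is at least
`(1 - ε)` times the average over `y` uniform on the sphere of `ℝ^N` and `s` standard Gaussian
restricted to `|s| ≤ K` of `F (s/√(N+1), √(1 - s²/(N+1)) y)`. -/
theorem new_coordinate (K ε : ℝ) (hε : 0 < ε) : ∃ N0 : ℕ, ∀ N : ℕ, N0 ≤ N → 0 < N ∧
    ∀ (i : Fin (N + 1)) (F : En (N + 1) → ℝ≥0∞), Measurable F →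
    ENNReal.ofReal (1 - ε) * ∫⁻ s in Icc (-K) K,
      ∫⁻ y, F (ins i (s / √(N + 1)) (√(1 - (s / √(N + 1)) ^ 2) • (y : En N)))
        ∂uS N ∂gaussianReal 0 1 ≤
      ∫⁻ y, F (y : En (N + 1)) ∂uS (N + 1) := by
  rcases le_or_gt 1 ε with h1 | h1
  · refine ⟨1, fun N hN => ⟨hN, fun i F _ => ?_⟩⟩
    rw [ENNReal.ofReal_of_nonpos (by linarith), zero_mul]
    exact zero_le
  set δ : ℝ := ε / (4 * (1 + 2 * K ^ 2)) with hδ_def
  have hδ0 : 0 < δ := by positivity
  have hK1 : 1 ≤ 1 + 2 * K ^ 2 := by nlinarith [sq_nonneg K]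
  have hδε : δ * (1 + 2 * K ^ 2) = ε / 4 := by
    rw [hδ_def]; field_simp
  have hδ : δ ≤ 1 / 2 := by nlinarith
  obtain ⟨N0, hN0⟩ := exists_nat_gt (max (K ^ 2 / δ) (max (2 / δ) (32 / (δ ^ 2 * ε))))
  refine ⟨max N0 1, fun N hN => ⟨lt_of_lt_of_le one_pos ((le_max_right _ _).trans hN), ?_⟩⟩
  have hNpos : 0 < N := lt_of_lt_of_le one_pos ((le_max_right _ _).trans hN)
  have : NeZero N := ⟨hNpos.ne'⟩
  have hNN : (N0 : ℝ) ≤ N := by exact_mod_cast (le_max_left _ _).trans hN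
  have g1 : K ^ 2 / δ < (N : ℝ) + 1 := by
    have := (le_max_left (K ^ 2 / δ) (max (2 / δ) (32 / (δ ^ 2 * ε)))).trans_lt hN0
    linarith
  have g2 : 2 / δ < (N : ℝ) + 1 := by
    have := ((le_max_left (2 / δ) (32 / (δ ^ 2 * ε))).trans
      (le_max_right (K ^ 2 / δ) _)).trans_lt hN0
    linarith
  have g3 : 32 / (δ ^ 2 * ε) < (N : ℝ) + 1 := by
    have := ((le_max_right (2 / δ) (32 / (δ ^ 2 * ε))).trans
      (le_max_right (K ^ 2 / δ) _)).trans_lt hN0
    linarith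
  rw [div_lt_iff₀ hδ0] at g1 g2
  rw [div_lt_iff₀ (by positivity)] at g3
  intro i F hF
  refine le_trans ?_ (new_coordinate_explicit i (K := K) hδ0 hδ (by linarith) (by linarith) hF)
  rw [← mul_assoc]
  refine mul_le_mul' ?_ le_rfl
  have h8 : 8 / (δ ^ 2 * ((N : ℝ) + 1)) ≤ ε / 4 := by
    rw [div_le_div_iff₀ (by positivity) (by norm_num)]
    nlinarith
  rw [hδε, ← ENNReal.ofReal_mul (by linarith)]
  refine ENNReal.ofReal_le_ofReal ?_
  nlinarith

end Crest.Agent.R146.Sph_409
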