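import Crest.Agent.R146.NearExp_857
import Crest.Agent.R146.Sph2_409

/-!
# Row 146 (helper857): one new coordinate, finite configuration spaces

`newc_fin` : for `C : Cfg N`, `C1 : Cfg (N+1)` fine, `U` Lipschitz on `ℝ^(N+1)`,
`(1 - ε) ∫_{|s| ≤ K} ∑_y q_y exp (U (insertNth i s (√((N+1-s²)/N) x_y))) dγ(s) ≤ ∑ q1 exp (U x1)`.
-/

set_option autoImplicit false
set_option linter.unusedSectionVars false
set_option linter.style.haveILetI false

namespace Crest.Agent.R146.NewF857

open Finset MeasureTheory ProbabilityTheory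
open Crest.Agent.R146.S6Def_988
open Crest.ProbabilityR.Perceptron
open Crest.Agent.R146.Sph857 Crest.Agent.R146.Disc857 Crest.Agent.R146.NearExp857
open scoped ENNReal

/-- the scale factor of the old coordinates -/
noncomputable def sc (N : ℕ) (s : ℝ) : ℝ := Real.sqrt (((N : ℝ) + 1 - s ^ 2) / N)

/-- the new point: coordinate `i` is `s`, the old ones are scaled -/
noncomputable def npt {N : ℕ} (i : Fin (N + 1)) (x : Fin N → ℝ) (s : ℝ) : Fin (N + 1) → ℝ :=
  i.insertNth (α := fun _ => ℝ) s (fun j => sc N s * x j)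

theorem sum_abs_npt {N : ℕ} (i : Fin (N + 1)) (x x' : Fin N → ℝ) (s : ℝ) :
    ∑ j, |npt i x s j - npt i x' s j| = sc N s * ∑ j, |x j - x' j| := by
  rw [Fin.sum_univ_succAbove _ i]
  simp only [npt, Fin.insertNth_apply_same, sub_self, abs_zero, Fin.insertNth_apply_succAbove,
    zero_add, ← mul_sub, abs_mul]
  rw [← Finset.mul_sum, abs_of_nonneg (show 0 ≤ sc N s from Real.sqrt_nonneg _)]

theorem sc_le {N : ℕ} (hN : 0 < N) (s : ℝ) : sc N s ≤ 2 := by
  unfold sc
  rw [Real.sqrt_le_left (by norm_num)]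
  have hN' : (1 : ℝ) ≤ N := by exact_mod_cast hN
  rw [div_le_iff₀ (by linarith)]
  nlinarith [sq_nonneg s]

theorem sum_sq_npt {N : ℕ} (hN : 0 < N) (i : Fin (N + 1)) {x : Fin N → ℝ} (hx : ∑ j, x j ^ 2 = N)
    {s : ℝ} (hs : s ^ 2 ≤ N + 1) : ∑ j, npt i x s j ^ 2 = ((N + 1 : ℕ) : ℝ) := by
  rw [Fin.sum_univ_succAbove _ i]
  simp only [npt, Fin.insertNth_apply_same, Fin.insertNth_apply_succAbove, mul_pow,
    ← Finset.mul_sum, hx]
  unfold sc
  have hN' : (0 : ℝ) < N := by exact_mod_cast hN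
  rw [Real.sq_sqrt (by apply div_nonneg <;> linarith)]
  push_cast
  field_simp
  ring

/-- the finite form of one new coordinate -/
theorem newc_fin (K ε : ℝ) (hε : 0 < ε) (hε1 : ε < 1) : ∃ N0 : ℕ, ∀ N, N0 ≤ N → 0 < N ∧ ∀ Λ : ℝ,
    ∃ δ : ℝ, 0 < δ ∧ ∀ (C : Cfg N) (C1 : Cfg (N + 1)), Near C δ → Near C1 δ →
    ∀ (i : Fin (N + 1)) (U : (Fin (N + 1) → ℝ) → ℝ), (∀ u v, |U u - U v| ≤ Λ * ∑ j, |u j - v j|) →
    (1 - ε) * ∫ s in Set.Icc (-K) K, (∑ y, C.q y * Real.exp (U (npt i (C.x y) s)))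
      ∂(gaussianReal 0 1) ≤ ∑ y, C1.q y * Real.exp (U (C1.x y)) := by
  set ε' : ℝ := ε / 4 with hε'
  have hε'0 : 0 < ε' := by positivity
  obtain ⟨N0, hN0⟩ := Sph_409.new_coordinate K ε' hε'0
  refine ⟨N0 + ⌈K ^ 2⌉₊, fun N hN => ?_⟩
  obtain ⟨hN1, hNC⟩ := hN0 N (by omega)
  refine ⟨hN1, fun Λ => ?_⟩
  have hKN : K ^ 2 ≤ N := by
    have h1 : (⌈K ^ 2⌉₊ : ℝ) ≤ N := by exact_mod_cast (by omega : ⌈K ^ 2⌉₊ ≤ N)
    exact (Nat.le_ceil _).trans h1
  obtain ⟨δ1, hδ1, h1⟩ := near_exp N hN1 (2 * max Λ 0) hε'0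
  obtain ⟨δ2, hδ2, h2⟩ := near_exp (N + 1) (Nat.succ_pos N) Λ hε'0
  refine ⟨min δ1 δ2, lt_min hδ1 hδ2, ?_⟩
  intro C C1 hC hC1 i U hU
  haveI := isProbabilityMeasure_sph hN1.ne'
  haveI := isProbabilityMeasure_sph (Nat.succ_ne_zero N)
  have hC' : Near C δ1 := fun F hF => (hC F hF).trans (min_le_left _ _)
  have hC1' : Near C1 δ2 := fun F hF => (hC1 F hF).trans (min_le_right _ _)
  have hΛ0 : 0 ≤ max Λ 0 := le_max_right _ _
  have hU' : ∀ u v, |U u - U v| ≤ max Λ 0 * ∑ j, |u j - v j| := fun u v =>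
    (hU u v).trans (mul_le_mul_of_nonneg_right (le_max_left _ _)
      (Finset.sum_nonneg fun i _ => abs_nonneg _))
  -- continuity of U
  have hUc : Continuous U := by
    have hp : (0 : ℝ) < max Λ 0 + 1 := by linarith
    have h0 : ∀ u v, |(max Λ 0 + 1)⁻¹ * U u - (max Λ 0 + 1)⁻¹ * U v| ≤ ∑ i, |u i - v i| := by
      intro u v
      have hs : 0 ≤ ∑ i, |u i - v i| := Finset.sum_nonneg fun i _ => abs_nonneg _
      rw [← mul_sub, abs_mul, abs_of_pos (inv_pos.mpr hp), inv_mul_le_iff₀ hp]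
      calc |U u - U v| ≤ max Λ 0 * ∑ i, |u i - v i| := hU' u v
        _ ≤ (max Λ 0 + 1) * ∑ i, |u i - v i| := by nlinarith
    have h2 : U = fun x => (max Λ 0 + 1) * ((max Λ 0 + 1)⁻¹ * U x) := by
      funext x; field_simp
    rw [h2]
    exact continuous_const.mul (continuous_of_l1 h0)
  -- step 1: C against the sphere for every s
  have hstep1 : ∀ s : ℝ, ∑ y, C.q y * Real.exp (U (npt i (C.x y) s)) ≤
      (1 + ε') * ∫ y, Real.exp (U (npt i (fun j => Real.sqrt N * ys y j) s)) ∂(sph N) := by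
    intro s
    refine (h1 C hC' (fun x => U (npt i x s)) fun u v => ?_).2
    refine (hU' _ _).trans ?_
    rw [sum_abs_npt]
    have hS : 0 ≤ ∑ j, |u j - v j| := Finset.sum_nonneg fun i _ => abs_nonneg _
    have := mul_le_mul_of_nonneg_right (sc_le hN1 s) hS
    nlinarith
  -- step 2: the sphere in dimension N + 1
  have hstep2 := (h2 C1 hC1' U hU).1
  -- step 3: helper409's inequality
  set F : Sph_409.En (N + 1) → ℝ≥0∞ := fun w =>
    ENNReal.ofReal (Real.exp (U fun j => Real.sqrt ((N + 1 : ℕ) : ℝ) * w j)) with hF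
  have hofLp : Continuous (fun w : Sph_409.En (N + 1) =>
      (fun j => Real.sqrt ((N + 1 : ℕ) : ℝ) * w j : Fin (N + 1) → ℝ)) := by
    refine continuous_pi fun j => continuous_const.mul ?_
    exact (EuclideanSpace.proj j : Sph_409.En (N + 1) →L[ℝ] ℝ).continuous
  have hFm : Measurable F :=
    (Real.continuous_exp.comp (hUc.comp hofLp)).measurable.ennreal_ofReal
  have h3 := hNC i F hFm
  have hnptc : Continuous (fun p : ℝ × UnitSphere N =>
      npt i (fun j => Real.sqrt N * ys p.2 j) p.1) := by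
    refine continuous_pi fun j => ?_
    refine Fin.succAboveCases i ?_ (fun k => ?_) j
    · simp only [npt, Fin.insertNth_apply_same]
      exact continuous_fst
    · simp only [npt, Fin.insertNth_apply_succAbove]
      refine Continuous.mul ?_ (continuous_const.mul
        ((continuous_apply k).comp (continuous_ys.comp continuous_snd)))
      unfold sc
      fun_prop
  -- rewrite the left side of h3
  have hL : ∀ s ∈ Set.Icc (-K) K, ∀ y : UnitSphere N,
      F (Sph_409.ins i (s / Real.sqrt (N + 1)) (Real.sqrt (1 - (s / Real.sqrt (N + 1)) ^ 2) •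
        (y : Sph_409.En N))) =
      ENNReal.ofReal (Real.exp (U (npt i (fun j => Real.sqrt N * ys y j) s))) := by
    intro s hs y
    simp only [hF]
    congr 3
    funext j
    have hn1 : (0 : ℝ) < (N : ℝ) + 1 := by positivity
    have hs2 : s ^ 2 ≤ N := (sq_le_sq' hs.1 hs.2).trans hKN
    have hNp : (0 : ℝ) < N := by exact_mod_cast hN1
    refine Fin.succAboveCases i ?_ (fun k => ?_) j
    · rw [Sph_409.ins_same]
      simp only [npt, Fin.insertNth_apply_same]
      push_cast
      have : 0 < Real.sqrt ((N : ℝ) + 1) := Real.sqrt_pos.mpr hn1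
      field_simp
    · rw [Sph_409.ins_succAbove]
      simp only [npt, Fin.insertNth_apply_succAbove, PiLp.smul_apply, smul_eq_mul]
      push_cast
      rw [← mul_assoc, ← mul_assoc]
      congr 1
      rw [div_pow, Real.sq_sqrt hn1.le, ← Real.sqrt_mul hn1.le]
      unfold sc
      rw [← Real.sqrt_mul (by apply div_nonneg <;> linarith)]
      congr 1
      field_simp
  have hLint : ∫⁻ s in Set.Icc (-K) K, ∫⁻ y, F (Sph_409.ins i (s / Real.sqrt (N + 1))
      (Real.sqrt (1 - (s / Real.sqrt (N + 1)) ^ 2) • (y : Sph_409.En N))) ∂(Sph_409.uS N)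
      ∂(gaussianReal 0 1) =
      ∫⁻ s in Set.Icc (-K) K, ∫⁻ y, ENNReal.ofReal (Real.exp (U (npt i
        (fun j => Real.sqrt N * ys y j) s))) ∂(sph N) ∂(gaussianReal 0 1) := by
    refine setLIntegral_congr_fun measurableSet_Icc fun s hs => ?_
    exact lintegral_congr fun y => hL s hs y
  rw [hLint] at h3
  -- to real integrals
  set H : ℝ → ℝ := fun s => ∫ y, Real.exp (U (npt i (fun j => Real.sqrt N * ys y j) s)) ∂(sph N)
    with hH
  have hcontE : Continuous (fun p : ℝ × UnitSphere N =>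
      Real.exp (U (npt i (fun j => Real.sqrt N * ys p.2 j) p.1))) :=
    Real.continuous_exp.comp (hUc.comp hnptc)
  have hHc : Continuous H := by
    have hc := continuous_parametric_integral_of_continuous (μ := sph N)
      (f := fun (s : ℝ) (y : UnitSphere N) =>
        Real.exp (U (npt i (fun j => Real.sqrt N * ys y j) s))) hcontE isCompact_univ
    simpa only [Measure.restrict_univ] using hc
  have hHi : ∀ s, Integrable (fun y : UnitSphere N =>
      Real.exp (U (npt i (fun j => Real.sqrt N * ys y j) s))) (sph N) := fun s =>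
    (hcontE.comp (continuous_const.prodMk continuous_id)).integrable_of_hasCompactSupport
      (HasCompactSupport.of_compactSpace _)
  have e1 : ∀ s, ∫⁻ y, ENNReal.ofReal (Real.exp (U (npt i (fun j => Real.sqrt N * ys y j) s)))
      ∂(sph N) = ENNReal.ofReal (H s) := fun s =>
    (ofReal_integral_eq_lintegral_ofReal (hHi s)
      (Filter.Eventually.of_forall fun y => (Real.exp_pos _).le)).symm
  have hHnn : ∀ s, 0 ≤ H s := fun s => integral_nonneg fun y => (Real.exp_pos _).le
  have hHint : IntegrableOn H (Set.Icc (-K) K) (gaussianReal 0 1) :=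
    hHc.continuousOn.integrableOn_compact isCompact_Icc
  simp only [e1] at h3
  rw [← ofReal_integral_eq_lintegral_ofReal hHint (Filter.Eventually.of_forall hHnn)] at h3
  have e2 : ∫⁻ y, F (y : Sph_409.En (N + 1)) ∂(Sph_409.uS (N + 1)) =
      ENNReal.ofReal (∫ y, Real.exp (U fun j => Real.sqrt ((N + 1 : ℕ) : ℝ) * ys y j)
        ∂(sph (N + 1))) := by
    rw [ofReal_integral_eq_lintegral_ofReal]
    · rfl
    · refine Continuous.integrable_of_hasCompactSupport ?_ (HasCompactSupport.of_compactSpace _)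
      exact Real.continuous_exp.comp (hUc.comp (continuous_pi fun j =>
        continuous_const.mul ((continuous_apply j).comp continuous_ys)))
    · exact Filter.Eventually.of_forall fun y => (Real.exp_pos _).le
  rw [e2, ← ENNReal.ofReal_mul (by linarith), ENNReal.ofReal_le_ofReal_iff
    (integral_nonneg fun y => (Real.exp_pos _).le)] at h3
  -- assemble
  have hsumc : Continuous fun s : ℝ => ∑ y, C.q y * Real.exp (U (npt i (C.x y) s)) := by
    refine continuous_finsetSum _ fun y _ => continuous_const.mul (Real.continuous_exp.comp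
      (hUc.comp (continuous_pi fun j => ?_)))
    refine Fin.succAboveCases i ?_ (fun k => ?_) j
    · simp only [npt, Fin.insertNth_apply_same]
      exact continuous_id
    · simp only [npt, Fin.insertNth_apply_succAbove]
      unfold sc
      fun_prop
  have h4 : ∫ s in Set.Icc (-K) K, (∑ y, C.q y * Real.exp (U (npt i (C.x y) s)))
      ∂(gaussianReal 0 1) ≤ (1 + ε') * ∫ s in Set.Icc (-K) K, H s ∂(gaussianReal 0 1) := by
    rw [← integral_const_mul]
    exact integral_mono (hsumc.continuousOn.integrableOn_compact isCompact_Icc)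
      (hHint.const_mul _) hstep1
  have hI0 : 0 ≤ ∫ s in Set.Icc (-K) K, H s ∂(gaussianReal 0 1) :=
    integral_nonneg hHnn
  set I1 := ∫ s in Set.Icc (-K) K, H s ∂(gaussianReal 0 1) with hI1
  set S1 := ∑ y, C1.q y * Real.exp (U (C1.x y)) with hS1
  set Z1 := ∫ y, Real.exp (U fun j => Real.sqrt ((N + 1 : ℕ) : ℝ) * ys y j) ∂(sph (N + 1)) with hZ1
  calc (1 - ε) * ∫ s in Set.Icc (-K) K, (∑ y, C.q y * Real.exp (U (npt i (C.x y) s)))
        ∂(gaussianReal 0 1)
      ≤ (1 - ε) * ((1 + ε') * I1) := mul_le_mul_of_nonneg_left h4 (by linarith)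
    _ ≤ (1 - ε') * ((1 - ε') * I1) := by
        rw [← mul_assoc, ← mul_assoc]
        refine mul_le_mul_of_nonneg_right ?_ hI0
        rw [hε']; nlinarith
    _ ≤ (1 - ε') * Z1 := mul_le_mul_of_nonneg_left h3 (by linarith)
    _ ≤ S1 := hstep2

end Crest.Agent.R146.NewF857
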