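import Crest.Agent.R146.S6L_988
import Crest.Agent.R146.SysA_52
import Crest.Agent.R146.PLim_857

/-!
Row 146, node NEWC (helper713 for helper857): measure part of the new coordinate.

* `mp_split`     : the rows of dimension `N + 1` are the rows of dimension `N` plus a new column;
* `measurable_dE, measurable_dV` : joint measurability in (rows, new column);
* `abs_dE_le, abs_dV_le` : explicit bounds;
* `prob_large_rows` : Markov.
-/

set_option autoImplicit false

namespace Crest.Agent.R146.NewM_713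

open Finset MeasureTheory ProbabilityTheory Crest.Agent.R141
open Crest.Agent.R146.S6Def_988 Crest.Agent.R146.S6L_988 Crest.Agent.R146.SysA_52
open Crest.Agent.R146.PLim857

noncomputable section

/-! ### (M1) the new column -/

/-- one row -/
theorem mp_snoc (N : ℕ) :
    MeasurePreserving (fun p : (Fin N → ℝ) × ℝ => (Fin.snoc p.1 p.2 : Fin (N + 1) → ℝ))
      ((Measure.pi fun _ : Fin N => gaussianReal 0 1).prod (gaussianReal 0 1))
      (Measure.pi fun _ : Fin (N + 1) => gaussianReal 0 1) := by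
  have h1 := (measurePreserving_piFinSuccAbove (fun _ : Fin (N + 1) => gaussianReal 0 1)
    (Fin.last N)).symm
  have h2 : MeasurePreserving (Prod.swap : (Fin N → ℝ) × ℝ → ℝ × (Fin N → ℝ))
      ((Measure.pi fun _ : Fin N => gaussianReal 0 1).prod (gaussianReal 0 1))
      ((gaussianReal 0 1).prod (Measure.pi fun _ : Fin N => gaussianReal 0 1)) :=
    Measure.measurePreserving_swap
  have h3 := h1.comp h2
  convert h3 using 1
  funext p
  simp only [Function.comp, MeasurableEquiv.piFinSuccAbove_symm_apply, Fin.insertNthEquiv,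
    Prod.swap]
  exact (Fin.insertNth_last' p.2 p.1).symm

/-- (M1) all rows -/
theorem mp_split (M N : ℕ) :
    MeasurePreserving (fun p : (Fin M → Fin N → ℝ) × (Fin M → ℝ) =>
        fun a : Fin M => (Fin.snoc (p.1 a) (p.2 a) : Fin (N + 1) → ℝ))
      ((gam M N).prod (gv M)) (gam M (N + 1)) := by
  have h1 := (measurePreserving_arrowProdEquivProdArrow (Fin N → ℝ) ℝ (Fin M)
    (fun _ => Measure.pi fun _ : Fin N => gaussianReal 0 1) (fun _ => gaussianReal 0 1)).symm
  have h2 := measurePreserving_pi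
    (fun _ : Fin M => (Measure.pi fun _ : Fin N => gaussianReal 0 1).prod (gaussianReal 0 1))
    (fun _ : Fin M => Measure.pi fun _ : Fin (N + 1) => gaussianReal 0 1)
    (f := fun _ p => (Fin.snoc p.1 p.2 : Fin (N + 1) → ℝ)) (fun _ => mp_snoc N)
  exact h2.comp h1

/-! ### (M2) measurability -/

variable {N : ℕ} {C : Cfg N} {nc n M : ℕ}

theorem BL_measurable {K L : ℝ} {f : ℝ → ℝ} (h : BL K L f) : Measurable f := by
  have hc : Continuous f := by
    have hl : LipschitzWith (Real.toNNReal L) f := by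
      refine LipschitzWith.of_dist_le_mul fun x y => ?_
      rw [Real.dist_eq, Real.dist_eq]
      refine (h.lip x y).trans ?_
      exact mul_le_mul_of_nonneg_right (Real.le_coe_toNNReal L) (abs_nonneg _)
    exact hl.continuous
  exact hc.measurable

theorem measurable_hh (a : Fin M) (x : Fin N → ℝ) :
    Measurable fun G : Fin M → Fin N → ℝ => hh G a x := by
  unfold hh
  refine Finset.measurable_sum _ fun i _ => Measurable.mul_const ?_ _
  exact (measurable_pi_apply i).comp (measurable_pi_apply a)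

/-- joint measurability of `dE` in (rows, new column, `t`) -/
theorem measurable_dE3 {f : ℝ → ℝ} (hf : Measurable f) (s : Fin nc → ℝ) (ω : Om C nc n) :
    Measurable fun q : ((Fin M → Fin N → ℝ) × (Fin M → ℝ)) × ℝ =>
      dE C nc n f q.1.1 q.1.2 s ω q.2 := by
  unfold dE
  have hG : ∀ a : Fin M, Measurable fun q : ((Fin M → Fin N → ℝ) × (Fin M → ℝ)) × ℝ =>
      hh q.1.1 a (C.x ω.1) := fun a => (measurable_hh a _).comp (measurable_fst.comp measurable_fst)
  have hg : ∀ a : Fin M, Measurable fun q : ((Fin M → Fin N → ℝ) × (Fin M → ℝ)) × ℝ =>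
      q.1.2 a := fun a => (measurable_pi_apply a).comp (measurable_snd.comp measurable_fst)
  have ht : Measurable fun q : ((Fin M → Fin N → ℝ) × (Fin M → ℝ)) × ℝ => q.2 := measurable_snd
  have hs1 : Measurable fun q : ((Fin M → Fin N → ℝ) × (Fin M → ℝ)) × ℝ =>
      Real.sqrt (((N : ℝ) + 1 - q.2 ^ 2) / ((N : ℝ) + 1)) :=
    (((ht.pow_const 2).const_sub _).div_const _).sqrt
  have hs2 : Measurable fun q : ((Fin M → Fin N → ℝ) × (Fin M → ℝ)) × ℝ =>
      Real.sqrt (((N : ℝ) + 1 - q.2 ^ 2) / N) := (((ht.pow_const 2).const_sub _).div_const _).sqrt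
  refine Measurable.add (Finset.measurable_sum _ fun a _ => ?_) ?_
  · refine (hf.comp ?_).sub (hf.comp (hG a))
    exact (hs1.mul (hG a)).add ((ht.div_const _).mul (hg a))
  · exact (hs2.sub_const 1).mul_const _

theorem measurable_dE {f : ℝ → ℝ} (hf : Measurable f) (s : Fin nc → ℝ) (ω : Om C nc n) (t : ℝ) :
    Measurable fun p : (Fin M → Fin N → ℝ) × (Fin M → ℝ) => dE C nc n f p.1 p.2 s ω t := by
  have hp : Measurable fun p : (Fin M → Fin N → ℝ) × (Fin M → ℝ) => (p, t) :=
    measurable_id.prodMk measurable_const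
  have h := (measurable_dE3 (M := M) hf s ω).comp hp
  exact h

/-- (M2) joint measurability of the potential of the new coordinate -/
theorem measurable_dV (k : ℝ) {f : ℝ → ℝ} (hf : Measurable f) (s : Fin nc → ℝ) (ω : Om C nc n) :
    Measurable fun p : (Fin M → Fin N → ℝ) × (Fin M → ℝ) => dV C nc n k f p.1 p.2 s ω := by
  unfold dV
  refine Real.measurable_log.comp ?_
  have he := (measurable_dE3 (M := M) hf s ω).exp
  have hg : Measurable fun q : ((Fin M → Fin N → ℝ) × (Fin M → ℝ)) × ℝ =>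
      gaussianPDFReal 0 1 q.2 := (measurable_gaussianPDFReal 0 1).comp measurable_snd
  have hm := hg.mul he
  have hi : ∀ S : Set ℝ, Measurable fun p : (Fin M → Fin N → ℝ) × (Fin M → ℝ) =>
      ∫ t in S, gaussianPDFReal 0 1 t * Real.exp (dE C nc n f p.1 p.2 s ω t) := fun S => by
    have h := (hm.stronglyMeasurable.integral_prod_right' (ν := volume.restrict S)).measurable
    exact h
  unfold intervalIntegral
  exact (hi _).sub (hi _)

/-! ### (M3) bounds -/

theorem abs_sqrt_sub_one_le (hN : 0 < N) (t : ℝ) :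
    |Real.sqrt (((N : ℝ) + 1 - t ^ 2) / N) - 1| ≤ 1 := by
  have hN' : (1 : ℝ) ≤ N := by exact_mod_cast hN
  have h0 := Real.sqrt_nonneg (((N : ℝ) + 1 - t ^ 2) / N)
  have h1 : Real.sqrt (((N : ℝ) + 1 - t ^ 2) / N) ≤ 2 := by
    rw [Real.sqrt_le_iff]
    refine ⟨by norm_num, ?_⟩
    rw [div_le_iff₀ (by linarith)]
    nlinarith [sq_nonneg t]
  rw [abs_le]
  constructor <;> linarith

theorem abs_dE_le (hN : 0 < N) {K : ℝ} {f : ℝ → ℝ} (hK : ∀ x, |f x| ≤ K)
    (G : Fin M → Fin N → ℝ) (g0 : Fin M → ℝ) (s : Fin nc → ℝ) (ω : Om C nc n) (t : ℝ) :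
    |dE C nc n f G g0 s ω t| ≤ 2 * K * M + |fieldE s ω| := by
  unfold dE
  refine (abs_add_le _ _).trans (add_le_add ?_ ?_)
  · refine (Finset.abs_sum_le_sum_abs _ _).trans ?_
    calc _ ≤ ∑ _a : Fin M, 2 * K := Finset.sum_le_sum fun a _ => by
          refine (abs_sub _ _).trans ?_
          have h1 := hK (Real.sqrt (((N : ℝ) + 1 - t ^ 2) / ((N : ℝ) + 1)) * hh G a (C.x ω.1) +
            t / Real.sqrt ((N : ℝ) + 1) * g0 a)
          have h2 := hK (hh G a (C.x ω.1))
          linarith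
      _ = 2 * K * M := by simp; ring
  · rw [abs_mul]
    have h1 := abs_sqrt_sub_one_le hN t
    calc _ ≤ 1 * |fieldE s ω| := mul_le_mul_of_nonneg_right h1 (abs_nonneg _)
      _ = _ := one_mul _

/-- the Gaussian mass of `(-k, k)` -/
def gm (k : ℝ) : ℝ := ∫ t in (-k)..k, gaussianPDFReal 0 1 t

theorem gm_pos {k : ℝ} (hk : 0 < k) : 0 < gm k := by
  unfold gm
  refine intervalIntegral.intervalIntegral_pos_of_pos_on ?_ ?_ (by linarith)
  · exact (integrable_gaussianPDFReal 0 1).intervalIntegrable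
  · intro t _
    exact gaussianPDFReal_pos 0 1 t (by norm_num)

theorem intervalIntegrable_dE (hN : 0 < N) {K : ℝ} {f : ℝ → ℝ} (hf : Measurable f)
    (hK : ∀ x, |f x| ≤ K) (G : Fin M → Fin N → ℝ) (g0 : Fin M → ℝ) (s : Fin nc → ℝ)
    (ω : Om C nc n) (k : ℝ) :
    IntervalIntegrable (fun t => gaussianPDFReal 0 1 t * Real.exp (dE C nc n f G g0 s ω t))
      volume (-k) k := by
  have hp : Measurable fun t : ℝ => (((G, g0), t) : ((Fin M → Fin N → ℝ) × (Fin M → ℝ)) × ℝ) :=
    measurable_prodMk_left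
  have h0 := (measurable_dE3 (M := M) hf s ω).comp hp
  have hm0 : Measurable fun t : ℝ => dE C nc n f G g0 s ω t := h0
  have hm : Measurable fun t : ℝ => Real.exp (dE C nc n f G g0 s ω t) := hm0.exp
  refine Integrable.intervalIntegrable ?_
  refine Integrable.mul_bdd (c := Real.exp (2 * K * M + |fieldE s ω|))
    (integrable_gaussianPDFReal 0 1) hm.aestronglyMeasurable ?_
  refine Filter.Eventually.of_forall fun t => ?_
  rw [Real.norm_eq_abs, Real.abs_exp]
  exact Real.exp_le_exp.mpr (abs_le.mp (abs_dE_le hN hK G g0 s ω t)).2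

theorem exp_dV_bounds (hN : 0 < N) {K : ℝ} {f : ℝ → ℝ} (hf : Measurable f)
    (hK : ∀ x, |f x| ≤ K) {k : ℝ} (hk : 0 < k) (G : Fin M → Fin N → ℝ) (g0 : Fin M → ℝ)
    (s : Fin nc → ℝ) (ω : Om C nc n) :
    Real.exp (-(2 * K * M + |fieldE s ω|)) * gm k ≤
      ∫ t in (-k)..k, gaussianPDFReal 0 1 t * Real.exp (dE C nc n f G g0 s ω t) ∧
    ∫ t in (-k)..k, gaussianPDFReal 0 1 t * Real.exp (dE C nc n f G g0 s ω t) ≤
      Real.exp (2 * K * M + |fieldE s ω|) * gm k := by
  have hi := intervalIntegrable_dE hN hf hK G g0 s ω k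
  have hg : IntervalIntegrable (fun t => gaussianPDFReal 0 1 t) volume (-k) k :=
    (integrable_gaussianPDFReal 0 1).intervalIntegrable
  unfold gm
  rw [← intervalIntegral.integral_const_mul, ← intervalIntegral.integral_const_mul]
  constructor
  · refine intervalIntegral.integral_mono_on (by linarith) (hg.const_mul _) hi fun t _ => ?_
    rw [mul_comm]
    refine mul_le_mul_of_nonneg_left (Real.exp_le_exp.mpr ?_) (gaussianPDFReal_nonneg 0 1 t)
    exact (abs_le.mp (abs_dE_le hN hK G g0 s ω t)).1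
  · refine intervalIntegral.integral_mono_on (by linarith) hi (hg.const_mul _) fun t _ => ?_
    rw [mul_comm (Real.exp _) (gaussianPDFReal 0 1 t)]
    refine mul_le_mul_of_nonneg_left (Real.exp_le_exp.mpr ?_) (gaussianPDFReal_nonneg 0 1 t)
    exact (abs_le.mp (abs_dE_le hN hK G g0 s ω t)).2

theorem int_dE_pos (hN : 0 < N) {K : ℝ} {f : ℝ → ℝ} (hf : Measurable f)
    (hK : ∀ x, |f x| ≤ K) {k : ℝ} (hk : 0 < k) (G : Fin M → Fin N → ℝ) (g0 : Fin M → ℝ)
    (s : Fin nc → ℝ) (ω : Om C nc n) :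
    0 < ∫ t in (-k)..k, gaussianPDFReal 0 1 t * Real.exp (dE C nc n f G g0 s ω t) :=
  lt_of_lt_of_le (mul_pos (Real.exp_pos _) (gm_pos hk)) (exp_dV_bounds hN hf hK hk G g0 s ω).1

/-- (M3), with the field energy -/
theorem abs_dV_le' (hN : 0 < N) {K : ℝ} {f : ℝ → ℝ} (hf : Measurable f)
    (hK : ∀ x, |f x| ≤ K) {k : ℝ} (hk : 0 < k) (G : Fin M → Fin N → ℝ) (g0 : Fin M → ℝ)
    (s : Fin nc → ℝ) (ω : Om C nc n) :
    |dV C nc n k f G g0 s ω| ≤ 2 * K * M + |fieldE s ω| + |Real.log (gm k)| := by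
  have hb := exp_dV_bounds hN hf hK hk G g0 s ω
  have hp := int_dE_pos hN hf hK hk G g0 s ω
  have hg := gm_pos hk
  have h1 : -(2 * K * M + |fieldE s ω|) + Real.log (gm k) ≤ dV C nc n k f G g0 s ω := by
    unfold dV
    rw [← Real.log_exp (-(2 * K * M + |fieldE s ω|)), ← Real.log_mul (Real.exp_pos _).ne' hg.ne']
    exact Real.log_le_log (mul_pos (Real.exp_pos _) hg) hb.1
  have h2 : dV C nc n k f G g0 s ω ≤ (2 * K * M + |fieldE s ω|) + Real.log (gm k) := by
    unfold dV
    rw [← Real.log_exp (2 * K * M + |fieldE s ω|), ← Real.log_mul (Real.exp_pos _).ne' hg.ne']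
    exact Real.log_le_log hp hb.2
  have h3 := neg_abs_le (Real.log (gm k))
  have h4 := le_abs_self (Real.log (gm k))
  rw [abs_le]
  constructor <;> linarith

/-- (M3) -/
theorem abs_dV_le (hN : 0 < N) {K : ℝ} {f : ℝ → ℝ} (hf : Measurable f)
    (hK : ∀ x, |f x| ≤ K) {k : ℝ} (hk : 0 < k) (G : Fin M → Fin N → ℝ) (g0 : Fin M → ℝ)
    (s : Fin nc → ℝ) (ω : Om C nc n) :
    |dV C nc n k f G g0 s ω| ≤ 2 * K * M + (∑ g, |s g|) * (N * Real.sqrt n) +
      |Real.log (gm k)| := by
  have h1 := abs_dV_le' hN hf hK hk G g0 s ω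
  have h2 := fieldE_abs_le s ω
  linarith

/-! ### (M4) large rows -/

theorem integrable_sum_abs (M N : ℕ) :
    Integrable (fun G : Fin M → Fin N → ℝ => ∑ a, ∑ i, |G a i|) (gam M N) :=
  integrable_finsetSum _ fun a _ => integrable_finsetSum _ fun i _ =>
      (integrable_abs_entry M N a i).1

theorem integral_sum_abs_le (M N : ℕ) :
    ∫ G : Fin M → Fin N → ℝ, (∑ a, ∑ i, |G a i|) ∂(gam M N) ≤ M * N := by
  rw [integral_finsetSum _ fun a _ => integrable_finsetSum _ fun i _ =>
    (integrable_abs_entry M N a i).1]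
  calc ∑ a : Fin M, ∫ G, (∑ i : Fin N, |G a i|) ∂(gam M N)
      ≤ ∑ _a : Fin M, (N : ℝ) := Finset.sum_le_sum fun a _ => by
        rw [integral_finsetSum _ fun i _ => (integrable_abs_entry M N a i).1]
        calc ∑ i : Fin N, ∫ G, |G a i| ∂(gam M N) ≤ ∑ _i : Fin N, (1 : ℝ) :=
              Finset.sum_le_sum fun i _ => (integrable_abs_entry M N a i).2
          _ = N := by simp
    _ = M * N := by simp

/-- (M4) -/
theorem prob_large_rows (M N : ℕ) {R : ℝ} (hR : 0 < R) :
    (gam M N).real {G : Fin M → Fin N → ℝ | R < ∑ a, ∑ i, |G a i|} ≤ M * N / R := by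
  have h0 := mul_meas_ge_le_integral_of_nonneg (μ := gam M N)
    (f := fun G : Fin M → Fin N → ℝ => ∑ a, ∑ i, |G a i|)
    (Filter.Eventually.of_forall fun G => Finset.sum_nonneg fun a _ =>
      Finset.sum_nonneg fun i _ => abs_nonneg _) (integrable_sum_abs M N) R
  have h1 : (gam M N).real {G : Fin M → Fin N → ℝ | R < ∑ a, ∑ i, |G a i|} ≤
      (gam M N).real {G : Fin M → Fin N → ℝ | R ≤ ∑ a, ∑ i, |G a i|} :=
    measureReal_mono fun G (hG : R < ∑ a, ∑ i, |G a i|) => hG.le
  have h2 := integral_sum_abs_le M N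
  rw [le_div_iff₀ hR]
  calc _ ≤ (gam M N).real {G : Fin M → Fin N → ℝ | R ≤ ∑ a, ∑ i, |G a i|} * R :=
        mul_le_mul_of_nonneg_right h1 hR.le
    _ = R * (gam M N).real {G : Fin M → Fin N → ℝ | R ≤ ∑ a, ∑ i, |G a i|} := mul_comm _ _
    _ ≤ _ := h0.trans h2

theorem prob_large_rows' (M N : ℕ) {R : ℝ} (hR : 0 < R) :
    gam M N {G : Fin M → Fin N → ℝ | R < ∑ a, ∑ i, |G a i|} ≤ ENNReal.ofReal (M * N / R) := by
  rw [← ofReal_measureReal]
  exact ENNReal.ofReal_le_ofReal (prob_large_rows M N hR)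

end

end Crest.Agent.R146.NewM_713
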