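import Crest.Agent.R141.HierM

/-!
# Row 146 (helper857), node NEWC, part A: abstract lemmas on the hierarchical functional

* `A_half_le` : convexity of `A` at the midpoint;
* `A_collapse_step` : `A_k (A_{k0} U) = A_k U` for `k ≤ k0`;
* `cE_proj_equiv`, `A_proj_equiv` : projection along `Ω ≃ Ωc × Ωb` with product weights and
  product partitions.
-/

set_option autoImplicit false

namespace Crest.Agent.R146.Newc857

open Finset Crest.Agent.R141

noncomputable section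

variable {Ω : Type*} [Fintype Ω] {P : Ω → ℝ} {𝓕 : Filt Ω} {x : ℕ → ℝ}

theorem pm_half_le (hP : IsProb P) (r : Setoid Ω) {y : ℝ} (hy : 0 < y) (f g : Ω → ℝ) (ω : Ω) :
    pm P r y (fun a => (f a + g a) / 2) ω ≤ (pm P r y f ω + pm P r y g ω) / 2 := by
  have h1 := cE_mul_sq_le hP r (fun a => Real.exp (y * f a / 2)) (fun a => Real.exp (y * g a / 2)) ω
  have e1 : ∀ u : Ω → ℝ, (fun a => Real.exp (y * u a / 2) ^ 2) = fun a => Real.exp (y * u a) := by
    intro u; funext a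
    rw [← Real.exp_nat_mul]; congr 1; push_cast; ring
  have e2 : (fun a => Real.exp (y * f a / 2) * Real.exp (y * g a / 2)) =
      fun a => Real.exp (y * ((f a + g a) / 2)) := by
    funext a; rw [← Real.exp_add]; congr 1; ring
  rw [e1, e1, e2] at h1
  have p1 : 0 < cE P r (fun a => Real.exp (y * f a)) ω := cE_pos hP (fun _ => Real.exp_pos _) ω
  have p2 : 0 < cE P r (fun a => Real.exp (y * g a)) ω := cE_pos hP (fun _ => Real.exp_pos _) ω
  have p3 : 0 < cE P r (fun a => Real.exp (y * ((f a + g a) / 2))) ω :=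
    cE_pos hP (fun _ => Real.exp_pos _) ω
  have h2 := Real.log_le_log (by positivity) h1
  rw [Real.log_pow, Real.log_mul p1.ne' p2.ne'] at h2
  unfold pm
  push_cast at h2
  have hy' : 0 < 1 / y := by positivity
  nlinarith

/-- midpoint convexity -/
theorem A_half_le (hP : IsProb P) (hx : ∀ k, 0 < x k) (U V : Ω → ℝ) (k : ℕ) :
    ∀ ω, A P 𝓕 x (fun w => (U w + V w) / 2) k ω ≤ (A P 𝓕 x U k ω + A P 𝓕 x V k ω) / 2 := by
  refine back_induction 𝓕 (Q := fun k => ∀ ω, A P 𝓕 x (fun w => (U w + V w) / 2) k ω ≤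
    (A P 𝓕 x U k ω + A P 𝓕 x V k ω) / 2) ?_ ?_ k
  · intro k hk ω; rw [A_of_ge _ hk, A_of_ge _ hk, A_of_ge _ hk]
  · intro k ih ω
    rw [A_step hP hx _ k, A_step hP hx U k, A_step hP hx V k]
    exact (pm_mono hP (hx _) ω fun a _ => ih a).trans (pm_half_le hP _ (hx _) _ _ ω)

/-- the functional may be computed in two stages -/
theorem A_collapse_step (hP : IsProb P) (hx : ∀ k, 0 < x k) (U : Ω → ℝ) {k0 : ℕ} :
    ∀ j k, k + j = k0 → A P 𝓕 x (A P 𝓕 x U k0) k = A P 𝓕 x U k := by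
  intro j
  induction j with
  | zero =>
    intro k hk
    have : k = k0 := by omega
    subst this
    funext ω
    exact A_of_meas hP hx (A_meas hP hx U k) ω
  | succ j ih =>
    intro k hk
    rw [A_step hP hx _ k, A_step hP hx U k, ih (k + 1) (by omega)]

/-! ### projections along a product structure -/

section proj

variable {Ω1 Ωc Ωb : Type*} [Fintype Ω1] [Fintype Ωc] [Fintype Ωb]

open scoped Classical in
theorem sum_cls (e : Ω1 ≃ Ωc × Ωb) {P1 : Ω1 → ℝ} {Pc : Ωc → ℝ} {Pb : Ωb → ℝ}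
    (hP : ∀ ω, P1 ω = Pc (e ω).1 * Pb (e ω).2) {r1 : Setoid Ω1} {rc : Setoid Ωc} {rb : Setoid Ωb}
    (hr : ∀ ω ω', r1 ω ω' ↔ rc (e ω).1 (e ω').1 ∧ rb (e ω).2 (e ω').2) (f : Ωc → ℝ) (ω : Ω1) :
    ∑ ω' ∈ univ.filter (fun ω' => r1 ω ω'), P1 ω' * f (e ω').1 =
      (∑ c ∈ univ.filter (fun c => rc (e ω).1 c), Pc c * f c) *
        ∑ b ∈ univ.filter (fun b => rb (e ω).2 b), Pb b := by
  have h1 : (∑ c ∈ univ.filter (fun c => rc (e ω).1 c), Pc c * f c) *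
        ∑ b ∈ univ.filter (fun b => rb (e ω).2 b), Pb b =
      ∑ p : Ωc × Ωb, if rc (e ω).1 p.1 ∧ rb (e ω).2 p.2 then Pc p.1 * Pb p.2 * f p.1 else 0 := by
    rw [Finset.sum_mul_sum, Finset.sum_filter, Fintype.sum_prod_type]
    refine Finset.sum_congr rfl fun c _ => ?_
    split_ifs with hc
    · rw [Finset.sum_filter]
      refine Finset.sum_congr rfl fun b _ => ?_
      by_cases hb : rb (e ω).2 b
      · simp only [hb, hc, and_self, if_true]; ring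
      · simp only [hb, hc, and_false, if_false]
    · symm
      refine Finset.sum_eq_zero fun b _ => ?_
      simp only [hc, false_and, if_false]
  rw [h1, Finset.sum_filter, ← e.sum_comp]
  refine Finset.sum_congr rfl fun ω' _ => ?_
  by_cases h : r1 ω ω'
  · rw [if_pos h, if_pos ((hr ω ω').mp h), hP]
  · rw [if_neg h, if_neg (fun h2 => h ((hr ω ω').mpr h2))]

theorem cE_proj_equiv (e : Ω1 ≃ Ωc × Ωb) {P1 : Ω1 → ℝ} {Pc : Ωc → ℝ} {Pb : Ωb → ℝ}
    (hPb : IsProb Pb) (hP : ∀ ω, P1 ω = Pc (e ω).1 * Pb (e ω).2) {r1 : Setoid Ω1}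
    {rc : Setoid Ωc} {rb : Setoid Ωb}
    (hr : ∀ ω ω', r1 ω ω' ↔ rc (e ω).1 (e ω').1 ∧ rb (e ω).2 (e ω').2) (f : Ωc → ℝ) (ω : Ω1) :
    cE P1 r1 (fun w => f (e w).1) ω = cE Pc rc f (e ω).1 := by
  classical
  have hb : 0 < ∑ b ∈ univ.filter (fun b => rb (e ω).2 b), Pb b := cls_pos hPb rb _
  have h1 := sum_cls e hP hr f ω
  have h2 := sum_cls e hP hr (fun _ => 1) ω
  simp only [mul_one] at h2
  unfold cE
  rw [h1, h2, mul_div_mul_right _ _ hb.ne']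

/-- projection of the functional along a product structure -/
theorem A_proj_equiv (e : Ω1 ≃ Ωc × Ωb) {P1 : Ω1 → ℝ} {Pc : Ωc → ℝ} {Pb : Ωb → ℝ}
    (hP1 : IsProb P1) (hPc : IsProb Pc) (hPb : IsProb Pb)
    (hP : ∀ ω, P1 ω = Pc (e ω).1 * Pb (e ω).2) {𝓕1 : Filt Ω1} {𝓕c : Filt Ωc}
    (rb : ℕ → Setoid Ωb) (hx : ∀ k, 0 < x k)
    (hr : ∀ k ω ω', 𝓕1.F k ω ω' ↔ 𝓕c.F k (e ω).1 (e ω').1 ∧ rb k (e ω).2 (e ω').2)
    (U : Ωc → ℝ) (k : ℕ) (ω : Ω1) :
    A P1 𝓕1 x (fun w => U (e w).1) k ω = A Pc 𝓕c x U k (e ω).1 :=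
  A_proj hP1 hPc hx (fun w => (e w).1)
    (fun k f ω' => cE_proj_equiv (rb := rb k) e hPb hP (hr k) f ω') U k ω

/-- invariance of the functional under an automorphism -/
theorem A_auto (e : Ω1 ≃ Ω1) {P1 : Ω1 → ℝ} (hP1 : IsProb P1) (hP : ∀ ω, P1 (e ω) = P1 ω)
    {𝓕1 : Filt Ω1} (hx : ∀ k, 0 < x k) (hr : ∀ k ω ω', 𝓕1.F k (e ω) (e ω') ↔ 𝓕1.F k ω ω')
    (U : Ω1 → ℝ) (k : ℕ) (ω : Ω1) :
    A P1 𝓕1 x (fun w => U (e w)) k ω = A P1 𝓕1 x U k (e ω) := by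
  have hb : IsProb (fun _ : Unit => (1 : ℝ)) := ⟨fun _ => one_pos, by simp⟩
  exact A_proj_equiv (e.trans (Equiv.prodPUnit Ω1).symm) (Pb := fun _ : Unit => (1 : ℝ)) hP1 hP1 hb
    (fun ω => by simp [hP]) (𝓕1 := 𝓕1) (𝓕c := 𝓕1) (fun _ => ⊤) hx
    (fun k ω ω' => by
      simp only [Equiv.trans_apply, Equiv.prodPUnit_symm_apply]
      rw [hr]
      exact ⟨fun h => ⟨h, trivial⟩, fun h => h.1⟩) U k ω

end proj

end

end Crest.Agent.R146.Newc857
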