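import Crest.Agent.R146.NewcA_857
import Crest.Agent.R146.SysA_52
import Crest.Agent.R146.U0_762

/-!
# Row 146 (helper857), node NEWC, part B: the coin systems

* `cfil, cP` : filtration and law of the coins only;
* `A_coin` : `A_0` of the enriched system = `A_0` of the coin system applied to the inner
  log-partition function `LZ`;
* `coin_main` : removal of the coins of the last coordinate (flip symmetry + convexity).
-/

set_option autoImplicit false

namespace Crest.Agent.R146.Newc857

open Finset Crest.Agent.R141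
open Crest.Agent.R146.S6Def_988 Crest.Agent.R146.SysA_52

noncomputable section

variable (nc n N : ℕ)

/-- agreement of the coin rows revealed up to step `k` -/
def crel (k : ℕ) (c c' : Coins nc n N) : Prop :=
  ∀ (g : Fin nc) (t : Fin n), (g : ℕ) * n + t < k → c g t = c' g t

theorem row_lt (g : Fin nc) (t : Fin n) : (g : ℕ) * n + t < nc * n := by
  have h1 : (g : ℕ) * n + t < ((g : ℕ) + 1) * n := by
    have := t.2
    rw [add_mul, one_mul]; omega
  have h2 : ((g : ℕ) + 1) * n ≤ nc * n := Nat.mul_le_mul_right n g.2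
  omega

/-- the filtration of the coins -/
def cfil : Filt (Coins nc n N) where
  F k := ⟨crel nc n N k, ⟨fun _ _ _ _ => rfl, fun h g t hg => (h g t hg).symm,
    fun h h' g t hg => (h g t hg).trans (h' g t hg)⟩⟩
  anti k := fun _ _ h => fun g t hg => h g t (by omega)
  L := Lv nc n
  bot k hk := by
    ext c c'
    constructor
    · intro h
      have h : crel nc n N k c c' := h
      funext g t
      refine h g t ?_
      have := row_lt nc n g t
      unfold Lv at hk
      omega
    · intro h
      have h : c = c' := h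
      subst h
      intro g t _
      rfl

/-- the uniform law of the coins -/
def cP : Coins nc n N → ℝ := fun _ => (Fintype.card (Coins nc n N) : ℝ)⁻¹

theorem cP_isProb : IsProb (cP nc n N) where
  pos _ := inv_pos.mpr (card_coins_pos nc n N)
  sum := by
    unfold cP
    rw [Finset.sum_const, Finset.card_univ, nsmul_eq_mul]
    exact mul_inv_cancel₀ (card_coins_pos nc n N).ne'

variable {nc n N}
variable (C : Cfg N)

/-- the inner log-partition function -/
def LZ (V : Om C nc n → ℝ) (c : Coins nc n N) : ℝ := Real.log (∑ y, C.q y * Real.exp (V (y, c)))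

/-- functions of the coins only -/
theorem A_snd (W : Coins nc n N → ℝ) (k : ℕ) (ω : Om C nc n) :
    A (prior C nc n) (fil C nc n) (xs nc n) (fun w => W w.2) k ω =
      A (cP nc n N) (cfil nc n N) (xs nc n) W k ω.2 := by
  refine A_proj_equiv (Equiv.prodComm C.Y (Coins nc n N)) (prior_isProb C nc n) (cP_isProb nc n N)
    C.hq (fun ω => ?_) (fun k => ⟨fun y y' => Lv nc n ≤ k → y = y', ⟨fun _ _ => rfl,
      fun h hk => (h hk).symm, fun h h' hk => (h hk).trans (h' hk)⟩⟩) (xs_pos nc n)
    (fun k ω ω' => ?_) W k ω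
  · simp only [Crest.Agent.R146.S6Def_988.prior, cP, Equiv.prodComm_apply, Prod.snd_swap, Prod.fst_swap]
    ring
  · exact Iff.rfl

/-- **reduction to the coin system** -/
theorem A_coin (hn : 0 < n) (V : Om C nc n → ℝ) (ω : Om C nc n) :
    A (prior C nc n) (fil C nc n) (xs nc n) V 0 ω =
      A (cP nc n N) (cfil nc n N) (xs nc n) (LZ C V) 0 ω.2 := by
  have h1 := A_collapse_step (𝓕 := fil C nc n) (prior_isProb C nc n) (xs_pos nc n) V
    (k0 := nc * n) (nc * n) 0 (by omega)
  rw [← h1]
  have h2 : A (prior C nc n) (fil C nc n) (xs nc n) V (nc * n) = fun w => LZ C V w.2 := by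
    funext w
    exact U0_762.A_last C nc n hn V w
  rw [h2, A_snd]

/-! ### one more column -/

variable (nc n N)

/-- splitting of the last column -/
def rho : Coins nc n (N + 1) ≃ Coins nc n N × (Fin nc → Fin n → Bool) where
  toFun c := (fun g t i => c g t i.castSucc, fun g t => c g t (Fin.last N))
  invFun p := fun g t => Fin.snoc (α := fun _ => Bool) (p.1 g t) (p.2 g t)
  left_inv c := by
    funext g t i
    refine Fin.lastCases ?_ (fun j => ?_) i
    · simp
    · simp
  right_inv p := by
    ext g t i <;> simp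

theorem rho_fst (c : Coins nc n (N + 1)) (g : Fin nc) (t : Fin n) (i : Fin N) :
    (rho nc n N c).1 g t i = c g t i.castSucc := rfl

theorem rho_snd (c : Coins nc n (N + 1)) (g : Fin nc) (t : Fin n) :
    (rho nc n N c).2 g t = c g t (Fin.last N) := rfl

/-- functions of the old columns only -/
theorem A_rho (W : Coins nc n N → ℝ) (k : ℕ) (c1 : Coins nc n (N + 1)) :
    A (cP nc n (N + 1)) (cfil nc n (N + 1)) (xs nc n) (fun c => W (rho nc n N c).1) k c1 =
      A (cP nc n N) (cfil nc n N) (xs nc n) W k (rho nc n N c1).1 := by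
  have hcard : (Fintype.card (Coins nc n (N + 1)) : ℝ) =
      (Fintype.card (Coins nc n N) : ℝ) * (Fintype.card (Fin nc → Fin n → Bool) : ℝ) := by
    rw [← Nat.cast_mul, ← Fintype.card_prod]
    exact_mod_cast Fintype.card_congr (rho nc n N)
  have hbpos : (0 : ℝ) < (Fintype.card (Fin nc → Fin n → Bool) : ℝ) := by
    exact_mod_cast Fintype.card_pos
  have hb : IsProb (fun _ : Fin nc → Fin n → Bool =>
      (Fintype.card (Fin nc → Fin n → Bool) : ℝ)⁻¹) :=
    ⟨fun _ => inv_pos.mpr hbpos, by
      rw [Finset.sum_const, Finset.card_univ, nsmul_eq_mul]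
      exact mul_inv_cancel₀ hbpos.ne'⟩
  refine A_proj_equiv (rho nc n N) (cP_isProb nc n (N + 1)) (cP_isProb nc n N) hb
    (fun ω => ?_) (fun k => ⟨fun b b' => ∀ (g : Fin nc) (t : Fin n), (g : ℕ) * n + t < k →
      b g t = b' g t, ⟨fun _ _ _ _ => rfl, fun h g t hg => (h g t hg).symm,
      fun h h' g t hg => (h g t hg).trans (h' g t hg)⟩⟩) (xs_pos nc n) (fun k ω ω' => ?_) W k c1
  · simp only [cP]
    rw [hcard, mul_inv]
  · constructor
    · intro h
      have h : crel nc n (N + 1) k ω ω' := h
      refine ⟨fun g t hg => ?_, fun g t hg => ?_⟩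
      · funext i
        rw [rho_fst, rho_fst, h g t hg]
      · rw [rho_snd, rho_snd, h g t hg]
    · rintro ⟨h1, h2⟩ g t hg
      have h1 : crel nc n N k (rho nc n N ω).1 (rho nc n N ω').1 := h1
      funext i
      refine Fin.lastCases ?_ (fun j => ?_) i
      · have := h2 g t hg
        rwa [rho_snd, rho_snd] at this
      · have := congrFun (h1 g t hg) j
        rwa [rho_fst, rho_fst] at this

/-- flip of the last column -/
def flp : Coins nc n (N + 1) ≃ Coins nc n (N + 1) where
  toFun c := fun g t i => if i = Fin.last N then !(c g t i) else c g t i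
  invFun c := fun g t i => if i = Fin.last N then !(c g t i) else c g t i
  left_inv c := by
    funext g t i
    by_cases h : i = Fin.last N
    · simp [h]
    · simp [h]
  right_inv c := by
    funext g t i
    by_cases h : i = Fin.last N
    · simp [h]
    · simp [h]

theorem flp_last (c : Coins nc n (N + 1)) (g : Fin nc) (t : Fin n) :
    flp nc n N c g t (Fin.last N) = !(c g t (Fin.last N)) := by simp [flp]

theorem flp_castSucc (c : Coins nc n (N + 1)) (g : Fin nc) (t : Fin n) (i : Fin N) :
    flp nc n N c g t i.castSucc = c g t i.castSucc := by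
  have h : i.castSucc ≠ Fin.last N := (Fin.castSucc_lt_last i).ne
  simp [flp, h]

theorem rho_flp_fst (c : Coins nc n (N + 1)) :
    (rho nc n N (flp nc n N c)).1 = (rho nc n N c).1 := by
  funext g t i
  rw [rho_fst, rho_fst, flp_castSucc]

theorem A_flp (W : Coins nc n (N + 1) → ℝ) (k : ℕ) (c1 : Coins nc n (N + 1)) :
    A (cP nc n (N + 1)) (cfil nc n (N + 1)) (xs nc n) (fun c => W (flp nc n N c)) k c1 =
      A (cP nc n (N + 1)) (cfil nc n (N + 1)) (xs nc n) W k (flp nc n N c1) := by
  refine A_auto (flp nc n N) (cP_isProb nc n (N + 1)) (fun _ => rfl) (xs_pos nc n)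
    (fun k c c' => ?_) W k c1
  constructor
  · intro h
    have h : crel nc n (N + 1) k (flp nc n N c) (flp nc n N c') := h
    intro g t hg
    funext i
    have := congrFun (h g t hg) i
    by_cases hi : i = Fin.last N
    · subst hi
      rw [flp_last, flp_last] at this
      exact Bool.not_inj this
    · simpa [flp, hi] using this
  · intro h
    have h : crel nc n (N + 1) k c c' := h
    intro g t hg
    funext i
    simp only [flp, Equiv.coe_fn_mk]
    rw [h g t hg]

theorem cfil_zero : (cfil nc n N).F 0 = ⊤ := by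
  ext a b
  constructor
  · intro _; trivial
  · intro _ g t h
    omega

theorem A_zero_const (W : Coins nc n N → ℝ) (c c' : Coins nc n N) :
    A (cP nc n N) (cfil nc n N) (xs nc n) W 0 c = A (cP nc n N) (cfil nc n N) (xs nc n) W 0 c' := by
  refine A_meas (cP_isProb nc n N) (xs_pos nc n) W 0 c c' ?_
  rw [cfil_zero]; trivial

/-- **removal of the last column** -/
theorem coin_main (W : Coins nc n N → ℝ) (W1 : Coins nc n (N + 1) → ℝ) (κ : ℝ)
    (h : ∀ c1, W (rho nc n N c1).1 + κ ≤ (W1 c1 + W1 (flp nc n N c1)) / 2)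
    (c : Coins nc n N) (c1 : Coins nc n (N + 1)) :
    A (cP nc n N) (cfil nc n N) (xs nc n) W 0 c + κ ≤
      A (cP nc n (N + 1)) (cfil nc n (N + 1)) (xs nc n) W1 0 c1 := by
  have hP := cP_isProb nc n (N + 1)
  have hx := xs_pos nc n
  have e1 : A (cP nc n (N + 1)) (cfil nc n (N + 1)) (xs nc n) W1 0 c1 =
      (A (cP nc n (N + 1)) (cfil nc n (N + 1)) (xs nc n) W1 0 c1 +
        A (cP nc n (N + 1)) (cfil nc n (N + 1)) (xs nc n) (fun c => W1 (flp nc n N c)) 0 c1) / 2 := by
    rw [A_flp, A_zero_const nc n (N + 1) W1 (flp nc n N c1) c1]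
    ring
  rw [e1]
  refine le_trans ?_ (A_half_le (𝓕 := cfil nc n (N + 1)) hP hx W1
    (fun c => W1 (flp nc n N c)) 0 c1)
  refine le_trans ?_ (A_mono (𝓕 := cfil nc n (N + 1)) hP hx h 0 c1)
  rw [A_add_const hP hx (fun c => W (rho nc n N c).1) κ 0 c1, A_rho,
    A_zero_const nc n N W c (rho nc n N c1).1]

end

end Crest.Agent.R146.Newc857
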