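import Crest.Agent.R146.NewcB_857
import Crest.Agent.R146.NewF_857
import Crest.Agent.R146.PLim_857
import Crest.Agent.R146.S6L_988

/-!
# Row 146 (helper857), node NEWC, part C: the pointwise inequality

For fixed rows `G1` of length `N + 1` with `∑ |G1 a i| ≤ R`, `δ` small:
`Phi C1 G1 ≥ Phi C G + eE QQ (A QQ dV 0) + log (1 - ε)`, where `G1 = (G, g0)`.
-/

set_option autoImplicit false

namespace Crest.Agent.R146.Newc857

open Finset MeasureTheory ProbabilityTheory
open Crest.Agent.R141 (A tl eE cE IsProb Filt A_meas A_mono A_abs_le A_cocycle A_add_const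
  cE_of_meas tl_isProb)
open Crest.Agent.R146.S6Def_988 Crest.Agent.R146.SysA_52 Crest.Agent.R146.S6L_988
open Crest.Agent.R146.NewF857 (npt sc newc_fin)

noncomputable section

variable {N nc n M : ℕ}

/-- old columns of the rows -/
def gOld (G1 : Fin M → Fin (N + 1) → ℝ) : Fin M → Fin N → ℝ := fun a i => G1 a i.castSucc

/-- new column of the rows -/
def gNew (G1 : Fin M → Fin (N + 1) → ℝ) : Fin M → ℝ := fun a => G1 a (Fin.last N)

/-- the log-weight as a function of the point -/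
def u1 (f : ℝ → ℝ) (G1 : Fin M → Fin (N + 1) → ℝ) (s : Fin nc → ℝ) (c : Coins nc n (N + 1))
    (x : Fin (N + 1) → ℝ) : ℝ :=
  rowE (fun _ => f) G1 x + ∑ g, s g * ∑ i, zf c g i * x i

theorem UU_eq_u1 (C1 : Cfg (N + 1)) (f : ℝ → ℝ) (G1 : Fin M → Fin (N + 1) → ℝ) (s : Fin nc → ℝ)
    (c : Coins nc n (N + 1)) (y : C1.Y) :
    UU (C := C1) (fun _ => f) G1 s (y, c) = u1 f G1 s c (C1.x y) := rfl

theorem u1_lip {K L R a0 : ℝ} {f : ℝ → ℝ} (hf : BL K L f) {G1 : Fin M → Fin (N + 1) → ℝ}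
    (hR : ∑ a, ∑ i, |G1 a i| ≤ R) {s : Fin nc → ℝ} (hs : ∀ g, |s g| ≤ a0)
    (c : Coins nc n (N + 1)) (u v : Fin (N + 1) → ℝ) :
    |u1 f G1 s c u - u1 f G1 s c v| ≤ (L * R + nc * (|a0| * Real.sqrt n)) * ∑ j, |u j - v j| := by
  have hL : 0 ≤ L := (PLim857.BL_nonneg hf).2
  have hS : 0 ≤ ∑ j, |u j - v j| := Finset.sum_nonneg fun i _ => abs_nonneg _
  have h1 := PLim857.rowE_sub_le (f := fun _ => f) (fun _ => hf) (Nat.succ_pos N) G1 u v
  have h2 : |(∑ g, s g * ∑ i, zf c g i * u i) - ∑ g, s g * ∑ i, zf c g i * v i| ≤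
      nc * (|a0| * Real.sqrt n) * ∑ j, |u j - v j| := by
    rw [← Finset.sum_sub_distrib]
    refine (Finset.abs_sum_le_sum_abs _ _).trans ?_
    have h3 : ∀ g ∈ (univ : Finset (Fin nc)), |s g * ∑ i, zf c g i * u i -
        s g * ∑ i, zf c g i * v i| ≤ |a0| * Real.sqrt n * ∑ j, |u j - v j| := by
      intro g _
      rw [← mul_sub, abs_mul, ← Finset.sum_sub_distrib, mul_assoc]
      refine mul_le_mul ((hs g).trans (le_abs_self _)) ?_ (abs_nonneg _) (abs_nonneg _)
      refine (Finset.abs_sum_le_sum_abs _ _).trans ?_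
      rw [Finset.mul_sum]
      refine Finset.sum_le_sum fun i _ => ?_
      rw [← mul_sub, abs_mul]
      exact mul_le_mul_of_nonneg_right (zf_abs_le _ _ _) (abs_nonneg _)
    refine (Finset.sum_le_sum h3).trans (le_of_eq ?_)
    rw [Finset.sum_const, Finset.card_univ, Fintype.card_fin, nsmul_eq_mul]
    ring
  have e : u1 f G1 s c u - u1 f G1 s c v = (rowE (fun _ => f) G1 u - rowE (fun _ => f) G1 v) +
      ((∑ g, s g * ∑ i, zf c g i * u i) - ∑ g, s g * ∑ i, zf c g i * v i) := by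
    unfold u1; ring
  rw [e]
  refine (abs_add_le _ _).trans ?_
  rw [add_mul]
  refine add_le_add (h1.trans ?_) h2
  exact mul_le_mul_of_nonneg_right (mul_le_mul_of_nonneg_left hR hL) hS

/-- the coins of the new coordinate, summed -/
def zt (s : Fin nc → ℝ) (c : Coins nc n (N + 1)) : ℝ := ∑ g, s g * zf c g (Fin.last N)

theorem sv_not (b : Bool) : sv (!b) = - sv b := by
  cases b <;> simp [sv]

theorem zt_flp (s : Fin nc → ℝ) (c : Coins nc n (N + 1)) : zt s (flp nc n N c) = - zt s c := by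
  unfold zt zf
  simp only [flp_last, sv_not, Finset.sum_neg_distrib, mul_neg]

theorem npt_last (x : Fin N → ℝ) (t : ℝ) : npt (Fin.last N) x t (Fin.last N) = t := by
  simp [npt]

theorem npt_castSucc (x : Fin N → ℝ) (t : ℝ) (j : Fin N) :
    npt (Fin.last N) x t j.castSucc = sc N t * x j := by
  unfold npt
  rw [Fin.insertNth_last']
  simp

theorem sc_mul (hN : 0 < N) (t : ℝ) :
    sc N t * (Real.sqrt N / Real.sqrt ((N : ℝ) + 1)) =
      Real.sqrt (((N : ℝ) + 1 - t ^ 2) / ((N : ℝ) + 1)) := by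
  unfold sc
  have hN' : (0 : ℝ) < N := by exact_mod_cast hN
  have h1 : Real.sqrt N ≠ 0 := (Real.sqrt_pos.mpr hN').ne'
  have h2 : Real.sqrt ((N : ℝ) + 1) ≠ 0 := (Real.sqrt_pos.mpr (by linarith)).ne'
  rw [Real.sqrt_div' _ hN'.le, Real.sqrt_div' _ (by linarith : (0 : ℝ) ≤ (N : ℝ) + 1)]
  field_simp

theorem u1_npt (hN : 0 < N) (C : Cfg N) (f : ℝ → ℝ) (G1 : Fin M → Fin (N + 1) → ℝ)
    (s : Fin nc → ℝ) (c1 : Coins nc n (N + 1)) (y : C.Y) (t : ℝ) :
    u1 f G1 s c1 (npt (Fin.last N) (C.x y) t) =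
      UU (C := C) (fun _ => f) (gOld G1) s (y, (rho nc n N c1).1) +
        dE C nc n f (gOld G1) (gNew G1) s (y, (rho nc n N c1).1) t + t * zt s c1 := by
  have hN' : (0 : ℝ) < N := by exact_mod_cast hN
  have hrow : ∀ a : Fin M, ∑ i : Fin (N + 1), G1 a i * (npt (Fin.last N) (C.x y) t i /
      Real.sqrt ((N + 1 : ℕ) : ℝ)) =
      Real.sqrt (((N : ℝ) + 1 - t ^ 2) / ((N : ℝ) + 1)) * hh (gOld G1) a (C.x y) +
        t / Real.sqrt ((N : ℝ) + 1) * gNew G1 a := by
    intro a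
    rw [Fin.sum_univ_castSucc, npt_last]
    simp only [npt_castSucc]
    have e1 : ∑ j : Fin N, G1 a j.castSucc * (sc N t * C.x y j / Real.sqrt ((N + 1 : ℕ) : ℝ)) =
        Real.sqrt (((N : ℝ) + 1 - t ^ 2) / ((N : ℝ) + 1)) * hh (gOld G1) a (C.x y) := by
      rw [← sc_mul hN, hh, Finset.mul_sum]
      refine Finset.sum_congr rfl fun j _ => ?_
      have h1 : Real.sqrt N ≠ 0 := (Real.sqrt_pos.mpr hN').ne'
      have h2 : Real.sqrt ((N : ℝ) + 1) ≠ 0 := (Real.sqrt_pos.mpr (by linarith)).ne'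
      simp only [gOld]
      push_cast
      field_simp
    rw [e1]
    unfold gNew
    push_cast
    ring
  have hfield : ∀ g : Fin nc, ∑ i : Fin (N + 1), zf c1 g i * npt (Fin.last N) (C.x y) t i =
      sc N t * (∑ j : Fin N, zf (rho nc n N c1).1 g j * C.x y j) + t * zf c1 g (Fin.last N) := by
    intro g
    rw [Fin.sum_univ_castSucc, npt_last]
    simp only [npt_castSucc]
    rw [Finset.mul_sum, mul_comm (zf c1 g (Fin.last N)) t]
    congr 1
    refine Finset.sum_congr rfl fun j _ => ?_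
    have : zf (rho nc n N c1).1 g j = zf c1 g j.castSucc := rfl
    rw [this]; ring
  have hf1 : ∑ g, s g * ∑ i : Fin (N + 1), zf c1 g i * npt (Fin.last N) (C.x y) t i =
      sc N t * fieldE (C := C) s (y, (rho nc n N c1).1) + t * zt s c1 := by
    simp only [hfield]
    unfold fieldE zt
    rw [Finset.mul_sum, Finset.mul_sum, ← Finset.sum_add_distrib]
    refine Finset.sum_congr rfl fun g _ => ?_
    ring
  unfold u1
  rw [hf1]
  unfold rowE dE UU rowE
  simp only [hrow]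
  rw [Finset.sum_sub_distrib]
  have e2 : ∀ a : Fin M, hh (gOld G1) a (C.x y) =
      ∑ i, gOld G1 a i * (C.x y i / Real.sqrt N) := fun a => rfl
  simp only [e2]
  unfold sc
  ring

end

end Crest.Agent.R146.Newc857
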