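import Crest.Agent.R146.NewcC_857

/-!
# Row 146 (helper857), node NEWC, part D: the potential `dV` and the inequality on the coins
-/

set_option autoImplicit false

namespace Crest.Agent.R146.Newc857

open Finset MeasureTheory ProbabilityTheory
open Crest.Agent.R141 (A tl eE cE IsProb Filt A_meas A_mono A_abs_le A_cocycle A_add_const
  cE_of_meas tl_isProb)
open Crest.Agent.R146.S6Def_988 Crest.Agent.R146.SysA_52 Crest.Agent.R146.S6L_988
open Crest.Agent.R146.NewF857 (npt sc newc_fin)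

noncomputable section

variable {N nc n M : ℕ}

/-! ### Gaussian integrals on `[-k, k]` -/

theorem gauss_Icc {k : ℝ} (hk : 0 ≤ k) (g : ℝ → ℝ) :
    ∫ t in Set.Icc (-k) k, g t ∂(gaussianReal 0 1) =
      ∫ t in (-k)..k, gaussianPDFReal 0 1 t * g t := by
  rw [intervalIntegral.integral_of_le (by linarith), ← integral_Icc_eq_integral_Ioc,
    ← integral_indicator measurableSet_Icc, integral_gaussianReal_eq_integral_smul one_ne_zero,
    ← integral_indicator measurableSet_Icc]
  refine integral_congr_ae (Filter.Eventually.of_forall fun t => ?_)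
  by_cases ht : t ∈ Set.Icc (-k) k
  · simp only [Set.indicator_of_mem ht, smul_eq_mul]
  · simp only [Set.indicator_of_notMem ht, smul_zero]

theorem gauss_Icc_pos {k : ℝ} (hk : 0 < k) : 0 < gaussianReal 0 1 (Set.Icc (-k) k) := by
  rw [pos_iff_ne_zero]
  intro h
  have h1 := gaussianReal_absolutelyContinuous' (0 : ℝ) (one_ne_zero (α := NNReal)) h
  rw [Real.volume_Icc, ENNReal.ofReal_eq_zero] at h1
  linarith

theorem gauss_Icc_int_pos {k : ℝ} (hk : 0 < k) {g : ℝ → ℝ} (hg : Continuous g)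
    (h0 : ∀ t, 0 < g t) : 0 < ∫ t in Set.Icc (-k) k, g t ∂(gaussianReal 0 1) := by
  rw [integral_pos_iff_support_of_nonneg (fun t => (h0 t).le)
    (hg.continuousOn.integrableOn_compact isCompact_Icc)]
  have : Function.support g = Set.univ := by
    ext t; simp [(h0 t).ne']
  rw [this, Measure.restrict_apply_univ]
  exact gauss_Icc_pos hk

/-- the mass of `[-k, k]` -/
def pk (k : ℝ) : ℝ := (gaussianReal 0 1).real (Set.Icc (-k) k)

theorem pk_pos {k : ℝ} (hk : 0 < k) : 0 < pk k := by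
  unfold pk
  exact ENNReal.toReal_pos (gauss_Icc_pos hk).ne' (measure_ne_top _ _)

/-! ### midpoint inequality -/

theorem log_half {μ : Measure ℝ} {H Hp Hm : ℝ → ℝ} (hH : Integrable H μ) (hp : Integrable Hp μ)
    (hm : Integrable Hm μ) (h0 : 0 < ∫ t, H t ∂μ) (hp0 : 0 < ∫ t, Hp t ∂μ)
    (hm0 : 0 < ∫ t, Hm t ∂μ)
    (hle : ∀ l : ℝ, 0 < l → ∀ t, H t ≤ (l * Hp t + l⁻¹ * Hm t) / 2) :
    Real.log (∫ t, H t ∂μ) ≤ (Real.log (∫ t, Hp t ∂μ) + Real.log (∫ t, Hm t ∂μ)) / 2 := by
  set a := Real.log (∫ t, Hp t ∂μ) with ha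
  set b := Real.log (∫ t, Hm t ∂μ) with hb
  have ea : ∫ t, Hp t ∂μ = Real.exp a := (Real.exp_log hp0).symm
  have eb : ∫ t, Hm t ∂μ = Real.exp b := (Real.exp_log hm0).symm
  have hl : 0 < Real.exp ((b - a) / 2) := Real.exp_pos _
  have h1 : ∫ t, H t ∂μ ≤ ∫ t, (Real.exp ((b - a) / 2) * Hp t +
      (Real.exp ((b - a) / 2))⁻¹ * Hm t) / 2 ∂μ :=
    integral_mono hH (((hp.const_mul _).add (hm.const_mul _)).div_const _) (fun t => hle _ hl t)
  rw [integral_div, integral_add (hp.const_mul _) (hm.const_mul _), integral_const_mul,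
    integral_const_mul, ea, eb, ← Real.exp_neg, ← Real.exp_add, ← Real.exp_add] at h1
  have e1 : (b - a) / 2 + a = (a + b) / 2 := by ring
  have e2 : -((b - a) / 2) + b = (a + b) / 2 := by ring
  rw [e1, e2] at h1
  have h2 : ∫ t, H t ∂μ ≤ Real.exp ((a + b) / 2) := by linarith
  rw [← Real.log_exp ((a + b) / 2)]
  exact Real.log_le_log h0 h2

/-! ### the potential -/

theorem BL_continuous {K L : ℝ} {f : ℝ → ℝ} (hf : BL K L f) : Continuous f := by
  have h : LipschitzWith (Real.toNNReal L) f := by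
    refine LipschitzWith.of_dist_le_mul fun x y => ?_
    rw [Real.dist_eq, Real.dist_eq, Real.coe_toNNReal _ (PLim857.BL_nonneg hf).2]
    exact hf.lip x y
  exact h.continuous

variable (C : Cfg N)

theorem continuous_dE {f : ℝ → ℝ} (hf : Continuous f) (s : Fin nc → ℝ) (ω : Om C nc n) :
    Continuous fun p : ((Fin M → Fin N → ℝ) × (Fin M → ℝ)) × ℝ =>
      dE C nc n f p.1.1 p.1.2 s ω p.2 := by
  unfold dE hh
  fun_prop

theorem continuous_dE_t {f : ℝ → ℝ} (hf : Continuous f) (G : Fin M → Fin N → ℝ) (g0 : Fin M → ℝ)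
    (s : Fin nc → ℝ) (ω : Om C nc n) : Continuous fun t : ℝ => dE C nc n f G g0 s ω t := by
  unfold dE
  fun_prop

theorem exp_dV {k : ℝ} (hk : 0 < k) {f : ℝ → ℝ} (hf : Continuous f) (G : Fin M → Fin N → ℝ)
    (g0 : Fin M → ℝ) (s : Fin nc → ℝ) (ω : Om C nc n) :
    Real.exp (dV C nc n k f G g0 s ω) =
      ∫ t in Set.Icc (-k) k, Real.exp (dE C nc n f G g0 s ω t) ∂(gaussianReal 0 1) := by
  have h1 := gauss_Icc_int_pos hk (Real.continuous_exp.comp (continuous_dE_t C hf G g0 s ω))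
    (fun t => Real.exp_pos _)
  simp only [Function.comp_apply] at h1
  unfold dV
  rw [← gauss_Icc hk.le (fun t => Real.exp (dE C nc n f G g0 s ω t)), Real.exp_log h1]

theorem measurable_dV {f : ℝ → ℝ} (hf : Continuous f) (k : ℝ) (s : Fin nc → ℝ) (ω : Om C nc n) :
    Measurable fun p : (Fin M → Fin N → ℝ) × (Fin M → ℝ) => dV C nc n k f p.1 p.2 s ω := by
  unfold dV
  refine Real.measurable_log.comp (Continuous.measurable ?_)
  refine intervalIntegral.continuous_parametric_intervalIntegral_of_continuous'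
    (f := fun (p : (Fin M → Fin N → ℝ) × (Fin M → ℝ)) (t : ℝ) =>
      gaussianPDFReal 0 1 t * Real.exp (dE C nc n f p.1 p.2 s ω t)) ?_ _ _
  have h1 : Continuous (gaussianPDFReal 0 1) := by
    unfold gaussianPDFReal; fun_prop
  exact (h1.comp continuous_snd).mul (Real.continuous_exp.comp (continuous_dE C hf s ω))

theorem abs_dE_le (hN : 0 < N) {K : ℝ} {f : ℝ → ℝ} (hK : ∀ x, |f x| ≤ K) (G : Fin M → Fin N → ℝ)
    (g0 : Fin M → ℝ) {a0 : ℝ} {s : Fin nc → ℝ} (hs : ∀ g, |s g| ≤ a0) (ω : Om C nc n) (t : ℝ) :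
    |dE C nc n f G g0 s ω t| ≤ 2 * (M * K) + nc * |a0| * (N * Real.sqrt n) := by
  unfold dE
  refine (abs_add_le _ _).trans (add_le_add ?_ ?_)
  · refine (Finset.abs_sum_le_sum_abs _ _).trans ?_
    refine (Finset.sum_le_sum (g := fun _ : Fin M => 2 * K) fun a _ => ?_).trans (le_of_eq ?_)
    · refine (abs_sub _ _).trans ?_
      linarith [hK (Real.sqrt (((N : ℝ) + 1 - t ^ 2) / ((N : ℝ) + 1)) * hh G a (C.x ω.1) +
        t / Real.sqrt ((N : ℝ) + 1) * g0 a), hK (hh G a (C.x ω.1))]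
    · rw [Finset.sum_const, Finset.card_univ, Fintype.card_fin, nsmul_eq_mul]; ring
  · rw [abs_mul]
    have h1 : |Real.sqrt (((N : ℝ) + 1 - t ^ 2) / N) - 1| ≤ 1 := by
      have h2 : sc N t ≤ 2 := NewF857.sc_le hN t
      unfold sc at h2
      rw [abs_le]
      constructor
      · linarith [Real.sqrt_nonneg (((N : ℝ) + 1 - t ^ 2) / N)]
      · linarith
    have h3 : ∑ g, |s g| ≤ nc * |a0| := by
      refine (Finset.sum_le_sum (g := fun _ : Fin nc => |a0|) fun g _ =>
        (hs g).trans (le_abs_self _)).trans (le_of_eq ?_)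
      rw [Finset.sum_const, Finset.card_univ, Fintype.card_fin, nsmul_eq_mul]
    have h4 := (fieldE_abs_le s ω).trans (mul_le_mul_of_nonneg_right h3
      (by positivity : (0 : ℝ) ≤ N * Real.sqrt n))
    calc _ ≤ 1 * (nc * |a0| * (N * Real.sqrt n)) :=
          mul_le_mul h1 h4 (abs_nonneg _) one_pos.le
      _ = _ := one_mul _

theorem abs_dV_le (hN : 0 < N) {k K : ℝ} (hk : 0 < k) {f : ℝ → ℝ} (hf : Continuous f)
    (hK : ∀ x, |f x| ≤ K) (G : Fin M → Fin N → ℝ)
    (g0 : Fin M → ℝ) {a0 : ℝ} {s : Fin nc → ℝ} (hs : ∀ g, |s g| ≤ a0) (ω : Om C nc n) :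
    |dV C nc n k f G g0 s ω| ≤ 2 * (M * K) + nc * |a0| * (N * Real.sqrt n) + |Real.log (pk k)| := by
  set D := 2 * (M * K) + nc * |a0| * (N * Real.sqrt n) with hD
  have hE := abs_dE_le C hN hK G g0 hs ω
  have hc := Real.continuous_exp.comp (continuous_dE_t C hf G g0 s ω)
  have hint : IntegrableOn (fun t => Real.exp (dE C nc n f G g0 s ω t)) (Set.Icc (-k) k)
      (gaussianReal 0 1) := hc.continuousOn.integrableOn_compact isCompact_Icc
  have hp := pk_pos hk
  have e0 := exp_dV C hk hf G g0 s ω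
  have c1 : ∫ _t in Set.Icc (-k) k, Real.exp D ∂(gaussianReal 0 1) = pk k * Real.exp D := by
    rw [setIntegral_const, smul_eq_mul]; rfl
  have c2 : ∫ _t in Set.Icc (-k) k, Real.exp (-D) ∂(gaussianReal 0 1) = pk k * Real.exp (-D) := by
    rw [setIntegral_const, smul_eq_mul]; rfl
  have hu : Real.exp (dV C nc n k f G g0 s ω) ≤ pk k * Real.exp D := by
    rw [e0, ← c1]
    exact integral_mono hint (integrable_const _) fun t =>
      Real.exp_le_exp.mpr (abs_le.mp (hE t)).2
  have hl : pk k * Real.exp (-D) ≤ Real.exp (dV C nc n k f G g0 s ω) := by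
    rw [e0, ← c2]
    exact integral_mono (integrable_const _) hint fun t =>
      Real.exp_le_exp.mpr (abs_le.mp (hE t)).1
  have hu' := Real.log_le_log (Real.exp_pos _) hu
  have hl' := Real.log_le_log (mul_pos hp (Real.exp_pos _)) hl
  rw [Real.log_exp, Real.log_mul hp.ne' (Real.exp_pos _).ne', Real.log_exp] at hu' hl'
  have := abs_le.mp (le_refl |Real.log (pk k)|)
  rw [abs_le]
  constructor <;> linarith

/-! ### the inequality on the coins -/

theorem LZ_ineq (hN : 0 < N) {k ε Λ : ℝ} (hk : 0 < k) (hε1 : ε < 1) {K L R a0 : ℝ}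
    {f : ℝ → ℝ} (hf : BL K L f) {G1 : Fin M → Fin (N + 1) → ℝ} (hR : ∑ a, ∑ i, |G1 a i| ≤ R)
    {s : Fin nc → ℝ} (hs : ∀ g, |s g| ≤ a0) (hΛ : Λ = L * R + nc * (|a0| * Real.sqrt n))
    (C1 : Cfg (N + 1))
    (hnew : ∀ U : (Fin (N + 1) → ℝ) → ℝ, (∀ u v, |U u - U v| ≤ Λ * ∑ j, |u j - v j|) →
      (1 - ε) * ∫ t in Set.Icc (-k) k, (∑ y, C.q y * Real.exp (U (npt (Fin.last N) (C.x y) t)))
        ∂(gaussianReal 0 1) ≤ ∑ y, C1.q y * Real.exp (U (C1.x y)))
    (c1 : Coins nc n (N + 1)) :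
    LZ C (fun ω => UU (fun _ => f) (gOld G1) s ω + dV C nc n k f (gOld G1) (gNew G1) s ω)
        (rho nc n N c1).1 + Real.log (1 - ε) ≤
      (LZ C1 (UU (fun _ => f) G1 s) c1 + LZ C1 (UU (fun _ => f) G1 s) (flp nc n N c1)) / 2 := by
  have hfc := BL_continuous hf
  set c := (rho nc n N c1).1 with hc
  -- the function of `t`
  set H : ℝ → ℝ → ℝ := fun z t => ∑ y, C.q y * Real.exp (UU (C := C) (fun _ => f) (gOld G1) s (y, c) +
    dE C nc n f (gOld G1) (gNew G1) s (y, c) t + t * z) with hH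
  have hHc : ∀ z, Continuous (H z) := by
    intro z
    refine continuous_finsetSum _ fun y _ => continuous_const.mul (Real.continuous_exp.comp ?_)
    exact (continuous_const.add (continuous_dE_t C hfc _ _ s (y, c))).add
      (continuous_id.mul continuous_const)
  have hHpos : ∀ z t, 0 < H z t := fun z t =>
    Finset.sum_pos (fun y _ => mul_pos (C.hq.pos y) (Real.exp_pos _)) Finset.univ_nonempty
  have hHint : ∀ z, IntegrableOn (H z) (Set.Icc (-k) k) (gaussianReal 0 1) := fun z =>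
    (hHc z).continuousOn.integrableOn_compact isCompact_Icc
  have hHI : ∀ z, 0 < ∫ t in Set.Icc (-k) k, H z t ∂(gaussianReal 0 1) := fun z =>
    gauss_Icc_int_pos hk (hHc z) (hHpos z)
  -- one side
  have key : ∀ c' : Coins nc n (N + 1), (rho nc n N c').1 = c →
      Real.log (1 - ε) + Real.log (∫ t in Set.Icc (-k) k, H (zt s c') t ∂(gaussianReal 0 1)) ≤
        LZ C1 (UU (fun _ => f) G1 s) c' := by
    intro c' hc'
    have h1 := hnew (u1 f G1 s c') (fun u v => by rw [hΛ]; exact u1_lip hf hR hs c' u v)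
    have e1 : ∀ t, ∑ y, C.q y * Real.exp (u1 f G1 s c' (npt (Fin.last N) (C.x y) t)) =
        H (zt s c') t := by
      intro t
      refine Finset.sum_congr rfl fun y _ => ?_
      rw [u1_npt hN C f G1 s c' y t, hc']
    simp only [e1] at h1
    unfold LZ
    have e2 : ∑ y, C1.q y * Real.exp (UU (C := C1) (fun _ => f) G1 s (y, c')) =
        ∑ y, C1.q y * Real.exp (u1 f G1 s c' (C1.x y)) := rfl
    rw [e2, ← Real.log_mul (by linarith) (hHI _).ne']
    exact Real.log_le_log (mul_pos (by linarith) (hHI _)) h1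
  have k1 := key c1 rfl
  have k2 := key (flp nc n N c1) (rho_flp_fst nc n N c1)
  rw [zt_flp] at k2
  -- midpoint
  have hmid := log_half (hHint 0) (hHint (zt s c1)) (hHint (-zt s c1)) (hHI 0) (hHI _) (hHI _)
    (fun l hl t => by
      simp only [hH]
      rw [Finset.mul_sum, Finset.mul_sum, ← Finset.sum_add_distrib, Finset.sum_div]
      refine Finset.sum_le_sum fun y _ => ?_
      set a := UU (C := C) (fun _ => f) (gOld G1) s (y, c) +
        dE C nc n f (gOld G1) (gNew G1) s (y, c) t with ha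
      have hE : 0 < Real.exp (t * zt s c1) := Real.exp_pos _
      rw [mul_zero, add_zero, Real.exp_add a (t * zt s c1), mul_neg, Real.exp_add a (-(t * zt s c1)),
        Real.exp_neg]
      set e := Real.exp (t * zt s c1) with he
      have hq : 0 < C.q y * Real.exp a := mul_pos (C.hq.pos y) (Real.exp_pos _)
      have h3 : (2 : ℝ) ≤ l * e + (l * e)⁻¹ := by
        have hle : 0 < l * e := mul_pos hl hE
        have h5 : (l * e) * (l * e)⁻¹ = 1 := mul_inv_cancel₀ hle.ne'
        have h6 : 0 < (l * e)⁻¹ := inv_pos.mpr hle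
        nlinarith [sq_nonneg (l * e - (l * e)⁻¹)]
      have h4 : (l * (C.q y * (Real.exp a * e)) + l⁻¹ * (C.q y * (Real.exp a * e⁻¹))) / 2 =
          (C.q y * Real.exp a) * ((l * e + (l * e)⁻¹) / 2) := by
        rw [mul_inv]; ring
      rw [h4]
      nlinarith)
  -- the middle term
  have e0 : LZ C (fun ω => UU (fun _ => f) (gOld G1) s ω +
      dV C nc n k f (gOld G1) (gNew G1) s ω) c =
      Real.log (∫ t in Set.Icc (-k) k, H 0 t ∂(gaussianReal 0 1)) := by
    unfold LZ
    congr 1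
    simp only [hH, mul_zero, add_zero]
    rw [integral_finsetSum]
    · refine Finset.sum_congr rfl fun y _ => ?_
      rw [Real.exp_add, exp_dV C hk hfc]
      simp only [Real.exp_add]
      rw [integral_const_mul, integral_const_mul]
    · intro y _
      refine Continuous.integrableOn_Icc ?_ 
      exact continuous_const.mul (Real.continuous_exp.comp
        (continuous_const.add (continuous_dE_t C hfc _ _ s (y, c))))
  rw [e0]
  linarith

end

end Crest.Agent.R146.Newc857
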