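import Crest.Agent.R146.TipSeq_791
import Crest.Agent.R146.StepK_692
import Crest.Agent.R146.StepAppr_522
import Crest.Agent.R146.PtS4b_489

/-!
Row 146, package PT, NOGAP (helper45): the outer shell of the no-gap argument.

* `gap_of_Lpos`   (N5): if the functional `Ls` of `413` is nonnegative on the gap for the approximants
  (eventually in `n`), then `T` is quasi-convex on the gap.
* `nogap_of_Lpos` (N5): the conclusion of `TipSeq_791.NOGAP` from a uniform `t0`.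
* `sqrt_div_D`    (N0): `1/D²` integrable, `D(1) = 0` ⟹ `√(1-t)/D(t) → 0` as `t → 1`.
-/

set_option autoImplicit false

namespace Crest.Agent.R146.NgA_45

open MeasureTheory Set Filter Topology
open Crest.Agent.R146.StepDef_791 Crest.Agent.R146.StepApx_856 Crest.Agent.R146.TipSeq_791
open Crest.Agent.R146.PtScalA_45 (Prof)

/-! ### (N5) -/

/-- monotonicity of `K D²` on a gap, for one step datum -/
theorem KD_mono {A : SD} {x0 : ℝ} {p Y Yx Yxx : ℝ → ℝ → ℝ} (hB : Back A) (hC : Clock A)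
    (hL : Law A x0 p Y Yx Yxx) {a b z : ℝ} (ha : 0 ≤ a) (hb : b ≤ A.T)
    (hz : ∀ s ∈ Ico a b, A.m s = z) (hpos : ∀ t ∈ Ico a b, 0 ≤ Ls A x0 p t) :
    MonotoneOn (fun t => (Ns A x0 p t - 2 * A.b t * Zs A x0 p t) * A.D t ^ 2) (Ico a b) := by
  intro s hs t ht hst
  have h := (StepK_692.K_cell hB hC hL (s1 := s) (s2 := t) (z := z) (ha.trans hs.1) hst
    (ht.2.le.trans hb) (fun r hr => hz r ⟨hs.1.trans hr.1, hr.2.trans ht.2⟩)).2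
  have h1 : 0 ≤ ∫ r in s..t, A.D r ^ 2 * Ls A x0 p r :=
    intervalIntegral.integral_nonneg hst fun r hr =>
      mul_nonneg (sq_nonneg _) (hpos r ⟨hs.1.trans hr.1, hr.2.trans_lt ht.2⟩)
  have e1 : A.b s = z / A.D s := by unfold SD.b; rw [hz s hs]
  have e2 : A.b t = z / A.D t := by unfold SD.b; rw [hz t ht]
  show (Ns A x0 p s - 2 * A.b s * Zs A x0 p s) * A.D s ^ 2 ≤
    (Ns A x0 p t - 2 * A.b t * Zs A x0 p t) * A.D t ^ 2
  rw [e1, e2]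
  linarith

/-- quasi-convexity of `Ts A` on a gap of one step datum -/
theorem qc_one {A : SD} {x0 : ℝ} {p Y Yx Yxx : ℝ → ℝ → ℝ} (hB : Back A) (hC : Clock A)
    (hL : Law A x0 p Y Yx Yxx) (hS : Scal A x0 p) {a b z : ℝ} (ha : 0 ≤ a) (hb : b ≤ A.T)
    (hz : ∀ s ∈ Ico a b, A.m s = z) (hpos : ∀ t ∈ Ico a b, 0 ≤ Ls A x0 p t) {x y w : ℝ}
    (hx : a ≤ x) (hxy : x ≤ y) (hyw : y ≤ w) (hw : w ≤ b) :
    Ts A x0 p y ≤ max (Ts A x0 p x) (Ts A x0 p w) :=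
  PtS4b_489.qc_step (K := fun t => Ns A x0 p t - 2 * A.b t * Zs A x0 p t)
    (g := fun t => A.D t ^ 2)
    (hS.cont.1.mono (Icc_subset_Icc ha hb)) (fun t ht => hS.Ts_t t ⟨ha.trans ht.1, ht.2.trans_le hb⟩)
    (fun t _ => pow_pos (A.D_pos t) 2) (KD_mono hB hC hL ha hb hz hpos) hx hxy hyw hw

/-- quasi-convexity of the limit `T` on one gap -/
theorem gap_of_Lpos {P : Prof} {T S : ℝ → ℝ} (Q : PreSeq P T S) {a b : ℝ} (ha : 0 ≤ a)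
    (hab : a < b) (hb : b < 1) (hm : ∀ t ∈ Icc a b, P.m t = P.m a)
    (hF : ∀ n, a ∈ Q.F n ∧ b ∈ Q.F n)
    (hL : ∀ᶠ n in atTop, ∀ t ∈ Ico a b, 0 ≤ Ls (Q.A n) 1 (Q.p n) t) {x y z : ℝ}
    (hx : a ≤ x) (hxy : x ≤ y) (hyz : y ≤ z) (hz : z ≤ b) : T y ≤ max (T x) (T z) := by
  have hprof := StepAppr_522.isProf P
  have haff := affine_of_const hprof ha hb.le (z := P.m a) fun t ht => hm t ⟨ht.1, ht.2.le⟩
  have hT := tendsto_T Q.apx Q.ε_lim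
  have hTb : ∀ᶠ n in atTop, b ≤ (Q.A n).T := (hT.eventually (lt_mem_nhds hb)).mono fun n h => h.le
  have hq : b ∈ Ioo (0 : ℝ) 1 := ⟨ha.trans_lt hab, hb⟩
  have hlim : ∀ t ∈ Icc (0 : ℝ) b, Tendsto (fun n => Ts (Q.A n) 1 (Q.p n) t) atTop (𝓝 (T t)) :=
    fun t ht => (Q.T_lim b hq).tendsto_at ht
  have h1 : ∀ᶠ n in atTop, Ts (Q.A n) 1 (Q.p n) y ≤
      max (Ts (Q.A n) 1 (Q.p n) x) (Ts (Q.A n) 1 (Q.p n) z) := by
    filter_upwards [hTb, hL] with n hn hn2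
    refine qc_one (Q.back n) (Q.clock n) (Q.law n) (Q.scal n) ha hn (z := P.m a + Q.e n)
      (fun s hs => ?_) hn2 hx hxy hyz hz
    exact (Q.apx n).m_affine ⟨ha, hab.trans hb⟩ (Or.inr (hF n).1) ⟨hq.1.le, hb⟩ (hF n).2 haff hs
  exact le_of_tendsto_of_tendsto (hlim y ⟨ha.trans (hx.trans hxy), hyz.trans hz⟩)
    ((hlim x ⟨ha.trans hx, hxy.trans (hyz.trans hz)⟩).max
      (hlim z ⟨ha.trans (hx.trans (hxy.trans hyz)), hz⟩)) h1

/-- **(N5)** the conclusion of `NOGAP` from the positivity of `Ls` on the gaps. -/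
theorem nogap_of_Lpos {P : Prof} {T S : ℝ → ℝ}
    (hQ : ∀ F0 : Finset ℝ, (∀ x ∈ F0, x ∈ Icc (0 : ℝ) 1) → ∃ Q : PreSeq P T S, ∀ n, F0 ⊆ Q.F n)
    (hL : ∃ t0 : ℝ, t0 < 1 ∧ ∀ (Q : PreSeq P T S) (a b : ℝ), t0 ≤ a → 0 ≤ a → a < b → b < 1 →
      (∀ t ∈ Icc a b, P.m t = P.m a) → (∀ n, a ∈ Q.F n ∧ b ∈ Q.F n) →
      ∀ᶠ n in atTop, ∀ t ∈ Ico a b, 0 ≤ Ls (Q.A n) 1 (Q.p n) t) :
    ∃ t0 : ℝ, t0 < 1 ∧ ∀ a b, t0 ≤ a → 0 ≤ a → a < b → b < 1 → (∀ t ∈ Icc a b, P.m t = P.m a) →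
      ∀ x y z, a ≤ x → x ≤ y → y ≤ z → z ≤ b → T y ≤ max (T x) (T z) := by
  obtain ⟨t0, ht0, h⟩ := hL
  refine ⟨t0, ht0, fun a b h1 ha hab hb hm x y z hx hxy hyz hz => ?_⟩
  obtain ⟨Q, hF⟩ := hQ {a, b} (by
    intro x hx
    simp only [Finset.mem_insert, Finset.mem_singleton] at hx
    rcases hx with rfl | rfl
    · exact ⟨ha, (hab.trans hb).le⟩
    · exact ⟨(ha.trans_lt hab).le, hb.le⟩)
  have hF' : ∀ n, a ∈ Q.F n ∧ b ∈ Q.F n := fun n => ⟨hF n (by simp), hF n (by simp)⟩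
  exact gap_of_Lpos Q ha hab hb hm hF' (h Q a b h1 ha hab hb hm hF') hx hxy hyz hz

end Crest.Agent.R146.NgA_45
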