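import Crest.Agent.R146.SlopeT_371

/-!
Row 146 (helper371), PT-CMP C1, part 1: slope barriers in touching (viscosity) form.

`TouchAbove K v k1 k2` : a `C¹` function `L ≥ K` near `v`, `L v = K v`, `L' v = k1`, one-sided `L'' v = k2`.
`TouchBelow K v k1 k2` : the same with `L ≤ K`.
Minima of `C¹` functions (upper barriers) and maxima (lower barriers) are covered.

`slope_le_v`, `le_slope_v`         : the comparison of `MaxPCmp_371` in touching form; no concavity for the lower one.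
`slope_trans_le_v`, `le_slope_trans_v` : with transients in a general clock `s' = (1+ω y)/2 s³`, `y = b/s²`.
-/

set_option autoImplicit false

open Set Filter Topology

namespace Crest.Agent.R146.SlopeV_371

open MaxP_371 MaxP2_371 MaxPCmp_371 SlopeT_371

/-! ### maximum principle, touching form -/

/-- **Weak maximum principle (backward form), touching form.** -/
theorem backward_strip_v {t0 t1 : ℝ} {w : ℝ → ℝ → ℝ}
    (hw : ContinuousOn (fun p : ℝ × ℝ => w p.1 p.2) (strip t0 t1))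
    {A B C M : ℝ} (hM : ∀ t ∈ Icc t0 t1, ∀ x, w t x ≤ M * (1 + |x|))
    (hterm : ∀ x, w t1 x ≤ 0)
    (hloc : ∀ t ∈ Ico t0 t1, ∀ x, 0 < w t x → ∃ (wt wxx a b c : ℝ) (f h h' : ℝ → ℝ),
      f t = w t x ∧ (∀ᶠ s in 𝓝[>] t, f s ≤ w s x) ∧ HasDerivWithinAt f wt (Ici t) t ∧
      h x = w t x ∧ (∀ᶠ y in 𝓝 x, h y ≤ w t y) ∧
      (∀ᶠ y in 𝓝 x, HasDerivAt h (h' y) y) ∧ HasSide h' wxx x ∧
      0 ≤ a ∧ a ≤ A * (1 + x ^ 2) ∧ |b| ≤ B * (1 + |x|) ∧ c ≤ C ∧
      0 ≤ wt + a * wxx + b * h' x + c * w t x) :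
    ∀ t ∈ Icc t0 t1, ∀ x, w t x ≤ 0 := by
  set κ : ℝ := 2 * |A| + 4 * |B| + |C| + 1 with hκ
  have hκpos : 0 < κ := by positivity
  set φ : ℝ → ℝ → ℝ := fun t x => Real.exp (κ * (t1 - t)) * (1 + x ^ 2) with hφ
  have hφpos : ∀ t x, 0 < φ t x := fun t x => by simp only [hφ]; positivity
  have hφge : ∀ p ∈ strip t0 t1, 1 + p.2 ^ 2 ≤ φ p.1 p.2 := by
    intro p hp
    have h1 : 1 ≤ Real.exp (κ * (t1 - p.1)) := by
      apply Real.one_le_exp
      exact mul_nonneg hκpos.le (by linarith [(strip_time p hp).2])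
    simp only [hφ]
    nlinarith [sq_nonneg p.2]
  have key := max_core (K := strip t0 t1) (w := fun p : ℝ × ℝ => w p.1 p.2)
    (φ := fun p : ℝ × ℝ => φ p.1 p.2) hw (by simp only [hφ]; fun_prop)
    (fun p _ => hφpos _ _) ?_ ?_
  · intro t ht x; exact key (t, x) ⟨ht, mem_univ _⟩
  · -- behaviour at infinity
    intro ε hε
    set R : ℝ := 2 * |M| / ε + 2 with hR
    have hRpos : 0 < R := by positivity
    refine ⟨strip t0 t1 ∩ (Icc t0 t1 ×ˢ Icc (-R) R), inter_subset_left,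
      (isCompact_Icc.prod isCompact_Icc).inter_left (strip_closed t0 t1), ?_⟩
    intro p hp hpL
    have hRp : R ≤ |p.2| := by
      by_contra h
      push Not at h
      exact hpL ⟨hp, ⟨strip_time p hp, ⟨(abs_lt.1 h).1.le, (abs_lt.1 h).2.le⟩⟩⟩
    have h1 : w p.1 p.2 ≤ |M| * (1 + |p.2|) := by
      refine (hM p.1 hp.1 p.2).trans ?_
      exact mul_le_mul_of_nonneg_right (le_abs_self M) (by positivity)
    have hx : (2:ℝ) ≤ |p.2| := by
      have : 0 ≤ 2 * |M| / ε := by positivity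
      linarith
    have h3 : 2 * |M| ≤ ε * (|p.2| - 2) := by
      have h4 : 2 * |M| / ε ≤ |p.2| - 2 := by linarith
      have := (div_le_iff₀ hε).1 h4
      linarith
    have h5 : p.2 ^ 2 = |p.2| ^ 2 := (sq_abs _).symm
    have h6 : |M| * (1 + |p.2|) ≤ |M| * (2 * |p.2|) :=
      mul_le_mul_of_nonneg_left (by linarith) (abs_nonneg _)
    have h7 : |M| * (2 * |p.2|) ≤ ε * (|p.2| - 2) * |p.2| := by nlinarith
    have h8 : w p.1 p.2 ≤ ε * (1 + p.2 ^ 2) := by rw [h5]; nlinarith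
    exact h8.trans (mul_le_mul_of_nonneg_left (hφge p hp) hε.le)
  · -- touching
    rintro ⟨t, x⟩ hpK S hSpos hall heq
    simp only at hpK hall heq
    have hwpos : 0 < w t x := by rw [heq]; exact mul_pos hSpos (hφpos _ _)
    have htI : t ∈ Icc t0 t1 := hpK.1
    have htlt : t < t1 := by
      rcases lt_or_eq_of_le htI.2 with h | h
      · exact h
      · exfalso; rw [h] at hwpos; exact absurd (hterm x) (not_le.2 hwpos)
    obtain ⟨wt, wxx, a, b, c, f, h, h', hf1, hf2, hwt, hh1, hh2, hwx, hwxx, ha0, haA, hbB, hcC,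
      hpde⟩ := hloc t ⟨htI.1, htlt⟩ x hwpos
    have hwle : ∀ s y, (s, y) ∈ strip t0 t1 → w s y - S * φ s y ≤ 0 := by
      intro s y hsy
      have := hall (s, y) hsy
      simp only at this
      linarith
    have hweq : w t x - S * φ t x = 0 := by linarith
    have hφt : HasDerivAt (fun s => φ s x) (-κ * φ t x) t := by
      have h1 : HasDerivAt (fun s : ℝ => κ * (t1 - s)) (-κ) t := by
        have := ((hasDerivAt_const t t1).sub (hasDerivAt_id t)).const_mul κ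
        simpa using this
      have h2 := h1.exp.mul_const (1 + x ^ 2)
      have h3 : HasDerivAt (fun s => φ s x) (Real.exp (κ * (t1 - t)) * -κ * (1 + x ^ 2)) t := h2
      convert h3 using 1
      simp only [hφ]; ring
    have hgt : HasDerivWithinAt (fun s => f s - S * φ s x) (wt - S * (-κ * φ t x)) (Ici t) t :=
      hwt.sub ((hφt.const_mul S).hasDerivWithinAt)
    have h1 : wt - S * (-κ * φ t x) ≤ 0 := by
      apply deriv_right_nonpos hgt
      filter_upwards [strip_ev_right ⟨htI.1, htlt⟩ x, hf2] with s hs hs2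
      rw [hf1, hweq]
      have := hwle s x hs
      linarith
    set e : ℝ := Real.exp (κ * (t1 - t)) with he
    have hepos : 0 < e := Real.exp_pos _
    have hφx : ∀ y, HasDerivAt (fun y => φ t y) (e * (2 * y)) y := by
      intro y
      have h1 : HasDerivAt (fun y : ℝ => 1 + y ^ 2) (2 * y) y := by
        have := (hasDerivAt_pow 2 y).const_add 1
        simpa using this
      exact h1.const_mul e
    have hφxx : HasDerivAt (fun y : ℝ => e * (2 * y)) (e * 2) x := by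
      have := ((hasDerivAt_id x).const_mul 2).const_mul e
      simpa using this
    have hmaxx : IsLocalMax (fun y => h y - S * φ t y) x := by
      filter_upwards [strip_ev_x htI x, hh2] with y hy hy2
      rw [hh1, hweq]
      have := hwle t y hy
      linarith
    have h2 := (hwxx.sub (hφxx.const_mul S)).nonpos (f := fun y => h y - S * φ t y)
      (by
        filter_upwards [hwx] with y hy
        exact hy.sub ((hφx y).const_mul S)) hmaxx
    obtain ⟨h2a, h2b⟩ := h2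
    have hφe : φ t x = e * (1 + x ^ 2) := rfl
    have h9 : -κ * (1 + x ^ 2) + 2 * a + 2 * b * x + c * (1 + x ^ 2) < 0 :=
      barrier_neg haA hbB hcC
    have h10 : a * (wxx - S * (e * 2)) ≤ 0 := mul_nonpos_of_nonneg_of_nonpos ha0 h2b
    have h11 : h' x = S * (e * (2 * x)) := by linarith
    have h12 : w t x = S * (e * (1 + x ^ 2)) := by rw [← hφe]; linarith
    rw [h11, h12] at hpde
    rw [hφe] at h1
    have h13 : 0 ≤ S * e * (-κ * (1 + x ^ 2) + 2 * a + 2 * b * x + c * (1 + x ^ 2)) := by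
      nlinarith
    have h14 : S * e * (-κ * (1 + x ^ 2) + 2 * a + 2 * b * x + c * (1 + x ^ 2)) < 0 :=
      mul_neg_of_pos_of_neg (mul_pos hSpos hepos) h9
    linarith

/-- **Weak maximum principle (forward form), touching form.** -/
theorem forward_strip_v {t0 t1 : ℝ} {w : ℝ → ℝ → ℝ}
    (hw : ContinuousOn (fun p : ℝ × ℝ => w p.1 p.2) (strip t0 t1))
    {A B C M : ℝ} (hM : ∀ t ∈ Icc t0 t1, ∀ x, w t x ≤ M * (1 + |x|))
    (hinit : ∀ x, w t0 x ≤ 0)
    (hloc : ∀ t ∈ Ioc t0 t1, ∀ x, 0 < w t x → ∃ (wt wxx a b c : ℝ) (f h h' : ℝ → ℝ),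
      f t = w t x ∧ (∀ᶠ s in 𝓝[<] t, f s ≤ w s x) ∧ HasDerivWithinAt f wt (Iic t) t ∧
      h x = w t x ∧ (∀ᶠ y in 𝓝 x, h y ≤ w t y) ∧
      (∀ᶠ y in 𝓝 x, HasDerivAt h (h' y) y) ∧ HasSide h' wxx x ∧
      0 ≤ a ∧ a ≤ A * (1 + x ^ 2) ∧ |b| ≤ B * (1 + |x|) ∧ c ≤ C ∧
      wt ≤ a * wxx + b * h' x + c * w t x) :
    ∀ t ∈ Icc t0 t1, ∀ x, w t x ≤ 0 := by
  have hmem : ∀ t ∈ Icc (-t1) (-t0), -t ∈ Icc t0 t1 :=
    fun t ht => ⟨by linarith [ht.2], by linarith [ht.1]⟩
  have hcm : ContinuousOn (fun p : ℝ × ℝ => ((-p.1, p.2) : ℝ × ℝ)) (strip (-t1) (-t0)) := by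
    fun_prop
  have key := backward_strip_v (t0 := -t1) (t1 := -t0) (w := fun t x => w (-t) x)
    (A := A) (B := B) (C := C) (M := M)
    (hw.comp hcm (fun p hp => ⟨hmem p.1 hp.1, mem_univ _⟩))
    (fun t ht x => hM _ (hmem t ht) x)
    (by simpa using hinit)
    (by
      intro t ht x hpos
      have ht' : -t ∈ Ioc t0 t1 := ⟨by linarith [ht.2], by linarith [ht.1]⟩
      obtain ⟨wt, wxx, a, b, c, f, h, h', hf1, hf2, hwt, hh1, hh2, hwx, hwxx, ha0, haA, hbB, hcC,
        hpde⟩ := hloc (-t) ht' x hpos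
      refine ⟨-wt, wxx, a, b, c, fun s => f (-s), h, h', hf1, ?_, ?_, hh1, hh2, hwx, hwxx, ha0, haA,
        hbB, hcC, by linarith⟩
      · have hneg : Tendsto (fun s : ℝ => -s) (𝓝[>] t) (𝓝[<] (-t)) := by
          apply tendsto_nhdsWithin_of_tendsto_nhds_of_eventually_within
          · exact (continuous_neg.tendsto t).mono_left nhdsWithin_le_nhds
          · filter_upwards [self_mem_nhdsWithin] with s hs
            have : t < s := hs
            simpa using this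
        exact hneg.eventually hf2
      · have h1 : HasDerivWithinAt (fun s : ℝ => -s) (-1) (Ici t) t :=
          (hasDerivAt_neg t).hasDerivWithinAt
        have h2 : MapsTo (fun s : ℝ => -s) (Ici t) (Iic (-t)) := by
          intro s hs
          have : t ≤ s := hs
          simp only [mem_Iic]; linarith
        have h3 := HasDerivWithinAt.comp t hwt h1 h2
        refine h3.congr_deriv ?_
        ring)
  intro t ht x
  have h := key (-t) ⟨by linarith [ht.2], by linarith [ht.1]⟩ x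
  simpa using h

/-! ### touching -/

def TouchAbove (K : ℝ → ℝ) (v k1 k2 : ℝ) : Prop :=
  ∃ L L' : ℝ → ℝ, L v = K v ∧ (∀ᶠ y in 𝓝 v, K y ≤ L y) ∧
    (∀ᶠ y in 𝓝 v, HasDerivAt L (L' y) y) ∧ L' v = k1 ∧ HasSide L' k2 v

def TouchBelow (K : ℝ → ℝ) (v k1 k2 : ℝ) : Prop :=
  ∃ L L' : ℝ → ℝ, L v = K v ∧ (∀ᶠ y in 𝓝 v, L y ≤ K y) ∧
    (∀ᶠ y in 𝓝 v, HasDerivAt L (L' y) y) ∧ L' v = k1 ∧ HasSide L' k2 v

section touch

variable {K K1 : ℝ → ℝ} {v k1 k2 : ℝ}

lemma TouchAbove.of_deriv {K' : ℝ → ℝ} (h1 : ∀ᶠ y in 𝓝 v, HasDerivAt K (K' y) y)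
    (h2 : HasSide K' k2 v) : TouchAbove K v (K' v) k2 :=
  ⟨K, K', rfl, Eventually.of_forall fun _ => le_rfl, h1, rfl, h2⟩

lemma TouchBelow.of_deriv {K' : ℝ → ℝ} (h1 : ∀ᶠ y in 𝓝 v, HasDerivAt K (K' y) y)
    (h2 : HasSide K' k2 v) : TouchBelow K v (K' v) k2 :=
  ⟨K, K', rfl, Eventually.of_forall fun _ => le_rfl, h1, rfl, h2⟩

lemma TouchAbove.of_Ioo {K' : ℝ → ℝ} {K'' : ℝ → ℝ} {p q : ℝ}
    (h1 : ∀ y ∈ Ioo p q, HasDerivAt K (K' y) y) (h2 : ∀ y ∈ Ioo p q, HasSide K' (K'' y) y)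
    (hv : v ∈ Ioo p q) : TouchAbove K v (K' v) (K'' v) :=
  TouchAbove.of_deriv (by filter_upwards [isOpen_Ioo.mem_nhds hv] with y hy using h1 y hy) (h2 v hv)

lemma TouchBelow.of_Ioo {K' : ℝ → ℝ} {K'' : ℝ → ℝ} {p q : ℝ}
    (h1 : ∀ y ∈ Ioo p q, HasDerivAt K (K' y) y) (h2 : ∀ y ∈ Ioo p q, HasSide K' (K'' y) y)
    (hv : v ∈ Ioo p q) : TouchBelow K v (K' v) (K'' v) :=
  TouchBelow.of_deriv (by filter_upwards [isOpen_Ioo.mem_nhds hv] with y hy using h1 y hy) (h2 v hv)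

/-- a function below, equal at the point -/
lemma TouchAbove.mono (h : TouchAbove K v k1 k2) (h1 : K1 v = K v)
    (h2 : ∀ᶠ y in 𝓝 v, K1 y ≤ K y) : TouchAbove K1 v k1 k2 := by
  obtain ⟨L, L', a, b, c, d, e⟩ := h
  exact ⟨L, L', a.trans h1.symm, by filter_upwards [b, h2] with y hy hy2 using hy2.trans hy, c, d, e⟩

lemma TouchBelow.mono (h : TouchBelow K v k1 k2) (h1 : K1 v = K v)
    (h2 : ∀ᶠ y in 𝓝 v, K y ≤ K1 y) : TouchBelow K1 v k1 k2 := by
  obtain ⟨L, L', a, b, c, d, e⟩ := h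
  exact ⟨L, L', a.trans h1.symm, by filter_upwards [b, h2] with y hy hy2 using hy.trans hy2, c, d, e⟩

lemma TouchAbove.min_left (h : TouchAbove K v k1 k2) (h1 : K v ≤ K1 v) :
    TouchAbove (fun y => min (K y) (K1 y)) v k1 k2 :=
  h.mono (min_eq_left h1) (Eventually.of_forall fun _ => min_le_left _ _)

lemma TouchAbove.min_right (h : TouchAbove K v k1 k2) (h1 : K v ≤ K1 v) :
    TouchAbove (fun y => min (K1 y) (K y)) v k1 k2 :=
  h.mono (min_eq_right h1) (Eventually.of_forall fun _ => min_le_right _ _)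

lemma TouchBelow.max_left (h : TouchBelow K v k1 k2) (h1 : K1 v ≤ K v) :
    TouchBelow (fun y => max (K y) (K1 y)) v k1 k2 :=
  h.mono (max_eq_left h1) (Eventually.of_forall fun _ => le_max_left _ _)

lemma TouchBelow.max_right (h : TouchBelow K v k1 k2) (h1 : K1 v ≤ K v) :
    TouchBelow (fun y => max (K1 y) (K y)) v k1 k2 :=
  h.mono (max_eq_right h1) (Eventually.of_forall fun _ => le_max_right _ _)

end touch

/-! ### slope comparison, touching form -/

section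

variable {t0 t1 : ℝ} {b : ℝ → ℝ} {u V P Px Pxx : ℝ → ℝ → ℝ} {M : ℝ}

/-- derivative data for `P - g L(V)`, `L` differentiable near `V t x` only -/
lemma slope_data_v (h : BSys t0 t1 b u V P Px Pxx M) {t : ℝ} (ht : t ∈ Ico t0 t1) (x : ℝ)
    {g : ℝ → ℝ} {g' : ℝ} (hg : HasDerivWithinAt g g' (Ici t) t)
    {L L' : ℝ → ℝ} {L'' : ℝ} (hL : ∀ᶠ v in 𝓝 (V t x), HasDerivAt L (L' v) v)
    (hL' : HasSide L' L'' (V t x)) :
    HasDerivWithinAt (fun s => P s x - g s * L (V s x))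
      ((-(Pxx t x / 2 + b t * u t x * Px t x) + b t * (2 - 3 * V t x) * P t x) -
        (g' * L (V t x) + g t * (L' (V t x) *
          (-(Px t x / 2 + b t * u t x * P t x) + b t * V t x * (1 - V t x))))) (Ici t) t ∧
    (∀ᶠ y in 𝓝 x, HasDerivAt (fun y => P t y - g t * L (V t y))
      (Px t y - g t * (L' (V t y) * P t y)) y) ∧
    HasSide (fun y => Px t y - g t * (L' (V t y) * P t y))
      (Pxx t x - g t * (L'' * P t x * P t x + L' (V t x) * Px t x)) x := by
  refine ⟨?_, ?_, ?_⟩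
  · have h1 : HasDerivWithinAt (fun s => L (V s x))
        (L' (V t x) * (-(Px t x / 2 + b t * u t x * P t x) + b t * V t x * (1 - V t x)))
        (Ici t) t := (hL.self_of_nhds).comp_hasDerivWithinAt t (h.hVt t ht x)
    exact (h.hPt t ht x).sub (hg.mul h1)
  · have hc : Tendsto (V t) (𝓝 x) (𝓝 (V t x)) := (h.hVx t ht x).continuousAt
    filter_upwards [hc.eventually hL] with y hy
    have h1 : HasDerivAt (fun y => L (V t y)) (L' (V t y) * P t y) y :=
      hy.comp y (h.hVx t ht y)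
    exact (h.hPx t ht y).sub (h1.const_mul (g t))
  · rcases hL' with hL' | hL'
    · left
      have hmaps : MapsTo (V t) (Ici x) (Ici (V t x)) := fun y hy => h.mono ht hy
      have h1 : HasDerivWithinAt (fun y => L' (V t y)) (L'' * P t x) (Ici x) x :=
        hL'.comp x (h.hVx t ht x).hasDerivWithinAt hmaps
      have h2 := h1.mul (h.hPx t ht x).hasDerivWithinAt
      exact (h.hPxx t ht x).hasDerivWithinAt.sub (h2.const_mul (g t))
    · right
      have hmaps : MapsTo (V t) (Iic x) (Iic (V t x)) := fun y hy => h.mono ht hy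
      have h1 : HasDerivWithinAt (fun y => L' (V t y)) (L'' * P t x) (Iic x) x :=
        hL'.comp x (h.hVx t ht x).hasDerivWithinAt hmaps
      have h2 := h1.mul (h.hPx t ht x).hasDerivWithinAt
      exact (h.hPxx t ht x).hasDerivWithinAt.sub (h2.const_mul (g t))

/-- **Slope comparison, upper barrier, touching form**: `V_x ≤ g(t) K(V)`. -/
theorem slope_le_v (h : BSys t0 t1 b u V P Px Pxx M)
    {g g' : ℝ → ℝ} (hg : ∀ t ∈ Ico t0 t1, HasDerivWithinAt g (g' t) (Ici t) t)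
    (hgc : ContinuousOn g (Icc t0 t1)) (hg0 : ∀ t ∈ Icc t0 t1, 0 ≤ g t)
    {K K' K'' : ℝ → ℝ} (hKc : ContinuousOn K (Ioo 0 1)) (hK0 : ∀ v ∈ Ioo (0:ℝ) 1, 0 ≤ K v)
    (hT : ∀ v ∈ Ioo (0:ℝ) 1, TouchAbove K v (K' v) (K'' v))
    (hconc : ∀ v ∈ Ioo (0:ℝ) 1, K'' v ≤ 0)
    (hineq : ∀ t ∈ Ico t0 t1, ∀ v ∈ Ioo (0:ℝ) 1,
      g' t * K v + g t ^ 3 * (K v ^ 2 * K'' v) / 2
        + b t * g t * (v * (1 - v) * K' v - (2 - 3 * v) * K v) ≤ 0)
    (hterm : ∀ x, P t1 x ≤ g t1 * K (V t1 x)) :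
    ∀ t ∈ Icc t0 t1, ∀ x, P t x ≤ g t * K (V t x) := by
  have hVI : ∀ t ∈ Icc t0 t1, ∀ y, V t y ∈ Ioo (0:ℝ) 1 :=
    fun t ht y => ⟨h.V_pos t ht y, h.V_lt t ht y⟩
  have key := backward_strip_v (t0 := t0) (t1 := t1) (w := fun t x => P t x - g t * K (V t x))
    ?_ (A := 1) (B := M * M) (C := M) (M := M) ?_ ?_ ?_
  · intro t ht x
    have := key t ht x
    linarith
  · refine h.cP.sub (ContinuousOn.mul ?_ ?_)
    · exact hgc.comp continuous_fst.continuousOn (fun p hp => hp.1)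
    · exact hKc.comp h.cV (fun p hp => hVI p.1 hp.1 p.2)
  · intro t ht x
    have h1 := h.P_le t ht x
    have h2 : 0 ≤ g t * K (V t x) := mul_nonneg (hg0 t ht) (hK0 _ (hVI t ht x))
    have h3 := h.P_nonneg t ht x
    have h4 : 0 ≤ |x| := abs_nonneg x
    have h5 : 0 ≤ M := h3.trans h1
    nlinarith
  · intro x; have := hterm x; linarith
  · intro t ht x hpos
    have htI : t ∈ Icc t0 t1 := ⟨ht.1, ht.2.le⟩
    have hvI : V t x ∈ Ioo (0:ℝ) 1 := hVI t htI x
    obtain ⟨L, L', hLv, hLge, hLd, hL1, hL2⟩ := hT _ hvI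
    obtain ⟨d1, d2, d3⟩ := slope_data_v h ht x (hg t ht) hLd hL2
    refine ⟨_, _, 1/2, b t * u t x,
      g t * K'' (V t x) * (P t x + g t * K (V t x)) / 2 - b t * (2 - 3 * V t x),
      fun s => P s x - g s * L (V s x), fun y => P t y - g t * L (V t y), _,
      ?_, ?_, d1, ?_, ?_, d2, d3, by norm_num, ?_, h.drift_le htI x, ?_, ?_⟩
    · simp only [hLv]
    · -- in time
      have hcV : Tendsto (fun s => V s x) (𝓝[>] t) (𝓝 (V t x)) :=
        ((h.hVt t ht x).continuousWithinAt.mono Ioi_subset_Ici_self)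
      filter_upwards [hcV.eventually hLge, Ioo_mem_nhdsGT ht.2] with s hs hst
      have hsI : s ∈ Icc t0 t1 := ⟨ht.1.trans hst.1.le, hst.2.le⟩
      have := mul_le_mul_of_nonneg_left hs (hg0 s hsI)
      linarith
    · simp only [hLv]
    · have hc : Tendsto (V t) (𝓝 x) (𝓝 (V t x)) := (h.hVx t ht x).continuousAt
      filter_upwards [hc.eventually hLge] with y hy
      have := mul_le_mul_of_nonneg_left hy (hg0 t htI)
      linarith
    · nlinarith [sq_nonneg x]
    · have h1 := h.b_nonneg t htI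
      have h5 := h.b_le t htI
      have h6 : 0 ≤ P t x + g t * K (V t x) :=
        add_nonneg (h.P_nonneg t htI x) (mul_nonneg (hg0 t htI) (hK0 _ hvI))
      have h7 : g t * K'' (V t x) * (P t x + g t * K (V t x)) ≤ 0 :=
        mul_nonpos_of_nonpos_of_nonneg
          (mul_nonpos_of_nonneg_of_nonpos (hg0 t htI) (hconc _ hvI)) h6
      have h8 : -(b t * (2 - 3 * V t x)) ≤ b t := by nlinarith [hvI.1, hvI.2]
      linarith
    · have h9 := hineq t ht _ hvI
      rw [hL1, hLv]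
      nlinarith

/-- **Slope comparison, lower barrier, touching form**: `g(t) K(V) ≤ V_x`. No concavity, only
`K K'' ≤ κ2`. -/
theorem le_slope_v (h : BSys t0 t1 b u V P Px Pxx M)
    {g g' : ℝ → ℝ} {G : ℝ} (hg : ∀ t ∈ Ico t0 t1, HasDerivWithinAt g (g' t) (Ici t) t)
    (hgc : ContinuousOn g (Icc t0 t1)) (hg0 : ∀ t ∈ Icc t0 t1, 0 ≤ g t)
    (hgG : ∀ t ∈ Icc t0 t1, g t ≤ G)
    {K K' K'' : ℝ → ℝ} {KM κ2 : ℝ} (hKc : ContinuousOn K (Ioo 0 1))
    (hK0 : ∀ v ∈ Ioo (0:ℝ) 1, 0 ≤ K v) (hKM : ∀ v ∈ Ioo (0:ℝ) 1, K v ≤ KM)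
    (hT : ∀ v ∈ Ioo (0:ℝ) 1, TouchBelow K v (K' v) (K'' v))
    (hκ2 : 0 ≤ κ2) (hconc : ∀ v ∈ Ioo (0:ℝ) 1, K v * K'' v ≤ κ2)
    (hineq : ∀ t ∈ Ico t0 t1, ∀ v ∈ Ioo (0:ℝ) 1,
      0 ≤ g' t * K v + g t ^ 3 * (K v ^ 2 * K'' v) / 2
        + b t * g t * (v * (1 - v) * K' v - (2 - 3 * v) * K v))
    (hterm : ∀ x, g t1 * K (V t1 x) ≤ P t1 x) :
    ∀ t ∈ Icc t0 t1, ∀ x, g t * K (V t x) ≤ P t x := by
  have hVI : ∀ t ∈ Icc t0 t1, ∀ y, V t y ∈ Ioo (0:ℝ) 1 :=
    fun t ht y => ⟨h.V_pos t ht y, h.V_lt t ht y⟩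
  have key := backward_strip_v (t0 := t0) (t1 := t1) (w := fun t x => g t * K (V t x) - P t x)
    ?_ (A := 1) (B := M * M) (C := G * G * κ2 + M) (M := G * KM) ?_ ?_ ?_
  · intro t ht x
    have := key t ht x
    linarith
  · refine ContinuousOn.sub (ContinuousOn.mul ?_ ?_) h.cP
    · exact hgc.comp continuous_fst.continuousOn (fun p hp => hp.1)
    · exact hKc.comp h.cV (fun p hp => hVI p.1 hp.1 p.2)
  · intro t ht x
    have h1 : g t * K (V t x) ≤ G * KM :=
      mul_le_mul (hgG t ht) (hKM _ (hVI t ht x)) (hK0 _ (hVI t ht x)) ((hg0 t ht).trans (hgG t ht))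
    have h2 : 0 ≤ g t * K (V t x) := mul_nonneg (hg0 t ht) (hK0 _ (hVI t ht x))
    have h3 := h.P_nonneg t ht x
    have h4 : 0 ≤ |x| := abs_nonneg x
    nlinarith
  · intro x; have := hterm x; linarith
  · intro t ht x hpos
    have htI : t ∈ Icc t0 t1 := ⟨ht.1, ht.2.le⟩
    have hvI : V t x ∈ Ioo (0:ℝ) 1 := hVI t htI x
    obtain ⟨L, L', hLv, hLge, hLd, hL1, hL2⟩ := hT _ hvI
    obtain ⟨d1, d2, d3⟩ := slope_data_v h ht x (hg t ht) hLd hL2
    have e1 : (fun s => g s * L (V s x) - P s x) = fun s => -(P s x - g s * L (V s x)) := by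
      funext s; ring
    have e2 : (fun y => g t * L (V t y) - P t y) = fun y => -(P t y - g t * L (V t y)) := by
      funext s; ring
    have hg1 := hg0 t htI
    have hg2 := hgG t htI
    have hKx := hK0 _ hvI
    have hPx := h.P_nonneg t htI x
    refine ⟨-((-(Pxx t x / 2 + b t * u t x * Px t x) + b t * (2 - 3 * V t x) * P t x) -
        (g' t * L (V t x) + g t * (L' (V t x) *
          (-(Px t x / 2 + b t * u t x * P t x) + b t * V t x * (1 - V t x))))),
      -(Pxx t x - g t * (K'' (V t x) * P t x * P t x + L' (V t x) * Px t x)), 1/2, b t * u t x,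
      g t * K'' (V t x) * (P t x + g t * K (V t x)) / 2 - b t * (2 - 3 * V t x),
      fun s => g s * L (V s x) - P s x, fun y => g t * L (V t y) - P t y,
      fun y => -(Px t y - g t * (L' (V t y) * P t y)), ?_, ?_, ?_, ?_, ?_, ?_, ?_, by norm_num, ?_,
      h.drift_le htI x, ?_, ?_⟩
    · simp only [hLv]
    · have hcV : Tendsto (fun s => V s x) (𝓝[>] t) (𝓝 (V t x)) :=
        ((h.hVt t ht x).continuousWithinAt.mono Ioi_subset_Ici_self)
      filter_upwards [hcV.eventually hLge, Ioo_mem_nhdsGT ht.2] with s hs hst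
      have hsI : s ∈ Icc t0 t1 := ⟨ht.1.trans hst.1.le, hst.2.le⟩
      have := mul_le_mul_of_nonneg_left hs (hg0 s hsI)
      linarith
    · rw [e1]; exact d1.neg
    · simp only [hLv]
    · have hc : Tendsto (V t) (𝓝 x) (𝓝 (V t x)) := (h.hVx t ht x).continuousAt
      filter_upwards [hc.eventually hLge] with y hy
      have := mul_le_mul_of_nonneg_left hy (hg0 t htI)
      linarith
    · rw [e2]; filter_upwards [d2] with y hy; exact hy.neg
    · rcases d3 with d3 | d3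
      · exact Or.inl d3.neg
      · exact Or.inr d3.neg
    · nlinarith [sq_nonneg x]
    · have h1 := h.b_nonneg t htI
      have h5 := h.b_le t htI
      have h7 : g t * K'' (V t x) * (P t x + g t * K (V t x)) / 2 ≤ G * G * κ2 := by
        rcases le_or_gt (K'' (V t x)) 0 with hk | hk
        · have h71 : g t * K'' (V t x) * (P t x + g t * K (V t x)) ≤ 0 :=
            mul_nonpos_of_nonpos_of_nonneg
              (mul_nonpos_of_nonneg_of_nonpos hg1 hk)
              (add_nonneg hPx (mul_nonneg hg1 hKx))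
          have h72 : 0 ≤ G * G * κ2 :=
            mul_nonneg (mul_nonneg (hg1.trans hg2) (hg1.trans hg2)) hκ2
          linarith
        · have h73 : P t x + g t * K (V t x) ≤ 2 * (g t * K (V t x)) := by
            have : 0 < g t * K (V t x) - P t x := hpos
            linarith
          have h74 : g t * K'' (V t x) * (P t x + g t * K (V t x)) ≤
              g t * K'' (V t x) * (2 * (g t * K (V t x))) :=
            mul_le_mul_of_nonneg_left h73 (mul_nonneg hg1 hk.le)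
          have h75 : g t * K'' (V t x) * (2 * (g t * K (V t x))) =
              2 * (g t * g t * (K (V t x) * K'' (V t x))) := by ring
          have h76 : g t * g t * (K (V t x) * K'' (V t x)) ≤ G * G * κ2 := by
            have a1 : 0 ≤ K (V t x) * K'' (V t x) := mul_nonneg hKx hk.le
            have a2 : g t * g t ≤ G * G := mul_le_mul hg2 hg2 hg1 (hg1.trans hg2)
            exact mul_le_mul a2 (hconc _ hvI) a1 (mul_nonneg (hg1.trans hg2) (hg1.trans hg2))
          linarith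
      have h8 : -(b t * (2 - 3 * V t x)) ≤ b t := by nlinarith [hvI.1, hvI.2]
      linarith
    · have h9 := hineq t ht _ hvI
      beta_reduce
      rw [hL1, hLv]
      nlinarith

/-! ### transients in a general clock -/

/-- linear part of the stationary expression -/
noncomputable def Lin (ω y v K K1 : ℝ) : ℝ :=
  (1 + ω * y) * K / 2 + y * (v * (1 - v) * K1 - (2 - 3 * v) * K)

lemma stat_lin (ω y v K K1 K2 : ℝ) : Stat ω y v K K1 K2 = Lin ω y v K K1 + K ^ 2 * K2 / 2 := by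
  unfold Stat Lin; ring

/-- **upper slope barrier with transient, touching form**: `V_x ≤ (1+e(t)) s(t) K(V)`. -/
theorem slope_trans_le_v (h : BSys t0 t1 b u V P Px Pxx M) {s e : ℝ → ℝ} {ω κ : ℝ}
    (hs : ∀ t ∈ Ico t0 t1,
      HasDerivWithinAt s ((1 + ω * (b t / s t ^ 2)) / 2 * s t ^ 3) (Ici t) t)
    (hsc : ContinuousOn s (Icc t0 t1)) (hs0 : ∀ t ∈ Icc t0 t1, 0 < s t)
    (he : ∀ t ∈ Ico t0 t1, HasDerivWithinAt e (κ * e t * s t ^ 2) (Ici t) t)
    (hec : ContinuousOn e (Icc t0 t1)) (he0 : ∀ t ∈ Icc t0 t1, 0 ≤ e t)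
    {K K' K'' : ℝ → ℝ} (hKc : ContinuousOn K (Ioo 0 1)) (hK0 : ∀ v ∈ Ioo (0:ℝ) 1, 0 < K v)
    (hT : ∀ v ∈ Ioo (0:ℝ) 1, TouchAbove K v (K' v) (K'' v)) (hκ : 0 ≤ κ)
    (hKK : ∀ v ∈ Ioo (0:ℝ) 1, K v * K'' v ≤ -κ)
    (hineq : ∀ t ∈ Ico t0 t1, ∀ v ∈ Ioo (0:ℝ) 1,
      Stat ω (b t / s t ^ 2) v (K v) (K' v) (K'' v) ≤ 0)
    (hterm : ∀ x, P t1 x ≤ (1 + e t1) * s t1 * K (V t1 x)) :
    ∀ t ∈ Icc t0 t1, ∀ x, P t x ≤ (1 + e t) * s t * K (V t x) := by
  refine slope_le_v h (g := fun t => (1 + e t) * s t)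
    (g' := fun t => κ * e t * s t ^ 2 * s t +
      (1 + e t) * ((1 + ω * (b t / s t ^ 2)) / 2 * s t ^ 3))
    (fun t ht => ((he t ht).const_add 1).mul (hs t ht)) ((continuousOn_const.add hec).mul hsc) ?_ hKc
    (fun v hv => (hK0 v hv).le) hT ?_ ?_ hterm
  · intro t ht; have := he0 t ht; have := hs0 t ht; positivity
  · intro v hv
    have h1 := hKK v hv
    have h2 := hK0 v hv
    by_contra hcon
    push Not at hcon
    have := mul_pos h2 hcon
    linarith
  · intro t ht v hv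
    have htI : t ∈ Icc t0 t1 := ⟨ht.1, ht.2.le⟩
    have hst := hs0 t htI
    have het := he0 t htI
    have hb : b t = (b t / s t ^ 2) * s t ^ 2 := by field_simp
    set y := b t / s t ^ 2 with hy
    have hI := hineq t ht v hv
    rw [← hy] at hI
    unfold Stat at hI
    have h1 := hKK v hv
    have h2 := hK0 v hv
    rw [hb]
    have key : κ * e t * s t ^ 2 * s t * K v + (1 + e t) * ((1 + ω * y) / 2 * s t ^ 3) * K v
        + ((1 + e t) * s t) ^ 3 * (K v ^ 2 * K'' v) / 2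
        + y * s t ^ 2 * ((1 + e t) * s t) * (v * (1 - v) * K' v - (2 - 3 * v) * K v)
        = s t ^ 3 * ((1 + e t) * ((1 + ω * y) * K v / 2 + K v ^ 2 * K'' v / 2 +
            y * (v * (1 - v) * K' v - (2 - 3 * v) * K v))
          + e t * K v * (κ + (1 + e t) * (2 + e t) / 2 * (K v * K'' v))) := by ring
    have e1 : (κ * e t * s t ^ 2 * s t + (1 + e t) * ((1 + ω * y) / 2 * s t ^ 3)) * K v =
        κ * e t * s t ^ 2 * s t * K v + (1 + e t) * ((1 + ω * y) / 2 * s t ^ 3) * K v := by ring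
    rw [e1, key]
    have h3 : κ + (1 + e t) * (2 + e t) / 2 * (K v * K'' v) ≤ 0 := by
      have h4 : (1:ℝ) ≤ (1 + e t) * (2 + e t) / 2 := by nlinarith
      have h5 : (1 + e t) * (2 + e t) / 2 * (K v * K'' v) ≤ (1 + e t) * (2 + e t) / 2 * (-κ) :=
        mul_le_mul_of_nonneg_left h1 (by linarith)
      nlinarith
    have h6 : e t * K v * (κ + (1 + e t) * (2 + e t) / 2 * (K v * K'' v)) ≤ 0 :=
      mul_nonpos_of_nonneg_of_nonpos (mul_nonneg het h2.le) h3
    have h7 : (1 + e t) * ((1 + ω * y) * K v / 2 + K v ^ 2 * K'' v / 2 +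
        y * (v * (1 - v) * K' v - (2 - 3 * v) * K v)) ≤ 0 :=
      mul_nonpos_of_nonneg_of_nonpos (by linarith) hI
    exact mul_nonpos_of_nonneg_of_nonpos (by positivity) (by linarith)

/-- **lower slope barrier with transient, touching form**: `(1-e(t)) s(t) K(V) ≤ V_x`. -/
theorem le_slope_trans_v (h : BSys t0 t1 b u V P Px Pxx M) {s e : ℝ → ℝ} {ω κ κ2 e1 G KM : ℝ}
    (hs : ∀ t ∈ Ico t0 t1,
      HasDerivWithinAt s ((1 + ω * (b t / s t ^ 2)) / 2 * s t ^ 3) (Ici t) t)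
    (hsc : ContinuousOn s (Icc t0 t1)) (hs0 : ∀ t ∈ Icc t0 t1, 0 < s t)
    (hsG : ∀ t ∈ Icc t0 t1, s t ≤ G)
    (he : ∀ t ∈ Ico t0 t1, HasDerivWithinAt e (κ * e t * s t ^ 2) (Ici t) t)
    (hec : ContinuousOn e (Icc t0 t1)) (he0 : ∀ t ∈ Icc t0 t1, 0 ≤ e t)
    (hee1 : ∀ t ∈ Icc t0 t1, e t ≤ e1) (he1 : e1 < 1)
    {K K' K'' : ℝ → ℝ} (hKc : ContinuousOn K (Ioo 0 1)) (hK0 : ∀ v ∈ Ioo (0:ℝ) 1, 0 < K v)
    (hKM : ∀ v ∈ Ioo (0:ℝ) 1, K v ≤ KM)
    (hT : ∀ v ∈ Ioo (0:ℝ) 1, TouchBelow K v (K' v) (K'' v)) (hκ0 : 0 ≤ κ)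
    (hκ2 : 0 ≤ κ2) (hconc : ∀ v ∈ Ioo (0:ℝ) 1, K v * K'' v ≤ κ2)
    (hineq : ∀ t ∈ Ico t0 t1, ∀ v ∈ Ioo (0:ℝ) 1,
      0 ≤ Stat ω (b t / s t ^ 2) v (K v) (K' v) (K'' v))
    (htr1 : 0 < e1 → ∀ t ∈ Ico t0 t1, ∀ v ∈ Ioo (0:ℝ) 1,
      κ * K v ≤ (1 - e1) * Lin ω (b t / s t ^ 2) v (K v) (K' v))
    (htr2 : 0 < e1 → ∀ t ∈ Ico t0 t1, ∀ v ∈ Ioo (0:ℝ) 1,
      κ * K v ≤ (1 - e1) * (Lin ω (b t / s t ^ 2) v (K v) (K' v) - K v ^ 2 * K'' v / 2))
    (hterm : ∀ x, (1 - e t1) * s t1 * K (V t1 x) ≤ P t1 x) :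
    ∀ t ∈ Icc t0 t1, ∀ x, (1 - e t) * s t * K (V t x) ≤ P t x := by
  refine le_slope_v h (g := fun t => (1 - e t) * s t) (G := G) (KM := KM)
    (g' := fun t => -(κ * e t * s t ^ 2) * s t +
      (1 - e t) * ((1 + ω * (b t / s t ^ 2)) / 2 * s t ^ 3))
    (fun t ht => ((he t ht).const_sub 1).mul (hs t ht)) ((continuousOn_const.sub hec).mul hsc)
    ?_ ?_ hKc (fun v hv => (hK0 v hv).le) hKM hT hκ2 hconc ?_ hterm
  · intro t ht
    have h1 := hee1 t ht
    exact mul_nonneg (by linarith) (hs0 t ht).le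
  · intro t ht
    have h1 := he0 t ht
    have h2 := hs0 t ht
    have h3 := hsG t ht
    nlinarith
  · intro t ht v hv
    have htI : t ∈ Icc t0 t1 := ⟨ht.1, ht.2.le⟩
    have hst := hs0 t htI
    have het := he0 t htI
    have het1 := hee1 t htI
    have hb : b t = (b t / s t ^ 2) * s t ^ 2 := by field_simp
    have hI := hineq t ht v hv
    have hA := fun h0 : 0 < e1 => htr1 h0 t ht v hv
    have hB := fun h0 : 0 < e1 => htr2 h0 t ht v hv
    set y := b t / s t ^ 2 with hy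
    have h2 := hK0 v hv
    rw [hb]
    set ℓ := Lin ω y v (K v) (K' v) with hℓ
    set q := K v ^ 2 * K'' v / 2 with hq
    have hstat : Stat ω y v (K v) (K' v) (K'' v) = ℓ + q := stat_lin _ _ _ _ _ _
    rw [hstat] at hI
    have key : (-(κ * e t * s t ^ 2) * s t + (1 - e t) * ((1 + ω * y) / 2 * s t ^ 3)) * K v
        + ((1 - e t) * s t) ^ 3 * (K v ^ 2 * K'' v) / 2
        + y * s t ^ 2 * ((1 - e t) * s t) * (v * (1 - v) * K' v - (2 - 3 * v) * K v)
        = s t ^ 3 * ((1 - e t) * ℓ + (1 - e t) ^ 3 * q - κ * e t * K v) := by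
      rw [hℓ, hq]; unfold Lin; ring
    rw [key]
    refine mul_nonneg (by positivity) ?_
    rcases eq_or_lt_of_le het with he00 | he00
    · rw [← he00]; simp only [sub_zero, mul_zero, zero_mul]
      linarith
    · have h0 : 0 < e1 := he00.trans_le het1
      have hA' := hA h0
      have hB' := hB h0
      have hed : 0 < 1 - e t := by linarith
      have h1e : 1 - e1 ≤ 1 - e t := by linarith
      -- κ K ≤ (1-e1) ℓ, κ K ≤ (1-e1)(ℓ - q), 0 ≤ ℓ + q
      have hKp : 0 ≤ κ * K v := mul_nonneg hκ0 h2.le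
      have hℓ0 : 0 ≤ ℓ := by
        by_contra hcon; push Not at hcon
        have := mul_neg_of_pos_of_neg (show (0:ℝ) < 1 - e1 by linarith) hcon
        linarith
      have hℓq : 0 ≤ ℓ - q := by
        by_contra hcon; push Not at hcon
        have := mul_neg_of_pos_of_neg (show (0:ℝ) < 1 - e1 by linarith) hcon
        linarith
      have hA2 : κ * K v ≤ (1 - e t) * ℓ := hA'.trans (mul_le_mul_of_nonneg_right h1e hℓ0)
      have hB2 : κ * K v ≤ (1 - e t) * (ℓ - q) := hB'.trans (mul_le_mul_of_nonneg_right h1e hℓq)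
      -- target : (1-e)ℓ + (1-e)^3 q - κ e K
      -- (1-e)^2 = 1 - e(2-e)
      rcases le_or_gt q 0 with hq0 | hq0
      · -- q ≤ 0 : (1-e)^2 ≤ 1 - e
        have a1 : (1 - e t) ^ 3 * q ≥ (1 - e t) * (1 - e t) * q := by
          have a2 : (1 - e t) ^ 3 ≤ (1 - e t) * (1 - e t) := by
            have : (1 - e t) ^ 3 = (1 - e t) * (1 - e t) * (1 - e t) := by ring
            rw [this]
            have : (1 - e t) * (1 - e t) * (1 - e t) ≤ (1 - e t) * (1 - e t) * 1 :=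
              mul_le_mul_of_nonneg_left (by linarith) (by positivity)
            linarith
          exact mul_le_mul_of_nonpos_right a2 hq0
        have a3 : (1 - e t) * ℓ + (1 - e t) * (1 - e t) * q =
            (1 - e t) * ((1 - e t) * (ℓ + q)) + e t * ((1 - e t) * ℓ) := by ring
        have a4 : 0 ≤ (1 - e t) * ((1 - e t) * (ℓ + q)) :=
          mul_nonneg hed.le (mul_nonneg hed.le hI)
        have a5 : e t * (κ * K v) ≤ e t * ((1 - e t) * ℓ) :=
          mul_le_mul_of_nonneg_left hA2 het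
        nlinarith
      · have a1 : 0 ≤ (1 - e t) ^ 3 * q := by positivity
        have a5 : e t * (κ * K v) ≤ 1 * (κ * K v) :=
          mul_le_mul_of_nonneg_right (by linarith) hKp
        nlinarith

end

end Crest.Agent.R146.SlopeV_371
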