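import Crest.Agent.R146.StepStart_483
import Crest.Agent.R146.SlopeV_371

/-!
Row 146 (helper87), node N4 of NOGAP, part 1: closed-form slope bands in the OLD clock, valid for every
step datum with `(1-t) b ≤ 1`:

`(5/4) v^{3/2} (1-v) ≤ √(1-t) V_x ≤ (6/5) (v(1-v))^{3/4}`,  `v = V`.
-/

set_option autoImplicit false

namespace Crest.Agent.R146.NgBand_87

open MeasureTheory ProbabilityTheory Set Filter Topology
open Crest.Agent.R146.StepDef_791 Crest.Agent.R146.StepStart_483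
open MaxP_371 MaxP2_371 MaxPCmp_371 SlopeV_371

noncomputable section

/-! ### the two barriers -/

/-- `q = (v(1-v))^{1/4}` -/
def qq (v : ℝ) : ℝ := √(√(v * (1 - v)))

/-- upper barrier `(6/5) (v(1-v))^{3/4}` -/
def Kp (v : ℝ) : ℝ := 6 / 5 * qq v ^ 3

/-- lower barrier `(5/4) v^{3/2} (1-v)` -/
def Km (v : ℝ) : ℝ := 5 / 4 * √v ^ 3 * (1 - v)

lemma w_pos {v : ℝ} (hv : v ∈ Ioo (0:ℝ) 1) : 0 < v * (1 - v) :=
  mul_pos hv.1 (by linarith [hv.2])

lemma qq_pos {v : ℝ} (hv : v ∈ Ioo (0:ℝ) 1) : 0 < qq v :=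
  Real.sqrt_pos.2 (Real.sqrt_pos.2 (w_pos hv))

lemma qq_nonneg (v : ℝ) : 0 ≤ qq v := Real.sqrt_nonneg _

lemma qq_sq (v : ℝ) : qq v ^ 2 = √(v * (1 - v)) :=
  Real.sq_sqrt (Real.sqrt_nonneg _)

lemma qq_four {v : ℝ} (hv : v ∈ Icc (0:ℝ) 1) : qq v ^ 4 = v * (1 - v) := by
  have h1 : qq v ^ 4 = (qq v ^ 2) ^ 2 := by ring
  rw [h1, qq_sq, Real.sq_sqrt (mul_nonneg hv.1 (by linarith [hv.2]))]

lemma qq_four' {v : ℝ} (hv : v ∈ Ioo (0:ℝ) 1) : qq v ^ 4 = v * (1 - v) :=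
  qq_four ⟨hv.1.le, hv.2.le⟩

lemma qq_cont : Continuous qq := by unfold qq; fun_prop

lemma qq_deriv {v : ℝ} (hv : v ∈ Ioo (0:ℝ) 1) :
    HasDerivAt qq ((1 - 2 * v) / (4 * qq v ^ 3)) v := by
  have h1 : HasDerivAt (fun v : ℝ => v * (1 - v)) (1 - 2 * v) v := by
    have h2 := (hasDerivAt_id v).mul ((hasDerivAt_id v).const_sub 1)
    refine h2.congr_deriv ?_
    simp only [id]; ring
  have h3 := (h1.sqrt (w_pos hv).ne').sqrt (Real.sqrt_pos.2 (w_pos hv)).ne'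
  refine h3.congr_deriv ?_
  have h4 := qq_pos hv
  have h5 := qq_sq v
  have e1 : √(√(v * (1 - v))) = qq v := rfl
  rw [e1, ← h5]
  field_simp
  ring

lemma Kp_cont : Continuous Kp := by unfold Kp; exact continuous_const.mul (qq_cont.pow 3)

lemma Kp_pos {v : ℝ} (hv : v ∈ Ioo (0:ℝ) 1) : 0 < Kp v := by
  have := qq_pos hv
  unfold Kp; positivity

lemma Kp_nonneg (v : ℝ) : 0 ≤ Kp v := by
  have := qq_nonneg v
  unfold Kp; positivity

def Kp1 (v : ℝ) : ℝ := 9 / 10 * (1 - 2 * v) / qq v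
def Kp2 (v : ℝ) : ℝ := -(9 / 40) * (1 + 4 * qq v ^ 4) / qq v ^ 5

lemma Kp_deriv {v : ℝ} (hv : v ∈ Ioo (0:ℝ) 1) : HasDerivAt Kp (Kp1 v) v := by
  have h1 := ((qq_deriv hv).pow 3).const_mul (6 / 5)
  refine h1.congr_deriv ?_
  have h4 := (qq_pos hv).ne'
  unfold Kp1
  simp only [Nat.cast_ofNat, Nat.add_one_sub_one]
  field_simp
  ring

lemma Kp1_deriv {v : ℝ} (hv : v ∈ Ioo (0:ℝ) 1) : HasDerivAt Kp1 (Kp2 v) v := by
  have h0 : HasDerivAt (fun v : ℝ => 9 / 10 * (1 - 2 * v)) (-(9 / 5)) v := by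
    have := (((hasDerivAt_id v).const_mul 2).const_sub 1).const_mul (9 / 10)
    refine this.congr_deriv ?_
    ring
  have h1 := h0.div (qq_deriv hv) (qq_pos hv).ne'
  refine h1.congr_deriv ?_
  have h4 := (qq_pos hv).ne'
  have h5 := qq_four' hv
  have h6 : (1 - 2 * v) ^ 2 = 1 - 4 * qq v ^ 4 := by rw [h5]; ring
  unfold Kp2
  field_simp
  nlinarith [h6]

lemma Kp2_neg {v : ℝ} (hv : v ∈ Ioo (0:ℝ) 1) : Kp2 v < 0 := by
  have h4 := qq_pos hv
  unfold Kp2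
  apply div_neg_of_neg_of_pos _ (by positivity)
  have : 0 < 1 + 4 * qq v ^ 4 := by positivity
  linarith

/-- `K₊ K₊'' ≤ -1`, strictly -/
lemma Kp_mul {v : ℝ} (hv : v ∈ Ioo (0:ℝ) 1) : Kp v * Kp2 v < -1 := by
  have h4 := qq_pos hv
  have e1 : Kp v * Kp2 v = -(27 / 100) * (1 + 4 * qq v ^ 4) / qq v ^ 2 := by
    unfold Kp Kp2
    field_simp
    ring
  rw [e1, div_lt_iff₀ (by positivity)]
  have h5 : 0 < qq v ^ 2 := by positivity
  nlinarith [sq_nonneg (qq v ^ 2 - 1 / 2), sq_nonneg (qq v ^ 2 - 1 / (2 * 27 / 25))]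

lemma Km_cont : Continuous Km := by unfold Km; fun_prop

lemma sv_pos {v : ℝ} (hv : v ∈ Ioo (0:ℝ) 1) : 0 < √v := Real.sqrt_pos.2 hv.1

lemma Km_pos {v : ℝ} (hv : v ∈ Ioo (0:ℝ) 1) : 0 < Km v := by
  have h1 := sv_pos hv
  have h2 : 0 < 1 - v := by linarith [hv.2]
  unfold Km; positivity

def Km1 (v : ℝ) : ℝ := 5 / 8 * √v * (3 - 5 * v)
def Km2 (v : ℝ) : ℝ := 15 / 16 * (1 - 5 * v) / √v

lemma sv_deriv {v : ℝ} (hv : v ∈ Ioo (0:ℝ) 1) : HasDerivAt (fun v => √v) (1 / (2 * √v)) v :=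
  Real.hasDerivAt_sqrt hv.1.ne'

lemma Km_deriv {v : ℝ} (hv : v ∈ Ioo (0:ℝ) 1) : HasDerivAt Km (Km1 v) v := by
  have h1 := (((sv_deriv hv).pow 3).const_mul (5 / 4)).mul ((hasDerivAt_id v).const_sub 1)
  refine h1.congr_deriv ?_
  have h4 := (sv_pos hv).ne'
  have h5 : √v ^ 2 = v := Real.sq_sqrt hv.1.le
  unfold Km1
  simp only [Nat.cast_ofNat, Nat.add_one_sub_one, id, Pi.pow_apply]
  field_simp
  have h6 : √v ^ 3 = √v * v := by rw [pow_succ, h5]; ring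
  nlinarith [h5, h6]

lemma Km1_deriv {v : ℝ} (hv : v ∈ Ioo (0:ℝ) 1) : HasDerivAt Km1 (Km2 v) v := by
  have h1 := ((sv_deriv hv).const_mul (5 / 8)).mul (((hasDerivAt_id v).const_mul 5).const_sub 3)
  refine h1.congr_deriv ?_
  have h4 := (sv_pos hv).ne'
  have h5 : √v ^ 2 = v := Real.sq_sqrt hv.1.le
  unfold Km2
  simp only [id]
  field_simp
  nlinarith [h5]

lemma Km_mul {v : ℝ} (hv : v ∈ Ioo (0:ℝ) 1) :
    Km v * Km2 v = 75 / 64 * (v * (1 - v) * (1 - 5 * v)) := by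
  have h4 := (sv_pos hv).ne'
  have h5 : √v ^ 2 = v := Real.sq_sqrt hv.1.le
  unfold Km Km2
  have e : 5 / 4 * √v ^ 3 * (1 - v) * (15 / 16 * (1 - 5 * v) / √v)
      = 75 / 64 * (√v ^ 2 * (1 - v) * (1 - 5 * v)) := by
    field_simp
    ring
  rw [e, h5]

lemma Km_mul_gt {v : ℝ} (hv : v ∈ Ioo (0:ℝ) 1) : -1 < Km v * Km2 v := by
  rw [Km_mul hv]
  have h1 := hv.1
  have h2 : 0 < 1 - v := by linarith [hv.2]
  have h3 : -(4 / 5) ≤ (1 - v) * (1 - 5 * v) := by nlinarith [sq_nonneg (v - 3 / 5)]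
  nlinarith [hv.2]

/-! ### the start inequalities (1-D maximum principle) -/

/-- tail behaviour of a continuous function of `Φ` vanishing at `0` and `1` -/
lemma comp_tendsto {K : ℝ → ℝ} (hK : Continuous K) (h0 : K 0 = 0) (h1 : K 1 = 0) :
    Tendsto (fun z => K (Phi z) - ph z) (cocompact ℝ) (𝓝 0) := by
  rw [cocompact_eq_atBot_atTop, tendsto_sup]
  have hPt : Tendsto Phi atTop (𝓝 1) := by
    have h2 : Tendsto (fun z => 1 - Phi (-z)) atTop (𝓝 (1 - 0)) :=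
      (Phi_tendsto_atBot.comp tendsto_neg_atTop_atBot).const_sub 1
    refine (h2.congr fun z => ?_).trans (by simp)
    rw [Phi_neg]; ring
  have hpt : Tendsto ph atTop (𝓝 0) := by
    have h2 : Tendsto (fun z => ph (-z)) atTop (𝓝 0) :=
      ph_tendsto_atBot.comp tendsto_neg_atTop_atBot
    exact h2.congr fun z => ph_neg z
  constructor
  · have := ((hK.tendsto 0).comp Phi_tendsto_atBot).sub ph_tendsto_atBot
    rw [h0, sub_zero] at this
    exact this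
  · have := ((hK.tendsto 1).comp hPt).sub hpt
    rw [h1, sub_zero] at this
    exact this

/-- a continuous function tending to `0` at infinity which is negative somewhere has a negative minimum -/
lemma exists_neg_min {F : ℝ → ℝ} (hF : Continuous F) (hlim : Tendsto F (cocompact ℝ) (𝓝 0))
    {z : ℝ} (hz : F z < 0) : ∃ z0, F z0 < 0 ∧ ∀ y, F z0 ≤ F y := by
  have h1 : ∀ᶠ y in cocompact ℝ, F z ≤ F y := by
    filter_upwards [hlim.eventually (lt_mem_nhds hz)] with y hy using hy.le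
  obtain ⟨z0, hz0⟩ := hF.exists_forall_le' z h1
  exact ⟨z0, (hz0 z).trans_lt hz, hz0⟩

lemma Phi_mem (z : ℝ) : Phi z ∈ Ioo (0:ℝ) 1 := ⟨Phi_pos z, Phi_lt_one z⟩

/-- if `K K'' ≤ -1` strictly and `K(0) = K(1) = 0` then `φ ≤ K ∘ Φ` -/
theorem ph_le_of {K K' K'' : ℝ → ℝ} (hK : Continuous K) (h0 : K 0 = 0) (h1 : K 1 = 0)
    (hd : ∀ v ∈ Ioo (0:ℝ) 1, HasDerivAt K (K' v) v)
    (hd2 : ∀ v ∈ Ioo (0:ℝ) 1, HasDerivAt K' (K'' v) v)
    (hneg : ∀ v ∈ Ioo (0:ℝ) 1, K'' v < 0)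
    (hm : ∀ v ∈ Ioo (0:ℝ) 1, K v * K'' v < -1) (z : ℝ) : ph z ≤ K (Phi z) := by
  by_contra hcon
  push Not at hcon
  have hF : Continuous (fun z => K (Phi z) - ph z) := (hK.comp Phi_cont).sub ph_cont
  obtain ⟨z0, hz0, hmin⟩ := exists_neg_min hF (comp_tendsto hK h0 h1)
    (z := z) (by linarith)
  have hF1 : ∀ y, HasDerivAt (fun z => K (Phi z) - ph z) (ph y * (K' (Phi y) + y)) y := by
    intro y
    have h2 := ((hd _ (Phi_mem y)).comp y (Phi_deriv y)).sub (ph_deriv y)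
    refine h2.congr_deriv ?_
    ring
  have hF2 : HasDerivAt (fun y => ph y * (K' (Phi y) + y))
      (-z0 * ph z0 * (K' (Phi z0) + z0) + ph z0 * (K'' (Phi z0) * ph z0 + 1)) z0 := by
    exact (ph_deriv z0).mul (((hd2 _ (Phi_mem z0)).comp z0 (Phi_deriv z0)).add (hasDerivAt_id z0))
  have hloc : IsLocalMin (fun z => K (Phi z) - ph z) z0 := Eventually.of_forall hmin
  have hz1 : ph z0 * (K' (Phi z0) + z0) = 0 := hloc.hasDerivAt_eq_zero (hF1 z0)
  have hp := ph_pos z0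
  have hz2 : K' (Phi z0) + z0 = 0 := by
    rcases mul_eq_zero.1 hz1 with h | h
    · exact absurd h hp.ne'
    · exact h
  have hsec : 0 ≤ -z0 * ph z0 * (K' (Phi z0) + z0) + ph z0 * (K'' (Phi z0) * ph z0 + 1) := by
    have h3 := (HasSide.of_hasDerivAt hF2.neg).nonpos
      (f := fun z => -(K (Phi z) - ph z)) (Eventually.of_forall fun y => (hF1 y).neg) hloc.neg
    linarith [h3.2]
  rw [hz2, mul_zero, zero_add] at hsec
  have h4 : 0 ≤ K'' (Phi z0) * ph z0 + 1 := by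
    by_contra hc
    push Not at hc
    have := mul_neg_of_pos_of_neg hp hc
    linarith
  have h5 := hm _ (Phi_mem z0)
  have h6 := hneg _ (Phi_mem z0)
  have h7 : K'' (Phi z0) * (ph z0 - K (Phi z0)) ≤ 0 :=
    mul_nonpos_of_nonpos_of_nonneg h6.le (by linarith)
  nlinarith

/-- if `-1 < K K''`, `0 < K` and `K(0) = K(1) = 0` then `K ∘ Φ ≤ φ` -/
theorem le_ph_of {K K' K'' : ℝ → ℝ} (hK : Continuous K) (h0 : K 0 = 0) (h1 : K 1 = 0)
    (hd : ∀ v ∈ Ioo (0:ℝ) 1, HasDerivAt K (K' v) v)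
    (hd2 : ∀ v ∈ Ioo (0:ℝ) 1, HasDerivAt K' (K'' v) v)
    (hm : ∀ v ∈ Ioo (0:ℝ) 1, -1 < K v * K'' v) (z : ℝ) : K (Phi z) ≤ ph z := by
  by_contra hcon
  push Not at hcon
  have hF : Continuous (fun z => -(K (Phi z) - ph z)) := ((hK.comp Phi_cont).sub ph_cont).neg
  have hlim : Tendsto (fun z => -(K (Phi z) - ph z)) (cocompact ℝ) (𝓝 0) := by
    have := (comp_tendsto hK h0 h1).neg
    rwa [neg_zero] at this
  obtain ⟨z0, hz0, hmin⟩ := exists_neg_min hF hlim (z := z) (by linarith)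
  have hF1 : ∀ y, HasDerivAt (fun z => -(K (Phi z) - ph z)) (-(ph y * (K' (Phi y) + y))) y := by
    intro y
    have h2 := (((hd _ (Phi_mem y)).comp y (Phi_deriv y)).sub (ph_deriv y)).neg
    refine h2.congr_deriv ?_
    ring
  have hF2 : HasDerivAt (fun y => -(ph y * (K' (Phi y) + y)))
      (-(-z0 * ph z0 * (K' (Phi z0) + z0) + ph z0 * (K'' (Phi z0) * ph z0 + 1))) z0 := by
    exact ((ph_deriv z0).mul
      (((hd2 _ (Phi_mem z0)).comp z0 (Phi_deriv z0)).add (hasDerivAt_id z0))).neg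
  have hloc : IsLocalMin (fun z => -(K (Phi z) - ph z)) z0 := Eventually.of_forall hmin
  have hz1 : -(ph z0 * (K' (Phi z0) + z0)) = 0 := hloc.hasDerivAt_eq_zero (hF1 z0)
  have hp := ph_pos z0
  have hz2 : K' (Phi z0) + z0 = 0 := by
    rcases mul_eq_zero.1 (neg_eq_zero.1 hz1) with h | h
    · exact absurd h hp.ne'
    · exact h
  have hsec : 0 ≤ -(-z0 * ph z0 * (K' (Phi z0) + z0) + ph z0 * (K'' (Phi z0) * ph z0 + 1)) := by
    have h3 := (HasSide.of_hasDerivAt hF2.neg).nonpos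
      (f := fun z => -(-(K (Phi z) - ph z))) (Eventually.of_forall fun y => (hF1 y).neg) hloc.neg
    linarith [h3.2]
  rw [hz2, mul_zero, zero_add] at hsec
  have h4 : K'' (Phi z0) * ph z0 + 1 ≤ 0 := by
    by_contra hc
    push Not at hc
    have := mul_pos hp hc
    linarith
  have h5 := hm _ (Phi_mem z0)
  have h6 : ph z0 < K (Phi z0) := by linarith
  have h7 : K'' (Phi z0) < 0 := by
    by_contra hc
    push Not at hc
    have := mul_nonneg hc hp.le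
    linarith
  have h8 : K'' (Phi z0) * (K (Phi z0) - ph z0) < 0 :=
    mul_neg_of_neg_of_pos h7 (by linarith)
  nlinarith

theorem ph_le_Kp (z : ℝ) : ph z ≤ Kp (Phi z) :=
  ph_le_of Kp_cont (by simp [Kp, qq]) (by simp [Kp, qq]) (fun _ hv => Kp_deriv hv)
    (fun _ hv => Kp1_deriv hv) (fun _ hv => Kp2_neg hv) (fun _ hv => Kp_mul hv) z

theorem Km_le_ph (z : ℝ) : Km (Phi z) ≤ ph z :=
  le_ph_of Km_cont (by simp [Km]) (by simp [Km]) (fun _ hv => Km_deriv hv)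
    (fun _ hv => Km1_deriv hv) (fun _ hv => Km_mul_gt hv) z

/-! ### the bands -/

lemma g_deriv {t : ℝ} (h2 : 0 < 1 - t) :
    HasDerivAt (fun t : ℝ => (√(1 - t))⁻¹) ((√(1 - t))⁻¹ ^ 3 / 2) t := by
  have hs := Real.sqrt_pos.2 h2
  have h3 : HasDerivAt (fun t : ℝ => 1 - t) (-1) t := by
    simpa using (hasDerivAt_id t).const_sub 1
  have h4 := (h3.sqrt h2.ne').inv hs.ne'
  refine h4.congr_deriv ?_
  field_simp

lemma g_cont {t : ℝ} (h2 : 0 < 1 - t) : ContinuousAt (fun t : ℝ => (√(1 - t))⁻¹) t :=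
  (g_deriv h2).continuousAt

/-- `b ≤ g²` -/
lemma b_le_g {t b : ℝ} (h2 : 0 < 1 - t) (h : (1 - t) * b ≤ 1) : b ≤ (√(1 - t))⁻¹ ^ 2 := by
  rw [inv_pow, Real.sq_sqrt h2.le]
  rw [mul_comm] at h
  rw [← one_div, le_div_iff₀ h2]
  exact h

/-- **upper band** (old clock, all `0 ≤ ν ≤ 1`) -/
theorem band_up (A : SD) (hB : Back A) (h : ∀ t ∈ Ico 0 A.T, (1 - t) * A.b t ≤ 1) :
    ∀ t ∈ Icc 0 A.T, ∀ x, A.P t x ≤ (√(1 - t))⁻¹ * Kp (A.V t x) := by
  obtain ⟨M, hS⟩ := hB.bsys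
  have hT1 := A.hT1
  have hpos : ∀ t ∈ Icc 0 A.T, 0 < 1 - t := fun t ht => by linarith [ht.2]
  refine hS.slope_le (g := fun t => (√(1 - t))⁻¹) (g' := fun t => (√(1 - t))⁻¹ ^ 3 / 2)
    (K := Kp) (K' := Kp1) (K'' := Kp2)
    (fun t ht => (g_deriv (hpos t ⟨ht.1, ht.2.le⟩)).hasDerivWithinAt)
    (fun t ht => (g_cont (hpos t ht)).continuousWithinAt)
    (fun t ht => by have := hpos t ht; positivity) Kp_cont.continuousOn (fun v hv => Kp_nonneg v)
    (fun v hv => Kp_deriv hv) (fun v hv => HasSide.of_hasDerivAt (Kp1_deriv hv))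
    (fun v hv => (Kp2_neg hv).le) (fun t ht v hv => ?_) (fun x => ?_)
  · have htI : t ∈ Icc 0 A.T := ⟨ht.1, ht.2.le⟩
    have h2 := hpos t htI
    have hs := Real.sqrt_pos.2 h2
    have hb := b_le_g h2 (h t ht)
    have hb0 := hS.b_nonneg t htI
    set g := (√(1 - t))⁻¹ with hg
    have hgp : 0 < g := inv_pos.2 hs
    have hq := qq_pos hv
    have hq4 := qq_four' hv
    set q := qq v with hqd
    have hE : g ^ 3 / 2 * Kp v + g ^ 3 * (Kp v ^ 2 * Kp2 v) / 2 +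
        A.b t * g * (v * (1 - v) * Kp1 v - (2 - 3 * v) * Kp v) =
        g * q * (g ^ 2 * (3 / 5 * q ^ 2 - 81 / 500 * (1 + 4 * q ^ 4)) +
          A.b t * (q ^ 2 * (9 / 5 * v - 3 / 2))) := by
      rw [← hq4]
      unfold Kp Kp1 Kp2
      rw [← hqd]
      field_simp
      ring
    rw [hE]
    apply mul_nonpos_of_nonneg_of_nonpos (by positivity)
    have hr : 0 < q ^ 2 := by positivity
    have hg2 : 0 < g ^ 2 := by positivity
    have e4 : q ^ 4 = (q ^ 2) ^ 2 := by ring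
    set r := q ^ 2 with hrd
    rw [e4] at hq4 ⊢
    rcases le_total (9 / 5 * v - 3 / 2) 0 with hc | hc
    · have h3 : A.b t * (r * (9 / 5 * v - 3 / 2)) ≤ 0 :=
        mul_nonpos_of_nonneg_of_nonpos hb0 (mul_nonpos_of_nonneg_of_nonpos hr.le hc)
      have h4 : 3 / 5 * r - 81 / 500 * (1 + 4 * r ^ 2) ≤ 0 := by
        nlinarith [sq_nonneg (r - 1 / 2), sq_nonneg (r - 25 / 54)]
      have h5 := mul_nonpos_of_nonneg_of_nonpos hg2.le h4
      linarith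
    · have h3 : A.b t * (r * (9 / 5 * v - 3 / 2)) ≤ g ^ 2 * (r * (9 / 5 * v - 3 / 2)) :=
        mul_le_mul_of_nonneg_right hb (mul_nonneg hr.le hc)
      have h4 : 3 / 5 * r - 81 / 500 * (1 + 4 * r ^ 2) + r * (9 / 5 * v - 3 / 2) ≤ 0 := by
        have h5 : (2 * v - 1) ^ 2 = 1 - 4 * r ^ 2 := by rw [hq4]; ring
        nlinarith [sq_nonneg ((2 * v - 1) - 25 / 9 * r), sq_nonneg r]
      have h5 := mul_nonpos_of_nonneg_of_nonpos hg2.le h4
      nlinarith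
  · have hx := hB.P_T x
    have hxv := hB.V_T x
    have hd := A.dl_pos
    have e1 : A.dl = 1 - A.T := rfl
    rw [hx, hxv]
    have e2 : (gaussianReal 0 1).real (Iic (x / √A.dl)) = Phi (x / √A.dl) := rfl
    rw [e2, ← e1, div_eq_inv_mul]
    exact mul_le_mul_of_nonneg_left (ph_le_Kp _) (by positivity)

/-- **lower band** (old clock, all `0 ≤ ν ≤ 1`) -/
theorem band_lo (A : SD) (hB : Back A) (h : ∀ t ∈ Ico 0 A.T, (1 - t) * A.b t ≤ 1) :
    ∀ t ∈ Icc 0 A.T, ∀ x, (√(1 - t))⁻¹ * Km (A.V t x) ≤ A.P t x := by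
  obtain ⟨M, hS⟩ := hB.bsys
  have hT1 := A.hT1
  have hpos : ∀ t ∈ Icc 0 A.T, 0 < 1 - t := fun t ht => by linarith [ht.2]
  refine le_slope_v hS (g := fun t => (√(1 - t))⁻¹) (g' := fun t => (√(1 - t))⁻¹ ^ 3 / 2)
    (K := Km) (K' := Km1) (K'' := Km2) (G := (√(1 - A.T))⁻¹) (KM := 5 / 4) (κ2 := 75 / 64)
    (fun t ht => (g_deriv (hpos t ⟨ht.1, ht.2.le⟩)).hasDerivWithinAt)
    (fun t ht => (g_cont (hpos t ht)).continuousWithinAt)
    (fun t ht => by have := hpos t ht; positivity)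
    (fun t ht => ?_) Km_cont.continuousOn (fun v hv => (Km_pos hv).le) (fun v hv => ?_)
    (fun v hv => TouchBelow.of_Ioo (fun y hy => Km_deriv hy)
      (fun y hy => HasSide.of_hasDerivAt (Km1_deriv hy)) hv) (by norm_num)
    (fun v hv => ?_) (fun t ht v hv => ?_) (fun x => ?_)
  · have h2 : 0 < 1 - A.T := by linarith
    apply inv_anti₀ (Real.sqrt_pos.2 h2)
    exact Real.sqrt_le_sqrt (by linarith [ht.2])
  · have h1 : √v ≤ 1 := Real.sqrt_le_one.2 hv.2.le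
    have h2 := sv_pos hv
    have h3 : √v ^ 3 ≤ 1 := pow_le_one₀ h2.le h1
    have h4 : 0 < √v ^ 3 := by positivity
    unfold Km
    nlinarith [hv.1, hv.2]
  · rw [Km_mul hv]
    have h1 := hv.1
    have h2 : 0 < 1 - v := by linarith [hv.2]
    have h3 : v * (1 - v) * (1 - 5 * v) ≤ 1 := by nlinarith [mul_pos h1 h2, mul_pos (mul_pos h1 h2) h1]
    linarith
  · have htI : t ∈ Icc 0 A.T := ⟨ht.1, ht.2.le⟩
    have h2 := hpos t htI
    have hs := Real.sqrt_pos.2 h2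
    have hb := b_le_g h2 (h t ht)
    have hb0 := hS.b_nonneg t htI
    set g := (√(1 - t))⁻¹ with hg
    have hgp : 0 < g := inv_pos.2 hs
    have ha := sv_pos hv
    have ha2 : √v ^ 2 = v := Real.sq_sqrt hv.1.le
    set a := √v with had
    have hE : g ^ 3 / 2 * Km v + g ^ 3 * (Km v ^ 2 * Km2 v) / 2 +
        A.b t * g * (v * (1 - v) * Km1 v - (2 - 3 * v) * Km v) =
        5 / 8 * g * a ^ 3 * (1 - v) * (g ^ 2 * (1 + 75 / 64 * (v * (1 - v) * (1 - 5 * v))) -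
          A.b t * (1 - v)) := by
      unfold Km Km1 Km2
      rw [← had]
      rw [← ha2]
      field_simp
      ring
    rw [hE]
    have h1v : 0 < 1 - v := by linarith [hv.2]
    apply mul_nonneg (by positivity)
    have h3 : A.b t * (1 - v) ≤ g ^ 2 * (1 - v) := mul_le_mul_of_nonneg_right hb h1v.le
    have h4 : 0 ≤ v + 75 / 64 * (v * (1 - v) * (1 - 5 * v)) := by
      have h5 : -(4 / 5) ≤ (1 - v) * (1 - 5 * v) := by nlinarith [sq_nonneg (v - 3 / 5)]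
      nlinarith [hv.1]
    have h5 : 0 ≤ g ^ 2 * (v + 75 / 64 * (v * (1 - v) * (1 - 5 * v))) :=
      mul_nonneg (sq_nonneg g) h4
    nlinarith
  · have hx := hB.P_T x
    have hxv := hB.V_T x
    have hd := A.dl_pos
    have e1 : A.dl = 1 - A.T := rfl
    rw [hx, hxv]
    have e2 : (gaussianReal 0 1).real (Iic (x / √A.dl)) = Phi (x / √A.dl) := rfl
    rw [e2, ← e1]
    have h5 : (√A.dl)⁻¹ * Km (Phi (x / √A.dl)) ≤ (√A.dl)⁻¹ * ph (x / √A.dl) :=
      mul_le_mul_of_nonneg_left (Km_le_ph _) (by positivity)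
    refine h5.trans (le_of_eq ?_)
    rw [mul_comm, ← div_eq_mul_inv]

end

end Crest.Agent.R146.NgBand_87
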