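import Crest.Agent.R146.StepDef_791

/-!
Row 146, PT, no-gap lemma (helper649): the `x`-space layer of the Hamilton-Jacobi certificate.

At a fixed time, `I = P_x² + 6b(1-2V)P² + 6b²V²(1-V)²` and, for a Hamilton-Jacobi subsolution
`G(v,k)`: `G_v + G_k²/(4k) ≤ (6-12v)k + 6(v(1-v))²/k`, the function `g = b^{3/2} G(V, P/√b)` satisfies
`g' ≤ I` along `x`.  Consequence for a law `p` with `p' = -Yp`:
`∫ p I ≥ q(x2) φ - p(x0) η - 6b(1-e^{-d}) ∫_{x0}^{x2} p P² - 6b ∫_{x > x2} p P²`.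
-/

set_option autoImplicit false

namespace Crest.Agent.R146.NoGapX_649

open MeasureTheory Set
open scoped Interval

noncomputable section

/-! ### The Hamilton-Jacobi step -/

/-- the integrand of the no-gap functional -/
def II (b : ℝ) (V P Px : ℝ → ℝ) (x : ℝ) : ℝ :=
  Px x ^ 2 + 6 * b * (1 - 2 * V x) * P x ^ 2 + 6 * b ^ 2 * V x ^ 2 * (1 - V x) ^ 2

theorem II_continuous {b : ℝ} {V P Px : ℝ → ℝ} (hV : Continuous V) (hP : Continuous P)
    (hPx : Continuous Px) : Continuous (II b V P Px) := by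
  unfold II
  fun_prop

theorem II_nonneg {b : ℝ} {V P Px : ℝ → ℝ} (hb : 0 ≤ b) {x : ℝ} (h : V x ≤ 1 / 2) :
    0 ≤ II b V P Px x := by
  unfold II
  have h1 : 0 ≤ 1 - 2 * V x := by linarith
  positivity

theorem neg_le_II {b : ℝ} {V P Px : ℝ → ℝ} (hb : 0 ≤ b) {x : ℝ} (h : V x ≤ 1) :
    -(6 * b * P x ^ 2) ≤ II b V P Px x := by
  unfold II
  have h1 : 0 ≤ 6 * b * (2 - 2 * V x) * P x ^ 2 := by
    have : 0 ≤ 2 - 2 * V x := by linarith
    positivity
  have h2 : 0 ≤ 6 * b ^ 2 * V x ^ 2 * (1 - V x) ^ 2 := by positivity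
  nlinarith [sq_nonneg (Px x)]

/-- `G` has the partial derivatives `Gv, Gk` on `S`, in the form of the chain rule. -/
def Chain (S : Set (ℝ × ℝ)) (G Gv Gk : ℝ → ℝ → ℝ) : Prop :=
  ∀ (α β : ℝ → ℝ) (α' β' x : ℝ), (α x, β x) ∈ S → HasDerivAt α α' x → HasDerivAt β β' x →
    HasDerivAt (fun y => G (α y) (β y)) (Gv (α x) (β x) * α' + Gk (α x) (β x) * β') x

theorem Chain.of_fderiv {S : Set (ℝ × ℝ)} {G Gv Gk : ℝ → ℝ → ℝ}
    (h : ∀ q ∈ S, HasFDerivAt (fun q : ℝ × ℝ => G q.1 q.2)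
      (Gv q.1 q.2 • ContinuousLinearMap.fst ℝ ℝ ℝ + Gk q.1 q.2 • ContinuousLinearMap.snd ℝ ℝ ℝ) q) :
    Chain S G Gv Gk := by
  intro α β α' β' x hx hα hβ
  have h1 := h (α x, β x) hx
  have h2 := h1.comp_hasDerivAt x (hα.prodMk hβ)
  have e : (Gv (α x) (β x) • ContinuousLinearMap.fst ℝ ℝ ℝ +
      Gk (α x) (β x) • ContinuousLinearMap.snd ℝ ℝ ℝ) (α', β') =
      Gv (α x) (β x) * α' + Gk (α x) (β x) * β' := by simp
  have h3 : HasDerivAt (fun y => G (α y) (β y)) ((Gv (α x) (β x) •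
      ContinuousLinearMap.fst ℝ ℝ ℝ + Gk (α x) (β x) • ContinuousLinearMap.snd ℝ ℝ ℝ) (α', β')) x :=
    h2
  rwa [e] at h3

/-- the Hamilton-Jacobi inequality on `S` -/
def HJ (S : Set (ℝ × ℝ)) (Gv Gk : ℝ → ℝ → ℝ) : Prop :=
  ∀ v k : ℝ, (v, k) ∈ S → 0 < k →
    Gv v k + Gk v k ^ 2 / (4 * k) ≤ (6 - 12 * v) * k + 6 * (v * (1 - v)) ^ 2 / k

/-- the curve function -/
def gg (b : ℝ) (G : ℝ → ℝ → ℝ) (V P : ℝ → ℝ) (x : ℝ) : ℝ :=
  Real.sqrt b ^ 3 * G (V x) (P x / Real.sqrt b)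

theorem hj_deriv {S : Set (ℝ × ℝ)} {G Gv Gk : ℝ → ℝ → ℝ} (hc : Chain S G Gv Gk)
    (hj : HJ S Gv Gk) {b : ℝ} (hb : 0 < b) {V P Px : ℝ → ℝ} {x : ℝ}
    (hV : HasDerivAt V (P x) x) (hP : HasDerivAt P (Px x) x) (hPp : 0 < P x)
    (hS : (V x, P x / Real.sqrt b) ∈ S) :
    ∃ g' : ℝ, HasDerivAt (gg b G V P) g' x ∧ g' ≤ II b V P Px x := by
  set r := Real.sqrt b with hr
  have hr0 : 0 < r := Real.sqrt_pos.2 hb
  have hrb : r ^ 2 = b := Real.sq_sqrt hb.le
  set k := P x / r with hk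
  have hk0 : 0 < k := div_pos hPp hr0
  have hPk : P x = r * k := by rw [hk]; field_simp
  have h1 := hc V (fun y => P y / r) (P x) (Px x / r) x hS hV (hP.div_const r)
  refine ⟨r ^ 3 * (Gv (V x) k * P x + Gk (V x) k * (Px x / r)), h1.const_mul _, ?_⟩
  have h2 := hj (V x) k hS hk0
  set v := V x with hv
  set a := Gv v k with ha
  set c := Gk v k with hc'
  have h3 : (a + c ^ 2 / (4 * k)) * k ≤ ((6 - 12 * v) * k + 6 * (v * (1 - v)) ^ 2 / k) * k :=
    mul_le_mul_of_nonneg_right h2 hk0.le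
  have e1 : (a + c ^ 2 / (4 * k)) * k = a * k + c ^ 2 / 4 := by field_simp
  have e2 : ((6 - 12 * v) * k + 6 * (v * (1 - v)) ^ 2 / k) * k =
      (6 - 12 * v) * k ^ 2 + 6 * (v * (1 - v)) ^ 2 := by field_simp
  rw [e1, e2] at h3
  have e3 : r ^ 3 * (a * P x + c * (Px x / r)) = r ^ 4 * (a * k) + r ^ 2 * c * Px x := by
    rw [hPk]
    field_simp
  rw [e3]
  unfold II
  rw [← hv, hPk, ← hrb]
  have h4 : 0 ≤ r ^ 4 := by positivity
  have h5 := mul_le_mul_of_nonneg_left h3 h4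
  have h6 := sq_nonneg (Px x - r ^ 2 * c / 2)
  nlinarith [h5, h6]

/-- (i) integrated form on an interval where the curve stays in `S`. -/
theorem hj_int {S : Set (ℝ × ℝ)} {G Gv Gk : ℝ → ℝ → ℝ} (hc : Chain S G Gv Gk)
    (hj : HJ S Gv Gk) {b : ℝ} (hb : 0 < b) {V P Px : ℝ → ℝ} {x y : ℝ} (hxy : x ≤ y)
    (hV : ∀ z, HasDerivAt V (P z) z) (hP : ∀ z, HasDerivAt P (Px z) z)
    (hPx : Continuous Px) (hPp : ∀ z, 0 < P z)
    (hS : ∀ z ∈ Icc x y, (V z, P z / Real.sqrt b) ∈ S) :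
    gg b G V P y - gg b G V P x ≤ ∫ z in x..y, II b V P Px z := by
  have hVc : Continuous V := continuous_iff_continuousAt.2 fun z => (hV z).continuousAt
  have hPc : Continuous P := continuous_iff_continuousAt.2 fun z => (hP z).continuousAt
  have hd : ∀ z ∈ Icc x y, ∃ g' : ℝ, HasDerivAt (gg b G V P) g' z ∧ g' ≤ II b V P Px z :=
    fun z hz => hj_deriv hc hj hb (hV z) (hP z) (hPp z) (hS z hz)
  choose! g' hg' hle using hd
  refine intervalIntegral.sub_le_integral_of_hasDeriv_right_of_le hxy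
    (fun z hz => (hg' z hz).continuousAt.continuousWithinAt)
    (fun z hz => (hg' z ⟨hz.1.le, hz.2.le⟩).hasDerivWithinAt) ?_
    (fun z hz => hle z ⟨hz.1.le, hz.2.le⟩)
  exact (II_continuous hVc hPc hPx).continuousOn.integrableOn_Icc

/-- (ii) downward jumps: glueing two pieces at `c`. -/
theorem glue {I g1 g2 : ℝ → ℝ} (hI : Continuous I) {x c y : ℝ}
    (h1 : g1 c - g1 x ≤ ∫ z in x..c, I z) (h2 : g2 y - g2 c ≤ ∫ z in c..y, I z)
    (hj : g2 c ≤ g1 c) : g2 y - g1 x ≤ ∫ z in x..y, I z := by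
  rw [← intervalIntegral.integral_add_adjacent_intervals (hI.intervalIntegrable x c)
    (hI.intervalIntegrable c y)]
  linarith

/-! ### From the partial integrals to the law -/

section law

variable {I p Y : ℝ → ℝ}

/-- negative part of `Y` -/
def Yn (Y : ℝ → ℝ) (x : ℝ) : ℝ := max (-Y x) 0

theorem Yn_continuous (hY : Continuous Y) : Continuous (Yn Y) := by
  unfold Yn
  fun_prop

theorem Yn_nonneg (x : ℝ) : 0 ≤ Yn Y x := le_max_right _ _

/-- the nonincreasing modification of `p` on `[x0, ∞)` -/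
def ph (p Y : ℝ → ℝ) (x0 x : ℝ) : ℝ := p x * Real.exp (-∫ z in x0..x, Yn Y z)

theorem ph_deriv (hY : Continuous Y) (hp : ∀ x, HasDerivAt p (-Y x * p x) x) (x0 x : ℝ) :
    HasDerivAt (ph p Y x0) (-(max (Y x) 0 * ph p Y x0 x)) x := by
  have h1 : HasDerivAt (fun y => ∫ z in x0..y, Yn Y z) (Yn Y x) x :=
    intervalIntegral.integral_hasDerivAt_right ((Yn_continuous hY).intervalIntegrable _ _)
      ((Yn_continuous hY).stronglyMeasurableAtFilter _ _) (Yn_continuous hY).continuousAt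
  have h2 : HasDerivAt (ph p Y x0) (-Y x * p x * Real.exp (-∫ z in x0..x, Yn Y z) +
      p x * (Real.exp (-∫ z in x0..x, Yn Y z) * -Yn Y x)) x := (hp x).mul (h1.neg.exp)
  refine h2.congr_deriv ?_
  unfold ph
  have h3 : max (Y x) 0 = Y x + Yn Y x := by
    unfold Yn
    rcases le_total (Y x) 0 with h | h
    · rw [max_eq_right h, max_eq_left (by linarith)]; ring
    · rw [max_eq_left h, max_eq_right (by linarith)]; ring
  rw [h3]
  ring

theorem ph_pos (hpp : ∀ x, 0 < p x) (x0 x : ℝ) : 0 < ph p Y x0 x :=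
  mul_pos (hpp x) (Real.exp_pos _)

theorem ph_self (x0 : ℝ) : ph p Y x0 x0 = p x0 := by
  unfold ph
  simp

theorem ph_le (hpp : ∀ x, 0 < p x) {x0 x : ℝ} (h : x0 ≤ x) :
    ph p Y x0 x ≤ p x := by
  unfold ph
  have h1 : 0 ≤ ∫ z in x0..x, Yn Y z := intervalIntegral.integral_nonneg h fun z _ => Yn_nonneg z
  have h2 : Real.exp (-∫ z in x0..x, Yn Y z) ≤ 1 := Real.exp_le_one_iff.2 (by linarith)
  have := mul_le_mul_of_nonneg_left h2 (hpp x).le
  linarith

theorem le_ph (hY : Continuous Y) (hpp : ∀ x, 0 < p x) {x0 x x2 d : ℝ} (h' : x ≤ x2)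
    (hd : ∫ z in x0..x2, Yn Y z ≤ d) : p x * Real.exp (-d) ≤ ph p Y x0 x := by
  unfold ph
  refine mul_le_mul_of_nonneg_left (Real.exp_le_exp.2 ?_) (hpp x).le
  have h1 : ∫ z in x0..x, Yn Y z ≤ ∫ z in x0..x2, Yn Y z := by
    rw [← intervalIntegral.integral_add_adjacent_intervals
      ((Yn_continuous hY).intervalIntegrable x0 x) ((Yn_continuous hY).intervalIntegrable x x2)]
    have : 0 ≤ ∫ z in x..x2, Yn Y z :=
      intervalIntegral.integral_nonneg h' fun z _ => Yn_nonneg (Y := Y) z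
    linarith
  linarith

/-- summation by parts against the nonincreasing modification. -/
theorem by_parts (hI : Continuous I) (hY : Continuous Y)
    (hp : ∀ x, HasDerivAt p (-Y x * p x) x) (hpp : ∀ x, 0 < p x) {x0 x2 η φ : ℝ} (h02 : x0 ≤ x2)
    (h1 : ∀ x ∈ Icc x0 x2, -η ≤ ∫ z in x0..x, I z) (h2 : φ - η ≤ ∫ z in x0..x2, I z) :
    ph p Y x0 x2 * φ - p x0 * η ≤ ∫ x in x0..x2, ph p Y x0 x * I x := by
  set F : ℝ → ℝ := fun x => ∫ z in x0..x, I z with hF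
  have hFd : ∀ x, HasDerivAt F (I x) x := fun x =>
    intervalIntegral.integral_hasDerivAt_right (hI.intervalIntegrable _ _)
      (hI.stronglyMeasurableAtFilter _ _) hI.continuousAt
  have hFc : Continuous F := continuous_iff_continuousAt.2 fun x => (hFd x).continuousAt
  have hqd := ph_deriv hY hp x0
  have hqc : Continuous (ph p Y x0) := continuous_iff_continuousAt.2 fun x => (hqd x).continuousAt
  have hqc' : Continuous fun x => -(max (Y x) 0 * ph p Y x0 x) := by fun_prop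
  have e1 := intervalIntegral.integral_mul_deriv_eq_deriv_mul (a := x0) (b := x2)
    (fun x _ => hqd x) (fun x _ => hFd x) (hqc'.intervalIntegrable _ _)
    (hI.intervalIntegrable _ _)
  have hF0 : F x0 = 0 := by simp [hF]
  rw [hF0, mul_zero, sub_zero] at e1
  rw [e1]
  have h3 : ∫ x in x0..x2, -(max (Y x) 0 * ph p Y x0 x) * F x ≤
      ∫ x in x0..x2, (max (Y x) 0 * ph p Y x0 x) * η := by
    refine intervalIntegral.integral_mono_on h02 ((hqc'.mul hFc).intervalIntegrable _ _) ?_ ?_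
    · exact Continuous.intervalIntegrable (by fun_prop) _ _
    · intro x hx
      have h4 : 0 ≤ max (Y x) 0 * ph p Y x0 x :=
        mul_nonneg (le_max_right _ _) (ph_pos hpp x0 x).le
      have h5 := mul_le_mul_of_nonneg_left (h1 x hx) h4
      have h6 : ∫ z in x0..x, I z = F x := rfl
      rw [h6] at h5
      linarith
  have h4 : ∫ x in x0..x2, (max (Y x) 0 * ph p Y x0 x) * η =
      (p x0 - ph p Y x0 x2) * η := by
    rw [intervalIntegral.integral_mul_const]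
    congr 1
    have h5 := intervalIntegral.integral_eq_sub_of_hasDerivAt (a := x0) (b := x2)
      (fun x _ => hqd x) (hqc'.intervalIntegrable _ _)
    rw [intervalIntegral.integral_neg, ph_self] at h5
    linarith
  have h7 : ph p Y x0 x2 * (φ - η) ≤ ph p Y x0 x2 * F x2 :=
    mul_le_mul_of_nonneg_left h2 (ph_pos hpp x0 x2).le
  rw [h4] at h3
  nlinarith [h3, h7]

/-- **(iii)** lower bound of the weighted integral of `I`. -/
theorem int_ge (hI : Continuous I) (hY : Continuous Y)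
    (hp : ∀ x, HasDerivAt p (-Y x * p x) x) (hpp : ∀ x, 0 < p x) {x0 x2 η φ d : ℝ}
    (h02 : x0 ≤ x2) (h1 : ∀ x ∈ Icc x0 x2, -η ≤ ∫ z in x0..x, I z)
    (h2 : φ - η ≤ ∫ z in x0..x2, I z) (hφ : 0 ≤ φ) {Nf : ℝ → ℝ} (hNc : Continuous Nf)
    (hN0 : ∀ x, 0 ≤ Nf x) (hN : ∀ x, -Nf x ≤ I x) (hI0 : ∀ x ≤ x0, 0 ≤ I x)
    (hd : ∫ z in x0..x2, Yn Y z ≤ d)
    (hpI : Integrable fun x => p x * I x) (hpN : Integrable fun x => p x * Nf x) :
    p x2 * Real.exp (-d) * φ - p x0 * η - (1 - Real.exp (-d)) * (∫ x in x0..x2, p x * Nf x) -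
      (∫ x in Ioi x2, p x * Nf x) ≤ ∫ x, p x * I x := by
  have hpc : Continuous p := continuous_iff_continuousAt.2 fun x => (hp x).continuousAt
  have hqc : Continuous (ph p Y x0) :=
    continuous_iff_continuousAt.2 fun x => (ph_deriv hY hp x0 x).continuousAt
  -- splitting
  have s1 : ∫ x, p x * I x = (∫ x in Iic x0, p x * I x) + ∫ x in Ioi x0, p x * I x :=
    (intervalIntegral.integral_Iic_add_Ioi hpI.integrableOn hpI.integrableOn).symm
  have s2 : ∫ x in Ioi x0, p x * I x = (∫ x in x0..x2, p x * I x) + ∫ x in Ioi x2, p x * I x := by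
    rw [intervalIntegral.integral_of_le h02, ← setIntegral_union (Ioc_disjoint_Ioi le_rfl)
      measurableSet_Ioi hpI.integrableOn hpI.integrableOn, Ioc_union_Ioi_eq_Ioi h02]
  have s3 : 0 ≤ ∫ x in Iic x0, p x * I x :=
    setIntegral_nonneg measurableSet_Iic fun x hx => mul_nonneg (hpp x).le (hI0 x hx)
  have s4 : -∫ x in Ioi x2, p x * Nf x ≤ ∫ x in Ioi x2, p x * I x := by
    rw [← integral_neg]
    refine setIntegral_mono_on hpN.neg.integrableOn hpI.integrableOn measurableSet_Ioi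
      fun x _ => ?_
    have := mul_le_mul_of_nonneg_left (hN x) (hpp x).le
    linarith
  have s5 := by_parts hI hY hp hpp h02 h1 h2
  have s6 : (∫ x in x0..x2, ph p Y x0 x * I x) - (1 - Real.exp (-d)) * ∫ x in x0..x2, p x * Nf x ≤
      ∫ x in x0..x2, p x * I x := by
    have c1 : Continuous fun x => ph p Y x0 x * I x := hqc.mul hI
    have c2 : Continuous fun x => (1 - Real.exp (-d)) * (p x * Nf x) :=
      continuous_const.mul (hpc.mul hNc)
    have c3 : Continuous fun x => p x * I x := hpc.mul hI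
    rw [← intervalIntegral.integral_const_mul, ← intervalIntegral.integral_sub
      (c1.intervalIntegrable _ _) (c2.intervalIntegrable _ _)]
    refine intervalIntegral.integral_mono_on h02 ((c1.sub c2).intervalIntegrable _ _)
      (c3.intervalIntegrable _ _) fun x hx => ?_
    have t1 := le_ph hY hpp hx.2 hd
    have t2 := ph_le (Y := Y) hpp hx.1
    have t3 := mul_le_mul_of_nonneg_left (hN x) (sub_nonneg.2 t2)
    have t4 : (p x - ph p Y x0 x) * Nf x ≤ (p x * (1 - Real.exp (-d))) * Nf x :=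
      mul_le_mul_of_nonneg_right (by linarith) (hN0 x)
    nlinarith [t3, t4]
  have s7 : p x2 * Real.exp (-d) * φ ≤ ph p Y x0 x2 * φ :=
    mul_le_mul_of_nonneg_right (le_ph hY hpp le_rfl hd) hφ
  rw [s1, s2]
  linarith

end law

/-! ### The step system -/

open Crest.Agent.R146.StepDef_791 Crest.Agent.R146.MaxPCmp_371 Crest.Agent.R146.MaxPCmp2_371

section step

variable {A : SD} {x0 : ℝ} {p Y Yx Yxx : ℝ → ℝ → ℝ}

theorem Ls_eq {t : ℝ} (ht : 0 < t) :
    Ls A x0 p t = ∫ x, p t x * II (A.b t) (A.V t) (A.P t) (A.Px t) x := by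
  unfold Ls ex
  rw [if_neg (not_le.2 ht)]
  rfl

/-- continuity in `x` and the standard facts at a fixed time -/
theorem facts (hB : Back A) {t : ℝ} (ht : t ∈ Icc 0 A.T) :
    Continuous (A.V t) ∧ Continuous (A.P t) ∧ Continuous (A.Px t) := by
  refine ⟨continuous_iff_continuousAt.2 fun x => (hB.V_x t ht x).continuousAt,
    continuous_iff_continuousAt.2 fun x => (hB.P_x t ht x).continuousAt,
    continuous_iff_continuousAt.2 fun x => (hB.Px_x t ht x).continuousAt⟩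

theorem Y_continuous (hL : Law A x0 p Y Yx Yxx) {t : ℝ} (ht : t ∈ Ioc 0 A.T) :
    Continuous (Y t) := by
  obtain ⟨M, hM⟩ := hL.ysys (t / 2) ⟨by linarith [ht.1], by linarith [ht.1, ht.2]⟩
  exact continuous_iff_continuousAt.2 fun x =>
    (hM.hYx t ⟨by linarith [ht.1], ht.2⟩ x).continuousAt

theorem integrable_p (hL : Law A x0 p Y Yx Yxx) {t : ℝ} (ht : t ∈ Ioc 0 A.T) {f : ℝ → ℝ}
    (hf : Continuous f) {C : ℝ} {n : ℕ} (hb : ∀ x, |f x| ≤ C * (1 + |x|) ^ n) :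
    Integrable fun x => p t x * f x := by
  obtain ⟨C', hC'⟩ := hL.mom n
  have h1 := (hC' t ht).1
  have hpc : Continuous (p t) :=
    continuous_iff_continuousAt.2 fun x => (hL.p_x t ht x).continuousAt
  refine (h1.const_mul C).mono' (hpc.mul hf).aestronglyMeasurable (ae_of_all _ fun x => ?_)
  rw [Real.norm_eq_abs, abs_mul, abs_of_pos (hL.p_pos t ht x)]
  have := mul_le_mul_of_nonneg_left (hb x) (hL.p_pos t ht x).le
  linarith

theorem II_growth (hB : Back A) : ∃ C : ℝ, ∃ n : ℕ, 0 ≤ C ∧ ∀ t ∈ Icc 0 A.T, ∀ x,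
    |II (A.b t) (A.V t) (A.P t) (A.Px t) x| ≤ C * (1 + |x|) ^ n ∧
      6 * A.b t * A.P t x ^ 2 ≤ C * (1 + |x|) ^ n := by
  obtain ⟨M, hM⟩ := hB.bsys
  obtain ⟨C, n, hC, hg⟩ := hB.growth
  set M1 := max M 0 with hM1
  have hM10 : 0 ≤ M1 := le_max_right _ _
  refine ⟨C ^ 2 + 6 * M1 * M1 ^ 2 + 6 * M1 ^ 2, 2 * n, by positivity, fun t ht x => ?_⟩
  have hb0 := hM.b_nonneg t ht
  have hb1 : A.b t ≤ M1 := (hM.b_le t ht).trans (le_max_left _ _)
  have hV0 := (hM.V_pos t ht x).le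
  have hV1 := (hM.V_lt t ht x).le
  have hP0 := hM.P_nonneg t ht x
  have hP1 : A.P t x ≤ M1 := (hM.P_le t ht x).trans (le_max_left _ _)
  have hx1 : (1 : ℝ) ≤ (1 + |x|) ^ (2 * n) := one_le_pow₀ (by linarith [abs_nonneg x])
  have hPx : A.Px t x ^ 2 ≤ C ^ 2 * (1 + |x|) ^ (2 * n) := by
    rw [pow_mul', ← mul_pow, ← sq_abs]
    exact pow_le_pow_left₀ (abs_nonneg _) (hg t ht x).2.1 2
  have hbP : A.b t * A.P t x ^ 2 ≤ M1 * M1 ^ 2 :=
    mul_le_mul hb1 (pow_le_pow_left₀ hP0 hP1 2) (sq_nonneg _) hM10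
  have hb2 : A.b t ^ 2 ≤ M1 ^ 2 := pow_le_pow_left₀ hb0 hb1 2
  have hVV : A.V t x ^ 2 * (1 - A.V t x) ^ 2 ≤ 1 := by
    have h1 : A.V t x ^ 2 ≤ 1 := pow_le_one₀ hV0 hV1
    have h2 : (1 - A.V t x) ^ 2 ≤ 1 := pow_le_one₀ (by linarith) (by linarith)
    exact mul_le_one₀ h1 (sq_nonneg _) h2
  have hT : A.b t ^ 2 * (A.V t x ^ 2 * (1 - A.V t x) ^ 2) ≤ M1 ^ 2 * 1 :=
    mul_le_mul hb2 hVV (by positivity) (by positivity)
  have hM13 : 0 ≤ M1 * M1 ^ 2 := by positivity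
  have hM12 : 0 ≤ M1 ^ 2 := by positivity
  have k1 : (6 * M1 * M1 ^ 2 + 6 * M1 ^ 2) ≤
      (6 * M1 * M1 ^ 2 + 6 * M1 ^ 2) * (1 + |x|) ^ (2 * n) :=
    le_mul_of_one_le_right (by positivity) hx1
  have k2 : 0 ≤ C ^ 2 * (1 + |x|) ^ (2 * n) := by positivity
  constructor
  · unfold II
    rw [abs_le]
    have hbP0 : 0 ≤ A.b t * A.P t x ^ 2 := by positivity
    have hmid1 : 6 * A.b t * (1 - 2 * A.V t x) * A.P t x ^ 2 ≤ 6 * (M1 * M1 ^ 2) := by
      have : (1 - 2 * A.V t x) * (A.b t * A.P t x ^ 2) ≤ 1 * (A.b t * A.P t x ^ 2) :=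
        mul_le_mul_of_nonneg_right (by linarith) hbP0
      nlinarith
    have hmid2 : -(6 * (M1 * M1 ^ 2)) ≤ 6 * A.b t * (1 - 2 * A.V t x) * A.P t x ^ 2 := by
      have : (-1) * (A.b t * A.P t x ^ 2) ≤ (1 - 2 * A.V t x) * (A.b t * A.P t x ^ 2) :=
        mul_le_mul_of_nonneg_right (by linarith) hbP0
      nlinarith
    have hlast : 0 ≤ A.b t ^ 2 * (A.V t x ^ 2 * (1 - A.V t x) ^ 2) := by positivity
    constructor
    · nlinarith [sq_nonneg (A.Px t x)]
    · nlinarith [hPx]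
  · nlinarith

/-- the Hamilton-Jacobi step for the step system -/
theorem hj_step {S : Set (ℝ × ℝ)} {G Gv Gk : ℝ → ℝ → ℝ} (hc : Chain S G Gv Gk)
    (hj : HJ S Gv Gk) (hB : Back A) {t : ℝ} (ht : t ∈ Icc 0 A.T) (hb : 0 < A.b t) {x y : ℝ}
    (hxy : x ≤ y) (hS : ∀ z ∈ Icc x y, (A.V t z, A.P t z / Real.sqrt (A.b t)) ∈ S) :
    gg (A.b t) G (A.V t) (A.P t) y - gg (A.b t) G (A.V t) (A.P t) x ≤
      ∫ z in x..y, II (A.b t) (A.V t) (A.P t) (A.Px t) z :=
  hj_int hc hj hb hxy (hB.V_x t ht) (hB.P_x t ht) (facts hB ht).2.2 (hB.P_pos t ht) hS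

/-- **No-gap functional, step system**: from partial integrals to `Ls`. -/
theorem Ls_ge (hB : Back A) (hL : Law A x0 p Y Yx Yxx) {t : ℝ} (ht : t ∈ Ioc 0 A.T)
    {xa xb η φ d : ℝ} (hab : xa ≤ xb) (hVa : A.V t xa ≤ 1 / 2)
    (h1 : ∀ x ∈ Icc xa xb, -η ≤ ∫ z in xa..x, II (A.b t) (A.V t) (A.P t) (A.Px t) z)
    (h2 : φ - η ≤ ∫ z in xa..xb, II (A.b t) (A.V t) (A.P t) (A.Px t) z) (hφ : 0 ≤ φ)
    (hd : ∫ z in xa..xb, Yn (Y t) z ≤ d) :
    p t xb * Real.exp (-d) * φ - p t xa * η -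
      (1 - Real.exp (-d)) * (∫ x in xa..xb, p t x * (6 * A.b t * A.P t x ^ 2)) -
      (∫ x in Ioi xb, p t x * (6 * A.b t * A.P t x ^ 2)) ≤ Ls A x0 p t := by
  have htI : t ∈ Icc 0 A.T := ⟨ht.1.le, ht.2⟩
  obtain ⟨M, hM⟩ := hB.bsys
  obtain ⟨hVc, hPc, hPxc⟩ := facts hB htI
  have hb0 := hM.b_nonneg t htI
  have hVmono : Monotone (A.V t) := by
    apply monotone_of_deriv_nonneg
    · intro x; exact (hB.V_x t htI x).differentiableAt
    · intro x; rw [(hB.V_x t htI x).deriv]; exact (hB.P_pos t htI x).le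
  obtain ⟨C, n, hC, hgr⟩ := II_growth hB
  have hYc := Y_continuous hL ht
  rw [Ls_eq ht.1]
  have hNc : Continuous fun x => 6 * A.b t * A.P t x ^ 2 := by fun_prop
  have hN0 : ∀ x, 0 ≤ 6 * A.b t * A.P t x ^ 2 := fun x => by positivity
  refine int_ge (II_continuous hVc hPc hPxc) hYc (fun x => hL.p_x t ht x) (hL.p_pos t ht)
    hab h1 h2 hφ hNc hN0 (fun x => neg_le_II hb0 (hM.V_lt t htI x).le)
    (fun x hx => II_nonneg hb0 ((hVmono hx).trans hVa)) hd ?_ ?_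
  · exact integrable_p hL ht (II_continuous hVc hPc hPxc) fun x => (hgr t htI x).1
  · refine integrable_p (C := C) (n := n) hL ht hNc fun x => ?_
    rw [abs_of_nonneg (hN0 x)]
    exact (hgr t htI x).2

end step

end

end Crest.Agent.R146.NoGapX_649
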