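import Crest.Agent.R146.NgBand_87
import Crest.Agent.R146.NoGapX_649

/-!
Row 146 (helper87), node N4 of NOGAP, part 2: the algebraic no-gap certificate.

At one time, `s > 0`, `0 ≤ b ≤ s²`, slope band `s K₋(V) ≤ P ≤ s K₊(V)` (`NgBand_87`):
if `V xa ≤ 1/1000`, `xa ≤ x`, `1/2 ≤ V x` then `∫_{xa}^x II ≥ s³/20000`.
-/

set_option autoImplicit false

namespace Crest.Agent.R146.NgCert_87

open MeasureTheory Set Filter Topology
open Crest.Agent.R146.NgBand_87 Crest.Agent.R146.NoGapX_649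

noncomputable section

/-! ### one-variable facts -/

lemma Kp_le {v : ℝ} (hv : v ∈ Ioo (0:ℝ) 1) : Kp v ≤ 7 / 5 * (v * (1 - v)) + 2 / 25 := by
  have h1 := qq_pos hv
  rw [← qq_four' hv]
  unfold Kp
  set q := qq v
  have h2 : 0 ≤ 7 / 5 * q ^ 2 + 3 / 5 * q + 27 / 140 := by positivity
  nlinarith [mul_nonneg (sq_nonneg (q - 9 / 14)) h2]

/-- `H` -/
def HH (v : ℝ) : ℝ :=
  752 / 125 * (v ^ 2 / 2 - v ^ 3 / 3) - 128 / 625 * v - 8 / 5 * √v ^ 3 + 24 / 25 * √v ^ 5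

/-- `H'` -/
def HH1 (v : ℝ) : ℝ := 752 / 125 * (v * (1 - v)) - 128 / 625 - 12 / 5 * √v * (1 - v)

lemma HH_deriv {v : ℝ} (hv : v ∈ Ioo (0:ℝ) 1) : HasDerivAt HH (HH1 v) v := by
  have h0 := sv_deriv hv
  have h1 : HasDerivAt (fun v : ℝ => 752 / 125 * (v ^ 2 / 2 - v ^ 3 / 3) - 128 / 625 * v)
      (752 / 125 * (v * (1 - v)) - 128 / 625) v := by
    have e2 := (hasDerivAt_pow 2 v).div_const 2
    have e3 := (hasDerivAt_pow 3 v).div_const 3
    have e4 := ((e2.sub e3).const_mul (752 / 125)).sub ((hasDerivAt_id v).const_mul (128 / 625))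
    refine e4.congr_deriv ?_
    norm_num
    ring
  have h3 : HasDerivAt (fun v : ℝ => 8 / 5 * √v ^ 3) (8 / 5 * (3 * √v ^ 2 * (1 / (2 * √v)))) v := by
    have := (h0.pow 3).const_mul (8 / 5)
    simpa using this
  have h5 : HasDerivAt (fun v : ℝ => 24 / 25 * √v ^ 5) (24 / 25 * (5 * √v ^ 4 * (1 / (2 * √v)))) v := by
    have := (h0.pow 5).const_mul (24 / 25)
    simpa using this
  refine ((h1.sub h3).add h5).congr_deriv ?_
  have h4 := (sv_pos hv).ne'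
  have h6 : √v ^ 2 = v := Real.sq_sqrt hv.1.le
  unfold HH1
  set a := √v with ha
  have e : 24 / 25 * (5 * a ^ 4 * (1 / (2 * a))) = 12 / 5 * a * a ^ 2 := by field_simp; ring
  have e' : 8 / 5 * (3 * a ^ 2 * (1 / (2 * a))) = 12 / 5 * a := by field_simp; ring
  rw [e, e', h6]
  ring

/-- the pointwise inequality -/
lemma key1 {v k : ℝ} (hv : v ∈ Ioo (0:ℝ) 1) (hk1 : Km v ≤ k) (hk2 : k ≤ Kp v) :
    0 ≤ -(3 * (v * (1 - v)) ^ 2) + 48 / 5 * (v * (1 - v)) * k - 64 / 25 * k ^ 2 - HH1 v * k := by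
  have hk0 : 0 < k := (Km_pos hv).trans_le hk1
  have h1 := Kp_le hv
  have ha := sv_pos hv
  have ha2 : √v ^ 2 = v := Real.sq_sqrt hv.1.le
  have h1v : 0 < 1 - v := by linarith [hv.2]
  have h2 : 3 * (v * (1 - v)) ^ 2 ≤ 12 / 5 * √v * (1 - v) * k := by
    have h3 : 12 / 5 * √v * (1 - v) * Km v ≤ 12 / 5 * √v * (1 - v) * k :=
      mul_le_mul_of_nonneg_left hk1 (by positivity)
    refine le_trans (le_of_eq ?_) h3
    unfold Km
    have e : 12 / 5 * √v * (1 - v) * (5 / 4 * √v ^ 3 * (1 - v)) = 3 * (√v ^ 2 * (1 - v)) ^ 2 := by ring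
    rw [e, ha2]
  have h4 : k * k ≤ (7 / 5 * (v * (1 - v)) + 2 / 25) * k :=
    mul_le_mul_of_nonneg_right (hk2.trans h1) hk0.le
  unfold HH1
  nlinarith

lemma hh_aux {a : ℝ} (h1 : 1 / 2 ≤ a ^ 2) (h2 : a ≤ 1) (h0 : 0 < a) :
    0 ≤ 752 / 125 * ((a ^ 2) ^ 2 / 2 - (a ^ 2) ^ 3 / 3) - 128 / 625 * a ^ 2 - 8 / 5 * a ^ 3
      + 24 / 25 * a ^ 5 := by
  have ha : 141 / 200 ≤ a := by nlinarith
  have hQ : 0 ≤ 752 / 375 * a ^ 2 + 2459 / 1000 * a - 23 / 100 := by nlinarith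
  have h3 : 0 ≤ (a - 141 / 200) * (1 - a) * (752 / 375 * a ^ 2 + 2459 / 1000 * a - 23 / 100) :=
    mul_nonneg (mul_nonneg (by linarith) (by linarith)) hQ
  have h4 : 0 ≤ -(752 / 375) * a ^ 4 + 24 / 25 * a ^ 3 + 376 / 125 * a ^ 2 - 8 / 5 * a - 128 / 625 := by
    nlinarith
  have h5 := mul_nonneg (sq_nonneg a) h4
  nlinarith

lemma HH_eq {v : ℝ} (hv : v ∈ Ioo (0:ℝ) 1) : HH v = 752 / 125 * ((√v ^ 2) ^ 2 / 2 - (√v ^ 2) ^ 3 / 3)
    - 128 / 625 * √v ^ 2 - 8 / 5 * √v ^ 3 + 24 / 25 * √v ^ 5 := by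
  have h6 : √v ^ 2 = v := Real.sq_sqrt hv.1.le
  unfold HH
  rw [h6]

lemma sv_le_one {v : ℝ} (hv : v ∈ Ioo (0:ℝ) 1) : √v ≤ 1 := Real.sqrt_le_one.2 hv.2.le

lemma HH_nonneg {v : ℝ} (hv : v ∈ Ioo (0:ℝ) 1) (h : 1 / 2 ≤ v) : 0 ≤ HH v := by
  rw [HH_eq hv]
  have h6 : √v ^ 2 = v := Real.sq_sqrt hv.1.le
  exact hh_aux (by rw [h6]; exact h) (sv_le_one hv) (sv_pos hv)

lemma hh_aux2 {a : ℝ} (h1 : 9 / 10 ≤ a ^ 2) (h2 : a ≤ 1) (h0 : 0 < a) :
    3 / 20 ≤ 752 / 125 * ((a ^ 2) ^ 2 / 2 - (a ^ 2) ^ 3 / 3) - 128 / 625 * a ^ 2 - 8 / 5 * a ^ 3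
      + 24 / 25 * a ^ 5 := by
  have ha : 237 / 250 ≤ a := by nlinarith
  have h3 : 0 ≤ (a - 237 / 250) * (1 - a) * (752 / 375 * a ^ 4 + 2946 / 1000 * a ^ 3
      + 83 / 100 * a ^ 2 + 42 / 100 * a + 24 / 100) :=
    mul_nonneg (mul_nonneg (by linarith) (by linarith)) (by positivity)
  nlinarith [mul_nonneg (mul_nonneg (sub_nonneg.2 ha) (sub_nonneg.2 h2)) h0.le,
    mul_nonneg (mul_nonneg (sub_nonneg.2 ha) (sub_nonneg.2 h2)) (sq_nonneg a),
    mul_nonneg (mul_nonneg (sub_nonneg.2 ha) (sub_nonneg.2 h2)) (pow_nonneg h0.le 3),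
    mul_nonneg (mul_nonneg (sub_nonneg.2 ha) (sub_nonneg.2 h2)) (pow_nonneg h0.le 4),
    mul_nonneg (sub_nonneg.2 ha) (sub_nonneg.2 h2)]

lemma HH_ge {v : ℝ} (hv : v ∈ Ioo (0:ℝ) 1) (h : 9 / 10 ≤ v) : 3 / 20 ≤ HH v := by
  rw [HH_eq hv]
  have h6 : √v ^ 2 = v := Real.sq_sqrt hv.1.le
  exact hh_aux2 (by rw [h6]; exact h) (sv_le_one hv) (sv_pos hv)

lemma HH_nonpos {v : ℝ} (hv : v ∈ Ioo (0:ℝ) 1) (h : v ≤ 1 / 1000) : HH v ≤ 0 := by
  have ha := sv_pos hv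
  have ha1 := sv_le_one hv
  have h3 : √v ^ 5 ≤ √v ^ 3 := pow_le_pow_of_le_one ha.le ha1 (by norm_num)
  have h4 : 0 ≤ √v ^ 3 := by positivity
  have h5 := hv.1
  unfold HH
  have h6 : 0 < v ^ 3 := by positivity
  nlinarith

/-- the lower end -/
lemma f_Km {v : ℝ} (hv : v ∈ Ioo (0:ℝ) 1) :
    Km v * (6 * (v * (1 - v)) - 8 / 5 * Km v) = 5 / 2 * √v ^ 5 * (1 - v) ^ 2 * (3 - √v) := by
  have ha2 : √v ^ 2 = v := Real.sq_sqrt hv.1.le
  unfold Km
  set a := √v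
  rw [← ha2]
  ring

/-- the upper end -/
lemma f_Kp {v : ℝ} (hv : v ∈ Ioo (0:ℝ) 1) :
    Kp v * (6 * (v * (1 - v)) - 8 / 5 * Kp v) = 36 / 5 * (qq v ^ 7 - 8 / 25 * qq v ^ 6) := by
  rw [← qq_four' hv]
  unfold Kp
  ring

lemma q7 {q : ℝ} (hq : 0 ≤ q) : -(3 / 20000) ≤ 36 / 5 * (q ^ 7 - 8 / 25 * q ^ 6) := by
  have h1 : 0 ≤ q ^ 5 + 8 / 35 * q ^ 4 + 1536 / 30625 * q ^ 3 + 55296 / 5359375 * q ^ 2
      + 1769472 / 937890625 * q + 42467328 / 164130859375 := by positivity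
  have h2 := mul_nonneg (sq_nonneg (q - 48 / 175)) h1
  have e : q ^ 7 - 8 / 25 * q ^ 6 = (q - 48 / 175) ^ 2 * (q ^ 5 + 8 / 35 * q ^ 4
      + 1536 / 30625 * q ^ 3 + 55296 / 5359375 * q ^ 2
      + 1769472 / 937890625 * q + 42467328 / 164130859375)
      - 97844723712 / 5026507568359375 := by ring
  rw [e]
  linarith

/-- concavity in `k` -/
lemma f_min {w k k1 k2 m : ℝ} (h1 : k1 ≤ k) (h2 : k ≤ k2)
    (hm1 : m ≤ k1 * (6 * w - 8 / 5 * k1)) (hm2 : m ≤ k2 * (6 * w - 8 / 5 * k2)) :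
    m ≤ k * (6 * w - 8 / 5 * k) := by
  rcases le_total (k + k1) (15 / 4 * w) with h | h
  · have : 0 ≤ (k - k1) * (6 * w - 8 / 5 * (k + k1)) :=
      mul_nonneg (by linarith) (by linarith)
    nlinarith
  · have : 0 ≤ (k2 - k) * (8 / 5 * (k + k2) - 6 * w) :=
      mul_nonneg (by linarith) (by linarith)
    nlinarith

/-- main lower bound, `ν ≥ 1/50` -/
lemma L_ge {v k nu : ℝ} (hv : v ∈ Ioo (0:ℝ) 1) (hh : 1 / 2 ≤ v) (hk1 : Km v ≤ k) (hk2 : k ≤ Kp v)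
    (hn : 1 / 50 ≤ nu) :
    27 / 10000 ≤ k * (6 * (v * (1 - v)) - 8 / 5 * k) + nu * HH v := by
  have ha := sv_pos hv
  have ha1 := sv_le_one hv
  have ha2 : √v ^ 2 = v := Real.sq_sqrt hv.1.le
  have hq := qq_pos hv
  have hq4 := qq_four' hv
  have h1v : 0 < 1 - v := by linarith [hv.2]
  rcases le_total v (9 / 10) with h9 | h9
  · -- `1/2 ≤ v ≤ 9/10`
    have hH := HH_nonneg hv hh
    have hH' : 0 ≤ nu * HH v := mul_nonneg (by linarith) hH
    have h1 : 27 / 10000 ≤ k * (6 * (v * (1 - v)) - 8 / 5 * k) := by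
      apply f_min hk1 hk2
      · rw [f_Km hv]
        have h2 : 7 / 10 ≤ √v := by nlinarith
        have h3 : (7 / 10) ^ 5 ≤ √v ^ 5 := pow_le_pow_left₀ (by norm_num) h2 5
        have h4 : 1 / 100 ≤ (1 - v) ^ 2 := by nlinarith
        have h5 : (7 / 10) ^ 5 * (1 / 100) ≤ √v ^ 5 * (1 - v) ^ 2 :=
          mul_le_mul h3 h4 (by norm_num) (by positivity)
        have h6 : 2 ≤ 3 - √v := by linarith
        have h7 : (7 / 10) ^ 5 * (1 / 100) * 2 ≤ √v ^ 5 * (1 - v) ^ 2 * (3 - √v) :=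
          mul_le_mul h5 h6 (by norm_num) (by positivity)
        nlinarith
      · rw [f_Kp hv]
        have h2 : 9 / 100 ≤ qq v ^ 4 := by rw [hq4]; nlinarith
        have h3 : 54 / 100 ≤ qq v := by
          by_contra hc
          push Not at hc
          have : qq v ^ 4 < (54 / 100) ^ 4 := pow_lt_pow_left₀ hc hq.le (by norm_num)
          norm_num at this
          linarith
        have h4 : (54 / 100) ^ 6 ≤ qq v ^ 6 := pow_le_pow_left₀ (by norm_num) h3 6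
        have h5 : (54 / 100) ^ 6 * (22 / 100) ≤ qq v ^ 6 * (qq v - 8 / 25) :=
          mul_le_mul h4 (by linarith) (by norm_num) (by positivity)
        have e : qq v ^ 7 - 8 / 25 * qq v ^ 6 = qq v ^ 6 * (qq v - 8 / 25) := by ring
        rw [e]
        nlinarith
    linarith
  · have hH := HH_ge hv h9
    have hH' : 1 / 50 * (3 / 20) ≤ nu * HH v := mul_le_mul hn hH (by norm_num) (by linarith)
    have h1 : -(3 / 20000) ≤ k * (6 * (v * (1 - v)) - 8 / 5 * k) := by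
      apply f_min hk1 hk2
      · rw [f_Km hv]
        have : 0 ≤ 5 / 2 * √v ^ 5 * (1 - v) ^ 2 * (3 - √v) := by
          have : 0 ≤ 3 - √v := by linarith
          positivity
        linarith
      · rw [f_Kp hv]; exact q7 hq.le
    linarith

lemma qa_bound {v : ℝ} (hv : v ∈ Ioo (0:ℝ) 1) (h : v ≤ 1 / 1000) : qq v ≤ 18 / 100 := by
  have hq := qq_pos hv
  have hq4 := qq_four' hv
  by_contra hc
  push Not at hc
  have h1 : (18 / 100 : ℝ) ^ 4 < qq v ^ 4 := pow_lt_pow_left₀ hc (by norm_num) (by norm_num)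
  rw [hq4] at h1
  norm_num at h1
  nlinarith [hv.1, hv.2]

/-- upper bound at the left end, `ν ≤ 1` -/
lemma La_le {v k nu : ℝ} (hv : v ∈ Ioo (0:ℝ) 1) (hh : v ≤ 1 / 1000) (hk1 : Km v ≤ k)
    (hk2 : k ≤ Kp v) (hn : 0 ≤ nu) :
    k * (6 * (v * (1 - v)) - 8 / 5 * k) + nu * HH v ≤ 42 / 1000000 := by
  have hq := qq_pos hv
  have hq4 := qq_four' hv
  have hqa := qa_bound hv hh
  have hk0 : 0 < k := (Km_pos hv).trans_le hk1
  have h1 : nu * HH v ≤ 0 := mul_nonpos_of_nonneg_of_nonpos hn (HH_nonpos hv hh)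
  have h2 : k * (6 * (v * (1 - v)) - 8 / 5 * k) ≤ 6 * (v * (1 - v)) * Kp v := by
    have h3 := w_pos hv
    have h4 : 6 * (v * (1 - v)) * k ≤ 6 * (v * (1 - v)) * Kp v :=
      mul_le_mul_of_nonneg_left hk2 (by positivity)
    nlinarith [sq_nonneg k]
  have h5 : v * (1 - v) ≤ 1 / 1000 := by nlinarith [hv.1]
  have h6 : Kp v ≤ 6 / 5 * (18 / 100) ^ 3 := by
    unfold Kp
    have := pow_le_pow_left₀ hq.le hqa 3
    linarith
  have h7 : v * (1 - v) * Kp v ≤ 1 / 1000 * (6 / 5 * (18 / 100) ^ 3) :=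
    mul_le_mul h5 h6 (Kp_pos hv).le (by norm_num)
  nlinarith

/-! ### integration of a pointwise inequality -/

lemma int_ge {g g' I : ℝ → ℝ} {x y : ℝ} (hxy : x ≤ y) (hg : ∀ z, HasDerivAt g (g' z) z)
    (hI : Continuous I) (hle : ∀ z ∈ Icc x y, g' z ≤ I z) : g y - g x ≤ ∫ z in x..y, I z := by
  refine intervalIntegral.sub_le_integral_of_hasDeriv_right_of_le hxy
    (fun z hz => (hg z).continuousAt.continuousWithinAt)
    (fun z hz => (hg z).hasDerivWithinAt) ?_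
    (fun z hz => hle z ⟨hz.1.le, hz.2.le⟩)
  exact hI.continuousOn.integrableOn_Icc

/-- profile at one time with the slope band -/
structure Sl (s b : ℝ) (V P Px : ℝ → ℝ) : Prop where
  s_pos : 0 < s
  b_nonneg : 0 ≤ b
  b_le : b ≤ s ^ 2
  hV : ∀ x, HasDerivAt V (P x) x
  hP : ∀ x, HasDerivAt P (Px x) x
  cPx : Continuous Px
  V_mem : ∀ x, V x ∈ Ioo (0:ℝ) 1
  lo : ∀ x, s * Km (V x) ≤ P x
  up : ∀ x, P x ≤ s * Kp (V x)

namespace Sl

variable {s b : ℝ} {V P Px : ℝ → ℝ}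

lemma cV (h : Sl s b V P Px) : Continuous V :=
  continuous_iff_continuousAt.2 fun x => (h.hV x).continuousAt

lemma cP (h : Sl s b V P Px) : Continuous P :=
  continuous_iff_continuousAt.2 fun x => (h.hP x).continuousAt

lemma P_pos (h : Sl s b V P Px) (x : ℝ) : 0 < P x :=
  (mul_pos h.s_pos (Km_pos (h.V_mem x))).trans_le (h.lo x)

lemma cII (h : Sl s b V P Px) : Continuous (II b V P Px) := II_continuous h.cV h.cP h.cPx

lemma k_lo (h : Sl s b V P Px) (x : ℝ) : Km (V x) ≤ P x / s := by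
  rw [le_div_iff₀ h.s_pos, mul_comm]; exact h.lo x

lemma k_up (h : Sl s b V P Px) (x : ℝ) : P x / s ≤ Kp (V x) := by
  rw [div_le_iff₀ h.s_pos, mul_comm]; exact h.up x

lemma mono (h : Sl s b V P Px) : StrictMono V := by
  apply strictMono_of_deriv_pos
  intro x; rw [(h.hV x).deriv]; exact h.P_pos x

/-- case `ν ≥ 1/50` -/
theorem case1 (h : Sl s b V P Px) {xa x : ℝ} (hx : xa ≤ x) (hVa : V xa ≤ 1 / 1000)
    (hVx : 1 / 2 ≤ V x) (hn : 1 / 50 * s ^ 2 ≤ b) :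
    s ^ 3 / 20000 ≤ ∫ z in xa..x, II b V P Px z := by
  have hs := h.s_pos
  set nu := b / s ^ 2 with hnu
  have hnu1 : 1 / 50 ≤ nu := by rw [hnu, le_div_iff₀ (by positivity)]; exact hn
  have hnu0 : 0 ≤ nu := by linarith
  have hb : b = nu * s ^ 2 := by rw [hnu]; field_simp
  have hk : ∀ z, HasDerivAt (fun z => P z / s) (Px z / s) z := fun z => (h.hP z).div_const s
  have hw : ∀ z, HasDerivAt (fun z => V z * (1 - V z)) ((1 - 2 * V z) * P z) z := by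
    intro z
    refine ((h.hV z).mul ((h.hV z).const_sub 1)).congr_deriv ?_
    ring
  have hH : ∀ z, HasDerivAt (fun z => HH (V z)) (HH1 (V z) * P z) z :=
    fun z => (HH_deriv (h.V_mem z)).comp z (h.hV z)
  have hg : ∀ z, HasDerivAt (fun z => s ^ 3 * (nu * (P z / s * (6 * (V z * (1 - V z)) -
      8 / 5 * (P z / s))) + nu ^ 2 * HH (V z)))
      (s ^ 3 * (nu * (Px z / s * (6 * (V z * (1 - V z)) - 8 / 5 * (P z / s)) +
        P z / s * (6 * ((1 - 2 * V z) * P z) - 8 / 5 * (Px z / s))) +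
        nu ^ 2 * (HH1 (V z) * P z))) z := by
    intro z
    have h1 := ((hk z).mul (((hw z).const_mul 6).sub ((hk z).const_mul (8 / 5)))).const_mul nu
    exact (h1.add ((hH z).const_mul (nu ^ 2))).const_mul (s ^ 3)
  have key := int_ge (I := II b V P Px) hx hg h.cII (by
    intro z _
    have h1 := key1 (h.V_mem z) (h.k_lo z) (h.k_up z)
    set k := P z / s with hkd
    have hPz : P z = s * k := by rw [hkd]; field_simp
    set κ := Px z / s with hκd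
    have hPxz : Px z = s * κ := by rw [hκd]; field_simp
    unfold II
    rw [hPz, hPxz, hb]
    set v := V z
    have e : (s * κ) ^ 2 + 6 * (nu * s ^ 2) * (1 - 2 * v) * (s * k) ^ 2 +
        6 * (nu * s ^ 2) ^ 2 * v ^ 2 * (1 - v) ^ 2 -
        s ^ 3 * (nu * (κ * (6 * (v * (1 - v)) - 8 / 5 * k) +
        k * (6 * ((1 - 2 * v) * (s * k)) - 8 / 5 * κ)) + nu ^ 2 * (HH1 v * (s * k))) =
        (s * κ - s ^ 2 * nu * (3 * (v * (1 - v)) - 8 / 5 * k)) ^ 2 +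
        s ^ 4 * nu ^ 2 * (-(3 * (v * (1 - v)) ^ 2) + 48 / 5 * (v * (1 - v)) * k
          - 64 / 25 * k ^ 2 - HH1 v * k) := by ring
    have h2 : 0 ≤ s ^ 4 * nu ^ 2 * (-(3 * (v * (1 - v)) ^ 2) + 48 / 5 * (v * (1 - v)) * k
          - 64 / 25 * k ^ 2 - HH1 v * k) := mul_nonneg (by positivity) h1
    nlinarith [sq_nonneg (s * κ - s ^ 2 * nu * (3 * (v * (1 - v)) - 8 / 5 * k))])
  refine le_trans ?_ key
  have h1 := L_ge (h.V_mem x) hVx (h.k_lo x) (h.k_up x) hnu1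
  have h2 := La_le (h.V_mem xa) hVa (h.k_lo xa) (h.k_up xa) hnu0
  have e : s ^ 3 * (nu * (P x / s * (6 * (V x * (1 - V x)) - 8 / 5 * (P x / s))) + nu ^ 2 * HH (V x))
      - s ^ 3 * (nu * (P xa / s * (6 * (V xa * (1 - V xa)) - 8 / 5 * (P xa / s))) +
        nu ^ 2 * HH (V xa)) =
      s ^ 3 * nu * ((P x / s * (6 * (V x * (1 - V x)) - 8 / 5 * (P x / s)) + nu * HH (V x)) -
        (P xa / s * (6 * (V xa * (1 - V xa)) - 8 / 5 * (P xa / s)) + nu * HH (V xa))) := by ring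
  rw [e]
  have h3 : 27 / 10000 - 42 / 1000000 ≤
      (P x / s * (6 * (V x * (1 - V x)) - 8 / 5 * (P x / s)) + nu * HH (V x)) -
        (P xa / s * (6 * (V xa * (1 - V xa)) - 8 / 5 * (P xa / s)) + nu * HH (V xa)) := by linarith
  have hs3 : 0 < s ^ 3 := by positivity
  calc s ^ 3 / 20000 ≤ s ^ 3 * (1 / 50) * (27 / 10000 - 42 / 1000000) := by nlinarith
    _ ≤ s ^ 3 * nu * (27 / 10000 - 42 / 1000000) := by
        apply mul_le_mul_of_nonneg_right _ (by norm_num)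
        exact mul_le_mul_of_nonneg_left hnu1 hs3.le
    _ ≤ _ := mul_le_mul_of_nonneg_left h3 (by positivity)

set_option maxHeartbeats 1000000 in
/-- case `ν ≤ 1/50` -/
theorem case2 (h : Sl s b V P Px) {xa x : ℝ} (hx : xa ≤ x) (hVa : V xa ≤ 1 / 1000)
    (hVx : 1 / 2 ≤ V x) (hn : b ≤ 1 / 50 * s ^ 2) :
    s ^ 3 / 20000 ≤ ∫ z in xa..x, II b V P Px z := by
  have hs := h.s_pos
  have hs3 : 0 < s ^ 3 := by positivity
  set nu := b / s ^ 2 with hnu
  have hnu1 : nu ≤ 1 / 50 := by rw [hnu, div_le_iff₀ (by positivity)]; exact hn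
  have hb : b = nu * s ^ 2 := by rw [hnu]; field_simp
  have hnu0 : 0 ≤ nu := div_nonneg h.b_nonneg (by positivity)
  -- the middle point
  obtain ⟨xh, ⟨hxa, hxx⟩, hxh⟩ : ∃ xh ∈ Icc xa x, V xh = 1 / 2 :=
    intermediate_value_Icc hx h.cV.continuousOn ⟨by linarith, hVx⟩
  have hk : ∀ z, HasDerivAt (fun z => P z / s) (Px z / s) z := fun z => (h.hP z).div_const s
  have hk0 : ∀ z, 0 < P z / s := fun z => div_pos (h.P_pos z) hs
  -- left part
  have hgl : ∀ z, HasDerivAt (fun z => s ^ 3 * (4 / 3 * (7 / 50) * (P z / s * √(P z / s)) -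
      (7 / 50) ^ 2 * V z))
      (s ^ 3 * (4 / 3 * (7 / 50) * (Px z / s * √(P z / s) +
        P z / s * (Px z / s / (2 * √(P z / s)))) - (7 / 50) ^ 2 * P z)) z := by
    intro z
    have h1 := ((hk z).mul ((hk z).sqrt (hk0 z).ne')).const_mul (4 / 3 * (7 / 50))
    exact (h1.sub ((h.hV z).const_mul ((7 / 50) ^ 2))).const_mul (s ^ 3)
  have keyl := int_ge (I := II b V P Px) hxa hgl h.cII (by
    intro z hz
    have hVz : V z ≤ 1 / 2 := by rw [← hxh]; exact h.mono.monotone hz.2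
    have hr := Real.sqrt_pos.2 (hk0 z)
    have hr2 : √(P z / s) ^ 2 = P z / s := Real.sq_sqrt (hk0 z).le
    set r := √(P z / s) with hrd
    have hPz : P z = s * r ^ 2 := by rw [hr2]; field_simp
    set κ := Px z / s with hκd
    have hPxz : Px z = s * κ := by rw [hκd]; field_simp
    have e : s ^ 3 * (4 / 3 * (7 / 50) * (κ * r + P z / s * (κ / (2 * r))) - (7 / 50) ^ 2 * P z) =
        s ^ 3 * (2 * (7 / 50) * (κ * r) - (7 / 50) ^ 2 * (s * r ^ 2)) := by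
      rw [← hr2, hPz]
      field_simp
      ring
    rw [e]
    have h1 : Px z ^ 2 ≤ II b V P Px z := by
      unfold II
      have h2 : 0 ≤ 1 - 2 * V z := by linarith
      have hb0 := h.b_nonneg
      have h3 : 0 ≤ 6 * b * (1 - 2 * V z) * P z ^ 2 := by positivity
      have h4 : 0 ≤ 6 * b ^ 2 * V z ^ 2 * (1 - V z) ^ 2 := by positivity
      linarith
    refine le_trans ?_ h1
    rw [hPxz]
    nlinarith [sq_nonneg (s * κ - 7 / 50 * s ^ 2 * r)])
  -- right part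
  have hgr : ∀ z, HasDerivAt (fun z => s ^ 3 * (nu * (144 / 35 * qq (V z) ^ 7)))
      (s ^ 3 * (nu * (144 / 35 * (7 * qq (V z) ^ 6 * ((1 - 2 * V z) / (4 * qq (V z) ^ 3) * P z))))) z := by
    intro z
    have h1 := ((qq_deriv (h.V_mem z)).comp z (h.hV z)).pow 7
    have h2 := ((h1.const_mul (144 / 35)).const_mul nu).const_mul (s ^ 3)
    refine h2.congr_deriv ?_
    simp
  have keyr := int_ge (I := II b V P Px) hxx hgr h.cII (by
    intro z hz
    have hVz : 1 / 2 ≤ V z := by rw [← hxh]; exact h.mono.monotone hz.1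
    have hq := qq_pos (h.V_mem z)
    have hPp := h.P_pos z
    have hup := h.up z
    have e : s ^ 3 * (nu * (144 / 35 * (7 * qq (V z) ^ 6 * ((1 - 2 * V z) / (4 * qq (V z) ^ 3) * P z))))
        = -(6 * (nu * s ^ 2) * (2 * V z - 1) * P z * (s * Kp (V z))) := by
      unfold Kp
      field_simp
      ring
    rw [e, ← hb]
    have h1 : -(6 * b * (2 * V z - 1) * P z * P z) ≤ II b V P Px z := by
      unfold II
      have h4 : 0 ≤ 6 * b ^ 2 * V z ^ 2 * (1 - V z) ^ 2 := by positivity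
      nlinarith [sq_nonneg (Px z)]
    refine le_trans ?_ h1
    have hb0 := h.b_nonneg
    have h2 : 0 ≤ 6 * b * (2 * V z - 1) * P z := by
      have : 0 ≤ 2 * V z - 1 := by linarith
      positivity
    have := mul_le_mul_of_nonneg_left hup h2
    linarith)
  rw [← intervalIntegral.integral_add_adjacent_intervals (h.cII.intervalIntegrable xa xh)
    (h.cII.intervalIntegrable xh x)]
  -- numbers
  have hmid : (1 / 2 : ℝ) ∈ Ioo (0:ℝ) 1 := by constructor <;> norm_num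
  have hkh : 22 / 100 ≤ P xh / s := by
    refine le_trans ?_ (h.k_lo xh)
    rw [hxh]
    unfold Km
    have h1 : 7071 / 10000 ≤ √(1 / 2 : ℝ) := by
      apply Real.le_sqrt_of_sq_le; norm_num
    have h2 : (7071 / 10000) ^ 3 ≤ √(1 / 2 : ℝ) ^ 3 := pow_le_pow_left₀ (by norm_num) h1 3
    nlinarith
  have hrh : 46 / 100 ≤ √(P xh / s) := by
    apply Real.le_sqrt_of_sq_le
    nlinarith
  have h5 : 22 / 100 * (46 / 100) ≤ P xh / s * √(P xh / s) :=
    mul_le_mul hkh hrh (by norm_num) (hk0 xh).le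
  have hka : P xa / s ≤ 7 / 1000 := by
    refine (h.k_up xa).trans ?_
    unfold Kp
    have hq := qq_pos (h.V_mem xa)
    have := pow_le_pow_left₀ hq.le (qa_bound (h.V_mem xa) hVa) 3
    nlinarith
  have hra : √(P xa / s) ≤ 1 / 10 := by
    rw [show (1 / 10 : ℝ) = √((1 / 10) ^ 2) by rw [Real.sqrt_sq (by norm_num)]]
    apply Real.sqrt_le_sqrt
    nlinarith
  have h6 : P xa / s * √(P xa / s) ≤ 7 / 1000 * (1 / 10) :=
    mul_le_mul hka hra (Real.sqrt_nonneg _) (by norm_num)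
  have hVa0 := (h.V_mem xa).1
  have h7 : qq (V xh) ^ 7 ≤ 886 / 10000 := by
    rw [hxh]
    have h8 := qq_four' hmid
    have h9 : qq (1 / 2 : ℝ) ^ 2 = 1 / 2 := by
      rw [qq_sq]
      rw [show (1 / 2 : ℝ) * (1 - 1 / 2) = (1 / 2) ^ 2 by norm_num, Real.sqrt_sq (by norm_num)]
    have h10 : qq (1 / 2 : ℝ) ≤ 7072 / 10000 := by
      have hq := qq_pos hmid
      nlinarith
    have e : qq (1 / 2 : ℝ) ^ 7 = (qq (1 / 2 : ℝ) ^ 2) ^ 3 * qq (1 / 2 : ℝ) := by ring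
    rw [e, h9]
    nlinarith
  have h8 : 0 ≤ qq (V x) ^ 7 := by have := (qq_pos (h.V_mem x)).le; positivity
  have hl : s ^ 3 * (4 / 3 * (7 / 50) * (22 / 100 * (46 / 100) - 7 / 1000 * (1 / 10)) - (7 / 50) ^ 2 * (1 / 2)) ≤
      ∫ z in xa..xh, II b V P Px z := by
    refine le_trans ?_ keyl
    rw [← mul_sub]
    apply mul_le_mul_of_nonneg_left _ hs3.le
    rw [hxh]
    nlinarith
  have hr : -(s ^ 3 * (1 / 50 * (144 / 35 * (886 / 10000)))) ≤ ∫ z in xh..x, II b V P Px z := by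
    refine le_trans ?_ keyr
    rw [← mul_sub, neg_mul_eq_mul_neg]
    apply mul_le_mul_of_nonneg_left _ hs3.le
    have h9 : nu * (144 / 35 * qq (V xh) ^ 7) ≤ 1 / 50 * (144 / 35 * (886 / 10000)) :=
      mul_le_mul hnu1 (by linarith) (by have := (qq_pos (h.V_mem xh)).le; positivity) (by norm_num)
    have h10 : 0 ≤ nu * (144 / 35 * qq (V x) ^ 7) := by positivity
    linarith
  nlinarith

/-- **N4** : the algebraic no-gap certificate. -/
theorem cert (h : Sl s b V P Px) {xa x : ℝ} (hx : xa ≤ x) (hVa : V xa ≤ 1 / 1000)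
    (hVx : 1 / 2 ≤ V x) : s ^ 3 / 20000 ≤ ∫ z in xa..x, II b V P Px z := by
  rcases le_total (1 / 50 * s ^ 2) b with hn | hn
  · exact h.case1 hx hVa hVx hn
  · exact h.case2 hx hVa hVx hn

end Sl

/-! ### the step system -/

open Crest.Agent.R146.StepDef_791

/-- the slice of a step system in the old clock (`(1-t) b ≤ 1`) -/
theorem sl_of (A : SD) (hB : Back A) (h : ∀ t ∈ Ico 0 A.T, (1 - t) * A.b t ≤ 1)
    {t : ℝ} (ht : t ∈ Ico 0 A.T) : Sl (√(1 - t))⁻¹ (A.b t) (A.V t) (A.P t) (A.Px t) := by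
  have htI : t ∈ Icc 0 A.T := ⟨ht.1, ht.2.le⟩
  have h2 : 0 < 1 - t := by linarith [ht.2, A.hT1]
  obtain ⟨M, hS⟩ := hB.bsys
  exact { s_pos := inv_pos.2 (Real.sqrt_pos.2 h2)
          b_nonneg := hS.b_nonneg t htI
          b_le := b_le_g h2 (h t ht)
          hV := hB.V_x t htI
          hP := hB.P_x t htI
          cPx := continuous_iff_continuousAt.2 fun x => (hB.Px_x t htI x).continuousAt
          V_mem := fun x => ⟨hS.V_pos t htI x, hS.V_lt t htI x⟩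
          lo := band_lo A hB h t htI
          up := band_up A hB h t htI }

/-- **N4 for the step system**: `∫_{xa}^x II ≥ (1-t)^{-3/2}/20000`. -/
theorem step_cert (A : SD) (hB : Back A) (h : ∀ t ∈ Ico 0 A.T, (1 - t) * A.b t ≤ 1)
    {t : ℝ} (ht : t ∈ Ico 0 A.T) {xa x : ℝ} (hx : xa ≤ x) (hVa : A.V t xa ≤ 1 / 1000)
    (hVx : 1 / 2 ≤ A.V t x) :
    (√(1 - t))⁻¹ ^ 3 / 20000 ≤ ∫ z in xa..x, II (A.b t) (A.V t) (A.P t) (A.Px t) z :=
  (sl_of A hB h ht).cert hx hVa hVx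

end

end Crest.Agent.R146.NgCert_87
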