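import Crest.Agent.R146.WinLow_746
import Crest.Agent.R146.NoGapM_546

/-!
Row 146 (helper746): `NoGapM_546.LOW` from `WinLow_746.low`.
-/

set_option autoImplicit false

namespace Crest.Agent.R146.NgLow_746

open Set Crest.Agent.R146.StepDef_791

theorem low : NoGapM_546.LOW := by
  intro A x0 p Y Yx Yxx hB hC hL hb _ t0 ht0 hD C hC1 hst t ht x
  have h := WinLow_746.low A x0 p Y Yx Yxx hB hC hL
    (fun s hs => hb s ⟨hs.1, (hs.2.trans A.hT1).le⟩) t0 ht0 hD C hC1
    (fun x => by have := hst x; unfold Flat_384.Q at this; exact this) t ht x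
  unfold Flat_384.Q
  exact h

end Crest.Agent.R146.NgLow_746
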