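import Crest.Agent.R146.NoGapX_649

/-!
Row 146, PT, no-gap lemma (helper546), node N3: from the partial integrals of the no-gap integrand to
the positivity of `Ls`, without any Harnack inequality.

`q = p exp(-∫_{xa} Y⁻)` is nonincreasing; if `A(x) = ∫_{xa}^x I` is `≥ 0` up to `xh` and `≥ c` beyond,
then `∫ p I ≥ q(xh) (c - ∫_{xh}^∞ (e^{∫_{xa} Y⁻} - 1) N)`, `N ≥ I⁻`.
-/

set_option autoImplicit false

namespace Crest.Agent.R146.NoGapL_546

open MeasureTheory Set Filter Topology
open scoped Interval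
open Crest.Agent.R146.NoGapX_649

noncomputable section

section law

variable {I p Y N : ℝ → ℝ}

theorem by_parts2 (hI : Continuous I) (hY : Continuous Y)
    (hp : ∀ x, HasDerivAt p (-Y x * p x) x) (hpp : ∀ x, 0 < p x) {xa xh R c : ℝ}
    (hah : xa ≤ xh) (hR : xh ≤ R) (hI0 : ∀ x ∈ Icc xa xh, 0 ≤ I x)
    (hA : ∀ x ∈ Icc xh R, c ≤ ∫ z in xa..x, I z) :
    ph p Y xa xh * c ≤ ∫ x in xa..R, ph p Y xa x * I x := by
  set F : ℝ → ℝ := fun x => ∫ z in xa..x, I z with hF
  have hFd : ∀ x, HasDerivAt F (I x) x := fun x =>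
    intervalIntegral.integral_hasDerivAt_right (hI.intervalIntegrable _ _)
      (hI.stronglyMeasurableAtFilter _ _) hI.continuousAt
  have hFc : Continuous F := continuous_iff_continuousAt.2 fun x => (hFd x).continuousAt
  have hqd := ph_deriv hY hp xa
  have hqc : Continuous (ph p Y xa) := continuous_iff_continuousAt.2 fun x => (hqd x).continuousAt
  have hqc' : Continuous fun x => max (Y x) 0 * ph p Y xa x := by fun_prop
  have hqc'' : Continuous fun x => -(max (Y x) 0 * ph p Y xa x) := hqc'.neg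
  have e1 := intervalIntegral.integral_mul_deriv_eq_deriv_mul (a := xa) (b := R)
    (fun x _ => hqd x) (fun x _ => hFd x) (hqc''.intervalIntegrable _ _)
    (hI.intervalIntegrable _ _)
  have hF0 : F xa = 0 := by simp [hF]
  rw [hF0, mul_zero, sub_zero] at e1
  rw [e1]
  have e2 : ∫ x in xa..R, -(max (Y x) 0 * ph p Y xa x) * F x =
      -∫ x in xa..R, (max (Y x) 0 * ph p Y xa x) * F x := by
    rw [← intervalIntegral.integral_neg]
    refine intervalIntegral.integral_congr fun x _ => ?_
    ring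
  rw [e2, sub_neg_eq_add]
  have cF : Continuous fun x => (max (Y x) 0 * ph p Y xa x) * F x := hqc'.mul hFc
  rw [← intervalIntegral.integral_add_adjacent_intervals (cF.intervalIntegrable xa xh)
    (cF.intervalIntegrable xh R)]
  have h1 : 0 ≤ ∫ x in xa..xh, (max (Y x) 0 * ph p Y xa x) * F x := by
    refine intervalIntegral.integral_nonneg hah fun x hx => ?_
    have h2 : 0 ≤ F x := intervalIntegral.integral_nonneg hx.1 fun z hz =>
      hI0 z ⟨hz.1, hz.2.trans hx.2⟩
    exact mul_nonneg (mul_nonneg (le_max_right _ _) (ph_pos hpp xa x).le) h2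
  have h2 : (ph p Y xa xh - ph p Y xa R) * c ≤
      ∫ x in xh..R, (max (Y x) 0 * ph p Y xa x) * F x := by
    have h3 := intervalIntegral.integral_eq_sub_of_hasDerivAt (a := xh) (b := R)
      (fun x _ => hqd x) (hqc''.intervalIntegrable _ _)
    rw [intervalIntegral.integral_neg] at h3
    have h4 : (ph p Y xa xh - ph p Y xa R) * c =
        ∫ x in xh..R, (max (Y x) 0 * ph p Y xa x) * c := by
      rw [intervalIntegral.integral_mul_const]
      congr 1
      linarith
    rw [h4]
    refine intervalIntegral.integral_mono_on hR ((hqc'.mul continuous_const).intervalIntegrable _ _)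
      (cF.intervalIntegrable _ _) fun x hx => ?_
    exact mul_le_mul_of_nonneg_left (hA x hx)
      (mul_nonneg (le_max_right _ _) (ph_pos hpp xa x).le)
  have h5 : ph p Y xa R * c ≤ ph p Y xa R * F R :=
    mul_le_mul_of_nonneg_left (hA R ⟨hR, le_rfl⟩) (ph_pos hpp xa R).le
  nlinarith [h1, h2, h5]

/-- `q` is nonincreasing -/
theorem ph_anti (hY : Continuous Y) (hp : ∀ x, HasDerivAt p (-Y x * p x) x) (hpp : ∀ x, 0 < p x)
    (xa : ℝ) : Antitone (ph p Y xa) := by
  refine antitone_of_hasDerivAt_nonpos (fun x => ph_deriv hY hp xa x) fun x => ?_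
  have := mul_nonneg (le_max_right (Y x) 0) (ph_pos (Y := Y) hpp xa x).le
  simp only [Pi.zero_apply]
  linarith

/-- **N3**, abstract form -/
theorem int_nonneg (hI : Continuous I) (hY : Continuous Y)
    (hp : ∀ x, HasDerivAt p (-Y x * p x) x) (hpp : ∀ x, 0 < p x) {xa xh c : ℝ}
    (hah : xa ≤ xh) (hI0 : ∀ x ≤ xh, 0 ≤ I x)
    (hA : ∀ x, xh ≤ x → c ≤ ∫ z in xa..x, I z)
    (hNc : Continuous N) (hN0 : ∀ x, 0 ≤ N x) (hN : ∀ x, -N x ≤ I x)
    (hE : ∀ R, xh ≤ R → ∫ x in xh..R, (Real.exp (∫ z in xa..x, Yn Y z) - 1) * N x ≤ c)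
    (hpI : Integrable fun x => p x * I x) : 0 ≤ ∫ x, p x * I x := by
  have hpc : Continuous p := continuous_iff_continuousAt.2 fun x => (hp x).continuousAt
  have hqc : Continuous (ph p Y xa) :=
    continuous_iff_continuousAt.2 fun x => (ph_deriv hY hp xa x).continuousAt
  have hYn := Yn_continuous hY
  have hwc : Continuous fun x => Real.exp (∫ z in xa..x, Yn Y z) :=
    Real.continuous_exp.comp (intervalIntegral.continuous_primitive
      (fun a b => hYn.intervalIntegrable a b) xa)
  -- `p = q ω`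
  have hpq : ∀ x, p x = ph p Y xa x * Real.exp (∫ z in xa..x, Yn Y z) := fun x => by
    unfold ph
    rw [mul_assoc, ← Real.exp_add]
    simp
  have hω : ∀ x, xa ≤ x → 1 ≤ Real.exp (∫ z in xa..x, Yn Y z) := fun x hx =>
    Real.one_le_exp (intervalIntegral.integral_nonneg hx fun z _ => Yn_nonneg z)
  have c1 : Continuous fun x => p x * I x := hpc.mul hI
  have c2 : Continuous fun x => ph p Y xa x * I x := hqc.mul hI
  have c3 : Continuous fun x => (Real.exp (∫ z in xa..x, Yn Y z) - 1) * N x :=
    (hwc.sub continuous_const).mul hNc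
  have c4 : Continuous fun x => ph p Y xa xh *
      ((Real.exp (∫ z in xa..x, Yn Y z) - 1) * N x) := continuous_const.mul c3
  have key : ∀ R, xh ≤ R → 0 ≤ ∫ x in xa..R, p x * I x := by
    intro R hR
    have h1 := by_parts2 hI hY hp hpp hah hR (fun x hx => hI0 x hx.2) (fun x hx => hA x hx.1)
    -- comparison of `p I` and `q I`
    have h2 : ∫ x in xa..xh, ph p Y xa x * I x ≤ ∫ x in xa..xh, p x * I x := by
      refine intervalIntegral.integral_mono_on hah (c2.intervalIntegrable _ _)
        (c1.intervalIntegrable _ _) fun x hx => ?_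
      exact mul_le_mul_of_nonneg_right (ph_le hpp hx.1) (hI0 x hx.2)
    have h3 : (∫ x in xh..R, ph p Y xa x * I x) -
        (∫ x in xh..R, ph p Y xa xh * ((Real.exp (∫ z in xa..x, Yn Y z) - 1) * N x)) ≤
        ∫ x in xh..R, p x * I x := by
      rw [← intervalIntegral.integral_sub (c2.intervalIntegrable _ _)
        (c4.intervalIntegrable _ _)]
      refine intervalIntegral.integral_mono_on hR
        ((c2.sub c4).intervalIntegrable _ _)
        (c1.intervalIntegrable _ _) fun x hx => ?_
      have hxa : xa ≤ x := hah.trans hx.1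
      have e1 := hω x hxa
      set ω := Real.exp (∫ z in xa..x, Yn Y z) with hωd
      have e2 : ph p Y xa x ≤ ph p Y xa xh := ph_anti hY hp hpp xa hx.1
      have e3 := (ph_pos (Y := Y) hpp xa x).le
      have e4 := hN x
      have e5 := hN0 x
      have e6 : ph p Y xa x * ((ω - 1) * N x) ≤ ph p Y xa xh * ((ω - 1) * N x) :=
        mul_le_mul_of_nonneg_right e2 (mul_nonneg (by linarith) e5)
      have e7 : 0 ≤ ph p Y xa x * (ω - 1) * (N x + I x) :=
        mul_nonneg (mul_nonneg e3 (by linarith)) (by linarith)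
      rw [hpq x, ← hωd]
      nlinarith [e6, e7]
    have h4 : ∫ x in xh..R, ph p Y xa xh * ((Real.exp (∫ z in xa..x, Yn Y z) - 1) * N x) ≤
        ph p Y xa xh * c := by
      rw [intervalIntegral.integral_const_mul]
      exact mul_le_mul_of_nonneg_left (hE R hR) (ph_pos hpp xa xh).le
    have h5 := intervalIntegral.integral_add_adjacent_intervals (c1.intervalIntegrable (μ := volume) xa xh)
      (c1.intervalIntegrable xh R)
    have h6 := intervalIntegral.integral_add_adjacent_intervals (c2.intervalIntegrable (μ := volume) xa xh)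
      (c2.intervalIntegrable xh R)
    linarith
  have s1 : ∫ x, p x * I x = (∫ x in Iic xa, p x * I x) + ∫ x in Ioi xa, p x * I x :=
    (intervalIntegral.integral_Iic_add_Ioi hpI.integrableOn hpI.integrableOn).symm
  have s2 : 0 ≤ ∫ x in Iic xa, p x * I x :=
    setIntegral_nonneg measurableSet_Iic fun x hx =>
      mul_nonneg (hpp x).le (hI0 x (le_trans hx hah))
  have s3 : Tendsto (fun R => ∫ x in xa..R, p x * I x) atTop (𝓝 (∫ x in Ioi xa, p x * I x)) :=
    intervalIntegral_tendsto_integral_Ioi xa hpI.integrableOn tendsto_id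
  have s4 : 0 ≤ ∫ x in Ioi xa, p x * I x :=
    ge_of_tendsto s3 (by filter_upwards [eventually_ge_atTop xh] with R hR using key R hR)
  linarith

end law

/-! ### The step system -/

open Crest.Agent.R146.StepDef_791 Crest.Agent.R146.MaxPCmp_371 Crest.Agent.R146.MaxPCmp2_371

section step

variable {A : SD} {x0 : ℝ} {p Y Yx Yxx : ℝ → ℝ → ℝ}

/-- the elementary bound of the error weight -/
theorem wt_le {η y : ℝ} (hη : 0 ≤ η) (hη1 : η ≤ 1 / 1002) (hy : 0 ≤ y) :
    Real.exp (η * (y + 1002)) - 1 ≤ 3006 * η * Real.exp (y / 5) := by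
  have h1 : Real.exp (η * (y + 1002)) - 1 ≤
      η * (y + 1002) * Real.exp (η * (y + 1002)) := by
    have h2 := Real.add_one_le_exp (-(η * (y + 1002)))
    have h3 := Real.exp_pos (η * (y + 1002))
    have h4 : Real.exp (η * (y + 1002)) * Real.exp (-(η * (y + 1002))) = 1 := by
      rw [← Real.exp_add]; simp
    nlinarith [mul_le_mul_of_nonneg_left h2 h3.le]
  have h2 : y + 1002 ≤ 1002 * Real.exp (y / 10) := by
    have := Real.add_one_le_exp (y / 10)
    nlinarith
  have h3 : Real.exp (η * (y + 1002)) ≤ 3 * Real.exp (y / 10) := by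
    have h4 : η * (y + 1002) ≤ y / 10 + 1 := by nlinarith
    calc Real.exp (η * (y + 1002)) ≤ Real.exp (y / 10 + 1) := Real.exp_le_exp.2 h4
      _ = Real.exp 1 * Real.exp (y / 10) := by rw [Real.exp_add, mul_comm]
      _ ≤ 3 * Real.exp (y / 10) := by
        have := Real.exp_one_lt_d9
        exact mul_le_mul_of_nonneg_right (by linarith) (Real.exp_pos _).le
  have h5 : Real.exp (y / 5) = Real.exp (y / 10) * Real.exp (y / 10) := by
    rw [← Real.exp_add]; congr 1; ring
  have h6 := Real.exp_pos (y / 10)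
  calc Real.exp (η * (y + 1002)) - 1 ≤ η * (y + 1002) * Real.exp (η * (y + 1002)) := h1
    _ ≤ η * (1002 * Real.exp (y / 10)) * (3 * Real.exp (y / 10)) := by
      refine mul_le_mul (mul_le_mul_of_nonneg_left h2 hη) h3 (Real.exp_pos _).le (by positivity)
    _ = 3006 * η * Real.exp (y / 5) := by rw [h5]; ring

/-- **N3**: positivity of the no-gap functional at a fixed time -/
theorem Ls_nonneg_of (hB : Back A) (hL : Law A x0 p Y Yx Yxx) {t : ℝ} (ht : t ∈ Ioc 0 A.T)
    {s : ℝ} (hs : 0 < s) (hbs : A.b t ≤ s ^ 2)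
    (hPu : ∀ x, A.P t x ^ 2 ≤ 2 * s ^ 2 * (1 - A.V t x))
    (hPl : ∀ x, 1 / 2 ≤ A.V t x → 2 / 5 * s * (1 - A.V t x) ≤ A.P t x)
    (hcert : ∀ xa x, A.V t xa ≤ 1 / 1000 → xa ≤ x → 1 / 2 ≤ A.V t x →
      s ^ 3 / 20000 ≤ ∫ z in xa..x, II (A.b t) (A.V t) (A.P t) (A.Px t) z)
    (hu : A.u t 0 ≤ 1 / s)
    (hY : ∀ x, -(1000 / s) ≤ x → -(s / 10 ^ 10) ≤ Y t x) : 0 ≤ Ls A x0 p t := by
  have htI : t ∈ Icc 0 A.T := ⟨ht.1.le, ht.2⟩
  obtain ⟨M, hM⟩ := hB.bsys
  obtain ⟨hVc, hPc, hPxc⟩ := facts hB htI
  have hb0 := hM.b_nonneg t htI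
  have hVmono : Monotone (A.V t) := by
    apply monotone_of_deriv_nonneg
    · intro x; exact (hB.V_x t htI x).differentiableAt
    · intro x; rw [(hB.V_x t htI x).deriv]; exact (hB.P_pos t htI x).le
  -- mean value inequalities for `u`
  have hud : ∀ x, HasDerivAt (A.u t) (A.V t x - 1) x := hB.u_x t htI
  have huc : Continuous (A.u t) := continuous_iff_continuousAt.2 fun x => (hud x).continuousAt
  have hmv : ∀ x y, x ≤ y → (y - x) * (1 - A.V t y) ≤ A.u t x - A.u t y := by
    intro x y hxy
    have h := (convex_Icc x y).image_sub_le_mul_sub_of_deriv_le (f := A.u t)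
      (C := A.V t y - 1) huc.continuousOn
      (fun z _ => (hud z).differentiableAt.differentiableWithinAt)
      (fun z hz => by
        rw [(hud z).deriv]
        have hz' := interior_subset hz
        linarith [hVmono hz'.2]) x (left_mem_Icc.2 hxy) y (right_mem_Icc.2 hxy) hxy
    nlinarith
  have hmv2 : ∀ x y, x ≤ y → A.u t x - A.u t y ≤ (y - x) * (1 - A.V t x) := by
    intro x y hxy
    have h := (convex_Icc x y).mul_sub_le_image_sub_of_le_deriv (f := A.u t)
      (C := A.V t x - 1) huc.continuousOn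
      (fun z _ => (hud z).differentiableAt.differentiableWithinAt)
      (fun z hz => by
        rw [(hud z).deriv]
        have hz' := interior_subset hz
        linarith [hVmono hz'.1]) x (left_mem_Icc.2 hxy) y (right_mem_Icc.2 hxy) hxy
    nlinarith
  -- the left point
  set xa : ℝ := -(1000 / s) with hxa
  have hs1 : 0 < 1 / s := by positivity
  have hxa0 : xa < 0 := by rw [hxa]; have : 0 < 1000 / s := by positivity
                           linarith
  have hVa : A.V t xa ≤ 1 / 1000 := by
    have h1 := hmv2 xa 0 hxa0.le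
    have h2 := hB.w_pos t htI xa
    unfold SD.w at h2
    have h3 : (1000 / s) * A.V t xa ≤ 1 / s := by
      have h4 : A.u t xa ≤ A.u t 0 + (1000 / s) * (1 - A.V t xa) := by
        have : (0 : ℝ) - xa = 1000 / s := by rw [hxa]; ring
        rw [this] at h1; linarith
      have h5 : 0 < -(1000 / s) + A.u t xa := h2
      nlinarith
    have h6 : (1000 / s) * A.V t xa = (1 / s) * (1000 * A.V t xa) := by ring
    rw [h6] at h3
    have h7 : 1000 * A.V t xa ≤ 1 := by
      by_contra h
      push Not at h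
      have := mul_lt_mul_of_pos_left h hs1
      linarith
    linarith
  have hVr : 1 / 2 ≤ A.V t (2 / s) := by
    have h1 := hmv 0 (2 / s) (by positivity)
    have h2 := hB.u_pos t htI (2 / s)
    have h3 : (2 / s) * (1 - A.V t (2 / s)) ≤ 1 / s := by
      rw [sub_zero] at h1; linarith
    have h4 : (2 / s) * (1 - A.V t (2 / s)) = (1 / s) * (2 * (1 - A.V t (2 / s))) := by ring
    rw [h4] at h3
    have h5 : 2 * (1 - A.V t (2 / s)) ≤ 1 := by
      by_contra h
      push Not at h
      have := mul_lt_mul_of_pos_left h hs1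
      linarith
    linarith
  have hle : xa ≤ 2 / s := hxa0.le.trans (by positivity)
  obtain ⟨xh, hxh, hVh⟩ : ∃ xh ∈ Icc xa (2 / s), A.V t xh = 1 / 2 :=
    intermediate_value_Icc hle hVc.continuousOn ⟨by linarith, hVr⟩
  -- exponential decay of `1 - V`
  have hdec : ∀ x, xh ≤ x → 1 - A.V t x ≤ 1 / 2 * Real.exp (-(2 / 5 * s * (x - xh))) := by
    intro x hx
    have hanti : AntitoneOn (fun x => (1 - A.V t x) * Real.exp (2 / 5 * s * (x - xh))) (Ici xh) := by
      refine antitoneOn_of_deriv_nonpos (convex_Ici xh) ?_ ?_ ?_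
      · fun_prop
      · intro z _
        have h1 : HasDerivAt (fun x => (1 - A.V t x) * Real.exp (2 / 5 * s * (x - xh)))
            (-A.P t z * Real.exp (2 / 5 * s * (z - xh)) +
              (1 - A.V t z) * (Real.exp (2 / 5 * s * (z - xh)) * (2 / 5 * s * 1))) z :=
          ((hB.V_x t htI z).const_sub 1).mul
            ((((hasDerivAt_id z).sub_const xh).const_mul (2 / 5 * s)).exp)
        exact h1.differentiableAt.differentiableWithinAt
      · intro z hz
        rw [interior_Ici] at hz
        have h1 : HasDerivAt (fun x => (1 - A.V t x) * Real.exp (2 / 5 * s * (x - xh)))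
            (-A.P t z * Real.exp (2 / 5 * s * (z - xh)) +
              (1 - A.V t z) * (Real.exp (2 / 5 * s * (z - xh)) * (2 / 5 * s * 1))) z :=
          ((hB.V_x t htI z).const_sub 1).mul
            ((((hasDerivAt_id z).sub_const xh).const_mul (2 / 5 * s)).exp)
        rw [h1.deriv]
        have h2 : 1 / 2 ≤ A.V t z := by rw [← hVh]; exact hVmono (le_of_lt hz)
        have h3 := hPl z h2
        have h4 := Real.exp_pos (2 / 5 * s * (z - xh))
        nlinarith [mul_le_mul_of_nonneg_right h3 h4.le]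
    have h1 := hanti (mem_Ici.2 le_rfl) (mem_Ici.2 hx) hx
    simp only [sub_self, mul_zero, Real.exp_zero, mul_one, hVh] at h1
    have h2 := Real.exp_pos (2 / 5 * s * (x - xh))
    rw [Real.exp_neg]
    rw [← div_eq_mul_inv, le_div_iff₀ h2]
    linarith
  -- the error weight
  have hYc := Y_continuous hL ht
  have hYnc := Yn_continuous hYc
  have hw : ∀ x, xh ≤ x → Real.exp (∫ z in xa..x, Yn (Y t) z) - 1 ≤
      3006 * (1 / 10 ^ 10) * Real.exp (s * (x - xh) / 5) := by
    intro x hx
    have h1 : ∫ z in xa..x, Yn (Y t) z ≤ ∫ _ in xa..x, s / 10 ^ 10 := by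
      refine intervalIntegral.integral_mono_on (hxh.1.trans hx) (hYnc.intervalIntegrable _ _)
        (continuous_const.intervalIntegrable _ _) fun z hz => ?_
      have h2 := hY z hz.1
      unfold Yn
      refine max_le (by linarith) (by positivity)
    rw [intervalIntegral.integral_const, smul_eq_mul] at h1
    have h3 : (x - xa) * (s / 10 ^ 10) ≤ 1 / 10 ^ 10 * (s * (x - xh) + 1002) := by
      have h4 : xh - xa ≤ 1002 / s := by
        have : xh ≤ 2 / s := hxh.2
        have e : (1002 : ℝ) / s = 2 / s + 1000 / s := by ring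
        rw [e, hxa]; linarith
      have h5 : s * (xh - xa) ≤ 1002 := by
        have := mul_le_mul_of_nonneg_left h4 hs.le
        have e : s * (1002 / s) = 1002 := by field_simp
        linarith
      nlinarith
    have h6 := wt_le (η := 1 / 10 ^ 10) (y := s * (x - xh)) (by positivity) (by norm_num)
      (mul_nonneg hs.le (sub_nonneg.2 hx))
    refine le_trans ?_ h6
    have h7 := Real.exp_le_exp.2 (h1.trans h3)
    linarith
  have hNc : Continuous fun x => 6 * A.b t * A.P t x ^ 2 := by fun_prop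
  have hN0 : ∀ x, 0 ≤ 6 * A.b t * A.P t x ^ 2 := fun x => by positivity
  have hNle : ∀ x, xh ≤ x → 6 * A.b t * A.P t x ^ 2 ≤
      6 * s ^ 4 * Real.exp (-(2 / 5 * s * (x - xh))) := by
    intro x hx
    have h1 := hPu x
    have h2 := hdec x hx
    have h3 : A.b t * A.P t x ^ 2 ≤ s ^ 2 * (2 * s ^ 2 * (1 - A.V t x)) :=
      mul_le_mul hbs h1 (sq_nonneg _) (by positivity)
    have h4 := mul_le_mul_of_nonneg_left h2 (show 0 ≤ 12 * s ^ 4 by positivity)
    nlinarith
  have hE : ∀ R, xh ≤ R → ∫ x in xh..R, (Real.exp (∫ z in xa..x, Yn (Y t) z) - 1) *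
      (6 * A.b t * A.P t x ^ 2) ≤ s ^ 3 / 20000 := by
    intro R hR
    have hwc : Continuous fun x => Real.exp (∫ z in xa..x, Yn (Y t) z) :=
      Real.continuous_exp.comp (intervalIntegral.continuous_primitive
        (fun a b => hYnc.intervalIntegrable a b) xa)
    have h1 : ∫ x in xh..R, (Real.exp (∫ z in xa..x, Yn (Y t) z) - 1) *
        (6 * A.b t * A.P t x ^ 2) ≤
        ∫ x in xh..R, (18036 / 10 ^ 10 * s ^ 4) * Real.exp (-(1 / 5 * s * (x - xh))) := by
      refine intervalIntegral.integral_mono_on hR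
        (((hwc.sub continuous_const).mul hNc).intervalIntegrable _ _)
        (Continuous.intervalIntegrable (by fun_prop) _ _) fun x hx => ?_
      have e1 : Real.exp (-(1 / 5 * s * (x - xh))) =
          Real.exp (s * (x - xh) / 5) * Real.exp (-(2 / 5 * s * (x - xh))) := by
        rw [← Real.exp_add]; congr 1; ring
      rw [e1]
      have e2 := mul_le_mul (hw x hx.1) (hNle x hx.1) (hN0 x) (by positivity)
      refine e2.trans (le_of_eq ?_)
      ring
    refine h1.trans ?_
    have h2 : ∀ x, HasDerivAt (fun x => -(18036 / 10 ^ 10 * s ^ 4) * (5 / s) *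
        Real.exp (-(1 / 5 * s * (x - xh))))
        ((18036 / 10 ^ 10 * s ^ 4) * Real.exp (-(1 / 5 * s * (x - xh)))) x := by
      intro x
      have h3 : HasDerivAt (fun x => -(1 / 5 * s * (x - xh))) (-(1 / 5 * s * 1)) x :=
        (((hasDerivAt_id x).sub_const xh).const_mul (1 / 5 * s)).neg
      refine (h3.exp.const_mul (-(18036 / 10 ^ 10 * s ^ 4) * (5 / s))).congr_deriv ?_
      field_simp
    rw [intervalIntegral.integral_eq_sub_of_hasDerivAt (fun x _ => h2 x)
      (Continuous.intervalIntegrable (by fun_prop) _ _)]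
    simp only [sub_self, mul_zero, neg_zero, Real.exp_zero, mul_one]
    have h4 := Real.exp_pos (-(1 / 5 * s * (R - xh)))
    have h5 : 0 < (18036 / 10 ^ 10 * s ^ 4) * (5 / s) := by positivity
    have h6 : (18036 / 10 ^ 10 * s ^ 4) * (5 / s) = 90180 / 10 ^ 10 * s ^ 3 := by
      field_simp; ring
    have h7 : 0 < s ^ 3 := by positivity
    nlinarith [mul_pos h5 h4]
  obtain ⟨C, n, hC, hgr⟩ := II_growth hB
  rw [Ls_eq ht.1]
  refine int_nonneg (xa := xa) (xh := xh) (c := s ^ 3 / 20000)
    (N := fun x => 6 * A.b t * A.P t x ^ 2) (II_continuous hVc hPc hPxc) hYc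
    (fun x => hL.p_x t ht x) (hL.p_pos t ht) hxh.1 ?_ ?_ hNc hN0
    (fun x => neg_le_II hb0 (hM.V_lt t htI x).le) hE ?_
  · exact fun x hx => II_nonneg hb0 ((hVmono hx).trans hVh.le)
  · exact fun x hx => hcert xa x hVa (hxh.1.trans hx) (by rw [← hVh]; exact hVmono hx)
  · exact integrable_p hL ht (II_continuous hVc hPc hPxc) fun x => (hgr t htI x).1

end step

end

end Crest.Agent.R146.NoGapL_546
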