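import Crest.Agent.R146.StepStart_483
import Crest.Agent.R146.SlopeT_371

/-!
Row 146, package PT-STEP, leaf (L1) STEP-PUB of helper791 (helper679): the universal upper slope bound in
the OLD clock.  If `(1-t) b ≤ 1` on `[0,T)` then `(1-t) P² ≤ 2 V (1-V)` on `[0,T]`
(`S = √(2v(1-v))` is a supersolution of the slope equation for every `0 ≤ ν ≤ 1`, and
`φ(z)² ≤ 2 Φ(z)(1-Φ(z))` at the start).  Corollaries: `(1-t) P² ≤ 1/2`, `Ns ≤ 1/(2(1-t))`.
-/

set_option autoImplicit false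

namespace Crest.Agent.R146.StepPub_679

open MeasureTheory ProbabilityTheory Set Filter Topology
open Crest.Agent.R146.StepDef_791 Crest.Agent.R146.StepStart_483
open MaxP2_371 MaxPCmp_371

noncomputable section

/-! ### the start inequality -/

theorem abs_mul_ph_le (z : ℝ) : |z| * ph z ≤ 1 / 2 := by
  rw [ph_eq]
  have h1 : |z| * Real.exp (-z ^ 2 / 2) ≤ 1 := by
    have h2 : |z| ≤ Real.exp (z ^ 2 / 2) := by
      have h3 := Real.add_one_le_exp (z ^ 2 / 2)
      have h4 : |z| ≤ z ^ 2 / 2 + 1 := by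
        have h5 := sq_nonneg (|z| - 1)
        have h6 := sq_abs z
        nlinarith
      linarith
    have h7 : Real.exp (-z ^ 2 / 2) = (Real.exp (z ^ 2 / 2))⁻¹ := by
      rw [← Real.exp_neg]; congr 1; ring
    rw [h7, mul_inv_le_iff₀ (Real.exp_pos _), one_mul]
    exact h2
  have h2 : (√(2 * Real.pi))⁻¹ ≤ 1 / 2 := by
    rw [one_div]
    apply inv_anti₀ (by norm_num)
    have h3 : (2:ℝ) = √(2 ^ 2) := by rw [Real.sqrt_sq (by norm_num)]
    rw [h3]
    apply Real.sqrt_le_sqrt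
    nlinarith [Real.pi_gt_three, Real.sqrt_sq (show (0:ℝ) ≤ 2 by norm_num),
      Real.sqrt_nonneg (2 ^ 2 : ℝ)]
  have h3 : (0:ℝ) ≤ (√(2 * Real.pi))⁻¹ := by positivity
  have h4 : 0 ≤ |z| * Real.exp (-z ^ 2 / 2) := by positivity
  calc |z| * ((√(2 * Real.pi))⁻¹ * Real.exp (-z ^ 2 / 2))
      = (√(2 * Real.pi))⁻¹ * (|z| * Real.exp (-z ^ 2 / 2)) := by ring
    _ ≤ 1 / 2 * 1 := mul_le_mul h2 h1 h4 (by norm_num)
    _ = 1 / 2 := by ring

theorem ph_sq_le_Phi {z : ℝ} (hz : z ≤ 0) : ph z ^ 2 ≤ Phi z := by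
  have hd : ∀ y, HasDerivAt (fun y => Phi y - ph y ^ 2) (ph y * (1 + 2 * (y * ph y))) y := by
    intro y
    have h1 := (Phi_deriv y).sub ((ph_deriv y).pow 2)
    refine h1.congr_deriv ?_
    simp only [Nat.cast_ofNat]
    ring
  have hlim : Tendsto (fun y => Phi y - ph y ^ 2) atBot (𝓝 0) := by
    have h1 := Phi_tendsto_atBot.sub (ph_tendsto_atBot.pow 2)
    simpa using h1
  have hmono : MonotoneOn (fun y => Phi y - ph y ^ 2) (Iic 0) := by
    apply monotoneOn_of_deriv_nonneg (convex_Iic 0)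
    · exact fun y _ => (hd y).continuousAt.continuousWithinAt
    · exact fun y _ => (hd y).differentiableAt.differentiableWithinAt
    · intro y hy
      rw [interior_Iic] at hy
      rw [(hd y).deriv]
      apply mul_nonneg (ph_pos y).le
      have h1 := abs_mul_ph_le y
      rw [abs_of_neg hy] at h1
      linarith
  have h2 : 0 ≤ Phi z - ph z ^ 2 := by
    apply le_of_tendsto hlim
    filter_upwards [eventually_le_atBot z] with y hy
    exact hmono (hy.trans hz) hz hy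
  linarith

theorem Phi_le_half {z : ℝ} (hz : z ≤ 0) : Phi z ≤ 1 / 2 := by
  have h1 := Phi_neg z
  have h2 := Phi_strictMono.monotone (show z ≤ -z by linarith)
  linarith

/-- `φ² ≤ 2 Φ (1-Φ)` -/
theorem ph_sq_le (z : ℝ) : ph z ^ 2 ≤ 2 * Phi z * (1 - Phi z) := by
  have key : ∀ y : ℝ, y ≤ 0 → ph y ^ 2 ≤ 2 * Phi y * (1 - Phi y) := by
    intro y hy
    have h1 := ph_sq_le_Phi hy
    have h2 := Phi_le_half hy
    have h3 := Phi_nonneg y
    nlinarith
  rcases le_total z 0 with h | h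
  · exact key z h
  · have h1 := key (-z) (by linarith)
    rw [ph_neg, Phi_neg] at h1
    linarith

/-! ### the barrier `K = √(2v(1-v))` -/

def KS (v : ℝ) : ℝ := √(2 * v * (1 - v))

theorem KS_arg_pos {v : ℝ} (hv : v ∈ Ioo (0:ℝ) 1) : 0 < 2 * v * (1 - v) := by
  have h1 := hv.1
  have h2 : 0 < 1 - v := by linarith [hv.2]
  positivity

theorem KS_pos {v : ℝ} (hv : v ∈ Ioo (0:ℝ) 1) : 0 < KS v := Real.sqrt_pos.2 (KS_arg_pos hv)

theorem KS_sq {v : ℝ} (hv : v ∈ Ioo (0:ℝ) 1) : KS v ^ 2 = 2 * v * (1 - v) :=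
  Real.sq_sqrt (KS_arg_pos hv).le

theorem KS_deriv {v : ℝ} (hv : v ∈ Ioo (0:ℝ) 1) : HasDerivAt KS ((1 - 2 * v) / KS v) v := by
  have h1 : HasDerivAt (fun v : ℝ => 2 * v * (1 - v)) (2 * (1 - 2 * v)) v := by
    have h2 := ((hasDerivAt_id v).const_mul 2).mul ((hasDerivAt_id v).const_sub 1)
    refine h2.congr_deriv ?_
    simp only [id]; ring
  have h3 := h1.sqrt (KS_arg_pos hv).ne'
  refine h3.congr_deriv ?_
  unfold KS
  have := (KS_pos hv).ne'
  unfold KS at this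
  field_simp

theorem KS_deriv2 {v : ℝ} (hv : v ∈ Ioo (0:ℝ) 1) :
    HasDerivAt (fun v => (1 - 2 * v) / KS v) (-1 / KS v ^ 3) v := by
  have h1 : HasDerivAt (fun v : ℝ => 1 - 2 * v) (-2) v := by
    have h2 := ((hasDerivAt_id v).const_mul 2).const_sub 1
    refine h2.congr_deriv ?_
    ring
  have h3 := h1.div (KS_deriv hv) (KS_pos hv).ne'
  refine h3.congr_deriv ?_
  have h4 := (KS_pos hv).ne'
  have h5 := KS_sq hv
  field_simp
  nlinarith

/-- **(L1) STEP-PUB** -/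
theorem step_pub (A : SD) (hB : Back A) (h : ∀ t ∈ Ico 0 A.T, (1 - t) * A.b t ≤ 1) :
    ∀ t ∈ Icc 0 A.T, ∀ x, (1 - t) * A.P t x ^ 2 ≤ 2 * A.V t x * (1 - A.V t x) := by
  obtain ⟨M, hS⟩ := hB.bsys
  have hT1 := A.hT1
  have hpos : ∀ t ∈ Icc 0 A.T, 0 < 1 - t := fun t ht => by linarith [ht.2]
  have key := hS.slope_le (g := fun t => (√(1 - t))⁻¹) (g' := fun t => (√(1 - t))⁻¹ ^ 3 / 2)
    (K := KS) (K' := fun v => (1 - 2 * v) / KS v) (K'' := fun v => -1 / KS v ^ 3)
    (fun t ht => ?_) (fun t ht => ?_) (fun t ht => ?_) (fun v hv => ?_) (fun v hv => (KS_pos hv).le)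
    (fun v hv => KS_deriv hv) (fun v hv => HasSide.of_hasDerivAt (KS_deriv2 hv)) (fun v hv => ?_)
    (fun t ht v hv => ?_) (fun x => ?_)
  · intro t ht x
    have h1 := key t ht x
    have h2 := hpos t ht
    have hv : A.V t x ∈ Ioo (0:ℝ) 1 := ⟨hS.V_pos t ht x, hS.V_lt t ht x⟩
    have h3 := KS_sq hv
    have h4 := hS.P_nonneg t ht x
    have hs := Real.sqrt_pos.2 h2
    have h5 : √(1 - t) * A.P t x ≤ KS (A.V t x) := by
      have h6 := mul_le_mul_of_nonneg_left h1 hs.le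
      rwa [← mul_assoc, mul_inv_cancel₀ hs.ne', one_mul] at h6
    have h7 : (√(1 - t) * A.P t x) ^ 2 ≤ KS (A.V t x) ^ 2 :=
      pow_le_pow_left₀ (mul_nonneg hs.le h4) h5 2
    rw [mul_pow, Real.sq_sqrt h2.le, h3] at h7
    exact h7
  · -- derivative of g
    have h2 := hpos t ⟨ht.1, ht.2.le⟩
    have hs := Real.sqrt_pos.2 h2
    have h3 : HasDerivAt (fun t : ℝ => 1 - t) (-1) t := by
      simpa using (hasDerivAt_id t).const_sub 1
    have h4 := (h3.sqrt h2.ne').inv hs.ne'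
    refine (h4.congr_deriv ?_).hasDerivWithinAt
    field_simp
  · have h2 := hpos t ht
    have hs := Real.sqrt_pos.2 h2
    have hc : ContinuousAt (fun t : ℝ => √(1 - t)) t := by fun_prop
    exact (hc.inv₀ hs.ne').continuousWithinAt
  · have h2 := hpos t ht
    positivity
  · exact (KS_deriv hv).continuousAt.continuousWithinAt
  · have := KS_pos hv
    rw [neg_div]
    have : 0 ≤ 1 / KS v ^ 3 := by positivity
    linarith
  · have htI : t ∈ Icc 0 A.T := ⟨ht.1, ht.2.le⟩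
    have h2 := hpos t htI
    have hs := Real.sqrt_pos.2 h2
    have hk := KS_pos hv
    have hk2 := KS_sq hv
    set g := (√(1 - t))⁻¹ with hg
    have hgp : 0 < g := inv_pos.2 hs
    have hg2 : g ^ 2 * (1 - t) = 1 := by
      rw [hg, inv_pow, Real.sq_sqrt h2.le]
      exact inv_mul_cancel₀ h2.ne'
    have hb0 := hS.b_nonneg t htI
    have hb : A.b t ≤ g ^ 2 := by
      have h6 := h t ht
      have h7 : g ^ 2 * ((1 - t) * A.b t) ≤ g ^ 2 * 1 :=
        mul_le_mul_of_nonneg_left h6 (by positivity)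
      rw [← mul_assoc, hg2] at h7
      linarith
    have hv1 := hv.1
    have hv2 : 0 < 1 - v := by linarith [hv.2]
    have hvv : v * (1 - v) ≤ 1 / 4 := by nlinarith [sq_nonneg (v - 1 / 2)]
    have hvv0 : 0 < v * (1 - v) := by positivity
    -- multiply by `KS v / g`
    have hE : g ^ 3 / 2 * KS v + g ^ 3 * (KS v ^ 2 * (-1 / KS v ^ 3)) / 2 +
        A.b t * g * (v * (1 - v) * ((1 - 2 * v) / KS v) - (2 - 3 * v) * KS v) =
        g / KS v * (g ^ 2 / 2 * (KS v ^ 2) - g ^ 2 / 2 +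
          A.b t * (v * (1 - v) * (1 - 2 * v) - (2 - 3 * v) * KS v ^ 2)) := by
      field_simp
      ring
    rw [hE, hk2]
    apply mul_nonpos_of_nonneg_of_nonpos (by positivity)
    have h8 : g ^ 2 / 2 * (2 * v * (1 - v)) - g ^ 2 / 2 +
        A.b t * (v * (1 - v) * (1 - 2 * v) - (2 - 3 * v) * (2 * v * (1 - v))) =
        g ^ 2 * (v * (1 - v) - 1 / 2) + A.b t * (v * (1 - v) * (4 * v - 3)) := by ring
    rw [h8]
    have h9 : A.b t * (v * (1 - v) * (4 * v - 3)) ≤ g ^ 2 * (v * (1 - v)) := by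
      have h10 : v * (1 - v) * (4 * v - 3) ≤ v * (1 - v) := by nlinarith [hv.2]
      calc A.b t * (v * (1 - v) * (4 * v - 3)) ≤ A.b t * (v * (1 - v)) :=
            mul_le_mul_of_nonneg_left h10 hb0
        _ ≤ g ^ 2 * (v * (1 - v)) := mul_le_mul_of_nonneg_right hb hvv0.le
    nlinarith [sq_nonneg g]
  · -- terminal
    have hx := hB.P_T x
    have hxv := hB.V_T x
    have hd := A.dl_pos
    have e1 : A.dl = 1 - A.T := rfl
    rw [hx, hxv]
    have e2 : (gaussianReal 0 1).real (Iic (x / √A.dl)) = Phi (x / √A.dl) := rfl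
    rw [e2, ← e1, div_eq_inv_mul]
    have hs : 0 ≤ (√A.dl)⁻¹ := by positivity
    apply mul_le_mul_of_nonneg_left _ hs
    unfold KS
    apply Real.le_sqrt_of_sq_le
    exact ph_sq_le _

/-- `(1-t) P² ≤ 1/2` -/
theorem step_pub_half (A : SD) (hB : Back A) (h : ∀ t ∈ Ico 0 A.T, (1 - t) * A.b t ≤ 1) :
    ∀ t ∈ Icc 0 A.T, ∀ x, A.P t x ^ 2 ≤ 1 / (2 * (1 - t)) := by
  intro t ht x
  have h1 := step_pub A hB h t ht x
  have h2 : 0 < 1 - t := by linarith [ht.2, A.hT1]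
  rw [le_div_iff₀ (by positivity)]
  nlinarith [sq_nonneg (A.V t x - 1 / 2)]

/-- `Ns ≤ 1/(2(1-t))` -/
theorem Ns_le (A : SD) (hB : Back A) (h : ∀ t ∈ Ico 0 A.T, (1 - t) * A.b t ≤ 1)
    {x0 : ℝ} {p Y Yx Yxx : ℝ → ℝ → ℝ} (hL : Law A x0 p Y Yx Yxx) :
    ∀ t ∈ Icc 0 A.T, Ns A x0 p t ≤ 1 / (2 * (1 - t)) := by
  intro t ht
  unfold Ns ex
  split_ifs with h0
  · exact step_pub_half A hB h t ht x0
  · have ht' : t ∈ Ioc 0 A.T := ⟨not_le.1 h0, ht.2⟩
    have hm := hL.mass t ht'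
    have hi : Integrable (p t) := by
      by_contra hcon
      rw [integral_undef hcon] at hm
      exact zero_ne_one hm
    calc ∫ x, p t x * A.P t x ^ 2 ≤ ∫ x, p t x * (1 / (2 * (1 - t))) := by
          apply integral_mono_of_nonneg
          · exact Eventually.of_forall fun x => mul_nonneg (hL.p_pos t ht' x).le (sq_nonneg _)
          · exact hi.mul_const _
          · exact Eventually.of_forall fun x =>
              mul_le_mul_of_nonneg_left (step_pub_half A hB h t ht x) (hL.p_pos t ht' x).le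
      _ = 1 / (2 * (1 - t)) := by rw [integral_mul_const, hm, one_mul]

end

end Crest.Agent.R146.StepPub_679
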