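import Crest.Agent.R146.NoGapX_649
import Crest.Agent.R146.StepPub_679

/-!
Row 146, PT, no-gap lemma, node (N4) of post 1183 (helper460): CLOSED FORM certificate of `A(x) ≥ c₀/s³`.

At a fixed time of the old clock, `s = √(1-t)`, `ν = s² b ∈ [0,1]`, with the slope band
`(5/4) V^{3/2}(1-V) ≤ s P ≤ (6/5) φ(Φ⁻¹ V)` one has, for `V xa ≤ 10⁻⁶`, `xa ≤ x`, `1/2 ≤ V x`,
`10⁻⁷/s³ ≤ ∫_{xa}^x [P_x² + 6b(1-2V)P² + 6b²V²(1-V)²]`.

Proof: one square `(P_x - 3bV(1-V) + cP)² ≥ 0` (`sq_int`); `c = (3/2) b` for `ν ≥ 1/256`,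
`c = -λ/s` at the level `V = 1/2` for `ν ≤ 1/256`.
-/

set_option autoImplicit false

namespace Crest.Agent.R146.NoGapN4_460

open MeasureTheory ProbabilityTheory Set Filter Topology intervalIntegral
open Crest.Agent.R146.StepStart_483
open Crest.Agent.R146.NoGapX_649 (II II_continuous II_nonneg neg_le_II)

noncomputable section

/-! ### Gaussian facts -/

theorem ph_zero_lt : ph 0 < 399 / 1000 := by
  rw [ph_eq]
  have h0 : Real.exp (-(0:ℝ) ^ 2 / 2) = 1 := by norm_num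
  rw [h0, mul_one]
  have h1 : (1000:ℝ) / 399 < √(2 * Real.pi) := by
    apply Real.lt_sqrt_of_sq_lt
    have := Real.pi_gt_d4
    norm_num
    linarith
  have h2 : (√(2 * Real.pi))⁻¹ < ((1000:ℝ) / 399)⁻¹ := by
    apply inv_strictAnti₀ (by norm_num) h1
  calc (√(2 * Real.pi))⁻¹ < ((1000:ℝ) / 399)⁻¹ := h2
    _ = 399 / 1000 := by norm_num

theorem ph_le_zero (z : ℝ) : ph z ≤ ph 0 := by
  rw [ph_eq, ph_eq]
  apply mul_le_mul_of_nonneg_left _ (by positivity)
  apply Real.exp_le_exp.2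
  nlinarith [sq_nonneg z]

theorem Phi_zero : Phi 0 = 1 / 2 := by
  have := Phi_neg 0
  rw [neg_zero] at this
  linarith

/-- `Φ(z) - 1/2 ≤ (399/1000) z` for `z ≥ 0` -/
theorem Phi_sub_le {z : ℝ} (hz : 0 ≤ z) : Phi z - 1 / 2 ≤ 399 / 1000 * z := by
  have hd : ∀ x : ℝ, HasDerivAt (fun y => Phi y - 399 / 1000 * y) (ph x - 399 / 1000) x := by
    intro x
    have h1 : HasDerivAt (fun y => Phi y - 399 / 1000 * y) (ph x - 399 / 1000 * 1) x :=
      (Phi_deriv x).sub ((hasDerivAt_id x).const_mul (399/1000 : ℝ))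
    rwa [mul_one] at h1
  have hD : AntitoneOn (fun y => Phi y - 399 / 1000 * y) (Ici 0) := by
    apply antitoneOn_of_deriv_nonpos (convex_Ici 0)
    · exact fun x _ => (hd x).continuousAt.continuousWithinAt
    · exact fun x _ => (hd x).differentiableAt.differentiableWithinAt
    · intro y _
      rw [(hd y).deriv]
      have := ph_le_zero y
      have := ph_zero_lt
      linarith
  have h := hD (mem_Ici.2 le_rfl) (mem_Ici.2 hz) hz
  simp only [Phi_zero, mul_zero, sub_zero] at h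
  linarith

/-- the quadratic majorant of `φ∘Φ⁻¹` -/
theorem ph_le_quad (z : ℝ) : ph z ≤ 399 / 1000 - 5 / 4 * (Phi z - 1 / 2) ^ 2 := by
  have key : ∀ y : ℝ, 0 ≤ y → ph y ≤ 399 / 1000 - 5 / 4 * (Phi y - 1 / 2) ^ 2 := by
    intro y hy
    have hd : ∀ x : ℝ, HasDerivAt (fun y => 399 / 1000 - 5 / 4 * (Phi y - 1 / 2) ^ 2 - ph y)
        (ph x * (x - 5 / 2 * (Phi x - 1 / 2))) x := by
      intro x
      have h1 : HasDerivAt (fun y => 5 / 4 * (Phi y - 1 / 2) ^ 2)
          (5 / 4 * ((2:ℕ) * (Phi x - 1 / 2) ^ (2 - 1) * ph x)) x :=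
        (((Phi_deriv x).sub_const (1/2)).pow 2).const_mul (5/4 : ℝ)
      have h2 : HasDerivAt (fun y => 399 / 1000 - 5 / 4 * (Phi y - 1 / 2) ^ 2 - ph y)
          (-(5 / 4 * ((2:ℕ) * (Phi x - 1 / 2) ^ (2 - 1) * ph x)) - (-x * ph x)) x :=
        (h1.const_sub (399/1000 : ℝ)).sub (ph_deriv x)
      convert h2 using 1
      norm_num
      ring
    have hD : MonotoneOn (fun y => 399 / 1000 - 5 / 4 * (Phi y - 1 / 2) ^ 2 - ph y) (Ici 0) := by
      apply monotoneOn_of_deriv_nonneg (convex_Ici 0)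
      · exact fun x _ => (hd x).continuousAt.continuousWithinAt
      · exact fun x _ => (hd x).differentiableAt.differentiableWithinAt
      · intro x hx
        rw [interior_Ici] at hx
        rw [(hd x).deriv]
        have h3 := Phi_sub_le (le_of_lt hx)
        have h4 := ph_pos x
        have h5 : (0:ℝ) < x := hx
        apply mul_nonneg h4.le
        nlinarith
    have h := hD (mem_Ici.2 le_rfl) (mem_Ici.2 hy) hy
    simp only [Phi_zero] at h
    have := ph_zero_lt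
    nlinarith
  rcases le_total 0 z with h | h
  · exact key z h
  · have h1 := key (-z) (by linarith)
    rw [ph_neg, Phi_neg] at h1
    nlinarith

theorem Phi_tendsto_atTop : Tendsto Phi atTop (𝓝 1) := by
  have h1 : Tendsto (fun z => 1 - Phi (-z)) atTop (𝓝 (1 - 0)) :=
    (Phi_tendsto_atBot.comp tendsto_neg_atTop_atBot).const_sub 1
  rw [sub_zero] at h1
  refine h1.congr fun z => ?_
  rw [Phi_neg]; ring

theorem ph_tendsto_atTop : Tendsto ph atTop (𝓝 0) := by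
  have h1 : Tendsto (fun z => ph (-z)) atTop (𝓝 0) :=
    ph_tendsto_atBot.comp tendsto_neg_atTop_atBot
  exact h1.congr fun z => ph_neg z

/-- Mills' lower bound -/
theorem mills (y : ℝ) : y / (1 + y ^ 2) * ph y ≤ 1 - Phi y := by
  have hd : ∀ x : ℝ, HasDerivAt (fun y => 1 - Phi y - y / (1 + y ^ 2) * ph y)
      (-(2 * ph x / (1 + x ^ 2) ^ 2)) x := by
    intro x
    have h0 : (1 + x ^ 2) ≠ 0 := by positivity
    have h1 : HasDerivAt (fun y : ℝ => y / (1 + y ^ 2)) ((1 * (1 + x ^ 2) - x * (2 * x)) / (1 + x ^ 2) ^ 2) x := by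
      apply (hasDerivAt_id x).div _ h0
      simpa using ((hasDerivAt_id x).pow 2).const_add 1
    have h2 : HasDerivAt (fun y => 1 - Phi y - y / (1 + y ^ 2) * ph y)
        (-ph x - ((1 * (1 + x ^ 2) - x * (2 * x)) / (1 + x ^ 2) ^ 2 * ph x +
          x / (1 + x ^ 2) * (-x * ph x))) x :=
      ((Phi_deriv x).const_sub 1).sub (h1.mul (ph_deriv x))
    convert h2 using 1
    field_simp
    ring
  have hD : Antitone (fun y => 1 - Phi y - y / (1 + y ^ 2) * ph y) := by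
    apply antitone_of_deriv_nonpos
    · exact fun x => (hd x).differentiableAt
    · intro x
      rw [(hd x).deriv]
      have := ph_pos x
      have : 0 ≤ 2 * ph x / (1 + x ^ 2) ^ 2 := by positivity
      linarith
  have hlim : Tendsto (fun y => 1 - Phi y - y / (1 + y ^ 2) * ph y) atTop (𝓝 0) := by
    have h1 : Tendsto (fun y => 1 - Phi y) atTop (𝓝 0) := by
      simpa using Phi_tendsto_atTop.const_sub 1
    have h2 : Tendsto (fun y => y / (1 + y ^ 2) * ph y) atTop (𝓝 0) := by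
      apply squeeze_zero' (g := ph) _ _ ph_tendsto_atTop
      · filter_upwards [eventually_ge_atTop 0] with y hy
        have := ph_pos y
        positivity
      · filter_upwards [eventually_ge_atTop 0] with y hy
        have := ph_pos y
        have h3 : y / (1 + y ^ 2) ≤ 1 := by
          rw [div_le_one (by positivity)]
          nlinarith [sq_nonneg (y - 1)]
        nlinarith
    simpa using h1.sub h2
  have h := hD.le_of_tendsto hlim y
  linarith

theorem exists_Phi {v : ℝ} (h0 : 0 < v) (h1 : v < 1) : ∃ y, Phi y = v := by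
  have ha : ∃ a, Phi a < v := (Phi_tendsto_atBot.eventually (gt_mem_nhds h0)).exists
  have hb : ∃ b, v < Phi b := (Phi_tendsto_atTop.eventually (lt_mem_nhds h1)).exists
  obtain ⟨a, ha⟩ := ha
  obtain ⟨b, hb⟩ := hb
  exact mem_range_of_exists_le_of_exists_ge Phi_cont ⟨a, ha.le⟩ ⟨b, hb.le⟩

theorem exp_aux : Real.exp (-(39/10 : ℝ)) ≤ 1 / 49 := by
  have h1 : (49:ℝ) ≤ Real.exp (39/10) := by
    have h2 : Real.exp (39/10 : ℝ) = Real.exp 1 ^ 4 * Real.exp (-(1/10 : ℝ)) := by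
      rw [← Real.exp_nat_mul, ← Real.exp_add]
      norm_num
    have h3 := Real.exp_one_gt_d9
    have h4 := Real.add_one_le_exp (-(1/10 : ℝ))
    have h5 : (2.718:ℝ) ^ 4 ≤ Real.exp 1 ^ 4 := by
      apply pow_le_pow_left₀ (by norm_num)
      linarith
    rw [h2]
    have h6 : (0:ℝ) < Real.exp 1 ^ 4 := by positivity
    nlinarith
  rw [Real.exp_neg, one_div]
  exact inv_anti₀ (by norm_num) h1

theorem ph_small {y : ℝ} (hy : 14 / 5 ≤ y) : ph y ≤ 1 / 120 := by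
  rw [ph_eq]
  have h0 := ph_zero_lt
  rw [ph_eq] at h0
  have h00 : Real.exp (-(0:ℝ) ^ 2 / 2) = 1 := by norm_num
  rw [h00, mul_one] at h0
  have h1 : Real.exp (-y ^ 2 / 2) ≤ 1 / 49 := by
    refine le_trans (Real.exp_le_exp.2 ?_) exp_aux
    nlinarith
  have h2 := Real.exp_pos (-y ^ 2 / 2)
  have h3 : (0:ℝ) < (√(2 * Real.pi))⁻¹ := by positivity
  nlinarith

/-! ### polynomial certificates -/

/-- `M' = (6/5)(399/1000 - (5/4)(v-1/2)²)`, `M 0 = 0` -/
def MM (v : ℝ) : ℝ := 6 / 5 * (399 / 1000 * v - 5 / 12 * ((v - 1 / 2) ^ 3 + 1 / 8))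

/-- `H' = v(1-v)` -/
def HH (v : ℝ) : ℝ := v ^ 2 / 2 - v ^ 3 / 3

/-- in the variable `w = √v`: `(4/5)((2/3) v^{3/2} - (2/5) v^{5/2})` -/
def QQ (w : ℝ) : ℝ := 4 / 5 * (2 / 3 * w ^ 3 - 2 / 5 * w ^ 5)

def BB (w : ℝ) : ℝ := 9 * HH (w ^ 2) - 9 / 4 * MM (w ^ 2) - 3 * QQ w

theorem BB_eq (w : ℝ) : BB w = w ^ 2 *
    (-(15 / 8) * w ^ 4 + 24 / 25 * w ^ 3 + 45 / 16 * w ^ 2 - 8 / 5 * w - 4671 / 20000) := by
  unfold BB HH MM QQ
  ring

theorem BB_ge1 {w : ℝ} (h0 : 7 / 10 ≤ w) (h1 : w ≤ 1) : -(1 / 10) ≤ BB w := by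
  rw [BB_eq]
  have h2 : -(1 / 10) ≤ (-(15 / 8) * w ^ 4 + 24 / 25 * w ^ 3 + 45 / 16 * w ^ 2 - 8 / 5 * w - 4671 / 20000) := by
    nlinarith [mul_nonneg (sub_nonneg.2 h0) (sub_nonneg.2 h1), mul_nonneg (mul_nonneg (sub_nonneg.2 h0) (sub_nonneg.2 h1)) (sub_nonneg.2 h0),
      mul_nonneg (mul_nonneg (sub_nonneg.2 h0) (sub_nonneg.2 h1)) (mul_nonneg (sub_nonneg.2 h0) (sub_nonneg.2 h1))]
  have h3 : w ^ 2 ≤ 1 := by nlinarith
  nlinarith [sq_nonneg w]

theorem BB_ge2 {w : ℝ} (h0 : 83 / 100 ≤ w) (h1 : w ≤ 1) : 1 / 50 ≤ BB w := by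
  rw [BB_eq]
  have h2 : 3 / 100 ≤ (-(15 / 8) * w ^ 4 + 24 / 25 * w ^ 3 + 45 / 16 * w ^ 2 - 8 / 5 * w - 4671 / 20000) := by
    nlinarith [mul_nonneg (sub_nonneg.2 h0) (sub_nonneg.2 h1), mul_nonneg (mul_nonneg (sub_nonneg.2 h0) (sub_nonneg.2 h1)) (sub_nonneg.2 h0),
      mul_nonneg (mul_nonneg (sub_nonneg.2 h0) (sub_nonneg.2 h1)) (mul_nonneg (sub_nonneg.2 h0) (sub_nonneg.2 h1))]
  nlinarith [sq_nonneg w]

theorem BB_ge3 {w : ℝ} (h0 : 97 / 100 ≤ w) (h1 : w ≤ 1) : 3 / 50 ≤ BB w := by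
  rw [BB_eq]
  nlinarith [mul_nonneg (sub_nonneg.2 h0) (sub_nonneg.2 h1), mul_nonneg (mul_nonneg (sub_nonneg.2 h0) (sub_nonneg.2 h1)) (sub_nonneg.2 h0),
      mul_nonneg (mul_nonneg (sub_nonneg.2 h0) (sub_nonneg.2 h1)) (mul_nonneg (sub_nonneg.2 h0) (sub_nonneg.2 h1)),
      mul_nonneg (mul_nonneg (sub_nonneg.2 h0) (sub_nonneg.2 h1)) (sub_nonneg.2 h1)]

/-! ### the data at one time -/

/-- one time of the old clock, `s = √(1-t)`, `ν = s² b ∈ [0,1]`, with the slope band -/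
structure Band (s b : ℝ) (V P Px : ℝ → ℝ) : Prop where
  s_pos : 0 < s
  b_nonneg : 0 ≤ b
  nu_le : s ^ 2 * b ≤ 1
  dV : ∀ x, HasDerivAt V (P x) x
  dP : ∀ x, HasDerivAt P (Px x) x
  cPx : Continuous Px
  V_pos : ∀ x, 0 < V x
  V_lt : ∀ x, V x < 1
  P_pos : ∀ x, 0 < P x
  lo : ∀ x, 5 / 4 * (V x * √(V x) * (1 - V x)) ≤ s * P x
  up : ∀ x y, Phi y = V x → s * P x ≤ 6 / 5 * ph y

namespace Band

variable {s b : ℝ} {V P Px : ℝ → ℝ}

theorem cV (h : Band s b V P Px) : Continuous V :=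
  continuous_iff_continuousAt.2 fun x => (h.dV x).continuousAt
theorem cP (h : Band s b V P Px) : Continuous P :=
  continuous_iff_continuousAt.2 fun x => (h.dP x).continuousAt

theorem mono (h : Band s b V P Px) : Monotone V := by
  apply monotone_of_deriv_nonneg
  · exact fun x => (h.dV x).differentiableAt
  · intro x; rw [(h.dV x).deriv]; exact (h.P_pos x).le

theorem up_quad (h : Band s b V P Px) (x : ℝ) :
    s * P x ≤ 6 / 5 * (399 / 1000 - 5 / 4 * (V x - 1 / 2) ^ 2) := by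
  obtain ⟨y, hy⟩ := exists_Phi (h.V_pos x) (h.V_lt x)
  have h1 := h.up x y hy
  have h2 := ph_le_quad y
  rw [hy] at h2
  linarith

theorem up_sq (h : Band s b V P Px) (x : ℝ) : (s * P x) ^ 2 ≤ 3 * V x := by
  obtain ⟨y, hy⟩ := exists_Phi (h.V_pos x) (h.V_lt x)
  have h1 := h.up x y hy
  have h2 := StepPub_679.ph_sq_le y
  rw [hy] at h2
  have h3 := mul_pos h.s_pos (h.P_pos x)
  have h4 := ph_pos y
  have h5 := h.V_pos x
  have h6 := h.V_lt x
  have h7 : (s * P x) ^ 2 ≤ (6 / 5 * ph y) ^ 2 := by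
    apply pow_le_pow_left₀ h3.le h1
  nlinarith

/-- `s ∫ P² ≤ M(V x) - M(V a)` -/
theorem X_le (h : Band s b V P Px) {a x : ℝ} (hx : a ≤ x) :
    s * ∫ y in a..x, P y ^ 2 ≤ MM (V x) - MM (V a) := by
  have hd : ∀ y, HasDerivAt (fun y => MM (V y))
      (6 / 5 * (399 / 1000 - 5 / 4 * (V y - 1 / 2) ^ 2) * P y) y := by
    intro y
    have h1 : HasDerivAt MM (6 / 5 * (399 / 1000 - 5 / 4 * (V y - 1 / 2) ^ 2)) (V y) := by
      have h2 : HasDerivAt MM
          (6 / 5 * (399 / 1000 * 1 - 5 / 12 * ((3:ℕ) * (V y - 1 / 2) ^ (3 - 1) * 1))) (V y) :=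
        (((hasDerivAt_id (V y)).const_mul (399/1000 : ℝ)).sub
          (((((hasDerivAt_id (V y)).sub_const (1/2)).pow 3).add_const (1/8)).const_mul (5/12 : ℝ))).const_mul (6/5 : ℝ)
      refine h2.congr_deriv ?_
      norm_num
      ring
    exact h1.comp y (h.dV y)
  have hc : Continuous fun y => 6 / 5 * (399 / 1000 - 5 / 4 * (V y - 1 / 2) ^ 2) * P y := by
    have := h.cV
    have := h.cP
    fun_prop
  have hi : ∫ y in a..x, 6 / 5 * (399 / 1000 - 5 / 4 * (V y - 1 / 2) ^ 2) * P y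
      = MM (V x) - MM (V a) :=
    integral_eq_sub_of_hasDerivAt (fun y _ => hd y) (hc.intervalIntegrable _ _)
  rw [← hi, ← intervalIntegral.integral_const_mul]
  have hcP := h.cP
  apply intervalIntegral.integral_mono_on hx
  · exact (by fun_prop : Continuous fun y => s * P y ^ 2).intervalIntegrable _ _
  · exact hc.intervalIntegrable _ _
  · intro y _
    have h1 := h.up_quad y
    have h2 := h.P_pos y
    nlinarith

/-- `∫ V²(1-V)² ≤ s (Q(√V x) - Q(√V a))` -/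
theorem Q_le (h : Band s b V P Px) {a x : ℝ} (hx : a ≤ x) :
    ∫ y in a..x, V y ^ 2 * (1 - V y) ^ 2 ≤ s * (QQ (√(V x)) - QQ (√(V a))) := by
  have hd : ∀ y, HasDerivAt (fun y => s * QQ (√(V y)))
      (s * (4 / 5 * (√(V y) * (1 - V y) * P y))) y := by
    intro y
    have hV := h.V_pos y
    have hw : 0 < √(V y) := Real.sqrt_pos.2 hV
    have hw2 : √(V y) ^ 2 = V y := Real.sq_sqrt hV.le
    have h1 : HasDerivAt (fun y => √(V y)) (P y / (2 * √(V y))) y := (h.dV y).sqrt hV.ne'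
    have h2 : HasDerivAt QQ (4 / 5 * (2 / 3 * ((3:ℕ) * √(V y) ^ (3 - 1) * 1) -
        2 / 5 * ((5:ℕ) * √(V y) ^ (5 - 1) * 1))) (√(V y)) :=
      ((((hasDerivAt_id (√(V y))).pow 3).const_mul (2/3 : ℝ)).sub
        (((hasDerivAt_id (√(V y))).pow 5).const_mul (2/5 : ℝ))).const_mul (4/5 : ℝ)
    have h30 := HasDerivAt.comp (h₂ := QQ) (h := fun y => √(V y)) y h2 h1
    have h3 : HasDerivAt (fun y => s * QQ (√(V y))) _ y := h30.const_mul s
    refine h3.congr_deriv ?_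
    generalize √(V y) = w at hw hw2 ⊢
    rw [← hw2]
    field_simp
    norm_num
    ring
  have hcV := h.cV
  have hcP := h.cP
  have hc : Continuous fun y => s * (4 / 5 * (√(V y) * (1 - V y) * P y)) := by
    fun_prop
  have hi : ∫ y in a..x, s * (4 / 5 * (√(V y) * (1 - V y) * P y))
      = s * QQ (√(V x)) - s * QQ (√(V a)) :=
    integral_eq_sub_of_hasDerivAt (fun y _ => hd y) (hc.intervalIntegrable _ _)
  rw [mul_sub, ← hi]
  apply intervalIntegral.integral_mono_on hx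
  · exact (by fun_prop : Continuous fun y => V y ^ 2 * (1 - V y) ^ 2).intervalIntegrable _ _
  · exact hc.intervalIntegrable _ _
  · intro y _
    have h1 := h.lo y
    have hV := h.V_pos y
    have hV1 := h.V_lt y
    have hw : 0 < √(V y) := Real.sqrt_pos.2 hV
    have hw2 : √(V y) * √(V y) = V y := Real.mul_self_sqrt hV.le
    have h2 : √(V y) * (1 - V y) * (5 / 4 * (V y * √(V y) * (1 - V y))) ≤
        √(V y) * (1 - V y) * (s * P y) :=
      mul_le_mul_of_nonneg_left h1 (mul_nonneg hw.le (by linarith))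
    have h3 : √(V y) * (1 - V y) * (5 / 4 * (V y * √(V y) * (1 - V y))) =
        5 / 4 * (V y ^ 2 * (1 - V y) ^ 2) := by
      calc _ = 5 / 4 * ((√(V y) * √(V y)) * V y * (1 - V y) ^ 2) := by ring
        _ = _ := by rw [hw2]; ring
    nlinarith

/-- **the square inequality** (any real `c`) -/
theorem sq_int (h : Band s b V P Px) (c : ℝ) {a x : ℝ} (hx : a ≤ x) :
    6 * b * (V x * (1 - V x) * P x) - c * P x ^ 2 + 6 * b * c * HH (V x)
      - (6 * b * (V a * (1 - V a) * P a) - c * P a ^ 2 + 6 * b * c * HH (V a))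
      - c ^ 2 * (∫ y in a..x, P y ^ 2) - 3 * b ^ 2 * (∫ y in a..x, V y ^ 2 * (1 - V y) ^ 2)
      ≤ ∫ y in a..x, II b V P Px y := by
  have hcV := h.cV
  have hcP := h.cP
  have hcPx := h.cPx
  have hd : ∀ y, HasDerivAt
      (fun y => 6 * b * (V y * (1 - V y) * P y) - c * P y ^ 2 + 6 * b * c * HH (V y))
      (6 * b * (P y * (1 - 2 * V y) * P y + V y * (1 - V y) * Px y) - c * (2 * P y * Px y)
        + 6 * b * c * (V y * (1 - V y) * P y)) y := by
    intro y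
    have h1 : HasDerivAt (fun y => V y * (1 - V y) * P y)
        ((P y * (1 - V y) + V y * (-P y)) * P y + V y * (1 - V y) * Px y) y :=
      ((h.dV y).mul ((h.dV y).const_sub 1)).mul (h.dP y)
    have h2 : HasDerivAt (fun y => P y ^ 2) ((2:ℕ) * P y ^ (2 - 1) * Px y) y := (h.dP y).pow 2
    have h3 : HasDerivAt HH (V y * (1 - V y)) (V y) := by
      have h4 : HasDerivAt HH
          ((2:ℕ) * V y ^ (2 - 1) * 1 / 2 - (3:ℕ) * V y ^ (3 - 1) * 1 / 3) (V y) :=
        (((hasDerivAt_id (V y)).pow 2).div_const 2).sub (((hasDerivAt_id (V y)).pow 3).div_const 3)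
      refine h4.congr_deriv ?_
      norm_num
      ring
    have h5 : HasDerivAt (fun y => HH (V y)) (V y * (1 - V y) * P y) y := h3.comp y (h.dV y)
    have h2' : HasDerivAt (fun y => P y ^ 2) (2 * P y * Px y) y := by
      refine h2.congr_deriv ?_
      norm_num
    have h6 := ((h1.const_mul (6 * b)).sub (h2'.const_mul c)).add (h5.const_mul (6 * b * c))
    refine h6.congr_deriv ?_
    ring
  have hc : Continuous fun y => 6 * b * (P y * (1 - 2 * V y) * P y + V y * (1 - V y) * Px y)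
      - c * (2 * P y * Px y) + 6 * b * c * (V y * (1 - V y) * P y) := by
    fun_prop
  have hi := integral_eq_sub_of_hasDerivAt (a := a) (b := x) (fun y _ => hd y)
    (hc.intervalIntegrable _ _)
  have e1 : (6 * b * (V x * (1 - V x) * P x) - c * P x ^ 2 + 6 * b * c * HH (V x)
      - (6 * b * (V a * (1 - V a) * P a) - c * P a ^ 2 + 6 * b * c * HH (V a))
      - c ^ 2 * (∫ y in a..x, P y ^ 2) - 3 * b ^ 2 * (∫ y in a..x, V y ^ 2 * (1 - V y) ^ 2)) =
      ∫ y in a..x, ((6 * b * (P y * (1 - 2 * V y) * P y + V y * (1 - V y) * Px y)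
        - c * (2 * P y * Px y) + 6 * b * c * (V y * (1 - V y) * P y)) - c ^ 2 * P y ^ 2
        - 3 * b ^ 2 * (V y ^ 2 * (1 - V y) ^ 2)) := by
    rw [intervalIntegral.integral_sub, intervalIntegral.integral_sub, hi,
      intervalIntegral.integral_const_mul, intervalIntegral.integral_const_mul]
    · exact hc.intervalIntegrable _ _
    · exact (by fun_prop : Continuous fun y => c ^ 2 * P y ^ 2).intervalIntegrable _ _
    · exact (hc.sub (by fun_prop)).intervalIntegrable _ _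
    · exact (by fun_prop : Continuous fun y => 3 * b ^ 2 * (V y ^ 2 * (1 - V y) ^ 2)).intervalIntegrable _ _
  rw [e1]
  apply intervalIntegral.integral_mono_on hx
  · exact ((hc.sub (by fun_prop)).sub (by fun_prop)).intervalIntegrable _ _
  · exact (II_continuous hcV hcP hcPx).intervalIntegrable _ _
  · intro y _
    unfold II
    nlinarith [sq_nonneg (Px y - 3 * b * (V y * (1 - V y)) + c * P y)]

end Band

theorem MM_nonneg {v : ℝ} (h0 : 0 ≤ v) (h1 : v ≤ 1) : 0 ≤ MM v := by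
  have : MM v = v * (519 / 5000 + 3 / 4 * v - 1 / 2 * v ^ 2) := by unfold MM; ring
  rw [this]
  apply mul_nonneg h0
  nlinarith

theorem MM_half : MM (1 / 2) = 1769 / 10000 := by
  unfold MM; norm_num

theorem MM_le {v : ℝ} (h0 : 0 ≤ v) (h1 : v ≤ 1) : MM v ≤ 3538 / 10000 := by
  have e : 3538 / 10000 - MM v = (1 - v) * (3538 / 10000 + 1 / 4 * v * (1 - v) + 1/4 * v ^ 2
      - 1 / 4 * v + 0) + (1 - v) * (1/4 * v + 1/4 * v * (1 - v)) - (1-v) * 0
      - (MM v - 3538/10000 + (1 - v) * (3538 / 10000 + 1 / 4 * v * (1 - v) + 1/4 * v ^ 2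
      - 1 / 4 * v + 0) + (1 - v) * (1/4 * v + 1/4 * v * (1 - v))) := by ring
  have : MM v = v * (519 / 5000 + 3 / 4 * v - 1 / 2 * v ^ 2) := by unfold MM; ring
  rw [this]
  nlinarith [mul_nonneg h0 (sub_nonneg.2 h1), mul_nonneg (mul_nonneg h0 h0) (sub_nonneg.2 h1)]

theorem QQ_nonneg {w : ℝ} (h0 : 0 ≤ w) (h1 : w ≤ 1) : 0 ≤ QQ w := by
  have : QQ w = 4 / 5 * w ^ 3 * (2 / 3 - 2 / 5 * w ^ 2) := by unfold QQ; ring
  rw [this]
  have : w ^ 2 ≤ 1 := by nlinarith
  have : 0 ≤ 2 / 3 - 2 / 5 * w ^ 2 := by linarith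
  positivity

namespace Band

variable {s b : ℝ} {V P Px : ℝ → ℝ}

/-- the square inequality in scaled variables, `c = γ/s` -/
theorem scaled (h : Band s b V P Px) (γ : ℝ) {a x : ℝ} (hx : a ≤ x) :
    6 * (s ^ 2 * b) * (V x * (1 - V x)) * (s * P x) - γ * (s * P x) ^ 2
      + 6 * (s ^ 2 * b) * γ * (HH (V x) - HH (V a))
      - 6 * (s ^ 2 * b) * (V a * (1 - V a)) * (s * P a) + γ * (s * P a) ^ 2
      - γ ^ 2 * (MM (V x) - MM (V a)) - 3 * (s ^ 2 * b) ^ 2 * (QQ (√(V x)) - QQ (√(V a)))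
      ≤ s ^ 3 * ∫ y in a..x, II b V P Px y := by
  have h1 := h.sq_int (γ / s) hx
  have hs := h.s_pos
  have h2 := mul_le_mul_of_nonneg_left h1 (pow_pos hs 3).le
  have h3 := h.X_le hx
  have h4 := h.Q_le hx
  refine le_trans ?_ h2
  have e1 : s ^ 3 * (6 * b * (V x * (1 - V x) * P x) - γ / s * P x ^ 2 + 6 * b * (γ / s) * HH (V x)
      - (6 * b * (V a * (1 - V a) * P a) - γ / s * P a ^ 2 + 6 * b * (γ / s) * HH (V a))
      - (γ / s) ^ 2 * (∫ y in a..x, P y ^ 2) - 3 * b ^ 2 * (∫ y in a..x, V y ^ 2 * (1 - V y) ^ 2))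
      = 6 * (s ^ 2 * b) * (V x * (1 - V x)) * (s * P x) - γ * (s * P x) ^ 2
      + 6 * (s ^ 2 * b) * γ * (HH (V x) - HH (V a))
      - 6 * (s ^ 2 * b) * (V a * (1 - V a)) * (s * P a) + γ * (s * P a) ^ 2
      - γ ^ 2 * (s * ∫ y in a..x, P y ^ 2)
      - 3 * b ^ 2 * s ^ 3 * (∫ y in a..x, V y ^ 2 * (1 - V y) ^ 2) := by
    field_simp
    ring
  rw [e1]
  have h5 : γ ^ 2 * (s * ∫ y in a..x, P y ^ 2) ≤ γ ^ 2 * (MM (V x) - MM (V a)) :=
    mul_le_mul_of_nonneg_left h3 (sq_nonneg γ)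
  have h6 : 3 * b ^ 2 * s ^ 3 * (∫ y in a..x, V y ^ 2 * (1 - V y) ^ 2) ≤
      3 * b ^ 2 * s ^ 3 * (s * (QQ (√(V x)) - QQ (√(V a)))) :=
    mul_le_mul_of_nonneg_left h4 (by positivity)
  have e2 : 3 * b ^ 2 * s ^ 3 * (s * (QQ (√(V x)) - QQ (√(V a)))) =
      3 * (s ^ 2 * b) ^ 2 * (QQ (√(V x)) - QQ (√(V a))) := by ring
  linarith

theorem kap_le (h : Band s b V P Px) (x : ℝ) : s * P x ≤ 479 / 1000 := by
  have := h.up_quad x
  nlinarith [sq_nonneg (V x - 1 / 2)]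

theorem kap_pos (h : Band s b V P Px) (x : ℝ) : 0 < s * P x := mul_pos h.s_pos (h.P_pos x)

/-- for `V ≥ .955`: `κ(6vr - (3/2)κ) ≥ -3/20000` -/
theorem far (h : Band s b V P Px) {x : ℝ} (hv : 191 / 200 ≤ V x) :
    -(3 / 20000) ≤ (s * P x) * (6 * (V x * (1 - V x)) - 3 / 2 * (s * P x)) := by
  obtain ⟨y, hy⟩ := exists_Phi (h.V_pos x) (h.V_lt x)
  have h1 := h.up x y hy
  have h2 := h.kap_pos x
  have h3 := ph_pos y
  have hr : 0 < 1 - V x := by linarith [h.V_lt x]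
  have hvr : 0 < V x * (1 - V x) := mul_pos (h.V_pos x) hr
  have hy0 : 0 ≤ y := by
    by_contra hc
    push Not at hc
    have := StepPub_679.Phi_le_half hc.le
    rw [hy] at this
    linarith
  have hy1 : 1 ≤ y := by
    have := Phi_sub_le hy0
    rw [hy] at this
    linarith
  rcases le_total (14 / 5) y with h5 | h5
  · have h6 := ph_small h5
    have h7 : s * P x ≤ 1 / 100 := by linarith
    nlinarith
  · have h6 := mills y
    rw [hy] at h6
    have h7 : 63 / 200 ≤ y / (1 + y ^ 2) := by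
      rw [le_div_iff₀ (by positivity)]
      nlinarith
    have h8 : 63 / 200 * ph y ≤ 1 - V x := by nlinarith
    have h9 : 0 ≤ 6 * (V x * (1 - V x)) - 3 / 2 * (s * P x) := by
      have h10 : 191 / 200 * (1 - V x) ≤ V x * (1 - V x) := by nlinarith
      nlinarith
    have := mul_nonneg h2.le h9
    linarith

/-- the bracket of regime 2 -/
theorem bracket (h : Band s b V P Px) {x ν : ℝ} (h0 : 1 / 256 ≤ ν) (h1 : ν ≤ 1)
    (hv : 1 / 2 ≤ V x) :
    1 / 20000 ≤ (s * P x) * (6 * (V x * (1 - V x)) - 3 / 2 * (s * P x)) + ν * BB (√(V x)) := by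
  have hV0 := h.V_pos x
  have hV1 := h.V_lt x
  have hw2 : √(V x) ^ 2 = V x := Real.sq_sqrt hV0.le
  have hw0 : 0 < √(V x) := Real.sqrt_pos.2 hV0
  have hw1 : √(V x) ≤ 1 := by
    rw [Real.sqrt_le_one]; exact hV1.le
  have hk := h.kap_pos x
  have hk1 := h.kap_le x
  rcases le_total (V x) (7 / 10) with c1 | c1
  · have h2 : 7 / 10 ≤ √(V x) := by
      apply Real.le_sqrt_of_sq_le
      norm_num
      linarith
    have h2' : √(V x) ≤ 84 / 100 := by
      apply Real.sqrt_le_iff.2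
      constructor
      · norm_num
      · norm_num
        linarith
    have h3 := BB_ge1 h2 hw1
    have h4 := h.lo x
    have h5 : 168 / 1000 ≤ √(V x) ^ 3 * (1 - √(V x) ^ 2) := by
      generalize √(V x) = w at h2 h2' ⊢
      nlinarith [mul_nonneg (sub_nonneg.2 h2) (sub_nonneg.2 h2'),
        mul_nonneg (mul_nonneg (sub_nonneg.2 h2) (sub_nonneg.2 h2')) (sub_nonneg.2 h2),
        mul_nonneg (mul_nonneg (sub_nonneg.2 h2) (sub_nonneg.2 h2')) (sub_nonneg.2 h2'),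
        mul_nonneg (mul_nonneg (sub_nonneg.2 h2) (sub_nonneg.2 h2')) (mul_nonneg (sub_nonneg.2 h2) (sub_nonneg.2 h2'))]
    have h5' : √(V x) ^ 3 * (1 - √(V x) ^ 2) = V x * √(V x) * (1 - V x) := by
      rw [pow_succ, hw2]
    have h7 : 21 / 100 ≤ s * P x := by
      rw [h5'] at h5
      linarith
    have h8 : 1 / 2 ≤ 6 * (V x * (1 - V x)) - 3 / 2 * (s * P x) := by nlinarith
    have h9 : 21 / 100 * (1 / 2) ≤ (s * P x) * (6 * (V x * (1 - V x)) - 3 / 2 * (s * P x)) :=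
      mul_le_mul h7 h8 (by norm_num) hk.le
    have h10 : -(1 / 10) ≤ ν * BB (√(V x)) := by nlinarith
    linarith
  · have h2 : 83 / 100 ≤ √(V x) := by
      apply Real.le_sqrt_of_sq_le
      norm_num
      linarith
    rcases le_total (V x) (191 / 200) with c2 | c2
    · have h3 := BB_ge2 h2 hw1
      have h4 := h.up_quad x
      have h5 : 0 ≤ 6 * (V x * (1 - V x)) - 3 / 2 * (s * P x) := by nlinarith
      have h6 := mul_nonneg hk.le h5
      have h7 : 1 / 256 * (1 / 50) ≤ ν * BB (√(V x)) :=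
        mul_le_mul h0 h3 (by norm_num) (by linarith)
      linarith
    · have h3 : 97 / 100 ≤ √(V x) := by
        apply Real.le_sqrt_of_sq_le
        norm_num
        linarith
      have h4 := BB_ge3 h3 hw1
      have h5 := h.far c2
      have h7 : 1 / 256 * (3 / 50) ≤ ν * BB (√(V x)) :=
        mul_le_mul h0 h4 (by norm_num) (by linarith)
      linarith

/-- regime `ν ≥ 1/256` -/
theorem regime2 (h : Band s b V P Px) {a x : ℝ} (hx : a ≤ x) (ha : V a ≤ 1 / 1000000)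
    (h0 : 1 / 256 ≤ s ^ 2 * b) (hv : 1 / 2 ≤ V x) :
    1 / 10000000 ≤ s ^ 3 * ∫ y in a..x, II b V P Px y := by
  set ν := s ^ 2 * b with hν
  have h1 := h.nu_le
  rw [← hν] at h1
  have h2 := h.scaled (3 / 2 * ν) hx
  rw [← hν] at h2
  have h3 := h.bracket h0 h1 hv
  have hw2 : √(V x) ^ 2 = V x := Real.sq_sqrt (h.V_pos x).le
  unfold BB at h3
  rw [hw2] at h3
  have va0 := h.V_pos a
  have va1 := h.V_lt a
  have h4 := MM_nonneg va0.le va1.le
  have h5 : 0 ≤ QQ (√(V a)) := QQ_nonneg (Real.sqrt_nonneg _) (by rw [Real.sqrt_le_one]; exact va1.le)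
  have h6 := h.kap_le a
  have h7 := h.kap_pos a
  have h8 : HH (V a) ≤ V a := by
    unfold HH
    nlinarith [pow_pos va0 3]
  have h9 : V a * (1 - V a) * (s * P a) ≤ 1 / 1000000 := by
    have : V a * (1 - V a) ≤ 1 / 1000000 := by nlinarith
    nlinarith
  have hν0 : 0 < ν := by linarith
  have e1 : 6 * ν * (V x * (1 - V x)) * (s * P x) - (3 / 2 * ν) * (s * P x) ^ 2
      + 6 * ν * (3 / 2 * ν) * (HH (V x) - HH (V a))
      - 6 * ν * (V a * (1 - V a)) * (s * P a) + (3 / 2 * ν) * (s * P a) ^ 2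
      - (3 / 2 * ν) ^ 2 * (MM (V x) - MM (V a)) - 3 * ν ^ 2 * (QQ (√(V x)) - QQ (√(V a)))
      = ν * (((s * P x) * (6 * (V x * (1 - V x)) - 3 / 2 * (s * P x)) +
        ν * (9 * HH (V x) - 9 / 4 * MM (V x) - 3 * QQ (√(V x))))
        - 6 * (V a * (1 - V a) * (s * P a)) - 9 * (ν * HH (V a)))
        + (3 / 2 * ν) * (s * P a) ^ 2 + (3 / 2 * ν) ^ 2 * MM (V a) + 3 * ν ^ 2 * QQ (√(V a)) := by
    ring
  rw [e1] at h2
  have h10 : 0 ≤ (3 / 2 * ν) * (s * P a) ^ 2 + (3 / 2 * ν) ^ 2 * MM (V a) + 3 * ν ^ 2 * QQ (√(V a)) := by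
    positivity
  have h11 : ν * HH (V a) ≤ 1 / 1000000 := by
    rcases le_total 0 (HH (V a)) with c | c
    · nlinarith
    · nlinarith
  have h12 : 1 / 30000 ≤ ((s * P x) * (6 * (V x * (1 - V x)) - 3 / 2 * (s * P x)) +
        ν * (9 * HH (V x) - 9 / 4 * MM (V x) - 3 * QQ (√(V x))))
        - 6 * (V a * (1 - V a) * (s * P a)) - 9 * (ν * HH (V a)) := by linarith
  have h13 : 1 / 256 * (1 / 30000) ≤ ν * (((s * P x) * (6 * (V x * (1 - V x)) - 3 / 2 * (s * P x)) +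
        ν * (9 * HH (V x) - 9 / 4 * MM (V x) - 3 * QQ (√(V x))))
        - 6 * (V a * (1 - V a) * (s * P a)) - 9 * (ν * HH (V a))) :=
    mul_le_mul h0 h12 (by norm_num) hν0.le
  linarith

/-- regime `ν ≤ 1/256` -/
theorem regime1 (h : Band s b V P Px) {a x : ℝ} (hx : a ≤ x) (ha : V a ≤ 1 / 1000000)
    (h0 : s ^ 2 * b ≤ 1 / 256) (hv : 1 / 2 ≤ V x) :
    1 / 10000000 ≤ s ^ 3 * ∫ y in a..x, II b V P Px y := by
  obtain ⟨x1, hx1, hV1⟩ : ∃ x1 ∈ Icc a x, V x1 = 1 / 2 := by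
    apply intermediate_value_Icc hx h.cV.continuousOn
    constructor
    · linarith
    · exact hv
  have hs := h.s_pos
  have hb := h.b_nonneg
  have hν0 : 0 ≤ s ^ 2 * b := by positivity
  have h2 := h.scaled (-(69 / 500)) hx1.1
  set ν := s ^ 2 * b with hν
  have va0 := h.V_pos a
  have va1 := h.V_lt a
  have h4 := MM_nonneg va0.le va1.le
  have h5 : 0 ≤ QQ (√(V a)) := QQ_nonneg (Real.sqrt_nonneg _) (by rw [Real.sqrt_le_one]; exact va1.le)
  have h6 := h.kap_le a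
  have h7 := h.kap_pos a
  have h8 : 0 ≤ HH (V a) := by
    unfold HH
    nlinarith [pow_pos va0 2]
  have h9 : V a * (1 - V a) * (s * P a) ≤ 1 / 1000000 := by
    have : V a * (1 - V a) ≤ 1 / 1000000 := by nlinarith
    nlinarith
  have h10 := h.up_sq a
  have hw0 : 0 < √(1 / 2 : ℝ) := Real.sqrt_pos.2 (by norm_num)
  have hw2 : √(1 / 2 : ℝ) ^ 2 = 1 / 2 := Real.sq_sqrt (by norm_num)
  have hw3 : 7 / 10 ≤ √(1 / 2 : ℝ) := by
    apply Real.le_sqrt_of_sq_le
    norm_num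
  have hw4 : √(1 / 2 : ℝ) ≤ 3 / 4 := by
    apply Real.sqrt_le_iff.2
    constructor <;> norm_num
  have hQ : QQ (√(V x1)) ≤ 1 / 7 := by
    rw [hV1]
    have e : QQ (√(1 / 2 : ℝ)) = 14 / 75 * √(1 / 2 : ℝ) := by
      have : QQ (√(1 / 2 : ℝ)) = 4 / 5 * √(1 / 2 : ℝ) * (2 / 3 * √(1 / 2 : ℝ) ^ 2
          - 2 / 5 * (√(1 / 2 : ℝ) ^ 2) ^ 2) := by unfold QQ; ring
      rw [this, hw2]
      ring
    rw [e]
    linarith
  have hk1 := h.lo x1
  rw [hV1] at hk1
  have hk2 : 21 / 100 ≤ s * P x1 := by linarith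
  have hk3 : 25 / 512 ≤ (s * P x1) ^ 2 := by
    have h11 : 5 / 16 * √(1 / 2 : ℝ) ≤ s * P x1 := by linarith
    have h12 : (5 / 16 * √(1 / 2 : ℝ)) ^ 2 ≤ (s * P x1) ^ 2 :=
      pow_le_pow_left₀ (by positivity) h11 2
    have h13 : (5 / 16 * √(1 / 2 : ℝ)) ^ 2 = 25 / 512 := by
      rw [mul_pow, hw2]; norm_num
    linarith
  have hHx : HH (V x1) = 1 / 12 := by rw [hV1]; unfold HH; norm_num
  rw [hHx, hV1, MM_half] at h2
  rw [hV1] at hQ
  have h20 : 3368 / 1000000 + 245 / 1000 * ν - 1 / 2 * ν ^ 2 ≤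
      s ^ 3 * ∫ y in a..x1, II b V P Px y := by
    have t1 : 21 / 100 * ν ≤ ν * (s * P x1) := by
      have := mul_le_mul_of_nonneg_left hk2 hν0
      linarith
    have t3 := mul_nonneg hν0 h8
    have t4 : ν * (V a * (1 - V a) * (s * P a)) ≤ ν * (1 / 1000000) :=
      mul_le_mul_of_nonneg_left h9 hν0
    have t7 : ν ^ 2 * QQ (√(1 / 2)) ≤ ν ^ 2 * (1 / 7) :=
      mul_le_mul_of_nonneg_left hQ (sq_nonneg ν)
    have t8 := mul_nonneg (sq_nonneg ν) h5
    generalize s ^ 3 * ∫ y in a..x1, II b V P Px y = A at h2 ⊢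
    generalize QQ (√(V a)) = q1 at h2 t8
    generalize QQ (√(1 / 2)) = q2 at h2 t7
    generalize MM (V a) = m1 at h2 h4
    generalize HH (V a) = g1 at h2 t3
    generalize s * P x1 = k1 at h2 t1 hk3
    have t9 := sq_nonneg ν
    have e1 : 6 * ν * (1 / 2 * (1 - 1 / 2)) * k1 - -(69 / 500) * k1 ^ 2
      + 6 * ν * -(69 / 500) * (1 / 12 - g1)
      - 6 * ν * (V a * (1 - V a)) * (s * P a) + -(69 / 500) * (s * P a) ^ 2
      - (-(69 / 500)) ^ 2 * (1769 / 10000 - m1) - 3 * ν ^ 2 * (q2 - q1) =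
      3 / 2 * (ν * k1) + 69 / 500 * k1 ^ 2 - 69 / 1000 * ν + 207 / 250 * (ν * g1)
      - 6 * (ν * (V a * (1 - V a) * (s * P a))) - 69 / 500 * (s * P a) ^ 2
      - (69 / 500) ^ 2 * (1769 / 10000) + (69 / 500) ^ 2 * m1 - 3 * (ν ^ 2 * q2)
      + 3 * (ν ^ 2 * q1) := by ring
    rw [e1] at h2
    linarith
  have h21 : -(6 * ν * (1769 / 10000)) ≤ s ^ 3 * ∫ y in x1..x, II b V P Px y := by
    have h22 : ∫ y in x1..x, -(6 * b * P y ^ 2) ≤ ∫ y in x1..x, II b V P Px y := by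
      have hcP := h.cP
      apply intervalIntegral.integral_mono_on hx1.2
      · exact (by fun_prop : Continuous fun y => -(6 * b * P y ^ 2)).intervalIntegrable _ _
      · exact (II_continuous h.cV h.cP h.cPx).intervalIntegrable _ _
      · intro y _
        exact neg_le_II hb (h.V_lt y).le
    rw [intervalIntegral.integral_neg, intervalIntegral.integral_const_mul] at h22
    have h23 := h.X_le hx1.2
    rw [hV1, MM_half] at h23
    have h24 := MM_le (h.V_pos x).le (h.V_lt x).le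
    have h25 := mul_le_mul_of_nonneg_left h22 (pow_pos hs 3).le
    have h26 : s ^ 3 * -(6 * b * ∫ y in x1..x, P y ^ 2) = -(6 * ν * (s * ∫ y in x1..x, P y ^ 2)) := by
      rw [hν]; ring
    rw [h26] at h25
    have h27 : s * ∫ y in x1..x, P y ^ 2 ≤ 1769 / 10000 := by linarith
    have h28 := mul_le_mul_of_nonneg_left h27 hν0
    linarith
  have h30 : ∫ y in a..x, II b V P Px y = (∫ y in a..x1, II b V P Px y) + ∫ y in x1..x, II b V P Px y := by
    have hc := II_continuous (b := b) h.cV h.cP h.cPx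
    exact (intervalIntegral.integral_add_adjacent_intervals (hc.intervalIntegrable _ _)
      (hc.intervalIntegrable _ _)).symm
  rw [h30, mul_add]
  have h31 : ν ^ 2 ≤ 1 / 256 * ν := by
    have := mul_le_mul_of_nonneg_right h0 hν0
    linarith
  linarith

/-- **(N4)**: the closed-form certificate -/
theorem n4 (h : Band s b V P Px) {a x : ℝ} (hx : a ≤ x) (ha : V a ≤ 1 / 1000000)
    (hv : 1 / 2 ≤ V x) :
    1 / 10000000 / s ^ 3 ≤ ∫ y in a..x, II b V P Px y := by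
  have hs := h.s_pos
  rw [div_le_iff₀' (pow_pos hs 3)]
  rcases le_total (1 / 256) (s ^ 2 * b) with c | c
  · exact h.regime2 hx ha c hv
  · exact h.regime1 hx ha c hv

/-- `A(x) ≥ 0` everywhere -/
theorem n4_nonneg (h : Band s b V P Px) {a x : ℝ} (hx : a ≤ x) (ha : V a ≤ 1 / 1000000) :
    0 ≤ ∫ y in a..x, II b V P Px y := by
  have hs := h.s_pos
  rcases le_total (1 / 2) (V x) with c | c
  · refine le_trans ?_ (h.n4 hx ha c)
    positivity
  · apply intervalIntegral.integral_nonneg hx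
    intro y hy
    exact II_nonneg h.b_nonneg ((h.mono hy.2).trans c)

end Band

end

end Crest.Agent.R146.NoGapN4_460
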