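import Crest.Agent.R146.NoGapM_546
import Crest.Agent.R146.FlatStep_384
import Crest.Agent.R146.NgCert_87

/-!
Row 146, PT: **NOGAP is a theorem** (helper546), from `NoGapM_546.nogap`, helper384's forgetting barrier
and helper87's energy certificate.
-/

set_option autoImplicit false

namespace Crest.Agent.R146.NoGap_546

open MeasureTheory Set Filter Topology
open Crest.Agent.R146.StepDef_791 Crest.Agent.R146.MaxPCmp_371 Crest.Agent.R146.MaxPCmp2_371
open Crest.Agent.R146.NoGapM_546 Crest.Agent.R146.Flat_384 Crest.Agent.R146.FlatStep_384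
open Crest.Agent.R146.MaxP_371 Crest.Agent.R146.MaxP2_371 Crest.Agent.R146.Pos_371

/-- the forgetting lower bound of the law slope, from any bound at `t0` -/
theorem low : LOW := by
  intro A x0 p Y Yx Yxx hBk _ hL hb _ t0 ht0 hD C hC hinit
  obtain ⟨M, hM⟩ := hL.ysys t0 ht0
  have hν : ∀ t ∈ Ico (0 : ℝ) A.T, A.b t * (1 - t) ≤ 1 := b_comm hb
  have ht0' := ht0.1
  have hbar : FBar t0 A.T (fun _ _ => (0:ℝ)) (fun _ _ => 0) (fun _ _ => 0) (fun _ _ => 0) :=
    { cS := continuousOn_const
      hSt := fun t _ x => hasDerivWithinAt_const t _ 0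
      hSx := fun t _ x => hasDerivAt_const x 0
      hSxx := fun t _ x => HasSide.of_hasDerivAt (hasDerivAt_const x 0) }
  have key := add_le_Y (E := A.E) (C := C) (c0 := 15) (L := 0) hM hbar
    (StepClk_900.E_cont A).continuousOn (fun t _ => A.E_pos t) (fun t _ => StepClk_900.E_l A t)
    (by linarith) (by linarith) (fun t _ x => by simp) (fun t _ x => by simp) ?_ ?_ ?_
  · intro t ht x
    have := key t ht x
    linarith
  · intro t ht x
    have htI : t ∈ Icc 0 A.T := ⟨ht0'.le.trans ht.1.le, ht.2⟩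
    have h1 := mul_nonneg (A.bl_nonneg t) (hBk.P_pos t htI x).le
    simp only [mul_zero, zero_div, sub_zero, zero_add, add_zero]
    linarith
  · intro t ht x
    have htI : t ∈ Icc 0 A.T := ⟨ht0'.le.trans ht.1.le, ht.2⟩
    have htI' : t ∈ Icc t0 A.T := ⟨ht.1.le, ht.2⟩
    have hE := A.E_pos t
    have hDE : A.D t * A.E t = 1 := by
      unfold SD.E; exact mul_inv_cancel₀ (A.D_pos t).ne'
    have hcond := hpt_low (x := x) (e := A.E t) (β := A.bl t) (uu := A.u t) (VV := A.V t)
      (A.bl_nonneg t) hE ?_ ?_ (V_01 hBk htI x).1.le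
    · simp only [mul_zero, sub_zero, add_zero]
      exact hcond
    · intro hx
      have h1 := step_FF hBk hν ht0'.le ht0.2.le hD t htI' x hx
      have h2 := mul_le_mul_of_nonneg_left h1 hE.le
      have e1 : A.E t * ((A.D t - x) * A.V t x) = (1 - x * A.E t) * A.V t x := by
        have : A.E t * ((A.D t - x) * A.V t x) = (A.D t * A.E t - x * A.E t) * A.V t x := by ring
        rw [this, hDE]
      rw [e1] at h2
      exact h2
    · intro hx
      refine ⟨?_, ?_⟩
      · have h1 := u_anti hBk htI hx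
        have h2 := step_u_zero hBk hν htI
        have h3 := hD t htI'
        have h4 : A.E t * (21 * √(1 - t)) ≤ 1 := by
          have := mul_le_mul_of_nonneg_left h3 hE.le
          linarith
        have h5 : A.E t * (x + A.u t x) ≤ A.E t * (x + 0.8 * √(1 - t)) :=
          mul_le_mul_of_nonneg_left (by linarith) hE.le
        have h6 := mul_nonneg hE.le (Real.sqrt_nonneg (1 - t))
        nlinarith
      · exact (step_V_zero hBk hν t htI).trans (V_mono hBk htI hx)
  · intro x
    have := hinit x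
    linarith

/-- the energy certificate and the lower slope band -/
theorem cert : CERT := by
  intro A hB hb t ht
  have hb' : ∀ t ∈ Ico (0 : ℝ) A.T, (1 - t) * A.b t ≤ 1 := fun t ht =>
    hb t ⟨ht.1, (ht.2.trans A.hT1).le⟩
  refine ⟨fun x hx => ?_, fun xa x hVa hx hVx =>
    NgCert_87.step_cert A hB hb' ⟨ht.1.le, ht.2⟩ hx hVa hVx⟩
  have htI : t ∈ Icc 0 A.T := ⟨ht.1.le, ht.2.le⟩
  have h1 := NgBand_87.band_lo A hB hb' t htI x
  have hV := V_01 hB htI x
  have hs : 0 < (√(1 - t))⁻¹ := inv_pos.2 (Real.sqrt_pos.2 (by linarith [ht.2, A.hT1]))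
  refine le_trans ?_ h1
  unfold NgBand_87.Km
  -- `√v³ ≥ .35` for `v ≥ 1/2`
  have h2 : (7 / 10 : ℝ) ≤ √(A.V t x) := by
    apply Real.le_sqrt_of_sq_le
    norm_num
    linarith
  have h3 : (343 / 1000 : ℝ) ≤ √(A.V t x) ^ 3 := by
    have := pow_le_pow_left₀ (by norm_num) h2 3
    norm_num at this ⊢
    linarith
  have h4 : 2 / 5 * (1 - A.V t x) ≤ 5 / 4 * √(A.V t x) ^ 3 * (1 - A.V t x) :=
    mul_le_mul_of_nonneg_right (by linarith) (by linarith [hV.2])
  have h5 := mul_le_mul_of_nonneg_left h4 hs.le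
  calc 2 / 5 * (√(1 - t))⁻¹ * (1 - A.V t x) = (√(1 - t))⁻¹ * (2 / 5 * (1 - A.V t x)) := by ring
    _ ≤ _ := h5

/-- **NOGAP** -/
theorem nogap : TipSeq_791.NOGAP := NoGapM_546.nogap low cert

end Crest.Agent.R146.NoGap_546
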