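import Crest.Agent.R146.PD_534

/-!
Row 146, package PT-STEP (helper791): the slope of the explicit density `pd A x0` of `Cell_534`.

* `first_cell` : `Y = (x - x0)/t - bl u` on the first cell;
* `yst` : `(x - x0)/t - bl u ≤ Y` at all times for nondecreasing weights.
-/

set_option autoImplicit false

namespace Crest.Agent.R146.PLaw_791

open MeasureTheory ProbabilityTheory Filter Topology Set
open Crest.Agent.R146.Hg_534 Crest.Agent.R146.PB_534 Crest.Agent.R146.GG_534 Crest.Agent.R146.SG_534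
open Crest.Agent.R146.StepDef_791 Crest.Agent.R146.Cell_534 Crest.Agent.R146.PD_534

noncomputable section

/-- comparison of the logarithmic slope with the Gaussian slope is preserved by the heat flow -/
theorem H_slope {κ a s x0 : ℝ} {q : ℝ → ℝ} (hκ : 0 ≤ κ) (hq : SG κ q) (hs : 0 ≤ s)
    (hk : κ * Real.sqrt s ^ 2 < 1) (h : ∀ y, a * deriv q y ≤ -(y - x0) * q y) (x : ℝ) :
    (a + s) * deriv (H (Real.sqrt s) q) x ≤ -(x - x0) * H (Real.sqrt s) q x := by
  have h1 : GG κ (fun y => a * deriv q y) := hq.deriv.gg.const_mul a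
  have h2 : GG κ (fun y => -(y - x0) * q y) := by
    have h3 : PG (fun y : ℝ => -(y - x0)) := ((Sm.id.sub_const x0).neg).pg
    exact GG.pg_mul h3 hq.gg
  have h3 := H_mono hκ h1 h2 h hk x
  have h4 : H (Real.sqrt s) (fun y => a * deriv q y) x = a * H (Real.sqrt s) (deriv q) x := by
    unfold H
    rw [integral_const_mul]
  have h5 : H (Real.sqrt s) (fun y => -(y - x0) * q y) x =
      -(x - x0) * H (Real.sqrt s) q x - s * H (Real.sqrt s) (deriv q) x := by
    have h6 := stein hκ hq.gg hq.deriv.gg hq.hd hk x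
    have h7 : H (Real.sqrt s) (fun y => -(y - x0) * q y) x =
        ∫ g, (-(x - x0) * q (x + Real.sqrt s * g) -
          Real.sqrt s * (g * q (x + Real.sqrt s * g))) ∂gaussianReal 0 1 := by
      unfold H
      refine integral_congr_ae (Eventually.of_forall fun g => ?_)
      show -(x + Real.sqrt s * g - x0) * q (x + Real.sqrt s * g) = _
      ring
    rw [h7, integral_sub ((hq.gg.int hκ hk x).const_mul _) ((hq.gg.int_mul hκ hk x).const_mul _),
      integral_const_mul, integral_const_mul, h6]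
    unfold H
    rw [← mul_assoc, Real.mul_self_sqrt hs]
  rw [deriv_H hκ hq hk]
  rw [h4, h5] at h3
  linarith

theorem gauss_deriv {x0 t : ℝ} (ht : 0 < t) (x : ℝ) :
    HasDerivAt (gaussianPDFReal x0 (Real.toNNReal t))
      (-(x - x0) / t * gaussianPDFReal x0 (Real.toNNReal t) x) x := by
  unfold gaussianPDFReal
  have hc : ((Real.toNNReal t : NNReal) : ℝ) = t := Real.coe_toNNReal t ht.le
  rw [hc]
  have h1 : HasDerivAt (fun y : ℝ => (y - x0) ^ 2) (2 * (x - x0)) x := by
    have := ((hasDerivAt_id' x).sub_const x0).fun_pow 2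
    simpa using this
  have h2 : HasDerivAt (fun y : ℝ => -(y - x0) ^ 2 / (2 * t)) (-(x - x0) / t) x := by
    have h3 := (h1.fun_neg).div_const (2 * t)
    refine h3.congr_deriv ?_
    field_simp
  have h4 := (h2.exp).const_mul ((Real.sqrt (2 * Real.pi * t))⁻¹)
  refine h4.congr_deriv ?_
  ring

section

variable {A : SD} {x0 : ℝ}

/-- first cell -/
theorem deriv_zero (hB : Back A) {a b z : ℝ} (hc : IsCell A a b z) (hp : PCell A x0 a b z)
    (ha : a = 0) {t : ℝ} (ht : t ∈ Ioc a b) (x : ℝ) :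
    HasDerivAt (pd A x0 t) ((-(x - x0) / t + A.bl t * A.u t x) * pd A x0 t x) x := by
  have ht0 : 0 < t := by rw [← ha]; exact ht.1
  have htI : t ∈ Icc a b := Ioc_subset_Icc_self ht
  have e : pd A x0 t = fun y => Gz A z t y *
      (gaussianPDFReal x0 (Real.toNNReal t) y / Gz A z 0 x0) := funext fun y => hp.zero ha t ht y
  have h1 := (Gz_x hB z (hc.mem htI) x).mul ((gauss_deriv (x0 := x0) ht0 x).div_const (Gz A z 0 x0))
  rw [e]
  refine HasDerivAt.congr_deriv (f := fun y => Gz A z t y *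
      (gaussianPDFReal x0 (Real.toNNReal t) y / Gz A z 0 x0)) h1 ?_
  unfold SD.bl
  rw [hc.ml_eq t ht]
  ring

/-- other cells -/
theorem deriv_pos (hB : Back A) {a b z : ℝ} (hc : IsCell A a b z) (hp : PCell A x0 a b z)
    (ha : 0 < a) {t : ℝ} (ht : t ∈ Ioc a b) (x : ℝ) :
    HasDerivAt (pd A x0 t) (A.bl t * A.u t x * pd A x0 t x +
      Gz A z t x * deriv (H (Real.sqrt (t - a)) (qa A x0 z a)) x) x := by
  have htI : t ∈ Icc a b := Ioc_subset_Icc_self ht
  have hq := qa_sg (z := z) hB hc (pd_sg hB x0 a ⟨ha, (hc.mem hc.aI).2⟩).1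
  have hk := kappa_lt hc htI
  have e : pd A x0 t = fun y => Gz A z t y * H (Real.sqrt (t - a)) (qa A x0 z a) y :=
    funext fun y => hp.pos ha t ht y
  have h1 := (Gz_x hB z (hc.mem htI) x).mul
    (H_deriv_x (kappa_nonneg hc) hq.gg hq.deriv.gg hq.hd hk x)
  rw [e, deriv_H (kappa_nonneg hc) hq hk]
  refine HasDerivAt.congr_deriv (f := fun y => Gz A z t y *
    H (Real.sqrt (t - a)) (qa A x0 z a) y) h1 ?_
  unfold SD.bl
  rw [hc.ml_eq t ht]
  ring

theorem slope_up (hB : Back A)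
    (hm : ∀ x y, 0 ≤ x → x ≤ y → y < A.T → A.m x ≤ A.m y) :
    ∀ t ∈ Ioc 0 A.T, ∀ x,
      t * deriv (pd A x0 t) x ≤ (-(x - x0) + t * (A.bl t * A.u t x)) * pd A x0 t x := by
  refine cells_induct A x0 (fun s => ∀ t ∈ Ioc 0 s, ∀ x,
      t * deriv (pd A x0 t) x ≤ (-(x - x0) + t * (A.bl t * A.u t x)) * pd A x0 t x) ?_ ?_
  · intro t ht
    exact absurd ht.1 (not_lt.2 ht.2)
  · intro a b z hc hp ih t ht x
    rcases le_or_gt t a with h | h
    · exact ih t ⟨ht.1, h⟩ x
    have htc : t ∈ Ioc a b := ⟨h, ht.2⟩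
    have htI : t ∈ Icc a b := ⟨h.le, ht.2⟩
    rcases eq_or_lt_of_le hc.a0 with h0 | h0
    · rw [(deriv_zero hB hc hp h0.symm htc x).deriv]
      have := ht.1.ne'
      refine le_of_eq ?_
      field_simp
    · have haT : a ∈ Ioc 0 A.T := ⟨h0, (hc.mem hc.aI).2⟩
      have hq := qa_sg (z := z) hB hc (pd_sg hB x0 a haT).1
      have hk := kappa_lt hc htI
      -- weights
      have hw : A.bl a ≤ z / A.D a := by
        obtain ⟨a', b', z', hc', -, ha'⟩ := exists_cell_l A x0 a haT
        unfold SD.bl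
        rw [hc'.ml_eq a ha']
        have h1 := hm a' a hc'.a0 ha'.1.le (h.trans_le (ht.2.trans hc.bT))
        rw [hc'.m_eq a' ⟨le_rfl, hc'.ab⟩, hc.m_eq a ⟨le_rfl, hc.ab⟩] at h1
        exact div_le_div_of_nonneg_right h1 (A.D_pos a).le
      have h1 : ∀ y, a * deriv (qa A x0 z a) y ≤ -(y - x0) * qa A x0 z a y := by
        intro y
        have hpd := (pd_sg hB x0 a haT).1.hd y
        have hG := Gz_x hB z (hc.mem hc.aI) y
        have hGp := Gz_pos A z a y
        have h2 : HasDerivAt (qa A x0 z a) ((deriv (pd A x0 a) y * Gz A z a y -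
            pd A x0 a y * (z / A.D a * A.u a y * Gz A z a y)) / Gz A z a y ^ 2) y :=
          hpd.div hG hGp.ne'
        rw [h2.deriv]
        have h3 := ih a ⟨h0, le_rfl⟩ y
        have hpp := (pd_sg hB x0 a haT).2 y
        have hu := hB.u_pos a (hc.mem hc.aI) y
        have h4 : a * (A.bl a * A.u a y) * pd A x0 a y ≤
            a * (z / A.D a * A.u a y) * pd A x0 a y := by gcongr
        have e1 : a * ((deriv (pd A x0 a) y * Gz A z a y -
            pd A x0 a y * (z / A.D a * A.u a y * Gz A z a y)) / Gz A z a y ^ 2) =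
            (a * deriv (pd A x0 a) y - a * (z / A.D a * A.u a y) * pd A x0 a y) / Gz A z a y := by
          field_simp
        have e2 : -(y - x0) * qa A x0 z a y = (-(y - x0) * pd A x0 a y) / Gz A z a y := by
          unfold qa
          ring
        rw [e1, e2]
        refine div_le_div_of_nonneg_right ?_ hGp.le
        linarith
      have h5 := H_slope (x0 := x0) (kappa_nonneg hc) hq (by linarith : (0:ℝ) ≤ t - a) hk h1 x
      have h6 : a + (t - a) = t := by ring
      rw [h6] at h5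
      have e : pd A x0 t x = Gz A z t x * H (Real.sqrt (t - a)) (qa A x0 z a) x :=
        hp.pos h0 t htc x
      rw [(deriv_pos hB hc hp h0 htc x).deriv]
      have h7 := mul_le_mul_of_nonneg_left h5 (Gz_pos A z t x).le
      rw [e]
      linarith

variable {Y Yx Yxx : ℝ → ℝ → ℝ}

theorem yst (hB : Back A) (hL : Law A x0 (pd A x0) Y Yx Yxx)
    (hm : ∀ x y, 0 ≤ x → x ≤ y → y < A.T → A.m x ≤ A.m y) :
    ∀ t ∈ Ioc 0 A.T, ∀ x, (x - x0) / t - A.bl t * A.u t x ≤ Y t x := by
  intro t ht x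
  have h1 := slope_up (x0 := x0) hB hm t ht x
  rw [(hL.p_x t ht x).deriv] at h1
  have hp := hL.p_pos t ht x
  have h2 : t * -Y t x ≤ -(x - x0) + t * (A.bl t * A.u t x) := by
    refine le_of_mul_le_mul_right ?_ hp
    linarith
  have h3 : (x - x0) / t ≤ Y t x + A.bl t * A.u t x := by
    rw [div_le_iff₀ ht.1]
    linarith
  linarith

theorem first_cell (hB : Back A) (hL : Law A x0 (pd A x0) Y Yx Yxx) :
    ∃ s1 ∈ Ioc 0 A.T, ∀ t ∈ Ioc 0 s1, ∀ x, Y t x = (x - x0) / t - A.bl t * A.u t x := by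
  obtain ⟨a, b, z, hc, hp, h0⟩ := exists_cell_r A x0 0 ⟨le_rfl, A.hT0⟩
  have ha : a = 0 := le_antisymm h0.1 hc.a0
  refine ⟨b, ⟨h0.2, hc.bT⟩, fun t ht x => ?_⟩
  have h1 := (deriv_zero hB hc hp ha ⟨by rw [ha]; exact ht.1, ht.2⟩ x).unique
    (hL.p_x t ⟨ht.1, ht.2.trans hc.bT⟩ x)
  have hp := hL.p_pos t ⟨ht.1, ht.2.trans hc.bT⟩ x
  have h2 := mul_right_cancel₀ hp.ne' h1
  have h3 : -(x - x0) / t = -((x - x0) / t) := by ring
  rw [h3] at h2
  linarith

end

end

end Crest.Agent.R146.PLaw_791
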