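import Crest.Agent.R146.Stat6_307
import Crest.Agent.R146.SPair_307

/-!
# Row 146: existence of the stationary pair `SPair` for every `0 < c < 1`, and the way back to
the certificate `Cert_109.enclosure`.
-/

namespace Crest.Agent.R146.Stat7_307

open Set Filter Topology
open Stat2_307 Stat4_307 Stat5_307 Stat6_307 SPair_307 Cert_109

/-- **Existence of the stationary pair** in the clock `χ = D K₀`. -/
theorem exists_spair {c : ℝ} (hc0 : 0 < c) (hc1 : c < 1) :
    ∃ W V I k : ℝ → ℝ, ∃ lam : ℝ, SPair c W V I k lam := by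
  set ν := c / (1 + c) with hν
  have h1c : 0 < 1 + c := by linarith
  have hν0 : 0 < ν := by positivity
  have hν1 : ν < 1 / 2 := by rw [hν, div_lt_div_iff₀ h1c (by norm_num)]; linarith
  obtain ⟨Wo, W1o, lamo, Yo, h⟩ := exists_isStat hν0 hν1
  set s := Real.sqrt (1 + c) with hs
  have hs0 : 0 < s := Real.sqrt_pos.2 h1c
  have hss : s ^ 2 = 1 + c := Real.sq_sqrt h1c.le
  have hνc : ν * (1 + c) = c := by rw [hν]; field_simp
  have hνs : ν * s ^ 2 = c := by rw [hss, hνc]
  have hk1 : 1 / (1 - ν) = s ^ 2 := by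
    rw [hss, hν]
    field_simp
    ring
  have hWm : StrictMono Wo := strictMono_of_deriv_pos fun t => by
    rw [(h.prof.d0 t).deriv]; exact h.prof.p_pos hν0 hν1 t
  have hUm : StrictAnti fun t => Wo t - t := by
    apply strictAnti_of_deriv_neg
    intro t
    have e : deriv (fun t => Wo t - t) t = W1o t - 1 :=
      ((h.prof.d0 t).sub (hasDerivAt_id t)).deriv
    rw [e]
    linarith [h.prof.p_lt hν0 hν1 t]
  have hmul : ∀ x : ℝ, HasDerivAt (fun x => s * x) s x := fun x => by
    simpa using (hasDerivAt_id x).const_mul s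
  have hD := drift hν0 hν1 h.prof
  refine ⟨fun x => Wo (s * x) / s, fun x => W1o (s * x), fun x => s * W2f ν Wo W1o (s * x),
    fun x => s * Yo (s * x), (1 + c) / 2 * lamo, ?_⟩
  refine
    { c_pos := hc0
      c_lt := hc1
      dW := fun x => ?_
      dV := fun x => ?_
      eqI := fun x => ?_
      W_pos := fun x => ?_
      U_pos := fun x => ?_
      W_le := fun x => ?_
      V_pos := fun x => h.prof.p_pos hν0 hν1 _
      V_lt := fun x => h.prof.p_lt hν0 hν1 _
      I_pos := fun x => mul_pos hs0 (h.prof.W2_pos hν0 hν1 _)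
      I_le := fun x => ?_
      dk := fun x => ?_
      k_pos := fun x => mul_pos hs0 (h.Y_pos _)
      k_bdd := ⟨s * MC ν, fun x => mul_le_mul_of_nonneg_left (h.Y_le_M _) hs0.le⟩
      k_right := ⟨MC ν + 1, fun x hx => ?_⟩
      k_left := ⟨max (2 / aC ν + 1) (MC ν * ZC ν), fun x hx => ?_⟩
      lam_gt := ?_
      lam_lt := ?_ }
  · have h1 := ((h.prof.d0 (s * x)).comp x (hmul x)).div_const s
    refine h1.congr_deriv ?_
    field_simp
  · have h1 := (h.prof.hW1 (s * x)).comp x (hmul x)
    refine h1.congr_deriv ?_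
    ring
  · simp only [W2f, Af, Ad]
    have e1 : (1 + c) * (Wo (s * x) / s) = s * Wo (s * x) := by
      rw [← hss]; field_simp
    rw [e1, ← hss, ← hνs]
    field_simp
    ring
  · have h1 := hWm (show s * x - 1 < s * x by linarith)
    have h2 := h.prof.nonneg (s * x - 1)
    have : 0 < Wo (s * x) := by linarith
    positivity
  · have h1 := hUm (show s * x < s * x + 1 by linarith)
    have h2 := h.prof.le_W (s * x + 1)
    simp only at h1
    rw [lt_div_iff₀ hs0]
    linarith
  · have h1 := h.prof.W_le (s * x)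
    have h2 : rr ν (s * x) = s * Real.sqrt (x ^ 2 + 1) := by
      rw [rr, hk1, show (s * x) ^ 2 + s ^ 2 = s ^ 2 * (x ^ 2 + 1) by ring,
        Real.sqrt_mul (by positivity), Real.sqrt_sq hs0.le]
    rw [Wp, h2] at h1
    show Wo (s * x) / s ≤ _
    rw [div_le_iff₀ hs0]
    linarith
  · show s * W2f ν Wo W1o (s * x) ≤ (1 + c) * (Wo (s * 0) / s)
    have h1 := h.prof.W2_le hν0 hν1 (s * x)
    have e1 : (1 + c) * (Wo (s * 0) / s) = s * Wo 0 := by
      rw [mul_zero, ← hss]; field_simp
    rw [e1]
    exact mul_le_mul_of_nonneg_left h1 hs0.le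
  · have h1 := ((h.dY (s * x)).comp x (hmul x)).const_mul s
    refine h1.congr_deriv ?_
    simp only [Af, A1f, Ad, Ad1]
    have hs' : s ≠ 0 := hs0.ne'
    have e1 : s * ((Yo (s * x) ^ 2 + (s * x + 2 * ν * (Wo (s * x) - s * x)) * Yo (s * x)
        - (1 + 2 * ν * (W1o (s * x) - 1)) + lamo) * s) =
        (s * Yo (s * x)) ^ 2 + (s ^ 2 * x + 2 * (ν * s ^ 2) * (Wo (s * x) / s - x)) *
          (s * Yo (s * x)) - (s ^ 2 - 2 * (ν * s ^ 2) * (1 - W1o (s * x))) + s ^ 2 * lamo := by
      field_simp
      ring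
    rw [e1, hνs, hss]
    ring
  · show s * Yo (s * x) ≤ (MC ν + 1) / x
    have h1 := h.Y_le (s * x)
    have hsx : 0 < s * x := mul_pos hs0 hx
    have hZ := hD.Z_pos
    unfold bd at h1
    rw [if_neg (by linarith), if_pos hsx] at h1
    have h2 := h1.trans (min_le_right _ _)
    rw [le_div_iff₀ hsx] at h2
    rw [le_div_iff₀ hx]
    linarith
  · show s * Yo (s * x) ≤ _ / (-x)
    have hnx : 0 < -x := by linarith
    rw [le_div_iff₀ hnx]
    have hZ := hD.Z_pos
    by_cases hcase : s * x ≤ -ZC ν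
    · have h1 := h.Y_le (s * x)
      unfold bd at h1
      rw [if_pos hcase] at h1
      have h2 := h1.trans (min_le_right _ _)
      have h3 : 0 < -(s * x) := by nlinarith
      rw [le_div_iff₀ h3] at h2
      refine le_trans ?_ (le_max_left _ _)
      linarith
    · push Not at hcase
      refine le_trans ?_ (le_max_right _ _)
      have h1 := h.Y_le_M (s * x)
      have h2 := h.Y_nonneg (s * x)
      have h3 : -(s * x) ≤ ZC ν := by linarith
      have h4 : 0 ≤ -(s * x) := by nlinarith
      calc s * Yo (s * x) * -x = Yo (s * x) * (-(s * x)) := by ring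
        _ ≤ MC ν * ZC ν := mul_le_mul h1 h3 h4 (h2.trans h1)
  · have h1 := h.lt_lam
    have h2 : (1 + c) / 2 * (1 - 2 * ν) = (1 - c) / 2 := by linear_combination -hνc
    have h3 : (1 + c) / 2 * (1 - 2 * ν) < (1 + c) / 2 * lamo :=
      mul_lt_mul_of_pos_left h1 (by linarith)
    linarith
  · have h1 := h.lam_lt
    have h3 : (1 + c) / 2 * lamo < (1 + c) / 2 * 1 := mul_lt_mul_of_pos_left h1 (by linarith)
    linarith

/-! ## back to the certificate -/

section back

variable {c : ℝ} {W V I k : ℝ → ℝ} {lam : ℝ}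

/-- stationary density in `ξ` -/
noncomputable def qs (k : ℝ → ℝ) (x : ℝ) : ℝ := Real.exp (-∫ r in (0 : ℝ)..x, k r)

lemma qs_pos (k : ℝ → ℝ) (x : ℝ) : 0 < qs k x := Real.exp_pos _

lemma dqs (h : SPair c W V I k lam) (x : ℝ) : HasDerivAt (qs k) (-(k x) * qs k x) x := by
  have h1 := (h.ck.integral_hasStrictDerivAt 0 x).hasDerivAt
  have h2 := h1.neg.exp
  refine h2.congr_deriv ?_
  show Real.exp (-∫ r in (0 : ℝ)..x, k r) * -(k x) = -(k x) * Real.exp (-∫ r in (0 : ℝ)..x, k r)
  ring

lemma tendsto_W (h : SPair c W V I k lam) : Tendsto W atBot (𝓝 0) := by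
  have h2 : Tendsto (fun x : ℝ => 1 / (-(2 * x))) atBot (𝓝 0) := by
    have h2 : Tendsto (fun t : ℝ => -(2 * t)) atBot atTop := by
      have := tendsto_neg_atBot_atTop.const_mul_atTop (show (0 : ℝ) < 2 by norm_num)
      refine this.congr fun t => ?_
      ring
    exact h2.inv_tendsto_atTop.congr fun t => (one_div _).symm
  refine tendsto_of_tendsto_of_tendsto_of_le_of_le' tendsto_const_nhds h2
    (Eventually.of_forall fun x => (h.W_pos x).le) ?_
  filter_upwards [eventually_lt_atBot 0] with x hx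
  refine (h.W_le x).trans ?_
  have hr := Real.sq_sqrt (show (0 : ℝ) ≤ x ^ 2 + 1 by positivity)
  have hr0 := Real.sqrt_nonneg (x ^ 2 + 1)
  set r := Real.sqrt (x ^ 2 + 1)
  have h3 : -x ≤ r := by nlinarith
  rw [le_div_iff₀ (by linarith)]
  nlinarith

lemma tendsto_U (h : SPair c W V I k lam) : Tendsto (fun x => W x - x) atTop (𝓝 0) := by
  have h2 : Tendsto (fun x : ℝ => 1 / (2 * x)) atTop (𝓝 0) := by
    have h2 : Tendsto (fun t : ℝ => 2 * t) atTop atTop :=
      tendsto_id.const_mul_atTop (by norm_num)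
    exact h2.inv_tendsto_atTop.congr fun t => (one_div _).symm
  refine tendsto_of_tendsto_of_tendsto_of_le_of_le' tendsto_const_nhds h2
    (Eventually.of_forall fun x => sub_nonneg.2 (h.U_pos x).le) ?_
  filter_upwards [eventually_gt_atTop 0] with x hx
  have h1 := h.W_le x
  have hr := Real.sq_sqrt (show (0 : ℝ) ≤ x ^ 2 + 1 by positivity)
  have hr0 := Real.sqrt_nonneg (x ^ 2 + 1)
  set r := Real.sqrt (x ^ 2 + 1)
  have h3 : x ≤ r := by nlinarith
  have h4 : (r - x) / 2 ≤ 1 / (2 * x) := by
    rw [le_div_iff₀ (by linarith)]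
    nlinarith
  linarith

/-- From a stationary pair to `Profile`. -/
theorem profile (h : SPair c W V I k lam) {s : ℝ} (hs0 : 0 < s) (hss : s ^ 2 = 1 + c) :
    Profile (c / (1 + c)) (fun z => s * W (z / s)) := by
  have hdiv : ∀ z : ℝ, HasDerivAt (fun z => z / s) (1 / s) z := fun z =>
    (hasDerivAt_id z).div_const s
  have h1c : 0 < 1 + c := by linarith [h.c_pos]
  have d1 : ∀ z, HasDerivAt (fun z => s * W (z / s)) (V (z / s)) z := fun z => by
    have h1 := ((h.dW (z / s)).comp z (hdiv z)).const_mul s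
    refine h1.congr_deriv ?_
    field_simp
  have d2 : ∀ z, HasDerivAt (fun z => V (z / s)) (I (z / s) / s) z := fun z => by
    have h1 := (h.dV (z / s)).comp z (hdiv z)
    refine h1.congr_deriv ?_
    field_simp
  refine ⟨contDiff_two d1 d2 ((h.cI.comp (continuous_id.div_const s)).div_const s), ?_, ?_, ?_⟩
  · intro z
    have hd : deriv (fun z => s * W (z / s)) = fun z => V (z / s) := funext fun x => (d1 x).deriv
    rw [hd, (d2 z).deriv, h.eqI]
    have hνc : c / (1 + c) = c / s ^ 2 := by rw [hss]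
    rw [hνc]
    unfold Ad
    rw [← hss]
    field_simp
    ring
  · have h1 : Tendsto (fun z : ℝ => z / s) atBot atBot := tendsto_id.atBot_div_const hs0
    have h2 := ((tendsto_W h).comp h1).const_mul s
    simpa using h2
  · have h1 : Tendsto (fun z : ℝ => z / s) atTop atTop := tendsto_id.atTop_div_const hs0
    have h2 := ((tendsto_U h).comp h1).const_mul s
    rw [mul_zero] at h2
    refine h2.congr fun z => ?_
    simp only [Function.comp]
    field_simp

/-- From a stationary pair to `Charge`. -/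
theorem charge (h : SPair c W V I k lam) {s : ℝ} (hs0 : 0 < s) (hss : s ^ 2 = 1 + c) :
    Charge (c / (1 + c)) (2 * lam / (1 + c)) (fun z => s * W (z / s)) (fun z => qs k (z / s)) := by
  have hdiv : ∀ z : ℝ, HasDerivAt (fun z => z / s) (1 / s) z := fun z =>
    (hasDerivAt_id z).div_const s
  have h1c : 0 < 1 + c := by linarith [h.c_pos]
  have dW : ∀ z, HasDerivAt (fun z => s * W (z / s)) (V (z / s)) z := fun z => by
    have h1 := ((h.dW (z / s)).comp z (hdiv z)).const_mul s
    refine h1.congr_deriv ?_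
    field_simp
  have d1 : ∀ z, HasDerivAt (fun z => qs k (z / s)) (-(k (z / s)) / s * qs k (z / s)) z :=
    fun z => by
      have h1 := (dqs h (z / s)).comp z (hdiv z)
      refine h1.congr_deriv ?_
      field_simp
  have d2 : ∀ z, HasDerivAt (fun z => -(k (z / s)) / s * qs k (z / s))
      ((k (z / s) ^ 2 - (k (z / s) ^ 2 + 2 * Ad c W (z / s) * k (z / s) - 2 * Ad1 c V (z / s)
        + 2 * lam)) / s ^ 2 * qs k (z / s)) z := fun z => by
    have h1 := ((((h.dk (z / s)).comp z (hdiv z)).neg).div_const s).mul (d1 z)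
    refine h1.congr_deriv ?_
    simp only [Pi.neg_apply, Function.comp]
    field_simp
    ring
  have hcA : Continuous (Ad c W) := continuous_iff_continuousAt.2 fun x => (h.dA x).continuousAt
  have hcA1 : Continuous (Ad1 c V) := continuous_iff_continuousAt.2 fun x => (h.dA1 x).continuousAt
  have hcq : Continuous (qs k) := continuous_iff_continuousAt.2 fun x => (dqs h x).continuousAt
  have hck := h.ck
  have hcs : Continuous fun z : ℝ => z / s := continuous_id.div_const s
  refine ⟨contDiff_two d1 d2 ?_, fun z => qs_pos _ _, ?_, ?_⟩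
  · fun_prop
  · intro z
    have hd : deriv (fun z => qs k (z / s)) = fun z => -(k (z / s)) / s * qs k (z / s) :=
      funext fun x => (d1 x).deriv
    rw [hd, (d2 z).deriv]
    have hAq : HasDerivAt (fun z => (z + 2 * (c / (1 + c)) * (s * W (z / s) - z)) * qs k (z / s))
        ((1 + 2 * (c / (1 + c)) * (V (z / s) - 1)) * qs k (z / s) +
          (z + 2 * (c / (1 + c)) * (s * W (z / s) - z)) * (-(k (z / s)) / s * qs k (z / s))) z :=
      ((hasDerivAt_id z).add (((dW z).sub (hasDerivAt_id z)).const_mul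
        (2 * (c / (1 + c))))).mul (d1 z)
    rw [hAq.deriv, ← hss]
    unfold Ad Ad1
    rw [← hss]
    field_simp
    ring
  · obtain ⟨C, hC⟩ := h.k_bdd
    refine ⟨1, C / s, fun z => ?_⟩
    rw [one_mul, qs]
    apply Real.exp_le_exp.2
    have h1 : ‖∫ r in (0 : ℝ)..(z / s), k r‖ ≤ C * |z / s - 0| :=
      intervalIntegral.norm_integral_le_of_norm_le_const fun r _ => by
        rw [Real.norm_eq_abs, abs_of_pos (h.k_pos r)]
        exact hC r
    rw [sub_zero, Real.norm_eq_abs, abs_div, abs_of_pos hs0] at h1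
    have h2 := abs_le.1 h1
    have h3 : C / s * |z| = C * (|z| / s) := by ring
    rw [h3]
    linarith

/-- **Digits.** If the closure `λ = c` holds then `ν = c/(1+c)` is known to 7 digits. -/
theorem enclosure_of_closure (h : SPair c W V I k c) :
    0.2936533 < c / (1 + c) ∧ c / (1 + c) < 0.2936535 := by
  have h1c : 0 < 1 + c := by linarith [h.c_pos]
  have hs0 : 0 < Real.sqrt (1 + c) := Real.sqrt_pos.2 h1c
  have hss : Real.sqrt (1 + c) ^ 2 = 1 + c := Real.sq_sqrt h1c.le
  have hν1 : c / (1 + c) < 1 / 2 := by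
    rw [div_lt_div_iff₀ h1c (by norm_num)]; linarith [h.c_lt]
  have h2 := charge h hs0 hss
  rw [show 2 * c / (1 + c) = 2 * (c / (1 + c)) by ring] at h2
  exact enclosure (div_pos h.c_pos h1c) hν1 (profile h hs0 hss) h2

end back

end Crest.Agent.R146.Stat7_307
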