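import Crest.Agent.R146.PtTip_164
import Crest.Agent.R146.YtoD_385

/-!
Row 146 (S0205), package PT: `PtTip_164.T12` (change of clock) (helper52).
-/

set_option autoImplicit false

namespace Crest.Agent.R146.T12_52

open MeasureTheory Set Filter Topology
open Crest.Agent.R146.TipSeq_791 Crest.Agent.R146.YtoD_385
open Crest.Agent.R146.PtScalA_45 (Prof)

noncomputable section

theorem t12 : PtTip_164.T12 := by
  intro P hP hw ε hε
  -- size of the old window
  set η : ℝ := min (ε / 100) (1 / 1000) with hη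
  have hη0 : 0 < η := lt_min (by positivity) (by norm_num)
  have hη1 : η ≤ ε / 100 := min_le_left _ _
  have hη2 : η ≤ 1 / 1000 := min_le_right _ _
  obtain ⟨ta, h1, h0, h2⟩ := hw η hη0
  have hclk := clk_of_prof P hP.seq.d0 hP.seq.pos hP.seq.int1 h0 h1
  refine ⟨ta, h1, h0, fun t ht => ?_⟩
  have ht0 : 0 ≤ t := h0.trans ht.1
  have hpos : ∀ s ∈ Ico ta 1, 0 < P.D s := fun s hs => hP.seq.pos s ⟨h0.trans hs.1, hs.2⟩
  have hnu : ∀ s ∈ Ico ta 1, (1 - s) * P.m s ≤ (13 / 25 + η) * P.D s := by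
    intro s hs
    have h3 := (h2 s hs).2
    unfold Ystar at h3
    rw [if_pos rfl, div_le_iff₀ (hpos s hs)] at h3
    exact h3
  have hY : Ystar P 1 t = P.m t * ∫ s in t..1, (P.D s)⁻¹ := by
    unfold Ystar StepApx_856.Ks
    rw [if_neg (by decide)]
  have hK0 : 0 < ∫ s in t..1, (P.D s)⁻¹ := hclk.K_pos ht
  have hm0 : 0 ≤ P.m t := P.nonneg t ⟨ht0, ht.2⟩
  have hae : ∀ᵐ s ∂volume.restrict (Ioo t 1), (1 - s) * P.m s ≤ (13 / 25 + η) * P.D s := by
    refine (ae_restrict_iff' measurableSet_Ioo).mpr (Eventually.of_forall fun s hs => ?_)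
    exact hnu s ⟨ht.1.trans hs.1.le, hs.2⟩
  have h4 := hclk.Y_le_of_nu (b := 13 / 25 + η) (by linarith) (by linarith) ht hae (hnu t ht)
  rw [hY]
  constructor
  · have := mul_nonneg hm0 hK0.le
    linarith
  · refine h4.trans ?_
    rw [div_le_iff₀ (by linarith)]
    nlinarith

end

end Crest.Agent.R146.T12_52
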