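import Crest.Agent.R146.PtTip_164
import Crest.Agent.R146.T12_52
import Crest.Agent.R146.Stat7_307

/-!
Row 146 (S0205), package PT: ASSEMBLY WITH ONE CLOSED REFERENCE (post 1221 of helper846) (helper52).

* `CLOSED` : a closed stationary pair exists (`λ = c`);
* `REFC`   : every window around the closed value is contracted by the factor `g = 4/5`;
* `end_closed` : `Y* → c` with a closed pair at `c` gives `OUT` (digits by `Stat7_307`);
* `ptmainC : T1 → T2 → CLOSED → REFC → PTMAIN` (`T12` is a theorem).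
-/

set_option autoImplicit false

namespace Crest.Agent.R146.PtTipC_52

open MeasureTheory Set Filter Topology
open Crest.Agent.R146.TipSeq_791 Crest.Agent.R146.SPair_307 Crest.Agent.R146.YtoD_385
open Crest.Agent.R146.PtScalA_45 (Prof)
open Crest.Agent.R146.PtTip_164

noncomputable section

/-- existence of the closed stationary pair -/
def CLOSED : Prop := ∃ (c : ℝ) (W V I k : ℝ → ℝ), SPair c W V I k c

/-- (REFC) contraction towards a closed pair, all radii `≤ c` -/
def REFC (g : ℝ) : Prop := ∀ P : Prof, TipSeq P → ∀ (c : ℝ) (W V I k : ℝ → ℝ), SPair c W V I k c →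
  ∀ δ : ℝ, 0 < δ → δ ≤ c → Win P 1 (max 0 (c - δ)) (min hiA (c + δ)) →
    Win P 1 (c - g * δ) (c + g * δ)

theorem c_bounds {c : ℝ} {W V I k : ℝ → ℝ} (h : SPair c W V I k c) :
    41573 / 100000 < c ∧ c < 41574 / 100000 := by
  have h1 := Stat7_307.enclosure_of_closure h
  have hc : 0 < 1 + c := by linarith [h.c_pos]
  have h2 := h1.1
  have h3 := h1.2
  rw [lt_div_iff₀ hc] at h2
  rw [div_lt_iff₀ hc] at h3
  constructor
  · norm_num at h2 ⊢; linarith
  · norm_num at h3 ⊢; linarith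

/-- **END**: the limit at a closed value gives the output. -/
theorem end_closed {P : Prof} (hP : TipSeq P) {c : ℝ} {W V I k : ℝ → ℝ} (h : SPair c W V I k c)
    (hT : Tendsto (Ystar P 1) (𝓝[<] 1) (𝓝 c)) : OUT P := by
  have hclk := clk_of_prof P hP.seq.d0 hP.seq.pos hP.seq.int1 le_rfl (one_pos : (0 : ℝ) < 1)
  have hY : Tendsto (fun s => P.m s * ∫ r in s..1, (P.D r)⁻¹) (𝓝[<] 1) (𝓝 c) := by
    refine hT.congr fun s => ?_
    unfold Ystar StepApx_856.Ks
    rw [if_neg (by decide)]
  have hL := hclk.logD_logtau (by linarith [h.c_pos]) (EssLim.of_tendsto hY)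
  exact ⟨c / (1 + c), hL, Stat7_307.enclosure_of_closure h⟩

/-- the contraction gives the limit -/
theorem tendsto_of_refc {Y : ℝ → ℝ} {l : Filter ℝ} [NeBot l] {c g hi : ℝ} (hg : g < 1)
    (_hc : 0 < c) (hhi : hi - c ≤ c) (h0 : PtLogic_164.Win Y l 0 hi)
    (REF : ∀ δ : ℝ, 0 < δ → δ ≤ c →
      PtLogic_164.Win Y l (max 0 (c - δ)) (min hi (c + δ)) →
      PtLogic_164.Win Y l (c - g * δ) (c + g * δ)) : Tendsto Y l (𝓝 c) := by
  obtain ⟨a, b, hab, hw, hsh⟩ := PtLogic_164.exists_sharp h0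
  obtain ⟨ha0, hbhi⟩ := hsh _ _ h0
  set δ := max (b - c) (c - a) with hδ
  have hb1 : b - c ≤ δ := le_max_left _ _
  have ha1 : c - a ≤ δ := le_max_right _ _
  have hδc : δ ≤ c := max_le (by linarith) (by linarith)
  have hδ0 : δ ≤ 0 := by
    by_contra hcon
    push Not at hcon
    have hw1 : PtLogic_164.Win Y l (max 0 (c - δ)) (min hi (c + δ)) :=
      hw.mono (max_le ha0 (by linarith)) (le_min hbhi (by linarith))
    obtain ⟨h3, h4⟩ := hsh _ _ (REF δ hcon hδc hw1)
    have h5 : δ ≤ g * δ := by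
      rw [hδ]
      refine max_le ?_ ?_
      · rw [← hδ]; linarith
      · rw [← hδ]; linarith
    nlinarith
  have hac : a = c := by linarith
  have hbc : b = c := by linarith
  rw [hac, hbc] at hw
  exact PtLogic_164.tendsto_of_Win hw

/-- **PTMAIN from `T1`, `T2`, a closed pair and the contraction.** -/
theorem ptmainC {g : ℝ} (hg : g < 1) (h1 : T1) (h2 : T2) (hC : CLOSED) (hR : REFC g) : PTMAIN := by
  intro P hP
  obtain ⟨c, W, V, I, k, hp⟩ := hC
  have hcb := c_bounds hp
  have w0 : Win P 1 0 hiA := h2 P hP (T12_52.t12 P hP (h1 P hP))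
  refine end_closed hP hp (tendsto_of_refc hg hp.c_pos ?_ ((win_iff P 1 0 hiA).1 w0) ?_)
  · unfold hiA; linarith [hcb.1]
  · intro δ hδ hδc hw
    exact (win_iff P 1 _ _).1 (hR P hP c W V I k hp δ hδ hδc ((win_iff P 1 _ _).2 hw))

end

end Crest.Agent.R146.PtTipC_52
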