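import Crest.Agent.R146.StepDef_791
import Crest.Agent.R146.StepApx_856
import Crest.Agent.R146.PtScalA_45

/-!
Row 146, package PT: INTERFACE between PT-STEP and PT-APRI / PT-CMP / PT-END (helper791).

`P : Prof` is the profile of a jamming minimiser: `P.D t = ∫_t^1 P.m` (`P.d = 0`), start `x0 = 1`.

* `PreSeq P T S` : approximating step data `A n` with backward fields, laws, and the limits
  `Ts (A n) → T`, `Qs (A n) → S - T` (locally uniformly on `[0,1)`); `T`, `S` do not depend on the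
  sequence. Used by the no-gap argument (PT-APRI).
* `NOGAP`        : quasi-convexity of `T` on affine pieces near `t = 1` (PT-APRI, 546/649).
* `TipSeq P`     : a `PreSeq` with `T = c`, `S - T = c0 D` on `[t1, 1)`: the ONLY input of the window,
  reference and end arguments.
* `OUT P`        : the output; `PTMAIN : ∀ P, TipSeq P → OUT P` is the target of PT-CMP/NUM/END.
-/

set_option autoImplicit false

namespace Crest.Agent.R146.TipSeq_791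

open MeasureTheory ProbabilityTheory Set Filter Topology
open Crest.Agent.R146.StepDef_791 Crest.Agent.R146.StepApx_856
open Crest.Agent.R146.PtScalA_45 (Prof)

noncomputable section

/-- approximating step data with all their fields; `x0 = 1` -/
structure PreSeq (P : Prof) (T S : ℝ → ℝ) where
  A : ℕ → SD
  ε : ℕ → ℝ
  F : ℕ → Finset ℝ
  K : ℕ → ℕ
  g : ℕ → ℕ → ℝ
  e : ℕ → ℝ
  p : ℕ → ℝ → ℝ → ℝ
  Y : ℕ → ℝ → ℝ → ℝ
  Yx : ℕ → ℝ → ℝ → ℝ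
  Yxx : ℕ → ℝ → ℝ → ℝ
  d0 : P.d = 0
  pos : ∀ t ∈ Ico (0 : ℝ) 1, 0 < P.D t
  int1 : IntervalIntegrable (fun t => (P.D t)⁻¹) volume 0 1
  int2 : IntervalIntegrable (fun t => 1 / (P.D t) ^ 2) volume 0 1
  /-- approximation, all facts of `StepApx_856.Apx` (windows, `(1-t) b ≤ 1`, monotone weights, ...) -/
  apx : ∀ n, Apx P.D P.m (ε n) (F n) (A n) (K n) (g n) (e n)
  ε_lim : Tendsto ε atTop (𝓝 0)
  /-- the dyadic points of level `n` are grid points -/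
  dyad : ∀ n k : ℕ, k ≤ 2 ^ n → ((k : ℝ) / 2 ^ n) ∈ F n
  back : ∀ n, Back (A n)
  clock : ∀ n, Clock (A n)
  law : ∀ n, Law (A n) 1 (p n) (Y n) (Yx n) (Yxx n)
  scal : ∀ n, Scal (A n) 1 (p n)
  /-- START (helper384): one-sided bounds of `Y = -(log p)_x` at a fixed time, uniformly in `n` -/
  Ys : ∀ t0 ∈ Ioo (0 : ℝ) 1, ∃ C : ℝ, ∀ᶠ n in atTop, ∀ x,
    -(C * (1 + (A n).u t0 x)) ≤ Y n t0 x ∧ Y n t0 x ≤ C * (1 + (A n).w t0 x)
  /-- universal lower bound of the slope (the weights are nondecreasing) -/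
  Yst : ∀ n, ∀ t ∈ Ioc 0 (A n).T, ∀ x, (x - 1) / t - (A n).bl t * (A n).u t x ≤ Y n t x
  T_cont : ContinuousOn T (Ico 0 1)
  S_cont : ContinuousOn S (Ico 0 1)
  T_nonneg : ∀ t ∈ Ico (0 : ℝ) 1, 0 ≤ T t
  T_le_S : ∀ t ∈ Ico (0 : ℝ) 1, T t ≤ S t
  S_le : ∀ t ∈ Ico (0 : ℝ) 1, S t ≤ 1
  T_lim : ∀ q ∈ Ioo (0 : ℝ) 1, TendstoUniformlyOn (fun n => Ts (A n) 1 (p n)) T atTop (Icc 0 q)
  Q_lim : ∀ q ∈ Ioo (0 : ℝ) 1,
    TendstoUniformlyOn (fun n => Qs (A n) 1 (p n)) (fun t => S t - T t) atTop (Icc 0 q)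

/-- **NOGAP** (PT-APRI): near `t = 1` the limit `T` is quasi-convex on the intervals where the weight
is constant. The sequence may be chosen with any given points in its grids; the slope bound `CY` does
not depend on these points. -/
def NOGAP : Prop := ∀ (P : Prof) (T S CY : ℝ → ℝ),
  (∀ F0 : Finset ℝ, (∀ x ∈ F0, x ∈ Icc (0 : ℝ) 1) → ∃ Q : PreSeq P T S, (∀ n, F0 ⊆ Q.F n) ∧
    ∀ t0 ∈ Ioo (0 : ℝ) 1, ∀ᶠ n in atTop, ∀ x,
      -(CY t0 * (1 + (Q.A n).u t0 x)) ≤ Q.Y n t0 x ∧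
        Q.Y n t0 x ≤ CY t0 * (1 + (Q.A n).w t0 x)) →
  ∃ t0 : ℝ, t0 < 1 ∧ ∀ a b, t0 ≤ a → 0 ≤ a → a < b → b < 1 → (∀ t ∈ Icc a b, P.m t = P.m a) →
    ∀ x y z, a ≤ x → x ≤ y → y ≤ z → z ≤ b → T y ≤ max (T x) (T z)

/-- the input of PT-CMP / PT-END -/
structure TipSeq (P : Prof) where
  T : ℝ → ℝ
  S : ℝ → ℝ
  seq : PreSeq P T S
  c : ℝ
  c0 : ℝ
  t1 : ℝ
  hc : 0 < c
  hc0 : 0 < c0
  ht1 : t1 ∈ Ico (0 : ℝ) 1
  T_eq : ∀ t ∈ Ico t1 1, T t = c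
  Q_eq : ∀ t ∈ Ico t1 1, S t - T t = c0 * P.D t

/-- the output of PT -/
def OUT (P : Prof) : Prop := ∃ ν : ℝ,
  Tendsto (fun t => Real.log (P.D t) / Real.log (1 - t)) (𝓝[<] 1) (𝓝 ν) ∧
  0.2936533 < ν ∧ ν < 0.2936535

/-- the target of PT-CMP, PT-NUM, PT-END -/
def PTMAIN : Prop := ∀ P : Prof, TipSeq P → OUT P

/-! ### window notation of PT-SPEC: `Win a lo hi` for the limit profile -/

/-- `Y* = (1-t) m/D` (`a = 0`) or `m K0` (`a = 1`) -/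
def Ystar (P : Prof) (a : Fin 2) (t : ℝ) : ℝ :=
  if a = 0 then (1 - t) * P.m t / P.D t else P.m t * Ks P.D t

/-- `Win_a(lo, hi)` -/
def Win (P : Prof) (a : Fin 2) (lo hi : ℝ) : Prop :=
  ∀ ε : ℝ, 0 < ε → ∃ ta : ℝ, ta < 1 ∧ 0 ≤ ta ∧ ∀ t ∈ Ico ta 1,
    lo - ε ≤ Ystar P a t ∧ Ystar P a t ≤ hi + ε

end

end Crest.Agent.R146.TipSeq_791
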