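import Crest.Agent.R146.WinLim_746
import Crest.Agent.R146.TipSeq_791

/-!
Row 146, PT-CMP (helper746): facts on `PreSeq`/`TipSeq` used by the windows:
* `small`  : `sc ω (A n) t * E_n t ^ 2 ≤ ε` for all `n`, all `t ∈ [tb, T_n]` (both clocks), from `int2`;
* `K0_lim` : `K0_n t → Ks t`;
* `Z_low`  : `Zs ≥ z0 > 0` on compacts of `[t1,1)`, eventually;
* `T_flat` : `Ts(y) - Ts(x) → 0` on `[t1,1)`.
-/

set_option autoImplicit false

namespace Crest.Agent.R146.WinTail_746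

open Set MeasureTheory Filter Topology
open Crest.Agent.R146.WinLim_746 Crest.Agent.R146.TipSeq_791
open Crest.Agent.R146.PtScalA_45 Crest.Agent.R146.StepDef_791 Crest.Agent.R146.StepApx_856
open Crest.Agent.R146.PtS4b_489

noncomputable section

variable {P : Prof} {T S : ℝ → ℝ}

/-- the tail of an integrable function -/
lemma tail_small {f : ℝ → ℝ} (hf : IntervalIntegrable f volume 0 1) {ε : ℝ} (hε : 0 < ε) :
    ∃ tb : ℝ, 0 ≤ tb ∧ tb < 1 ∧ ∀ t ∈ Ico tb 1, |∫ s in t..1, f s| ≤ ε := by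
  have h2 : ContinuousOn (fun x => ∫ s in (1 : ℝ)..x, f s) (uIcc 1 0) :=
    intervalIntegral.continuousOn_primitive_interval' hf.symm (by simp)
  rw [uIcc_of_ge zero_le_one] at h2
  have h3 := h2 1 ⟨zero_le_one, le_rfl⟩
  have h4 : Tendsto (fun x => ∫ s in (1 : ℝ)..x, f s) (𝓝[Icc 0 1] 1) (𝓝 0) := by
    have := h3.tendsto
    simpa using this
  rw [Metric.tendsto_nhdsWithin_nhds] at h4
  obtain ⟨δ, hδ, h5⟩ := h4 ε hε
  refine ⟨max 0 (1 - δ / 2), le_max_left _ _, max_lt one_pos (by linarith), fun t ht => ?_⟩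
  have ht0 : 0 ≤ t := (le_max_left _ _).trans ht.1
  have ht1 : 1 - δ / 2 ≤ t := (le_max_right _ _).trans ht.1
  have h6 := h5 (x := t) ⟨ht0, ht.2.le⟩ (by
    rw [Real.dist_eq, abs_lt]; constructor <;> linarith [ht.2])
  rw [Real.dist_eq, sub_zero, intervalIntegral.integral_symm, abs_neg] at h6
  exact h6.le

lemma D_anti (P : Prof) {x y : ℝ} (hx : 0 ≤ x) (hxy : x ≤ y) (hy : y ≤ 1) : P.D y ≤ P.D x := by
  unfold Prof.D
  have hi : ∀ a ∈ Icc (0 : ℝ) 1, ∀ b ∈ Icc (0 : ℝ) 1, IntervalIntegrable P.m volume a b := by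
    intro a ha b hb
    refine P.int.mono_set ?_
    rw [uIcc_of_le (zero_le_one' ℝ)]
    exact uIcc_subset_Icc ha hb
  have hxI : x ∈ Icc (0 : ℝ) 1 := ⟨hx, hxy.trans hy⟩
  have hyI : y ∈ Icc (0 : ℝ) 1 := ⟨hx.trans hxy, hy⟩
  have h1 := intervalIntegral.integral_add_adjacent_intervals (hi x hxI y hyI)
    (hi y hyI 1 ⟨zero_le_one, le_rfl⟩)
  have h2 : 0 ≤ ∫ s in x..y, P.m s := by
    rcases hxy.eq_or_lt with h | h
    · rw [h]; simp
    · -- a.e. nonnegative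
      refine intervalIntegral.integral_nonneg_of_ae_restrict hxy ?_
      have : ∀ᵐ s ∂(volume.restrict (Icc x y)), s ≠ 1 := by
        refine ae_restrict_of_ae ?_
        exact Measure.ae_ne volume 1
      filter_upwards [this, ae_restrict_mem measurableSet_Icc] with s hs1 hs2
      exact P.nonneg s ⟨hx.trans hs2.1, lt_of_le_of_ne (hs2.2.trans hy) hs1⟩
  linarith

/-- `(1-t)/D(t)² ≤ ∫_t^1 D^{-2}` and `Ks(t)/D(t) ≤ ∫_t^1 D^{-2}` -/
lemma scs_le (Q : PreSeq P T S) (ω : Bool) {t : ℝ} (ht : t ∈ Ico (0 : ℝ) 1) :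
    scs ω P t / (P.D t) ^ 2 ≤ ∫ s in t..1, 1 / (P.D s) ^ 2 := by
  have hD := Q.pos t ht
  have hsub : uIcc t 1 ⊆ uIcc (0 : ℝ) 1 := by
    rw [uIcc_of_le ht.2.le, uIcc_of_le zero_le_one]
    exact Icc_subset_Icc_left ht.1
  have hi2 : IntervalIntegrable (fun s => 1 / (P.D s) ^ 2) volume t 1 := Q.int2.mono_set hsub
  have hi1 : IntervalIntegrable (fun s => (P.D s)⁻¹) volume t 1 := Q.int1.mono_set hsub
  have hne : ∀ᵐ s ∂(volume.restrict (Icc t 1)), s ≠ 1 := by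
    refine ae_restrict_of_ae ?_
    exact Measure.ae_ne volume 1
  cases ω
  · simp only [scs, Bool.false_eq_true, if_false]
    have h2 : ∫ _ in t..1, 1 / (P.D t) ^ 2 = (1 - t) / (P.D t) ^ 2 := by
      simp [div_eq_mul_inv]
    rw [← h2]
    refine intervalIntegral.integral_mono_ae_restrict ht.2.le intervalIntegrable_const hi2 ?_
    filter_upwards [hne, ae_restrict_mem measurableSet_Icc] with s hs1 hs2
    have hs : s ∈ Ico (0 : ℝ) 1 := ⟨ht.1.trans hs2.1, lt_of_le_of_ne hs2.2 hs1⟩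
    have h3 := Q.pos s hs
    have h4 := D_anti P ht.1 hs2.1 hs2.2
    exact one_div_le_one_div_of_le (by positivity) (pow_le_pow_left₀ h3.le h4 2)
  · simp only [scs, if_true]
    have h2 : ∫ s in t..1, (P.D s)⁻¹ * (P.D t)⁻¹ = P.D t * Ks P.D t / (P.D t) ^ 2 := by
      rw [intervalIntegral.integral_mul_const]
      unfold Ks
      field_simp
    rw [← h2]
    refine intervalIntegral.integral_mono_ae_restrict ht.2.le (hi1.mul_const _) hi2 ?_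
    filter_upwards [hne, ae_restrict_mem measurableSet_Icc] with s hs1 hs2
    have hs : s ∈ Ico (0 : ℝ) 1 := ⟨ht.1.trans hs2.1, lt_of_le_of_ne hs2.2 hs1⟩
    have h3 := Q.pos s hs
    have h4 := D_anti P ht.1 hs2.1 hs2.2
    have h5 : (P.D t)⁻¹ ≤ (P.D s)⁻¹ := inv_anti₀ h3 h4
    calc (P.D s)⁻¹ * (P.D t)⁻¹ ≤ (P.D s)⁻¹ * (P.D s)⁻¹ :=
          mul_le_mul_of_nonneg_left h5 (inv_pos.2 h3).le
      _ = 1 / (P.D s) ^ 2 := by field_simp

/-- **smallness of `√χ E`**, uniformly in `n` -/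
theorem small (Q : PreSeq P T S) (ω : Bool) {ε : ℝ} (hε : 0 < ε) :
    ∃ tb : ℝ, 0 ≤ tb ∧ tb < 1 ∧ ∀ n, ∀ t ∈ Icc tb (Q.A n).T,
      sc ω (Q.A n) t * (Q.A n).E t ^ 2 ≤ ε := by
  obtain ⟨tb, h0, h1, h2⟩ := tail_small Q.int2 hε
  refine ⟨tb, h0, h1, fun n t ht => ?_⟩
  have htI : t ∈ Ico (0 : ℝ) 1 := ⟨h0.trans ht.1, ht.2.trans_lt (Q.A n).hT1⟩
  have hDA : P.D t ≤ (Q.A n).D t := (Q.apx n).D_le t ⟨htI.1, htI.2.le⟩
  have hD := Q.pos t htI
  have hE : (Q.A n).E t ≤ (P.D t)⁻¹ := inv_anti₀ hD hDA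
  have hE0 := ((Q.A n).E_pos t).le
  refine le_trans ?_ ((scs_le Q ω htI).trans ((le_abs_self _).trans (h2 t ⟨ht.1, htI.2⟩)))
  have hK : (Q.A n).K0 t ≤ Ks P.D t := (Q.apx n).K0_le t ⟨htI.1, htI.2.le⟩
  have hKs0 : 0 ≤ Ks P.D t := by
    refine ((Q.clock n).K0_pos t htI.2).le.trans hK
  cases ω
  · simp only [sc, scs, Bool.false_eq_true, if_false]
    have h3 : (Q.A n).E t ^ 2 ≤ ((P.D t)⁻¹) ^ 2 := pow_le_pow_left₀ hE0 hE 2
    calc (1 - t) * (Q.A n).E t ^ 2 ≤ (1 - t) * ((P.D t)⁻¹) ^ 2 :=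
          mul_le_mul_of_nonneg_left h3 (by linarith [htI.2])
      _ = (1 - t) / (P.D t) ^ 2 := by rw [inv_pow]; rfl
  · simp only [sc, scs, if_true, SD.chi]
    have hDn := (Q.A n).D_pos t
    have h3 : (Q.A n).D t * (Q.A n).K0 t * (Q.A n).E t ^ 2 = (Q.A n).K0 t * (Q.A n).E t := by
      unfold SD.E; field_simp
    have h4 : P.D t * Ks P.D t / (P.D t) ^ 2 = Ks P.D t * (P.D t)⁻¹ := by field_simp
    rw [h3, h4]
    exact mul_le_mul hK hE hE0 hKs0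

/-- `K0_n t → Ks t` -/
theorem K0_lim (Q : PreSeq P T S) {t : ℝ} (ht : t ∈ Ico (0 : ℝ) 1) :
    Tendsto (fun n => (Q.A n).K0 t) atTop (𝓝 (Ks P.D t)) := by
  have h1 : Tendsto (fun n => Ks P.D t - Q.ε n) atTop (𝓝 (Ks P.D t - 0)) :=
    tendsto_const_nhds.sub Q.ε_lim
  rw [sub_zero] at h1
  exact tendsto_of_tendsto_of_tendsto_of_le_of_le h1 tendsto_const_nhds
    (fun n => (Q.apx n).le_K0 t ⟨ht.1, ht.2.le⟩) (fun n => (Q.apx n).K0_le t ⟨ht.1, ht.2.le⟩)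

/-- `Ts(y) - Ts(x) → 0` on `[t1,1)` -/
theorem T_flat (TS : TipSeq P) :
    ∀ x ∈ Ico TS.t1 1, ∀ y ∈ Ico TS.t1 1,
      Tendsto (fun n => Ts (TS.seq.A n) 1 (TS.seq.p n) y - Ts (TS.seq.A n) 1 (TS.seq.p n) x) atTop
        (𝓝 0) := by
  have hl : ∀ x ∈ Ico TS.t1 1,
      Tendsto (fun n => Ts (TS.seq.A n) 1 (TS.seq.p n) x) atTop (𝓝 TS.c) := by
    intro x hx
    have hx0 : 0 ≤ x := TS.ht1.1.trans hx.1
    have hq : (x + 1) / 2 ∈ Ioo (0 : ℝ) 1 := ⟨by linarith, by linarith [hx.2]⟩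
    have := (TS.seq.T_lim _ hq).tendsto_at (x := x) ⟨hx0, by linarith [hx.2]⟩
    rwa [TS.T_eq x hx] at this
  intro x hx y hy
  have := (hl y hy).sub (hl x hx)
  rwa [sub_self] at this

end

end Crest.Agent.R146.WinTail_746
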