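import Crest.Agent.R146.PtRefIf_847
import Crest.Agent.R146.StepClk_900
import Crest.Agent.R146.WinTail_746
import Crest.Agent.R146.PtTipC_52

/-!
Row 146, PT (helper847): ASSEMBLY `winref_of : SLOPE → LAW → CLOS → WINREF`.
-/

set_option autoImplicit false

namespace Crest.Agent.R146.PtRefAsm_847

open MeasureTheory ProbabilityTheory Set Filter Topology
open Crest.Agent.R146.StepDef_791 Crest.Agent.R146.StepApx_856 Crest.Agent.R146.TipSeq_791
open Crest.Agent.R146.PtScalA_45 (Prof)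
open Crest.Agent.R146.PtRef_846 Crest.Agent.R146.PtLim_847 Crest.Agent.R146.PtRefIf_847
open Crest.Agent.R146.WinLim_746 Crest.Agent.R146.StepAppr_522
open Crest.Agent.R146.YW_177 (sN thN sN_pos)

noncomputable section

variable {P : Prof} {T S : ℝ → ℝ}

theorem bchi (A : SD) (t : ℝ) : A.b t * A.chi t = A.m t * A.K0 t := by
  have := (A.D_pos t).ne'
  unfold SD.b SD.chi
  field_simp

theorem SB.mono {A : SD} (hB : Back A) (hC : Clock A) {D : WData} {e e' t : ℝ} (ht : t ∈ Icc 0 A.T)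
    (hp : ∀ v ∈ Ioo (0:ℝ) 1, 0 < D.Kp v) (hm : ∀ v ∈ Ioo (0:ℝ) 1, 0 < D.Km v) (he : e ≤ e')
    (h : SB A D e t) : SB A D e' t := by
  intro x
  obtain ⟨h1, h2⟩ := h x
  have hs := sN_pos hC (ht.2.trans_lt A.hT1)
  have hV := V_bd hB ht x
  have a1 := mul_pos hs (hm _ hV)
  have a2 := mul_pos hs (hp _ hV)
  constructor
  · refine le_trans ?_ h1
    nlinarith
  · refine h2.trans ?_
    nlinarith

theorem LB.mono {A : SD} (hC : Clock A) {Y : ℝ → ℝ → ℝ} {D : WData} {e e' t : ℝ} (ht : t < 1)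
    (hu : ∀ x, 0 ≤ A.u t x) (hw : ∀ x, 0 ≤ A.w t x) (he : e ≤ e')
    (h : LB A Y D e t) : LB A Y D e' t := by
  intro x
  obtain ⟨h1, h2, h3⟩ := h x
  have hs := sN_pos hC ht
  have a1 : 0 ≤ sN A t * A.u t x := mul_nonneg hs.le (hu x)
  have a2 : 0 ≤ sN A t * A.w t x := mul_nonneg hs.le (hw x)
  have b1 : e * (1 + sN A t * A.u t x) ≤ e' * (1 + sN A t * A.u t x) :=
    mul_le_mul_of_nonneg_right he (by linarith)
  have b2 : e * (1 + sN A t * A.w t x) ≤ e' * (1 + sN A t * A.w t x) :=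
    mul_le_mul_of_nonneg_right he (by linarith)
  refine ⟨?_, ?_, ?_⟩
  · exact (mul_le_mul_of_nonneg_left (by linarith) hs.le).trans h1
  · exact (neg_le_neg (mul_le_mul_of_nonneg_left b1 hs.le)).trans h2
  · exact h3.trans (mul_le_mul_of_nonneg_left (by linarith) hs.le)

/-- `C (K0 q1 / K0 t)^k` is small, eventually, for `q1` close to `1` -/
theorem ratio_small (Q : PreSeq P T S) {C k ε : ℝ} (hk : 0 < k) (hε : 0 < ε) {t : ℝ}
    (ht : t ∈ Ico (0 : ℝ) 1) :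
    ∃ q1 ∈ Ioo t 1, ∀ᶠ n in atTop, C * ((Q.A n).K0 q1 / (Q.A n).K0 t) ^ k ≤ ε := by
  have hKt : 0 < Ks P.D t := by
    have h1 := (Q.apx 0).K0_le t ⟨ht.1, ht.2.le⟩
    exact ((Q.clock 0).K0_pos t ht.2).trans_le h1
  -- continuity at `0`
  have hcont : Tendsto (fun r : ℝ => C * r ^ k) (𝓝 0) (𝓝 0) := by
    have h1 : ContinuousAt (fun r : ℝ => C * r ^ k) 0 :=
      continuousAt_const.mul (Real.continuousAt_rpow_const 0 k (Or.inr hk.le))
    have h2 := h1.tendsto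
    simpa [Real.zero_rpow hk.ne'] using h2
  obtain ⟨δ, hδ, hδ'⟩ := Metric.eventually_nhds_iff.1 (hcont.eventually (gt_mem_nhds hε))
  obtain ⟨tb, hb0, hb1, hb2⟩ := WinTail_746.tail_small Q.int1 (ε := δ / 2 * Ks P.D t) (by positivity)
  set q1 : ℝ := (max t tb + 1) / 2 with hq1
  have hm1 : max t tb < 1 := max_lt ht.2 hb1
  have hq1I : q1 ∈ Ioo t 1 := by
    have := le_max_left t tb
    constructor
    · rw [hq1]; linarith
    · rw [hq1]; linarith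
  have hq1b : q1 ∈ Ico tb 1 := by
    have := le_max_right t tb
    exact ⟨by rw [hq1]; linarith, hq1I.2⟩
  refine ⟨q1, hq1I, ?_⟩
  have hK1 : Ks P.D q1 ≤ δ / 2 * Ks P.D t := (le_abs_self _).trans (hb2 q1 hq1b)
  have hlim : Tendsto (fun n => (Q.A n).K0 q1 / (Q.A n).K0 t) atTop (𝓝 (Ks P.D q1 / Ks P.D t)) :=
    (K0_lim Q ⟨ht.1.trans hq1I.1.le, hq1I.2.le⟩).div (K0_lim Q ⟨ht.1, ht.2.le⟩) hKt.ne'
  have hlt : Ks P.D q1 / Ks P.D t < δ := by
    rw [div_lt_iff₀ hKt]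
    nlinarith
  filter_upwards [hlim.eventually (gt_mem_nhds hlt)] with n hn
  have h1 : 0 < (Q.A n).K0 q1 / (Q.A n).K0 t :=
    div_pos ((Q.clock n).K0_pos _ hq1I.2) ((Q.clock n).K0_pos _ ht.2)
  exact (hδ' (by rw [Real.dist_eq, sub_zero, abs_of_pos h1]; exact hn)).le

/-- exact step windows -/
theorem windows (Q : PreSeq P T S) {lo hi e : ℝ} (he : 0 < e) (hw : Win P 1 lo hi) :
    ∃ t3 ∈ Ioo (0 : ℝ) 1, (∀ᶠ n in atTop, (∀ x ∈ Ico t3 (Q.A n).T, (Q.A n).b x * (Q.A n).chi x ≤ hi + e)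
        ∧ ∀ x ∈ Icc t3 (Q.A n).T, (Q.A n).ml x * (Q.A n).K0 x ≤ hi + e) ∧
      ∀ q < 1, ∀ᶠ n in atTop, ∀ x ∈ Icc t3 q, lo - e ≤ (Q.A n).b x * (Q.A n).chi x ∧
        lo - e ≤ (Q.A n).ml x * (Q.A n).K0 x := by
  obtain ⟨ta, ha1, ha0, hY⟩ := hw (e / 2) (by positivity)
  have hY' : ∀ x ∈ Ico ta 1, lo - e / 2 ≤ P.m x * Ks P.D x ∧ P.m x * Ks P.D x ≤ hi + e / 2 := by
    intro x hx
    have := hY x hx
    unfold Ystar at this
    rwa [if_neg (by decide)] at this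
  have hlt : ta < (ta + 1) / 2 := by linarith
  have hlt1 : (ta + 1) / 2 < 1 := by linarith
  refine ⟨(ta + 1) / 2, ⟨by linarith, hlt1⟩, ?_, ?_⟩
  · filter_upwards [ev_win_up Q.apx Q.ε_lim ha0 hlt hlt1 (fun x hx => (hY' x hx).2)
      (δ := e / 2) (by positivity)] with n hn
    refine ⟨fun x hx => ?_, fun x hx => ?_⟩
    · rw [bchi]; have := hn.1 x hx; linarith
    · have := hn.2 x hx; linarith
  · intro q hq
    filter_upwards [ev_win_lo Q.apx Q.ε_lim ha0 hlt hlt1 hq (fun x hx => (hY' x hx).1)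
      (δ := e / 2) (by positivity)] with n hn x hx
    have := hn x hx
    rw [bchi]
    constructor
    · linarith [this.1]
    · linarith [this.2]

theorem u_nonneg {A : SD} (hB : Back A) {t : ℝ} (ht : t ∈ Icc 0 A.T) (x : ℝ) : 0 ≤ A.u t x :=
  (hB.u_pos t ht x).le

theorem w_nonneg {A : SD} (hB : Back A) {t : ℝ} (ht : t ∈ Icc 0 A.T) (x : ℝ) : 0 ≤ A.w t x :=
  (hB.w_pos t ht x).le

/-- **WINREF** from the three step-level theorems. -/
theorem winref_of (hS : SLOPE) (hL : LAW) (hCl : CLOS) : WINREF := by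
  intro P TS lo hi tlo thi e0 κ M D h hw
  set Q := TS.seq with hQ
  have he0 := h.e0_pos
  obtain ⟨t3, ht3, w1, w2⟩ := windows Q he0 hw
  obtain ⟨C, k, hC0, hk, hS'⟩ := hS h
  -- slope bands, `Late` with the fixed left end `t3`
  have slope : ∀ ε : ℝ, 0 < ε → ∀ q ∈ Ioo t3 1, ∀ᶠ n in atTop, ∀ t ∈ Icc t3 q, SB (Q.A n) D ε t := by
    intro ε hε q hq
    have hq0 : 0 ≤ q := ht3.1.le.trans hq.1.le
    obtain ⟨q1, hq1, hr⟩ := ratio_small Q (C := C) hk hε ⟨hq0, hq.2⟩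
    filter_upwards [hr, w1, w2 q1 hq1.2, ev_T Q hq1.2] with n hn hn1 hn2 hnT t ht
    have hcl := Q.clock n
    have htT : t ∈ Icc 0 (Q.A n).T := ⟨ht3.1.le.trans ht.1, ht.2.trans (hq1.1.le.trans hnT.le)⟩
    have h1 := hS' (Q.A n) (Q.back n) hcl t3 q1 ht3.1.le (hq.1.le.trans hq1.1.le) hnT.le hn1.1
      (fun s hs => (hn2 s ⟨hs.1, hs.2.le⟩).1) t ⟨ht.1, ht.2.trans hq1.1.le⟩
    refine SB.mono (Q.back n) hcl htT h.Kp_pos h.Km_pos ?_ h1
    refine le_trans ?_ hn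
    have ht1 : t < 1 := ht.2.trans_lt hq.2
    have hKq := hcl.K0_pos q hq.2
    have hKt := hcl.K0_pos t ht1
    have hK1 := hcl.K0_pos q1 hq1.2
    have hanti : (Q.A n).K0 q ≤ (Q.A n).K0 t := (StepClk_900.K0_anti (Q.A n)).antitone ht.2
    refine mul_le_mul_of_nonneg_left ?_ hC0
    refine Real.rpow_le_rpow (div_pos hK1 hKt).le ?_ hk.le
    exact div_le_div_of_nonneg_left hK1.le hKq hanti
  -- start of the law
  set t4 : ℝ := (t3 + 1) / 2 with ht4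
  have ht4I : t4 ∈ Ioo (0 : ℝ) 1 := ⟨by rw [ht4]; linarith [ht3.1], by rw [ht4]; linarith [ht3.2]⟩
  have ht34 : t3 < t4 := by rw [ht4]; linarith [ht3.2]
  obtain ⟨C1, hC1⟩ := Q.Ys t4 ht4I
  set C0 : ℝ := max C1 1 with hC0'
  have hC00 : 0 < C0 := lt_max_of_lt_right one_pos
  -- lower bound of the scale at `t4`
  obtain ⟨s0, hs0, hs0'⟩ : ∃ s0 > 0, ∀ᶠ n in atTop, s0 ≤ sN (Q.A n) t4 := by
    have h1 := sc_lim Q true (t := t4) ⟨ht4I.1.le, ht4I.2⟩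
    set χ := scs true P t4 with hχ
    have hχ0 : 0 ≤ χ := ge_of_tendsto h1 (Eventually.of_forall fun n => by
      have := sc_ge (Q.clock n) true ht4I.2
      linarith [ht4I.2])
    refine ⟨(Real.sqrt (χ + 1))⁻¹, by positivity, ?_⟩
    filter_upwards [h1.eventually (gt_mem_nhds (lt_add_one χ))] with n hn
    have h2 : (Q.A n).chi t4 < χ + 1 := by simpa [sc] using hn
    have h3 := (Q.clock n).chi_pos t4 ht4I.2
    unfold sN
    exact inv_anti₀ (Real.sqrt_pos.2 h3) (Real.sqrt_le_sqrt h2.le)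
  obtain ⟨θ, k', hθ0, hk', hL'⟩ := hL h C0 s0 hC00 hs0
  -- law bands with a transient
  have law0 : ∀ q ∈ Ioo t4 1, ∀ᶠ n in atTop, ∀ t ∈ Icc t4 q,
      LB (Q.A n) (Q.Y n) D (θ * ((Q.A n).K0 t / (Q.A n).K0 t4) ^ k') t := by
    intro q hq
    filter_upwards [slope (e0 / 2) (by positivity) q ⟨ht34.trans hq.1, hq.2⟩, hC1, hs0', w1,
      w2 q hq.2, ev_T Q hq.2] with n hn1 hn2 hn3 hn4 hn5 hnT t ht
    have hcl := Q.clock n
    have ht4T : t4 ∈ Icc 0 (Q.A n).T := ⟨ht4I.1.le, hq.1.le.trans hnT.le⟩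
    refine hL' (Q.A n) (Q.back n) hcl _ _ _ _ (Q.law n) t4 q ht4I.1 hq.1 hnT.le hn3 ?_ ?_ ?_ t ht
    · intro s hs
      exact ⟨(hn5 s ⟨ht34.le.trans hs.1, hs.2⟩).2, hn4.2 s ⟨ht34.le.trans hs.1, hs.2.trans hnT.le⟩⟩
    · intro s hs
      exact hn1 s ⟨ht34.le.trans hs.1, hs.2⟩
    · intro x
      obtain ⟨a1, a2⟩ := hn2 x
      have hu := u_nonneg (Q.back n) ht4T x
      have hw' := w_nonneg (Q.back n) ht4T x
      have hcc : C1 ≤ C0 := le_max_left _ _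
      constructor
      · refine le_trans (neg_le_neg ?_) a1
        exact mul_le_mul_of_nonneg_right hcc (by linarith)
      · exact a2.trans (mul_le_mul_of_nonneg_right hcc (by linarith))
  -- law bands, `Late`
  have law : ∀ ε : ℝ, 0 < ε → ∃ t5 ∈ Ioo t4 1, ∀ q ∈ Ioo t5 1, ∀ᶠ n in atTop, ∀ t ∈ Icc t5 q,
      LB (Q.A n) (Q.Y n) D ε t := by
    intro ε hε
    obtain ⟨t5, ht5, hr⟩ := ratio_small Q (C := θ) hk' hε ⟨ht4I.1.le, ht4I.2⟩
    refine ⟨t5, ht5, fun q hq => ?_⟩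
    filter_upwards [hr, law0 q ⟨ht5.1.trans hq.1, hq.2⟩, ev_T Q hq.2] with n hn hn1 hnT t ht
    have hcl := Q.clock n
    have ht1 : t < 1 := ht.2.trans_lt hq.2
    have htT : t ∈ Icc 0 (Q.A n).T := ⟨ht4I.1.le.trans (ht5.1.le.trans ht.1), ht.2.trans hnT.le⟩
    refine LB.mono hcl ht1 (u_nonneg (Q.back n) htT) (w_nonneg (Q.back n) htT) ?_
      (hn1 t ⟨ht5.1.le.trans ht.1, ht.2⟩)
    refine le_trans ?_ hn
    have hK4 := hcl.K0_pos t4 ht4I.2
    have hKt := hcl.K0_pos t ht1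
    have hanti : (Q.A n).K0 t ≤ (Q.A n).K0 t5 := (StepClk_900.K0_anti (Q.A n)).antitone ht.1
    refine mul_le_mul_of_nonneg_left ?_ hθ0
    refine Real.rpow_le_rpow (div_pos hKt hK4).le ?_ hk'.le
    exact div_le_div_of_nonneg_right hanti hK4.le
  -- closure, `Late`
  have clo : ∀ ε : ℝ, 0 < ε → ∃ t2 ∈ Ico (0 : ℝ) 1, ∀ q ∈ Ioo t2 1, ∀ᶠ n in atTop,
      q < (Q.A n).T ∧ ∀ t ∈ Icc t2 q,
        (Q.A n).chi t * Ns (Q.A n) 1 (Q.p n) t ≤ 2 * (thi + ε) * Zs (Q.A n) 1 (Q.p n) t ∧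
        2 * (tlo - ε) * Zs (Q.A n) 1 (Q.p n) t ≤ (Q.A n).chi t * Ns (Q.A n) 1 (Q.p n) t := by
    intro ε hε
    obtain ⟨e, he, hcl⟩ := hCl h ε hε
    obtain ⟨t5, ht5, hl⟩ := law e he
    have ht50 : 0 < t5 := ht4I.1.trans ht5.1
    refine ⟨t5, ⟨ht50.le, ht5.2⟩, fun q hq => ?_⟩
    filter_upwards [hl q hq, slope e he q ⟨ht34.trans (ht5.1.trans hq.1), hq.2⟩, ev_T Q hq.2]
      with n hn1 hn2 hnT
    refine ⟨hnT, fun t ht => ?_⟩
    exact hcl (Q.A n) (Q.back n) (Q.clock n) _ _ _ _ (Q.law n) t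
      ⟨ht50.trans_le ht.1, ht.2.trans hnT.le⟩
      (hn2 t ⟨(ht34.trans ht5.1).le.trans ht.1, ht.2⟩) (hn1 t ht)
  have hup : CUp true Q thi := by
    intro ε hε
    obtain ⟨t2, ht2, h2⟩ := clo ε hε
    refine ⟨t2, ht2, fun q hq => ?_⟩
    filter_upwards [h2 q hq] with n hn
    refine ⟨hn.1, fun t ht => ?_⟩
    simpa [sc] using (hn.2 t ht).1
  have hlo : CLo true Q tlo := by
    intro ε hε
    obtain ⟨t2, ht2, h2⟩ := clo ε hε
    refine ⟨t2, ht2, fun q hq => ?_⟩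
    filter_upwards [h2 q hq] with n hn
    refine ⟨hn.1, fun t ht => ?_⟩
    simpa [sc] using (hn.2 t ht).2
  have homega : om 1 = true := by unfold om; rw [if_neg (by decide)]
  -- `0 ≤ thi`
  have hthi : 0 ≤ thi := by
    by_contra hneg
    push Not at hneg
    obtain ⟨t2, ht2, h2⟩ := clo (-thi / 2) (by linarith)
    have h01 := TS.ht1
    set a := max t2 TS.t1 with ha
    have ha1 : a < 1 := max_lt ht2.2 h01.2
    set q : ℝ := (a + 1) / 2 with hq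
    have haq : a < q := by rw [hq]; linarith
    have hq1 : q < 1 := by rw [hq]; linarith
    obtain ⟨z0, hz0, hZ⟩ := Z_low TS (q := q) ⟨(le_max_right _ _).trans_lt haq, hq1⟩
    obtain ⟨n, hn1, hn2⟩ := ((h2 q ⟨(le_max_left _ _).trans_lt haq, hq1⟩).and hZ).exists
    have h3 := (hn1.2 q ⟨(le_max_left _ _).trans haq.le, le_rfl⟩).1
    have h4 := (hn2 q ⟨(le_max_right _ _).trans haq.le, le_rfl⟩).1
    have h5 : 0 ≤ (Q.A n).chi q := ((Q.clock n).chi_pos q hq1).le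
    have hq0 : 0 ≤ q := h01.1.trans ((le_max_right _ _).trans haq.le)
    have h6 : 0 ≤ Ns (Q.A n) 1 (Q.p n) q :=
      StepTest_168.ex_nonneg (Q.law n) hn1.1.le fun x => sq_nonneg _
    have h7 := mul_nonneg h5 h6
    have h8 : 2 * (thi + -thi / 2) * Zs (Q.A n) 1 (Q.p n) q = thi * Zs (Q.A n) 1 (Q.p n) q := by
      ring
    rw [h8] at h3
    nlinarith
  exact win_of_clo TS 1 hthi (homega ▸ hup) (homega ▸ hlo)

/-- `REFC` from `WINREF` and the static certificate -/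
theorem refc_of (hW : WINREF) (hN : NUMREF) : PtTipC_52.REFC gr := by
  intro P hP c W V I k hp δ hδ hδc hw
  obtain ⟨e0, κ, M, D, h⟩ := hN c W V I k hp δ hδ hδc
  refine hW P hP _ _ _ _ e0 κ M D h ?_
  have : PtTip_164.hiA = 7 / 10 := rfl
  rwa [this] at hw

/-- **PTMAIN** from `T1`, `T2`, a closed pair, the three step-level theorems and the certificate -/
theorem ptmain_of (h1 : PtTip_164.T1) (h2 : PtTip_164.T2) (hC : PtTipC_52.CLOSED) (hS : SLOPE)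
    (hL : LAW) (hCl : CLOS) (hN : NUMREF) : PTMAIN :=
  PtTipC_52.ptmainC (g := gr) (by unfold gr; norm_num) h1 h2 hC
    (refc_of (winref_of hS hL hCl) hN)

end

end Crest.Agent.R146.PtRefAsm_847
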