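import Crest.Agent.R146.PtS5_489
import Crest.Agent.R146.StepApx_856

/-!
Row 146, PT-CMP (helper746): from a closure inequality of the step systems (at every time, for all large
`n`) to the window of the limit profile, in both clocks.

`sc ω A t` : scale of the step system, `ω = true` : `chi = D K0`; `ω = false` : `1 - t`;
`scs ω P t`: the same for the limit profile; `Ys ω P t = m/D * scs`.
-/

set_option autoImplicit false

namespace Crest.Agent.R146.WinLim_746

open Set MeasureTheory Filter Topology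
open Crest.Agent.R146.PtS4_489 Crest.Agent.R146.PtS4b_489 Crest.Agent.R146.PtS5_489
open Crest.Agent.R146.PtScalA_45 Crest.Agent.R146.StepDef_791 Crest.Agent.R146.StepApx_856

noncomputable section

/-- scale of the step system -/
def sc (ω : Bool) (A : SD) (t : ℝ) : ℝ := if ω then A.chi t else 1 - t

/-- scale of the limit profile -/
def scs (ω : Bool) (P : Prof) (t : ℝ) : ℝ := if ω then P.D t * Ks P.D t else 1 - t

/-- `Y*`: `m K0` (new clock) or `ν = (1-t) m / D` (old clock) -/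
def Ys (ω : Bool) (P : Prof) (t : ℝ) : ℝ := P.m t / P.D t * scs ω P t

lemma Ys_true {P : Prof} {t : ℝ} (h : 0 < P.D t) : Ys true P t = P.m t * Ks P.D t := by
  unfold Ys scs
  simp only [if_true]
  field_simp

lemma Ys_false {P : Prof} {t : ℝ} : Ys false P t = (1 - t) * P.m t / P.D t := by
  unfold Ys scs
  simp only [Bool.false_eq_true, if_false]
  ring

lemma sc_ge {A : SD} (hC : Clock A) (ω : Bool) {t : ℝ} (ht : t < 1) : 1 - t ≤ sc ω A t := by
  cases ω
  · simp [sc]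
  · simp only [sc, if_true]
    -- K0 t ≥ (1-t)/D t
    have hD := A.D_pos t
    have h1 : (1 - t) * (A.D t)⁻¹ ≤ A.K0 t := by
      unfold SD.K0
      have h2 : ∫ _ in t..1, (A.D t)⁻¹ = (1 - t) * (A.D t)⁻¹ := by simp
      rw [← h2]
      refine intervalIntegral.integral_mono_on ht.le intervalIntegrable_const ?_ ?_
      · exact (E_cont hC).intervalIntegrable _ _
      · intro s hs
        exact inv_anti₀ (A.D_pos s) (hC.D_anti hs.1)
    have h3 : A.D t * ((1 - t) * (A.D t)⁻¹) ≤ A.D t * A.K0 t := mul_le_mul_of_nonneg_left h1 hD.le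
    have h4 : A.D t * ((1 - t) * (A.D t)⁻¹) = 1 - t := by field_simp
    unfold SD.chi
    linarith

lemma K0_cont {A : SD} (hC : Clock A) : Continuous A.K0 := by
  have h1 : A.K0 = fun t => ∫ s in t..1, A.E s := rfl
  have h2 : A.K0 = fun t => -∫ s in (1 : ℝ)..t, A.E s := by
    rw [h1]; funext t; rw [intervalIntegral.integral_symm]
  rw [h2]
  exact (intervalIntegral.continuous_primitive
    (fun a b => (E_cont hC).intervalIntegrable a b) 1).neg

lemma sc_cont {A : SD} (hC : Clock A) (ω : Bool) : Continuous (sc ω A) := by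
  cases ω
  · have : sc false A = fun t => 1 - t := by funext t; simp [sc]
    rw [this]; fun_prop
  · have : sc true A = fun t => A.D t * A.K0 t := by funext t; simp [sc, SD.chi]
    rw [this]
    exact hC.D_cont.mul (K0_cont hC)

lemma Ks_cont {P : Prof} (hint : IntervalIntegrable (fun x => (P.D x)⁻¹) volume 0 1) :
    ContinuousOn (Ks P.D) (Icc 0 1) := by
  have h2 : ContinuousOn (fun x => ∫ s in (1 : ℝ)..x, (P.D s)⁻¹) (uIcc 1 0) :=
    intervalIntegral.continuousOn_primitive_interval' hint.symm (by simp)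
  rw [uIcc_of_ge zero_le_one] at h2
  refine h2.neg.congr fun x _ => ?_
  show (∫ s in x..1, (P.D s)⁻¹) = -∫ s in (1 : ℝ)..x, (P.D s)⁻¹
  rw [intervalIntegral.integral_symm]

lemma scs_cont {P : Prof} (hint : IntervalIntegrable (fun x => (P.D x)⁻¹) volume 0 1) (ω : Bool) :
    ContinuousOn (scs ω P) (Icc 0 1) := by
  cases ω
  · have : scs false P = fun t => 1 - t := by funext t; simp [scs]
    rw [this]; fun_prop
  · have : scs true P = fun t => P.D t * Ks P.D t := by funext t; simp [scs]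
    rw [this]
    exact (D_contOn P).mul (Ks_cont hint)

lemma scs_pos {P : Prof} (hpos : ∀ t ∈ Ico (0 : ℝ) 1, 0 < P.D t)
    (hint : IntervalIntegrable (fun x => (P.D x)⁻¹) volume 0 1) (ω : Bool) {t : ℝ}
    (ht : t ∈ Ico (0 : ℝ) 1) : 0 < scs ω P t := by
  cases ω
  · simp only [scs, Bool.false_eq_true, if_false]; linarith [ht.2]
  · simp only [scs, if_true]
    refine mul_pos (hpos t ht) ?_
    unfold Ks
    refine intervalIntegral.intervalIntegral_pos_of_pos_on ?_ ?_ ht.2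
    · exact hint.mono_set (by
        rw [uIcc_of_le ht.2.le, uIcc_of_le zero_le_one]
        exact Icc_subset_Icc_left ht.1)
    · intro s hs
      exact inv_pos.2 (hpos s ⟨ht.1.trans hs.1.le, hs.2⟩)

variable {P : Prof} {A : ℕ → SD} {x0 : ℝ} {p : ℕ → ℝ → ℝ → ℝ} {L0 C0 : ℝ → ℝ}

/-- pointwise convergence of the scale -/
lemma sc_tendsto (h : Appr P A x0 p L0 C0)
    (hK : ∀ t ∈ Ico (0 : ℝ) 1, Tendsto (fun n => (A n).K0 t) atTop (𝓝 (Ks P.D t))) (ω : Bool)
    {t : ℝ} (ht : t ∈ Ico (0 : ℝ) 1) : Tendsto (fun n => sc ω (A n) t) atTop (𝓝 (scs ω P t)) := by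
  cases ω
  · simp [sc, scs]
  · simp only [sc, scs, if_true, SD.chi]
    have hq : (t + 1) / 2 ∈ Ioo (0 : ℝ) 1 := ⟨by linarith [ht.1], by linarith [ht.2]⟩
    exact ((h.DL _ hq).tendsto_at ⟨ht.1, by linarith [ht.2]⟩).mul (hK t ht)

/-- **Upper window of the limit** from the closure inequality of the step systems. -/
theorem win_le (h : Appr P A x0 p L0 C0) (hpos : ∀ t ∈ Ico (0 : ℝ) 1, 0 < P.D t)
    (hint : IntervalIntegrable (fun x => (P.D x)⁻¹) volume 0 1)
    (hKs : ∀ t ∈ Ico (0 : ℝ) 1, Tendsto (fun n => (A n).K0 t) atTop (𝓝 (Ks P.D t)))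
    (ω : Bool) {t1 c : ℝ} (ht1 : 0 ≤ t1) (hc : 0 ≤ c)
    (hT : ∀ x ∈ Ico t1 1, ∀ y ∈ Ico t1 1,
      Tendsto (fun n => Ts (A n) x0 (p n) y - Ts (A n) x0 (p n) x) atTop (𝓝 0))
    (hZ : ∀ q ∈ Ioo t1 1, ∃ z0 > 0, ∀ᶠ n in atTop, ∀ t ∈ Icc t1 q,
      z0 ≤ Zs (A n) x0 (p n) t ∧ Zs (A n) x0 (p n) t ≤ 1)
    (hK : ∀ q ∈ Ioo t1 1, ∀ ε : ℝ, 0 < ε → ∀ᶠ n in atTop, ∀ t ∈ Ico t1 q,
      sc ω (A n) t * Ns (A n) x0 (p n) t ≤ 2 * c * Zs (A n) x0 (p n) t + ε) :
    ∀ t ∈ Ioo t1 1, Ys ω P t ≤ c := by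
  intro t ht
  -- choose q
  set q : ℝ := (t + 1) / 2 with hq
  have hq1 : q < 1 := by rw [hq]; linarith [ht.2]
  have htq : t < q := by rw [hq]; linarith [ht.2]
  have hqI : q ∈ Ioo t1 1 := ⟨ht.1.trans htq, hq1⟩
  obtain ⟨z0, hz0, hZ'⟩ := hZ q hqI
  have hsub : Icc t1 q ⊆ Ico 0 1 := fun s hs => ⟨ht1.trans hs.1, hs.2.trans_lt hq1⟩
  have key := closure_le h hpos ht1 hqI.1 hq1 hz0
    (fun x hx y hy => hT x ⟨hx.1, hx.2.trans_lt hq1⟩ y ⟨hy.1, hy.2.trans_lt hq1⟩)
    (βn := fun n t => c / sc ω (A n) t) (β := fun t => c / scs ω P t) ?_ ?_ ?_ ?_ hZ' ?_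
  · have h1 := key t ⟨ht.1, htq⟩
    have hD := hpos t ⟨ht1.trans ht.1.le, ht.2⟩
    have hs := scs_pos hpos hint ω (t := t) ⟨ht1.trans ht.1.le, ht.2⟩
    unfold Ys
    rw [div_mul_eq_mul_div, div_le_iff₀ hD]
    calc P.m t * scs ω P t ≤ (c / scs ω P t * P.D t) * scs ω P t :=
          mul_le_mul_of_nonneg_right h1 hs.le
      _ = c * P.D t := by field_simp
  · refine Eventually.of_forall fun n => ?_
    exact (ContinuousOn.div continuousOn_const (sc_cont (h.clk n) ω).continuousOn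
      (fun s hs => ((sub_pos.2 (hs.2.trans_lt hq1)).trans_le
        (sc_ge (h.clk n) ω (hs.2.trans_lt hq1))).ne')).aestronglyMeasurable measurableSet_Icc
  · refine ⟨c / (1 - q), Eventually.of_forall fun n s hs => ?_⟩
    have h1 : 1 - q ≤ sc ω (A n) s := by
      have := sc_ge (h.clk n) ω (hs.2.trans_lt hq1)
      linarith [hs.2]
    have h2 : 0 < 1 - q := by linarith
    rw [abs_of_nonneg (div_nonneg hc (h2.le.trans h1))]
    exact div_le_div_of_nonneg_left hc h2 h1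
  · refine Eventually.of_forall fun s hs => ?_
    exact (tendsto_const_nhds).div (sc_tendsto h hKs ω (hsub hs)) (scs_pos hpos hint ω (hsub hs)).ne'
  · exact continuousOn_const.div ((scs_cont hint ω).mono fun s hs => ⟨(hsub hs).1, (hsub hs).2.le⟩)
      fun s hs => (scs_pos hpos hint ω (hsub hs)).ne'
  · intro ε hε
    have h2 : 0 < 1 - q := by linarith
    filter_upwards [hK q hqI (ε * (1 - q)) (by positivity)] with n hn s hs
    have h1 : 1 - q ≤ sc ω (A n) s := by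
      have := sc_ge (h.clk n) ω (hs.2.trans hq1)
      linarith [hs.2]
    have hpos' : 0 < sc ω (A n) s := h2.trans_le h1
    have h3 := hn s hs
    have h4 : Ns (A n) x0 (p n) s ≤ (2 * c * Zs (A n) x0 (p n) s + ε * (1 - q)) / sc ω (A n) s := by
      rw [le_div_iff₀ hpos']; linarith
    have h5 : (2 * c * Zs (A n) x0 (p n) s + ε * (1 - q)) / sc ω (A n) s =
        2 * (c / sc ω (A n) s) * Zs (A n) x0 (p n) s + ε * ((1 - q) / sc ω (A n) s) := by
      field_simp
    have h6 : (1 - q) / sc ω (A n) s ≤ 1 := (div_le_one hpos').2 h1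
    have h7 : ε * ((1 - q) / sc ω (A n) s) ≤ ε * 1 := mul_le_mul_of_nonneg_left h6 hε.le
    linarith

/-- **Lower window of the limit** from the closure inequality of the step systems. -/
theorem le_win (h : Appr P A x0 p L0 C0) (hpos : ∀ t ∈ Ico (0 : ℝ) 1, 0 < P.D t)
    (hint : IntervalIntegrable (fun x => (P.D x)⁻¹) volume 0 1)
    (hKs : ∀ t ∈ Ico (0 : ℝ) 1, Tendsto (fun n => (A n).K0 t) atTop (𝓝 (Ks P.D t)))
    (ω : Bool) {t1 c : ℝ} (ht1 : 0 ≤ t1) (hc : 0 ≤ c)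
    (hT : ∀ x ∈ Ico t1 1, ∀ y ∈ Ico t1 1,
      Tendsto (fun n => Ts (A n) x0 (p n) y - Ts (A n) x0 (p n) x) atTop (𝓝 0))
    (hZ : ∀ q ∈ Ioo t1 1, ∃ z0 > 0, ∀ᶠ n in atTop, ∀ t ∈ Icc t1 q,
      z0 ≤ Zs (A n) x0 (p n) t ∧ Zs (A n) x0 (p n) t ≤ 1)
    (hK : ∀ q ∈ Ioo t1 1, ∀ ε : ℝ, 0 < ε → ∀ᶠ n in atTop, ∀ t ∈ Ico t1 q,
      2 * c * Zs (A n) x0 (p n) t - ε ≤ sc ω (A n) t * Ns (A n) x0 (p n) t) :
    ∀ t ∈ Ioo t1 1, c ≤ Ys ω P t := by
  intro t ht
  set q : ℝ := (t + 1) / 2 with hq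
  have hq1 : q < 1 := by rw [hq]; linarith [ht.2]
  have htq : t < q := by rw [hq]; linarith [ht.2]
  have hqI : q ∈ Ioo t1 1 := ⟨ht.1.trans htq, hq1⟩
  obtain ⟨z0, hz0, hZ'⟩ := hZ q hqI
  have hsub : Icc t1 q ⊆ Ico 0 1 := fun s hs => ⟨ht1.trans hs.1, hs.2.trans_lt hq1⟩
  have key := closure_ge h hpos ht1 hqI.1 hq1 hz0
    (fun x hx y hy => hT x ⟨hx.1, hx.2.trans_lt hq1⟩ y ⟨hy.1, hy.2.trans_lt hq1⟩)
    (βn := fun n t => c / sc ω (A n) t) (β := fun t => c / scs ω P t) ?_ ?_ ?_ ?_ hZ' ?_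
  · have h1 := key t ⟨ht.1, htq⟩
    have hD := hpos t ⟨ht1.trans ht.1.le, ht.2⟩
    have hs := scs_pos hpos hint ω (t := t) ⟨ht1.trans ht.1.le, ht.2⟩
    unfold Ys
    rw [div_mul_eq_mul_div, le_div_iff₀ hD]
    calc c * P.D t = (c / scs ω P t * P.D t) * scs ω P t := by field_simp
      _ ≤ P.m t * scs ω P t := mul_le_mul_of_nonneg_right h1 hs.le
  · refine Eventually.of_forall fun n => ?_
    exact (ContinuousOn.div continuousOn_const (sc_cont (h.clk n) ω).continuousOn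
      (fun s hs => ((sub_pos.2 (hs.2.trans_lt hq1)).trans_le
        (sc_ge (h.clk n) ω (hs.2.trans_lt hq1))).ne')).aestronglyMeasurable measurableSet_Icc
  · refine ⟨c / (1 - q), Eventually.of_forall fun n s hs => ?_⟩
    have h1 : 1 - q ≤ sc ω (A n) s := by
      have := sc_ge (h.clk n) ω (hs.2.trans_lt hq1)
      linarith [hs.2]
    have h2 : 0 < 1 - q := by linarith
    rw [abs_of_nonneg (div_nonneg hc (h2.le.trans h1))]
    exact div_le_div_of_nonneg_left hc h2 h1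
  · refine Eventually.of_forall fun s hs => ?_
    exact (tendsto_const_nhds).div (sc_tendsto h hKs ω (hsub hs)) (scs_pos hpos hint ω (hsub hs)).ne'
  · exact continuousOn_const.div ((scs_cont hint ω).mono fun s hs => ⟨(hsub hs).1, (hsub hs).2.le⟩)
      fun s hs => (scs_pos hpos hint ω (hsub hs)).ne'
  · intro ε hε
    have h2 : 0 < 1 - q := by linarith
    filter_upwards [hK q hqI (ε * (1 - q)) (by positivity)] with n hn s hs
    have h1 : 1 - q ≤ sc ω (A n) s := by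
      have := sc_ge (h.clk n) ω (hs.2.trans hq1)
      linarith [hs.2]
    have hpos' : 0 < sc ω (A n) s := h2.trans_le h1
    have h3 := hn s hs
    have h4 : (2 * c * Zs (A n) x0 (p n) s - ε * (1 - q)) / sc ω (A n) s ≤ Ns (A n) x0 (p n) s := by
      rw [div_le_iff₀ hpos']; linarith
    have h5 : (2 * c * Zs (A n) x0 (p n) s - ε * (1 - q)) / sc ω (A n) s =
        2 * (c / sc ω (A n) s) * Zs (A n) x0 (p n) s - ε * ((1 - q) / sc ω (A n) s) := by
      field_simp
    have h6 : (1 - q) / sc ω (A n) s ≤ 1 := (div_le_one hpos').2 h1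
    have h7 : ε * ((1 - q) / sc ω (A n) s) ≤ ε * 1 := mul_le_mul_of_nonneg_left h6 hε.le
    linarith

end

end Crest.Agent.R146.WinLim_746
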