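import Crest.Agent.R146.PtTip_164
import Crest.Agent.R146.WinLim_746
import Crest.Agent.R146.StepAppr_522

/-!
Row 146, PT (helper847): SEQUENCE-LEVEL LIMIT STEP on `TipSeq_791`.

* `Late Q Φ` : for every `ε > 0` there is `t2 < 1` such that for every `q < 1`, eventually in `n`,
  `Φ ε n t` holds for all `t ∈ [t2, q]`;
* `CUp/CLo ω Q β` : the closure inequality `sc Ns ≤ 2 (β + ε) Zs` (resp. `≥`, `β - ε`), `Late`;
* `win_of_clo` : `CUp` and `CLo` give the window of the limit profile, in both clocks.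
-/

set_option autoImplicit false

namespace Crest.Agent.R146.PtLim_847

open MeasureTheory ProbabilityTheory Set Filter Topology
open Crest.Agent.R146.StepDef_791 Crest.Agent.R146.StepApx_856 Crest.Agent.R146.TipSeq_791
open Crest.Agent.R146.PtScalA_45 (Prof)
open Crest.Agent.R146.WinLim_746 Crest.Agent.R146.StepAppr_522
open Crest.Agent.R146.PtS4b_489 (measurable_b D_contOn)
open Crest.Agent.R146.PtS5_489 (closure_ae closure_ae' le_everywhere ge_everywhere)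

noncomputable section

variable {P : Prof} {T S : ℝ → ℝ}

/-- uniform "late times" quantifier -/
def Late (Q : PreSeq P T S) (Φ : ℝ → ℕ → ℝ → Prop) : Prop :=
  ∀ ε : ℝ, 0 < ε → ∃ t2 ∈ Ico (0 : ℝ) 1, ∀ q ∈ Ioo t2 1, ∀ᶠ n in atTop, q < (Q.A n).T ∧
    ∀ t ∈ Icc t2 q, Φ ε n t

/-- closure inequality, upper; `ω = true` is the new clock -/
def CUp (ω : Bool) (Q : PreSeq P T S) (β : ℝ) : Prop := Late Q fun ε n t =>
  sc ω (Q.A n) t * Ns (Q.A n) 1 (Q.p n) t ≤ 2 * (β + ε) * Zs (Q.A n) 1 (Q.p n) t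

/-- closure inequality, lower -/
def CLo (ω : Bool) (Q : PreSeq P T S) (β : ℝ) : Prop := Late Q fun ε n t =>
  2 * (β - ε) * Zs (Q.A n) 1 (Q.p n) t ≤ sc ω (Q.A n) t * Ns (Q.A n) 1 (Q.p n) t

theorem ev_T (Q : PreSeq P T S) {q : ℝ} (hq : q < 1) : ∀ᶠ n in atTop, q < (Q.A n).T :=
  (StepApx_856.tendsto_T Q.apx Q.ε_lim).eventually (lt_mem_nhds hq)

/-- `Zs ≥ Qs²` -/
theorem Qs_sq_le {A : SD} {x0 : ℝ} {p Y Yx Yxx : ℝ → ℝ → ℝ} (hB : Back A)
    (hL : Law A x0 p Y Yx Yxx) {t : ℝ} (ht : t ∈ Icc 0 A.T) :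
    Qs A x0 p t ^ 2 ≤ Zs A x0 p t := by
  have hV := StepTest_168.pg_V hB ht
  have hR := pg_R hB ht
  set a := Qs A x0 p t with ha
  have h1 : 0 ≤ ex x0 p t (fun x => A.V t x * ((1 - A.V t x) - a) ^ 2) :=
    StepTest_168.ex_nonneg hL ht.2 fun x => mul_nonneg (V_bd hB ht x).1.le (sq_nonneg _)
  have e1 : ex x0 p t (fun x => A.V t x * ((1 - A.V t x) - a) ^ 2) =
      Zs A x0 p t - 2 * a * Qs A x0 p t + a ^ 2 * ex x0 p t (A.V t) := by
    have e2 : ex x0 p t (fun x => A.V t x * ((1 - A.V t x) - a) ^ 2) =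
        ex x0 p t (fun x => ((1 - A.V t x) ^ 2 * A.V t x - 2 * a * ((1 - A.V t x) * A.V t x)) +
          a ^ 2 * A.V t x) := StepTest_168.ex_congr t fun x => by ring
    rw [e2, StepTest_168.ex_add hL ht.2 (((hR.pow 2).mul hV).sub ((hR.mul hV).const_mul _))
      (hV.const_mul _), StepTest_168.ex_sub hL ht.2 ((hR.pow 2).mul hV) ((hR.mul hV).const_mul _),
      StepTest_168.ex_const_mul, StepTest_168.ex_const_mul]
    rfl
  have h2 : ex x0 p t (A.V t) ≤ 1 :=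
    StepTest_168.ex_le_const hL ht.2 hV fun x => (V_bd hB ht x).2.le
  rw [e1] at h1
  have h3 : a ^ 2 * ex x0 p t (A.V t) ≤ a ^ 2 * 1 := mul_le_mul_of_nonneg_left h2 (sq_nonneg a)
  nlinarith

section prep

variable (Q : PreSeq P T S)

/-- preparations on a compact interval -/
theorem prep {p' q : ℝ} (hp : 0 ≤ p') (hpq : p' < q) (hq : q < 1) :
    (∀ᶠ n in atTop, ContinuousOn (Ts (Q.A n) 1 (Q.p n)) (Icc p' q)) ∧
    (∀ᶠ n in atTop, ∀ t ∈ Ico p' q, HasDerivWithinAt (Ts (Q.A n) 1 (Q.p n))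
      (Ns (Q.A n) 1 (Q.p n) t - 2 * (Q.A n).b t * Zs (Q.A n) 1 (Q.p n) t) (Ici t) t) ∧
    (∀ᶠ n in atTop, ∀ t ∈ Icc p' q, |(Q.A n).b t| ≤ 1 / (1 - q)) ∧
    (∀ᵐ t ∂(volume : Measure ℝ), t ∈ Icc p' q →
      Tendsto (fun n => (Q.A n).b t) atTop (𝓝 (P.m t / P.D t))) := by
  have h1q : 0 < 1 - q := by linarith
  refine ⟨?_, ?_, ?_, ?_⟩
  · filter_upwards [ev_T Q hq] with n hn
    exact (Q.scal n).cont.1.mono (Icc_subset_Icc hp hn.le)
  · filter_upwards [ev_T Q hq] with n hn t ht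
    exact (Q.scal n).Ts_t t ⟨hp.trans ht.1, ht.2.trans hn⟩
  · refine Eventually.of_forall fun n t ht => ?_
    have h2 := (Q.apx n).b_le (x := t) ⟨hp.trans ht.1, (ht.2.trans_lt hq).le⟩
    rw [abs_of_nonneg ((Q.A n).b_nonneg t), le_div_iff₀ h1q]
    have h3 := (Q.A n).b_nonneg t
    nlinarith [ht.2]
  · filter_upwards [mono_cont_ae P] with t ht htI
    have ht0 : t ∈ Ico (0 : ℝ) 1 := ⟨hp.trans htI.1, htI.2.trans_lt hq⟩
    have h2 := StepApx_856.tendsto_m Q.apx Q.ε_lim (isProf P) (ht ht0).1 (ht ht0).2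
    have h3 := StepApx_856.tendsto_D Q.apx Q.ε_lim (x := t) ⟨ht0.1, ht0.2.le⟩
    exact h2.div h3 (Q.pos t ht0).ne'

theorem K0_lim {t : ℝ} (ht : t ∈ Icc (0 : ℝ) 1) :
    Tendsto (fun n => (Q.A n).K0 t) atTop (𝓝 (Ks P.D t)) :=
  StepApx_856.tendsto_K0 Q.apx Q.ε_lim ht

/-- pointwise convergence of the scale -/
theorem sc_lim (ω : Bool) {t : ℝ} (ht : t ∈ Ico (0 : ℝ) 1) :
    Tendsto (fun n => sc ω (Q.A n) t) atTop (𝓝 (scs ω P t)) := by
  cases ω
  · simp [sc, scs]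
  · simp only [sc, scs, if_true, SD.chi]
    exact (StepApx_856.tendsto_D Q.apx Q.ε_lim ⟨ht.1, ht.2.le⟩).mul (K0_lim Q ⟨ht.1, ht.2.le⟩)

end prep

section tip

variable (TS : TipSeq P)

/-- `Ts` differences vanish in the limit -/
theorem T_diff {x y : ℝ} (hx : x ∈ Ico TS.t1 1) (hy : y ∈ Ico TS.t1 1) :
    Tendsto (fun n => Ts (TS.seq.A n) 1 (TS.seq.p n) y - Ts (TS.seq.A n) 1 (TS.seq.p n) x) atTop
      (𝓝 0) := by
  have h0 := TS.ht1
  have key : ∀ z ∈ Ico TS.t1 1, Tendsto (fun n => Ts (TS.seq.A n) 1 (TS.seq.p n) z) atTop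
      (𝓝 TS.c) := by
    intro z hz
    have hq : (z + 1) / 2 ∈ Ioo (0 : ℝ) 1 := by
      constructor
      · linarith [h0.1, hz.1]
      · linarith [hz.2]
    have := (TS.seq.T_lim _ hq).tendsto_at (x := z) ⟨h0.1.trans hz.1, by linarith [hz.2]⟩
    rwa [TS.T_eq z hz] at this
  have := (key y hy).sub (key x hx)
  rwa [sub_self] at this

/-- lower bound of `Zs` on compacts -/
theorem Z_low {q : ℝ} (hq : q ∈ Ioo TS.t1 1) : ∃ z0 > 0, ∀ᶠ n in atTop, ∀ t ∈ Icc TS.t1 q,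
    z0 ≤ Zs (TS.seq.A n) 1 (TS.seq.p n) t ∧ Zs (TS.seq.A n) 1 (TS.seq.p n) t ≤ 1 := by
  have h0 := TS.ht1
  have hq0 : 0 < q := h0.1.trans_lt hq.1
  have hDq : 0 < P.D q := TS.seq.pos q ⟨hq0.le, hq.2⟩
  set a := TS.c0 * P.D q with ha
  have ha0 : 0 < a := mul_pos TS.hc0 hDq
  refine ⟨(a / 2) ^ 2, by positivity, ?_⟩
  have h1 := (Metric.tendstoUniformlyOn_iff.1 (TS.seq.Q_lim q ⟨hq0, hq.2⟩)) (a / 2) (by positivity)
  filter_upwards [h1, ev_T TS.seq hq.2] with n hn hT t ht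
  have htI : t ∈ Icc 0 q := ⟨h0.1.trans ht.1, ht.2⟩
  have htT : t ∈ Icc 0 (TS.seq.A n).T := ⟨htI.1, htI.2.trans hT.le⟩
  have h2 := hn t htI
  rw [Real.dist_eq, TS.Q_eq t ⟨ht.1, ht.2.trans_lt hq.2⟩] at h2
  have h3 := (abs_lt.1 h2).2
  have hD : P.D q ≤ P.D t := by
    unfold PtScalA_45.Prof.D
    have hi : IntervalIntegrable P.m volume t q := P.int.mono_set (by
      rw [uIcc_of_le ht.2, uIcc_of_le zero_le_one]
      exact Icc_subset_Icc htI.1 hq.2.le)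
    have hi2 : IntervalIntegrable P.m volume q 1 := P.int.mono_set (by
      rw [uIcc_of_le hq.2.le, uIcc_of_le zero_le_one]
      exact Icc_subset_Icc hq0.le le_rfl)
    have h4 : (∫ s in t..q, P.m s) + ∫ s in q..1, P.m s = ∫ s in t..1, P.m s :=
      intervalIntegral.integral_add_adjacent_intervals hi hi2
    have h5 : 0 ≤ ∫ s in t..q, P.m s := by
      refine intervalIntegral.integral_nonneg ht.2 fun s hs => P.nonneg s ?_
      exact ⟨htI.1.trans hs.1, hs.2.trans_lt hq.2⟩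
    linarith
  have h4 : a ≤ TS.c0 * P.D t := mul_le_mul_of_nonneg_left hD TS.hc0.le
  have h5 : a / 2 ≤ Qs (TS.seq.A n) 1 (TS.seq.p n) t := by linarith
  have h6 := Qs_sq_le (TS.seq.back n) (TS.seq.law n) htT
  have h7 : (a / 2) ^ 2 ≤ Qs (TS.seq.A n) 1 (TS.seq.p n) t ^ 2 :=
    pow_le_pow_left₀ (by positivity) h5 2
  refine ⟨h7.trans h6, ?_⟩
  exact (le_abs_self _).trans (Zs_abs (TS.seq.back n) (TS.seq.law n) htT)

/-- **Upper window of the limit** from the closure inequality of the step systems. -/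
theorem win_le (ω : Bool) {t2 c : ℝ} (ht2 : TS.t1 ≤ t2) (hc : 0 ≤ c)
    (hK : ∀ q ∈ Ioo t2 1, ∀ᶠ n in atTop, ∀ t ∈ Icc t2 q,
      sc ω (TS.seq.A n) t * Ns (TS.seq.A n) 1 (TS.seq.p n) t ≤
        2 * c * Zs (TS.seq.A n) 1 (TS.seq.p n) t) :
    ∀ t ∈ Ioo t2 1, Ys ω P t ≤ c := by
  intro t ht
  have h0 : 0 ≤ t2 := TS.ht1.1.trans ht2
  set q : ℝ := (t + 1) / 2 with hq
  have hq1 : q < 1 := by rw [hq]; linarith [ht.2]
  have htq : t < q := by rw [hq]; linarith [ht.2]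
  have hqI : q ∈ Ioo t2 1 := ⟨ht.1.trans htq, hq1⟩
  have hsub : Icc t2 q ⊆ Ico 0 1 := fun s hs => ⟨h0.trans hs.1, hs.2.trans_lt hq1⟩
  have hsub' : Icc t2 q ⊆ Icc TS.t1 q := Icc_subset_Icc_left ht2
  have hpos := TS.seq.pos
  have hint := TS.seq.int1
  obtain ⟨z0, hz0, hZ'⟩ := Z_low TS (q := q) ⟨ht2.trans_lt hqI.1, hq1⟩
  obtain ⟨k1, k2, k3, k4⟩ := prep TS.seq h0 hqI.1 hq1
  have h1q : 0 < 1 - q := by linarith
  have hscge : ∀ n s, s ∈ Icc t2 q → 1 - q ≤ sc ω (TS.seq.A n) s := by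
    intro n s hs
    have := sc_ge (TS.seq.clock n) ω (hs.2.trans_lt hq1)
    linarith [hs.2]
  have key := closure_ae (p := t2) (q := q) (z0 := z0) (B := max (1 / (1 - q)) (c / (1 - q)))
    hqI.1 hz0 (Tn := fun n => Ts (TS.seq.A n) 1 (TS.seq.p n))
    (Kn := fun n t => Ns (TS.seq.A n) 1 (TS.seq.p n) t -
      2 * (TS.seq.A n).b t * Zs (TS.seq.A n) 1 (TS.seq.p n) t)
    (bn := fun n => (TS.seq.A n).b) (βn := fun n t => c / sc ω (TS.seq.A n) t)
    (Zn := fun n => Zs (TS.seq.A n) 1 (TS.seq.p n))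
    (b := fun t => P.m t / P.D t) (β := fun t => c / scs ω P t)
    (fun x hx y hy => T_diff TS ⟨ht2.trans hx.1, hx.2.trans_lt hq1⟩ ⟨ht2.trans hy.1, hy.2.trans_lt hq1⟩)
    k1 k2
    (Eventually.of_forall fun n => (measurable_b (TS.seq.A n) (TS.seq.clock n)).aestronglyMeasurable)
    (Eventually.of_forall fun n => (ContinuousOn.div continuousOn_const
      (sc_cont (TS.seq.clock n) ω).continuousOn
      (fun s hs => (h1q.trans_le (hscge n s hs)).ne')).aestronglyMeasurable measurableSet_Icc)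
    (k3.mono fun n hn t ht => (hn t ht).trans (le_max_left _ _))
    (Eventually.of_forall fun n s hs => by
      rw [abs_of_nonneg (div_nonneg hc (h1q.le.trans (hscge n s hs)))]
      exact (div_le_div_of_nonneg_left hc h1q (hscge n s hs)).trans (le_max_right _ _))
    k4
    (Eventually.of_forall fun s hs =>
      (tendsto_const_nhds).div (sc_lim TS.seq ω (hsub hs)) (scs_pos hpos hint ω (hsub hs)).ne')
    (hZ'.mono fun n hn t ht => hn t (hsub' ht))
    (fun ε hε => by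
      filter_upwards [hK q hqI] with n hn s hs
      have h1 := hscge n s ⟨hs.1, hs.2.le⟩
      have hpos' : 0 < sc ω (TS.seq.A n) s := h1q.trans_le h1
      have h3 := hn s ⟨hs.1, hs.2.le⟩
      have h4 : Ns (TS.seq.A n) 1 (TS.seq.p n) s ≤
          (2 * c * Zs (TS.seq.A n) 1 (TS.seq.p n) s) / sc ω (TS.seq.A n) s := by
        rw [le_div_iff₀ hpos']; linarith
      have h5 : (2 * c * Zs (TS.seq.A n) 1 (TS.seq.p n) s) / sc ω (TS.seq.A n) s =
          2 * (c / sc ω (TS.seq.A n) s) * Zs (TS.seq.A n) 1 (TS.seq.p n) s := by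
        field_simp
      nlinarith)
  have hD : ContinuousOn P.D (Ioo t2 q) := (D_contOn P).mono fun t ht =>
    ⟨h0.trans ht.1.le, (ht.2.trans hq1).le⟩
  have hβc : ContinuousOn (fun t => c / scs ω P t) (Ioo t2 q) :=
    continuousOn_const.div ((scs_cont hint ω).mono fun s hs =>
      ⟨h0.trans hs.1.le, (hs.2.trans hq1).le⟩)
      fun s hs => (scs_pos hpos hint ω (hsub ⟨hs.1.le, hs.2.le⟩)).ne'
  have h1 := le_everywhere (p := t2) (q := q) (m := P.m)
    (g := fun t => c / scs ω P t * P.D t)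
    (P.mono.mono fun t ht => ⟨h0.trans ht.1.le, ht.2.trans hq1⟩) (hβc.mul hD) (by
      filter_upwards [key] with t ht htI
      have h5 := ht htI
      have hDt : 0 < P.D t := hpos t ⟨h0.trans htI.1.le, htI.2.trans hq1⟩
      rwa [div_le_iff₀ hDt] at h5) t ⟨ht.1, htq⟩
  have hDt := hpos t ⟨h0.trans ht.1.le, ht.2⟩
  have hs := scs_pos hpos hint ω (t := t) ⟨h0.trans ht.1.le, ht.2⟩
  unfold Ys
  rw [div_mul_eq_mul_div, div_le_iff₀ hDt]
  calc P.m t * scs ω P t ≤ (c / scs ω P t * P.D t) * scs ω P t :=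
        mul_le_mul_of_nonneg_right h1 hs.le
    _ = c * P.D t := by field_simp

/-- **Lower window of the limit** from the closure inequality of the step systems. -/
theorem le_win (ω : Bool) {t2 c : ℝ} (ht2 : TS.t1 ≤ t2) (hc : 0 ≤ c)
    (hK : ∀ q ∈ Ioo t2 1, ∀ᶠ n in atTop, ∀ t ∈ Icc t2 q,
      2 * c * Zs (TS.seq.A n) 1 (TS.seq.p n) t ≤
        sc ω (TS.seq.A n) t * Ns (TS.seq.A n) 1 (TS.seq.p n) t) :
    ∀ t ∈ Ioo t2 1, c ≤ Ys ω P t := by
  intro t ht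
  have h0 : 0 ≤ t2 := TS.ht1.1.trans ht2
  set q : ℝ := (t + 1) / 2 with hq
  have hq1 : q < 1 := by rw [hq]; linarith [ht.2]
  have htq : t < q := by rw [hq]; linarith [ht.2]
  have hqI : q ∈ Ioo t2 1 := ⟨ht.1.trans htq, hq1⟩
  have hsub : Icc t2 q ⊆ Ico 0 1 := fun s hs => ⟨h0.trans hs.1, hs.2.trans_lt hq1⟩
  have hsub' : Icc t2 q ⊆ Icc TS.t1 q := Icc_subset_Icc_left ht2
  have hpos := TS.seq.pos
  have hint := TS.seq.int1
  obtain ⟨z0, hz0, hZ'⟩ := Z_low TS (q := q) ⟨ht2.trans_lt hqI.1, hq1⟩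
  obtain ⟨k1, k2, k3, k4⟩ := prep TS.seq h0 hqI.1 hq1
  have h1q : 0 < 1 - q := by linarith
  have hscge : ∀ n s, s ∈ Icc t2 q → 1 - q ≤ sc ω (TS.seq.A n) s := by
    intro n s hs
    have := sc_ge (TS.seq.clock n) ω (hs.2.trans_lt hq1)
    linarith [hs.2]
  have key := closure_ae' (p := t2) (q := q) (z0 := z0) (B := max (1 / (1 - q)) (c / (1 - q)))
    hqI.1 hz0 (Tn := fun n => Ts (TS.seq.A n) 1 (TS.seq.p n))
    (Kn := fun n t => Ns (TS.seq.A n) 1 (TS.seq.p n) t -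
      2 * (TS.seq.A n).b t * Zs (TS.seq.A n) 1 (TS.seq.p n) t)
    (bn := fun n => (TS.seq.A n).b) (βn := fun n t => c / sc ω (TS.seq.A n) t)
    (Zn := fun n => Zs (TS.seq.A n) 1 (TS.seq.p n))
    (b := fun t => P.m t / P.D t) (β := fun t => c / scs ω P t)
    (fun x hx y hy => T_diff TS ⟨ht2.trans hx.1, hx.2.trans_lt hq1⟩ ⟨ht2.trans hy.1, hy.2.trans_lt hq1⟩)
    k1 k2
    (Eventually.of_forall fun n => (measurable_b (TS.seq.A n) (TS.seq.clock n)).aestronglyMeasurable)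
    (Eventually.of_forall fun n => (ContinuousOn.div continuousOn_const
      (sc_cont (TS.seq.clock n) ω).continuousOn
      (fun s hs => (h1q.trans_le (hscge n s hs)).ne')).aestronglyMeasurable measurableSet_Icc)
    (k3.mono fun n hn t ht => (hn t ht).trans (le_max_left _ _))
    (Eventually.of_forall fun n s hs => by
      rw [abs_of_nonneg (div_nonneg hc (h1q.le.trans (hscge n s hs)))]
      exact (div_le_div_of_nonneg_left hc h1q (hscge n s hs)).trans (le_max_right _ _))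
    k4
    (Eventually.of_forall fun s hs =>
      (tendsto_const_nhds).div (sc_lim TS.seq ω (hsub hs)) (scs_pos hpos hint ω (hsub hs)).ne')
    (hZ'.mono fun n hn t ht => hn t (hsub' ht))
    (fun ε hε => by
      filter_upwards [hK q hqI] with n hn s hs
      have h1 := hscge n s ⟨hs.1, hs.2.le⟩
      have hpos' : 0 < sc ω (TS.seq.A n) s := h1q.trans_le h1
      have h3 := hn s ⟨hs.1, hs.2.le⟩
      have h4 : (2 * c * Zs (TS.seq.A n) 1 (TS.seq.p n) s) / sc ω (TS.seq.A n) s ≤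
          Ns (TS.seq.A n) 1 (TS.seq.p n) s := by
        rw [div_le_iff₀ hpos']; linarith
      have h5 : (2 * c * Zs (TS.seq.A n) 1 (TS.seq.p n) s) / sc ω (TS.seq.A n) s =
          2 * (c / sc ω (TS.seq.A n) s) * Zs (TS.seq.A n) 1 (TS.seq.p n) s := by
        field_simp
      nlinarith)
  have hD : ContinuousOn P.D (Ioo t2 q) := (D_contOn P).mono fun t ht =>
    ⟨h0.trans ht.1.le, (ht.2.trans hq1).le⟩
  have hβc : ContinuousOn (fun t => c / scs ω P t) (Ioo t2 q) :=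
    continuousOn_const.div ((scs_cont hint ω).mono fun s hs =>
      ⟨h0.trans hs.1.le, (hs.2.trans hq1).le⟩)
      fun s hs => (scs_pos hpos hint ω (hsub ⟨hs.1.le, hs.2.le⟩)).ne'
  have h1 := ge_everywhere (p := t2) (q := q) (m := P.m)
    (g := fun t => c / scs ω P t * P.D t)
    (P.mono.mono fun t ht => ⟨h0.trans ht.1.le, ht.2.trans hq1⟩) (hβc.mul hD) (by
      filter_upwards [key] with t ht htI
      have h5 := ht htI
      have hDt : 0 < P.D t := hpos t ⟨h0.trans htI.1.le, htI.2.trans hq1⟩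
      rwa [le_div_iff₀ hDt] at h5) t ⟨ht.1, htq⟩
  have hDt := hpos t ⟨h0.trans ht.1.le, ht.2⟩
  have hs := scs_pos hpos hint ω (t := t) ⟨h0.trans ht.1.le, ht.2⟩
  unfold Ys
  rw [div_mul_eq_mul_div, le_div_iff₀ hDt]
  calc c * P.D t = (c / scs ω P t * P.D t) * scs ω P t := by field_simp
    _ ≤ P.m t * scs ω P t := mul_le_mul_of_nonneg_right h1 hs.le

/-- the clock index -/
def om (a : Fin 2) : Bool := if a = 0 then false else true

include TS in
theorem Ystar_eq (a : Fin 2) {t : ℝ} (ht : t ∈ Ico (0 : ℝ) 1) : Ystar P a t = Ys (om a) P t := by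
  unfold Ystar om
  by_cases h : a = 0
  · rw [if_pos h, if_pos h, Ys_false]
  · rw [if_neg h, if_neg h, Ys_true (TS.seq.pos t ht)]

include TS in
theorem Ystar_nonneg (a : Fin 2) {t : ℝ} (ht : t ∈ Ico (0 : ℝ) 1) : 0 ≤ Ystar P a t := by
  rw [Ystar_eq TS a ht]
  exact mul_nonneg (div_nonneg (P.nonneg t ht) (TS.seq.pos t ht).le)
    (scs_pos TS.seq.pos TS.seq.int1 _ ht).le

/-- **window of the limit profile from the closure inequalities, both clocks** -/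
theorem win_of_clo (a : Fin 2) {lo hi : ℝ} (hhi : 0 ≤ hi) (h1 : CUp (om a) TS.seq hi)
    (h2 : CLo (om a) TS.seq lo) : Win P a lo hi := by
  intro ε hε
  obtain ⟨t2, ht2, k1⟩ := h1 ε hε
  obtain ⟨t3, ht3, k2⟩ := h2 ε hε
  have h0 := TS.ht1
  set s : ℝ := max TS.t1 (max t2 t3) with hs
  have hs1 : s < 1 := max_lt h0.2 (max_lt ht2.2 ht3.2)
  have hs0 : 0 ≤ s := h0.1.trans (le_max_left _ _)
  have hst1 : TS.t1 ≤ s := le_max_left _ _
  have hst2 : t2 ≤ s := (le_max_left _ _).trans (le_max_right _ _)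
  have hst3 : t3 ≤ s := (le_max_right _ _).trans (le_max_right _ _)
  refine ⟨(s + 1) / 2, by linarith, by linarith, fun t ht => ?_⟩
  have htI : t ∈ Ioo s 1 := ⟨by linarith [ht.1], ht.2⟩
  have ht01 : t ∈ Ico (0 : ℝ) 1 := ⟨hs0.trans htI.1.le, ht.2⟩
  have hup : Ystar P a t ≤ hi + ε := by
    rw [Ystar_eq TS a ht01]
    refine win_le TS (om a) (t2 := s) hst1 (by linarith) (fun q hq => ?_) t htI
    filter_upwards [k1 q ⟨hst2.trans_lt hq.1, hq.2⟩] with n hn r hr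
    exact hn.2 r ⟨hst2.trans hr.1, hr.2⟩
  refine ⟨?_, hup⟩
  rcases le_or_gt 0 (lo - ε) with h | h
  · rw [Ystar_eq TS a ht01]
    refine le_win TS (om a) (t2 := s) hst1 h (fun q hq => ?_) t htI
    filter_upwards [k2 q ⟨hst3.trans_lt hq.1, hq.2⟩] with n hn r hr
    exact hn.2 r ⟨hst3.trans hr.1, hr.2⟩
  · exact h.le.trans (Ystar_nonneg TS a ht01)

end tip

end

end Crest.Agent.R146.PtLim_847
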