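import Crest.Agent.R146.PP2_865
import Crest.Agent.R146.SlopeT_371

/-!
# Row 146, helper937: window certificates (upper side)

`UpCert ω lo hi up` : data for the one-sided window step "`y ∈ [lo, hi]` eventually ⟹ `y* ≤ up`
eventually" in the clock with parameter `ω` (`ω = 0` old clock, `y = ν`; `ω = 1` new clock, `y = Y`).

* `K, K1, K2` : slope barrier, fields exactly in the shape of `SlopeT_371.slope_trans_le`
  (`dK1.side : HasSide`), with a uniform margin `Stat ω y v K K1 K2 ≤ -κ`;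
* `G, G1` : dual function of the closure (`G ≤ 0`, flat law slope `0 ≤ -(log p)_x`):
  `K² - K G' - 2 c v (1-v)² ≤ -κ v`, `c < up`.

`UpCert.ofPoly` : a piecewise polynomial certificate (engine `PP_865`) gives an `UpCert`.
-/

set_option autoImplicit false

open Set Filter Topology

namespace Crest.Agent.R146.WinDef_937

open PP865 MaxP2_371 SlopeT_371

/-! ### uniform versions of the engine's soundness theorems -/

theorem pos_unif {n : ℕ} {l : Poly} (h : pos n l = true) :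
    ∃ ε : ℝ, 0 < ε ∧ ∀ x : ℝ, |x| ≤ 1 → ε ≤ ev l x := by
  have hc : ContinuousOn (ev l) (Icc (-1) 1) := (continuous_ev l).continuousOn
  obtain ⟨x0, hx0, hmin⟩ := isCompact_Icc.exists_isMinOn (⟨0, by norm_num, by norm_num⟩ :
    (Icc (-1 : ℝ) 1).Nonempty) hc
  refine ⟨ev l x0, pos_sound h (abs_le.2 hx0), fun x hx => hmin (abs_le.1 hx)⟩

theorem piece_unif {P n : ℕ} {e : Ex} {q : Pc} (h : pos n (e.evP (q.env P)).c = true) :
    ∃ ε : ℝ, 0 < ε ∧ ∀ z : ℝ, q.lo ≤ z → z ≤ q.hi →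
      ε ≤ e.evR (fun i => val (fun k => q.v0 P k) (fun k => q.v1 P k) (fun k => q.v2 P k) i z) := by
  obtain ⟨ε, hε, hx⟩ := pos_unif h
  refine ⟨ε / 2 ^ (e.evP (q.env P)).e, by positivity, fun z h1 h2 => ?_⟩
  have := hx _ (Pc.abs_loc_le h1 h2)
  have e1 := e.evP_ev (q.env P) (q.loc z)
  simp only [Pc.env_ev] at e1
  rw [← e1, DP.ev]
  gcongr

theorem check_unif {P n : ℕ} {e : Ex} : ∀ {p : Pc} {ps : List Pc}, chain adj p ps = true →
    check P n e p ps = true → ∃ ε : ℝ, 0 < ε ∧ ∀ z, p.lo ≤ z → z ≤ hiL p ps →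
      ε ≤ e.evR (cv P p ps z)
  | p, [], _, h => by
    simp only [check, List.all_cons, List.all_nil, Bool.and_true] at h
    obtain ⟨ε, hε, hx⟩ := piece_unif h
    exact ⟨ε, hε, fun z h1 h2 => hx z h1 h2⟩
  | p, q :: ps, ha, h => by
    simp only [chain, Bool.and_eq_true] at ha
    have h' : check P n e q ps = true := by
      simp only [check, List.all_cons, Bool.and_eq_true] at h ⊢
      exact h.2
    simp only [check, List.all_cons, Bool.and_eq_true] at h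
    obtain ⟨ε1, hε1, hx1⟩ := piece_unif h.1
    obtain ⟨ε2, hε2, hx2⟩ := check_unif ha.2 h'
    refine ⟨min ε1 ε2, lt_min hε1 hε2, fun z h1 h2 => ?_⟩
    by_cases hz : z ≤ p.hi
    · refine (min_le_left _ _).trans ?_
      have := hx1 z h1 hz
      have e0 : (cv P p (q :: ps) z) =
          fun i => val (fun k => p.v0 P k) (fun k => p.v1 P k) (fun k => p.v2 P k) i z := by
        funext i; exact val_sel P p (q :: ps) z hz i
      rw [e0]; exact this
    · refine (min_le_right _ _).trans ?_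
      have hq : q.lo ≤ z := by
        rw [← adj_sound ha.1]
        exact (not_le.1 hz).le
      have := hx2 z hq h2
      have e2 : cv P p (q :: ps) z = cv P q ps z := by
        funext i
        have hs : ∀ g, sel g p (q :: ps) z = sel g q ps z := fun g => by simp [sel, hz]
        unfold cv val
        split
        · rfl
        · split <;> exact hs _
      rw [e2]; exact this

/-- one-sided derivative of the selected function (no matching needed) -/
theorem sel_hasDerivWithinAt {g g' : Pc → ℝ → ℝ} (hg : ∀ p z, HasDerivAt (g p) (g' p z) z) :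
    ∀ (p : Pc) (ps : List Pc) (z : ℝ), HasDerivWithinAt (sel g p ps) (sel g' p ps z) (Iic z) z
  | p, [], z => (hg p z).hasDerivWithinAt
  | p, q :: ps, z => by
    by_cases hz : z ≤ p.hi
    · have e : sel g' p (q :: ps) z = g' p z := by simp [sel, hz]
      rw [e]
      refine (hg p z).hasDerivWithinAt.congr (fun y hy => ?_) ?_
      · have : y ≤ p.hi := le_trans hy hz
        simp [sel, this]
      · simp [sel, hz]
    · have ih := sel_hasDerivWithinAt hg q ps z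
      have e : sel g' p (q :: ps) z = sel g' q ps z := by simp [sel, hz]
      rw [e]
      refine ih.congr_of_eventuallyEq ?_ (by simp [sel, hz])
      have h1 : ∀ᶠ y in 𝓝[Iic z] z, p.hi < y :=
        (eventually_gt_nhds (not_le.1 hz)).filter_mono nhdsWithin_le_nhds
      filter_upwards [h1] with y hy
      simp [sel, not_le.2 hy]

theorem Fn1_side (P k : ℕ) (p : Pc) (ps : List Pc) (z : ℝ) :
    HasDerivWithinAt (Fn1 P k p ps) (Fn2 P k p ps z) (Iic z) z :=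
  sel_hasDerivWithinAt (fun p z => p.hasDerivAt_v1 P k z) p ps z

/-! ### the certificate structure -/

/-- Upper window certificate: `y ∈ [lo,hi]`, flat law (`-(log p)_x ≥ 0`) gives closure ratio `< up`. -/
structure UpCert (ω lo hi up : ℝ) where
  K : ℝ → ℝ
  K1 : ℝ → ℝ
  K2 : ℝ → ℝ
  G : ℝ → ℝ
  G1 : ℝ → ℝ
  κ : ℝ
  c : ℝ
  CK : ℝ
  CG : ℝ
  κ_pos : 0 < κ
  CK_pos : 0 < CK
  c_nonneg : 0 ≤ c
  c_lt : c < up
  K_cont : ContinuousOn K (Icc 0 1)
  K_ge : ∀ v ∈ Icc (0:ℝ) 1, κ * √v ≤ K v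
  K_le : ∀ v ∈ Icc (0:ℝ) 1, K v ≤ CK * √v
  dK : ∀ v ∈ Ioo (0:ℝ) 1, HasDerivAt K (K1 v) v
  dK1 : ∀ v ∈ Ioo (0:ℝ) 1, HasDerivWithinAt K1 (K2 v) (Iic v) v
  KK2 : ∀ v ∈ Ioo (0:ℝ) 1, K v * K2 v ≤ -κ
  stat : ∀ y ∈ Icc lo hi, ∀ v ∈ Ioo (0:ℝ) 1, Stat ω y v (K v) (K1 v) (K2 v) ≤ -κ
  dG : ∀ v ∈ Icc (0:ℝ) 1, HasDerivAt G (G1 v) v
  G1_cont : ContinuousOn G1 (Icc 0 1)
  G_neg : ∀ v ∈ Ioo (0:ℝ) 1, G v < 0
  G_abs : ∀ v ∈ Icc (0:ℝ) 1, |G v| ≤ CG * (v ^ 2 * (1 - v))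
  G1_abs : ∀ v ∈ Icc (0:ℝ) 1, |G1 v| ≤ CG * v
  clo : ∀ v ∈ Icc (0:ℝ) 1, K v ^ 2 - K v * G1 v - 2 * c * (v * (1 - v) ^ 2) ≤ -κ * v

namespace UpCert

variable {ω lo hi up : ℝ}

theorem K_pos (C : UpCert ω lo hi up) : ∀ v ∈ Ioo (0:ℝ) 1, 0 < C.K v := fun v hv =>
  lt_of_lt_of_le (mul_pos C.κ_pos (Real.sqrt_pos.2 hv.1)) (C.K_ge v ⟨hv.1.le, hv.2.le⟩)

theorem side (C : UpCert ω lo hi up) : ∀ v ∈ Ioo (0:ℝ) 1, HasSide C.K1 (C.K2 v) v :=
  fun v hv => Or.inr (C.dK1 v hv)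

theorem contIoo (C : UpCert ω lo hi up) : ContinuousOn C.K (Ioo 0 1) :=
  C.K_cont.mono Ioo_subset_Icc_self

theorem stat0 (C : UpCert ω lo hi up) : ∀ y ∈ Icc lo hi, ∀ v ∈ Ioo (0:ℝ) 1,
    Stat ω y v (C.K v) (C.K1 v) (C.K2 v) ≤ 0 := fun y hy v hv =>
  (C.stat y hy v hv).trans (neg_nonpos.2 C.κ_pos.le)

theorem G_zero (C : UpCert ω lo hi up) : C.G 0 = 0 := by
  have := C.G_abs 0 ⟨le_rfl, zero_le_one⟩
  simpa using this

theorem G_one (C : UpCert ω lo hi up) : C.G 1 = 0 := by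
  have := C.G_abs 1 ⟨zero_le_one, le_rfl⟩
  simpa using this

/-- the pointwise closure inequality for every admissible slope `0 ≤ s ≤ K v` -/
theorem clo_le (C : UpCert ω lo hi up) {v s : ℝ} (hv : v ∈ Icc (0:ℝ) 1)
    (hs0 : 0 ≤ s) (hs : s ≤ C.K v) : s ^ 2 - s * C.G1 v - 2 * C.c * (v * (1 - v) ^ 2) ≤ 0 := by
  have h1 := C.clo v hv
  have h2 : 0 ≤ C.κ * v := mul_nonneg C.κ_pos.le hv.1
  have h3 : 0 ≤ 2 * C.c * (v * (1 - v) ^ 2) :=
    mul_nonneg (by linarith [C.c_nonneg]) (mul_nonneg hv.1 (sq_nonneg _))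
  by_cases hG : s ≤ C.G1 v
  · nlinarith
  · push Not at hG
    have hK : 0 ≤ C.K v := hs0.trans hs
    have : s ^ 2 - s * C.G1 v ≤ C.K v ^ 2 - C.K v * C.G1 v := by
      nlinarith
    linarith

end UpCert

/-! ### polynomial certificates -/

namespace Poly

def v : Ex := .var 0
def Th : Ex := .var 1
def Th1 : Ex := .var 2
def Th2 : Ex := .var 3
def L : Ex := .var 4
def L1 : Ex := .var 5
def ka : Ex := .var 7
def Q : Ex := v * Th
def Q1 : Ex := Th + v * Th1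
def Q2 : Ex := 2 * Th1 + v * Th2
/-- `-8 K Stat` -/
def eStat (ω n : ℤ) (e : ℕ) : Ex :=
  -(2 * Q * Q2 - Q1 * Q1 + 4 * Q + .cst n e * (4 * v * (1 - v) * Q1 + (24 * v - .cst (16 - 4 * ω) 0) * Q))
def eConc : Ex := -(2 * Q * Q2 - Q1 * Q1)
def eh : Ex := 2 * (1 - v) * L - v * L + v * (1 - v) * L1
def eF (c : ℤ) (e : ℕ) : Ex := .cst (2 * c) e * ((1 - v) * (1 - v)) - Th
def eClo1 (c : ℤ) (e : ℕ) : Ex := (Q + ka * ka) * eh + 2 * ka * eF c e
def eClo2 (c : ℤ) (e : ℕ) : Ex := 2 * Q * ka * eh + (Q + ka * ka) * eF c e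

/-- all the integer tests of an upper certificate; `lo = l/2^e`, `hi = h/2^e`, `c = c/2^e` -/
structure UpTests (P n : ℕ) (ω l h c : ℤ) (e : ℕ) (p : Pc) (ps : List Pc) : Prop where
  lo0 : p.c = 1
  hi1 : hiL p ps = 1
  ha : chain adj p ps = true
  m00 : chain (m0 0) p ps = true
  m10 : chain (m1 0) p ps = true
  m01 : chain (m0 1) p ps = true
  m11 : chain (m1 1) p ps = true
  tTh : check P n Th p ps = true
  tTh1 : check P n (1 - Th) p ps = true
  tKa : check P n ka p ps = true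
  tKa1 : check P n (1 - ka) p ps = true
  tL : check P n (-L) p ps = true
  tlo : check P n (eStat ω l e) p ps = true
  thi : check P n (eStat ω h e) p ps = true
  tconc : check P n eConc p ps = true
  tc1 : check P n (eClo1 c e) p ps = true
  tc2 : check P n (eClo2 c e) p ps = true

/-! real values of the certificate expressions -/

variable {P : ℕ} {p : Pc} {ps : List Pc} {z : ℝ}

theorem ex1 (w : ℕ → ℝ) : (1 : Ex).evR w = 1 := by
  show ((1 : ℤ) : ℝ) / 2 ^ 0 = 1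
  norm_num
theorem ex2 (w : ℕ → ℝ) : (2 : Ex).evR w = 2 := by
  show ((2 : ℤ) : ℝ) / 2 ^ 0 = 2
  norm_num
theorem ex4 (w : ℕ → ℝ) : (4 : Ex).evR w = 4 := by
  show ((4 : ℤ) : ℝ) / 2 ^ 0 = 4
  norm_num
theorem ex24 (w : ℕ → ℝ) : (24 : Ex).evR w = 24 := by
  show ((24 : ℤ) : ℝ) / 2 ^ 0 = 24
  norm_num

theorem cv0 : cv P p ps z 0 = z := rfl
theorem cv1 : cv P p ps z 1 = Fn P 0 p ps z := rfl
theorem cv2 : cv P p ps z 2 = Fn1 P 0 p ps z := rfl
theorem cv3 : cv P p ps z 3 = Fn2 P 0 p ps z := rfl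
theorem cv4 : cv P p ps z 4 = Fn P 1 p ps z := rfl
theorem cv5 : cv P p ps z 5 = Fn1 P 1 p ps z := rfl
theorem cv6 : cv P p ps z 6 = Fn2 P 1 p ps z := rfl
theorem cv7 : cv P p ps z 7 = Fn P 2 p ps z := rfl

theorem continuous_Fn1 {k : ℕ} (ha : chain adj p ps = true) (c1 : chain (m1 k) p ps = true) :
    Continuous (Fn1 P k p ps) := by
  have key : ∀ (p : Pc) (ps : List Pc), chain adj p ps = true → chain (m1 k) p ps = true →
      Continuous (sel (Pc.v1 P k) p ps) := by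
    intro p ps
    induction ps generalizing p with
    | nil => intro _ _; exact continuous_iff_continuousAt.2 fun z => (p.hasDerivAt_v1 P k z).continuousAt
    | cons q ps ih =>
      intro ha hc
      simp only [chain, Bool.and_eq_true] at ha hc
      have hq : p.hi ≤ q.hi := by
        rw [adj_sound ha.1]
        exact q.lo_lt_hi.le
      refine Continuous.if_le (continuous_iff_continuousAt.2 fun z =>
        (p.hasDerivAt_v1 P k z).continuousAt) (ih q ha.2 hc.2) continuous_id continuous_const ?_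
      intro z hz
      have hz' : z = p.hi := hz
      subst hz'
      rw [sel_of_le hq]
      exact m1_sound ha.1 hc.1
  exact key p ps ha c1

end Poly

/-- closure key: two polynomial inequalities with an approximate root `k` of `s²` -/
theorem clo_key {s k h F a b κ : ℝ} (h0 : 0 ≤ s) (h4 : s ≤ 1) (hk0 : 0 < k) (hk1 : k ≤ 1)
    (h1 : a ≤ (s ^ 2 + k ^ 2) * h + 2 * k * F) (h2 : b ≤ 2 * s ^ 2 * k * h + (s ^ 2 + k ^ 2) * F)
    (ha : 0 < a) (hb : 0 < b) (hκ4 : κ ≤ a / 2) (hκ5 : κ ≤ b / 2) : κ ≤ s * h + F := by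
  rcases le_total h 0 with hh | hh
  · have m1 : (s ^ 2 + k ^ 2) * h ≤ 2 * k * s * h :=
      mul_le_mul_of_nonpos_right (by nlinarith [sq_nonneg (s - k)]) hh
    have m2 : a ≤ 2 * k * (s * h + F) := by
      calc a ≤ (s ^ 2 + k ^ 2) * h + 2 * k * F := h1
        _ ≤ 2 * k * s * h + 2 * k * F := by linarith
        _ = _ := by ring
    have m3 : 0 < s * h + F := by
      by_contra hcon
      push Not at hcon
      have : 2 * k * (s * h + F) ≤ 0 :=
        mul_nonpos_of_nonneg_of_nonpos (by positivity) hcon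
      linarith
    have m4 : 2 * k * (s * h + F) ≤ 2 * 1 * (s * h + F) := by gcongr
    linarith
  · have m0 : 2 * s ^ 2 * k ≤ (s ^ 2 + k ^ 2) * s := by
      have := mul_nonneg h0 (sq_nonneg (s - k))
      calc 2 * s ^ 2 * k = (s ^ 2 + k ^ 2) * s - s * (s - k) ^ 2 := by ring
        _ ≤ _ := by linarith
    have m1 : 2 * s ^ 2 * k * h ≤ (s ^ 2 + k ^ 2) * s * h :=
      mul_le_mul_of_nonneg_right m0 hh
    have m2 : b ≤ (s ^ 2 + k ^ 2) * (s * h + F) := by
      calc b ≤ 2 * s ^ 2 * k * h + (s ^ 2 + k ^ 2) * F := h2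
        _ ≤ (s ^ 2 + k ^ 2) * s * h + (s ^ 2 + k ^ 2) * F := by linarith
        _ = _ := by ring
    have m3 : 0 < s * h + F := by
      by_contra hcon
      push Not at hcon
      have : (s ^ 2 + k ^ 2) * (s * h + F) ≤ 0 :=
        mul_nonpos_of_nonneg_of_nonpos (by positivity) hcon
      linarith
    have m5 : s ^ 2 + k ^ 2 ≤ 2 := by
      have q1 : s ^ 2 ≤ 1 := by nlinarith
      have q2 : k ^ 2 ≤ 1 := by nlinarith
      linarith
    have m4 : (s ^ 2 + k ^ 2) * (s * h + F) ≤ 2 * (s * h + F) := by gcongr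
    linarith

/-- the stationary expression for `K = √Q` -/
theorem stat_key {ω y z s N A a6 a7 κ q yl yh : ℝ} (hs : 0 < s) (hs1 : s ≤ 1) (h3 : s ^ 2 = q)
    (h1 : a6 ≤ -(2 * q * A - N ^ 2 + 4 * q +
      yl * (4 * z * (1 - z) * N + (24 * z - (16 - 4 * ω)) * q)))
    (h2 : a7 ≤ -(2 * q * A - N ^ 2 + 4 * q +
      yh * (4 * z * (1 - z) * N + (24 * z - (16 - 4 * ω)) * q)))
    (hy1 : yl ≤ y) (hy2 : y ≤ yh) (ha6 : 0 < a6) (ha7 : 0 < a7) (hκ : κ ≤ min a6 a7 / 8) :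
    Stat ω y z s (N / (2 * s)) (A / (2 * s) - N ^ 2 / (4 * s ^ 3)) ≤ -κ := by
  set B := 4 * z * (1 - z) * N + (24 * z - (16 - 4 * ω)) * q with hB
  have hmin : min a6 a7 ≤ -(2 * q * A - N ^ 2 + 4 * q + y * B) := by
    have k1 : min a6 a7 ≤ a6 := min_le_left _ _
    have k2 : min a6 a7 ≤ a7 := min_le_right _ _
    rcases le_total 0 B with hb | hb
    · have : y * B ≤ yh * B := mul_le_mul_of_nonneg_right hy2 hb
      linarith
    · have : y * B ≤ yl * B := mul_le_mul_of_nonpos_right hy1 hb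
      linarith
  have e1 : 8 * s * Stat ω y z s (N / (2 * s)) (A / (2 * s) - N ^ 2 / (4 * s ^ 3)) =
      2 * s ^ 2 * A - N ^ 2 + 4 * s ^ 2 +
        y * (4 * z * (1 - z) * N + (24 * z - (16 - 4 * ω)) * s ^ 2) := by
    unfold Stat
    field_simp
    ring
  rw [h3, ← hB] at e1
  have h6 : 8 * s * Stat ω y z s (N / (2 * s)) (A / (2 * s) - N ^ 2 / (4 * s ^ 3)) ≤
      -min a6 a7 := by rw [e1]; linarith
  have h7 : 0 < min a6 a7 := lt_min ha6 ha7
  by_contra hcon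
  push Not at hcon
  have h8 : 8 * s * (-κ) < 8 * s * Stat ω y z s (N / (2 * s)) (A / (2 * s) - N ^ 2 / (4 * s ^ 3)) :=
    mul_lt_mul_of_pos_left hcon (by positivity)
  have h9 : 8 * s * κ ≤ min a6 a7 := by
    have k1 : 8 * s * κ ≤ 8 * s * (min a6 a7 / 8) := by gcongr
    have k2 : 8 * s * (min a6 a7 / 8) ≤ 8 * 1 * (min a6 a7 / 8) := by gcongr
    linarith
  linarith

/-- derivative of `Q' / (2 √Q)` -/
theorem dK1_key {Θ Θ1 Θ2 : ℝ → ℝ} {z : ℝ} (dΘ : HasDerivAt Θ (Θ1 z) z)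
    (dΘ1 : HasDerivWithinAt Θ1 (Θ2 z) (Iic z) z) (hQ : 0 < z * Θ z) :
    HasDerivWithinAt (fun z => (Θ z + z * Θ1 z) / (2 * √(z * Θ z)))
      ((2 * Θ1 z + z * Θ2 z) / (2 * √(z * Θ z)) - (Θ z + z * Θ1 z) ^ 2 / (4 * √(z * Θ z) ^ 3))
      (Iic z) z := by
  have hs : 0 < √(z * Θ z) := Real.sqrt_pos.2 hQ
  have h1 : HasDerivAt (fun z => √(z * Θ z)) ((Θ z + z * Θ1 z) / (2 * √(z * Θ z))) z := by
    have h1 := ((hasDerivAt_id z).mul dΘ).sqrt hQ.ne'
    simpa using h1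
  have h2 : HasDerivWithinAt (fun z => Θ z + z * Θ1 z) (Θ1 z + (1 * Θ1 z + z * Θ2 z)) (Iic z) z :=
    dΘ.hasDerivWithinAt.add ((hasDerivAt_id z).hasDerivWithinAt.mul dΘ1)
  have h3 := h2.div (h1.hasDerivWithinAt.const_mul 2) (by positivity : 2 * √(z * Θ z) ≠ 0)
  have e : (2 * Θ1 z + z * Θ2 z) / (2 * √(z * Θ z)) - (Θ z + z * Θ1 z) ^ 2 / (4 * √(z * Θ z) ^ 3) =
      ((Θ1 z + (1 * Θ1 z + z * Θ2 z)) * (2 * √(z * Θ z)) -
        (Θ z + z * Θ1 z) * (2 * ((Θ z + z * Θ1 z) / (2 * √(z * Θ z))))) /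
          (2 * √(z * Θ z)) ^ 2 := by
    generalize √(z * Θ z) = s at hs
    field_simp
    ring
  rw [e]
  exact h3

/-- integer test for `hiL p ps = 1` -/
def isOne : Pc → List Pc → Bool
  | p, [] => decide (p.c + 1 = 2 ^ p.j)
  | _, q :: ps => isOne q ps

theorem isOne_sound : ∀ {p : Pc} {ps : List Pc}, isOne p ps = true → hiL p ps = 1
  | p, [], h => by
    have h' : p.c + 1 = 2 ^ p.j := by simpa [isOne] using h
    have h'' : (p.c : ℝ) + 1 = 2 ^ p.j := by exact_mod_cast h'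
    show p.hi = 1
    unfold Pc.hi
    rw [h'']
    field_simp
  | _, q :: ps, h => isOne_sound (p := q) (ps := ps) h

open WinDef_937.Poly in
/-- **A polynomial certificate gives an upper window certificate.** -/
theorem nonempty_of_tests {P n : ℕ} {ω l h c : ℤ} {e : ℕ} {p : Pc} {ps : List Pc}
    (T : UpTests P n ω l h c e p ps) {lo hi up : ℝ} (hlo : (l : ℝ) / 2 ^ e ≤ lo)
    (hhi : hi ≤ (h : ℝ) / 2 ^ e) (hc0 : 0 ≤ c) (hup : (c : ℝ) / 2 ^ e < up) :
    Nonempty (UpCert ω lo hi up) := by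
  have hp0 : p.lo = 0 := by unfold Pc.lo; rw [T.lo0]; simp
  have hin : ∀ z ∈ Icc (0:ℝ) 1, p.lo ≤ z ∧ z ≤ hiL p ps := fun z hz => by
    rw [hp0, T.hi1]; exact ⟨hz.1, hz.2⟩
  set Θ := Fn P 0 p ps with hΘ
  set Θ1 := Fn1 P 0 p ps with hΘ1
  set Θ2 := Fn2 P 0 p ps with hΘ2
  set Lf := Fn P 1 p ps with hLf
  set L1f := Fn1 P 1 p ps with hL1f
  set kf := Fn P 2 p ps with hkf
  have dΘ : ∀ z, HasDerivAt Θ (Θ1 z) z := hasDerivAt_Fn T.ha T.m00 T.m10
  have dΘ1 : ∀ z, HasDerivWithinAt Θ1 (Θ2 z) (Iic z) z := Fn1_side P 0 p ps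
  have dL : ∀ z, HasDerivAt Lf (L1f z) z := hasDerivAt_Fn T.ha T.m01 T.m11
  have cΘ : Continuous Θ := continuous_iff_continuousAt.2 fun z => (dΘ z).continuousAt
  have cL : Continuous Lf := continuous_iff_continuousAt.2 fun z => (dL z).continuousAt
  have cL1 : Continuous L1f := continuous_Fn1 T.ha T.m11
  -- the uniform inequalities
  obtain ⟨a1, ha1, hT⟩ := check_unif T.ha T.tTh
  obtain ⟨a2, ha2, hT1⟩ := check_unif T.ha T.tTh1
  obtain ⟨a3, ha3, hk⟩ := check_unif T.ha T.tKa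
  obtain ⟨a4, ha4, hk1⟩ := check_unif T.ha T.tKa1
  obtain ⟨a5, ha5, hLn⟩ := check_unif T.ha T.tL
  obtain ⟨a6, ha6, hSl⟩ := check_unif T.ha T.tlo
  obtain ⟨a7, ha7, hSh⟩ := check_unif T.ha T.thi
  obtain ⟨a8, ha8, hco⟩ := check_unif T.ha T.tconc
  obtain ⟨a9, ha9, hc1⟩ := check_unif T.ha T.tc1
  obtain ⟨a10, ha10, hc2⟩ := check_unif T.ha T.tc2
  have b1 : ∀ z ∈ Icc (0:ℝ) 1, a1 ≤ Θ z := fun z hz => by
    simpa [Th, Ex.evR_var, cv1] using hT z (hin z hz).1 (hin z hz).2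
  have b2 : ∀ z ∈ Icc (0:ℝ) 1, Θ z ≤ 1 := fun z hz => by
    have := hT1 z (hin z hz).1 (hin z hz).2
    simp only [Th, Ex.evR_var, Ex.evR_sub, ex1, cv1] at this
    have h2 : Θ z = Fn P 0 p ps z := rfl
    linarith
  have b3 : ∀ z ∈ Icc (0:ℝ) 1, 0 < kf z := fun z hz => by
    have := hk z (hin z hz).1 (hin z hz).2
    simp only [ka, Ex.evR_var, cv7] at this
    have h2 : kf z = Fn P 2 p ps z := rfl
    linarith
  have b4 : ∀ z ∈ Icc (0:ℝ) 1, kf z ≤ 1 := fun z hz => by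
    have := hk1 z (hin z hz).1 (hin z hz).2
    simp only [ka, Ex.evR_var, Ex.evR_sub, ex1, cv7] at this
    have h2 : kf z = Fn P 2 p ps z := rfl
    linarith
  have b5 : ∀ z ∈ Icc (0:ℝ) 1, Lf z < 0 := fun z hz => by
    have := hLn z (hin z hz).1 (hin z hz).2
    simp only [L, Ex.evR_var, Ex.evR_neg, cv4] at this
    have h2 : Lf z = Fn P 1 p ps z := rfl
    linarith
  have evS : ∀ (m : ℤ) (z : ℝ), (eStat ω m e).evR (cv P p ps z) =
      -(2 * (z * Θ z) * (2 * Θ1 z + z * Θ2 z) - (Θ z + z * Θ1 z) ^ 2 + 4 * (z * Θ z)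
        + (m : ℝ) / 2 ^ e * (4 * z * (1 - z) * (Θ z + z * Θ1 z)
          + (24 * z - (16 - 4 * ω)) * (z * Θ z))) := by
    intro m z
    simp only [eStat, Q, Q1, Q2, v, Th, Th1, Th2, Ex.evR_var, Ex.evR_sub, ex1, ex2, ex4, ex24,
      Ex.evR_neg, Ex.evR_add, Ex.evR_mul, Ex.evR_cst, cv0, cv1, cv2, cv3, hΘ, hΘ1, hΘ2]
    push_cast
    ring
  have evC : ∀ z, (eConc).evR (cv P p ps z) =
      -(2 * (z * Θ z) * (2 * Θ1 z + z * Θ2 z) - (Θ z + z * Θ1 z) ^ 2) := by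
    intro z
    simp only [eConc, Q, Q1, Q2, v, Th, Th1, Th2, Ex.evR_var, Ex.evR_sub, ex2,
      Ex.evR_neg, Ex.evR_add, Ex.evR_mul, cv0, cv1, cv2, cv3, hΘ, hΘ1, hΘ2]
    ring
  set hf : ℝ → ℝ := fun z => 2 * (1 - z) * Lf z - z * Lf z + z * (1 - z) * L1f z with hhf
  set F : ℝ → ℝ := fun z => 2 * ((c : ℝ) / 2 ^ e) * (1 - z) ^ 2 - Θ z with hF
  have ev1 : ∀ z, (eClo1 c e).evR (cv P p ps z) =
      (z * Θ z + kf z ^ 2) * hf z + 2 * kf z * F z := by
    intro z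
    simp only [eClo1, eh, eF, Q, v, Th, L, L1, ka, Ex.evR_var, Ex.evR_sub, ex1, ex2,
      Ex.evR_add, Ex.evR_mul, Ex.evR_cst, cv0, cv1, cv4, cv5, cv7, hhf, hF, hΘ, hLf, hL1f, hkf]
    push_cast
    ring
  have ev2 : ∀ z, (eClo2 c e).evR (cv P p ps z) =
      2 * (z * Θ z) * kf z * hf z + (z * Θ z + kf z ^ 2) * F z := by
    intro z
    simp only [eClo2, eh, eF, Q, v, Th, L, L1, ka, Ex.evR_var, Ex.evR_sub, ex1, ex2,
      Ex.evR_add, Ex.evR_mul, Ex.evR_cst, cv0, cv1, cv4, cv5, cv7, hhf, hF, hΘ, hLf, hL1f, hkf]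
    push_cast
    ring
  have chf : Continuous hf := by
    rw [hhf]
    exact (((continuous_const.mul (continuous_const.sub continuous_id)).mul cL).sub
      (continuous_id.mul cL)).add ((continuous_id.mul (continuous_const.sub continuous_id)).mul cL1)
  obtain ⟨ML, hML⟩ := isCompact_Icc.exists_bound_of_continuousOn (s := Icc (0:ℝ) 1)
    cL.continuousOn
  obtain ⟨MH, hMH⟩ := isCompact_Icc.exists_bound_of_continuousOn (s := Icc (0:ℝ) 1)
    chf.continuousOn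
  set κ : ℝ := min (min (√a1) (a8 / 4)) (min (min a6 a7 / 8) (min (a9 / 2) (a10 / 2))) with hκ
  have hκ1 : κ ≤ √a1 := (min_le_left _ _).trans (min_le_left _ _)
  have hκ2 : κ ≤ a8 / 4 := (min_le_left _ _).trans (min_le_right _ _)
  have hκ3 : κ ≤ min a6 a7 / 8 := (min_le_right _ _).trans (min_le_left _ _)
  have hκ4 : κ ≤ a9 / 2 := ((min_le_right _ _).trans (min_le_right _ _)).trans (min_le_left _ _)
  have hκ5 : κ ≤ a10 / 2 := ((min_le_right _ _).trans (min_le_right _ _)).trans (min_le_right _ _)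
  have hκ0 : 0 < κ := by
    have h1 : 0 < √a1 := Real.sqrt_pos.2 ha1
    have h2 : 0 < min a6 a7 := lt_min ha6 ha7
    rw [hκ]
    refine lt_min (lt_min h1 (by linarith)) (lt_min (by linarith) (lt_min (by linarith) (by linarith)))
  -- pointwise facts at interior points
  have hQp : ∀ z ∈ Ioo (0:ℝ) 1, 0 < z * Θ z := fun z hz =>
    mul_pos hz.1 (lt_of_lt_of_le ha1 (b1 z ⟨hz.1.le, hz.2.le⟩))
  have hQ1 : ∀ z ∈ Icc (0:ℝ) 1, z * Θ z ≤ 1 := fun z hz => by
    have h1 := b1 z hz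
    have h2 := b2 z hz
    nlinarith [hz.1, hz.2]
  have hsq : ∀ z ∈ Icc (0:ℝ) 1, √(z * Θ z) ^ 2 = z * Θ z := fun z hz =>
    Real.sq_sqrt (mul_nonneg hz.1 (ha1.le.trans (b1 z hz)))
  have hs1 : ∀ z ∈ Icc (0:ℝ) 1, √(z * Θ z) ≤ 1 := fun z hz =>
    Real.sqrt_le_one.2 (hQ1 z hz)
  refine ⟨{ K := fun z => √(z * Θ z)
            K1 := fun z => (Θ z + z * Θ1 z) / (2 * √(z * Θ z))
            K2 := fun z => (2 * Θ1 z + z * Θ2 z) / (2 * √(z * Θ z)) -
              (Θ z + z * Θ1 z) ^ 2 / (4 * √(z * Θ z) ^ 3)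
            G := fun z => z ^ 2 * (1 - z) * Lf z
            G1 := fun z => z * hf z
            κ := κ
            c := (c : ℝ) / 2 ^ e
            CK := 1
            CG := max ML MH
            κ_pos := hκ0
            CK_pos := one_pos
            c_nonneg := by have : (0 : ℝ) ≤ c := by exact_mod_cast hc0
                           positivity
            c_lt := hup
            K_cont := ?_
            K_ge := ?_
            K_le := ?_
            dK := ?_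
            dK1 := ?_
            KK2 := ?_
            stat := ?_
            dG := ?_
            G1_cont := ?_
            G_neg := ?_
            G_abs := ?_
            G1_abs := ?_
            clo := ?_ }⟩
  · exact (Real.continuous_sqrt.comp (continuous_id.mul cΘ)).continuousOn
  · intro z hz
    calc κ * √z ≤ √a1 * √z := mul_le_mul_of_nonneg_right hκ1 (Real.sqrt_nonneg z)
      _ = √(a1 * z) := (Real.sqrt_mul ha1.le z).symm
      _ ≤ √(z * Θ z) := Real.sqrt_le_sqrt (by nlinarith [b1 z hz, hz.1])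
  · intro z hz
    rw [one_mul]
    exact Real.sqrt_le_sqrt (by nlinarith [b2 z hz, hz.1])
  · intro z hz
    have h1 := ((hasDerivAt_id z).mul (dΘ z)).sqrt (hQp z hz).ne'
    simpa using h1
  · intro z hz
    exact dK1_key (dΘ z) (dΘ1 z) (hQp z hz)
  · intro z hz
    have hzI : z ∈ Icc (0:ℝ) 1 := ⟨hz.1.le, hz.2.le⟩
    have hs : 0 < √(z * Θ z) := Real.sqrt_pos.2 (hQp z hz)
    have h2 := hco z (hin z hzI).1 (hin z hzI).2
    rw [evC] at h2
    have h3 := hsq z hzI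
    have h4 := hQ1 z hzI
    set s := √(z * Θ z) with hsdef
    have e1 : s * ((2 * Θ1 z + z * Θ2 z) / (2 * s) - (Θ z + z * Θ1 z) ^ 2 / (4 * s ^ 3)) =
        (2 * s ^ 2 * (2 * Θ1 z + z * Θ2 z) - (Θ z + z * Θ1 z) ^ 2) / (4 * s ^ 2) := by
      field_simp
      ring
    rw [e1, h3, div_le_iff₀ (by have := hQp z hz; positivity)]
    have h5 := hQp z hz
    nlinarith
  · intro y hy z hz
    have hzI : z ∈ Icc (0:ℝ) 1 := ⟨hz.1.le, hz.2.le⟩
    have h1 := hSl z (hin z hzI).1 (hin z hzI).2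
    have h2 := hSh z (hin z hzI).1 (hin z hzI).2
    rw [evS] at h1 h2
    exact stat_key (Real.sqrt_pos.2 (hQp z hz)) (hs1 z hzI) (hsq z hzI) h1 h2
      (hlo.trans hy.1) (hy.2.trans hhi) ha6 ha7 hκ3
  · intro z _
    have h1 : HasDerivAt (fun z : ℝ => z ^ 2 * (1 - z) * Lf z)
        (((2:ℕ) * z ^ (2 - 1) * (1 - z) + z ^ 2 * (-1)) * Lf z + z ^ 2 * (1 - z) * L1f z) z :=
      ((hasDerivAt_pow 2 z).mul ((hasDerivAt_id z).const_sub 1)).mul (dL z)
    convert h1 using 1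
    simp only [hhf]
    norm_num
    ring
  · exact (continuous_id.mul chf).continuousOn
  · intro z hz
    have h1 := b5 z ⟨hz.1.le, hz.2.le⟩
    have h2 : 0 < z ^ 2 * (1 - z) := mul_pos (pow_pos hz.1 2) (by linarith [hz.2])
    exact mul_neg_of_pos_of_neg h2 h1
  · intro z hz
    have h1 := hML z hz
    rw [Real.norm_eq_abs] at h1
    have h2 : 0 ≤ z ^ 2 * (1 - z) := mul_nonneg (sq_nonneg z) (by linarith [hz.2])
    rw [abs_mul, abs_of_nonneg h2, mul_comm]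
    exact mul_le_mul_of_nonneg_right (h1.trans (le_max_left _ _)) h2
  · intro z hz
    have h1 := hMH z hz
    rw [Real.norm_eq_abs] at h1
    rw [abs_mul, abs_of_nonneg hz.1, mul_comm]
    exact mul_le_mul_of_nonneg_right (h1.trans (le_max_right _ _)) hz.1
  · intro z hz
    have h1 := hc1 z (hin z hz).1 (hin z hz).2
    have h2 := hc2 z (hin z hz).1 (hin z hz).2
    rw [ev1, ← hsq z hz] at h1
    rw [ev2, ← hsq z hz] at h2
    have key : κ ≤ √(z * Θ z) * hf z + F z :=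
      clo_key (Real.sqrt_nonneg _) (hs1 z hz) (b3 z hz) (b4 z hz) h1 h2 ha9 ha10 hκ4 hκ5
    have e1 : √(z * Θ z) ^ 2 - √(z * Θ z) * (z * hf z) - 2 * ((c : ℝ) / 2 ^ e) * (z * (1 - z) ^ 2) =
        -z * (√(z * Θ z) * hf z + F z) := by
      rw [hsq z hz]
      simp only [hF]
      ring
    rw [e1]
    have : z * κ ≤ z * (√(z * Θ z) * hf z + F z) := mul_le_mul_of_nonneg_left key hz.1
    linarith

end Crest.Agent.R146.WinDef_937
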