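import Crest.Agent.R146.StepStart_483
import Crest.Agent.R146.PP_865
import Crest.Agent.R146.SlopeT_371

/-!
# Row 146, helper454: upper slope barriers of the form `K = √(v(1-v) r(v))`

All inequalities for `K`, `K'`, `K''` become polynomial in `v, r, r', r''`:

* `hasDerivAt_K`, `hasDerivAt_K1`, `K_pos`, `continuous_K`;
* `stat_eq` : `Stat ω y v K K' K'' = EE ω y v / (4K)`, `EE = Q Q'' - Q'²/2 + 2 y v(1-v) Q' + (2(1+ωy)+4y(3v-2)) Q`,
  `Q = v(1-v) r`;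
* `stat_le` : it is enough to check `y = 0` and `y = hi`;
* `KK2_le` : `K K'' ≤ -1` from the case `y = 0`;
* `gauss_le` : `φ(z) ≤ K(Φ(z))` for every barrier with `K K'' ≤ -1` (start of the backward equation);
* `clos_*` : the dual function `G = -v(1-v) γ(v) K(v)` and the pointwise closure inequality
  `I² - I G' ≤ 2 h v (1-v)²` for `0 ≤ I ≤ K`.
-/

set_option autoImplicit false

namespace Crest.Agent.R146.WinQ_454

open Set Filter Topology MeasureTheory ProbabilityTheory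
open Crest.Agent.R146.MaxP2_371 Crest.Agent.R146.SlopeT_371
open Crest.Agent.R146.StepStart_483

section numerals
open PP865
theorem evR_one (v : ℕ → ℝ) : (1 : Ex).evR v = 1 := by
  simpa using Ex.evR_ofNat v 1
theorem evR_two (v : ℕ → ℝ) : (2 : Ex).evR v = 2 := by
  simpa using Ex.evR_ofNat v 2
theorem evR_three (v : ℕ → ℝ) : (3 : Ex).evR v = 3 := by
  simpa using Ex.evR_ofNat v 3
theorem evR_four (v : ℕ → ℝ) : (4 : Ex).evR v = 4 := by
  simpa using Ex.evR_ofNat v 4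
end numerals

/-- `r`, `r'`, `r''`, positive on `[0,1]` -/
structure RD (r r1 r2 : ℝ → ℝ) : Prop where
  d1 : ∀ v, HasDerivAt r (r1 v) v
  d2 : ∀ v, HasDerivAt r1 (r2 v) v
  pos : ∀ v ∈ Icc (0:ℝ) 1, 0 < r v

noncomputable def Q (r : ℝ → ℝ) (v : ℝ) : ℝ := v * (1 - v) * r v
noncomputable def Q1 (r r1 : ℝ → ℝ) (v : ℝ) : ℝ := (1 - 2 * v) * r v + v * (1 - v) * r1 v
noncomputable def Q2 (r r1 r2 : ℝ → ℝ) (v : ℝ) : ℝ :=
  -2 * r v + 2 * (1 - 2 * v) * r1 v + v * (1 - v) * r2 v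

/-- the barrier -/
noncomputable def K (r : ℝ → ℝ) (v : ℝ) : ℝ := Real.sqrt (Q r v)
noncomputable def K1 (r r1 : ℝ → ℝ) (v : ℝ) : ℝ := Q1 r r1 v / (2 * K r v)
noncomputable def K2 (r r1 r2 : ℝ → ℝ) (v : ℝ) : ℝ :=
  (2 * Q2 r r1 r2 v * Q r v - Q1 r r1 v ^ 2) / (4 * Q r v * K r v)

/-- four times `K` times the stationary expression -/
noncomputable def EE (ω y : ℝ) (r r1 r2 : ℝ → ℝ) (v : ℝ) : ℝ :=
  Q r v * Q2 r r1 r2 v - Q1 r r1 v ^ 2 / 2 + 2 * y * (v * (1 - v)) * Q1 r r1 v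
    + (2 * (1 + ω * y) + 4 * y * (3 * v - 2)) * Q r v

variable {r r1 r2 : ℝ → ℝ} {v : ℝ}

theorem Q_pos (h : RD r r1 r2) (hv : v ∈ Ioo (0:ℝ) 1) : 0 < Q r v :=
  mul_pos (mul_pos hv.1 (sub_pos.2 hv.2)) (h.pos v ⟨hv.1.le, hv.2.le⟩)

theorem K_pos (h : RD r r1 r2) (hv : v ∈ Ioo (0:ℝ) 1) : 0 < K r v := Real.sqrt_pos.2 (Q_pos h hv)

theorem K_nonneg (v : ℝ) : 0 ≤ K r v := Real.sqrt_nonneg _

theorem K_sq (h : RD r r1 r2) (hv : v ∈ Icc (0:ℝ) 1) : K r v ^ 2 = Q r v :=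
  Real.sq_sqrt (mul_nonneg (mul_nonneg hv.1 (sub_nonneg.2 hv.2)) (h.pos v hv).le)

theorem K_zero : K r 0 = 0 := by simp [K, Q]
theorem K_one : K r 1 = 0 := by simp [K, Q]

theorem hasDerivAt_Q (h : RD r r1 r2) (v : ℝ) : HasDerivAt (Q r) (Q1 r r1 v) v := by
  have h1 : HasDerivAt (fun v : ℝ => v * (1 - v)) (1 * (1 - v) + v * (-1)) v :=
    (hasDerivAt_id v).mul ((hasDerivAt_id v).const_sub 1)
  refine (h1.mul (h.d1 v)).congr_deriv ?_
  unfold Q1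
  ring

theorem hasDerivAt_Q1 (h : RD r r1 r2) (v : ℝ) : HasDerivAt (Q1 r r1) (Q2 r r1 r2 v) v := by
  have h1 : HasDerivAt (fun v : ℝ => v * (1 - v)) (1 * (1 - v) + v * (-1)) v :=
    (hasDerivAt_id v).mul ((hasDerivAt_id v).const_sub 1)
  have h2 : HasDerivAt (fun v : ℝ => 1 - 2 * v) (-(2 * 1)) v :=
    ((hasDerivAt_id v).const_mul 2).const_sub 1
  refine ((h2.mul (h.d1 v)).add (h1.mul (h.d2 v))).congr_deriv ?_
  unfold Q2
  ring

theorem continuous_Q (h : RD r r1 r2) : Continuous (Q r) :=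
  continuous_iff_continuousAt.2 fun v => (hasDerivAt_Q h v).continuousAt

theorem continuous_K (h : RD r r1 r2) : Continuous (K r) := (continuous_Q h).sqrt

theorem hasDerivAt_K (h : RD r r1 r2) (hv : v ∈ Ioo (0:ℝ) 1) : HasDerivAt (K r) (K1 r r1 v) v :=
  (hasDerivAt_Q h v).sqrt (Q_pos h hv).ne'

theorem hasDerivAt_K1 (h : RD r r1 r2) (hv : v ∈ Ioo (0:ℝ) 1) :
    HasDerivAt (K1 r r1) (K2 r r1 r2 v) v := by
  have hK := K_pos h hv
  have hQ := Q_pos h hv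
  have hs := K_sq h ⟨hv.1.le, hv.2.le⟩
  have h1 := (hasDerivAt_Q1 h v).div ((hasDerivAt_K h hv).const_mul 2) (by positivity)
  refine h1.congr_deriv ?_
  unfold K2 K1
  rw [← hs]
  field_simp
  ring

/-- the stationary expression of `SlopeT_371` -/
theorem stat_eq (h : RD r r1 r2) (hv : v ∈ Ioo (0:ℝ) 1) (ω y : ℝ) :
    Stat ω y v (K r v) (K1 r r1 v) (K2 r r1 r2 v) = EE ω y r r1 r2 v / (4 * K r v) := by
  have hK := K_pos h hv
  have hs := K_sq h ⟨hv.1.le, hv.2.le⟩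
  unfold Stat K1 K2 EE
  rw [← hs]
  field_simp
  ring

theorem EE_affine (ω y hi : ℝ) (hhi : 0 < hi) :
    EE ω y r r1 r2 v = (1 - y / hi) * EE ω 0 r r1 r2 v + y / hi * EE ω hi r r1 r2 v := by
  unfold EE
  field_simp
  ring

/-- upper barrier for all `y ∈ [0, hi]` with the margin `κ₀ K` -/
theorem stat_le (h : RD r r1 r2) (hv : v ∈ Ioo (0:ℝ) 1) {ω hi κ0 : ℝ} (hhi : 0 < hi)
    (e0 : EE ω 0 r r1 r2 v ≤ -(4 * κ0 * Q r v)) (e1 : EE ω hi r r1 r2 v ≤ -(4 * κ0 * Q r v))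
    {y : ℝ} (hy : y ∈ Icc 0 hi) :
    Stat ω y v (K r v) (K1 r r1 v) (K2 r r1 r2 v) ≤ -(κ0 * K r v) := by
  have hK := K_pos h hv
  have hs := K_sq h ⟨hv.1.le, hv.2.le⟩
  rw [stat_eq h hv, div_le_iff₀ (by positivity), EE_affine ω y hi hhi]
  have hy0 : 0 ≤ y / hi := div_nonneg hy.1 hhi.le
  have hy1 : y / hi ≤ 1 := (div_le_one hhi).2 hy.2
  have e : -(κ0 * K r v) * (4 * K r v) = -(4 * κ0 * Q r v) := by rw [← hs]; ring
  rw [e]
  nlinarith [mul_le_mul_of_nonneg_left e0 (sub_nonneg.2 hy1), mul_le_mul_of_nonneg_left e1 hy0]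

theorem stat_nonpos (h : RD r r1 r2) (hv : v ∈ Ioo (0:ℝ) 1) {ω hi : ℝ} (hhi : 0 < hi)
    (e0 : EE ω 0 r r1 r2 v ≤ 0) (e1 : EE ω hi r r1 r2 v ≤ 0) {y : ℝ} (hy : y ∈ Icc 0 hi) :
    Stat ω y v (K r v) (K1 r r1 v) (K2 r r1 r2 v) ≤ 0 := by
  have := stat_le h hv (κ0 := 0) hhi (by simpa using e0) (by simpa using e1) hy
  simpa using this

/-- `K K'' ≤ -1` -/
theorem KK2_le (h : RD r r1 r2) (hv : v ∈ Ioo (0:ℝ) 1) {ω : ℝ} (e0 : EE ω 0 r r1 r2 v ≤ 0) :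
    K r v * K2 r r1 r2 v ≤ -1 := by
  have hK := K_pos h hv
  have hQ := Q_pos h hv
  have e : K r v * K2 r r1 r2 v = (2 * Q2 r r1 r2 v * Q r v - Q1 r r1 v ^ 2) / (4 * Q r v) := by
    unfold K2
    field_simp
  rw [e, div_le_iff₀ (by positivity)]
  unfold EE at e0
  nlinarith

/-! ### the start: the Gaussian profile is below every barrier with `K K'' ≤ -1` -/

theorem ph_tendsto_atTop : Tendsto ph atTop (𝓝 0) := by
  have h := ph_tendsto_atBot.comp tendsto_neg_atTop_atBot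
  refine h.congr fun z => ?_
  simp [Function.comp, ph_neg]

theorem gauss_le_gen {K K1 K2 : ℝ → ℝ} (hK0 : ∀ v ∈ Ioo (0:ℝ) 1, 0 < K v)
    (hK : ∀ v ∈ Ioo (0:ℝ) 1, HasDerivAt K (K1 v) v)
    (hK1 : ∀ v ∈ Ioo (0:ℝ) 1, HasDerivAt K1 (K2 v) v)
    (hKK : ∀ v ∈ Ioo (0:ℝ) 1, K v * K2 v ≤ -1) (z : ℝ) : ph z ≤ K (Phi z) := by
  by_contra hcon
  push Not at hcon
  have hPI : ∀ z, Phi z ∈ Ioo (0:ℝ) 1 := fun z => ⟨Phi_pos z, Phi_lt_one z⟩
  set F : ℝ → ℝ := fun z => ph z - K (Phi z) with hF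
  have hpos : 0 < F z := sub_pos.2 hcon
  have hd : ∀ y, HasDerivAt F (-y * ph y - K1 (Phi y) * ph y) y := fun y =>
    (ph_deriv y).sub ((hK _ (hPI y)).comp y (Phi_deriv y))
  have hc : Continuous F := continuous_iff_continuousAt.2 fun y => (hd y).continuousAt
  obtain ⟨a, ha⟩ := (eventually_atBot.1 (ph_tendsto_atBot.eventually (gt_mem_nhds hpos)))
  obtain ⟨b, hb⟩ := (eventually_atTop.1 (ph_tendsto_atTop.eventually (gt_mem_nhds hpos)))
  have hout : ∀ y, (y ≤ a ∨ b ≤ y) → F y < F z := by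
    intro y hy
    have h1 : F y ≤ ph y := by
      have := (hK0 _ (hPI y)).le
      simp only [hF]; linarith
    rcases hy with hy | hy
    · exact h1.trans_lt (ha y hy)
    · exact h1.trans_lt (hb y hy)
  have hza : a < z := by
    by_contra hh; exact lt_irrefl _ (hout z (Or.inl (not_lt.1 hh)))
  have hzb : z < b := by
    by_contra hh; exact lt_irrefl _ (hout z (Or.inr (not_lt.1 hh)))
  obtain ⟨z0, hz0, hmax⟩ := isCompact_Icc.exists_isMaxOn (nonempty_Icc.2 (hza.trans hzb).le)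
    (hc.continuousOn (s := Icc a b))
  have hglob : ∀ y, F y ≤ F z0 := by
    intro y
    by_cases hy : y ∈ Icc a b
    · exact hmax hy
    · have h1 : y ≤ a ∨ b ≤ y := by
        by_contra hh
        push Not at hh
        exact hy ⟨hh.1.le, hh.2.le⟩
      exact (hout y h1).le.trans (hmax ⟨hza.le, hzb.le⟩)
  have hloc : IsLocalMax F z0 := Eventually.of_forall hglob
  have h2 : HasDerivAt (fun y => -y * ph y - K1 (Phi y) * ph y)
      ((-1 * ph z0 + -z0 * (-z0 * ph z0)) -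
        ((K2 (Phi z0) * ph z0) * ph z0 + K1 (Phi z0) * (-z0 * ph z0))) z0 := by
    have a1 : HasDerivAt (fun y : ℝ => -y) (-1) z0 := (hasDerivAt_id z0).neg
    have a2 : HasDerivAt (fun y => K1 (Phi y)) (K2 (Phi z0) * ph z0) z0 :=
      (hK1 _ (hPI z0)).comp z0 (Phi_deriv z0)
    exact (a1.mul (ph_deriv z0)).sub (a2.mul (ph_deriv z0))
  obtain ⟨e1, e2⟩ := (HasSide.of_hasDerivAt h2).nonpos (Eventually.of_forall hd) hloc
  have hp := ph_pos z0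
  have hF0 : 0 < F z0 := hpos.trans_le (hglob z)
  have hlt : K (Phi z0) < ph z0 := sub_pos.1 hF0
  have hkk := hKK _ (hPI z0)
  have hk0 := hK0 _ (hPI z0)
  have e3 : z0 + K1 (Phi z0) = 0 := by
    have : -(ph z0) * (z0 + K1 (Phi z0)) = 0 := by linarith
    rcases mul_eq_zero.1 this with h | h
    · linarith
    · exact h
  have e4 : K2 (Phi z0) < 0 := by
    by_contra hh
    have := mul_nonneg hk0.le (not_lt.1 hh)
    linarith
  have e5 : ph z0 * K2 (Phi z0) < -1 := by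
    have := mul_lt_mul_of_neg_right hlt e4
    linarith
  have e6 : (-1 * ph z0 + -z0 * (-z0 * ph z0)) -
      ((K2 (Phi z0) * ph z0) * ph z0 + K1 (Phi z0) * (-z0 * ph z0)) =
      ph z0 * (z0 * (z0 + K1 (Phi z0))) - ph z0 * (1 + ph z0 * K2 (Phi z0)) := by ring
  rw [e6, e3] at e2
  have := mul_pos hp (show 0 < -(1 + ph z0 * K2 (Phi z0)) by linarith)
  nlinarith

theorem gauss_le (h : RD r r1 r2) {ω : ℝ} (e0 : ∀ v ∈ Ioo (0:ℝ) 1, EE ω 0 r r1 r2 v ≤ 0) (z : ℝ) :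
    gaussianPDFReal 0 1 z ≤ K r ((gaussianReal 0 1).real (Iic z)) :=
  gauss_le_gen (fun _ hv => K_pos h hv) (fun _ hv => hasDerivAt_K h hv)
    (fun _ hv => hasDerivAt_K1 h hv) (fun _ hv => KK2_le h hv (e0 _ hv)) z

/-! ### the dual function of the closure -/

/-- `G = -v(1-v) γ K` -/
noncomputable def G (r γ : ℝ → ℝ) (v : ℝ) : ℝ := -(v * (1 - v) * γ v * K r v)
noncomputable def G1 (r r1 γ γ1 : ℝ → ℝ) (v : ℝ) : ℝ :=
  -(((1 - 2 * v) * γ v + v * (1 - v) * γ1 v) * K r v + v * (1 - v) * γ v * K1 r r1 v)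

/-- the polynomial closure expression divided by `v(1-v)` -/
noncomputable def CL (c : ℝ) (r r1 γ γ1 : ℝ → ℝ) (v : ℝ) : ℝ :=
  2 * c * (1 - v) - r v - γ v * (3 / 2 * (1 - 2 * v) * r v + 1 / 2 * (v * (1 - v)) * r1 v)
    - v * (1 - v) * γ1 v * r v

variable {γ γ1 : ℝ → ℝ}

theorem hasDerivAt_G (h : RD r r1 r2) (hγ : HasDerivAt γ (γ1 v) v) (hv : v ∈ Ioo (0:ℝ) 1) :
    HasDerivAt (G r γ) (G1 r r1 γ γ1 v) v := by
  have h1 : HasDerivAt (fun v : ℝ => v * (1 - v)) (1 * (1 - v) + v * (-1)) v :=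
    (hasDerivAt_id v).mul ((hasDerivAt_id v).const_sub 1)
  refine ((h1.mul hγ).mul (hasDerivAt_K h hv)).neg.congr_deriv ?_
  unfold G1
  simp only [Pi.mul_apply]
  ring

theorem continuous_G (h : RD r r1 r2) (hγ : Continuous γ) : Continuous (G r γ) :=
  (((continuous_id.mul (continuous_const.sub continuous_id)).mul hγ).mul (continuous_K h)).neg

theorem G_nonpos (hγ : 0 ≤ γ v) (hv : v ∈ Icc (0:ℝ) 1) : G r γ v ≤ 0 :=
  neg_nonpos.2 (mul_nonneg (mul_nonneg (mul_nonneg hv.1 (sub_nonneg.2 hv.2)) hγ) (K_nonneg v))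

theorem G_zero : G r γ 0 = 0 := by simp [G]
theorem G_one : G r γ 1 = 0 := by simp [G]

/-- `K G' = v(1-v) (...)`: the closure inequality on the barrier itself -/
theorem clos_K (h : RD r r1 r2) (hv : v ∈ Ioo (0:ℝ) 1) {c : ℝ} (hc : 0 ≤ CL c r r1 γ γ1 v) :
    K r v ^ 2 - K r v * G1 r r1 γ γ1 v ≤ 2 * c * (v * (1 - v) ^ 2) := by
  have hK := K_pos h hv
  have hs := K_sq h ⟨hv.1.le, hv.2.le⟩
  have hw : 0 < v * (1 - v) := mul_pos hv.1 (sub_pos.2 hv.2)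
  have e : K r v * G1 r r1 γ γ1 v =
      -(((1 - 2 * v) * γ v + v * (1 - v) * γ1 v) * Q r v + v * (1 - v) * γ v * (Q1 r r1 v / 2)) := by
    unfold G1 K1
    rw [← hs]
    field_simp
  rw [e, hs]
  have := mul_nonneg hw.le hc
  unfold CL at this
  unfold Q Q1
  nlinarith

/-- **pointwise closure inequality** for all slopes between `0` and the barrier -/
theorem clos_le (h : RD r r1 r2) (hv : v ∈ Ioo (0:ℝ) 1) {c : ℝ} (hc0 : 0 ≤ c)
    (hc : 0 ≤ CL c r r1 γ γ1 v) {I : ℝ} (hI0 : 0 ≤ I) (hI : I ≤ K r v) :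
    I ^ 2 - I * G1 r r1 γ γ1 v ≤ 2 * c * (v * (1 - v) ^ 2) := by
  have hK := K_pos h hv
  have h1 := clos_K h hv hc
  have h2 : 0 ≤ 2 * c * (v * (1 - v) ^ 2) :=
    mul_nonneg (by positivity) (mul_nonneg hv.1.le (sq_nonneg _))
  -- convexity: `I² - I g ≤ (I/K) (K² - K g)`
  have h3 : I ^ 2 - I * G1 r r1 γ γ1 v ≤ I / K r v * (K r v ^ 2 - K r v * G1 r r1 γ γ1 v) := by
    have e : I / K r v * (K r v ^ 2 - K r v * G1 r r1 γ γ1 v) = I * (K r v - G1 r r1 γ γ1 v) := by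
      field_simp
    rw [e]
    nlinarith [mul_nonneg hI0 (sub_nonneg.2 hI)]
  have h4 : 0 ≤ I / K r v := div_nonneg hI0 hK.le
  have h5 : I / K r v ≤ 1 := (div_le_one hK).2 hI
  calc _ ≤ _ := h3
    _ ≤ I / K r v * (2 * c * (v * (1 - v) ^ 2)) := mul_le_mul_of_nonneg_left h1 h4
    _ ≤ 1 * (2 * c * (v * (1 - v) ^ 2)) := mul_le_mul_of_nonneg_right h5 h2
    _ = _ := one_mul _

/-- size of `G` at the two ends: `|G| ≤ C v^{3/2}`, `|G| ≤ C (1-v)^{3/2}` in the form without powers -/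
theorem abs_G_le {Cr Cg : ℝ} (hr : ∀ v ∈ Icc (0:ℝ) 1, r v ≤ Cr)
    (hg : ∀ v ∈ Icc (0:ℝ) 1, |γ v| ≤ Cg) (hv : v ∈ Icc (0:ℝ) 1) :
    |G r γ v| ≤ Cg * Real.sqrt Cr * (v * (1 - v) * Real.sqrt (v * (1 - v))) := by
  have hw : 0 ≤ v * (1 - v) := mul_nonneg hv.1 (sub_nonneg.2 hv.2)
  have hK : K r v ≤ Real.sqrt (v * (1 - v)) * Real.sqrt Cr := by
    rw [← Real.sqrt_mul hw]
    exact Real.sqrt_le_sqrt (mul_le_mul_of_nonneg_left (hr v hv) hw)
  have hg' := hg v hv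
  unfold G
  rw [abs_neg, abs_mul, abs_mul, abs_of_nonneg hw, abs_of_nonneg (K_nonneg v)]
  have h0 : 0 ≤ |γ v| := abs_nonneg _
  calc v * (1 - v) * |γ v| * K r v ≤ v * (1 - v) * Cg * (Real.sqrt (v * (1 - v)) * Real.sqrt Cr) :=
        mul_le_mul (mul_le_mul_of_nonneg_left hg' hw) hK (K_nonneg v)
          (mul_nonneg hw (h0.trans hg'))
    _ = _ := by ring

end Crest.Agent.R146.WinQ_454
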