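import Crest.Agent.R146.WinCert_746
import Crest.Agent.R146.WinDef_937
import Crest.Agent.R146.WinQ_454
import Crest.Agent.R146.WinT1_937

/-!
Row 146, PT-CMP (helper746): `UpCert` of helper937 gives `CertEx` of `WinCert_746`.
-/

set_option autoImplicit false

namespace Crest.Agent.R146.WinData_746

open Set Filter Topology
open Crest.Agent.R146.MaxP_371 Crest.Agent.R146.MaxP2_371 Crest.Agent.R146.SlopeT_371
open Crest.Agent.R146.SlopeV_371
open Crest.Agent.R146.StepStart_483
open Crest.Agent.R146.WinCert_746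

/-- the Gaussian profile is below every barrier with `K K'' ≤ -1`, left second derivative -/
theorem gauss_le_left {K K1 K2 : ℝ → ℝ} (hK0 : ∀ v ∈ Ioo (0:ℝ) 1, 0 < K v)
    (hK : ∀ v ∈ Ioo (0:ℝ) 1, HasDerivAt K (K1 v) v)
    (hK1 : ∀ v ∈ Ioo (0:ℝ) 1, HasDerivWithinAt K1 (K2 v) (Iic v) v)
    (hKK : ∀ v ∈ Ioo (0:ℝ) 1, K v * K2 v ≤ -1) (z : ℝ) : ph z ≤ K (Phi z) := by
  by_contra hcon
  push Not at hcon
  have hPI : ∀ z, Phi z ∈ Ioo (0:ℝ) 1 := fun z => ⟨Phi_pos z, Phi_lt_one z⟩
  set F : ℝ → ℝ := fun z => ph z - K (Phi z) with hF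
  have hpos : 0 < F z := sub_pos.2 hcon
  have hd : ∀ y, HasDerivAt F (-y * ph y - K1 (Phi y) * ph y) y := fun y =>
    (ph_deriv y).sub ((hK _ (hPI y)).comp y (Phi_deriv y))
  have hc : Continuous F := continuous_iff_continuousAt.2 fun y => (hd y).continuousAt
  obtain ⟨a, ha⟩ := (eventually_atBot.1 (ph_tendsto_atBot.eventually (gt_mem_nhds hpos)))
  obtain ⟨b, hb⟩ := (eventually_atTop.1
    (WinQ_454.ph_tendsto_atTop.eventually (gt_mem_nhds hpos)))
  have hout : ∀ y, (y ≤ a ∨ b ≤ y) → F y < F z := by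
    intro y hy
    have h1 : F y ≤ ph y := by
      have := (hK0 _ (hPI y)).le
      simp only [hF]; linarith
    rcases hy with hy | hy
    · exact h1.trans_lt (ha y hy)
    · exact h1.trans_lt (hb y hy)
  have hza : a < z := by
    by_contra hh; exact lt_irrefl _ (hout z (Or.inl (not_lt.1 hh)))
  have hzb : z < b := by
    by_contra hh; exact lt_irrefl _ (hout z (Or.inr (not_lt.1 hh)))
  obtain ⟨z0, hz0, hmax⟩ := isCompact_Icc.exists_isMaxOn (nonempty_Icc.2 (hza.trans hzb).le)
    (hc.continuousOn (s := Icc a b))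
  have hglob : ∀ y, F y ≤ F z0 := by
    intro y
    by_cases hy : y ∈ Icc a b
    · exact hmax hy
    · have h1 : y ≤ a ∨ b ≤ y := by
        by_contra hh
        push Not at hh
        exact hy ⟨hh.1.le, hh.2.le⟩
      exact (hout y h1).le.trans (hmax ⟨hza.le, hzb.le⟩)
  have hloc : IsLocalMax F z0 := Eventually.of_forall hglob
  have hmap : MapsTo Phi (Iic z0) (Iic (Phi z0)) := fun y hy => by
    have hm : Monotone Phi := monotone_of_deriv_nonneg
      (fun y => (Phi_deriv y).differentiableAt) fun y => by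
        rw [(Phi_deriv y).deriv]; exact (ph_pos y).le
    exact hm hy
  have h2 : HasDerivWithinAt (fun y => -y * ph y - K1 (Phi y) * ph y)
      ((-1 * ph z0 + -z0 * (-z0 * ph z0)) -
        ((K2 (Phi z0) * ph z0) * ph z0 + K1 (Phi z0) * (-z0 * ph z0))) (Iic z0) z0 := by
    have a1 : HasDerivWithinAt (fun y : ℝ => -y) (-1) (Iic z0) z0 :=
      (hasDerivAt_id z0).neg.hasDerivWithinAt
    have a2 : HasDerivWithinAt (fun y => K1 (Phi y)) (K2 (Phi z0) * ph z0) (Iic z0) z0 :=
      (hK1 _ (hPI z0)).comp z0 (Phi_deriv z0).hasDerivWithinAt hmap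
    exact (a1.mul (ph_deriv z0).hasDerivWithinAt).sub (a2.mul (ph_deriv z0).hasDerivWithinAt)
  obtain ⟨e1, e2⟩ := (show HasSide _ _ z0 from Or.inr h2).nonpos (Eventually.of_forall hd) hloc
  have hp := ph_pos z0
  have hF0 : 0 < F z0 := hpos.trans_le (hglob z)
  have hlt : K (Phi z0) < ph z0 := sub_pos.1 hF0
  have hkk := hKK _ (hPI z0)
  have hk0 := hK0 _ (hPI z0)
  have e3 : z0 + K1 (Phi z0) = 0 := by
    have : -(ph z0) * (z0 + K1 (Phi z0)) = 0 := by linarith
    rcases mul_eq_zero.1 this with h | h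
    · linarith
    · exact h
  have e4 : K2 (Phi z0) < 0 := by
    by_contra hh
    have := mul_nonneg hk0.le (not_lt.1 hh)
    linarith
  have e5 : ph z0 * K2 (Phi z0) < -1 := by
    have := mul_lt_mul_of_neg_right hlt e4
    linarith
  have e6 : (-1 * ph z0 + -z0 * (-z0 * ph z0)) -
      ((K2 (Phi z0) * ph z0) * ph z0 + K1 (Phi z0) * (-z0 * ph z0)) =
      ph z0 * (z0 * (z0 + K1 (Phi z0))) - ph z0 * (1 + ph z0 * K2 (Phi z0)) := by ring
  rw [e6, e3] at e2
  have := mul_pos hp (show 0 < -(1 + ph z0 * K2 (Phi z0)) by linarith)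
  nlinarith

open WinDef_937 in
/-- **`UpCert` gives `CertEx`.** -/
theorem of_up {ω hi up : ℝ} (hhi : 0 ≤ hi) (c : UpCert ω 0 hi up) :
    ∃ h : ℝ, 0 ≤ h ∧ h < up ∧ CertEx ω hi h := by
  have hI : ∀ v ∈ Ioo (0:ℝ) 1, v ∈ Icc (0:ℝ) 1 := fun v hv => ⟨hv.1.le, hv.2.le⟩
  have hCG : 0 ≤ c.CG := by
    have h1 := c.G1_abs 1 ⟨zero_le_one, le_rfl⟩
    have h2 := abs_nonneg (c.G1 1)
    linarith
  refine ⟨c.c, c.c_nonneg, c.c_lt, c.K, c.K1, c.K2, c.G, c.G1, ∅, 0, c.CK, c.CG, 1, ?_⟩
  have hKK1 : ∀ v ∈ Ioo (0:ℝ) 1, c.K v * c.K2 v ≤ -1 := by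
    intro v hv
    have h1 := c.stat0 0 ⟨le_rfl, hhi⟩ v hv
    have hK := c.K_pos v hv
    unfold Stat at h1
    simp only [mul_zero, add_zero, one_mul, zero_mul] at h1
    have h2 : c.K v * (1 + c.K v * c.K2 v) ≤ 0 := by nlinarith
    have h3 : 1 + c.K v * c.K2 v ≤ 0 := by
      by_contra hh
      have := mul_pos hK (not_le.1 hh)
      linarith
    linarith
  exact
  { band :=
      { cont := c.contIoo
        pos := c.K_pos
        touch := fun v hv => TouchAbove.of_deriv
          (by filter_upwards [isOpen_Ioo.mem_nhds hv] with y hy using c.dK y hy) (c.side v hv)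
        hκ := le_rfl
        conc := fun v hv => by have := hKK1 v hv; linarith
        stat_lo := fun v hv => c.stat0 0 ⟨le_rfl, hhi⟩ v hv
        stat_hi := fun v hv => c.stat0 hi ⟨hhi, le_rfl⟩ v hv }
    bdd := fun v hv => by
      have h1 := c.K_le v (hI v hv)
      have h2 : Real.sqrt v ≤ 1 := by
        rw [show (1:ℝ) = Real.sqrt 1 by simp]
        exact Real.sqrt_le_sqrt hv.2.le
      have := mul_le_mul_of_nonneg_left h2 c.CK_pos.le
      linarith
    start := gauss_le_left c.K_pos c.dK c.dK1 hKK1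
    gd :=
      { cnt := countable_empty
        cont := fun v hv => (c.dG v (hI v hv)).continuousAt.continuousWithinAt
        dG := fun v hv _ => c.dG v (hI v hv)
        bd := ⟨c.CG, fun v hv => by
          have h1 := c.G_abs v (hI v hv)
          have h2 : v ^ 2 * (1 - v) ≤ 1 := by nlinarith [hv.1, hv.2, sq_nonneg v]
          have := mul_le_mul_of_nonneg_left h2 hCG
          linarith⟩
        bd' := ⟨c.CG, fun v hv => by
          have h1 := c.G1_abs v (hI v hv)
          have := mul_le_mul_of_nonneg_left hv.2.le hCG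
          linarith⟩ }
    neg := fun v hv => (c.G_neg v hv).le
    he := one_pos
    hC := hCG
    left := fun v hv => by
      have h1 := c.G_abs v ⟨hv.1.le, by linarith [hv.2]⟩
      refine h1.trans (mul_le_mul_of_nonneg_left ?_ hCG)
      have h2 : v ≤ Real.sqrt v := by
        apply Real.le_sqrt_of_sq_le
        nlinarith [hv.1, hv.2]
      have h3 : v ^ 2 * (1 - v) ≤ v * v := by
        have := mul_nonneg (sq_nonneg v) hv.1.le
        nlinarith
      exact h3.trans (mul_le_mul_of_nonneg_left h2 hv.1.le)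
    right := fun v hv => by
      have h1 := c.G_abs v ⟨by linarith [hv.1], hv.2.le⟩
      rw [Real.rpow_one]
      refine h1.trans (mul_le_mul_of_nonneg_left ?_ hCG)
      have h2 : v ^ 2 ≤ 1 := by nlinarith [hv.1, hv.2]
      have := mul_le_mul_of_nonneg_right h2 (show 0 ≤ 1 - v by linarith [hv.2])
      linarith
    clo := fun v hv _ => by
      have h1 := c.clo v (hI v hv)
      have := mul_nonneg c.κ_pos.le hv.1.le
      linarith }

/-- old clock, `[0, 1.01] → < .52` (data of helper937) -/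
theorem cert1 : ∃ h : ℝ, 0 ≤ h ∧ h < 52 / 100 ∧ CertEx 0 (101 / 100) h := by
  obtain ⟨c⟩ := WinT1_937.cert
  exact of_up (by norm_num) c

end Crest.Agent.R146.WinData_746
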