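import Crest.Agent.R146.PP_865
import Crest.Agent.R146.WinQ_454

/-!
# Row 146, helper454: window A (new clock, `Y ∈ [0, 1158/1024]`, closure ratio `≤ 712/1024 < 0.696`)

Piecewise quintic `C²` data on `[0,1]` (10 dyadic pieces) in the format of `PP_865`:
function 0 is `r`, function 1 is `γ`; `K = √(v(1-v) r)`, `G = -v(1-v) γ K` (`WinQ_454`).
-/

set_option autoImplicit false

namespace Crest.Agent.R146.WinA_454

open Set
open Crest.Agent.R146.PP865 Crest.Agent.R146.WinQ_454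

def P : ℕ := 30

def p0 : Pc :=
  ⟨1, 6, [[120574631, 83737449, -13336206, 5929846, -3908089, 1285953],
      [10221856237, -6666696593, 5381900742, -4676437758, 2977633341, -835390289]]⟩

def ps : List Pc := [
  ⟨3, 6, [[254677376, 55867401, -3922700, 493150, -92972, 17569],
      [4831541629, -1125287027, 312650818, -93544662, 31803905, -8037639]]⟩,
  ⟨3, 5, [[395884604, 80673742, -7008680, 941612, -184852, 35894],
      [2969961852, -693450272, 197093128, -60790576, 21980332, -5850864]]⟩,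
  ⟨3, 4, [[591637544, 107376240, -11779216, 1722976, -345000, 71792],
      [1834189016, -419864513, 119797568, -37595178, 13794336, -3702989]]⟩,
  ⟨3, 3, [[838458488, 128930160, -16353136, 3225056, -1709208, -443408],
      [1143053056, -261523604, 67562432, -23675464, 8908256, -1895428]]⟩,
  ⟨5, 3, [[1020860488, 33703724, -42599184, -8507976, -1321000, -363396],
      [787750088, -121883433, 19604864, -2630714, 516800, -43349]]⟩,
  ⟨13, 4, [[937048480, -90480259, -29364240, -4293054, -853320, -168423],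
      [642497292, -37299648, 3558392, 139200, 131756, 33632]]⟩,
  ⟨29, 5, [[714972466, -112334312, -17365980, -2310768, -448902, -86520],
      [596029150, -11263360, 2127484, 512320, 211078, 58128]]⟩,
  ⟨61, 6, [[496570492, -94473015, -9632888, -1197702, -224732, -42395],
      [587329979, 2057281, 3143434, 933318, 221323, 29337]]⟩,
  ⟨63, 6, [[253093200, -162197089, -32330804, -14105942, -8917828, -2852161],
      [624610825, 67603357, 89692478, 116149806, 91330921, 28166389]]⟩]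


/-- `γ`, `r` and derivatives -/
noncomputable def r : ℝ → ℝ := Fn P 0 p0 ps
noncomputable def r1 : ℝ → ℝ := Fn1 P 0 p0 ps
noncomputable def r2 : ℝ → ℝ := Fn2 P 0 p0 ps
noncomputable def γ : ℝ → ℝ := Fn P 1 p0 ps
noncomputable def γ1 : ℝ → ℝ := Fn1 P 1 p0 ps

theorem hsm : smooth 2 p0 ps = true := by decide +kernel

theorem hadj : chain adj p0 ps = true := by decide +kernel

/-! ### the expressions -/

def z : Ex := Ex.var 0
def w : Ex := z * (1 - z)
def q : Ex := w * Ex.var 1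
def q1 : Ex := (1 - 2 * z) * Ex.var 1 + w * Ex.var 2
def q2 : Ex := 2 * ((1 - 2 * z) * Ex.var 2) + w * Ex.var 3 - 2 * Ex.var 1

/-- the case `y = 0`, margin `4κ₀ = 1/64` -/
def e0 : Ex := Ex.cst 1 1 * (q1 * q1) - q * q2 - (2 + Ex.cst 1 6) * q
/-- the case `y = 1158/2^10` -/
def e1 : Ex := Ex.cst 1 1 * (q1 * q1) - q * q2 - Ex.cst 1158 10 * (2 * (w * q1))
  - (2 + Ex.cst 1158 10 * 2 + Ex.cst 1158 10 * (4 * (3 * z - 2)) + Ex.cst 1 6) * q
/-- the closure inequality, `c = 712/2^10` -/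
def e2 : Ex := Ex.cst 712 10 * (2 * (1 - z)) - Ex.var 1
  - Ex.var 4 * (Ex.cst 3 1 * ((1 - 2 * z) * Ex.var 1) + Ex.cst 1 1 * (w * Ex.var 2))
  - w * (Ex.var 5 * Ex.var 1)

theorem h0 : check P 9 e0 p0 ps = true := by decide +kernel
theorem h1 : check P 9 e1 p0 ps = true := by decide +kernel
theorem h2 : check P 9 e2 p0 ps = true := by decide +kernel
theorem h3 : check P 9 (Ex.var 1) p0 ps = true := by decide +kernel
theorem h4 : check P 9 (Ex.var 4) p0 ps = true := by decide +kernel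

theorem lo_eq : p0.lo = 0 := by norm_num [Pc.lo, p0]
theorem hi_eq : hiL p0 ps = 1 := by norm_num [hiL, ps, p0, Pc.hi]

theorem get {e : Ex} (h : check P 9 e p0 ps = true) {v : ℝ} (hv : v ∈ Icc (0:ℝ) 1) :
    0 < e.evR (fun i => val (fun k => Fn P k p0 ps) (fun k => Fn1 P k p0 ps)
      (fun k => Fn2 P k p0 ps) i v) :=
  check_sound hadj h v (by rw [lo_eq]; exact hv.1) (by rw [hi_eq]; exact hv.2)

theorem v0 (v : ℝ) : val (fun k => Fn P k p0 ps) (fun k => Fn1 P k p0 ps)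
    (fun k => Fn2 P k p0 ps) 0 v = v := rfl
theorem v1 (v : ℝ) : val (fun k => Fn P k p0 ps) (fun k => Fn1 P k p0 ps)
    (fun k => Fn2 P k p0 ps) 1 v = r v := rfl
theorem v2 (v : ℝ) : val (fun k => Fn P k p0 ps) (fun k => Fn1 P k p0 ps)
    (fun k => Fn2 P k p0 ps) 2 v = r1 v := rfl
theorem v3 (v : ℝ) : val (fun k => Fn P k p0 ps) (fun k => Fn1 P k p0 ps)
    (fun k => Fn2 P k p0 ps) 3 v = r2 v := rfl
theorem v4 (v : ℝ) : val (fun k => Fn P k p0 ps) (fun k => Fn1 P k p0 ps)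
    (fun k => Fn2 P k p0 ps) 4 v = γ v := rfl
theorem v5 (v : ℝ) : val (fun k => Fn P k p0 ps) (fun k => Fn1 P k p0 ps)
    (fun k => Fn2 P k p0 ps) 5 v = γ1 v := rfl

theorem rd : RD r r1 r2 where
  d1 v := (smooth_sound hsm (k := 0) (by norm_num) P v).1
  d2 v := (smooth_sound hsm (k := 0) (by norm_num) P v).2
  pos v hv := by
    have h := get h3 hv
    simpa only [Ex.evR_var, v1] using h

theorem γ_deriv (v : ℝ) : HasDerivAt γ (γ1 v) v :=
  (smooth_sound hsm (k := 1) (by norm_num) P v).1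

theorem γ_pos {v : ℝ} (hv : v ∈ Icc (0:ℝ) 1) : 0 < γ v := by
  have h := get h4 hv
  simpa only [Ex.evR_var, v4] using h

/-- the supersolution inequality at `y = 0` -/
theorem ee0 {v : ℝ} (hv : v ∈ Icc (0:ℝ) 1) :
    EE 1 0 r r1 r2 v ≤ -(4 * (1 / 256) * Q r v) := by
  have h := get h0 hv
  simp only [e0, q, q1, q2, w, z, Ex.evR_add, Ex.evR_sub, Ex.evR_mul, Ex.evR_var, Ex.evR_cst,
    evR_one, evR_two, v0, v1, v2, v3] at h
  unfold EE Q2 Q1 Q
  push_cast at h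
  nlinarith [h]

/-- the supersolution inequality at the upper end -/
theorem ee1 {v : ℝ} (hv : v ∈ Icc (0:ℝ) 1) :
    EE 1 (1158 / 2 ^ 10) r r1 r2 v ≤ -(4 * (1 / 256) * Q r v) := by
  have h := get h1 hv
  simp only [e1, q, q1, q2, w, z, Ex.evR_add, Ex.evR_sub, Ex.evR_mul, Ex.evR_var, Ex.evR_cst,
    evR_one, evR_two, evR_three, evR_four, v0, v1, v2, v3] at h
  unfold EE Q2 Q1 Q
  push_cast at h
  nlinarith [h]

/-- the closure inequality -/
theorem cl {v : ℝ} (hv : v ∈ Icc (0:ℝ) 1) : 0 < CL (712 / 2 ^ 10) r r1 γ γ1 v := by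
  have h := get h2 hv
  simp only [e2, w, z, Ex.evR_add, Ex.evR_sub, Ex.evR_mul, Ex.evR_var, Ex.evR_cst,
    evR_one, evR_two, v0, v1, v2, v4, v5] at h
  unfold CL
  push_cast at h
  nlinarith [h]

/-! ### final form -/

theorem K_c : ContinuousOn (K r) (Ioo 0 1) := (continuous_K rd).continuousOn

theorem kpos : ∀ v ∈ Ioo (0:ℝ) 1, 0 < K r v := fun _ hv => K_pos rd hv

theorem kder : ∀ v ∈ Ioo (0:ℝ) 1, HasDerivAt (K r) (K1 r r1 v) v := fun _ hv => hasDerivAt_K rd hv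

theorem kder2 : ∀ v ∈ Ioo (0:ℝ) 1, HasDerivAt (K1 r r1) (K2 r r1 r2 v) v :=
  fun _ hv => hasDerivAt_K1 rd hv

theorem kk : ∀ v ∈ Ioo (0:ℝ) 1, K r v * K2 r r1 r2 v ≤ -1 := fun v hv =>
  KK2_le (ω := 1) rd hv ((ee0 ⟨hv.1.le, hv.2.le⟩).trans
    (by have := Q_pos rd hv; linarith))

/-- margin `κ₀ = 1/256` for all `y ∈ [0, 1.13]` -/
theorem stat {y : ℝ} (hy : y ∈ Icc (0:ℝ) 1.13) {v : ℝ} (hv : v ∈ Ioo (0:ℝ) 1) :
    SlopeT_371.Stat 1 y v (K r v) (K1 r r1 v) (K2 r r1 r2 v) ≤ -(1 / 256 * K r v) :=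
  stat_le rd hv (hi := 1158 / 2 ^ 10) (by norm_num) (ee0 ⟨hv.1.le, hv.2.le⟩)
    (ee1 ⟨hv.1.le, hv.2.le⟩) ⟨hy.1, hy.2.trans (by norm_num)⟩

theorem stat0 {y : ℝ} (hy : y ∈ Icc (0:ℝ) 1.13) {v : ℝ} (hv : v ∈ Ioo (0:ℝ) 1) :
    SlopeT_371.Stat 1 y v (K r v) (K1 r r1 v) (K2 r r1 r2 v) ≤ 0 :=
  (stat hy hv).trans (by have := K_pos rd hv; linarith)

/-- start: the Gaussian profile is below the barrier -/
theorem start (z : ℝ) : ProbabilityTheory.gaussianPDFReal 0 1 z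
    ≤ K r ((ProbabilityTheory.gaussianReal 0 1).real (Iic z)) :=
  gauss_le (ω := 1) rd (fun v hv => (ee0 ⟨hv.1.le, hv.2.le⟩).trans
    (by have := Q_pos rd hv; linarith)) z

theorem G_c : Continuous (G r γ) :=
  continuous_G rd (continuous_iff_continuousAt.2 fun v => (γ_deriv v).continuousAt)

theorem gder : ∀ v ∈ Ioo (0:ℝ) 1, HasDerivAt (G r γ) (G1 r r1 γ γ1 v) v :=
  fun _ hv => hasDerivAt_G rd (γ_deriv _) hv

theorem G_np {v : ℝ} (hv : v ∈ Icc (0:ℝ) 1) : G r γ v ≤ 0 := G_nonpos (γ_pos hv).le hv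

/-- pointwise closure inequality with `c = 712/2^10` -/
theorem clos {v : ℝ} (hv : v ∈ Ioo (0:ℝ) 1) {I : ℝ} (hI0 : 0 ≤ I) (hI : I ≤ K r v) :
    I ^ 2 - I * G1 r r1 γ γ1 v ≤ 2 * (712 / 2 ^ 10) * (v * (1 - v) ^ 2) :=
  clos_le rd hv (by norm_num) (cl ⟨hv.1.le, hv.2.le⟩).le hI0 hI

/-- `|G| ≤ C (v(1-v))^{3/2}` -/
theorem abs_G : ∃ C : ℝ, 0 ≤ C ∧ ∀ v ∈ Icc (0:ℝ) 1,
    |G r γ v| ≤ C * (v * (1 - v) * Real.sqrt (v * (1 - v))) := by
  have hr : Continuous r := continuous_iff_continuousAt.2 fun v => (rd.d1 v).continuousAt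
  have hg : Continuous γ := continuous_iff_continuousAt.2 fun v => (γ_deriv v).continuousAt
  obtain ⟨Cr, hCr⟩ := isCompact_Icc.exists_bound_of_continuousOn (hr.continuousOn (s := Icc (0:ℝ) 1))
  obtain ⟨Cg, hCg⟩ := isCompact_Icc.exists_bound_of_continuousOn (hg.continuousOn (s := Icc (0:ℝ) 1))
  have h0 : (0:ℝ) ∈ Icc (0:ℝ) 1 := ⟨le_rfl, zero_le_one⟩
  refine ⟨Cg * Real.sqrt Cr, mul_nonneg ((norm_nonneg _).trans (hCg 0 h0)) (Real.sqrt_nonneg _), ?_⟩
  intro v hv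
  exact abs_G_le (fun v hv => (le_abs_self _).trans (hCr v hv)) (fun v hv => hCg v hv) hv

end Crest.Agent.R146.WinA_454
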