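import Crest.Agent.R146.Band_371
import Crest.Agent.R146.Clo_42
import Crest.Agent.R146.Abs_423

/-!
Row 146, PT-CMP (helper746): certificate of an upper window `Y ∈ [0,hi] ⟹ Y ≤ h` (functions of the level
`v ∈ (0,1)` only), and the closure inequality it gives at one fixed time.
-/

set_option autoImplicit false

namespace Crest.Agent.R146.WinCert_746

open Set MeasureTheory Filter Topology ProbabilityTheory
open Crest.Agent.R146.Band_371 (UpBand)
open Crest.Agent.R146.Clo_42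
open Crest.Agent.R146.Abs_423
open Crest.Agent.R146.StepStart_483 (ph Phi)

noncomputable section

/-- **certificate of the window** `[0,hi] → h`; `om = 0` old clock (`χ = 1-t`), `om = 1` new clock.
Band `√χ P ≤ S(V)`, dual function `G ≤ 0` with `S² - S G' ≤ 2h v(1-v)²`. -/
structure Cert (om hi h : ℝ) (S S1 S2 G G' : ℝ → ℝ) (Z : Set ℝ) (κ KM C e : ℝ) : Prop where
  band : UpBand om κ 0 hi S S1 S2
  bdd : ∀ v ∈ Ioo (0 : ℝ) 1, S v ≤ KM
  start : ∀ z, ph z ≤ S (Phi z)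
  gd : GD G G' Z
  neg : ∀ v ∈ Ioo (0 : ℝ) 1, G v ≤ 0
  he : 0 < e
  hC : 0 ≤ C
  left : ∀ v ∈ Ioc (0 : ℝ) (1 / 2), |G v| ≤ C * (v * Real.sqrt v)
  right : ∀ v ∈ Ico (1 / 2 : ℝ) 1, |G v| ≤ C * (1 - v) ^ e
  clo : ∀ v ∈ Ioo (0 : ℝ) 1, v ∉ Z → S v ^ 2 - S v * G' v ≤ 2 * h * (v * (1 - v) ^ 2)

/-- existential form -/
def CertEx (om hi h : ℝ) : Prop :=
  ∃ (S S1 S2 G G' : ℝ → ℝ) (Z : Set ℝ) (κ KM C e : ℝ), Cert om hi h S S1 S2 G G' Z κ KM C e

end

end Crest.Agent.R146.WinCert_746
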