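import Crest.Agent.R146.WinQ_454
import Crest.Agent.R146.WinT1_454
import Crest.Agent.R146.WinA_454
import Crest.Agent.R146.WinCert_746

/-!
# Row 146, helper454: the two upper windows as instances of `WinCert_746.Cert`

* `cert_of`  : generic, from the polynomial inequalities of `WinQ_454`;
* `certT1 : CertEx 0 (1035/1024) (541/1024)` (old clock, `[0,1] → .5283`);
* `certA  : CertEx 1 (1158/1024) (712/1024)` (new clock, `[0,1.13] → .6953`);
* `certT1'`, `certA'` : the same with round numbers and any smaller window.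
-/

set_option autoImplicit false

namespace Crest.Agent.R146.WinInst_454

open Set Filter Topology MeasureTheory ProbabilityTheory
open Crest.Agent.R146.MaxP2_371 Crest.Agent.R146.SlopeT_371 Crest.Agent.R146.SlopeV_371
open Crest.Agent.R146.StepStart_483 Crest.Agent.R146.WinQ_454 Crest.Agent.R146.WinCert_746
open Crest.Agent.R146.Band_371 (UpBand)
open Crest.Agent.R146.Clo_42

variable {r r1 r2 γ γ1 : ℝ → ℝ}

/-- `v(1-v) K'` is `K` times a continuous function -/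
theorem G1_eq (h : RD r r1 r2) {v : ℝ} (hv : v ∈ Ioo (0:ℝ) 1) :
    G1 r r1 γ γ1 v =
      -(K r v * ((1 - 2 * v) * γ v + v * (1 - v) * γ1 v + γ v * (Q1 r r1 v / (2 * r v)))) := by
  have hK := K_pos h hv
  have hr := h.pos v ⟨hv.1.le, hv.2.le⟩
  have hs := K_sq h ⟨hv.1.le, hv.2.le⟩
  unfold G1 K1
  have e : v * (1 - v) * γ v * (Q1 r r1 v / (2 * K r v)) =
      K r v * (γ v * (Q1 r r1 v / (2 * r v))) := by
    unfold Q at hs
    field_simp
    rw [hs]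
    ring
  rw [e]
  ring

theorem bd_G1 (h : RD r r1 r2) (hγ : Continuous γ) (hγ1 : Continuous γ1) :
    ∃ B, ∀ v ∈ Ioo (0:ℝ) 1, |G1 r r1 γ γ1 v| ≤ B := by
  have hr : Continuous r := continuous_iff_continuousAt.2 fun v => (h.d1 v).continuousAt
  have hr1 : Continuous r1 := continuous_iff_continuousAt.2 fun v => (h.d2 v).continuousAt
  have hc : ContinuousOn (fun v => -(K r v * ((1 - 2 * v) * γ v + v * (1 - v) * γ1 v
      + γ v * (Q1 r r1 v / (2 * r v))))) (Icc 0 1) := by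
    refine ((continuous_K h).continuousOn.mul ?_).neg
    refine ContinuousOn.add (by fun_prop) ?_
    refine hγ.continuousOn.mul (ContinuousOn.div ?_ (by fun_prop) ?_)
    · unfold Q1
      fun_prop
    · intro v hv
      have := h.pos v hv
      positivity
  obtain ⟨B, hB⟩ := isCompact_Icc.exists_bound_of_continuousOn hc
  refine ⟨B, fun v hv => ?_⟩
  rw [G1_eq h hv]
  exact hB v ⟨hv.1.le, hv.2.le⟩

theorem bd_G (h : RD r r1 r2) (hγ : Continuous γ) :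
    ∃ C : ℝ, 0 ≤ C ∧ ∀ v ∈ Icc (0:ℝ) 1,
      |G r γ v| ≤ C * (v * (1 - v) * Real.sqrt (v * (1 - v))) := by
  have hr : Continuous r := continuous_iff_continuousAt.2 fun v => (h.d1 v).continuousAt
  obtain ⟨Cr, hCr⟩ := isCompact_Icc.exists_bound_of_continuousOn (hr.continuousOn (s := Icc (0:ℝ) 1))
  obtain ⟨Cg, hCg⟩ := isCompact_Icc.exists_bound_of_continuousOn (hγ.continuousOn (s := Icc (0:ℝ) 1))
  have h0 : (0:ℝ) ∈ Icc (0:ℝ) 1 := ⟨le_rfl, zero_le_one⟩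
  refine ⟨Cg * Real.sqrt Cr, mul_nonneg ((norm_nonneg _).trans (hCg 0 h0)) (Real.sqrt_nonneg _), ?_⟩
  intro v hv
  exact abs_G_le (fun v hv => (le_abs_self _).trans (hCr v hv)) (fun v hv => hCg v hv) hv

/-- **generic instance** -/
theorem cert_of (h : RD r r1 r2) (hγ : ∀ v, HasDerivAt γ (γ1 v) v) (hγ1 : Continuous γ1)
    (hγ0 : ∀ v ∈ Icc (0:ℝ) 1, 0 ≤ γ v) {om hi hi' c c' : ℝ} (hhi : 0 < hi)
    (e0 : ∀ v ∈ Ioo (0:ℝ) 1, EE om 0 r r1 r2 v ≤ 0) (e1 : ∀ v ∈ Ioo (0:ℝ) 1, EE om hi r r1 r2 v ≤ 0)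
    (cl : ∀ v ∈ Ioo (0:ℝ) 1, 0 ≤ CL c r r1 γ γ1 v) (hi0 : 0 ≤ hi') (hle : hi' ≤ hi) (hc : c ≤ c') :
    CertEx om hi' c' := by
  have hγc : Continuous γ := continuous_iff_continuousAt.2 fun v => (hγ v).continuousAt
  have hKc := continuous_K h
  obtain ⟨KM, hKM⟩ := isCompact_Icc.exists_bound_of_continuousOn (hKc.continuousOn (s := Icc (0:ℝ) 1))
  obtain ⟨C, hC0, hC⟩ := bd_G h hγc
  have hGc : Continuous (G r γ) := continuous_G h hγc
  obtain ⟨B, hB⟩ := isCompact_Icc.exists_bound_of_continuousOn (hGc.continuousOn (s := Icc (0:ℝ) 1))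
  have hk := fun v hv => hasDerivAt_K (v := v) h hv
  have hk1 := fun v hv => hasDerivAt_K1 (v := v) h hv
  have hkk : ∀ v ∈ Ioo (0:ℝ) 1, K r v * K2 r r1 r2 v ≤ -1 := fun v hv => KK2_le h hv (e0 v hv)
  refine ⟨K r, K1 r r1, K2 r r1 r2, G r γ, G1 r r1 γ γ1, ∅, 1, KM, C, 3 / 2, ?_⟩
  refine ⟨⟨hKc.continuousOn, fun v hv => K_pos h hv, ?_, zero_le_one, hkk, ?_, ?_⟩, ?_, ?_,
    ⟨countable_empty, hGc.continuousOn, ?_, ?_, bd_G1 h hγc hγ1⟩, ?_, by norm_num, hC0, ?_, ?_, ?_⟩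
  · intro v hv
    exact TouchAbove.of_Ioo hk (fun y hy => HasSide.of_hasDerivAt (hk1 y hy)) hv
  · intro v hv
    exact stat_nonpos h hv hhi (e0 v hv) (e1 v hv) ⟨le_rfl, hhi.le⟩
  · intro v hv
    exact stat_nonpos h hv hhi (e0 v hv) (e1 v hv) ⟨hi0, hle⟩
  · intro v hv
    exact (le_abs_self _).trans (hKM v ⟨hv.1.le, hv.2.le⟩)
  · exact gauss_le_gen (fun _ hv => K_pos h hv) hk hk1 hkk
  · intro v hv _
    exact hasDerivAt_G h (hγ v) hv
  · exact ⟨B, fun v hv => hB v ⟨hv.1.le, hv.2.le⟩⟩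
  · intro v hv
    exact G_nonpos (hγ0 v ⟨hv.1.le, hv.2.le⟩) ⟨hv.1.le, hv.2.le⟩
  · intro v hv
    have hv1 : v ∈ Icc (0:ℝ) 1 := ⟨hv.1.le, by linarith [hv.2]⟩
    refine (hC v hv1).trans (mul_le_mul_of_nonneg_left ?_ hC0)
    have h1 : v * (1 - v) ≤ v := by nlinarith [hv.1]
    exact mul_le_mul h1 (Real.sqrt_le_sqrt h1) (Real.sqrt_nonneg _) hv.1.le
  · intro v hv
    have hv1 : v ∈ Icc (0:ℝ) 1 := ⟨by linarith [hv.1], hv.2.le⟩
    have h0 : 0 ≤ 1 - v := sub_nonneg.2 hv.2.le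
    refine (hC v hv1).trans (mul_le_mul_of_nonneg_left ?_ hC0)
    have h1 : v * (1 - v) ≤ 1 - v := by nlinarith [hv1.1]
    have h2 : (1 - v) ^ (3 / 2 : ℝ) = (1 - v) * Real.sqrt (1 - v) := by
      rw [Real.sqrt_eq_rpow, show (3 / 2 : ℝ) = 1 + 1 / 2 by norm_num,
        Real.rpow_add (sub_pos.2 hv.2), Real.rpow_one]
    rw [h2]
    exact mul_le_mul h1 (Real.sqrt_le_sqrt h1) (Real.sqrt_nonneg _) h0
  · intro v hv _
    refine (clos_K h hv (cl v hv)).trans ?_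
    have h0 : 0 ≤ v * (1 - v) ^ 2 := mul_nonneg hv.1.le (sq_nonneg _)
    nlinarith

/-- old clock, `[0, 1.0107] → .52833` -/
theorem certT1 {hi c : ℝ} (h0 : 0 ≤ hi) (hhi : hi ≤ 1035 / 2 ^ 10) (hc : 541 / 2 ^ 10 ≤ c) :
    CertEx 0 hi c := by
  have hq : ∀ v ∈ Ioo (0:ℝ) 1, 0 < Q WinT1_454.r v := fun v hv => Q_pos WinT1_454.rd hv
  refine cert_of (hi := 1035 / 2 ^ 10) (c := 541 / 2 ^ 10) WinT1_454.rd WinT1_454.γ_deriv
    (continuous_iff_continuousAt.2 fun v =>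
      ((PP865.smooth_sound WinT1_454.hsm (k := 1) (by norm_num) WinT1_454.P v).2).continuousAt)
    (fun v hv => (WinT1_454.γ_pos hv).le) (by norm_num) ?_ ?_ ?_ h0 hhi hc
  · intro v hv
    have := WinT1_454.ee0 ⟨hv.1.le, hv.2.le⟩
    have := hq v hv
    linarith
  · intro v hv
    have := WinT1_454.ee1 ⟨hv.1.le, hv.2.le⟩
    have := hq v hv
    linarith
  · intro v hv
    exact (WinT1_454.cl ⟨hv.1.le, hv.2.le⟩).le

/-- new clock, `[0, 1.1308] → .69532` -/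
theorem certA {hi c : ℝ} (h0 : 0 ≤ hi) (hhi : hi ≤ 1158 / 2 ^ 10) (hc : 712 / 2 ^ 10 ≤ c) :
    CertEx 1 hi c := by
  have hq : ∀ v ∈ Ioo (0:ℝ) 1, 0 < Q WinA_454.r v := fun v hv => Q_pos WinA_454.rd hv
  refine cert_of (hi := 1158 / 2 ^ 10) (c := 712 / 2 ^ 10) WinA_454.rd WinA_454.γ_deriv
    (continuous_iff_continuousAt.2 fun v =>
      ((PP865.smooth_sound WinA_454.hsm (k := 1) (by norm_num) WinA_454.P v).2).continuousAt)
    (fun v hv => (WinA_454.γ_pos hv).le) (by norm_num) ?_ ?_ ?_ h0 hhi hc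
  · intro v hv
    have := WinA_454.ee0 ⟨hv.1.le, hv.2.le⟩
    have := hq v hv
    linarith
  · intro v hv
    have := WinA_454.ee1 ⟨hv.1.le, hv.2.le⟩
    have := hq v hv
    linarith
  · intro v hv
    exact (WinA_454.cl ⟨hv.1.le, hv.2.le⟩).le

/-- `T1`: a window slightly larger than `[0,1]`, target slightly below `.53` -/
theorem certT1' : CertEx 0 (1035 / 2 ^ 10) (541 / 2 ^ 10) := certT1 (by norm_num) le_rfl le_rfl

/-- `A`: a window slightly larger than `[0,1.13]`, target slightly below `.70` -/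
theorem certA' : CertEx 1 (1158 / 2 ^ 10) (712 / 2 ^ 10) := certA (by norm_num) le_rfl le_rfl

end Crest.Agent.R146.WinInst_454
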