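import Crest.Agent.R146.SlopeT_371
import Crest.Agent.R146.WinLim_746

/-!
Row 146, PT-CMP (helper746): upper slope band of the step system from a `C¹` barrier (one-sided second
derivative), window `[0, hi]`, start at `T` with the Gaussian, both clocks. No transient.
-/

set_option autoImplicit false

namespace Crest.Agent.R146.WinBand_746

open Set MeasureTheory Filter Topology ProbabilityTheory
open Crest.Agent.R146.WinLim_746 Crest.Agent.R146.StepDef_791
open Crest.Agent.R146.MaxP_371 Crest.Agent.R146.MaxP2_371 Crest.Agent.R146.MaxPCmp_371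
open Crest.Agent.R146.SlopeT_371

noncomputable section

/-- `1` in the new clock, `0` in the old one -/
def om (ω : Bool) : ℝ := if ω then 1 else 0

/-- clock factor `s = sc^{-1/2}` -/
def sf (ω : Bool) (A : SD) (t : ℝ) : ℝ := (Real.sqrt (sc ω A t))⁻¹

lemma sc_pos {A : SD} (hC : Clock A) (ω : Bool) {t : ℝ} (ht : t < 1) : 0 < sc ω A t :=
  (sub_pos.2 ht).trans_le (sc_ge hC ω ht)

lemma sf_pos {A : SD} (hC : Clock A) (ω : Bool) {t : ℝ} (ht : t < 1) : 0 < sf ω A t :=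
  inv_pos.2 (Real.sqrt_pos.2 (sc_pos hC ω ht))

lemma sf_sq {A : SD} (hC : Clock A) (ω : Bool) {t : ℝ} (ht : t < 1) :
    sf ω A t ^ 2 = (sc ω A t)⁻¹ := by
  unfold sf
  rw [inv_pow, Real.sq_sqrt (sc_pos hC ω ht).le]

lemma sc_deriv {A : SD} (hC : Clock A) (ω : Bool) {t : ℝ} (ht : t ∈ Ico 0 A.T) :
    HasDerivWithinAt (sc ω A) (-(1 + om ω * (A.b t * sc ω A t))) (Ici t) t := by
  cases ω
  · have h1 : sc false A = fun t => 1 - t := by funext t; simp [sc]
    rw [h1]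
    simp only [om, Bool.false_eq_true, if_false, zero_mul, add_zero]
    exact ((hasDerivAt_id t).const_sub 1).hasDerivWithinAt
  · have h1 : sc true A = A.chi := by funext t; simp [sc]
    rw [h1]
    simp only [om, if_true, one_mul]
    refine (hC.chi_t t ht).congr_deriv ?_
    have hD := (A.D_pos t).ne'
    unfold SD.b SD.chi
    field_simp

lemma sf_deriv {A : SD} (hC : Clock A) (ω : Bool) {t : ℝ} (ht : t ∈ Ico 0 A.T) :
    HasDerivWithinAt (sf ω A) ((1 + om ω * (A.b t / sf ω A t ^ 2)) / 2 * sf ω A t ^ 3) (Ici t) t := by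
  have ht1 : t < 1 := ht.2.trans A.hT1
  have hs := sc_pos hC ω ht1
  have h1 := (sc_deriv hC ω ht).sqrt hs.ne'
  have h2 := h1.inv (Real.sqrt_pos.2 hs).ne'
  refine h2.congr_deriv ?_
  rw [sf_sq hC ω ht1]
  have h3 : sf ω A t ^ 3 = (sf ω A t) * (sc ω A t)⁻¹ := by
    rw [pow_succ, sf_sq hC ω ht1]; ring
  rw [h3]
  unfold sf
  rw [Real.sq_sqrt hs.le]
  have h4 : 0 < Real.sqrt (sc ω A t) := Real.sqrt_pos.2 hs
  field_simp

/-- **Upper slope band** (`C¹` barrier). -/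
theorem band_up {A : SD} (hB : Back A) (hC : Clock A) (ω : Bool) {hi κ : ℝ}
    {K K' K'' : ℝ → ℝ} (hKc : ContinuousOn K (Ioo 0 1)) (hK0 : ∀ v ∈ Ioo (0:ℝ) 1, 0 < K v)
    (hK : ∀ v ∈ Ioo (0:ℝ) 1, HasDerivAt K (K' v) v)
    (hK' : ∀ v ∈ Ioo (0:ℝ) 1, HasSide K' (K'' v) v) (hκ : 0 ≤ κ)
    (hKK : ∀ v ∈ Ioo (0:ℝ) 1, K v * K'' v ≤ -κ)
    (hineq : ∀ y ∈ Icc (0:ℝ) hi, ∀ v ∈ Ioo (0:ℝ) 1, Stat (om ω) y v (K v) (K' v) (K'' v) ≤ 0)
    (hg : ∀ z : ℝ, gaussianPDFReal 0 1 z ≤ K ((gaussianReal 0 1).real (Iic z)))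
    {t0 : ℝ} (h0 : 0 ≤ t0) (hY : ∀ t ∈ Ico t0 A.T, A.b t * sc ω A t ≤ hi) :
    ∀ t ∈ Icc t0 A.T, ∀ x, Real.sqrt (sc ω A t) * A.P t x ≤ K (A.V t x) := by
  intro t ht x
  have hT1 := A.hT1
  rcases lt_or_ge A.T t0 with hlt | hle
  · exact absurd (ht.1.trans ht.2) (not_le.2 hlt)
  obtain ⟨M, hM⟩ := hB.bsys
  -- restriction of the backward system to [t0, T]
  have hsub : Icc t0 A.T ⊆ Icc 0 A.T := Icc_subset_Icc_left h0
  have hsub' : Ico t0 A.T ⊆ Ico 0 A.T := Ico_subset_Ico_left h0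
  have hM' : BSys t0 A.T A.b A.u A.V A.P A.Px A.Pxx M :=
    { hux := fun t ht => hM.hux t (hsub' ht), hVx := fun t ht => hM.hVx t (hsub' ht),
      hPx := fun t ht => hM.hPx t (hsub' ht), hPxx := fun t ht => hM.hPxx t (hsub' ht),
      hut := fun t ht => hM.hut t (hsub' ht), hVt := fun t ht => hM.hVt t (hsub' ht),
      hPt := fun t ht => hM.hPt t (hsub' ht),
      cu := hM.cu.mono (prod_mono hsub le_rfl), cV := hM.cV.mono (prod_mono hsub le_rfl),
      cP := hM.cP.mono (prod_mono hsub le_rfl),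
      b_nonneg := fun t ht => hM.b_nonneg t (hsub ht), b_le := fun t ht => hM.b_le t (hsub ht),
      V_pos := fun t ht => hM.V_pos t (hsub ht), V_lt := fun t ht => hM.V_lt t (hsub ht),
      u_nonneg := fun t ht => hM.u_nonneg t (hsub ht), u_le := fun t ht => hM.u_le t (hsub ht),
      P_nonneg := fun t ht => hM.P_nonneg t (hsub ht), P_le := fun t ht => hM.P_le t (hsub ht) }
  have key := slope_trans_le hM' (s := sf ω A) (e := fun _ => 0) (ω := om ω) (κ := κ)
    (fun t ht => sf_deriv hC ω (hsub' ht))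
    (((Real.continuous_sqrt.comp (sc_cont hC ω)).continuousOn).inv₀
      fun t ht => (Real.sqrt_pos.2 (sc_pos hC ω (ht.2.trans_lt hT1))).ne')
    (fun t ht => sf_pos hC ω (ht.2.trans_lt hT1))
    (fun t _ => by simpa using hasDerivWithinAt_const t (Ici t) (0:ℝ))
    continuousOn_const (fun _ _ => le_rfl) hKc hK0 hK hK' hκ hKK ?_ ?_ t ht x
  · have hs := Real.sqrt_pos.2 (sc_pos hC ω (ht.2.trans_lt hT1))
    have h1 : Real.sqrt (sc ω A t) * A.P t x ≤
        Real.sqrt (sc ω A t) * ((1 + 0) * sf ω A t * K (A.V t x)) :=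
      mul_le_mul_of_nonneg_left key hs.le
    have h2 : Real.sqrt (sc ω A t) * ((1 + 0) * sf ω A t * K (A.V t x)) = K (A.V t x) := by
      unfold sf; field_simp; ring
    linarith
  · intro t ht v hv
    have ht1 : t < 1 := ht.2.trans hT1
    have h1 : A.b t / sf ω A t ^ 2 = A.b t * sc ω A t := by
      rw [sf_sq hC ω ht1]; field_simp
    rw [h1]
    exact hineq _ ⟨mul_nonneg (A.b_nonneg t) (sc_pos hC ω ht1).le, hY t ht⟩ v hv
  · intro x
    -- start: both scales equal `1 - T` at `T`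
    have h1 : sc ω A A.T = A.dl := by
      cases ω
      · simp [sc, SD.dl]
      · simp only [sc, if_true]; exact hC.chi_T
    have hdl := A.dl_pos
    have hsd : 0 < Real.sqrt A.dl := Real.sqrt_pos.2 hdl
    rw [hB.P_T x, hB.V_T x]
    simp only [add_zero, one_mul]
    unfold sf
    rw [h1, div_eq_mul_inv, mul_comm]
    exact mul_le_mul_of_nonneg_left (hg _) (inv_pos.2 hsd).le

end

end Crest.Agent.R146.WinBand_746
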