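import Crest.Agent.R146.WinCert_746
import Crest.Agent.R146.FixA_423
import Crest.Agent.R146.WinBand_746

/-!
Row 146, PT-CMP (helper746): closure inequality of a certificate at the step level, both clocks.
-/

set_option autoImplicit false

namespace Crest.Agent.R146.WinStep_746

open Set MeasureTheory Filter Topology ProbabilityTheory
open Crest.Agent.R146.Clo_42
open Crest.Agent.R146.Abs_423
open Crest.Agent.R146.WinCert_746
open Crest.Agent.R146.WinLim_746 Crest.Agent.R146.StepDef_791

noncomputable section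

variable {om hi h : ℝ} {S S1 S2 G G' : ℝ → ℝ} {Z : Set ℝ} {κ KM C e : ℝ}

/-- closure inequality at one fixed time -/
theorem one {V P u p Y : ℝ → ℝ} (hc : Cert om hi h S S1 S2 G G' Z κ KM C e) (hh : 0 ≤ h)
    (hL : Lw V P p Y) {σ sv : ℝ} (hF : Fix sv V P u) (hσ : 0 < σ) (hs : σ * sv = 1)
    (hband : ∀ x, σ * P x ≤ S (V x)) {lam : ℝ} (hl0 : 0 ≤ lam) (hl : 72 * lam ≤ e)
    (hlaw : ∀ x, -(lam * sv * (1 + sv * max (-x) 0)) ≤ Y x) :
    σ ^ 2 * ∫ x, p x * P x ^ 2 ≤
      (2 * h + lam * (15 * C * Fix.KA KM e)) * ∫ x, p x * (V x * (1 - V x) ^ 2) := by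
  have hsv := hF.s_pos
  have hC := hc.hC
  have he := hc.he
  have memV : ∀ x, V x ∈ Ioo (0:ℝ) 1 := fun x => ⟨hL.V_pos x, hL.V_lt x⟩
  have hKM : 0 ≤ KM := by
    have h1 := hc.bdd (1/2) ⟨by norm_num, by norm_num⟩
    have h2 := hc.band.pos (1/2) ⟨by norm_num, by norm_num⟩
    linarith
  have hP : ∀ x, P x ≤ KM * sv := fun x => by
    have h1 := (hband x).trans (hc.bdd _ (memV x))
    have h2 : P x = sv * (σ * P x) := by
      rw [← mul_assoc, mul_comm sv σ, hs, one_mul]
    rw [h2, mul_comm KM]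
    exact mul_le_mul_of_nonneg_left h1 hsv.le
  have cV : Continuous V := V_cont hL
  have cG : Continuous (fun x => G (V x)) := hc.gd.cont.comp_continuous cV memV
  set w : ℝ → ℝ := fun x => 1 + sv * max (-x) 0 with hw
  have hw0 : ∀ x, 1 ≤ w x := fun x => by
    have := mul_nonneg hsv.le (le_max_right (-x) 0)
    simp only [hw]; linarith
  have cw : Continuous w := by
    simp only [hw]; fun_prop
  obtain ⟨B, hB⟩ := hc.gd.bd
  have i2 : Integrable (fun x => p x * (w x * |G (V x)|)) := by
    refine int_of hL (cw.mul cG.abs).aestronglyMeasurable (M := (1 + sv) * B) (n := 1)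
      fun x => ?_
    rw [abs_mul, abs_abs, pow_one]
    have h1 : |w x| ≤ (1 + sv) * (1 + |x|) := by
      rw [abs_of_pos (by linarith [hw0 x])]
      have h2 : max (-x) 0 ≤ |x| := max_le (neg_le_abs x) (abs_nonneg x)
      have h3 := mul_le_mul_of_nonneg_left h2 hsv.le
      simp only [hw]
      nlinarith [abs_nonneg x]
    calc |w x| * |G (V x)| ≤ ((1 + sv) * (1 + |x|)) * B :=
          mul_le_mul h1 (hB _ (memV x)) (abs_nonneg _) ((abs_nonneg _).trans h1)
      _ = (1 + sv) * B * (1 + |x|) := by ring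
  -- the closure inequality with error
  have key := up hL hc.gd hc.neg (s := σ) (hh := h) (ε := 0) (lam := lam) (S := S)
    (F := fun v => S v ^ 2 + |S v * G' v|) (ℓ := fun _ => 0) (w := w) hσ hh le_rfl zero_le_one
    (fun x => (hc.band.pos _ (memV x)).le) (fun x => by simp)
    (fun x => by rw [add_zero, one_mul]; exact hband x)
    (fun x => by
      have h1 := mul_le_mul_of_nonneg_left (hlaw x) hσ.le
      have h2 : σ * -(lam * sv * (1 + sv * max (-x) 0)) = -(lam * w x) := by
        simp only [hw]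
        have : σ * -(lam * sv * (1 + sv * max (-x) 0)) =
          -(lam * (σ * sv) * (1 + sv * max (-x) 0)) := by ring
        rw [this, hs]; ring
      rw [h2] at h1
      linarith)
    (fun x hx => by
      have := hc.clo _ (memV x) hx
      rw [zero_mul, add_zero]; exact this)
    (fun x _ => le_rfl) ?_ i2
  · have hI := (hL.mom 0)
    simp only [pow_zero, mul_one] at hI
    have ha := Fix.absorb hF hKM hP he (C := 15 * C) (by positivity) hl0 hl hL.p_pos hL.p_x hlaw hI i2
      (fun x hx => by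
        have h1 := hF.left_decay hx
        have h2 := hc.left (V x) ⟨hL.V_pos x, hx⟩
        have h3 : w x * |G (V x)| ≤ w x * (C * (V x * Real.sqrt (V x))) :=
          mul_le_mul_of_nonneg_left h2 (by linarith [hw0 x])
        have h4 : w x * (C * (V x * Real.sqrt (V x))) =
          C * V x * (w x * Real.sqrt (V x)) := by ring
        have h5 : C * V x * (w x * Real.sqrt (V x)) ≤ C * V x * 15 :=
          mul_le_mul_of_nonneg_left h1 (mul_nonneg hC (hL.V_pos x).le)
        linarith)
      (fun x hx => by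
        have h1 := hF.pos_lo (x := x) (by linarith)
        have h2 := hc.right (V x) ⟨hx, hL.V_lt x⟩
        have h6 : w x ≤ 9 := by
          have h7 : sv * max (-x) 0 ≤ 8 := by
            rcases le_total (-x) 0 with h8 | h8
            · rw [max_eq_right h8]; norm_num
            · rw [max_eq_left h8]; linarith
          simp only [hw]; linarith
        have h0 : 0 ≤ (1 - V x) ^ e := Real.rpow_nonneg (by linarith [hL.V_lt x]) _
        have h3 : w x * |G (V x)| ≤ 9 * (C * (1 - V x) ^ e) :=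
          mul_le_mul h6 h2 (abs_nonneg _) (by norm_num)
        have h9 : 0 ≤ sv * max x 0 := mul_nonneg hsv.le (le_max_right _ _)
        have h10 : 0 ≤ C * (1 - V x) ^ e := mul_nonneg hC h0
        nlinarith [mul_nonneg h9 h10])
    have h3 := mul_le_mul_of_nonneg_left ha hl0
    simp only [mul_zero, zero_mul, add_zero] at key
    have h4 : (2 * h + lam * (15 * C * Fix.KA KM e)) * ∫ x, p x * (V x * (1 - V x) ^ 2) =
      2 * h * (∫ x, p x * (V x * (1 - V x) ^ 2)) +
        lam * (15 * C * Fix.KA KM e * ∫ x, p x * (V x * (1 - V x) ^ 2)) := by ring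
    rw [h4]
    linarith
  · -- integrability of F
    obtain ⟨B', hB'⟩ := hc.gd.bd'
    have cS : Continuous (fun x => S (V x)) := hc.band.cont.comp_continuous cV memV
    have hZ : (V ⁻¹' Z).Countable := preZ hL hc.gd.cnt
    have htf := hc.gd.tf hL
    -- measurability of G' ∘ V
    have mG : AEStronglyMeasurable (fun x => G' (V x)) volume := by
      have h1 : AEStronglyMeasurable (fun x => (P x)⁻¹ * (P x * G' (V x))) volume :=
        ((hL.P_cont.inv₀ fun x => (hL.P_pos x).ne').aestronglyMeasurable).mul htf.meas'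
      refine h1.congr (Eventually.of_forall fun x => ?_)
      simp only
      rw [← mul_assoc, inv_mul_cancel₀ (hL.P_pos x).ne', one_mul]
    refine int_bdd hL (g := fun x => S (V x) ^ 2 + |S (V x) * G' (V x)|)
      ((cS.pow 2).aestronglyMeasurable.add (cS.aestronglyMeasurable.mul mG).norm)
      (M := KM ^ 2 + KM * B') fun x => ?_
    have h0 := (hc.band.pos _ (memV x)).le
    have h1 := hc.bdd _ (memV x)
    have h2 := hB' _ (memV x)
    rw [abs_of_nonneg (by positivity), abs_mul, abs_of_nonneg h0]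
    have h3 := pow_le_pow_left₀ h0 h1 2
    have h4 := mul_le_mul h1 h2 (abs_nonneg _) hKM
    linarith

open Crest.Agent.R146.Band_371 (Clk clk0 clk1 poor_up sqrt_le_iff)

/-- the clock as a `Clk` of `Band_371` -/
theorem clk {A : SD} (hC : Clock A) (ω : Bool) :
    ∃ k : ℝ → ℝ, Clk A (WinBand_746.om ω) (sc ω A) k := by
  cases ω
  · have h1 : sc false A = fun t => 1 - t := by funext t; simp [sc]
    rw [h1]
    exact ⟨_, by simpa [WinBand_746.om] using clk0 A⟩
  · have h1 : sc true A = A.chi := by funext t; simp [sc]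
    rw [h1]
    exact ⟨_, by simpa [WinBand_746.om] using clk1 hC⟩

/-- **closure inequality of a certificate at the step level** -/
theorem step {A : SD} {x0 : ℝ} {p Y Yx Yxx : ℝ → ℝ → ℝ} (ω : Bool)
    (hc : Cert (WinBand_746.om ω) hi h S S1 S2 G G' Z κ KM C e) (hh : 0 ≤ h)
    (hB : Back A) (hC : Clock A) (hL : Law A x0 p Y Yx Yxx)
    (hν : ω = false → ∀ t ∈ Ico 0 A.T, (1 - t) * A.b t ≤ 1)
    {t0 : ℝ} (h0 : 0 ≤ t0) (hY : ∀ t ∈ Ico t0 A.T, A.b t * sc ω A t ≤ hi)
    {t : ℝ} (ht : t ∈ Icc t0 A.T) (htp : 0 < t) {lam : ℝ} (hl0 : 0 ≤ lam) (hl : 72 * lam ≤ e)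
    (hlaw : ∀ x, -(lam * (Real.sqrt (sc ω A t))⁻¹ *
      (1 + (Real.sqrt (sc ω A t))⁻¹ * max (-x) 0)) ≤ Y t x) :
    sc ω A t * Ns A x0 p t ≤ (2 * h + lam * (15 * C * Fix.KA KM e)) * Zs A x0 p t := by
  have htI : t ∈ Icc 0 A.T := ⟨htp.le, ht.2⟩
  have hT1 := A.hT1
  have hsc : 0 < sc ω A t := WinBand_746.sc_pos hC ω (ht.2.trans_lt hT1)
  have hsq : 0 < Real.sqrt (sc ω A t) := Real.sqrt_pos.2 hsc
  obtain ⟨k, hk⟩ := clk hC ω
  have hband := poor_up hB hk hc.band h0
    (fun s hs => ⟨mul_nonneg (A.b_nonneg s)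
      (WinBand_746.sc_pos hC ω (hs.2.trans hT1)).le, hY s hs⟩) hc.start t ht
  have hF : Fix (Real.sqrt (sc ω A t))⁻¹ (A.V t) (A.P t) (A.u t) := by
    cases ω
    · have h1 : sc false A t = 1 - t := by simp [sc]
      rw [h1]
      exact FixA_423.fix_tau A (hν rfl) htI
    · have h1 : sc true A t = A.chi t := by simp [sc]
      rw [h1]
      exact FixA_423.fix_chi A htI
  have hLw := lw_of hB hL ⟨htp, ht.2⟩
  have := one hc hh hLw hF hsq (mul_inv_cancel₀ hsq.ne')
    (fun x => (sqrt_le_iff hk htI).1 (hband x)) hl0 hl hlaw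
  rw [Ns_eq htp, Zs_eq htp]
  rwa [Real.sq_sqrt hsc.le] at this

end

end Crest.Agent.R146.WinStep_746
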