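import Crest.Agent.R146.WinLow_746
import Crest.Agent.R146.WinStep_746
import Crest.Agent.R146.WinData_746
import Crest.Agent.R146.WinInst_454
import Crest.Agent.R146.PtLim_847
import Crest.Agent.R146.T12_52

/-!
Row 146, PT-CMP (helper746): theorem WIN (upper windows): a certificate gives a window of the limit
profile. `T1`, `T2` of `PtTip_164`; `winA : ∀ P, TipSeq P → Win P 1 0 hiA`.
-/

set_option autoImplicit false

namespace Crest.Agent.R146.PtWin_746

open Set MeasureTheory Filter Topology ProbabilityTheory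
open Crest.Agent.R146.TipSeq_791 Crest.Agent.R146.StepDef_791 Crest.Agent.R146.StepApx_856
open Crest.Agent.R146.WinLim_746 (sc sc_ge)
open Crest.Agent.R146.WinCert_746 Crest.Agent.R146.PtLim_847
open Crest.Agent.R146.PtScalA_45 (Prof)
open Crest.Agent.R146.Abs_423

noncomputable section

variable {P : Prof}

/-- **closure inequality of the sequence from a certificate** -/
theorem cup {T S : ℝ → ℝ} (Q : PreSeq P T S) (ω : Bool) {hi h : ℝ} (hh : 0 ≤ h)
    (hc : CertEx (WinBand_746.om ω) hi h) {t0 : ℝ} (h0 : 0 ≤ t0) (h1 : t0 < 1)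
    (hY : ∀ᶠ n in atTop, ∀ t ∈ Ico t0 (Q.A n).T, (Q.A n).b t * sc ω (Q.A n) t ≤ hi) :
    CUp ω Q h := by
  obtain ⟨K, K1, K2, G, G', Z, κ, KM, C, e, hc⟩ := hc
  intro ε hε
  have hKM : 0 ≤ KM := by
    have h1 := hc.bdd (1/2) ⟨by norm_num, by norm_num⟩
    have h2 := hc.band.pos (1/2) ⟨by norm_num, by norm_num⟩
    linarith
  have he := hc.he
  set CC : ℝ := 15 * C * Fix.KA KM e with hCC
  have hCC0 : 0 ≤ CC := mul_nonneg (by have := hc.hC; linarith) (Fix.KA_nonneg hKM he)
  set lam : ℝ := min (e / 72) (2 * ε / (CC + 1)) with hlam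
  have hl0 : 0 < lam := lt_min (by positivity) (by positivity)
  have hl1 : 72 * lam ≤ e := by
    have := min_le_left (e / 72) (2 * ε / (CC + 1))
    rw [← hlam] at this
    linarith
  have hl2 : lam * CC ≤ 2 * ε := by
    have h2 := min_le_right (e / 72) (2 * ε / (CC + 1))
    rw [← hlam] at h2
    rw [le_div_iff₀ (by positivity)] at h2
    nlinarith
  obtain ⟨tb, hb0, hb1, hb⟩ := WinLaw_746.lawlo WinLow_746.low Q ω hl0
  refine ⟨max t0 tb, ⟨h0.trans (le_max_left _ _), max_lt h1 hb1⟩, fun q hq => ?_⟩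
  filter_upwards [hY, hb, ev_T Q hq.2] with n hn1 hn2 hn3
  refine ⟨hn3, fun t ht => ?_⟩
  have ht1 : t ∈ Icc t0 (Q.A n).T := ⟨(le_max_left _ _).trans ht.1, ht.2.trans hn3.le⟩
  have ht2 : t ∈ Icc tb (Q.A n).T := ⟨(le_max_right _ _).trans ht.1, ht.2.trans hn3.le⟩
  have htp : 0 < t := hb0.trans_le ht2.1
  have hs := WinStep_746.step ω hc hh (Q.back n) (Q.clock n) (Q.law n)
    (fun _ s hs => (Q.apx n).b_le ⟨hs.1, (hs.2.trans (Q.A n).hT1).le⟩) h0 hn1 ht1 htp hl0.le hl1
    (hn2 t ht2)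
  refine hs.trans ?_
  have hZ : 0 ≤ Zs (Q.A n) 1 (Q.p n) t := by
    rw [Clo_42.Zs_eq htp]
    exact Clo_42.Z_nonneg (Clo_42.lw_of (Q.back n) (Q.law n) ⟨htp, ht1.2⟩)
  refine mul_le_mul_of_nonneg_right ?_ hZ
  linarith

/-- the trivial lower side -/
theorem clo0 {T S : ℝ → ℝ} (Q : PreSeq P T S) (ω : Bool) : CLo ω Q 0 := by
  intro ε hε
  refine ⟨1 / 2, ⟨by norm_num, by norm_num⟩, fun q hq => ?_⟩
  filter_upwards [ev_T Q hq.2] with n hn
  refine ⟨hn, fun t ht => ?_⟩
  have htp : 0 < t := lt_of_lt_of_le (by norm_num) ht.1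
  have htT : t ≤ (Q.A n).T := ht.2.trans hn.le
  have hL := Clo_42.lw_of (Q.back n) (Q.law n) ⟨htp, htT⟩
  have hZ : 0 ≤ Zs (Q.A n) 1 (Q.p n) t := by
    rw [Clo_42.Zs_eq htp]; exact Clo_42.Z_nonneg hL
  have hN : 0 ≤ Ns (Q.A n) 1 (Q.p n) t := by
    rw [Clo_42.Ns_eq htp]
    exact integral_nonneg fun x => mul_nonneg (hL.p_pos x).le (sq_nonneg _)
  have hs : 0 < sc ω (Q.A n) t := WinBand_746.sc_pos (Q.clock n) ω (htT.trans_lt (Q.A n).hT1)
  have h1 := mul_nonneg hs.le hN
  have h2 := mul_nonneg hε.le hZ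
  linarith

/-- window from a strictly better closure -/
theorem win_mono {a : Fin 2} {lo hi hi' : ℝ} (h : Win P a lo hi) (hh : hi ≤ hi') :
    Win P a lo hi' := by
  intro ε hε
  obtain ⟨ta, h1, h2, h3⟩ := h ε hε
  exact ⟨ta, h1, h2, fun t ht => ⟨(h3 t ht).1, (h3 t ht).2.trans (by linarith)⟩⟩

/-- **T1** -/
theorem t1 : PtTip_164.T1 := by
  intro P TS
  obtain ⟨h, hh0, hh1, hc⟩ := WinData_746.cert1
  have hc' : CertEx (WinBand_746.om false) (101 / 100) h := by simpa [WinBand_746.om] using hc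
  have h1 : CUp (om 0) TS.seq h := by
    have : om 0 = false := by simp [om]
    rw [this]
    refine cup TS.seq false hh0 hc' le_rfl one_pos (Eventually.of_forall fun n t ht => ?_)
    have h2 := (TS.seq.apx n).b_le ⟨ht.1, (ht.2.trans (TS.seq.A n).hT1).le⟩
    have h3 : sc false (TS.seq.A n) t = 1 - t := by simp [sc]
    rw [h3]
    linarith
  have := win_of_clo TS 0 hh0 h1 (clo0 TS.seq _)
  exact win_mono this (by linarith)

/-- **T2** -/
theorem t2 : PtTip_164.T2 := by
  intro P TS hw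
  obtain ⟨ta, ha1, ha0, ha⟩ := hw (1 / 100) (by norm_num)
  have hc' : CertEx (WinBand_746.om true) (1158 / 2 ^ 10) (712 / 2 ^ 10) := by
    simpa [WinBand_746.om] using WinInst_454.certA'
  have h1 : CUp (om 1) TS.seq (712 / 2 ^ 10) := by
    have : om 1 = true := by simp [om]
    rw [this]
    have hy : ∀ x ∈ Ico ta 1, P.m x * Ks P.D x ≤ 11 / 10 := by
      intro x hx
      have := (ha x hx).2
      unfold Ystar at this
      rw [if_neg (by decide)] at this
      linarith
    have hev := ev_win_up TS.seq.apx TS.seq.ε_lim (t0' := (ta + 1) / 2) ha0 (by linarith)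
      (by linarith) hy (δ := 1 / 100) (by norm_num)
    refine cup TS.seq true (by norm_num) hc' (t0 := (ta + 1) / 2) (by linarith) (by linarith) ?_
    filter_upwards [hev] with n hn t ht
    have h2 := hn.1 t ht
    have h3 : (TS.seq.A n).b t * sc true (TS.seq.A n) t =
        (TS.seq.A n).m t * (TS.seq.A n).K0 t := by
      have hD := ((TS.seq.A n).D_pos t).ne'
      simp only [sc, if_true]
      unfold SD.b SD.chi
      field_simp
    rw [h3]
    refine h2.trans (by norm_num)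
  have := win_of_clo TS 1 (by norm_num) h1 (clo0 TS.seq _)
  exact win_mono this (by unfold PtTip_164.hiA; norm_num)

/-- **window A** -/
theorem winA : ∀ P : Prof, TipSeq P → Win P 1 0 PtTip_164.hiA := fun P TS =>
  t2 P TS (T12_52.t12 P TS (t1 P TS))

end

end Crest.Agent.R146.PtWin_746
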