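import Crest.Agent.R146.PtRef_846
import Crest.Agent.R146.PtLim_847

/-!
Row 146, PT (helper847): INTERFACE of WINREF = `WS → Win P 1 lo hi → Win P 1 tlo thi` from three step-level
theorems: slope bands (`SLOPE`), law bands (`LAW`), closure at one time (`CLOS`).
-/

set_option autoImplicit false

namespace Crest.Agent.R146.PtRefIf_847

open MeasureTheory ProbabilityTheory Set Filter Topology
open Crest.Agent.R146.StepDef_791 Crest.Agent.R146.StepApx_856 Crest.Agent.R146.TipSeq_791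
open Crest.Agent.R146.PtScalA_45 (Prof)
open Crest.Agent.R146.PtRef_846 Crest.Agent.R146.PtLim_847
open Crest.Agent.R146.YW_177 (sN thN)

noncomputable section

/-- slope band at one time, error `e` -/
def SB (A : SD) (D : WData) (e t : ℝ) : Prop := ∀ x,
  (1 - e) * sN A t * D.Km (A.V t x) ≤ A.P t x ∧ A.P t x ≤ (1 + e) * sN A t * D.Kp (A.V t x)

/-- law band at one time, error `e`; lower bound `max (F₋) 0` -/
def LB (A : SD) (Y : ℝ → ℝ → ℝ) (D : WData) (e t : ℝ) : Prop := ∀ x,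
  sN A t * (D.Fm (sN A t * A.w t x) - e * (1 + sN A t * A.u t x)) ≤ Y t x ∧
  -(sN A t * (e * (1 + sN A t * A.u t x))) ≤ Y t x ∧
  Y t x ≤ sN A t * (D.Fp (sN A t * A.w t x) + e * (1 + sN A t * A.w t x))

/-- (SLOPE) slope bands; `C, k` depend on the certificate only -/
def SLOPE : Prop := ∀ {lo hi tlo thi e0 κ M : ℝ} {D : WData}, WS lo hi tlo thi e0 κ M D →
  ∃ C k : ℝ, 0 ≤ C ∧ 0 < k ∧ ∀ A : SD, Back A → Clock A → ∀ ta tb : ℝ, 0 ≤ ta → ta ≤ tb → tb ≤ A.T →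
    (∀ t ∈ Ico ta A.T, A.b t * A.chi t ≤ hi + e0) →
    (∀ t ∈ Ico ta tb, lo - e0 ≤ A.b t * A.chi t) →
    ∀ t ∈ Icc ta tb, SB A D (C * (A.K0 tb / A.K0 t) ^ k) t

/-- (LAW) law bands from a start at `t0`; `B, k, θ` depend on the certificate, `C0` and `s0` only -/
def LAW : Prop := ∀ {lo hi tlo thi e0 κ M : ℝ} {D : WData}, WS lo hi tlo thi e0 κ M D →
  ∀ C0 s0 : ℝ, 0 < C0 → 0 < s0 → ∃ θ k : ℝ, 0 ≤ θ ∧ 0 < k ∧
    ∀ A : SD, Back A → Clock A → ∀ p Y Yx Yxx : ℝ → ℝ → ℝ, Law A 1 p Y Yx Yxx →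
    ∀ t0 q : ℝ, 0 < t0 → t0 < q → q ≤ A.T → s0 ≤ sN A t0 →
    (∀ t ∈ Icc t0 q, lo - e0 ≤ A.ml t * A.K0 t ∧ A.ml t * A.K0 t ≤ hi + e0) →
    (∀ t ∈ Icc t0 q, SB A D (e0 / 2) t) →
    (∀ x, -(C0 * (1 + A.u t0 x)) ≤ Y t0 x ∧ Y t0 x ≤ C0 * (1 + A.w t0 x)) →
    ∀ t ∈ Icc t0 q, LB A Y D (θ * (A.K0 t / A.K0 t0) ^ k) t

/-- (CLOS) closure at one time -/
def CLOS : Prop := ∀ {lo hi tlo thi e0 κ M : ℝ} {D : WData}, WS lo hi tlo thi e0 κ M D →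
  ∀ ρ : ℝ, 0 < ρ → ∃ e : ℝ, 0 < e ∧ ∀ A : SD, Back A → Clock A →
    ∀ p Y Yx Yxx : ℝ → ℝ → ℝ, Law A 1 p Y Yx Yxx → ∀ t ∈ Ioc 0 A.T, SB A D e t → LB A Y D e t →
    A.chi t * Ns A 1 p t ≤ 2 * (thi + ρ) * Zs A 1 p t ∧
      2 * (tlo - ρ) * Zs A 1 p t ≤ A.chi t * Ns A 1 p t

/-- **WINREF** -/
def WINREF : Prop := ∀ P : Prof, TipSeq P → ∀ (lo hi tlo thi e0 κ M : ℝ) (D : WData),
  WS lo hi tlo thi e0 κ M D → Win P 1 lo hi → Win P 1 tlo thi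

end

end Crest.Agent.R146.PtRefIf_847
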