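import Crest.Agent.R146.CloAbs_42
import Crest.Agent.R146.PtRef_846
import Crest.Agent.R146.FixA_423
import Crest.Agent.R146.PtRefIf_847

/-!
Row 146, S0205, PT-CMP (helper42): THE CLOSURE OF A WINDOW STEP `PtRef_846.WS` (`ω = 1`).

* `One`            : the data at one time (admissible level/position/slope, law band with transient `θ`);
* `one_le, le_one` : closure inequality at one time, the transient absorbed;
* `cup_of, clo_of` : `Late One` ⟹ `PtLim_847.CUp true Q thi`, `PtLim_847.CLo true Q tlo`;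
* `one_of`         : `One` from a slope band and a law band (positions `N₋ ≤ σ w ≤ N₊`, `σ u ≤ Ub`);
* `clos`           : `PtRefIf_847.CLOS`.
-/

set_option autoImplicit false

namespace Crest.Agent.R146.RefClo_42

open MeasureTheory Set Filter Topology
open Crest.Agent.R146.Clo_42 Crest.Agent.R146.CloAbs_42 Crest.Agent.R146.Abs_423
  Crest.Agent.R146.Abs_423.Fix Crest.Agent.R146.PtRef_846

noncomputable section

/-- the data of a window step at one time, `σ = χ^{-1/2}` -/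
structure One (e0 B θ : ℝ) (D : WData) (σ : ℝ) (V P u Y : ℝ → ℝ) : Prop where
  adm : ∀ x, AdmR e0 D (V x) (σ * (x + u x)) (P x / σ)
  ule : ∀ x, σ * u x ≤ (1 + e0) * D.Ub (V x)
  lo0 : ∀ x, -(σ * (θ * (B + σ * u x))) ≤ Y x
  lo : ∀ x, σ * (D.Fm (σ * (x + u x)) - θ * (B + σ * u x)) ≤ Y x
  up : ∀ x, Y x ≤ σ * (D.Fp (σ * (x + u x)) + θ * (B + σ * (x + u x)))

/-- clipping -/
theorem clip {L f g a b : ℝ} (hfg : f ≤ g) (hg : 0 ≤ g) (ha : 0 ≤ a) (hb : 0 ≤ b)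
    (h0 : -a ≤ L) (h1 : f - a ≤ L) (h2 : L ≤ g + b) :
    ∃ L', 0 ≤ L' ∧ f ≤ L' ∧ L' ≤ g ∧ |L - L'| ≤ a + b := by
  refine ⟨max (max 0 f) (min L g), ?_, ?_, ?_, ?_⟩
  · exact (le_max_left _ _).trans (le_max_left _ _)
  · exact (le_max_right _ _).trans (le_max_left _ _)
  · exact max_le (max_le hg hfg) (min_le_right _ _)
  · rw [abs_le]
    constructor
    · rcases max_cases (max 0 f) (min L g) with ⟨e, -⟩ | ⟨e, -⟩
      · rw [e]
        rcases max_cases 0 f with ⟨e', -⟩ | ⟨e', -⟩ <;> rw [e'] <;> linarith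
      · rw [e]
        have := min_le_left L g
        linarith
    · have h3 : min L g ≤ max (max 0 f) (min L g) := le_max_right _ _
      rcases min_cases L g with ⟨e, -⟩ | ⟨e, -⟩
      · rw [e] at h3 ⊢
        linarith
      · rw [e] at h3 ⊢
        linarith

section one

variable {lo hi tlo thi e0 κ M : ℝ} {D : WData} {σ B θ : ℝ} {V P u p Y : ℝ → ℝ}

theorem su_le (h : Fix σ V P u) (x : ℝ) : σ * u x ≤ 8 + σ * max (-x) 0 := by
  have hs := h.s_pos
  have h0 : 0 ≤ σ * max (-x) 0 := mul_nonneg hs.le (le_max_right _ _)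
  rcases le_total (1 / 4) (V x) with h1 | h1
  · linarith [h.u_le h1]
  · have h3 := h.w_le (show V x ≤ 1 / 2 by linarith)
    have h5 : σ * (-x) ≤ σ * max (-x) 0 := mul_le_mul_of_nonneg_left (le_max_left _ _) hs.le
    nlinarith

/-- lower law bound for the absorb lemma -/
theorem Y_ge (h : Fix σ V P u) (hθ : 0 ≤ θ) (hB : 0 ≤ B)
    (lo0 : ∀ x, -(σ * (θ * (B + σ * u x))) ≤ Y x) (x : ℝ) :
    -(θ * (B + 8) * σ * (1 + σ * max (-x) 0)) ≤ Y x := by
  refine le_trans ?_ (lo0 x)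
  have hs := h.s_pos
  have h0 : 0 ≤ σ * max (-x) 0 := mul_nonneg hs.le (le_max_right _ _)
  have h1 : B + σ * u x ≤ (B + 8) * (1 + σ * max (-x) 0) := by
    have := su_le h x
    nlinarith
  have h2 : σ * θ * (B + σ * u x) ≤ σ * θ * ((B + 8) * (1 + σ * max (-x) 0)) :=
    mul_le_mul_of_nonneg_left h1 (mul_nonneg hs.le hθ)
  nlinarith

theorem Np_pos (hO : One e0 B θ D σ V P u Y) (he0 : 0 < e0) (x : ℝ) : 0 < D.Np (V x) := by
  have h1 := (hO.adm x).η_pos.trans_le (hO.adm x).η_hi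
  exact (pos_iff_pos_of_mul_pos h1).1 (by linarith)

theorem Ub_pos (h : Fix σ V P u) (hO : One e0 B θ D σ V P u Y) (he0 : 0 < e0) (x : ℝ) :
    0 < D.Ub (V x) := by
  have h1 := (mul_pos h.s_pos (h.u_pos x)).trans_le (hO.ule x)
  exact (pos_iff_pos_of_mul_pos h1).1 (by linarith)

/-- the error weight -/
def Er (B σ : ℝ) (V u : ℝ → ℝ) (G : ℝ → ℝ) (x : ℝ) : ℝ :=
  (2 * B + σ * (x + u x) + σ * u x) * |G (V x)|

theorem Er_le (h : Fix σ V P u) (hO : One e0 B θ D σ V P u Y) (he0 : 0 < e0) (he1 : e0 ≤ 1)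
    (hB : 0 ≤ B) (G : ℝ → ℝ) (x : ℝ) :
    Er B σ V u G x ≤ (2 * B + 2) * (|G (V x)| * (1 + D.Np (V x) + D.Ub (V x))) := by
  have h1 := Np_pos hO he0 x
  have h2 := Ub_pos h hO he0 x
  have h3 := (hO.adm x).η_hi
  have h4 := hO.ule x
  have h5 : 2 * B + σ * (x + u x) + σ * u x ≤
      (2 * B + 2) * (1 + D.Np (V x) + D.Ub (V x)) := by
    have h6 : (1 + e0) * D.Np (V x) ≤ 2 * D.Np (V x) :=
      mul_le_mul_of_nonneg_right (by linarith) h1.le
    have h7 : (1 + e0) * D.Ub (V x) ≤ 2 * D.Ub (V x) :=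
      mul_le_mul_of_nonneg_right (by linarith) h2.le
    nlinarith [mul_nonneg hB h1.le, mul_nonneg hB h2.le]
  have h8 := mul_le_mul_of_nonneg_right h5 (abs_nonneg (G (V x)))
  unfold Er
  linarith

theorem Er_nonneg (h : Fix σ V P u) (hB : 0 ≤ B) (G : ℝ → ℝ) (x : ℝ) : 0 ≤ Er B σ V u G x := by
  unfold Er
  have h1 := mul_pos h.s_pos (h.w_pos x)
  have h2 := mul_pos h.s_pos (h.u_pos x)
  exact mul_nonneg (by linarith) (abs_nonneg _)

/-- the two-sided weight bound of a dual -/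
structure Wt (M : ℝ) (D : WData) (G G1 : ℝ → ℝ) : Prop where
  dG : ∀ v ∈ Ioo (0:ℝ) 1, HasDerivAt G (G1 v) v
  l : ∀ v ∈ Ioc (0:ℝ) (1 / 2), |G v| * (1 + D.Np v + D.Ub v) ≤ M * v
  r : ∀ v ∈ Ico (1 / 2 : ℝ) 1, |G v| * (1 + D.Np v + D.Ub v) ≤ M * (1 - v)
  K : ∀ v ∈ Ioo (0:ℝ) 1, |D.Kp v * G1 v| ≤ M

theorem wt_p (hW : WS lo hi tlo thi e0 κ M D) : Wt M D D.Gp D.Gp1 :=
  ⟨hW.dGp, hW.Gp_l, hW.Gp_r, hW.KGp⟩

theorem wt_m (hW : WS lo hi tlo thi e0 κ M D) : Wt M D D.Gm D.Gm1 :=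
  ⟨hW.dGm, hW.Gm_l, hW.Gm_r, hW.KGm⟩

variable {G G1 : ℝ → ℝ}

theorem Er_l (h : Fix σ V P u) (hO : One e0 B θ D σ V P u Y) (he0 : 0 < e0) (he1 : e0 ≤ 1)
    (hB : 0 ≤ B) (hG : Wt M D G G1) (x : ℝ) (hx : V x ≤ 1 / 2) :
    Er B σ V u G x ≤ (2 * B + 2) * M * V x := by
  have h1 := Er_le h hO he0 he1 hB G x
  have h2 := hG.l (V x) ⟨h.V_pos x, hx⟩
  have h3 := mul_le_mul_of_nonneg_left h2 (show 0 ≤ 2 * B + 2 by linarith)
  linarith

theorem Er_r (h : Fix σ V P u) (hO : One e0 B θ D σ V P u Y) (he0 : 0 < e0) (he1 : e0 ≤ 1)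
    (hB : 0 ≤ B) (hG : Wt M D G G1) (x : ℝ) (hx : 1 / 2 ≤ V x) :
    Er B σ V u G x ≤ (2 * B + 2) * M * (1 - V x) := by
  have h1 := Er_le h hO he0 he1 hB G x
  have h2 := hG.r (V x) ⟨hx, h.V_lt x⟩
  have h3 := mul_le_mul_of_nonneg_left h2 (show 0 ≤ 2 * B + 2 by linarith)
  linarith

theorem Er_bd (h : Fix σ V P u) (hO : One e0 B θ D σ V P u Y) (he0 : 0 < e0) (he1 : e0 ≤ 1)
    (hB : 0 ≤ B) (hM : 0 ≤ M) (hG : Wt M D G G1) (x : ℝ) : Er B σ V u G x ≤ (2 * B + 2) * M := by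
  have h0 : 0 ≤ (2 * B + 2) * M := mul_nonneg (by linarith) hM
  rcases le_total (V x) (1 / 2) with hx | hx
  · refine (Er_l h hO he0 he1 hB hG x hx).trans ?_
    exact mul_le_of_le_one_right h0 (h.V_lt x).le
  · refine (Er_r h hO he0 he1 hB hG x hx).trans ?_
    exact mul_le_of_le_one_right h0 (by linarith [h.V_pos x])

theorem G_bd (h : Fix σ V P u) (hO : One e0 B θ D σ V P u Y) (he0 : 0 < e0)
    (hM : 0 ≤ M) (hG : Wt M D G G1) (x : ℝ) : |G (V x)| ≤ M := by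
  have h1 := Np_pos hO he0 x
  have h2 := Ub_pos h hO he0 x
  have h3 : |G (V x)| * 1 ≤ |G (V x)| * (1 + D.Np (V x) + D.Ub (V x)) :=
    mul_le_mul_of_nonneg_left (by linarith) (abs_nonneg _)
  rcases le_total (V x) (1 / 2) with hx | hx
  · have h4 := hG.l (V x) ⟨h.V_pos x, hx⟩
    have h5 : M * V x ≤ M := mul_le_of_le_one_right hM (h.V_lt x).le
    linarith
  · have h4 := hG.r (V x) ⟨hx, h.V_lt x⟩
    have h5 : M * (1 - V x) ≤ M := mul_le_of_le_one_right hM (by linarith [h.V_pos x])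
    linarith

/-- the test function `G ∘ V` -/
theorem tfG (h : Fix σ V P u) (L : Lw V P p Y) (hO : One e0 B θ D σ V P u Y) (he0 : 0 < e0)
    (he1 : e0 ≤ 1) (hM : 0 ≤ M) (hG : Wt M D G G1) :
    TF (fun x => G (V x)) (fun x => P x * G1 (V x)) ∅ where
  cnt := countable_empty
  cont := by
    have hc : ContinuousOn G (Ioo 0 1) := fun v hv => (hG.dG v hv).continuousAt.continuousWithinAt
    exact hc.comp_continuous (V_cont L) (memV L)
  d x _ := by
    have h1 := (hG.dG _ (memV L x)).comp x (L.V_x x)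
    refine h1.congr_deriv ?_
    ring
  growth := by
    refine ⟨max M (2 * σ * M), 0, fun x => ?_⟩
    rw [pow_zero, mul_one]
    refine ⟨(G_bd h hO he0 hM hG x).trans (le_max_left _ _), ?_⟩
    refine le_trans ?_ (le_max_right _ _)
    have hs := h.s_pos
    have h1 : P x ≤ (1 + e0) * D.Kp (V x) * σ := by
      have := (hO.adm x).J_hi
      rwa [div_le_iff₀ hs] at this
    have h2 := hG.K (V x) (memV L x)
    rw [abs_mul, abs_of_pos (h.P_pos x)]
    have hK : 0 ≤ D.Kp (V x) := by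
      have h3 := (div_pos (h.P_pos x) hs).trans_le (hO.adm x).J_hi
      exact ((pos_iff_pos_of_mul_pos h3).1 (by linarith)).le
    rw [abs_mul, abs_of_nonneg hK] at h2
    calc P x * |G1 (V x)| ≤ (1 + e0) * D.Kp (V x) * σ * |G1 (V x)| :=
          mul_le_mul_of_nonneg_right h1 (abs_nonneg _)
      _ = (1 + e0) * σ * (D.Kp (V x) * |G1 (V x)|) := by ring
      _ ≤ (1 + e0) * σ * M := mul_le_mul_of_nonneg_left h2 (mul_nonneg (by linarith) hs.le)
      _ ≤ 2 * σ * M := by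
        refine mul_le_mul_of_nonneg_right ?_ hM
        nlinarith

theorem P_le (hW : WS lo hi tlo thi e0 κ M D) (h : Fix σ V P u)
    (hO : One e0 B θ D σ V P u Y) (x : ℝ) : P x ≤ 2 * M * σ := by
  have hs := h.s_pos
  have h1 : P x ≤ (1 + e0) * D.Kp (V x) * σ := by
    have := (hO.adm x).J_hi
    rwa [div_le_iff₀ hs] at this
  have h2 := hW.Kp_le (V x) ⟨h.V_pos x, h.V_lt x⟩
  have h3 : (1 + e0) * D.Kp (V x) ≤ 2 * M := by
    have h4 : (1 + e0) * D.Kp (V x) ≤ (1 + e0) * M :=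
      mul_le_mul_of_nonneg_left h2 (by linarith [hW.e0_pos])
    have h5 : (1 + e0) * M ≤ 2 * M :=
      mul_le_mul_of_nonneg_right (by linarith [hW.e0_le]) hW.M_pos.le
    linarith
  exact h1.trans (mul_le_mul_of_nonneg_right h3 hs.le)

/-- absorb of the error weight -/
theorem Er_int (hW : WS lo hi tlo thi e0 κ M D) (h : Fix σ V P u) (L : Lw V P p Y)
    (hO : One e0 B θ D σ V P u Y) (hB : 0 ≤ B) (hθ : 0 ≤ θ) (hθ1 : 72 * (θ * (B + 8)) ≤ 1)
    (hG : Wt M D G G1) :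
    Integrable (fun x => p x * Er B σ V u G x) ∧ ∫ x, p x * Er B σ V u G x ≤
      (2 * B + 2) * M * KA (2 * M) 1 * ∫ x, p x * (V x * (1 - V x) ^ 2) := by
  have he0 := hW.e0_pos
  have he1 : e0 ≤ 1 := by linarith [hW.e0_le]
  have hM := hW.M_pos.le
  have cG : Continuous fun x => G (V x) := (tfG h L hO he0 he1 hM hG).cont
  have i1 : Integrable (fun x => p x * Er B σ V u G x) := by
    refine int_bdd L (M := (2 * B + 2) * M) ?_ fun x => ?_
    · refine Continuous.aestronglyMeasurable ?_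
      have c1 := h.cu
      exact (((continuous_const (y := 2 * B)).add
        ((continuous_const (y := σ)).mul (continuous_id.add c1))).add
        ((continuous_const (y := σ)).mul c1)).mul cG.abs
    · rw [abs_of_nonneg (Er_nonneg h hB G x)]
      exact Er_bd h hO he0 he1 hB hM hG x
  refine ⟨i1, ?_⟩
  refine h.absorb (by positivity) (P_le hW h hO) one_pos (mul_nonneg (by linarith) hM)
    (mul_nonneg hθ (by linarith)) hθ1 L.p_pos L.p_x (Y_ge h hθ hB hO.lo0) (int_p L) i1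
    (fun x hx => Er_l h hO he0 he1 hB hG x hx) fun x hx => ?_
  rw [Real.rpow_one]
  refine (Er_r h hO he0 he1 hB hG x hx).trans ?_
  have h4 : 0 ≤ σ * max x 0 := mul_nonneg h.s_pos.le (le_max_right _ _)
  have h5 : 0 ≤ (2 * B + 2) * M * (1 - V x) :=
    mul_nonneg (mul_nonneg (by linarith) hM) (by linarith [h.V_lt x])
  nlinarith [mul_nonneg h5 h4]

/-- the law at one point -/
theorem law_clip (hW : WS lo hi tlo thi e0 κ M D) (h : Fix σ V P u)
    (hO : One e0 B θ D σ V P u Y) (hB : 0 ≤ B) (hθ : 0 ≤ θ) (x : ℝ) :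
    ∃ L', 0 ≤ L' ∧ D.Fm (σ * (x + u x)) ≤ L' ∧ L' ≤ D.Fp (σ * (x + u x)) ∧
      |σ⁻¹ * Y x - L'| ≤ θ * (2 * B + σ * (x + u x) + σ * u x) := by
  have hs := h.s_pos
  have hη := (hO.adm x).η_pos
  have hu := mul_pos hs (h.u_pos x)
  obtain ⟨L', h1, h2, h3, h4⟩ := clip (L := σ⁻¹ * Y x) (f := D.Fm (σ * (x + u x)))
    (g := D.Fp (σ * (x + u x))) (a := θ * (B + σ * u x)) (b := θ * (B + σ * (x + u x)))
    (hW.Fm_le _ hη) (hW.Fp_nonneg _ hη) (mul_nonneg hθ (by linarith))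
    (mul_nonneg hθ (by linarith))
    (by
      rw [le_inv_mul_iff₀ hs]
      linarith [hO.lo0 x])
    (by rw [le_inv_mul_iff₀ hs]; exact hO.lo x)
    (by rw [inv_mul_le_iff₀ hs]; exact hO.up x)
  exact ⟨L', h1, h2, h3, h4.trans (by linarith)⟩

/-- the constant of the error -/
def CE (B M : ℝ) : ℝ := (2 * B + 2) * M * KA (2 * M) 1

theorem CE_nonneg (hB : 0 ≤ B) (hM : 0 ≤ M) : 0 ≤ CE B M :=
  mul_nonneg (mul_nonneg (by linarith) hM) (KA_nonneg (by linarith) one_pos)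

/-- **closure at one time, upper**. -/
theorem one_le (hW : WS lo hi tlo thi e0 κ M D) (h : Fix σ V P u) (L : Lw V P p Y)
    (hO : One e0 B θ D σ V P u Y) (hB : 0 ≤ B) (hθ : 0 ≤ θ) (hθ1 : 72 * (θ * (B + 8)) ≤ 1) :
    ∫ x, p x * P x ^ 2 ≤ σ ^ 2 * ((2 * thi + θ * CE B M) *
      ∫ x, p x * (V x * (1 - V x) ^ 2)) := by
  have he0 := hW.e0_pos
  have he1 : e0 ≤ 1 := by linarith [hW.e0_le]
  have hM := hW.M_pos.le
  have hs := h.s_pos
  have hG := wt_p hW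
  obtain ⟨i1, i2⟩ := Er_int hW h L hO hB hθ hθ1 hG
  have i3 : Integrable (fun x => p x * (θ * Er B σ V u D.Gp x)) :=
    (i1.const_mul θ).congr (Eventually.of_forall fun x => by simp only; ring)
  have m1 := clo_le L (tfG h L hO he0 he1 hM hG) (s := σ⁻¹) (hh := thi) i3
    (Eventually.of_forall fun x => by
      obtain ⟨L', a1, a2, a3, a4⟩ := law_clip hW h hO hB hθ x
      have b1 := hW.clo_p (V x) (σ * (x + u x)) (P x / σ) L' (hO.adm x) a1 a2 a3
      unfold CloR at b1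
      have b2 : (σ⁻¹ * Y x - L') * D.Gp (V x) ≤ θ * Er B σ V u D.Gp x := by
        refine (le_abs_self _).trans ?_
        rw [abs_mul]
        have := mul_le_mul_of_nonneg_right a4 (abs_nonneg (D.Gp (V x)))
        unfold Er
        linarith
      have e1 : (σ⁻¹ * P x) ^ 2 - σ⁻¹ * (P x * D.Gp1 (V x)) + σ⁻¹ * Y x * D.Gp (V x) =
          ((P x / σ) ^ 2 - 2 * thi * (V x * (1 - V x) ^ 2) - P x / σ * D.Gp1 (V x) +
            L' * D.Gp (V x)) + 2 * thi * (V x * (1 - V x) ^ 2) +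
            (σ⁻¹ * Y x - L') * D.Gp (V x) := by
        rw [div_eq_inv_mul]
        ring
      rw [e1]
      linarith)
  have e2 : ∫ x, p x * (θ * Er B σ V u D.Gp x) = θ * ∫ x, p x * Er B σ V u D.Gp x := by
    rw [← integral_const_mul]
    refine integral_congr_ae (Eventually.of_forall fun x => ?_)
    simp only
    ring
  have hN : ∫ x, p x * P x ^ 2 = σ ^ 2 * (σ⁻¹ ^ 2 * ∫ x, p x * P x ^ 2) := by
    field_simp
  rw [hN]
  refine mul_le_mul_of_nonneg_left ?_ (sq_nonneg _)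
  have m2 := mul_le_mul_of_nonneg_left i2 hθ
  rw [e2] at m1
  unfold CE
  linarith

/-- **closure at one time, lower**. -/
theorem le_one (hW : WS lo hi tlo thi e0 κ M D) (h : Fix σ V P u) (L : Lw V P p Y)
    (hO : One e0 B θ D σ V P u Y) (hB : 0 ≤ B) (hθ : 0 ≤ θ) (hθ1 : 72 * (θ * (B + 8)) ≤ 1) :
    σ ^ 2 * ((2 * tlo - θ * CE B M) * ∫ x, p x * (V x * (1 - V x) ^ 2)) ≤
      ∫ x, p x * P x ^ 2 := by
  have he0 := hW.e0_pos
  have he1 : e0 ≤ 1 := by linarith [hW.e0_le]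
  have hM := hW.M_pos.le
  have hs := h.s_pos
  have hG := wt_m hW
  obtain ⟨i1, i2⟩ := Er_int hW h L hO hB hθ hθ1 hG
  have i3 : Integrable (fun x => p x * (θ * Er B σ V u D.Gm x)) :=
    (i1.const_mul θ).congr (Eventually.of_forall fun x => by simp only; ring)
  have m1 := le_clo L (tfG h L hO he0 he1 hM hG) (s := σ⁻¹) (hh := tlo) i3
    (Eventually.of_forall fun x => by
      obtain ⟨L', a1, a2, a3, a4⟩ := law_clip hW h hO hB hθ x
      have b1 := hW.clo_m (V x) (σ * (x + u x)) (P x / σ) L' (hO.adm x) a1 a2 a3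
      unfold CloR at b1
      have b2 : -(θ * Er B σ V u D.Gm x) ≤ (σ⁻¹ * Y x - L') * D.Gm (V x) := by
        refine le_trans ?_ (neg_abs_le _)
        rw [abs_mul]
        have := mul_le_mul_of_nonneg_right a4 (abs_nonneg (D.Gm (V x)))
        unfold Er
        linarith
      have e1 : (σ⁻¹ * P x) ^ 2 - σ⁻¹ * (P x * D.Gm1 (V x)) + σ⁻¹ * Y x * D.Gm (V x) =
          ((P x / σ) ^ 2 - 2 * tlo * (V x * (1 - V x) ^ 2) - P x / σ * D.Gm1 (V x) +
            L' * D.Gm (V x)) + 2 * tlo * (V x * (1 - V x) ^ 2) +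
            (σ⁻¹ * Y x - L') * D.Gm (V x) := by
        rw [div_eq_inv_mul]
        ring
      rw [e1]
      linarith)
  have e2 : ∫ x, p x * (θ * Er B σ V u D.Gm x) = θ * ∫ x, p x * Er B σ V u D.Gm x := by
    rw [← integral_const_mul]
    refine integral_congr_ae (Eventually.of_forall fun x => ?_)
    simp only
    ring
  have hN : ∫ x, p x * P x ^ 2 = σ ^ 2 * (σ⁻¹ ^ 2 * ∫ x, p x * P x ^ 2) := by
    field_simp
  rw [hN]
  refine mul_le_mul_of_nonneg_left ?_ (sq_nonneg _)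
  have m2 := mul_le_mul_of_nonneg_left i2 hθ
  rw [e2] at m1
  unfold CE
  linarith

end one

/-! ### The step system -/

section step

open Crest.Agent.R146.StepDef_791 Crest.Agent.R146.PtLim_847 Crest.Agent.R146.TipSeq_791
open Crest.Agent.R146.WinLim_746
open Crest.Agent.R146.YW_177 (sN sN_pos sN_sq)
open Crest.Agent.R146.PtScalA_45 (Prof)

variable {lo hi tlo thi e0 κ M : ℝ} {D : WData} {B θ : ℝ}

/-- the data of a window step for the step system at time `t` -/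
def OneA (e0 B θ : ℝ) (D : WData) (A : SD) (Y : ℝ → ℝ → ℝ) (t : ℝ) : Prop :=
  One e0 B θ D (sN A t) (A.V t) (A.P t) (A.u t) (Y t)

variable {A : SD} {p Y Yx Yxx : ℝ → ℝ → ℝ}

/-- **closure of the step system at one time, upper**: `χ Ns ≤ (2 thi + θ C) Zs` -/
theorem step_le (hW : WS lo hi tlo thi e0 κ M D) (hB : Back A) (hC : Clock A)
    (hL : Law A 1 p Y Yx Yxx) {t : ℝ} (ht : t ∈ Ioc 0 A.T) (hB0 : 0 ≤ B) (hθ : 0 ≤ θ)
    (hθ1 : 72 * (θ * (B + 8)) ≤ 1) (hO : OneA e0 B θ D A Y t) :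
    A.chi t * Ns A 1 p t ≤ (2 * thi + θ * CE B M) * Zs A 1 p t := by
  have ht0 : t ∈ Icc 0 A.T := ⟨ht.1.le, ht.2⟩
  have h1 : t < 1 := ht.2.trans_lt A.hT1
  have hF := FixA_423.fix_chi A ht0
  have h2 := one_le (σ := sN A t) hW hF (lw_of hB hL ht) hO hB0 hθ hθ1
  have h3 := hC.chi_pos t h1
  rw [sN_sq hC h1, le_inv_mul_iff₀ h3] at h2
  rw [Ns_eq ht.1, Zs_eq ht.1]
  exact h2

/-- **closure of the step system at one time, lower**. -/
theorem le_step (hW : WS lo hi tlo thi e0 κ M D) (hB : Back A) (hC : Clock A)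
    (hL : Law A 1 p Y Yx Yxx) {t : ℝ} (ht : t ∈ Ioc 0 A.T) (hB0 : 0 ≤ B) (hθ : 0 ≤ θ)
    (hθ1 : 72 * (θ * (B + 8)) ≤ 1) (hO : OneA e0 B θ D A Y t) :
    (2 * tlo - θ * CE B M) * Zs A 1 p t ≤ A.chi t * Ns A 1 p t := by
  have ht0 : t ∈ Icc 0 A.T := ⟨ht.1.le, ht.2⟩
  have h1 : t < 1 := ht.2.trans_lt A.hT1
  have hF := FixA_423.fix_chi A ht0
  have h2 := le_one (σ := sN A t) hW hF (lw_of hB hL ht) hO hB0 hθ hθ1
  have h3 := hC.chi_pos t h1
  rw [sN_sq hC h1, inv_mul_le_iff₀ h3] at h2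
  rw [Ns_eq ht.1, Zs_eq ht.1]
  exact h2

theorem Zs_nonneg (hB : Back A) (hL : Law A 1 p Y Yx Yxx) {t : ℝ} (ht : t ∈ Ioc 0 A.T) :
    0 ≤ Zs A 1 p t := by
  rw [Zs_eq ht.1]
  exact Z_nonneg (lw_of hB hL ht)

variable {Pf : Prof} {T S : ℝ → ℝ} {Q : PreSeq Pf T S}

/-- small `θ` for a given tolerance -/
theorem th_exists (B M : ℝ) (hB : 0 ≤ B) (hM : 0 ≤ M) {ε : ℝ} (hε : 0 < ε) :
    ∃ θ > 0, 72 * (θ * (B + 8)) ≤ 1 ∧ θ * CE B M ≤ 2 * ε := by
  have hc := CE_nonneg hB hM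
  refine ⟨min (1 / (72 * (B + 8))) (2 * ε / (CE B M + 1)), ?_, ?_, ?_⟩
  · exact lt_min (by positivity) (by positivity)
  · have h1 := mul_le_mul_of_nonneg_right
      (min_le_left (1 / (72 * (B + 8))) (2 * ε / (CE B M + 1))) (show 0 ≤ B + 8 by linarith)
    have h2 : 1 / (72 * (B + 8)) * (B + 8) = 1 / 72 := by
      have : (B + 8) ≠ 0 := by positivity
      field_simp
    linarith
  · have h1 := mul_le_mul_of_nonneg_right
      (min_le_right (1 / (72 * (B + 8))) (2 * ε / (CE B M + 1))) hc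
    have h2 : 2 * ε / (CE B M + 1) * CE B M ≤ 2 * ε := by
      rw [div_mul_eq_mul_div, div_le_iff₀ (by linarith)]
      nlinarith
    linarith

/-- **`Late One` ⟹ upper closure of the sequence.** -/
theorem cup_of (hW : WS lo hi tlo thi e0 κ M D) (hB0 : 0 ≤ B)
    (H : Late Q fun θ n t => OneA e0 B θ D (Q.A n) (Q.Y n) t) : CUp true Q thi := by
  intro ε hε
  obtain ⟨θ, hθ, hθ1, hθ2⟩ := th_exists B M hB0 hW.M_pos.le hε
  obtain ⟨t2, ht2, h2⟩ := H θ hθ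
  refine ⟨(t2 + 1) / 2, ⟨by linarith [ht2.1], by linarith [ht2.2]⟩, fun q hq => ?_⟩
  filter_upwards [h2 q ⟨by linarith [hq.1, ht2.2], hq.2⟩] with n hn
  refine ⟨hn.1, fun t ht => ?_⟩
  have ht0 : t ∈ Ioc 0 (Q.A n).T := ⟨by linarith [ht.1, ht2.1], ht.2.trans hn.1.le⟩
  have h3 := step_le hW (Q.back n) (Q.clock n) (Q.law n) ht0 hB0 hθ.le hθ1
    (hn.2 t ⟨by linarith [ht.1, ht2.2], ht.2⟩)
  have h4 := Zs_nonneg (Q.back n) (Q.law n) ht0
  have h5 : (2 * thi + θ * CE B M) * Zs (Q.A n) 1 (Q.p n) t ≤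
      2 * (thi + ε) * Zs (Q.A n) 1 (Q.p n) t := mul_le_mul_of_nonneg_right (by linarith) h4
  simp only [sc, if_true]
  linarith

/-- **`Late One` ⟹ lower closure of the sequence.** -/
theorem clo_of (hW : WS lo hi tlo thi e0 κ M D) (hB0 : 0 ≤ B)
    (H : Late Q fun θ n t => OneA e0 B θ D (Q.A n) (Q.Y n) t) : CLo true Q tlo := by
  intro ε hε
  obtain ⟨θ, hθ, hθ1, hθ2⟩ := th_exists B M hB0 hW.M_pos.le hε
  obtain ⟨t2, ht2, h2⟩ := H θ hθ
  refine ⟨(t2 + 1) / 2, ⟨by linarith [ht2.1], by linarith [ht2.2]⟩, fun q hq => ?_⟩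
  filter_upwards [h2 q ⟨by linarith [hq.1, ht2.2], hq.2⟩] with n hn
  refine ⟨hn.1, fun t ht => ?_⟩
  have ht0 : t ∈ Ioc 0 (Q.A n).T := ⟨by linarith [ht.1, ht2.1], ht.2.trans hn.1.le⟩
  have h3 := le_step hW (Q.back n) (Q.clock n) (Q.law n) ht0 hB0 hθ.le hθ1
    (hn.2 t ⟨by linarith [ht.1, ht2.2], ht.2⟩)
  have h4 := Zs_nonneg (Q.back n) (Q.law n) ht0
  have h5 : 2 * (tlo - ε) * Zs (Q.A n) 1 (Q.p n) t ≤
      (2 * tlo - θ * CE B M) * Zs (Q.A n) 1 (Q.p n) t :=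
    mul_le_mul_of_nonneg_right (by linarith) h4
  simp only [sc, if_true]
  linarith

end step

/-! ### Positions at one time -/

section pos

variable {lo hi tlo thi e0 κ M : ℝ} {D : WData} {σ e : ℝ} {V P u Y : ℝ → ℝ}

/-- `N₊ ≥ 0` -/
theorem Np_nonneg (hW : WS lo hi tlo thi e0 κ M D) {v : ℝ} (hv : v ∈ Ioo (0:ℝ) 1) :
    0 ≤ D.Np v := by
  have hN : ∀ y ∈ Ioo (0:ℝ) 1, 0 < D.Np1 y := by
    intro y hy
    have h1 := hy.1.trans_le (hW.Np_ge y hy)
    exact (pos_iff_pos_of_mul_pos h1).2 (hW.Km_pos y hy)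
  have hmono : MonotoneOn D.Np (Ioo 0 1) := by
    refine (strictMonoOn_of_deriv_pos (convex_Ioo 0 1)
      (fun y hy => (hW.dNp y hy).continuousAt.continuousWithinAt) fun y hy => ?_).monotoneOn
    rw [interior_Ioo] at hy
    rw [(hW.dNp y hy).deriv]
    exact hN y hy
  refine le_of_tendsto hW.Np_lim ?_
  filter_upwards [Ioo_mem_nhdsGT hv.1] with y hy
  exact hmono ⟨hy.1, hy.2.trans hv.2⟩ hv hy.2.le

theorem Ub1_neg (hW : WS lo hi tlo thi e0 κ M D) {v : ℝ} (hv : v ∈ Ioo (0:ℝ) 1) :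
    D.Ub1 v < 0 := by
  have h1 : 0 < -D.Ub1 v * D.Km v := (sub_pos.2 hv.2).trans_le (hW.Ub_ge v hv)
  have h2 := (pos_iff_pos_of_mul_pos h1).2 (hW.Km_pos v hv)
  linarith

/-- `Ub ≥ 0` -/
theorem Ub_nonneg (hW : WS lo hi tlo thi e0 κ M D) {v : ℝ} (hv : v ∈ Ioo (0:ℝ) 1) :
    0 ≤ D.Ub v := by
  have hanti : AntitoneOn D.Ub (Ioo 0 1) := by
    refine (strictAntiOn_of_deriv_neg (convex_Ioo 0 1)
      (fun y hy => (hW.dUb y hy).continuousAt.continuousWithinAt) fun y hy => ?_).antitoneOn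
    rw [interior_Ioo] at hy
    rw [(hW.dUb y hy).deriv]
    exact Ub1_neg hW hy
  refine le_of_tendsto hW.Ub_lim ?_
  filter_upwards [Ioo_mem_nhdsLT hv.2] with y hy
  exact hanti hv ⟨hv.1.trans hy.1, hy.2⟩ hy.1.le

theorem pos_up (hW : WS lo hi tlo thi e0 κ M D) (h : Fix σ V P u) (he1 : e < 1)
    (hb : ∀ x, (1 - e) * σ * D.Km (V x) ≤ P x) (x : ℝ) :
    (1 - e) * (σ * (x + u x)) ≤ D.Np (V x) := by
  have hs := h.s_pos
  have hm : ∀ x, V x ∈ Ioo (0:ℝ) 1 := fun x => ⟨h.V_pos x, h.V_lt x⟩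
  have hd : ∀ x, HasDerivAt (fun x => D.Np (V x) - (1 - e) * (σ * (x + u x)))
      (D.Np1 (V x) * P x - (1 - e) * (σ * V x)) x := fun x =>
    ((hW.dNp _ (hm x)).comp x (h.hV x)).sub (((h.hw x).const_mul σ).const_mul (1 - e))
  have hmono : Monotone (fun x => D.Np (V x) - (1 - e) * (σ * (x + u x))) := by
    apply monotone_of_deriv_nonneg (fun x => (hd x).differentiableAt)
    intro x
    rw [(hd x).deriv]
    have h1 := hW.Np_ge _ (hm x)
    have h0 : 0 < D.Np1 (V x) :=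
      (pos_iff_pos_of_mul_pos ((hm x).1.trans_le h1)).2 (hW.Km_pos _ (hm x))
    have h2 := mul_le_mul_of_nonneg_left (hb x) h0.le
    have h3 := mul_le_mul_of_nonneg_left h1 (mul_nonneg (sub_nonneg.2 he1.le) hs.le)
    nlinarith
  have hlim : Tendsto (fun y => -((1 - e) * (σ * (y + u y)))) atBot
      (𝓝 (-((1 - e) * (σ * 0)))) := ((h.w_bot.const_mul σ).const_mul (1 - e)).neg
  have h5 : -((1 - e) * (σ * 0)) ≤ D.Np (V x) - (1 - e) * (σ * (x + u x)) := by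
    refine le_of_tendsto hlim ?_
    filter_upwards [eventually_le_atBot x] with y hy
    have h6 := hmono hy
    have h7 := Np_nonneg hW (hm y)
    simp only at h6
    linarith
  linarith

theorem pos_lo (hW : WS lo hi tlo thi e0 κ M D) (h : Fix σ V P u) (he : 0 ≤ e)
    (hb : ∀ x, P x ≤ (1 + e) * σ * D.Kp (V x)) (x : ℝ) :
    D.Nm (V x) ≤ (1 + e) * (σ * (x + u x)) := by
  have hs := h.s_pos
  have hm : ∀ x, V x ∈ Ioo (0:ℝ) 1 := fun x => ⟨h.V_pos x, h.V_lt x⟩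
  have hd : ∀ x, HasDerivAt (fun x => (1 + e) * (σ * (x + u x)) - D.Nm (V x))
      ((1 + e) * (σ * V x) - D.Nm1 (V x) * P x) x := fun x =>
    (((h.hw x).const_mul σ).const_mul (1 + e)).sub ((hW.dNm _ (hm x)).comp x (h.hV x))
  have hmono : Monotone (fun x => (1 + e) * (σ * (x + u x)) - D.Nm (V x)) := by
    apply monotone_of_deriv_nonneg (fun x => (hd x).differentiableAt)
    intro x
    rw [(hd x).deriv]
    have hv := (hm x).1
    have hA : 0 ≤ (1 + e) * (σ * V x) := by positivity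
    rcases le_total (D.Nm1 (V x)) 0 with h0 | h0
    · have := mul_nonpos_of_nonpos_of_nonneg h0 (h.P_pos x).le
      linarith
    · have h1 := hW.Nm_le _ (hm x)
      have h2 := mul_le_mul_of_nonneg_left (hb x) h0
      have h3 := mul_le_mul_of_nonneg_left h1 (mul_nonneg (show 0 ≤ 1 + e by linarith) hs.le)
      nlinarith
  have hV' : Tendsto V atBot (𝓝[>] 0) :=
    tendsto_nhdsWithin_iff.2 ⟨h.V_bot, Eventually.of_forall fun y => (hm y).1⟩
  have hlim : Tendsto (fun y => (1 + e) * (σ * (y + u y)) - D.Nm (V y)) atBot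
      (𝓝 ((1 + e) * (σ * 0) - 0)) :=
    ((h.w_bot.const_mul σ).const_mul (1 + e)).sub (hW.Nm_lim.comp hV')
  have h5 : (1 + e) * (σ * 0) - 0 ≤ (1 + e) * (σ * (x + u x)) - D.Nm (V x) := by
    refine le_of_tendsto hlim ?_
    filter_upwards [eventually_le_atBot x] with y hy
    exact hmono hy
  linarith

theorem pos_ub (hW : WS lo hi tlo thi e0 κ M D) (h : Fix σ V P u) (he1 : e < 1)
    (hb : ∀ x, (1 - e) * σ * D.Km (V x) ≤ P x) (x : ℝ) :
    (1 - e) * (σ * u x) ≤ D.Ub (V x) := by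
  have hs := h.s_pos
  have hm : ∀ x, V x ∈ Ioo (0:ℝ) 1 := fun x => ⟨h.V_pos x, h.V_lt x⟩
  have hd : ∀ x, HasDerivAt (fun x => D.Ub (V x) - (1 - e) * (σ * u x))
      (D.Ub1 (V x) * P x - (1 - e) * (σ * (V x - 1))) x := fun x =>
    ((hW.dUb _ (hm x)).comp x (h.hV x)).sub (((h.hu x).const_mul σ).const_mul (1 - e))
  have hanti : Antitone (fun x => D.Ub (V x) - (1 - e) * (σ * u x)) := by
    apply antitone_of_deriv_nonpos (fun x => (hd x).differentiableAt)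
    intro x
    rw [(hd x).deriv]
    have h1 := hW.Ub_ge _ (hm x)
    have h0 := Ub1_neg hW (hm x)
    have h2 := mul_le_mul_of_nonneg_left (hb x) (neg_nonneg.2 h0.le)
    have h3 := mul_le_mul_of_nonneg_left h1 (mul_nonneg (sub_nonneg.2 he1.le) hs.le)
    nlinarith
  have hlim : Tendsto (fun y => -((1 - e) * (σ * u y))) atTop
      (𝓝 (-((1 - e) * (σ * 0)))) := ((h.u_top.const_mul σ).const_mul (1 - e)).neg
  have h5 : -((1 - e) * (σ * 0)) ≤ D.Ub (V x) - (1 - e) * (σ * u x) := by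
    refine le_of_tendsto hlim ?_
    filter_upwards [eventually_ge_atTop x] with y hy
    have h6 := hanti hy
    have h7 := Ub_nonneg hW (hm y)
    simp only at h6
    linarith
  linarith

/-- `(1-e) a ≤ b`, `2 e ≤ e0 ≤ 1/100` give `a ≤ (1+e0) b`. -/
theorem div_aux {a b : ℝ} (he : 0 ≤ e) (he2 : 2 * e ≤ e0) (he0 : e0 ≤ 1 / 100)
    (h : (1 - e) * a ≤ b) (hb : 0 ≤ b) : a ≤ (1 + e0) * b := by
  have h1 : 0 < 1 - e := by linarith
  have h2 : (1 - e) * a ≤ (1 - e) * ((1 + e0) * b) := by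
    have h3 : 1 ≤ (1 - e) * (1 + e0) := by nlinarith
    have h4 := mul_le_mul_of_nonneg_right h3 hb
    linarith
  exact le_of_mul_le_mul_left h2 h1

/-- `One` from the slope band (error `e`) and the law band (error `θ`). -/
theorem one_of (hW : WS lo hi tlo thi e0 κ M D) (h : Fix σ V P u) (he : 0 ≤ e)
    (he2 : 2 * e ≤ e0) {B θ : ℝ}
    (hb : ∀ x, (1 - e) * σ * D.Km (V x) ≤ P x ∧ P x ≤ (1 + e) * σ * D.Kp (V x))
    (lo0 : ∀ x, -(σ * (θ * (B + σ * u x))) ≤ Y x)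
    (lo1 : ∀ x, σ * (D.Fm (σ * (x + u x)) - θ * (B + σ * u x)) ≤ Y x)
    (up1 : ∀ x, Y x ≤ σ * (D.Fp (σ * (x + u x)) + θ * (B + σ * (x + u x)))) :
    One e0 B θ D σ V P u Y := by
  have hs := h.s_pos
  have he0 := hW.e0_pos
  have he0' := hW.e0_le
  have he1 : e < 1 := by linarith
  have hm : ∀ x, V x ∈ Ioo (0:ℝ) 1 := fun x => ⟨h.V_pos x, h.V_lt x⟩
  refine ⟨fun x => ⟨(hm x).1, (hm x).2, mul_pos hs (h.w_pos x), ?_, ?_, ?_, ?_⟩, fun x => ?_,
    lo0, lo1, up1⟩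
  · have h1 := pos_lo hW h he (fun x => (hb x).2) x
    have h2 := hW.Nm_nonneg _ (hm x)
    have h3 := mul_pos hs (h.w_pos x)
    have h4 : (1 - e0) * D.Nm (V x) ≤ (1 - e0) * ((1 + e) * (σ * (x + u x))) :=
      mul_le_mul_of_nonneg_left h1 (by linarith)
    have h5 : (1 - e0) * (1 + e) ≤ 1 := by nlinarith
    have h6 := mul_le_mul_of_nonneg_right h5 h3.le
    linarith
  · exact div_aux he he2 he0' (pos_up hW h he1 (fun x => (hb x).1) x) (Np_nonneg hW (hm x))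
  · rw [le_div_iff₀ hs]
    have h1 := (hb x).1
    have h2 := hW.Km_pos _ (hm x)
    have h3 : (1 - e0) * (D.Km (V x) * σ) ≤ (1 - e) * (D.Km (V x) * σ) :=
      mul_le_mul_of_nonneg_right (by linarith) (mul_pos h2 hs).le
    linarith
  · rw [div_le_iff₀ hs]
    have h1 := (hb x).2
    have h2 := hW.Kp_pos _ (hm x)
    have h3 : (1 + e) * (D.Kp (V x) * σ) ≤ (1 + e0) * (D.Kp (V x) * σ) :=
      mul_le_mul_of_nonneg_right (by linarith) (mul_pos h2 hs).le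
    linarith
  · exact div_aux he he2 he0' (pos_ub hW h he1 (fun x => (hb x).1) x) (Ub_nonneg hW (hm x))

end pos

/-- **(CLOS)** -/
theorem clos : PtRefIf_847.CLOS := by
  intro lo hi tlo thi e0 κ M D hW ρ hρ
  obtain ⟨θ, hθ, hθ1, hθ2⟩ := th_exists 1 M zero_le_one hW.M_pos.le hρ
  have he0 := hW.e0_pos
  refine ⟨min θ (e0 / 2), lt_min hθ (by linarith), ?_⟩
  intro A hB hC p Y Yx Yxx hL t ht hSB hLB
  set e := min θ (e0 / 2) with he
  have hepos : 0 < e := lt_min hθ (by linarith)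
  have heθ : e ≤ θ := min_le_left _ _
  have hee0 : 2 * e ≤ e0 := by
    have := min_le_right θ (e0 / 2)
    linarith
  have ht0 : t ∈ Icc 0 A.T := ⟨ht.1.le, ht.2⟩
  have hO : OneA e0 1 e D A Y t :=
    one_of hW (FixA_423.fix_chi A ht0) hepos.le hee0 hSB (fun x => (hLB x).2.1)
      (fun x => (hLB x).1) (fun x => (hLB x).2.2)
  have h72 : 72 * (e * (1 + 8)) ≤ 1 := by
    have := mul_le_mul_of_nonneg_right heθ (show (0:ℝ) ≤ 1 + 8 by norm_num)
    linarith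
  have hCE : e * CE 1 M ≤ 2 * ρ := by
    have := mul_le_mul_of_nonneg_right heθ (CE_nonneg zero_le_one hW.M_pos.le)
    linarith
  have hZ := Zs_nonneg hB hL ht
  constructor
  · refine (step_le hW hB hC hL ht zero_le_one hepos.le h72 hO).trans ?_
    exact mul_le_mul_of_nonneg_right (by linarith) hZ
  · refine le_trans ?_ (le_step hW hB hC hL ht zero_le_one hepos.le h72 hO)
    exact mul_le_mul_of_nonneg_right (by linarith) hZ

end

end Crest.Agent.R146.RefClo_42
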