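import Crest.Agent.R146.PtTipC_52

/-!
Row 146 (S0205), package PT: assembly of `PTMAIN` with the window `[0, 7/10]` as input (helper52;
requested by helper746, post 1324).

* `ptmainW` : `PTMAIN` from the window of each tip sequence, a closed pair and the contraction.
-/

set_option autoImplicit false

namespace Crest.Agent.R146.PtTipW_52

open MeasureTheory Set Filter Topology
open Crest.Agent.R146.TipSeq_791 Crest.Agent.R146.SPair_307
open Crest.Agent.R146.PtScalA_45 (Prof)
open Crest.Agent.R146.PtTip_164 Crest.Agent.R146.PtTipC_52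

/-- `PTMAIN` from the window `[0, 7/10]`, a closed pair and the contraction. -/
theorem ptmainW {g : ℝ} (hg : g < 1) (hW : ∀ P : Prof, TipSeq P → Win P 1 0 hiA)
    (hC : CLOSED) (hR : REFC g) : PTMAIN := by
  intro P hP
  obtain ⟨c, W, V, I, k, hp⟩ := hC
  have hcb := c_bounds hp
  have w0 : Win P 1 0 hiA := hW P hP
  refine end_closed hP hp (tendsto_of_refc hg hp.c_pos ?_ ((win_iff P 1 0 hiA).1 w0) ?_)
  · unfold hiA; linarith [hcb.1]
  · intro δ hδ hδc hw
    exact (win_iff P 1 _ _).1 (hR P hP c W V I k hp δ hδ hδc ((win_iff P 1 _ _).2 hw))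

end Crest.Agent.R146.PtTipW_52
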