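import Crest.Agent.R146.PtRefIf_847
import Crest.Agent.R146.Fix2_181
import Crest.Agent.R146.PtTipW_52

/-!
Row 146 (S0205), package PT: EDGE `WINREF → NUMREF → REFC gr` (helper131, PM-C).

* `WINREF` (`PtRefIf_847`) : the one theorem of the PDE side;
* `closed : CLOSED` (from `Fix2_181.exists_closed`);
* `refc_of : WINREF → NUMREF → REFC gr`;
* `ptmain_of` : `PTMAIN` from the window `[0, 7/10]`, `WINREF`, `NUMREF`.
-/

set_option autoImplicit false

namespace Crest.Agent.R146.RefEdge_131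

open Set Filter Topology
open Crest.Agent.R146.TipSeq_791 Crest.Agent.R146.SPair_307
open Crest.Agent.R146.PtScalA_45 (Prof)
open Crest.Agent.R146.PtTip_164 Crest.Agent.R146.PtTipC_52 Crest.Agent.R146.PtRef_846

/-- the window `[0, 7/10]` of every tip sequence -/
def WINA : Prop := ∀ P : Prof, TipSeq P → Win P 1 0 hiA

/-- **CLOSED** is a theorem (helper181) -/
theorem closed : CLOSED := by
  obtain ⟨c, W, V, I, k, -, -, h⟩ := Fix2_181.exists_closed
  exact ⟨c, W, V, I, k, h⟩

theorem refc_of (hW : PtRefIf_847.WINREF) (hN : NUMREF) : REFC gr := by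
  intro P hP c W V I k hp δ hδ hδc hw
  obtain ⟨e0, κ, M, D, hS⟩ := hN c W V I k hp δ hδ hδc
  exact hW P hP _ _ _ _ e0 κ M D hS hw

theorem gr_lt : gr < 1 := by unfold gr; norm_num

/-- **PTMAIN** -/
theorem ptmain_of (hA : WINA) (hW : PtRefIf_847.WINREF) (hN : NUMREF) : PTMAIN :=
  PtTipW_52.ptmainW gr_lt hA closed (refc_of hW hN)

end Crest.Agent.R146.RefEdge_131
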