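import Crest.Agent.R146.WSBand_371
import Crest.Agent.R146.PtRefIf_847

/-!
Row 146 (helper371): `PtRefIf_847.SLOPE`, from the adapter `WSBand_371.ws_band`.
-/

set_option autoImplicit false

open Set Filter Topology

namespace Crest.Agent.R146.SlopeThm_371

open Band_371 WSBand_371 StepDef_791 PtRef_846 PtRefIf_847
open YW_177 (sN)

/-- the slope band in the form `SB`, with one rate -/
theorem slope_core {lo hi tlo thi e0 κ M : ℝ} {D : WData} (hW : WS lo hi tlo thi e0 κ M D)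
    (hge : ∃ M', ∀ v ∈ Ioo (0:ℝ) 1, -M' ≤ D.Km v * D.Km2 v) :
    ∃ C k : ℝ, 0 ≤ C ∧ 0 < k ∧ ∀ A : SD, Back A → Clock A → ∀ ta tb : ℝ, 0 ≤ ta → ta ≤ tb →
      tb ≤ A.T →
      (∀ t ∈ Ico ta A.T, A.b t * A.chi t ≤ hi + e0) →
      (∀ t ∈ Ico ta tb, lo - e0 ≤ A.b t * A.chi t) →
      ∀ t ∈ Icc ta tb, SB A D (C * (A.K0 tb / A.K0 t) ^ k) t := by
  obtain ⟨C, κ', hC, hκ', h⟩ := ws_band hW hge
  have hκ := hW.κ_pos
  refine ⟨max C 1, min κ κ', hC.trans (le_max_left _ _), lt_min hκ hκ', ?_⟩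
  intro A hB hCl ta tb hta hab htb hY1 hY2 t ht x
  have hk := clk1 hCl
  have htI : t ∈ Icc 0 A.T := ⟨hta.trans ht.1, ht.2.trans htb⟩
  have htbI : tb ∈ Icc 0 A.T := ⟨hta.trans hab, htb⟩
  obtain ⟨h1, h2⟩ := h A hB hCl ta tb hta htb (fun s hs => hY1 s ⟨hab.trans hs.1, hs.2⟩)
    (fun s hs => ⟨hY2 s hs, hY1 s ⟨hs.1, hs.2.trans_le htb⟩⟩) t ht x
  have hr0 : 0 < A.K0 tb / A.K0 t := div_pos (hk.kpos _ htbI) (hk.kpos _ htI)
  have hr1 : A.K0 tb / A.K0 t ≤ 1 :=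
    (div_le_one (hk.kpos _ htI)).2 (k_anti hk htI htbI ht.2)
  set r := A.K0 tb / A.K0 t with hr
  have hVI : A.V t x ∈ Ioo (0:ℝ) 1 := by
    obtain ⟨M, hM⟩ := hB.bsys
    exact ⟨hM.V_pos t htI x, hM.V_lt t htI x⟩
  have hs : 0 < sf A.chi t := sf_pos hk htI
  have hsN : sN A t = sf A.chi t := rfl
  have hrk : 0 ≤ r ^ (min κ κ') := Real.rpow_nonneg hr0.le _
  have e1 : tr A.K0 tb 1 κ' t ≤ max C 1 * r ^ (min κ κ') := by
    unfold tr
    rw [← hr, one_mul]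
    calc r ^ κ' ≤ r ^ (min κ κ') :=
          Real.rpow_le_rpow_of_exponent_ge hr0 hr1 (min_le_right _ _)
      _ = 1 * r ^ (min κ κ') := (one_mul _).symm
      _ ≤ _ := mul_le_mul_of_nonneg_right (le_max_right _ _) hrk
  have e2 : tr A.K0 tb C κ t ≤ max C 1 * r ^ (min κ κ') := by
    unfold tr
    rw [← hr]
    exact mul_le_mul (le_max_left _ _)
      (Real.rpow_le_rpow_of_exponent_ge hr0 hr1 (min_le_left _ _)) (Real.rpow_nonneg hr0.le _)
      (hC.trans (le_max_left _ _))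
  rw [hsN]
  constructor
  · refine le_trans ?_ h1
    exact mul_le_mul_of_nonneg_right
      (mul_le_mul_of_nonneg_right (by linarith) hs.le) (hW.Km_pos _ hVI).le
  · refine h2.trans ?_
    exact mul_le_mul_of_nonneg_right
      (mul_le_mul_of_nonneg_right (by linarith) hs.le) (hW.Kp_pos _ hVI).le

/-- `SLOPE` as soon as `K₋ K₋''` is bounded below for every window step -/
theorem slope_of (hge : ∀ {lo hi tlo thi e0 κ M : ℝ} {D : WData}, WS lo hi tlo thi e0 κ M D →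
    ∃ M', ∀ v ∈ Ioo (0:ℝ) 1, -M' ≤ D.Km v * D.Km2 v) : SLOPE := by
  intro lo hi tlo thi e0 κ M D hW
  exact slope_core hW (hge hW)

/-- **SLOPE** -/
theorem slope : SLOPE := by
  intro lo hi tlo thi e0 κ M D hW
  exact slope_core hW ⟨M, hW.KKm_ge⟩

end Crest.Agent.R146.SlopeThm_371
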