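import Crest.Agent.R146.FlatStep_384
import Crest.Agent.R146.Back_847
import Crest.Agent.R146.StepAsm_791

/-!
Row 146: `StepAsm_791.START` (helper384): one-sided bounds of the slope of the law at a fixed time,
uniform in the step datum.
-/

set_option autoImplicit false

open Set Filter Topology

namespace Crest.Agent.R146.Start_384

open StepDef_791 FlatStep_384

lemma bl_le {A : SD} {t0 B : ℝ} (h : ∀ t ∈ Icc 0 t0, A.b t ≤ B) {t : ℝ} (ht : t ∈ Ioc 0 t0) :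
    A.bl t ≤ B := by
  obtain ⟨η, hη, -, hm, -⟩ := StepClk_900.left_struct A t
  have h1 : Tendsto (fun s => A.ml t / A.D s) (𝓝[<] t) (𝓝 (A.ml t / A.D t)) :=
    (tendsto_const_nhds.div ((StepClk_900.D_cont A).tendsto t) (A.D_pos t).ne').mono_left
      nhdsWithin_le_nhds
  have h2 : ∀ᶠ s in 𝓝[<] t, A.ml t / A.D s ≤ B := by
    have h3 : ∀ᶠ s in 𝓝[<] t, max 0 (t - η) < s :=
      (eventually_gt_nhds (max_lt ht.1 (by linarith))).filter_mono nhdsWithin_le_nhds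
    filter_upwards [h3, self_mem_nhdsWithin] with s hs hst
    have h4 : 0 < s := (le_max_left _ _).trans_lt hs
    have h5 : t - η < s := (le_max_right _ _).trans_lt hs
    have hst' : s < t := hst
    have h6 := h s ⟨h4.le, hst'.le.trans ht.2⟩
    unfold SD.b at h6
    rwa [hm s ⟨h5.le, hst'⟩] at h6
  exact le_of_tendsto h1 h2

/-- `b ≤ ...` in the form `b (1-t) ≤ 1` -/
theorem start : StepAsm_791.START := by
  intro t0 ht0 B
  set B' := max B 0 with hB'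
  set m := mst B' (√(1 - t0))⁻¹ t0 with hm
  refine ⟨1 / t0 + m, ?_⟩
  intro A p Y Yx Yxx hL hfirst ht0T hν hb x
  obtain ⟨s1, hs1, hf⟩ := hfirst
  have hBk := Back_847.back A
  have hν' : ∀ t ∈ Ico 0 A.T, A.b t * (1 - t) ≤ 1 := fun t ht => by
    rw [mul_comm]; exact hν t ht
  have hB0 : 0 ≤ B' := le_max_right _ _
  have hBt : ∀ t ∈ Ioc 0 t0, A.bl t ≤ B' := fun t ht => (bl_le hb ht).trans (le_max_left _ _)
  have hP0 : 0 ≤ (√(1 - t0))⁻¹ := by positivity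
  have hm0 : 0 ≤ m := by rw [hm]; unfold mst; positivity
  have hU : ∀ t ∈ Ioc 0 t0, A.u t 1 ≤ 1 := fun t ht =>
    step_u_x0 hBk hν' ⟨ht.1.le, ht.2.trans ht0T.le⟩ zero_le_one
  have h1 := start_up (x0 := 1) hBk hL.ysys ⟨s1, hs1.1, hf⟩ ht0T.le hB0 hBt hP0
    (step_P_le' hBk hν' ht0T.le) hU t0 ⟨ht0.1, le_refl _⟩ x
  have h2 := start_low (x0 := 1) hBk hL.ysys ⟨s1, hs1.1, hf⟩ ht0T.le hB0 hBt hP0
    (step_P_le' hBk hν' ht0T.le) hU t0 ⟨ht0.1, le_refl _⟩ x
  rw [← hm] at h1 h2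
  have htI : t0 ∈ Icc 0 A.T := ⟨ht0.1.le, ht0T.le⟩
  have hu := hBk.u_pos t0 htI x
  have hw := hBk.w_pos t0 htI x
  have hwe : A.w t0 x = x + A.u t0 x := rfl
  have ht0p := ht0.1
  have hx1 : (x - 1) / t0 ≤ 1 / t0 * A.w t0 x := by
    rw [div_le_iff₀ ht0p]
    have : 1 / t0 * A.w t0 x * t0 = A.w t0 x := by field_simp
    rw [this, hwe]; linarith
  have hx2 : -(1 / t0 * (1 + A.u t0 x)) ≤ (x - 1) / t0 := by
    rw [le_div_iff₀ ht0p]
    have : -(1 / t0 * (1 + A.u t0 x)) * t0 = -(1 + A.u t0 x) := by field_simp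
    rw [this]; linarith
  have hmw : 0 ≤ m * A.w t0 x := mul_nonneg hm0 hw.le
  have ht0i : 0 ≤ 1 / t0 := by positivity
  constructor
  · nlinarith
  · nlinarith

end Crest.Agent.R146.Start_384
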