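import Crest.Agent.R146.YWStep_177
import Crest.Agent.R146.PtRefIf_847

/-!
Row 146, PT (helper177): the Prop `PtRefIf_847.LAW` (law bands from a start at `t0`).
-/

set_option autoImplicit false

open Set Filter Topology

namespace Crest.Agent.R146.YWLaw_177

open MaxP_371 MaxP2_371 MaxPCmp_371 MaxPCmp2_371 YW_177 YWRef_177 YWStep_177 StepDef_791
  StepLim_692 PtRef_846 PtRefIf_847

variable {lo hi tlo thi e0 κ M : ℝ} {D : WData}

lemma sband_of_SB {A : SD} {e t : ℝ} (h : SB A D e t) : SBand A D e t := fun x => by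
  obtain ⟨h1, h2⟩ := h x
  rw [mul_assoc] at h1 h2
  exact ⟨h1, h2⟩

lemma SB_of_sband {A : SD} {e t : ℝ} (h : SBand A D e t) : SB A D e t := fun x => by
  obtain ⟨h1, h2⟩ := h x
  rw [← mul_assoc] at h1 h2
  exact ⟨h1, h2⟩

/-- lower bound by `0` with explicit transient -/
theorem neg_low (hw : WS lo hi tlo thi e0 κ M D) {A : SD} {x0 : ℝ} {p Y Yx Yxx : ℝ → ℝ → ℝ}
    {t0 q k B θ0 : ℝ} (hA : Back A) (hC : Clock A)
    (hL : Law A x0 p Y Yx Yxx) (h0 : 0 < t0) (h0T : t0 < A.T) (hq : q ≤ A.T)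
    (hB : 0 ≤ B) (hk : k ≤ (1 - (hi + e0)) / 2)
    (hBk : (1 + e0) * M ≤ B * ((1 - (hi + e0)) / 2 - k)) (hθ : 0 ≤ θ0)
    (hn : ∀ t ∈ Ioc t0 q, Wn A lo hi e0 t) (hb : ∀ t ∈ Ioc t0 q, SBand A D (e0 / 2) t)
    (hstart : ∀ x, -(sN A t0 * (θ0 * (B + sN A t0 * A.u t0 x))) ≤ Y t0 x) :
    ∀ t ∈ Icc t0 q, ∀ x,
      -(sN A t * (thN A t0 θ0 k t * (B + sN A t * A.u t x))) ≤ Y t x := by
  have h01 : t0 < 1 := h0T.trans A.hT1
  obtain ⟨M', hYs⟩ := hL.ysys t0 ⟨h0, h0T⟩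
  have hYq := YSys.restrict hYs hq
  have hLq := LSys.restrict (LSys.of_back hA h0.le) hq
  have hCq := LClock.restrict (lclock_new hC h0 h01 θ0 k) hq
  have hlt : ∀ t ∈ Icc t0 q, t < 1 := fun t ht => (ht.2.trans hq).trans_lt A.hT1
  have hy : ∀ t ∈ Ioc t0 q, A.bl t / sN A t ^ 2 = A.ml t * A.K0 t :=
    fun t ht => y_eq hC (hlt t ⟨ht.1.le, ht.2⟩)
  have hI : ∀ t ∈ Ioc t0 q, t ∈ Icc 0 A.T := fun t ht => ⟨(h0.trans ht.1).le, ht.2.trans hq⟩
  have e1 := hw.e0_pos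
  have hhi := hw.hi_lt
  have hadm : ∀ t ∈ Ioc t0 q, ∀ x,
      AdmR e0 D (A.V t x) (sN A t * A.w t x) (A.P t x / sN A t) := fun t ht x =>
    adm_of hw hA hC (hI t ht) (by linarith) le_rfl (hb t ht) x
  refine neg_le_law (μ := (1 - (hi + e0)) / 2) (Im := (1 + e0) * M) hYq hLq hCq hB
    (fun t ht => thN_nonneg hC h01 (hlt t ht) hθ) (by linarith) hk hBk ?_ ?_ ?_ ?_
  · intro t ht
    rw [hy t ht]
    have := (hn t ht).2.2
    linarith
  · intro t ht x
    rw [hy t ht]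
    obtain ⟨n1, n2, n3⟩ := hn t ht
    obtain ⟨v1, v2⟩ := V_mem hA (hI t ht) x
    have h5 : 0 ≤ A.ml t * A.K0 t * A.V t x := mul_nonneg n1 v1.le
    have h6 : (1 + A.ml t * A.K0 t) / 2 - A.ml t * A.K0 t * (1 - A.V t x) =
      (1 - A.ml t * A.K0 t) / 2 + A.ml t * A.K0 t * A.V t x := by ring
    rw [h6]
    linarith
  · intro t ht x
    have h1 := (hadm t ht x).J_hi
    have h2 := hw.Kp_le _ (V_mem hA (hI t ht) x)
    have h3 : (1 + e0) * D.Kp (A.V t x) ≤ (1 + e0) * M :=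
      mul_le_mul_of_nonneg_left h2 (by linarith)
    exact h1.trans h3
  · intro x
    rw [thN_self hC h01]
    exact hstart x

/-- **LAW** -/
theorem law : LAW := by
  intro lo hi tlo thi e0 κ M D hw C0 s0 hC0 hs0
  have hκ := hw.κ_pos
  have hM := hw.M_pos
  have he := hw.e0_pos
  have hhi := hw.hi_lt
  set μ : ℝ := min κ ((1 - (hi + e0)) / 2) with hμ
  have hμ0 : 0 < μ := lt_min hκ (by linarith)
  have hμκ : μ ≤ κ := min_le_left _ _
  have hμh : μ ≤ (1 - (hi + e0)) / 2 := min_le_right _ _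
  set k : ℝ := min (μ / 2) (1 / 2) with hk
  have hk0 : 0 < k := lt_min (by linarith) (by norm_num)
  have hk1 : k ≤ μ / 2 := min_le_left _ _
  have hk2 : k ≤ 1 / 2 := min_le_right _ _
  set B : ℝ := 2 * ((1 + e0) * M + M) / μ + 1 with hBdef
  have hB1 : 1 ≤ B := by
    have : 0 ≤ 2 * ((1 + e0) * M + M) / μ := by positivity
    linarith
  have hB0 : 0 < B := by linarith
  have hBμ : (1 + e0) * M + M ≤ B * (μ - k) := by
    have h1 : B * (μ / 2) ≤ B * (μ - k) := mul_le_mul_of_nonneg_left (by linarith) hB0.le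
    have h2 : B * (μ / 2) = (1 + e0) * M + M + μ / 2 := by
      rw [hBdef]; field_simp
    linarith
  have hBκ : (1 + e0) * M + M ≤ B * (κ - k) :=
    hBμ.trans (mul_le_mul_of_nonneg_left (by linarith) hB0.le)
  have hBh : (1 + e0) * M ≤ B * ((1 - (hi + e0)) / 2 - k) := by
    have := mul_le_mul_of_nonneg_left (show μ - k ≤ (1 - (hi + e0)) / 2 - k by linarith) hB0.le
    linarith
  set θ0 : ℝ := C0 / s0 ^ 2 + (C0 / s0 + M) with hθdef
  have hθ0 : 0 < θ0 := by positivity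
  refine ⟨θ0 * B, k, by positivity, hk0, ?_⟩
  intro A hA hC p Y Yx Yxx hL t0 q h0 h0q hq hs hn' hb' hstart t ht x
  have h0T : t0 < A.T := h0q.trans_le hq
  have h01 : t0 < 1 := h0T.trans A.hT1
  have ht1 : t < 1 := (ht.2.trans hq).trans_lt A.hT1
  have hst0 : 0 < sN A t0 := sN_pos hC h01
  have hst : 0 < sN A t := sN_pos hC ht1
  have h0I : t0 ∈ Icc 0 A.T := ⟨h0.le, h0T.le⟩
  have htI : t ∈ Icc 0 A.T := ⟨h0.le.trans ht.1, ht.2.trans hq⟩
  have hn : ∀ t ∈ Ioc t0 q, Wn A lo hi e0 t := fun r hr =>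
    ⟨mul_nonneg (A.ml_nonneg r) (hC.K0_pos r ((hr.2.trans hq).trans_lt A.hT1)).le,
      hn' r ⟨hr.1.le, hr.2⟩⟩
  have hb : ∀ t ∈ Ioc t0 q, SBand A D (e0 / 2) t := fun r hr =>
    sband_of_SB (hb' r ⟨hr.1.le, hr.2⟩)
  -- start constants
  have hc1 : C0 + sN A t0 * M ≤ sN A t0 * (C0 / s0 + M) := by
    have h1 : C0 ≤ sN A t0 * (C0 / s0) := by
      have h2 : C0 = s0 * (C0 / s0) := by field_simp
      calc C0 = s0 * (C0 / s0) := h2
        _ ≤ _ := mul_le_mul_of_nonneg_right hs (by positivity)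
    linarith
  have hc2 : C0 ≤ sN A t0 ^ 2 * (C0 / s0 ^ 2) := by
    have h2 : C0 = s0 ^ 2 * (C0 / s0 ^ 2) := by field_simp
    calc C0 = s0 ^ 2 * (C0 / s0 ^ 2) := h2
      _ ≤ _ := mul_le_mul_of_nonneg_right (pow_le_pow_left₀ hs0.le hs 2) (by positivity)
  have hθB : C0 / s0 + M ≤ θ0 * B := by
    have h1 : 0 ≤ C0 / s0 ^ 2 := by positivity
    have h2 : θ0 * 1 ≤ θ0 * B := mul_le_mul_of_nonneg_left hB1 hθ0.le
    linarith
  have hc3 : C0 + sN A t0 * M ≤ sN A t0 * (θ0 * B) :=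
    hc1.trans (mul_le_mul_of_nonneg_left hθB hst0.le)
  have hc4 : C0 ≤ sN A t0 ^ 2 * θ0 := by
    refine hc2.trans (mul_le_mul_of_nonneg_left ?_ (sq_nonneg _))
    have : 0 ≤ C0 / s0 + M := by positivity
    linarith
  have hsM : 0 ≤ sN A t0 * M := mul_nonneg hst0.le hM.le
  have hth0 : 0 ≤ thN A t0 θ0 k t := thN_nonneg hC h01 ht1 hθ0.le
  -- the error
  have herr : ∀ z : ℝ, 0 ≤ z → thN A t0 θ0 k t * (B + z) ≤
      θ0 * B * (A.K0 t / A.K0 t0) ^ k * (1 + z) := by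
    intro z hz
    have h1 : θ0 * B * (A.K0 t / A.K0 t0) ^ k * (1 + z) = thN A t0 θ0 k t * (B * (1 + z)) := by
      unfold thN; ring
    rw [h1]
    refine mul_le_mul_of_nonneg_left ?_ hth0
    have : z ≤ B * z := by nlinarith
    linarith
  have hu0 := hA.u_pos t htI x
  have hw0 := hA.w_pos t htI x
  have eu := herr _ (mul_pos hst hu0).le
  have ew := herr _ (mul_pos hst hw0).le
  refine ⟨?_, ?_, ?_⟩
  · refine le_trans ?_ (law_low (B := B) (k := k) (θ0 := θ0) hw hA hC hL h0 h0T hq hB0.le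
      (by linarith) hBκ hθ0.le hn hb ?_ t ht x)
    · exact mul_le_mul_of_nonneg_left (by linarith) hst.le
    · intro y
      refine le_trans ?_ (hstart y).1
      have hu := (hA.u_pos t0 h0I y).le
      have h3 := mul_le_mul_of_nonneg_right hc4 hu
      have h4 : sN A t0 * (M - θ0 * (B + sN A t0 * A.u t0 y)) =
        sN A t0 * M - sN A t0 * (θ0 * B) - sN A t0 ^ 2 * θ0 * A.u t0 y := by ring
      have h5 : C0 * (1 + A.u t0 y) = C0 + C0 * A.u t0 y := by ring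
      linarith
  · refine le_trans ?_ (neg_low (B := B) (k := k) (θ0 := θ0) hw hA hC hL h0 h0T hq hB0.le
      (by linarith) hBh hθ0.le hn hb ?_ t ht x)
    · exact neg_le_neg (mul_le_mul_of_nonneg_left eu hst.le)
    · intro y
      refine le_trans ?_ (hstart y).1
      have hu := (hA.u_pos t0 h0I y).le
      have h3 := mul_le_mul_of_nonneg_right hc4 hu
      have h4 : sN A t0 * (θ0 * (B + sN A t0 * A.u t0 y)) =
        sN A t0 * (θ0 * B) + sN A t0 ^ 2 * θ0 * A.u t0 y := by ring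
      have h5 : C0 * (1 + A.u t0 y) = C0 + C0 * A.u t0 y := by ring
      linarith
  · refine (law_up (B := B) (k := k) (θ0 := θ0) hw hA hC hL h0 h0T hq hB0.le hk2
      (by linarith) hθ0.le hn hb ?_ t ht x).trans ?_
    · intro y
      refine (hstart y).2.trans ?_
      have hw1 := (hA.w_pos t0 h0I y).le
      have h3 := mul_le_mul_of_nonneg_right hc4 hw1
      have h4 : sN A t0 * (θ0 * (B + sN A t0 * A.w t0 y)) =
        sN A t0 * (θ0 * B) + sN A t0 ^ 2 * θ0 * A.w t0 y := by ring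
      have h5 : C0 * (1 + A.w t0 y) = C0 + C0 * A.w t0 y := by ring
      linarith
    · exact mul_le_mul_of_nonneg_left (by linarith) hst.le

end Crest.Agent.R146.YWLaw_177
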