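import Crest.Agent.R146.StepAsm_791
import Crest.Agent.R146.PLaw_791
import Crest.Agent.R146.Law_534
import Crest.Agent.R146.Start_384
import Crest.Agent.R146.PtRefAsm_847
import Crest.Agent.R146.SlopeThm_371
import Crest.Agent.R146.YWLaw_177
import Crest.Agent.R146.RefClo_42
import Crest.Agent.R146.RefEdge_131
import Crest.Agent.R146.PtWin_746

/-!
Row 146 (helper131, PM-C): the nodes of S0205 which are theorems (glue only).

* `plaw : PLAW` (534, 791, 847); `start : START` (384);
* `winref : WINREF` (371, 177, 42, 847); `wina : WINA` (746, 454, 937).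
-/

set_option autoImplicit false

namespace Crest.Agent.R146.Nodes_131

open Set Filter Topology
open Crest.Agent.R146.TipSeq_791 Crest.Agent.R146.StepAsm_791

theorem plaw : PLAW := by
  refine ⟨fun A => YB_534.Yp A 1, fun A => YB_534.Yxp A 1, fun A => YB_534.Yxxp A 1, fun A => ?_⟩
  have hB := Back_847.back A
  have hL := Law_534.law A hB 1
  exact ⟨hL, PLaw_791.first_cell hB hL, PLaw_791.yst hB hL⟩

theorem start : START := Start_384.start

theorem winref : PtRefIf_847.WINREF :=
  PtRefAsm_847.winref_of SlopeThm_371.slope YWLaw_177.law RefClo_42.clos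

theorem wina : RefEdge_131.WINA := PtWin_746.winA

/-- `PTMAIN` from `NUMREF` -/
theorem ptmain_of (hN : PtRef_846.NUMREF) : PTMAIN :=
  RefEdge_131.ptmain_of wina winref hN

end Crest.Agent.R146.Nodes_131
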