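import Crest.Agent.R164.CoinIBP
import Crest.Agent.R164.CavG2

/-!
Row 146, S0206, node NOISE (item (3) of the paper proof 146-674-1): the noise of one step of a coin
field forces linear purity (small Hilbert-Schmidt norm of the conditional covariance).
Abstract form, on the finite hierarchical calculus of row 141 and the coin integration by parts of
row 164.
-/

set_option autoImplicit false

namespace Crest.Agent.R146.Noise_143

open Finset Crest.Agent.R141 Crest.Agent.R164 Crest.Agent.R164.CoinIBP Crest.Agent.R164.CavG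

noncomputable section

section gen

variable {Ω : Type*} [Fintype Ω] {T : Ω → ℝ} {𝓕 : Filt Ω} {x : ℕ → ℝ}

/-- `W = x_L f - ∑_{k ≤ j < L} (x_{j+1} - x_j) E_j f`. -/
def Wf (T : Ω → ℝ) (𝓕 : Filt Ω) (x : ℕ → ℝ) (k : ℕ) (f : Ω → ℝ) (a : Ω) : ℝ :=
  x 𝓕.L * f a - ∑ j ∈ Ico k 𝓕.L, (x (j + 1) - x j) * cE T (𝓕.F j) f a

/-- conditional variance decreases under conditional expectation. -/
theorem var_cE_le (hT : IsProb T) {r s : Setoid Ω} (h : s ≤ r) (f : Ω → ℝ) (ω : Ω) :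
    cE T r (fun a => (f a - cE T r f ω) * cE T s f a) ω ≤
      cE T r (fun a => (f a - cE T r f ω) ^ 2) ω := by
  have h1 : cE T r (fun a => (f a - cE T r f ω) * (f a - cE T s f a)) ω =
      cE T r (fun a => (f a - cE T s f a) ^ 2) ω := by
    have e1 : cE T r (fun a => (cE T s f a - cE T r f ω) * (f a - cE T s f a)) ω = 0 := by
      rw [← cE_tower hT h]
      have e2 : ∀ a, cE T s (fun b => (cE T s f b - cE T r f ω) * (f b - cE T s f b)) a = 0 := by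
        intro a
        rw [cE_mul_left (g := fun b => cE T s f b - cE T r f ω)]
        · have e3 : cE T s (fun b => f b - cE T s f b) a = 0 := by
            rw [cE_sub, cE_of_meas hT (cE_meas T s f)]; ring
          rw [e3, mul_zero]
        · intro b c hbc
          simp only [cE_meas T s f b c hbc]
      rw [show cE T s (fun b => (cE T s f b - cE T r f ω) * (f b - cE T s f b)) = fun _ => 0 from
        funext e2]
      exact cE_const hT r 0 ω
    have e4 : cE T r (fun a => (f a - cE T r f ω) * (f a - cE T s f a)) ω =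
        cE T r (fun a => (f a - cE T s f a) ^ 2) ω +
        cE T r (fun a => (cE T s f a - cE T r f ω) * (f a - cE T s f a)) ω := by
      rw [← cE_add]
      congr 1
      funext a
      ring
    rw [e4, e1, add_zero]
  have h2 : 0 ≤ cE T r (fun a => (f a - cE T s f a) ^ 2) ω := cE_nonneg hT (fun _ => sq_nonneg _) ω
  have h3 : cE T r (fun a => (f a - cE T r f ω) ^ 2) ω =
      cE T r (fun a => (f a - cE T r f ω) * f a) ω := by
    have e : cE T r (fun a => (f a - cE T r f ω) ^ 2) ω =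
        cE T r (fun a => (f a - cE T r f ω) * f a) ω -
          cE T r (fun a => cE T r f ω * (f a - cE T r f ω)) ω := by
      rw [← cE_sub]
      congr 1
      funext a
      ring
    have e0 : cE T r (fun a => cE T r f ω * (f a - cE T r f ω)) ω = 0 := by
      rw [cE_smul, cE_sub, cE_const hT]; ring
    rw [e, e0, sub_zero]
  have h4 : cE T r (fun a => (f a - cE T r f ω) * (f a - cE T s f a)) ω =
      cE T r (fun a => (f a - cE T r f ω) * f a) ω -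
        cE T r (fun a => (f a - cE T r f ω) * cE T s f a) ω := by
    rw [← cE_sub]
    congr 1
    funext a
    ring
  rw [h3]
  linarith

/-- `Cov(f, W f | F) ≥ x_k Var(f | F)`. -/
theorem cov_W_ge (hT : IsProb T) (hx : IsExpo x) {k m : ℕ} (hm : m ≤ k) (hkL : k ≤ 𝓕.L)
    (f : Ω → ℝ) (ω : Ω) :
    x k * cE T (𝓕.F m) (fun a => (f a - cE T (𝓕.F m) f ω) ^ 2) ω ≤
      cE T (𝓕.F m) (fun a => (f a - cE T (𝓕.F m) f ω) * Wf T 𝓕 x k f a) ω := by
  set r := 𝓕.F m with hr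
  set v := cE T r (fun a => (f a - cE T r f ω) ^ 2) ω with hv
  have h3 : v = cE T r (fun a => (f a - cE T r f ω) * f a) ω := by
    have e : cE T r (fun a => (f a - cE T r f ω) ^ 2) ω =
        cE T r (fun a => (f a - cE T r f ω) * f a) ω -
          cE T r (fun a => cE T r f ω * (f a - cE T r f ω)) ω := by
      rw [← cE_sub]
      congr 1
      funext a
      ring
    have e0 : cE T r (fun a => cE T r f ω * (f a - cE T r f ω)) ω = 0 := by
      rw [cE_smul, cE_sub, cE_const hT]; ring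
    rw [hv, e, e0, sub_zero]
  have h1 : cE T r (fun a => (f a - cE T r f ω) * Wf T 𝓕 x k f a) ω =
      x 𝓕.L * cE T r (fun a => (f a - cE T r f ω) * f a) ω -
        ∑ j ∈ Ico k 𝓕.L, (x (j + 1) - x j) *
          cE T r (fun a => (f a - cE T r f ω) * cE T (𝓕.F j) f a) ω := by
    rw [← cE_smul]
    have e : ∀ j, (x (j + 1) - x j) * cE T r (fun a => (f a - cE T r f ω) * cE T (𝓕.F j) f a) ω =
        cE T r (fun a => (x (j + 1) - x j) * ((f a - cE T r f ω) * cE T (𝓕.F j) f a)) ω :=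
      fun j => (cE_smul _ _ _ _ _).symm
    simp_rw [e]
    rw [← cE_sum, ← cE_sub]
    congr 1
    funext a
    unfold Wf
    rw [mul_sub, Finset.mul_sum]
    congr 1
    · ring
    · exact Finset.sum_congr rfl fun j _ => by ring
  have h2 : ∑ j ∈ Ico k 𝓕.L, (x (j + 1) - x j) *
      cE T r (fun a => (f a - cE T r f ω) * cE T (𝓕.F j) f a) ω ≤
      ∑ j ∈ Ico k 𝓕.L, (x (j + 1) - x j) * v := by
    refine Finset.sum_le_sum fun j hj => ?_
    have hj' := (Finset.mem_Ico.mp hj).1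
    have h0 : 0 ≤ x (j + 1) - x j := by
      have := hx.mono (Nat.le_succ j); simp only [Nat.succ_eq_add_one] at this; linarith
    refine mul_le_mul_of_nonneg_left ?_ h0
    exact var_cE_le hT (𝓕.anti' (hm.trans hj')) f ω
  rw [← Finset.sum_mul, sum_incr x hkL] at h2
  rw [h1, ← h3]
  linarith

theorem abs_W_le (hT : IsProb T) (hx : IsExpo x) {k : ℕ} (hkL : k ≤ 𝓕.L) {f : Ω → ℝ} {K : ℝ}
    (hf : ∀ ω, |f ω| ≤ K) (a : Ω) : |Wf T 𝓕 x k f a| ≤ 2 * K := by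
  have hK : 0 ≤ K := (abs_nonneg _).trans (hf a)
  have := tele_stab (x := x) hx hkL hK (a := fun j => if j = 𝓕.L then f a else cE T (𝓕.F j) f a)
    (b := fun _ => 0)
    (fun j _ => by
      rw [sub_zero]
      split_ifs
      · exact hf a
      · exact abs_cE_le_of_le hT hf a)
  simp only [mul_zero, Finset.sum_const_zero, sub_zero, if_true] at this
  refine le_trans (le_of_eq ?_) this
  unfold Wf
  congr 2
  refine Finset.sum_congr rfl fun j hj => ?_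
  rw [if_neg (Finset.mem_Ico.mp hj).2.ne]

end gen

section vec

variable {Ω κ : Type*} [Fintype Ω] [Fintype κ] {T : Ω → ℝ} {𝓕 : Filt Ω} {x : ℕ → ℝ}

/-- `Γ_{il} = Cov(v_i, W v_l | F_m)`. -/
def Gm (T : Ω → ℝ) (𝓕 : Filt Ω) (x : ℕ → ℝ) (m k : ℕ) (v : Ω → κ → ℝ) (i l : κ) (ω : Ω) : ℝ :=
  cE T (𝓕.F m) (fun a => dv T (𝓕.F m) v ω a i * Wf T 𝓕 x k (fun b => v b l) a) ω

omit [Fintype κ] in
theorem Wf_lin (w : κ → ℝ) (t : Finset κ) (k : ℕ) (v : Ω → κ → ℝ) (a : Ω) :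
    Wf T 𝓕 x k (fun b => ∑ l ∈ t, w l * v b l) a = ∑ l ∈ t, w l * Wf T 𝓕 x k (fun b => v b l) a := by
  unfold Wf
  simp_rw [cE_sum, cE_smul, mul_sub, Finset.sum_sub_distrib, Finset.mul_sum]
  congr 1
  · exact Finset.sum_congr rfl fun l _ => by ring
  · rw [Finset.sum_comm]
    exact Finset.sum_congr rfl fun l _ => Finset.sum_congr rfl fun j _ => by ring

/-- `∑ Γ_{il} C_{il} ≥ x_k ∑ C_{il}^2`. -/
theorem inner_ge (hT : IsProb T) (hx : IsExpo x) {k m : ℕ} (hm : m ≤ k) (hkL : k ≤ 𝓕.L)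
    (v : Ω → κ → ℝ) (ω : Ω) :
    x k * ∑ i, ∑ l, cvr T (𝓕.F m) v i l ω ^ 2 ≤
      ∑ i, ∑ l, Gm T 𝓕 x m k v i l ω * cvr T (𝓕.F m) v i l ω := by
  set r := 𝓕.F m with hr
  -- for a fixed vector `w`
  have key : ∀ w : κ → ℝ,
      x k * ∑ i, ∑ l, (w i * w l) * cvr T r v i l ω ≤
        ∑ i, ∑ l, (w i * w l) * Gm T 𝓕 x m k v i l ω := by
    intro w
    have h := cov_W_ge (𝓕 := 𝓕) hT hx hm hkL (fun b => ∑ l, w l * v b l) ω
    rw [← hr] at h
    have e0 : cE T r (fun b => ∑ l, w l * v b l) ω = ∑ l, w l * cEv T r v ω l := by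
      rw [cE_sum]
      exact Finset.sum_congr rfl fun l _ => cE_smul _ _ _ _ _
    have e1 : ∀ a, (∑ l, w l * v a l) - cE T r (fun b => ∑ l, w l * v b l) ω =
        ∑ l, w l * dv T r v ω a l := by
      intro a
      rw [e0, ← Finset.sum_sub_distrib]
      exact Finset.sum_congr rfl fun l _ => by unfold dv; ring
    simp_rw [e1, Wf_lin w univ k v] at h
    have e2 : cE T r (fun a => (∑ l, w l * dv T r v ω a l) ^ 2) ω =
        ∑ i, ∑ l, (w i * w l) * cvr T r v i l ω := by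
      have : ∀ a, (∑ l, w l * dv T r v ω a l) ^ 2 =
          ∑ i, ∑ l, (w i * w l) * (dv T r v ω a i * dv T r v ω a l) := by
        intro a
        rw [sq, Finset.sum_mul_sum]
        exact Finset.sum_congr rfl fun i _ => Finset.sum_congr rfl fun j _ => by ring
      simp_rw [this, cE_sum, cE_smul]
      rfl
    have e3 : cE T r (fun a => (∑ l, w l * dv T r v ω a l) *
        ∑ l, w l * Wf T 𝓕 x k (fun b => v b l) a) ω =
        ∑ i, ∑ l, (w i * w l) * Gm T 𝓕 x m k v i l ω := by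
      have : ∀ a, (∑ l, w l * dv T r v ω a l) * ∑ l, w l * Wf T 𝓕 x k (fun b => v b l) a =
          ∑ i, ∑ l, (w i * w l) * (dv T r v ω a i * Wf T 𝓕 x k (fun b => v b l) a) := by
        intro a
        rw [Finset.sum_mul_sum]
        exact Finset.sum_congr rfl fun i _ => Finset.sum_congr rfl fun j _ => by ring
      simp_rw [this, cE_sum, cE_smul]
      rfl
    rw [e2, e3] at h
    exact h
  -- average over `w = dv ω b`
  have h2 := cE_mono' (r := r) hT (fun b => key (dv T r v ω b)) ω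
  have e4 : cE T r (fun b => x k * ∑ i, ∑ l, (dv T r v ω b i * dv T r v ω b l) *
      cvr T r v i l ω) ω = x k * ∑ i, ∑ l, cvr T r v i l ω ^ 2 := by
    rw [cE_smul]
    congr 1
    simp_rw [cE_sum]
    refine Finset.sum_congr rfl fun i _ => Finset.sum_congr rfl fun l _ => ?_
    have : cE T r (fun b => dv T r v ω b i * dv T r v ω b l * cvr T r v i l ω) ω =
        cE T r (fun b => cvr T r v i l ω * (dv T r v ω b i * dv T r v ω b l)) ω := by
      congr 1; funext b; ring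
    rw [this, cE_smul, sq]
    rfl
  have e5 : cE T r (fun b => ∑ i, ∑ l, (dv T r v ω b i * dv T r v ω b l) *
      Gm T 𝓕 x m k v i l ω) ω = ∑ i, ∑ l, Gm T 𝓕 x m k v i l ω * cvr T r v i l ω := by
    simp_rw [cE_sum]
    refine Finset.sum_congr rfl fun i _ => Finset.sum_congr rfl fun l _ => ?_
    have : cE T r (fun b => dv T r v ω b i * dv T r v ω b l * Gm T 𝓕 x m k v i l ω) ω =
        cE T r (fun b => Gm T 𝓕 x m k v i l ω * (dv T r v ω b i * dv T r v ω b l)) ω := by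
      congr 1; funext b; ring
    rw [this, cE_smul]
    rfl
  rw [e4, e5] at h2
  exact h2

/-- `x_k² ‖C‖² ≤ ‖Γ‖²`. -/
theorem hs_ge (hT : IsProb T) (hx : IsExpo x) {k m : ℕ} (hm : m ≤ k) (hkL : k ≤ 𝓕.L)
    (v : Ω → κ → ℝ) (ω : Ω) :
    x k ^ 2 * ∑ i, ∑ l, cvr T (𝓕.F m) v i l ω ^ 2 ≤ ∑ i, ∑ l, Gm T 𝓕 x m k v i l ω ^ 2 := by
  have h1 := inner_ge (𝓕 := 𝓕) hT hx hm hkL v ω
  have h2 := Finset.sum_mul_sq_le_sq_mul_sq (Finset.univ : Finset (κ × κ))
    (fun p => Gm T 𝓕 x m k v p.1 p.2 ω) (fun p => cvr T (𝓕.F m) v p.1 p.2 ω)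
  rw [Fintype.sum_prod_type, Fintype.sum_prod_type, Fintype.sum_prod_type] at h2
  simp only at h2
  set C2 := ∑ i, ∑ l, cvr T (𝓕.F m) v i l ω ^ 2 with hC2
  set G2 := ∑ i, ∑ l, Gm T 𝓕 x m k v i l ω ^ 2 with hG2
  set I := ∑ i, ∑ l, Gm T 𝓕 x m k v i l ω * cvr T (𝓕.F m) v i l ω with hI
  have hC0 : 0 ≤ C2 := Finset.sum_nonneg fun _ _ => Finset.sum_nonneg fun _ _ => sq_nonneg _
  have hG0 : 0 ≤ G2 := Finset.sum_nonneg fun _ _ => Finset.sum_nonneg fun _ _ => sq_nonneg _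
  have hxk := hx.pos k
  rcases eq_or_lt_of_le hC0 with h0 | h0
  · rw [← h0, mul_zero]; exact hG0
  · have h3 : (x k * C2) ^ 2 ≤ G2 * C2 := by
      refine le_trans ?_ h2
      exact pow_le_pow_left₀ (by positivity) h1 2
    have h4 : (x k ^ 2 * C2) * C2 ≤ G2 * C2 := by
      calc (x k ^ 2 * C2) * C2 = (x k * C2) ^ 2 := by ring
        _ ≤ _ := h3
    exact le_of_mul_le_mul_right h4 h0

end vec

/-! ### one step -/

section step

variable {Ω κ : Type*} [Fintype Ω] [Fintype κ] {P : Ω → ℝ} {𝓕 : Filt Ω} {x : ℕ → ℝ} {m : ℕ}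
  {s : κ → Ω → ℝ} {ι : κ → Ω → Ω} {U : Ω → ℝ} {v : Ω → κ → ℝ} {δ K : ℝ}

/-- the hypotheses on one row of coins, all revealed at the step `m + 1`. -/
structure Row (P : Ω → ℝ) (𝓕 : Filt Ω) (x : ℕ → ℝ) (m : ℕ) (s : κ → Ω → ℝ) (ι : κ → Ω → Ω)
    (U : Ω → ℝ) (v : Ω → κ → ℝ) (δ K : ℝ) : Prop where
  hP : IsProb P
  hx : IsExpo x
  hL : m + 1 ≤ 𝓕.L
  coin : ∀ i, Coin P 𝓕 (m + 1) (s i) (ι i)
  cross : ∀ i j, i ≠ j → ∀ ω, s j (ι i ω) = s j ω
  inv : ∀ i ω, v (ι i ω) = v ω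
  en : ∀ i ω, U (ι i ω) = U ω - 2 * δ * (2 * s i ω - 1) * v ω i
  bd : ∀ ω i, |v ω i| ≤ K
  small : |δ| * K ≤ 1 / 8

/-- the coin as a sign -/
def zt (s : κ → Ω → ℝ) (i : κ) (ω : Ω) : ℝ := 2 * s i ω - 1

omit [Fintype κ] in
theorem zt_sq (R : Row P 𝓕 x m s ι U v δ K) (i : κ) (ω : Ω) : zt s i ω ^ 2 = 1 := by
  unfold zt
  rcases (R.coin i).s01 ω with h | h
  · rw [h]; norm_num
  · rw [h]; norm_num

omit [Fintype κ] in
theorem abs_zt (R : Row P 𝓕 x m s ι U v δ K) (i : κ) (ω : Ω) : |zt s i ω| ≤ 1 := by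
  have h := zt_sq R i ω
  have h2 : |zt s i ω| ^ 2 = 1 := by rw [sq_abs]; exact h
  nlinarith [abs_nonneg (zt s i ω)]

omit [Fintype κ] in
theorem row_ibp (R : Row P 𝓕 x m s ι U v δ K) (i : κ) {f : Ω → ℝ} {Kf : ℝ}
    (hf : ∀ ω, f (ι i ω) = f ω) (hfK : ∀ ω, |f ω| ≤ Kf) (ω : Ω) :
    |cE (tl P 𝓕 x U) (𝓕.F m) (fun a => zt s i a * f a) ω -
      δ * cE (tl P 𝓕 x U) (𝓕.F m) (fun a => f a * Wf (tl P 𝓕 x U) 𝓕 x (m + 1)
        (fun b => v b i) a) ω| ≤ 52 * (δ * K) ^ 2 * Kf := by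
  have hG : ∀ ω, (fun a => U a - δ * (2 * s i a - 1) * v a i) (ι i ω) =
      (fun a => U a - δ * (2 * s i a - 1) * v a i) ω := by
    intro a
    simp only [R.en, R.inv, (R.coin i).s_flip]
    ring
  have h := ibp (G := fun a => U a - δ * (2 * s i a - 1) * v a i) (R.coin i) R.hP R.hx R.hL hG
    (v := fun a => v a i) (fun a => by rw [R.inv]) hf (fun a => R.bd a i) hfK R.small
    (l := m) le_rfl ω
  simp only [sub_add_cancel] at h
  exact h

omit [Fintype κ] in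
theorem row_cross (R : Row P 𝓕 x m s ι U v δ K) {i j : κ} (hij : i ≠ j) (ω : Ω) :
    |cE (tl P 𝓕 x U) (𝓕.F m) (fun a => zt s i a * zt s j a) ω| ≤ 9 * (|δ| * K) := by
  have hT := tl_isProb (𝓕 := 𝓕) R.hP R.hx.pos U
  have h := row_ibp R i (f := zt s j) (Kf := 1) (fun a => by unfold zt; rw [R.cross i j hij])
    (fun a => abs_zt R j a) ω
  have hK : 0 ≤ K := (abs_nonneg _).trans (R.bd ω i)
  have h2 : |cE (tl P 𝓕 x U) (𝓕.F m) (fun a => zt s j a * Wf (tl P 𝓕 x U) 𝓕 x (m + 1)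
        (fun b => v b i) a) ω| ≤ 2 * K := by
    refine abs_cE_le_of_le hT (fun a => ?_) ω
    rw [abs_mul]
    calc |zt s j a| * |Wf (tl P 𝓕 x U) 𝓕 x (m + 1) (fun b => v b i) a| ≤ 1 * (2 * K) :=
          mul_le_mul (abs_zt R j a) (abs_W_le hT R.hx R.hL (fun a => R.bd a i) a)
            (abs_nonneg _) zero_le_one
      _ = 2 * K := one_mul _
  set c := cE (tl P 𝓕 x U) (𝓕.F m) (fun a => zt s i a * zt s j a) ω
  set e := cE (tl P 𝓕 x U) (𝓕.F m) (fun a => zt s j a * Wf (tl P 𝓕 x U) 𝓕 x (m + 1)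
        (fun b => v b i) a) ω
  have hδ := R.small
  have h3 : |δ * e| ≤ |δ| * (2 * K) := by
    rw [abs_mul]; exact mul_le_mul_of_nonneg_left h2 (abs_nonneg δ)
  have h4 : (δ * K) ^ 2 = (|δ| * K) ^ 2 := by rw [mul_pow, mul_pow, sq_abs]
  rw [h4] at h
  have h5 : |c| ≤ |c - δ * e| + |δ * e| := by
    have := abs_add_le (c - δ * e) (δ * e)
    rwa [sub_add_cancel] at this
  have h6 : 0 ≤ |δ| * K := by positivity
  nlinarith

/-- the martingale increment of the coordinate `l`. -/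
def Dn (T : Ω → ℝ) (𝓕 : Filt Ω) (m : ℕ) (v : Ω → κ → ℝ) (l : κ) (a : Ω) : ℝ :=
  cE T (𝓕.F (m + 1)) (fun b => v b l) a - cE T (𝓕.F m) (fun b => v b l) a

/-- `c_{li} = E[D_l ζ_i | F_m]` -/
def cc (T : Ω → ℝ) (𝓕 : Filt Ω) (m : ℕ) (s : κ → Ω → ℝ) (v : Ω → κ → ℝ) (l i : κ) (ω : Ω) : ℝ :=
  cE T (𝓕.F m) (fun a => zt s i a * Dn T 𝓕 m v l a) ω

omit [Fintype κ] in
theorem cc_eq (R : Row P 𝓕 x m s ι U v δ K) (l i : κ) (ω : Ω) :
    cc (tl P 𝓕 x U) 𝓕 m s v l i ω =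
      cE (tl P 𝓕 x U) (𝓕.F m) (fun a => zt s i a * dv (tl P 𝓕 x U) (𝓕.F m) v ω a l) ω := by
  set T := tl P 𝓕 x U with hTdef
  have hT : IsProb T := tl_isProb (𝓕 := 𝓕) R.hP R.hx.pos U
  unfold cc
  have e1 : cE T (𝓕.F m) (fun a => zt s i a * Dn T 𝓕 m v l a) ω =
      cE T (𝓕.F m) (fun a => zt s i a * cE T (𝓕.F (m + 1)) (fun b => v b l) a) ω -
      cE T (𝓕.F m) (fun a => zt s i a * cE T (𝓕.F m) (fun b => v b l) a) ω := by
    rw [← cE_sub]
    congr 1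
    funext a
    unfold Dn
    ring
  have e2 : cE T (𝓕.F m) (fun a => zt s i a * cE T (𝓕.F (m + 1)) (fun b => v b l) a) ω =
      cE T (𝓕.F m) (fun a => zt s i a * v a l) ω := by
    rw [← cE_tower hT (𝓕.anti m) (fun a => zt s i a * v a l)]
    congr 1
    funext a
    rw [cE_mul_left]
    intro b c hbc
    unfold zt
    rw [(R.coin i).s_meas b c hbc]
  have e3 : cE T (𝓕.F m) (fun a => zt s i a * cE T (𝓕.F m) (fun b => v b l) a) ω =
      cE T (𝓕.F m) (fun a => zt s i a * cE T (𝓕.F m) (fun b => v b l) ω) ω := by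
    refine cE_congr ω fun a ha => ?_
    rw [cE_meas T (𝓕.F m) (fun b => v b l) ω a ha]
  have e4 : cE T (𝓕.F m) (fun a => zt s i a * dv T (𝓕.F m) v ω a l) ω =
      cE T (𝓕.F m) (fun a => zt s i a * v a l) ω -
      cE T (𝓕.F m) (fun a => zt s i a * cE T (𝓕.F m) (fun b => v b l) ω) ω := by
    rw [← cE_sub]
    congr 1
    funext a
    unfold dv cEv
    ring
  rw [e1, e2, e3, e4]

omit [Fintype κ] in
theorem abs_dv_le (hT : IsProb P) {r : Setoid Ω} (hb : ∀ ω i, |v ω i| ≤ K) (ω a : Ω) (l : κ) :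
    |dv P r v ω a l| ≤ 2 * K := by
  unfold dv cEv
  have h1 := hb a l
  have h2 : |cE P r (fun b => v b l) ω| ≤ K := abs_cE_le_of_le hT (fun b => hb b l) ω
  have := abs_sub (v a l) (cE P r (fun b => v b l) ω)
  linarith

omit [Fintype κ] in
theorem abs_Gm_le (hT : IsProb P) (hx : IsExpo x) {k : ℕ} (hkL : k ≤ 𝓕.L)
    (hb : ∀ ω i, |v ω i| ≤ K) (hK : 0 ≤ K) (i l : κ) (ω : Ω) :
    |Gm P 𝓕 x m k v i l ω| ≤ 4 * K ^ 2 := by
  unfold Gm
  refine abs_cE_le_of_le hT (fun a => ?_) ω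
  rw [abs_mul]
  calc |dv P (𝓕.F m) v ω a i| * |Wf P 𝓕 x k (fun b => v b l) a| ≤ (2 * K) * (2 * K) :=
        mul_le_mul (abs_dv_le hT hb ω a i) (abs_W_le hT hx hkL (fun a => hb a l) a)
          (abs_nonneg _) (by positivity)
    _ = 4 * K ^ 2 := by ring

omit [Fintype κ] in
theorem cc_sub_le (R : Row P 𝓕 x m s ι U v δ K) (l i : κ) (ω : Ω) :
    |cc (tl P 𝓕 x U) 𝓕 m s v l i ω - δ * Gm (tl P 𝓕 x U) 𝓕 x m (m + 1) v l i ω| ≤
      104 * δ ^ 2 * K ^ 3 := by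
  have hT := tl_isProb (𝓕 := 𝓕) R.hP R.hx.pos U
  rw [cc_eq R l i ω]
  have h := row_ibp R i (f := fun a => dv (tl P 𝓕 x U) (𝓕.F m) v ω a l) (Kf := 2 * K)
    (fun a => by unfold dv; rw [R.inv]) (fun a => abs_dv_le hT R.bd ω a l) ω
  refine h.trans (le_of_eq ?_)
  ring

/-- Bessel inequality for nearly orthonormal signs. -/
theorem bessel (R : Row P 𝓕 x m s ι U v δ K) (l : κ) (ω : Ω) :
    (1 - 9 * (|δ| * K) * Fintype.card κ) * ∑ i, cc (tl P 𝓕 x U) 𝓕 m s v l i ω ^ 2 ≤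
      cE (tl P 𝓕 x U) (𝓕.F m) (fun a => Dn (tl P 𝓕 x U) 𝓕 m v l a ^ 2) ω := by
  classical
  set T := tl P 𝓕 x U with hTdef
  have hT : IsProb T := tl_isProb (𝓕 := 𝓕) R.hP R.hx.pos U
  set c : κ → ℝ := fun i => cc T 𝓕 m s v l i ω with hc
  have h0 : 0 ≤ cE T (𝓕.F m) (fun a => (Dn T 𝓕 m v l a - ∑ i, c i * zt s i a) ^ 2) ω :=
    cE_nonneg hT (fun _ => sq_nonneg _) ω
  have e1 : cE T (𝓕.F m) (fun a => (Dn T 𝓕 m v l a - ∑ i, c i * zt s i a) ^ 2) ω =
      cE T (𝓕.F m) (fun a => Dn T 𝓕 m v l a ^ 2) ω - 2 * ∑ i, c i ^ 2 +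
        ∑ i, ∑ j, (c i * c j) * cE T (𝓕.F m) (fun a => zt s i a * zt s j a) ω := by
    have e : ∀ a, (Dn T 𝓕 m v l a - ∑ i, c i * zt s i a) ^ 2 =
        (Dn T 𝓕 m v l a ^ 2 - 2 * ∑ i, c i * (zt s i a * Dn T 𝓕 m v l a)) +
          ∑ i, ∑ j, (c i * c j) * (zt s i a * zt s j a) := by
      intro a
      have h1 : (∑ i, c i * zt s i a) ^ 2 = ∑ i, ∑ j, (c i * c j) * (zt s i a * zt s j a) := by
        rw [sq, Finset.sum_mul_sum]
        exact Finset.sum_congr rfl fun i _ => Finset.sum_congr rfl fun j _ => by ring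
      have h2 : ∑ i, c i * (zt s i a * Dn T 𝓕 m v l a) =
          (∑ i, c i * zt s i a) * Dn T 𝓕 m v l a := by
        rw [Finset.sum_mul]
        exact Finset.sum_congr rfl fun i _ => by ring
      rw [← h1, h2]; ring
    simp_rw [e, cE_add, cE_sub, cE_smul, cE_sum, cE_smul]
    congr 2
    congr 1
    refine Finset.sum_congr rfl fun i _ => ?_
    show c i * cc T 𝓕 m s v l i ω = c i ^ 2
    simp only [hc]; ring
  rw [e1] at h0
  set η := 9 * (|δ| * K) with hη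
  have hterm : ∀ i j, (c i * c j) * cE T (𝓕.F m) (fun a => zt s i a * zt s j a) ω ≤
      (if i = j then c i ^ 2 else 0) + η * ((c i ^ 2 + c j ^ 2) / 2) := by
    intro i j
    have hη0 : 0 ≤ η * ((c i ^ 2 + c j ^ 2) / 2) := by
      have hK : 0 ≤ K := (abs_nonneg _).trans (R.bd ω i)
      have : 0 ≤ η := by rw [hη]; positivity
      positivity
    by_cases hij : i = j
    · rw [if_pos hij, hij]
      have : cE T (𝓕.F m) (fun a => zt s j a * zt s j a) ω = 1 := by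
        have e : (fun a => zt s j a * zt s j a) = fun _ => (1 : ℝ) := by
          funext a; rw [← sq]; exact zt_sq R j a
        rw [e, cE_const hT]
      rw [this]
      rw [hij] at hη0
      linarith [hη0]
    · rw [if_neg hij, zero_add]
      have h1 := row_cross R hij ω
      rw [← hTdef] at h1
      refine (le_abs_self _).trans ?_
      rw [abs_mul]
      have h2 : |c i * c j| ≤ (c i ^ 2 + c j ^ 2) / 2 := by
        rw [abs_mul]
        nlinarith [sq_nonneg (|c i| - |c j|), sq_abs (c i), sq_abs (c j)]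
      calc |c i * c j| * |cE T (𝓕.F m) (fun a => zt s i a * zt s j a) ω| ≤
            ((c i ^ 2 + c j ^ 2) / 2) * η :=
            mul_le_mul h2 h1 (abs_nonneg _) (by positivity)
        _ = _ := mul_comm _ _
  have hsum : ∑ i, ∑ j, (c i * c j) * cE T (𝓕.F m) (fun a => zt s i a * zt s j a) ω ≤
      ∑ i, c i ^ 2 + η * ((Fintype.card κ) * ∑ i, c i ^ 2) := by
    refine (Finset.sum_le_sum fun i _ => Finset.sum_le_sum fun j _ => hterm i j).trans
      (le_of_eq ?_)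
    have a1 : ∀ i, ∑ j, (if i = j then c i ^ 2 else 0) = c i ^ 2 := fun i => by
      rw [Finset.sum_ite_eq]; simp
    simp_rw [Finset.sum_add_distrib, a1, ← Finset.mul_sum, ← Finset.sum_div,
      Finset.sum_add_distrib, Finset.sum_const, Finset.card_univ, nsmul_eq_mul]
    rw [← Finset.mul_sum]
    ring
  have e3 : ∑ i, cc T 𝓕 m s v l i ω ^ 2 = ∑ i, c i ^ 2 := rfl
  rw [e3]
  nlinarith

/-- **(N1)** noise of one row of coins. -/
theorem noise_step (R : Row P 𝓕 x m s ι U v δ K) (hK : 0 ≤ K) :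
    δ ^ 2 * x (m + 1) ^ 2 * pur (tl P 𝓕 x U) (𝓕.F m) v ≤
      eE (tl P 𝓕 x U) (fun ω => ∑ l, Dn (tl P 𝓕 x U) 𝓕 m v l ω ^ 2) +
        4785 * (Fintype.card κ : ℝ) ^ 3 * K ^ 5 * |δ| ^ 3 := by
  set T := tl P 𝓕 x U with hTdef
  have hT : IsProb T := tl_isProb (𝓕 := 𝓕) R.hP R.hx.pos U
  set n : ℝ := (Fintype.card κ : ℝ) with hn
  have hn0 : 0 ≤ n := Nat.cast_nonneg _
  set d := |δ| with hd
  have hd0 : 0 ≤ d := abs_nonneg _
  have hdδ : δ ^ 2 = d ^ 2 := by rw [hd, sq_abs]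
  have hsm : d * K ≤ 1 / 8 := R.small
  have hdK : 0 ≤ d * K := by positivity
  -- termwise
  have hterm : ∀ ω l i, δ ^ 2 * Gm T 𝓕 x m (m + 1) v l i ω ^ 2 ≤
      cc T 𝓕 m s v l i ω ^ 2 + 2184 * K ^ 5 * d ^ 3 ∧
      cc T 𝓕 m s v l i ω ^ 2 ≤ 289 * K ^ 4 * d ^ 2 := by
    intro ω l i
    have h1 := cc_sub_le R l i ω
    rw [← hTdef] at h1
    have h2 := abs_Gm_le (𝓕 := 𝓕) (k := m + 1) (m := m) hT R.hx R.hL R.bd hK l i ω
    set a := δ * Gm T 𝓕 x m (m + 1) v l i ω with ha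
    set c := cc T 𝓕 m s v l i ω with hc
    have h3 : |a| ≤ 4 * K ^ 2 * d := by
      rw [ha, abs_mul, ← hd]
      calc d * |Gm T 𝓕 x m (m + 1) v l i ω| ≤ d * (4 * K ^ 2) :=
            mul_le_mul_of_nonneg_left h2 hd0
        _ = 4 * K ^ 2 * d := by ring
    have h4 : |c - a| ≤ 104 * d ^ 2 * K ^ 3 := by rw [← hdδ]; exact h1
    have h5 : 104 * d ^ 2 * K ^ 3 ≤ 13 * K ^ 2 * d := by
      have : d ^ 2 * K ^ 3 = (d * K) * (d * K ^ 2) := by ring
      have h6 : (d * K) * (d * K ^ 2) ≤ 1 / 8 * (d * K ^ 2) :=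
        mul_le_mul_of_nonneg_right hsm (by positivity)
      nlinarith
    have h7 : |c| ≤ 17 * K ^ 2 * d := by
      have : |c| ≤ |c - a| + |a| := by
        have := abs_add_le (c - a) a
        rwa [sub_add_cancel] at this
      linarith
    constructor
    · have e : δ ^ 2 * Gm T 𝓕 x m (m + 1) v l i ω ^ 2 = a ^ 2 := by rw [ha]; ring
      rw [e]
      have h8 : |a + c| ≤ 21 * K ^ 2 * d := by
        have := abs_add_le a c
        linarith
      have h9 : a ^ 2 - c ^ 2 ≤ |c - a| * |a + c| := by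
        rw [← abs_mul]
        refine le_trans (le_of_eq ?_) (neg_le_abs _)
        ring
      have h10 : |c - a| * |a + c| ≤ (104 * d ^ 2 * K ^ 3) * (21 * K ^ 2 * d) :=
        mul_le_mul h4 h8 (abs_nonneg _) (by positivity)
      have e2 : (104 * d ^ 2 * K ^ 3) * (21 * K ^ 2 * d) = 2184 * K ^ 5 * d ^ 3 := by ring
      linarith
    · have := pow_le_pow_left₀ (abs_nonneg c) h7 2
      rw [sq_abs] at this
      refine this.trans (le_of_eq ?_)
      ring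
  -- pointwise
  have hpt : ∀ ω, δ ^ 2 * x (m + 1) ^ 2 * ∑ i, ∑ j, cvr T (𝓕.F m) v i j ω ^ 2 ≤
      cE T (𝓕.F m) (fun a => ∑ l, Dn T 𝓕 m v l a ^ 2) ω + 4785 * n ^ 3 * K ^ 5 * d ^ 3 := by
    intro ω
    have h1 := hs_ge (𝓕 := 𝓕) (k := m + 1) (m := m) hT R.hx (Nat.le_succ m) R.hL v ω
    have h2 : δ ^ 2 * ∑ i, ∑ l, Gm T 𝓕 x m (m + 1) v i l ω ^ 2 ≤
        ∑ l, ∑ i, cc T 𝓕 m s v l i ω ^ 2 + n ^ 2 * (2184 * K ^ 5 * d ^ 3) := by
      rw [Finset.mul_sum]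
      have : ∀ l, δ ^ 2 * ∑ i, Gm T 𝓕 x m (m + 1) v l i ω ^ 2 ≤
          ∑ i, cc T 𝓕 m s v l i ω ^ 2 + n * (2184 * K ^ 5 * d ^ 3) := by
        intro l
        rw [Finset.mul_sum]
        refine (Finset.sum_le_sum fun i _ => (hterm ω l i).1).trans (le_of_eq ?_)
        rw [Finset.sum_add_distrib, Finset.sum_const, Finset.card_univ, nsmul_eq_mul]
      refine (Finset.sum_le_sum fun l _ => this l).trans (le_of_eq ?_)
      rw [Finset.sum_add_distrib, Finset.sum_const, Finset.card_univ, nsmul_eq_mul]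
      ring
    have h3 : ∀ l, ∑ i, cc T 𝓕 m s v l i ω ^ 2 ≤
        cE T (𝓕.F m) (fun a => Dn T 𝓕 m v l a ^ 2) ω + 2601 * n ^ 2 * K ^ 5 * d ^ 3 := by
      intro l
      have hb := bessel R l ω
      rw [← hTdef, ← hd, ← hn] at hb
      have hc : ∑ i, cc T 𝓕 m s v l i ω ^ 2 ≤ n * (289 * K ^ 4 * d ^ 2) := by
        refine (Finset.sum_le_sum fun i _ => (hterm ω l i).2).trans (le_of_eq ?_)
        rw [Finset.sum_const, Finset.card_univ, nsmul_eq_mul]
      have hc2 : 9 * (d * K) * n * ∑ i, cc T 𝓕 m s v l i ω ^ 2 ≤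
          9 * (d * K) * n * (n * (289 * K ^ 4 * d ^ 2)) :=
        mul_le_mul_of_nonneg_left hc (by positivity)
      have e : 9 * (d * K) * n * (n * (289 * K ^ 4 * d ^ 2)) = 2601 * n ^ 2 * K ^ 5 * d ^ 3 := by
        ring
      linarith
    have h4 : ∑ l, ∑ i, cc T 𝓕 m s v l i ω ^ 2 ≤
        ∑ l, cE T (𝓕.F m) (fun a => Dn T 𝓕 m v l a ^ 2) ω + n * (2601 * n ^ 2 * K ^ 5 * d ^ 3) := by
      refine (Finset.sum_le_sum fun l _ => h3 l).trans (le_of_eq ?_)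
      rw [Finset.sum_add_distrib, Finset.sum_const, Finset.card_univ, nsmul_eq_mul]
    rw [cE_sum]
    have h5 : δ ^ 2 * (x (m + 1) ^ 2 * ∑ i, ∑ l, cvr T (𝓕.F m) v i l ω ^ 2) ≤
        δ ^ 2 * ∑ i, ∑ l, Gm T 𝓕 x m (m + 1) v i l ω ^ 2 :=
      mul_le_mul_of_nonneg_left h1 (sq_nonneg _)
    have h6 : n ^ 2 ≤ n ^ 3 := by
      rcases Nat.eq_zero_or_pos (Fintype.card κ) with h | h
      · rw [hn, h]; norm_num
      · have h1n : (1 : ℝ) ≤ n := by rw [hn]; exact_mod_cast h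
        nlinarith [sq_nonneg n]
    have h7 : n ^ 2 * (2184 * K ^ 5 * d ^ 3) ≤ n ^ 3 * (2184 * K ^ 5 * d ^ 3) :=
      mul_le_mul_of_nonneg_right h6 (by positivity)
    nlinarith
  have h := eE_mono hT hpt
  rw [eE_smul, eE_add, eE_cE hT, eE_const hT] at h
  exact h

omit [Fintype κ] in
/-- orthogonality of the increments -/
theorem eE_Dn_sq (hT : IsProb P) (m : ℕ) (v : Ω → κ → ℝ) (l : κ) :
    eE P (fun ω => Dn P 𝓕 m v l ω ^ 2) =
      eE P (fun ω => cE P (𝓕.F (m + 1)) (fun b => v b l) ω ^ 2) -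
        eE P (fun ω => cE P (𝓕.F m) (fun b => v b l) ω ^ 2) := by
  set M1 : Ω → ℝ := cE P (𝓕.F (m + 1)) (fun b => v b l) with hM1
  set M0 : Ω → ℝ := cE P (𝓕.F m) (fun b => v b l) with hM0
  have e1 : eE P (fun ω => M0 ω * M1 ω) = eE P (fun ω => M0 ω ^ 2) := by
    rw [← eE_cE hT (𝓕.F m)]
    congr 1
    funext ω
    rw [cE_mul_left (cE_meas P (𝓕.F m) _), hM1, cE_tower hT (𝓕.anti m)]
    rw [sq]
  have e2 : eE P (fun ω => Dn P 𝓕 m v l ω ^ 2) =
      eE P (fun ω => M1 ω ^ 2) - 2 * eE P (fun ω => M0 ω * M1 ω) + eE P (fun ω => M0 ω ^ 2) := by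
    rw [← eE_smul, ← eE_sub, ← eE_add]
    congr 1
    funext ω
    unfold Dn
    rw [← hM1, ← hM0]
    ring
  rw [e2, e1]; ring

/-- **(N2)** noise of one cell of `n` rows of coins with the same strength. -/
theorem noise_cell {n m0 : ℕ} {s : ℕ → κ → Ω → ℝ} {ι : ℕ → κ → Ω → Ω}
    (R : ∀ t < n, Row P 𝓕 x (m0 + t) (s t) (ι t) U v δ K) (hP : IsProb P) (hx : IsExpo x)
    (hK : 0 ≤ K) {y : ℝ} (hy : 0 ≤ y)
    (hxy : ∀ t < n, y ≤ x (m0 + t + 1)) :
    δ ^ 2 * y ^ 2 * ∑ t ∈ range n, pur (tl P 𝓕 x U) (𝓕.F (m0 + t)) v ≤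
      eE (tl P 𝓕 x U) (fun ω => ∑ l, v ω l ^ 2) +
        n * (4785 * (Fintype.card κ : ℝ) ^ 3 * K ^ 5 * |δ| ^ 3) := by
  set T := tl P 𝓕 x U with hTdef
  have hT : IsProb T := tl_isProb (𝓕 := 𝓕) hP hx.pos U
  set e : ℝ := 4785 * (Fintype.card κ : ℝ) ^ 3 * K ^ 5 * |δ| ^ 3 with he
  have hstep : ∀ t ∈ range n, δ ^ 2 * y ^ 2 * pur T (𝓕.F (m0 + t)) v ≤
      (∑ l, (eE T (fun ω => cE T (𝓕.F (m0 + (t + 1))) (fun b => v b l) ω ^ 2) -
        eE T (fun ω => cE T (𝓕.F (m0 + t)) (fun b => v b l) ω ^ 2))) + e := by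
    intro t ht
    have ht' := Finset.mem_range.mp ht
    have h := noise_step (R t ht') hK
    rw [← hTdef, ← he, eE_sum] at h
    simp_rw [eE_Dn_sq (𝓕 := 𝓕) hT (m0 + t) v] at h
    refine le_trans ?_ h
    refine mul_le_mul_of_nonneg_right ?_ (pur_nonneg hT v)
    refine mul_le_mul_of_nonneg_left ?_ (sq_nonneg _)
    exact pow_le_pow_left₀ hy (hxy t ht') 2
  rw [Finset.mul_sum]
  refine (Finset.sum_le_sum hstep).trans ?_
  rw [Finset.sum_add_distrib, Finset.sum_const, Finset.card_range, nsmul_eq_mul]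
  refine add_le_add ?_ le_rfl
  rw [Finset.sum_comm, eE_sum]
  refine Finset.sum_le_sum fun l _ => ?_
  have htel := Finset.sum_range_sub (fun t => eE T (fun ω =>
    cE T (𝓕.F (m0 + t)) (fun b => v b l) ω ^ 2)) n
  rw [htel]
  have h1 : 0 ≤ eE T (fun ω => cE T (𝓕.F (m0 + 0)) (fun b => v b l) ω ^ 2) :=
    eE_nonneg hT fun _ => sq_nonneg _
  have h2 : eE T (fun ω => cE T (𝓕.F (m0 + n)) (fun b => v b l) ω ^ 2) ≤
      eE T (fun ω => v ω l ^ 2) := by
    rw [← eE_cE hT (𝓕.F (m0 + n)) (fun ω => v ω l ^ 2)]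
    exact eE_mono hT fun ω => cE_sq_le hT _ _ _
  linarith

end step

end

end Crest.Agent.R146.Noise_143
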