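import Mathlib

/-!
Row 146, package P5, node F (helper491).  Pure Hilbert-space part:
minimisation of a continuous convex function plus half the squared norm on a closed convex set,
and the penalty family used for the passage to the critical density.
-/

set_option autoImplicit false

namespace Crest.Agent.R146.NormF0_491

open Filter Topology Set
open scoped InnerProductSpace

variable {H : Type*} [NormedAddCommGroup H] [InnerProductSpace ℝ H]

/-- Exact convexity identity for half the squared norm. -/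
lemma sq_comb (x y : H) (t : ℝ) :
    (1 / 2 : ℝ) * ‖(1 - t) • x + t • y‖ ^ 2 =
      (1 - t) * ((1 / 2 : ℝ) * ‖x‖ ^ 2) + t * ((1 / 2 : ℝ) * ‖y‖ ^ 2)
        - (1 / 2 : ℝ) * t * (1 - t) * ‖y - x‖ ^ 2 := by
  have h1 : ‖(1 - t) • x + t • y‖ ^ 2 =
      (1 - t) ^ 2 * ‖x‖ ^ 2 + 2 * ((1 - t) * t * ⟪x, y⟫_ℝ) + t ^ 2 * ‖y‖ ^ 2 := by
    rw [norm_add_sq_real, norm_smul, norm_smul, inner_smul_left, inner_smul_right]
    simp only [Real.norm_eq_abs, mul_pow, sq_abs, conj_trivial]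
    ring
  have h2 : ‖y - x‖ ^ 2 = ‖y‖ ^ 2 - 2 * ⟪y, x⟫_ℝ + ‖x‖ ^ 2 := norm_sub_sq_real y x
  rw [h1, h2, real_inner_comm x y]
  ring

/-- Existence of the minimiser of `G + ½‖·‖²` on a closed convex set, with the quadratic growth
inequality (which contains uniqueness). -/
theorem exists_min [CompleteSpace H] {K : Set H} (hKc : IsClosed K) (hKne : K.Nonempty)
    {G : H → ℝ} (hG : ConvexOn ℝ K G) (hGc : ContinuousOn G K)
    (hb : BddBelow ((fun x => G x + (1 / 2 : ℝ) * ‖x‖ ^ 2) '' K)) :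
    ∃ x ∈ K, ∀ y ∈ K, G x + (1 / 2 : ℝ) * ‖x‖ ^ 2 + (1 / 2 : ℝ) * ‖y - x‖ ^ 2
      ≤ G y + (1 / 2 : ℝ) * ‖y‖ ^ 2 := by
  classical
  set F : H → ℝ := fun x => G x + (1 / 2 : ℝ) * ‖x‖ ^ 2 with hF
  set m : ℝ := sInf (F '' K) with hm
  have hmle : ∀ y ∈ K, m ≤ F y := fun y hy => csInf_le hb (mem_image_of_mem F hy)
  have hcomb : ∀ x ∈ K, ∀ y ∈ K, ∀ t : ℝ, 0 ≤ t → t ≤ 1 →
      F ((1 - t) • x + t • y) ≤ (1 - t) * F x + t * F y
        - (1 / 2 : ℝ) * t * (1 - t) * ‖y - x‖ ^ 2 := by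
    intro x hx y hy t ht0 ht1
    have h1 := hG.2 hx hy (sub_nonneg.2 ht1) ht0 (by ring)
    simp only [smul_eq_mul] at h1
    have h2 := sq_comb x y t
    simp only [hF]
    rw [h2]
    nlinarith [h1]
  -- minimising sequence
  have hex : ∀ n : ℕ, ∃ x ∈ K, F x < m + 1 / ((n : ℝ) + 1) := by
    intro n
    have hlt : m < m + 1 / ((n : ℝ) + 1) := by
      have : (0 : ℝ) < 1 / ((n : ℝ) + 1) := by positivity
      linarith
    obtain ⟨_, ⟨x, hx, rfl⟩, hlt2⟩ := exists_lt_of_csInf_lt (hKne.image F) hlt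
    exact ⟨x, hx, hlt2⟩
  choose u huK hu using hex
  have hdist : ∀ a b : ℕ, ‖u b - u a‖ ^ 2 ≤ 4 * (1 / ((a : ℝ) + 1) + 1 / ((b : ℝ) + 1)) := by
    intro a b
    have h1 := hcomb (u a) (huK a) (u b) (huK b) (1 / 2) (by norm_num) (by norm_num)
    have hmem : (1 - (1 / 2 : ℝ)) • u a + (1 / 2 : ℝ) • u b ∈ K :=
      hG.1 (huK a) (huK b) (by norm_num) (by norm_num) (by norm_num)
    have h2 := hmle _ hmem
    have h3 := hu a
    have h4 := hu b
    nlinarith
  have hcau : CauchySeq u := by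
    rw [Metric.cauchySeq_iff']
    intro ε hε
    obtain ⟨n, hn⟩ := exists_nat_one_div_lt (show (0 : ℝ) < ε ^ 2 / 8 by positivity)
    refine ⟨n, fun k hk => ?_⟩
    have h1 := hdist n k
    have h2 : 1 / ((k : ℝ) + 1) ≤ 1 / ((n : ℝ) + 1) := by
      apply one_div_le_one_div_of_le (by positivity)
      have : (n : ℝ) ≤ k := by exact_mod_cast hk
      linarith
    have h3 : ‖u k - u n‖ ^ 2 < ε ^ 2 := by
      calc ‖u k - u n‖ ^ 2 ≤ 4 * (1 / ((n : ℝ) + 1) + 1 / ((k : ℝ) + 1)) := h1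
        _ ≤ 8 * (1 / ((n : ℝ) + 1)) := by linarith
        _ < ε ^ 2 := by linarith
    rw [dist_eq_norm]
    exact lt_of_pow_lt_pow_left₀ 2 hε.le h3
  obtain ⟨x, hx⟩ := cauchySeq_tendsto_of_complete hcau
  have hxK : x ∈ K := hKc.mem_of_tendsto hx (Eventually.of_forall huK)
  have hFx : F x ≤ m := by
    have hc : ContinuousOn F K := by
      apply hGc.add
      exact (continuous_const.mul ((continuous_norm).pow 2)).continuousOn
    have h1 : Tendsto (fun n => F (u n)) atTop (𝓝 (F x)) := by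
      have := (hc x hxK).tendsto
      exact this.comp (tendsto_nhdsWithin_iff.2 ⟨hx, Eventually.of_forall huK⟩)
    have h2 : Tendsto (fun n : ℕ => m + 1 / ((n : ℝ) + 1)) atTop (𝓝 (m + 0)) :=
      tendsto_const_nhds.add tendsto_one_div_add_atTop_nhds_zero_nat
    rw [add_zero] at h2
    exact le_of_tendsto_of_tendsto' h1 h2 (fun n => (hu n).le)
  refine ⟨x, hxK, fun y hy => ?_⟩
  -- growth inequality
  have hgr : ∀ t : ℝ, 0 < t → t ≤ 1 → F x + (1 / 2 : ℝ) * (1 - t) * ‖y - x‖ ^ 2 ≤ F y := by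
    intro t ht0 ht1
    have h1 := hcomb x hxK y hy t ht0.le ht1
    have hmem : (1 - t) • x + t • y ∈ K := hG.1 hxK hy (sub_nonneg.2 ht1) ht0.le (by ring)
    have h2 := (hFx.trans (hmle _ hmem))
    have h3 : t * (F x + (1 / 2 : ℝ) * (1 - t) * ‖y - x‖ ^ 2) ≤ t * F y := by nlinarith
    exact le_of_mul_le_mul_left h3 ht0
  have hlim : Tendsto (fun t : ℝ => F x + (1 / 2 : ℝ) * (1 - t) * ‖y - x‖ ^ 2) (𝓝[>] 0)
      (𝓝 (F x + (1 / 2 : ℝ) * (1 - 0) * ‖y - x‖ ^ 2)) := by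
    apply Tendsto.mono_left _ nhdsWithin_le_nhds
    have : Continuous (fun t : ℝ => F x + (1 / 2 : ℝ) * (1 - t) * ‖y - x‖ ^ 2) := by fun_prop
    exact this.tendsto 0
  have h5 := le_of_tendsto hlim (by
    filter_upwards [Ioc_mem_nhdsGT (show (0 : ℝ) < 1 by norm_num)] with t ht
    exact hgr t ht.1 ht.2)
  simpa [hF] using h5

end Crest.Agent.R146.NormF0_491
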