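import Crest.Agent.R146.NormF0_491

/-!
Row 146, package P5, node F (helper491).  The penalty family: for a sublinear continuous `N`
(the reduced norm) and `g x = ⟪x,ξ⟫ + κ N x ≥ 0` on a closed convex cone, the minimisers `Y ε` of
`ε⁻¹ (⟪y,ξ⟫ + (κ - ε) N y) + ½‖y‖²` converge strongly as `ε ↓ 0`.
-/

set_option autoImplicit false

namespace Crest.Agent.R146.NormF1_491

open Filter Topology Set
open scoped InnerProductSpace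
open Crest.Agent.R146.NormF0_491

variable {H : Type*} [NormedAddCommGroup H] [InnerProductSpace ℝ H]

/-- A closed convex cone, as a set. -/
structure ClCone (K : Set H) : Prop where
  closed : IsClosed K
  zero : (0 : H) ∈ K
  smul : ∀ t : ℝ, 0 ≤ t → ∀ x ∈ K, t • x ∈ K
  add : ∀ x ∈ K, ∀ y ∈ K, x + y ∈ K

lemma ClCone.convex {K : Set H} (hK : ClCone K) : Convex ℝ K := by
  intro x hx y hy a b ha hb _
  exact hK.add _ (hK.smul a ha x hx) _ (hK.smul b hb y hy)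

/-- A continuous sublinear functional bounded by the norm. -/
structure SubLin (N : H → ℝ) : Prop where
  smul : ∀ t : ℝ, 0 ≤ t → ∀ x, N (t • x) = t * N x
  add : ∀ x y, N (x + y) ≤ N x + N y
  le : ∀ x, N x ≤ ‖x‖

lemma SubLin.lip {N : H → ℝ} (hN : SubLin N) (x y : H) : |N x - N y| ≤ ‖x - y‖ := by
  have h1 : N x ≤ N y + ‖x - y‖ := by
    have := hN.add y (x - y)
    have h2 := hN.le (x - y)
    simp only [add_sub_cancel] at this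
    linarith
  have h2 : N y ≤ N x + ‖x - y‖ := by
    have := hN.add x (y - x)
    have h2 := hN.le (y - x)
    rw [norm_sub_rev] at h2
    simp only [add_sub_cancel] at this
    linarith
  rw [abs_le]
  constructor <;> linarith

lemma SubLin.continuous {N : H → ℝ} (hN : SubLin N) : Continuous N := by
  rw [Metric.continuous_iff]
  intro x ε hε
  refine ⟨ε, hε, fun y hy => ?_⟩
  rw [Real.dist_eq]
  rw [dist_eq_norm] at hy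
  exact lt_of_le_of_lt (hN.lip y x) hy

lemma SubLin.zero {N : H → ℝ} (hN : SubLin N) : N 0 = 0 := by
  have := hN.smul 0 le_rfl 0
  simpa using this

lemma SubLin.convexOn {N : H → ℝ} (hN : SubLin N) {K : Set H} (hK : Convex ℝ K) :
    ConvexOn ℝ K N := by
  refine ⟨hK, fun x _ y _ a b ha hb _ => ?_⟩
  have h1 := hN.add (a • x) (b • y)
  rw [hN.smul a ha, hN.smul b hb] at h1
  simpa using h1

/-- The convex part of the penalised functional. -/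
noncomputable def Gf (N : H → ℝ) (ξ : H) (κ ε : ℝ) (y : H) : ℝ :=
  ε⁻¹ * (⟪y, ξ⟫_ℝ + (κ - ε) * N y)

lemma Gf_eq {N : H → ℝ} {ξ : H} {κ ε : ℝ} (hε : 0 < ε) (y : H) :
    Gf N ξ κ ε y = (⟪y, ξ⟫_ℝ + κ * N y) / ε - N y := by
  unfold Gf
  field_simp
  ring

lemma Gf_smul {N : H → ℝ} (hN : SubLin N) {ξ : H} {κ ε : ℝ} {t : ℝ} (ht : 0 ≤ t) (y : H) :
    Gf N ξ κ ε (t • y) = t * Gf N ξ κ ε y := by
  unfold Gf
  rw [hN.smul t ht, inner_smul_left]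
  simp only [conj_trivial]
  ring

lemma Gf_convex {N : H → ℝ} (hN : SubLin N) {ξ : H} {κ ε : ℝ} (hε : 0 < ε) (hεκ : ε ≤ κ)
    {K : Set H} (hK : Convex ℝ K) : ConvexOn ℝ K (Gf N ξ κ ε) := by
  refine ⟨hK, fun x hx y hy a b ha hb hab => ?_⟩
  have h1 := (hN.convexOn hK).2 hx hy ha hb hab
  simp only [smul_eq_mul] at h1 ⊢
  unfold Gf
  rw [inner_add_left, inner_smul_left, inner_smul_left]
  simp only [conj_trivial]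
  have h2 : 0 ≤ ε⁻¹ := (inv_pos.2 hε).le
  have h3 : 0 ≤ κ - ε := by linarith
  have h4 : (κ - ε) * N (a • x + b • y) ≤ (κ - ε) * (a * N x + b * N y) :=
    mul_le_mul_of_nonneg_left h1 h3
  nlinarith [mul_le_mul_of_nonneg_left h4 h2]

lemma Gf_cont {N : H → ℝ} (hN : SubLin N) {ξ : H} {κ ε : ℝ} : Continuous (Gf N ξ κ ε) := by
  unfold Gf
  have := hN.continuous
  fun_prop

/-- `Y` is the (quadratically growing) minimiser of `Gf + ½‖·‖²` on `K`. -/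
def IsMin (K : Set H) (N : H → ℝ) (ξ : H) (κ ε : ℝ) (Y : H) : Prop :=
  Y ∈ K ∧ ∀ y ∈ K, Gf N ξ κ ε Y + (1 / 2 : ℝ) * ‖Y‖ ^ 2 + (1 / 2 : ℝ) * ‖y - Y‖ ^ 2
      ≤ Gf N ξ κ ε y + (1 / 2 : ℝ) * ‖y‖ ^ 2

theorem exists_isMin [CompleteSpace H] {K : Set H} (hK : ClCone K) {N : H → ℝ} (hN : SubLin N)
    (hN0 : ∀ x, 0 ≤ N x) (ξ : H) {κ ε : ℝ} (hε : 0 < ε) (hεκ : ε ≤ κ) :
    ∃ Y, IsMin K N ξ κ ε Y := by
  have hb : BddBelow ((fun x => Gf N ξ κ ε x + (1 / 2 : ℝ) * ‖x‖ ^ 2) '' K) := by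
    refine ⟨-(1 / 2 : ℝ) * (ε⁻¹ * ‖ξ‖) ^ 2, ?_⟩
    rintro _ ⟨x, _, rfl⟩
    have h1 : -(‖x‖ * ‖ξ‖) ≤ ⟪x, ξ⟫_ℝ := by
      have := abs_real_inner_le_norm x ξ
      exact (abs_le.1 this).1
    have h2 : 0 ≤ (κ - ε) * N x := mul_nonneg (by linarith) (hN0 x)
    have h3 : ε⁻¹ * (-(‖x‖ * ‖ξ‖)) ≤ Gf N ξ κ ε x := by
      unfold Gf
      exact mul_le_mul_of_nonneg_left (by linarith) (inv_pos.2 hε).le
    have h4 : (0 : ℝ) ≤ (‖x‖ - ε⁻¹ * ‖ξ‖) ^ 2 := sq_nonneg _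
    show -(1 / 2 : ℝ) * (ε⁻¹ * ‖ξ‖) ^ 2 ≤ Gf N ξ κ ε x + (1 / 2 : ℝ) * ‖x‖ ^ 2
    nlinarith
  obtain ⟨x, hx, h⟩ := exists_min hK.closed ⟨0, hK.zero⟩ (Gf_convex hN hε hεκ hK.convex)
    (Gf_cont hN (ξ := ξ)).continuousOn hb
  exact ⟨x, hx, h⟩

lemma IsMin.G_eq {K : Set H} (hK : ClCone K) {N : H → ℝ} (hN : SubLin N) {ξ : H} {κ ε : ℝ}
    {Y : H} (hY : IsMin K N ξ κ ε Y) : Gf N ξ κ ε Y = -‖Y‖ ^ 2 := by
  have key : ∀ t : ℝ, 0 ≤ t → (1 - t) * (Gf N ξ κ ε Y + ‖Y‖ ^ 2) ≤ 0 := by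
    intro t ht
    have h1 := hY.2 (t • Y) (hK.smul t ht Y hY.1)
    rw [Gf_smul hN ht] at h1
    have h2 : ‖t • Y‖ ^ 2 = t ^ 2 * ‖Y‖ ^ 2 := by
      rw [norm_smul, mul_pow, Real.norm_eq_abs, sq_abs]
    have h3 : ‖t • Y - Y‖ ^ 2 = (t - 1) ^ 2 * ‖Y‖ ^ 2 := by
      have : t • Y - Y = (t - 1) • Y := by rw [sub_smul, one_smul]
      rw [this, norm_smul, mul_pow, Real.norm_eq_abs, sq_abs]
    rw [h2, h3] at h1
    nlinarith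
  have h0 := key 0 le_rfl
  have h2 := key 2 (by norm_num)
  linarith

lemma IsMin.val {K : Set H} (hK : ClCone K) {N : H → ℝ} (hN : SubLin N) {ξ : H} {κ ε : ℝ}
    {Y : H} (hY : IsMin K N ξ κ ε Y) :
    ∀ y ∈ K, -(1 / 2 : ℝ) * ‖Y‖ ^ 2 + (1 / 2 : ℝ) * ‖y - Y‖ ^ 2
      ≤ Gf N ξ κ ε y + (1 / 2 : ℝ) * ‖y‖ ^ 2 := by
  intro y hy
  have := hY.2 y hy
  rw [hY.G_eq hK hN] at this
  linarith

/-- Monotone comparison of two penalised minimisers. -/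
lemma IsMin.comp {K : Set H} (hK : ClCone K) {N : H → ℝ} (hN : SubLin N) {ξ : H} {κ : ℝ}
    (hg : ∀ x ∈ K, 0 ≤ ⟪x, ξ⟫_ℝ + κ * N x) {ε ε' : ℝ} (hε' : 0 < ε') (hle : ε' ≤ ε)
    {Y Y' : H} (hY : IsMin K N ξ κ ε Y) (hY' : IsMin K N ξ κ ε' Y') :
    ‖Y' - Y‖ ^ 2 ≤ ‖Y‖ ^ 2 - ‖Y'‖ ^ 2 := by
  have hε : 0 < ε := lt_of_lt_of_le hε' hle
  have h1 := hY.val hK hN Y' hY'.1
  have h2 := hY'.G_eq hK hN
  have h3 : Gf N ξ κ ε Y' ≤ Gf N ξ κ ε' Y' := by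
    rw [Gf_eq hε, Gf_eq hε']
    have := div_le_div_of_nonneg_left (hg Y' hY'.1) hε' hle
    linarith
  linarith

/-- **Convergence of the penalised minimisers** (no non-degeneracy yet). -/
theorem tendsto_isMin [CompleteSpace H] {K : Set H} (hK : ClCone K) {N : H → ℝ} (hN : SubLin N)
    {ξ : H} {κ : ℝ} (hκ : 0 < κ) (hg : ∀ x ∈ K, 0 ≤ ⟪x, ξ⟫_ℝ + κ * N x)
    {Y : ℝ → H} (hY : ∀ ε, 0 < ε → ε < κ → IsMin K N ξ κ ε (Y ε)) :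
    ∃ y0 ∈ K, Tendsto Y (𝓝[>] 0) (𝓝 y0) ∧ ⟪y0, ξ⟫_ℝ + κ * N y0 = 0 ∧
      (∀ ε, 0 < ε → ε < κ → ‖y0‖ ≤ ‖Y ε‖) ∧
      ∀ y ∈ K, ⟪y, ξ⟫_ℝ + κ * N y = 0 →
        -N y0 + (1 / 2 : ℝ) * ‖y0‖ ^ 2 + (1 / 2 : ℝ) * ‖y - y0‖ ^ 2
          ≤ -N y + (1 / 2 : ℝ) * ‖y‖ ^ 2 := by
  set S : Set ℝ := (fun ε => ‖Y ε‖ ^ 2) '' Ioo 0 κ with hS
  have hSne : S.Nonempty := ⟨_, κ / 2, ⟨by positivity, by linarith⟩, rfl⟩
  have hSb : BddBelow S := ⟨0, by rintro _ ⟨ε, _, rfl⟩; positivity⟩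
  set L := sInf S with hL
  have hcau : Cauchy (map Y (𝓝[>] 0)) := by
    rw [Metric.cauchy_iff]
    refine ⟨inferInstance, fun δ hδ => ?_⟩
    obtain ⟨_, ⟨ε1, hε1, rfl⟩, h1⟩ := exists_lt_of_csInf_lt hSne
      (show L < L + (δ / 2) ^ 2 / 2 by have : 0 < (δ / 2) ^ 2 / 2 := by positivity
                                       linarith)
    refine ⟨Y '' Ioc 0 ε1, image_mem_map (Ioc_mem_nhdsGT hε1.1), ?_⟩
    have hd : ∀ ε ∈ Ioc 0 ε1, ‖Y ε - Y ε1‖ < δ / 2 := by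
      intro ε hε
      have h2 := (hY ε1 hε1.1 hε1.2).comp hK hN hg hε.1 hε.2
        (hY ε hε.1 (lt_of_le_of_lt hε.2 hε1.2))
      have h3 : L ≤ ‖Y ε‖ ^ 2 := csInf_le hSb ⟨ε, ⟨hε.1, lt_of_le_of_lt hε.2 hε1.2⟩, rfl⟩
      have h4 : ‖Y ε - Y ε1‖ ^ 2 < (δ / 2) ^ 2 := by
        have : 0 < (δ / 2) ^ 2 := by positivity
        simp only at h1
        linarith
      exact lt_of_pow_lt_pow_left₀ 2 (by positivity) h4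
    rintro _ ⟨a, ha, rfl⟩ _ ⟨b, hb, rfl⟩
    have h5 := hd a ha
    have h6 := hd b hb
    rw [dist_eq_norm]
    calc ‖Y a - Y b‖ = ‖(Y a - Y ε1) - (Y b - Y ε1)‖ := by congr 1; abel
      _ ≤ ‖Y a - Y ε1‖ + ‖Y b - Y ε1‖ := norm_sub_le _ _
      _ < δ := by linarith
  obtain ⟨y0, hy0⟩ := cauchy_map_iff_exists_tendsto.1 hcau
  have hev : ∀ᶠ ε in 𝓝[>] (0 : ℝ), ε ∈ Ioo 0 κ := Ioo_mem_nhdsGT hκ
  have hy0K : y0 ∈ K := hK.closed.mem_of_tendsto hy0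
    (hev.mono fun ε hε => (hY ε hε.1 hε.2).1)
  have hnorm : ∀ ε, 0 < ε → ε < κ → ‖y0‖ ≤ ‖Y ε‖ := by
    intro ε hε hεκ
    refine le_of_tendsto hy0.norm ?_
    filter_upwards [Ioc_mem_nhdsGT hε] with ε' hε'
    have h2 := (hY ε hε hεκ).comp hK hN hg hε'.1 hε'.2
        (hY ε' hε'.1 (lt_of_le_of_lt hε'.2 hεκ))
    have h3 : ‖Y ε'‖ ^ 2 ≤ ‖Y ε‖ ^ 2 := by nlinarith [sq_nonneg ‖Y ε' - Y ε‖]
    exact le_of_sq_le_sq h3 (norm_nonneg _)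
  have hgc : Continuous (fun y : H => ⟪y, ξ⟫_ℝ + κ * N y) := by
    have := hN.continuous
    fun_prop
  have hg0 : ⟪y0, ξ⟫_ℝ + κ * N y0 = 0 := by
    have h1 : Tendsto (fun ε => ⟪Y ε, ξ⟫_ℝ + κ * N (Y ε)) (𝓝[>] 0)
        (𝓝 (⟪y0, ξ⟫_ℝ + κ * N y0)) := (hgc.tendsto y0).comp hy0
    have h2 : Tendsto (fun ε : ℝ => ε * ‖Y ε‖) (𝓝[>] 0) (𝓝 (0 * ‖y0‖)) :=
      Tendsto.mul (tendsto_nhdsWithin_of_tendsto_nhds tendsto_id) hy0.norm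
    rw [zero_mul] at h2
    refine le_antisymm (le_of_tendsto_of_tendsto h1 h2 ?_) (ge_of_tendsto h1 ?_)
    · filter_upwards [hev] with ε hε
      have h3 := (hY ε hε.1 hε.2).G_eq hK hN
      rw [Gf_eq hε.1] at h3
      have h4 : (⟪Y ε, ξ⟫_ℝ + κ * N (Y ε)) / ε ≤ ‖Y ε‖ := by
        have := hN.le (Y ε)
        have h5 : 0 ≤ ‖Y ε‖ ^ 2 := by positivity
        linarith
      rw [div_le_iff₀ hε.1] at h4
      linarith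
    · filter_upwards [hev] with ε hε
      exact hg _ (hY ε hε.1 hε.2).1
  refine ⟨y0, hy0K, hy0, hg0, hnorm, fun y hy hgy => ?_⟩
  have h1 : Tendsto (fun ε => -N (Y ε) + (1 / 2 : ℝ) * ‖Y ε‖ ^ 2 + (1 / 2 : ℝ) * ‖y - Y ε‖ ^ 2)
      (𝓝[>] 0) (𝓝 (-N y0 + (1 / 2 : ℝ) * ‖y0‖ ^ 2 + (1 / 2 : ℝ) * ‖y - y0‖ ^ 2)) := by
    have hc : Continuous (fun z : H =>
        -N z + (1 / 2 : ℝ) * ‖z‖ ^ 2 + (1 / 2 : ℝ) * ‖y - z‖ ^ 2) := by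
      have := hN.continuous
      fun_prop
    exact (hc.tendsto y0).comp hy0
  refine le_of_tendsto h1 ?_
  filter_upwards [hev] with ε hε
  have h2 := (hY ε hε.1 hε.2).2 y hy
  rw [Gf_eq hε.1, Gf_eq hε.1, hgy, zero_div] at h2
  have h3 : 0 ≤ (⟪Y ε, ξ⟫_ℝ + κ * N (Y ε)) / ε := div_nonneg (hg _ (hY ε hε.1 hε.2).1) hε.1.le
  linarith

/-- A decreasing family of non-empty closed convex sets with uniformly bounded elements has a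
common point. -/
lemma exists_common [CompleteSpace H] {T : ℝ → Set H} (hTc : ∀ δ, IsClosed (T δ))
    (hTv : ∀ δ, Convex ℝ (T δ)) (hmono : ∀ δ δ', δ' ≤ δ → T δ' ⊆ T δ) {C : ℝ}
    (hTne : ∀ δ : ℝ, 0 < δ → ∃ w ∈ T δ, ‖w‖ ≤ C) :
    ∃ w, ∀ δ, 0 < δ → w ∈ T δ := by
  have hex : ∀ δ : ℝ, 0 < δ → ∃ w ∈ T δ, ∀ y ∈ T δ, ‖y - w‖ ^ 2 ≤ ‖y‖ ^ 2 - ‖w‖ ^ 2 := by
    intro δ hδ
    obtain ⟨w0, hw0, _⟩ := hTne δ hδ
    obtain ⟨w, hw, h⟩ := exists_min (hTc δ) ⟨w0, hw0⟩ (convexOn_const (0 : ℝ) (hTv δ))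
      continuousOn_const ⟨0, by rintro _ ⟨x, _, rfl⟩; simp only; positivity⟩
    refine ⟨w, hw, fun y hy => ?_⟩
    have := h y hy
    linarith
  choose! W hWm hW using hex
  have hWC : ∀ δ : ℝ, 0 < δ → ‖W δ‖ ^ 2 ≤ C ^ 2 := by
    intro δ hδ
    obtain ⟨w0, hw0, hw0C⟩ := hTne δ hδ
    have h1 := hW δ hδ w0 hw0
    have h2 : ‖w0‖ ^ 2 ≤ C ^ 2 := by
      have := norm_nonneg w0
      nlinarith
    nlinarith [sq_nonneg ‖w0 - W δ‖]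
  have hcomp : ∀ δ δ' : ℝ, 0 < δ' → δ' ≤ δ → ‖W δ' - W δ‖ ^ 2 ≤ ‖W δ'‖ ^ 2 - ‖W δ‖ ^ 2 :=
    fun δ δ' h0 hle => hW δ (lt_of_lt_of_le h0 hle) _ (hmono δ δ' hle (hWm δ' h0))
  set S : Set ℝ := (fun δ => ‖W δ‖ ^ 2) '' Ioi 0 with hS
  have hSne : S.Nonempty := ⟨_, 1, mem_Ioi.2 one_pos, rfl⟩
  have hSb : BddAbove S := ⟨C ^ 2, by rintro _ ⟨δ, hδ, rfl⟩; exact hWC δ hδ⟩
  have hcau : Cauchy (map W (𝓝[>] 0)) := by
    rw [Metric.cauchy_iff]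
    refine ⟨inferInstance, fun r hr => ?_⟩
    obtain ⟨_, ⟨δ1, hδ1, rfl⟩, h1⟩ := exists_lt_of_lt_csSup hSne
      (show sSup S - (r / 2) ^ 2 / 2 < sSup S by have : 0 < (r / 2) ^ 2 / 2 := by positivity
                                                 linarith)
    refine ⟨W '' Ioc 0 δ1, image_mem_map (Ioc_mem_nhdsGT hδ1), ?_⟩
    have hd : ∀ δ ∈ Ioc 0 δ1, ‖W δ - W δ1‖ < r / 2 := by
      intro δ hδ
      have h2 := hcomp δ1 δ hδ.1 hδ.2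
      have h3 : ‖W δ‖ ^ 2 ≤ sSup S := le_csSup hSb ⟨δ, hδ.1, rfl⟩
      have h4 : ‖W δ - W δ1‖ ^ 2 < (r / 2) ^ 2 := by
        have : 0 < (r / 2) ^ 2 := by positivity
        simp only at h1
        linarith
      exact lt_of_pow_lt_pow_left₀ 2 (by positivity) h4
    rintro _ ⟨a, ha, rfl⟩ _ ⟨b, hb, rfl⟩
    have h5 := hd a ha
    have h6 := hd b hb
    rw [dist_eq_norm]
    calc ‖W a - W b‖ = ‖(W a - W δ1) - (W b - W δ1)‖ := by congr 1; abel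
      _ ≤ ‖W a - W δ1‖ + ‖W b - W δ1‖ := norm_sub_le _ _
      _ < r := by linarith
  obtain ⟨w, hw⟩ := cauchy_map_iff_exists_tendsto.1 hcau
  refine ⟨w, fun δ hδ => (hTc δ).mem_of_tendsto hw ?_⟩
  filter_upwards [Ioc_mem_nhdsGT hδ] with δ' hδ'
  exact hmono δ δ' hδ'.2 (hWm δ' hδ'.1)

/-- Non-degeneracy: under the bound `‖Y‖ ≤ C ⟪e,Y⟫` (statement (3a)) there is a non-trivial zero
of `g` on the cone and the minimisers stay away from zero. -/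
theorem exists_zero_of_g [CompleteSpace H] {K : Set H} (hK : ClCone K) {N : H → ℝ} (hN : SubLin N)
    {e : H} (he : ∀ x ∈ K, 0 ≤ ⟪e, x⟫_ℝ)
    {ξ : H} {κ : ℝ} (hκ : 0 < κ) (hg : ∀ x ∈ K, 0 ≤ ⟪x, ξ⟫_ℝ + κ * N x)
    {Y : ℝ → H} (hY : ∀ ε, 0 < ε → ε < κ → IsMin K N ξ κ ε (Y ε))
    {C : ℝ} (hC : ∀ᶠ ε in 𝓝[>] (0 : ℝ), ‖Y ε‖ ≤ C * ⟪e, Y ε⟫_ℝ)
    (hne : ∃ᶠ ε in 𝓝[>] (0 : ℝ), Y ε ≠ 0) :
    ∃ w ∈ K, ⟪e, w⟫_ℝ = 1 ∧ ⟪w, ξ⟫_ℝ + κ * N w = 0 := by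
  classical
  have hev : ∀ᶠ ε in 𝓝[>] (0 : ℝ), ε ∈ Ioo 0 κ := Ioo_mem_nhdsGT hκ
  -- the level sets
  set T : ℝ → Set H := fun δ => {w | w ∈ K ∧ ⟪e, w⟫_ℝ = 1 ∧ ⟪w, ξ⟫_ℝ + κ * N w ≤ δ} with hT
  have hgc : Continuous (fun y : H => ⟪y, ξ⟫_ℝ + κ * N y) := by
    have := hN.continuous
    fun_prop
  have hTc : ∀ δ, IsClosed (T δ) := by
    intro δ
    have h1 : IsClosed {w : H | ⟪e, w⟫_ℝ = 1} :=
      isClosed_eq (by fun_prop) continuous_const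
    have h2 : IsClosed {w : H | ⟪w, ξ⟫_ℝ + κ * N w ≤ δ} := isClosed_le hgc continuous_const
    exact hK.closed.inter (h1.inter h2)
  have hTv : ∀ δ, Convex ℝ (T δ) := by
    intro δ x hx y hy a b ha hb hab
    refine ⟨hK.convex hx.1 hy.1 ha hb hab, ?_, ?_⟩
    · rw [inner_add_right, inner_smul_right, inner_smul_right, hx.2.1, hy.2.1]
      linarith
    · have h1 := (hN.convexOn hK.convex).2 hx.1 hy.1 ha hb hab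
      simp only [smul_eq_mul] at h1
      rw [inner_add_left, inner_smul_left, inner_smul_left]
      simp only [conj_trivial]
      have h2 := hx.2.2
      have h3 := hy.2.2
      have h4 : κ * N (a • x + b • y) ≤ κ * (a * N x + b * N y) :=
        mul_le_mul_of_nonneg_left h1 hκ.le
      have h5 := mul_le_mul_of_nonneg_left h2 ha
      have h6 := mul_le_mul_of_nonneg_left h3 hb
      have h7 : a * δ + b * δ = δ := by rw [← add_mul, hab, one_mul]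
      nlinarith
  have hmono : ∀ δ δ', δ' ≤ δ → T δ' ⊆ T δ := fun δ δ' h w hw => ⟨hw.1, hw.2.1, hw.2.2.trans h⟩
  -- bounded elements of each level set
  have hfreq : ∃ᶠ ε in 𝓝[>] (0 : ℝ), Y ε ≠ 0 ∧ ‖Y ε‖ ≤ C * ⟪e, Y ε⟫_ℝ ∧ ε ∈ Ioo 0 κ :=
    (hne.and_eventually (hC.and hev)).mono fun ε h => ⟨h.1, h.2.1, h.2.2⟩
  have hTne : ∀ δ : ℝ, 0 < δ → ∃ w ∈ T δ, ‖w‖ ≤ C := by
    intro δ hδ
    obtain ⟨ε, ⟨⟨h0, h1, h2⟩, h3⟩⟩ := (hfreq.and_eventually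
      (Ioc_mem_nhdsGT (show (0 : ℝ) < δ / (|C| + 1) by positivity))).exists
    have hn : 0 < ‖Y ε‖ := norm_pos_iff.2 h0
    have hpos : 0 < ⟪e, Y ε⟫_ℝ := by
      rcases (he _ (hY ε h2.1 h2.2).1).lt_or_eq with h | h
      · exact h
      · rw [← h, mul_zero] at h1
        exact absurd h1 (not_le.2 hn)
    set c : ℝ := ⟪e, Y ε⟫_ℝ with hc
    have hnormw : ‖c⁻¹ • Y ε‖ ≤ C := by
      rw [norm_smul, Real.norm_eq_abs, abs_of_pos (inv_pos.2 hpos), inv_mul_le_iff₀ hpos]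
      linarith
    refine ⟨c⁻¹ • Y ε, ⟨hK.smul _ (inv_pos.2 hpos).le _ (hY ε h2.1 h2.2).1, ?_, ?_⟩, hnormw⟩
    · rw [inner_smul_right, ← hc, inv_mul_cancel₀ hpos.ne']
    · have h4 := (hY ε h2.1 h2.2).G_eq hK hN
      rw [Gf_eq h2.1] at h4
      have h5 : (⟪Y ε, ξ⟫_ℝ + κ * N (Y ε)) / ε ≤ ‖Y ε‖ := by
        have := hN.le (Y ε)
        have h5 : 0 ≤ ‖Y ε‖ ^ 2 := by positivity
        linarith
      rw [div_le_iff₀ h2.1] at h5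
      rw [inner_smul_left, hN.smul _ (inv_pos.2 hpos).le]
      simp only [conj_trivial]
      have h6 : c⁻¹ * ⟪Y ε, ξ⟫_ℝ + κ * (c⁻¹ * N (Y ε)) = c⁻¹ * (⟪Y ε, ξ⟫_ℝ + κ * N (Y ε)) := by
        ring
      rw [h6]
      have h7 : c⁻¹ * (⟪Y ε, ξ⟫_ℝ + κ * N (Y ε)) ≤ c⁻¹ * (‖Y ε‖ * ε) :=
        mul_le_mul_of_nonneg_left h5 (inv_pos.2 hpos).le
      have h8 : c⁻¹ * ‖Y ε‖ ≤ |C| := by
        rw [inv_mul_le_iff₀ hpos]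
        calc ‖Y ε‖ ≤ C * c := h1
          _ ≤ |C| * c := mul_le_mul_of_nonneg_right (le_abs_self C) hpos.le
          _ = c * |C| := mul_comm _ _
      have h9 : ε * (|C| + 1) ≤ δ := by
        have := h3.2
        rwa [le_div_iff₀ (by positivity)] at this
      have h10 : c⁻¹ * (‖Y ε‖ * ε) = (c⁻¹ * ‖Y ε‖) * ε := by ring
      have h11 : (c⁻¹ * ‖Y ε‖) * ε ≤ |C| * ε := mul_le_mul_of_nonneg_right h8 h2.1.le
      nlinarith [h2.1]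
  obtain ⟨w, hw⟩ := exists_common hTc hTv hmono hTne
  refine ⟨w, (hw 1 one_pos).1, (hw 1 one_pos).2.1, le_antisymm ?_ (hg _ (hw 1 one_pos).1)⟩
  exact le_of_forall_pos_le_add fun δ hδ => by simpa using (hw δ hδ).2.2

/-- A non-trivial zero `w` of `g` bounds the minimisers from below. -/
lemma IsMin.norm_ge {K : Set H} (hK : ClCone K) {N : H → ℝ} (hN : SubLin N) {ξ : H} {κ ε : ℝ}
    (hε : 0 < ε) {Y : H} (hY : IsMin K N ξ κ ε Y) {w : H} (hw : w ∈ K) (hw0 : w ≠ 0)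
    (hNw : 0 ≤ N w) (hgw : ⟪w, ξ⟫_ℝ + κ * N w = 0) : N w / ‖w‖ ≤ ‖Y‖ := by
  have hn : 0 < ‖w‖ := norm_pos_iff.2 hw0
  set t : ℝ := N w / ‖w‖ ^ 2 with ht
  have ht0 : 0 ≤ t := div_nonneg hNw (by positivity)
  have h1 := hY.val hK hN (t • w) (hK.smul t ht0 w hw)
  rw [Gf_smul hN ht0, Gf_eq hε, hgw, zero_div] at h1
  have h2 : ‖t • w‖ ^ 2 = t ^ 2 * ‖w‖ ^ 2 := by
    rw [norm_smul, mul_pow, Real.norm_eq_abs, sq_abs]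
  rw [h2] at h1
  have h3 : t * ‖w‖ ^ 2 = N w := by rw [ht]; field_simp
  have h4 : (N w / ‖w‖) ^ 2 = t * N w := by rw [ht]; field_simp
  have h5 : (N w / ‖w‖) ^ 2 ≤ ‖Y‖ ^ 2 := by
    rw [h4]
    nlinarith [sq_nonneg ‖t • w - Y‖]
  exact le_of_sq_le_sq h5 (norm_nonneg _)

/-- **Node F, Hilbert part.** -/
theorem penalty_limit [CompleteSpace H] {K : Set H} (hK : ClCone K) {N : H → ℝ} (hN : SubLin N)
    {e : H} (hNe : ∀ x, |⟪e, x⟫_ℝ| ≤ N x) (he : ∀ x ∈ K, 0 ≤ ⟪e, x⟫_ℝ)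
    {ξ : H} {κ : ℝ} (hκ : 0 < κ) (hg : ∀ x ∈ K, 0 ≤ ⟪x, ξ⟫_ℝ + κ * N x)
    {Y : ℝ → H} (hY : ∀ ε, 0 < ε → ε < κ → IsMin K N ξ κ ε (Y ε))
    {C : ℝ} (hC : ∀ᶠ ε in 𝓝[>] (0 : ℝ), ‖Y ε‖ ≤ C * ⟪e, Y ε⟫_ℝ)
    (hne : ∃ᶠ ε in 𝓝[>] (0 : ℝ), Y ε ≠ 0) :
    ∃ y0 ∈ K, Tendsto Y (𝓝[>] 0) (𝓝 y0) ∧ ⟪y0, ξ⟫_ℝ + κ * N y0 = 0 ∧ 0 < ⟪e, y0⟫_ℝ ∧
      ‖y0‖ ≤ C * ⟪e, y0⟫_ℝ ∧
      (∀ ε, 0 < ε → ε < κ → ‖y0‖ ≤ ‖Y ε‖) ∧
      ∀ y ∈ K, ⟪y, ξ⟫_ℝ + κ * N y = 0 →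
        -N y0 + (1 / 2 : ℝ) * ‖y0‖ ^ 2 + (1 / 2 : ℝ) * ‖y - y0‖ ^ 2
          ≤ -N y + (1 / 2 : ℝ) * ‖y‖ ^ 2 := by
  obtain ⟨y0, hy0K, hy0, hg0, hnorm, hmin⟩ := tendsto_isMin hK hN hκ hg hY
  obtain ⟨w, hwK, hew, hgw⟩ := exists_zero_of_g hK hN he hκ hg hY hC hne
  have hw0 : w ≠ 0 := by
    rintro rfl
    rw [inner_zero_right] at hew
    norm_num at hew
  have hNw : 1 ≤ N w := by
    have := hNe w
    rw [hew, abs_one] at this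
    exact this
  have hev : ∀ᶠ ε in 𝓝[>] (0 : ℝ), ε ∈ Ioo 0 κ := Ioo_mem_nhdsGT hκ
  have hlow : N w / ‖w‖ ≤ ‖y0‖ := by
    refine ge_of_tendsto hy0.norm ?_
    filter_upwards [hev] with ε hε
    exact (hY ε hε.1 hε.2).norm_ge hK hN hε.1 hwK hw0 (by linarith) hgw
  have hpos0 : 0 < ‖y0‖ := lt_of_lt_of_le (div_pos (by linarith) (norm_pos_iff.2 hw0)) hlow
  have hCe : ‖y0‖ ≤ C * ⟪e, y0⟫_ℝ := by
    have hc : Continuous (fun z : H => C * ⟪e, z⟫_ℝ) := by fun_prop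
    exact le_of_tendsto_of_tendsto hy0.norm ((hc.tendsto y0).comp hy0) hC
  refine ⟨y0, hy0K, hy0, hg0, ?_, hCe, hnorm, hmin⟩
  rcases (he _ hy0K).lt_or_eq with h | h
  · exact h
  · rw [← h, mul_zero] at hCe
    exact absurd hCe (not_le.2 hpos0)

end Crest.Agent.R146.NormF1_491
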