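import Crest.Agent.R146.NormF1_491
import Crest.Agent.R146.HilbB_356
import Crest.Agent.R146.HilbE1_12
import Crest.Agent.R146.ProfC_540

/-!
Row 146, package P5, node F (helper491): the passage `α → α_c+` in the frame
`HilbA_356 / HilbE1_12 / ProfB_540`.

`RedNorm R N` collects the facts (C1), (C2) about the reduced norm
`N x = inf_D ½ (Q D x + Ent 0 D)`; the theorem `nodeF` is the final statement.
-/

set_option autoImplicit false

namespace Crest.Agent.R146.NormF2_491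

open Set Filter Topology MeasureTheory
open scoped RealInnerProductSpace
open Crest.Agent.R146.Hilb Crest.Agent.R146.HilbE Crest.Agent.R146.ProfB_540
open Crest.Agent.R146.NormF1_491 Crest.Agent.R146

variable {H : Type*} [NormedAddCommGroup H] [InnerProductSpace ℝ H] [CompleteSpace H]

/-- value of the reduced problem -/
noncomputable def val (R : Res H) (x : H) (D : ℝ → ℝ) : ℝ := 1 / 2 * (R.Q D x + Ent 0 D)

/-- the facts (C1), (C2) at `e = 0` -/
structure RedNorm (R : Res H) (N : H → ℝ) : Prop where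
  sub : SubLin N
  ge : ∀ x, ‖R.P 0 x‖ ≤ N x
  le_val : ∀ x D, Adm 0 D → N x ≤ val R x D
  attained : ∀ x, x ≠ 0 → ∃ D, Adm 0 D ∧ val R x D = N x
  cont : ∀ {l : Filter ℝ} {x : ℝ → H} {D : ℝ → ℝ → ℝ} {x0 : H} {D0 : ℝ → ℝ}, x0 ≠ 0 →
    Tendsto x l (𝓝 x0) → (∀ᶠ i in l, Adm 0 (D i) ∧ val R (x i) (D i) = N (x i)) →
    Adm 0 D0 → val R x0 D0 = N x0 → ∀ T ∈ Ico (0 : ℝ) 1, TendstoUniformlyOn D D0 l (Icc 0 T)

lemma Je_scale (R : Res H) {α c : ℝ} (hα : 0 < α) (ξ x : H) {D : ℝ → ℝ} (hD : Adm 0 D) :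
    Je R α c 0 ξ x D = α * ⟪x, ξ⟫ + α * c / 2 * ‖x‖ ^ 2
      + Real.sqrt α * val R x (fun t => Real.sqrt α * D t) := by
  have hs : 0 < Real.sqrt α := Real.sqrt_pos.2 hα
  have hs2 : Real.sqrt α * Real.sqrt α = α := Real.mul_self_sqrt hα.le
  unfold Je val
  rw [R.Q_smul hD.prof.cont]
  have h2 := (ProfC_540.Adm.smul hD hs).2
  rw [zero_div] at h2
  rw [h2]
  have h3 : Real.sqrt α * (1 / 2 * (Real.sqrt α * R.Q D x + Ent 0 D / Real.sqrt α))
      = 1 / 2 * ((Real.sqrt α * Real.sqrt α) * R.Q D x + Ent 0 D) := by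
    field_simp
  rw [h3, hs2]
  ring

lemma adm_smul {D : ℝ → ℝ} (hD : Adm 0 D) {c : ℝ} (hc : 0 < c) : Adm 0 (fun t => c * D t) := by
  have := (ProfC_540.Adm.smul hD hc).1
  rwa [zero_div] at this


lemma val_smul (R : Res H) {s : ℝ} (hs : 0 < s) (x : H) {D : ℝ → ℝ} (hD : Adm 0 D) :
    val R (s • x) (fun t => s⁻¹ * D t) = s * val R x D := by
  unfold val
  rw [R.Q_smul hD.prof.cont, R.Q_smul_vec]
  have h2 := (ProfC_540.Adm.smul hD (inv_pos.2 hs)).2
  rw [zero_div] at h2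
  rw [h2]
  field_simp

section OneAlpha

variable {R : Res H} {N : H → ℝ} (hN : RedNorm R N) {K : Set H} (hK : ClCone K) {ξ : H}

/-- the reduced functional at `e = 0`, `c = 1` -/
noncomputable def redF (N : H → ℝ) (α : ℝ) (ξ y : H) : ℝ :=
  α * ⟪y, ξ⟫ + α / 2 * ‖y‖ ^ 2 + Real.sqrt α * N y

include hN in
lemma redF_le {α : ℝ} (hα : 0 < α) (y : H) {D : ℝ → ℝ} (hD : Adm 0 D) :
    redF N α ξ y ≤ Je R α 1 0 ξ y D := by
  rw [Je_scale R hα ξ y hD]
  have hs : 0 < Real.sqrt α := Real.sqrt_pos.2 hα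
  have h1 := hN.le_val y _ (adm_smul hD hs)
  have h2 := mul_le_mul_of_nonneg_left h1 hs.le
  unfold redF
  rw [mul_one]
  linarith

include hN in
lemma exists_redF {α : ℝ} (hα : 0 < α) {y : H} (hy : y ≠ 0) :
    ∃ D, Adm 0 D ∧ Je R α 1 0 ξ y D = redF N α ξ y := by
  have hs : 0 < Real.sqrt α := Real.sqrt_pos.2 hα
  obtain ⟨D, hD, hv⟩ := hN.attained y hy
  refine ⟨fun t => (Real.sqrt α)⁻¹ * D t, adm_smul hD (inv_pos.2 hs), ?_⟩
  rw [Je_scale R hα ξ y (adm_smul hD (inv_pos.2 hs))]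
  have h1 : (fun t => Real.sqrt α * ((Real.sqrt α)⁻¹ * D t)) = D := by
    funext t
    field_simp
  rw [h1, hv]
  unfold redF
  rw [mul_one]

include hN in
/-- The minimiser of the joint functional minimises the reduced functional. -/
lemma redF_min {α : ℝ} (hα : 0 < α) {x : H} {D : ℝ → ℝ} (hD : Adm 0 D)
    (hmin : ∀ y ∈ K, ∀ D', Adm 0 D' → Je R α 1 0 ξ x D ≤ Je R α 1 0 ξ y D') :
    ∀ y ∈ K, redF N α ξ x ≤ redF N α ξ y := by
  intro y hy
  have h1 := redF_le hN (ξ := ξ) hα x hD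
  by_cases hy0 : y = 0
  · subst hy0
    have h2 : ∀ c : ℝ, 0 < c → redF N α ξ x ≤ 1 / 2 * (1 / c) := by
      intro c hc
      obtain ⟨h3, h4⟩ := ProfC_540.Adm.const hc
      have h5 := hmin 0 hy _ h3
      have h6 : Je R α 1 0 ξ 0 (fun _ => c) = 1 / 2 * (1 / c) := by
        unfold Je
        rw [h4, R.Q_const]
        simp
      rw [h6] at h5
      exact h1.trans h5
    have h7 : redF N α ξ x ≤ 0 := by
      refine le_of_forall_pos_le_add fun δ hδ => ?_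
      have := h2 (1 / (2 * δ)) (by positivity)
      have e : 1 / 2 * (1 / (1 / (2 * δ))) = δ := by field_simp
      rw [e] at this
      linarith
    have h8 : redF N α ξ 0 = 0 := by
      unfold redF
      rw [hN.sub.zero]
      simp
    rw [h8]; exact h7
  · obtain ⟨D', hD', hv⟩ := exists_redF hN (ξ := ξ) hα hy0
    rw [← hv]
    exact h1.trans (hmin y hy D' hD')

include hN in
/-- At a minimiser the profile is optimal for `x`. -/
lemma val_eq {α : ℝ} (hα : 0 < α) {x : H} (hxK : x ∈ K) (hx : x ≠ 0) {D : ℝ → ℝ} (hD : Adm 0 D)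
    (hmin : ∀ y ∈ K, ∀ D', Adm 0 D' → Je R α 1 0 ξ x D ≤ Je R α 1 0 ξ y D') :
    val R x (fun t => Real.sqrt α * D t) = N x := by
  have hs : 0 < Real.sqrt α := Real.sqrt_pos.2 hα
  refine le_antisymm ?_ (hN.le_val x _ (adm_smul hD hs))
  obtain ⟨D', hD', hv⟩ := exists_redF hN (ξ := ξ) hα hx
  have h1 := hmin x hxK D' hD'
  rw [hv, Je_scale R hα ξ x hD] at h1
  unfold redF at h1
  rw [mul_one] at h1
  have h2 : Real.sqrt α * val R x (fun t => Real.sqrt α * D t) ≤ Real.sqrt α * N x := by linarith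
  exact le_of_mul_le_mul_left h2 hs

include hK in
/-- Identification with the penalised minimiser. -/
lemma eq_isMin {α κ ε : ℝ} (hα : 0 < α) (hε : 0 < ε) (hεα : κ - ε = 1 / Real.sqrt α)
    (hNs : SubLin N) {x : H} (hxK : x ∈ K) (hmin : ∀ y ∈ K, redF N α ξ x ≤ redF N α ξ y)
    {Y : H} (hY : IsMin K N ξ κ ε Y) : x = ε • Y := by
  have hs : 0 < Real.sqrt α := Real.sqrt_pos.2 hα
  have hs2 : Real.sqrt α * Real.sqrt α = α := Real.mul_self_sqrt hα.le
  have key : ∀ z : H, redF N α ξ (ε • z) = (α * ε ^ 2) *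
      (Gf N ξ κ ε z + (1 / 2 : ℝ) * ‖z‖ ^ 2) := by
    intro z
    unfold redF Gf
    rw [hεα, inner_smul_left, hNs.smul ε hε.le, norm_smul, Real.norm_eq_abs, abs_of_pos hε]
    simp only [conj_trivial]
    have h1 : Real.sqrt α * (ε * N z) = α * ε * (1 / Real.sqrt α * N z) := by
      field_simp
      rw [sq, hs2, mul_comm]
    rw [h1]
    field_simp
    ring
  set z : H := ε⁻¹ • x with hz
  have hx : x = ε • z := by rw [hz, smul_smul, mul_inv_cancel₀ hε.ne', one_smul]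
  have hzK : z ∈ K := hK.smul _ (inv_pos.2 hε).le _ hxK
  have h1 := hmin (ε • Y) (hK.smul _ hε.le _ hY.1)
  rw [hx, key, key] at h1
  have h2 : Gf N ξ κ ε z + (1 / 2 : ℝ) * ‖z‖ ^ 2 ≤ Gf N ξ κ ε Y + (1 / 2 : ℝ) * ‖Y‖ ^ 2 :=
    le_of_mul_le_mul_left h1 (by positivity)
  have h3 := hY.2 z hzK
  have h4 : ‖z - Y‖ ^ 2 ≤ 0 := by linarith
  have h5 : z = Y := by
    have : ‖z - Y‖ = 0 := by
      have := sq_nonneg ‖z - Y‖
      exact pow_eq_zero_iff (two_ne_zero) |>.1 (le_antisymm h4 this)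
    exact sub_eq_zero.1 (norm_eq_zero.1 this)
  rw [hx, h5]

end OneAlpha

/-- **Node F**: passage to the critical density. -/
theorem nodeF {R : Res H} {N : H → ℝ} (hN : RedNorm R N) {K : Set H} (hK : ClCone K)
    {e ξ : H} (heP : ∀ x, |⟪e, x⟫| ≤ ‖R.P 0 x‖) (heK : ∀ x ∈ K, 0 ≤ ⟪e, x⟫)
    {αc η : ℝ} (hαc : 0 < αc) (hη : 0 < η)
    (hcrit : ∀ x ∈ K, ∀ D, Adm 0 D → 0 ≤ Je R αc 0 0 ξ x D)
    {x : ℝ → H} {D : ℝ → ℝ → ℝ}
    (hxK : ∀ α, αc < α → α < αc + η → x α ∈ K)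
    (hDA : ∀ α, αc < α → α < αc + η → Adm 0 (D α))
    (hmin : ∀ α, αc < α → α < αc + η →
      ∀ y ∈ K, ∀ D', Adm 0 D' → Je R α 1 0 ξ (x α) (D α) ≤ Je R α 1 0 ξ y D')
    (hne : ∀ α, αc < α → α < αc + η → x α ≠ 0)
    {C : ℝ} (h3a : ∀ α, αc < α → α < αc + η → ‖x α‖ ≤ C * ⟪e, x α⟫) :
    ∃ (xJ : H) (DJ : ℝ → ℝ), xJ ∈ K ∧ Adm 0 DJ ∧ Je R αc 0 0 ξ xJ DJ = 0 ∧ ⟪e, xJ⟫ = 1 ∧
      (∀ α, αc < α → α < αc + η → 0 < ⟪e, x α⟫) ∧
      Tendsto (fun α => (⟪e, x α⟫)⁻¹ • x α) (𝓝[>] αc) (𝓝 xJ) ∧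
      Tendsto x (𝓝[>] αc) (𝓝 0) ∧
      (∀ T ∈ Ico (0 : ℝ) 1,
        TendstoUniformlyOn (fun α t => ⟪e, x α⟫ * D α t) DJ (𝓝[>] αc) (Icc 0 T)) ∧
      Tendsto (fun α => R.Dop (D α) (x α)) (𝓝[>] αc) (𝓝 (R.Dop DJ xJ)) := by
  classical
  set κ : ℝ := 1 / Real.sqrt αc with hκ
  have hsc : 0 < Real.sqrt αc := Real.sqrt_pos.2 hαc
  have hκ0 : 0 < κ := by positivity
  have hpos : ∀ α, αc < α → α < αc + η → 0 < ⟪e, x α⟫ := by
    intro α h1 h2
    have h3 := heK _ (hxK α h1 h2)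
    have h4 := h3a α h1 h2
    have h5 : 0 < ‖x α‖ := norm_pos_iff.2 (hne α h1 h2)
    rcases h3.lt_or_eq with h | h
    · exact h
    · rw [← h, mul_zero] at h4
      exact absurd h4 (not_le.2 h5)
  -- g ≥ 0
  have hN0 : ∀ y, 0 ≤ N y := fun y => (norm_nonneg _).trans (hN.ge y)
  have hg : ∀ y ∈ K, 0 ≤ ⟪y, ξ⟫ + κ * N y := by
    intro y hy
    by_cases hy0 : y = 0
    · subst hy0
      rw [hN.sub.zero]
      simp
    · obtain ⟨D', hD', hv⟩ := hN.attained y hy0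
      have h1 := hcrit y hy (fun t => (Real.sqrt αc)⁻¹ * D' t) (adm_smul hD' (inv_pos.2 hsc))
      rw [Je_scale R hαc ξ y (adm_smul hD' (inv_pos.2 hsc))] at h1
      have h2 : (fun t => Real.sqrt αc * ((Real.sqrt αc)⁻¹ * D' t)) = D' := by
        funext t
        field_simp
      rw [h2, hv] at h1
      have h3 : αc * (⟪y, ξ⟫ + κ * N y) = αc * ⟪y, ξ⟫ + αc * 0 / 2 * ‖y‖ ^ 2
          + Real.sqrt αc * N y := by
        have : αc * κ = Real.sqrt αc := by
          rw [hκ]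
          have := Real.mul_self_sqrt hαc.le
          field_simp
          rw [sq, this]
        rw [mul_add, ← mul_assoc, this]
        ring
      rw [← h3] at h1
      exact nonneg_of_mul_nonneg_right h1 hαc
  -- penalised minimisers
  have hexY : ∀ ε : ℝ, ∃ Y : H, 0 < ε → ε < κ → IsMin K N ξ κ ε Y := by
    intro ε
    by_cases h : 0 < ε ∧ ε < κ
    · obtain ⟨Y, hY⟩ := exists_isMin hK hN.sub hN0 ξ h.1 h.2.le
      exact ⟨Y, fun _ _ => hY⟩
    · exact ⟨0, fun h1 h2 => absurd ⟨h1, h2⟩ h⟩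
  choose Y hY using hexY
  -- the parameter
  set E : ℝ → ℝ := fun α => κ - 1 / Real.sqrt α with hE
  have hEpos : ∀ α, αc < α → 0 < E α := by
    intro α h
    have h1 : Real.sqrt αc < Real.sqrt α := Real.sqrt_lt_sqrt hαc.le h
    have h2 : 1 / Real.sqrt α < κ := one_div_lt_one_div_of_lt hsc h1
    simp only [hE]; linarith
  have hElt : ∀ α, αc < α → E α < κ := by
    intro α h
    have : 0 < 1 / Real.sqrt α := by
      have : 0 < Real.sqrt α := Real.sqrt_pos.2 (hαc.trans h)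
      positivity
    simp only [hE]; linarith
  have hxY : ∀ α, αc < α → α < αc + η → x α = E α • Y (E α) := by
    intro α h1 h2
    exact eq_isMin hK (hαc.trans h1) (hEpos α h1) (by simp only [hE]; ring) hN.sub (hxK α h1 h2)
      (redF_min hN (hαc.trans h1) (hDA α h1 h2) (hmin α h1 h2)) (hY _ (hEpos α h1) (hElt α h1))
  -- inverse parametrisation
  set A : ℝ → ℝ := fun ε => (1 / (κ - ε)) ^ 2 with hA
  have hsη : 0 < Real.sqrt (αc + η) := Real.sqrt_pos.2 (by linarith)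
  have hε1 : 0 < E (αc + η) := hEpos _ (by linarith)
  have hAprop : ∀ ε ∈ Ioo 0 (E (αc + η)), αc < A ε ∧ A ε < αc + η ∧ E (A ε) = ε := by
    intro ε hε
    have hlt : ε < κ := hε.2.trans (hElt _ (by linarith))
    have h1 : 0 < κ - ε := by linarith
    have h2 : Real.sqrt (A ε) = 1 / (κ - ε) := by
      simp only [hA]
      rw [Real.sqrt_sq (by positivity)]
    have h3 : E (A ε) = ε := by
      simp only [hE]
      rw [h2]
      field_simp
      ring
    have hAp : 0 < A ε := by simp only [hA]; positivity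
    refine ⟨?_, ?_, h3⟩
    · by_contra hcon
      push Not at hcon
      have h4 : Real.sqrt (A ε) ≤ Real.sqrt αc := Real.sqrt_le_sqrt hcon
      have h5 : κ ≤ 1 / Real.sqrt (A ε) :=
        one_div_le_one_div_of_le (Real.sqrt_pos.2 hAp) h4
      have h6 : 1 / Real.sqrt (A ε) = κ - ε := by rw [h2]; field_simp
      linarith [hε.1]
    · by_contra hcon
      push Not at hcon
      have h4 : Real.sqrt (αc + η) ≤ Real.sqrt (A ε) := Real.sqrt_le_sqrt hcon
      have h5 : 1 / Real.sqrt (A ε) ≤ 1 / Real.sqrt (αc + η) :=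
        one_div_le_one_div_of_le hsη h4
      have h6 : 1 / Real.sqrt (A ε) = κ - ε := by rw [h2]; field_simp
      have h7 := hε.2
      simp only [hE] at h7
      linarith
  have hevε : ∀ᶠ ε in 𝓝[>] (0 : ℝ), ε ∈ Ioo 0 (E (αc + η)) := Ioo_mem_nhdsGT hε1
  have hYx : ∀ ε ∈ Ioo 0 (E (αc + η)), x (A ε) = ε • Y ε := by
    intro ε hε
    obtain ⟨h1, h2, h3⟩ := hAprop ε hε
    have := hxY (A ε) h1 h2
    rwa [h3] at this
  have hC : ∀ᶠ ε in 𝓝[>] (0 : ℝ), ‖Y ε‖ ≤ C * ⟪e, Y ε⟫ := by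
    filter_upwards [hevε] with ε hε
    obtain ⟨h1, h2, h3⟩ := hAprop ε hε
    have h4 := h3a (A ε) h1 h2
    rw [hYx ε hε, norm_smul, Real.norm_eq_abs, abs_of_pos hε.1, inner_smul_right] at h4
    have h5 : ε * ‖Y ε‖ ≤ ε * (C * ⟪e, Y ε⟫) := by linarith
    exact le_of_mul_le_mul_left h5 hε.1
  have hYne : ∃ᶠ ε in 𝓝[>] (0 : ℝ), Y ε ≠ 0 := by
    apply Eventually.frequently
    filter_upwards [hevε] with ε hε
    obtain ⟨h1, h2, h3⟩ := hAprop ε hε
    have h4 := hne (A ε) h1 h2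
    rw [hYx ε hε] at h4
    exact fun h => h4 (by rw [h, smul_zero])
  obtain ⟨y0, hy0K, hy0, hg0, hey0, -, -, -⟩ := penalty_limit hK hN.sub
    (fun z => (heP z).trans (hN.ge z)) heK hκ0 hg hY hC hYne
  -- convergence of E α
  have hEt : Tendsto E (𝓝[>] αc) (𝓝[>] 0) := by
    rw [tendsto_nhdsWithin_iff]
    constructor
    · have h1 : ContinuousAt E αc := by
        simp only [hE]
        apply ContinuousAt.sub continuousAt_const
        apply ContinuousAt.div continuousAt_const (Real.continuous_sqrt.continuousAt)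
        exact hsc.ne'
      have h2 : E αc = 0 := by simp only [hE, hκ]; ring
      have h3 := h1.tendsto
      rw [h2] at h3
      exact h3.mono_left nhdsWithin_le_nhds
    · filter_upwards [self_mem_nhdsWithin] with α hα
      exact hEpos α hα
  have hevα : ∀ᶠ α in 𝓝[>] αc, αc < α ∧ α < αc + η := by
    filter_upwards [Ioo_mem_nhdsGT (show αc < αc + η by linarith)] with α hα
    exact hα
  have hYt : Tendsto (fun α => Y (E α)) (𝓝[>] αc) (𝓝 y0) := hy0.comp hEt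
  set c0 : ℝ := ⟪e, y0⟫ with hc0
  set xJ : H := c0⁻¹ • y0 with hxJ
  have hxJK : xJ ∈ K := hK.smul _ (inv_pos.2 hey0).le _ hy0K
  have hexJ : ⟪e, xJ⟫ = 1 := by
    rw [hxJ, inner_smul_right, ← hc0, inv_mul_cancel₀ hey0.ne']
  have hxJ0 : xJ ≠ 0 := by
    intro h
    rw [h, inner_zero_right] at hexJ
    norm_num at hexJ
  have hhat : Tendsto (fun α => (⟪e, x α⟫)⁻¹ • x α) (𝓝[>] αc) (𝓝 xJ) := by
    have hc : Tendsto (fun α => ⟪e, Y (E α)⟫) (𝓝[>] αc) (𝓝 c0) := by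
      have hcc : Continuous (fun z : H => ⟪e, z⟫) := by fun_prop
      exact (hcc.tendsto y0).comp hYt
    have h1 : Tendsto (fun α => (⟪e, Y (E α)⟫)⁻¹ • Y (E α)) (𝓝[>] αc) (𝓝 xJ) :=
      (hc.inv₀ hey0.ne').smul hYt
    refine h1.congr' ?_
    filter_upwards [hevα] with α hα
    rw [hxY α hα.1 hα.2, inner_smul_right, smul_smul, mul_inv]
    congr 1
    have := (hEpos α hα.1).ne'
    field_simp
  have hx0 : Tendsto x (𝓝[>] αc) (𝓝 0) := by
    have h1 : Tendsto (fun α => E α • Y (E α)) (𝓝[>] αc) (𝓝 ((0 : ℝ) • y0)) :=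
      (tendsto_nhds_of_tendsto_nhdsWithin hEt).smul hYt
    rw [zero_smul] at h1
    refine h1.congr' ?_
    filter_upwards [hevα] with α hα
    exact (hxY α hα.1 hα.2).symm
  -- profiles
  obtain ⟨D0, hD0, hv0⟩ := hN.attained xJ hxJ0
  set DJ : ℝ → ℝ := fun t => (Real.sqrt αc)⁻¹ * D0 t with hDJ
  have hDJA : Adm 0 DJ := adm_smul hD0 (inv_pos.2 hsc)
  have hsD : (fun t => Real.sqrt αc * DJ t) = D0 := by
    funext t
    simp only [hDJ]
    field_simp
  have hJ0 : Je R αc 0 0 ξ xJ DJ = 0 := by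
    rw [Je_scale R hαc ξ xJ hDJA, hsD, hv0]
    have h1 : ⟪xJ, ξ⟫ + κ * N xJ = 0 := by
      rw [hxJ, hN.sub.smul _ (inv_pos.2 hey0).le, inner_smul_left]
      simp only [conj_trivial]
      have : c0⁻¹ * ⟪y0, ξ⟫ + κ * (c0⁻¹ * N y0) = c0⁻¹ * (⟪y0, ξ⟫ + κ * N y0) := by ring
      rw [this, hg0, mul_zero]
    have h2 : αc * κ = Real.sqrt αc := by
      rw [hκ]
      have := Real.mul_self_sqrt hαc.le
      field_simp
      rw [sq, this]
    have h3 : αc * ⟪xJ, ξ⟫ + αc * 0 / 2 * ‖xJ‖ ^ 2 + Real.sqrt αc * N xJ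
        = αc * (⟪xJ, ξ⟫ + κ * N xJ) := by rw [← h2]; ring
    rw [h3, h1, mul_zero]
  have hDhat : ∀ T ∈ Ico (0 : ℝ) 1, TendstoUniformlyOn
      (fun α t => ⟪e, x α⟫ * (Real.sqrt α * D α t)) D0 (𝓝[>] αc) (Icc 0 T) := by
    refine hN.cont hxJ0 hhat ?_ hD0 hv0
    filter_upwards [hevα] with α hα
    have hp := hpos α hα.1 hα.2
    have hsα : 0 < Real.sqrt α := Real.sqrt_pos.2 (hαc.trans hα.1)
    have hA1 : Adm 0 (fun t => Real.sqrt α * D α t) := adm_smul (hDA α hα.1 hα.2) hsα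
    refine ⟨adm_smul hA1 hp, ?_⟩
    have h1 := val_smul R (inv_pos.2 hp) (x α) hA1
    rw [inv_inv] at h1
    rw [h1, val_eq hN (hαc.trans hα.1) (hxK α hα.1 hα.2) (hne α hα.1 hα.2) (hDA α hα.1 hα.2)
      (hmin α hα.1 hα.2), hN.sub.smul _ (inv_pos.2 hp).le]
  have hDt : ∀ T ∈ Ico (0 : ℝ) 1,
        TendstoUniformlyOn (fun α t => ⟪e, x α⟫ * D α t) DJ (𝓝[>] αc) (Icc 0 T) := by
    intro T hT
    have h1 := hDhat T hT
    have hsq : Tendsto (fun α => (Real.sqrt α)⁻¹) (𝓝[>] αc) (𝓝 (Real.sqrt αc)⁻¹) := by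
      have : Tendsto (fun α => Real.sqrt α) (𝓝[>] αc) (𝓝 (Real.sqrt αc)) :=
        (Real.continuous_sqrt.tendsto αc).mono_left nhdsWithin_le_nhds
      exact this.inv₀ hsc.ne'
    rw [Metric.tendstoUniformlyOn_iff] at h1 ⊢
    intro δ hδ
    set M : ℝ := D0 0 + 1 with hM
    have hM0 : 0 < M := by
      have := hD0.prof.nonneg (t := 0) ⟨le_rfl, zero_le_one⟩
      linarith
    have hi0 : 0 < (Real.sqrt αc)⁻¹ := inv_pos.2 hsc
    have h2 := h1 (min 1 (δ / (2 * ((Real.sqrt αc)⁻¹ + 1)))) (by positivity)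
    have h3 := (Metric.tendsto_nhds.1 hsq) (min 1 (δ / (2 * M))) (by positivity)
    filter_upwards [h2, h3, hevα] with α h2 h3 hα t ht
    have hsα : 0 < Real.sqrt α := Real.sqrt_pos.2 (hαc.trans hα.1)
    have h4 := h2 t ht
    rw [Real.dist_eq] at h3 h4 ⊢
    have e1 : ⟪e, x α⟫ * D α t = (Real.sqrt α)⁻¹ * (⟪e, x α⟫ * (Real.sqrt α * D α t)) := by
      field_simp
    rw [e1]
    set u := ⟪e, x α⟫ * (Real.sqrt α * D α t) with hu
    set i := (Real.sqrt α)⁻¹ with hi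
    simp only [hDJ]
    set i0 := (Real.sqrt αc)⁻¹ with hi0'
    have ht1 : t ∈ Icc (0 : ℝ) 1 := ⟨ht.1, ht.2.trans hT.2.le⟩
    have hD0t : |D0 t| ≤ D0 0 := hD0.prof.abs_le ht1
    have h5 : |D0 t - u| < 1 := lt_of_lt_of_le h4 (min_le_left _ _)
    have h6 : |D0 t - u| < δ / (2 * (i0 + 1)) := lt_of_lt_of_le h4 (min_le_right _ _)
    have h7 : |i - i0| < δ / (2 * M) := lt_of_lt_of_le h3 (min_le_right _ _)
    have h8 : |i - i0| < 1 := lt_of_lt_of_le h3 (min_le_left _ _)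
    have e2 : i0 * D0 t - i * u = i * (D0 t - u) - (i - i0) * D0 t := by ring
    rw [e2]
    have hipos : 0 < i := inv_pos.2 hsα
    have h9 : i < i0 + 1 := by
      have := (abs_lt.1 h8).2
      linarith
    calc |i * (D0 t - u) - (i - i0) * D0 t| ≤ |i * (D0 t - u)| + |(i - i0) * D0 t| :=
          abs_sub _ _
      _ = i * |D0 t - u| + |i - i0| * |D0 t| := by rw [abs_mul, abs_mul, abs_of_pos hipos]
      _ ≤ (i0 + 1) * |D0 t - u| + |i - i0| * M := by
          have a1 : i * |D0 t - u| ≤ (i0 + 1) * |D0 t - u| :=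
            mul_le_mul_of_nonneg_right h9.le (abs_nonneg _)
          have a2 : |i - i0| * |D0 t| ≤ |i - i0| * M :=
            mul_le_mul_of_nonneg_left (by linarith) (abs_nonneg _)
          linarith
      _ < (i0 + 1) * (δ / (2 * (i0 + 1))) + δ / (2 * M) * M := by
          have a1 : (i0 + 1) * |D0 t - u| < (i0 + 1) * (δ / (2 * (i0 + 1))) :=
            mul_lt_mul_of_pos_left h6 (by linarith)
          have a2 : |i - i0| * M < δ / (2 * M) * M := mul_lt_mul_of_pos_right h7 hM0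
          linarith
      _ = δ := by
          field_simp
          ring
  -- convergence of Dop
  have hDop : Tendsto (fun α => R.Dop (D α) (x α)) (𝓝[>] αc) (𝓝 (R.Dop DJ xJ)) := by
    have h1 : Tendsto (fun α => R.Dop (fun t => ⟪e, x α⟫ * D α t) ((⟪e, x α⟫)⁻¹ • x α))
        (𝓝[>] αc) (𝓝 (R.Dop DJ xJ)) := by
      refine R.Dop_tendsto (B := DJ 0 + 1) ?_ hDJA.prof.cont ?_ ?_ hDt hhat
      · filter_upwards [hevα] with α hα
        exact ((hDA α hα.1 hα.2).prof.cont).const_smul ⟪e, x α⟫ |>.congr fun t _ => by simp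
      · have h2 := (Metric.tendstoUniformlyOn_iff.1 (hDt 0 ⟨le_rfl, zero_lt_one⟩)) 1 one_pos
        filter_upwards [hevα, h2] with α hα h2 t ht
        have hp := hpos α hα.1 hα.2
        have h3 := h2 0 ⟨le_rfl, le_rfl⟩
        rw [Real.dist_eq] at h3
        have h4 : |D α t| ≤ D α 0 := (hDA α hα.1 hα.2).prof.abs_le ht
        rw [abs_mul, abs_of_pos hp]
        have h5 : ⟪e, x α⟫ * |D α t| ≤ ⟪e, x α⟫ * D α 0 := mul_le_mul_of_nonneg_left h4 hp.le
        have h6 := (abs_lt.1 h3).1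
        linarith
      · intro t ht
        have := hDJA.prof.abs_le ht
        linarith
    refine h1.congr' ?_
    filter_upwards [hevα] with α hα
    have hp := hpos α hα.1 hα.2
    rw [R.Dop_smul (hDA α hα.1 hα.2).prof.cont, map_smul]
    simp only [smul_apply]
    rw [smul_smul, inv_mul_cancel₀ hp.ne', one_smul]
  exact ⟨xJ, DJ, hxJK, hDJA, hJ0, hexJ, hpos, hhat, hx0, hDt, hDop⟩

end Crest.Agent.R146.NormF2_491
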