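import Crest.Agent.R146.RefWS_355
import Crest.Agent.R146.Fix2_181

/-!
Row 146 (helper355).  `NUMREF` from the inequalities in `ξ` for every radius.
-/

set_option autoImplicit false

namespace Crest.Agent.R146.RefWSN_355

open Crest.Agent.R146.SPair_307 Crest.Agent.R146.PtRef_846 Crest.Agent.R146.RefWS_355

/-- the certificate at the closed pair, all radii -/
def XNUM : Prop := ∀ (c : ℝ) (W V I k : ℝ → ℝ), SPair c W V I k c →
  0.415735 < c → c < 0.415736 →
  ∀ δ : ℝ, 0 < δ → δ ≤ c → ∃ (e0 κ B : ℝ) (D : XD),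
    XWS c δ e0 κ B (c - gr * δ) (c + gr * δ) W V I k D

theorem numref_of (H : XNUM) : NUMREF := by
  intro c W V I k h δ hδ hδc
  obtain ⟨h1, h2⟩ := Fix2_181.closed_digits h
  obtain ⟨e0, κ, B, D, hX⟩ := H c W V I k h h1 h2 δ hδ hδc
  obtain ⟨M, hM⟩ := ws_of_xws h (by norm_num at h2 ⊢; linarith) hX
  exact ⟨e0, κ, M, _, hM⟩

end Crest.Agent.R146.RefWSN_355
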