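import Crest.Agent.R146.PtNumRef_846
import Crest.Agent.R146.RefWSN_355

/-!
Row 146 (helper131, PM-C), glue: `C1 → C2 → C3 → NUMREF`.
-/

set_option autoImplicit false

namespace Crest.Agent.R146.NumEdge_131

open Crest.Agent.R146.PtNum_846

theorem numref_of (h1 : C1) (h2 : C2) (h3 : C3) : PtRef_846.NUMREF := by
  refine RefWSN_355.numref_of fun c W V I k h _ hc δ hδ hδc => ?_
  obtain ⟨B, hB⟩ := PtNumRef_846.xws h1 h2 h3 h (by norm_num at hc ⊢; linarith) hδ hδc
  exact ⟨δ / 1000, 1 / 100, B, PtNum_846.D0 δ V I, hB⟩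

end Crest.Agent.R146.NumEdge_131
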