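import Crest.Agent.R146.PtNumRef_846
import Crest.Agent.R146.RefWSN_355

/-!
Row 146, PT (helper846): `C1, C2, C3 ⟹ NUMREF`.
-/

set_option autoImplicit false

namespace Crest.Agent.R146.PtNumFin_846

open Crest.Agent.R146.PtNum_846

/-- the certificate at the closed pair -/
theorem xnum_of (h1 : C1) (h2 : C2) (h3 : C3) : RefWSN_355.XNUM := by
  intro c W V I k hS hc1 hc2 δ hδ hδc
  obtain ⟨B, hB⟩ := PtNumRef_846.xws h1 h2 h3 hS (by norm_num at hc2 ⊢; linarith) hδ hδc
  exact ⟨δ / 1000, 1 / 100, B, _, hB⟩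

/-- **NUMREF from the three certificates** -/
theorem numref_of (h1 : C1) (h2 : C2) (h3 : C3) : PtRef_846.NUMREF :=
  RefWSN_355.numref_of (xnum_of h1 h2 h3)

end Crest.Agent.R146.PtNumFin_846
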