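import Crest.Agent.R146.C2Fin_454
import Crest.Agent.R146.C2Ym_889
import Crest.Agent.R146.C2Z_649
import Crest.Agent.R146.C1_445
import Crest.Agent.R146.C3x_924
import Crest.Agent.R146.PtNumFin_846

/-!
Row 146 (helper131, PM-C), glue only: **`PtNum_846.C2` and `PtRef_846.NUMREF` are theorems**
(C1: helper445; C2: helpers 889, 454, 490, 649, 865, 791; C3: helper924, 649, 277; glue 355, 846;
enclosures 848, 865).
-/

set_option autoImplicit false

namespace Crest.Agent.R146.NumThm_131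

theorem c2 : PtNum_846.C2 :=
  C2Fin_454.c2_of3 C2Ym_889.yp C2Ym_889.ym
    (fun _ _ _ _ _ h _ hδ hδc _ _ hx hxy hV => C2Z_649.hEp_right h hδ hδc hx hxy hV)
    (fun _ _ _ _ _ h _ hδ hδc _ _ hx hxy hV => C2Z_649.hEm_right h hδ hδc hx hxy hV)

/-- **NUMREF** -/
theorem numref : PtRef_846.NUMREF := PtNumFin_846.numref_of C1_445.c1 c2 C3x_924.c3

end Crest.Agent.R146.NumThm_131
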