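import Mathlib
import Crest.Agent.R151.V1

/-!
# R146, package OBS, part A (helper468): abstract row systems

`W a r y` : contribution of row `r` (pattern number `a`) at the configuration `y`.
Independent rows with law `ρ`, configuration law `ν`.

* `mp_update_pi` : resampling one row preserves the product law;
* `ZZ`, `gav` : partition function and Gibbs average;
* `lintegral_sq_diff_le`, `dvar_logZZ_le`, `variance_logZZ_le` : concentration of `log ZZ`
  (Efron-Stein over the rows, potentials unbounded below);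
* `assoc_row` : one-row association inequality.
-/

set_option autoImplicit false
set_option linter.unusedSectionVars false
set_option linter.unusedVariables false

open MeasureTheory ProbabilityTheory
open scoped ENNReal

namespace Crest.Agent.R146.ObsA_468

/-- resampling the coordinate `i` preserves the product law -/
theorem mp_update_pi {ι X : Type*} [Fintype ι] [DecidableEq ι] [MeasurableSpace X]
    (G : Measure X) [IsProbabilityMeasure G] (i : ι) :
    MeasurePreserving (fun p : (ι → X) × X => Function.update p.1 i p.2)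
      ((Measure.pi fun _ : ι => G).prod G) (Measure.pi fun _ : ι => G) := by
  refine ⟨measurable_update', ?_⟩
  symm
  apply Measure.pi_eq
  intro A hA
  have hpi : MeasurableSet (Set.pi (Set.univ : Set ι) A) :=
    MeasurableSet.univ_pi hA
  rw [Measure.map_apply measurable_update' hpi]
  have h1 : (fun p : (ι → X) × X => Function.update p.1 i p.2) ⁻¹' (Set.pi (Set.univ : Set ι) A) =
      (Set.pi (Set.univ : Set ι) (Function.update A i Set.univ)) ×ˢ (A i) := by
    ext p
    simp only [Set.mem_preimage, Set.mem_pi, Set.mem_univ, forall_true_left, Set.mem_prod]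
    constructor
    · intro h
      refine ⟨fun j => ?_, ?_⟩
      · by_cases hj : j = i
        · subst hj; simp
        · have := h j
          rw [Function.update_of_ne hj] at this ⊢
          exact this
      · have := h i
        rwa [Function.update_self] at this
    · rintro ⟨h, h'⟩ j
      by_cases hji : j = i
      · subst hji
        rw [Function.update_self]; exact h'
      · rw [Function.update_of_ne hji]
        have := h j
        rwa [Function.update_of_ne hji] at this
  rw [h1, Measure.prod_prod, Measure.pi_pi]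
  rw [← Finset.mul_prod_erase Finset.univ _ (Finset.mem_univ i),
    ← Finset.mul_prod_erase Finset.univ (fun j => G (A j)) (Finset.mem_univ i)]
  rw [Function.update_self, measure_univ, one_mul, mul_comm]
  congr 1
  apply Finset.prod_congr rfl
  intro j hj
  rw [Function.update_of_ne (Finset.ne_of_mem_erase hj)]

section sys

variable {ι Y R : Type*} [Fintype ι] [DecidableEq ι] [MeasurableSpace Y] [MeasurableSpace R]

/-- the exponent of the rows in `s` -/
noncomputable def en (W : ι → R → Y → ℝ) (s : Finset ι) (G : ι → R) (y : Y) : ℝ :=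
  ∑ a ∈ s, W a (G a) y

/-- the partition function of the rows in `s` -/
noncomputable def ZZ (ν : Measure Y) (W : ι → R → Y → ℝ) (s : Finset ι) (G : ι → R) : ℝ :=
  ∫ y, Real.exp (en W s G y) ∂ν

/-- the Gibbs average -/
noncomputable def gav (ν : Measure Y) (W : ι → R → Y → ℝ) (s : Finset ι) (G : ι → R)
    (f : Y → ℝ) : ℝ :=
  (∫ y, f y * Real.exp (en W s G y) ∂ν) / ZZ ν W s G

/-- the standing hypotheses: joint measurability, boundedness for a fixed row -/
structure Sys (W : ι → R → Y → ℝ) : Prop where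
  meas : ∀ a, Measurable (Function.uncurry (W a))
  bdd : ∀ a r, ∃ C : ℝ, ∀ y, |W a r y| ≤ C

variable {ν : Measure Y} [IsProbabilityMeasure ν] {W : ι → R → Y → ℝ}

lemma Sys.meas_en (h : Sys W) (s : Finset ι) :
    Measurable (fun z : (ι → R) × Y => en W s z.1 z.2) := by
  unfold en
  apply Finset.measurable_sum
  intro a _
  have hp : Measurable (fun z : (ι → R) × Y => (z.1 a, z.2)) :=
    ((measurable_pi_apply a).comp measurable_fst).prodMk measurable_snd
  exact (h.meas a).comp hp

lemma Sys.meas_en_right (h : Sys W) (s : Finset ι) (G : ι → R) :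
    Measurable (fun y => en W s G y) :=
  (h.meas_en s).comp (measurable_const.prodMk measurable_id)

lemma Sys.meas_row (h : Sys W) (a : ι) (r : R) : Measurable (fun y => W a r y) :=
  (h.meas a).comp (measurable_const.prodMk measurable_id)

lemma Sys.bdd_en (h : Sys W) (s : Finset ι) (G : ι → R) : ∃ C : ℝ, ∀ y, |en W s G y| ≤ C := by
  choose C hC using fun a => h.bdd a (G a)
  refine ⟨∑ a ∈ s, C a, fun y => ?_⟩
  unfold en
  exact (Finset.abs_sum_le_sum_abs _ _).trans (Finset.sum_le_sum fun a _ => hC a y)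

lemma integrable_of_bdd {μ : Measure Y} [IsFiniteMeasure μ] {f : Y → ℝ} (hf : Measurable f)
    {C : ℝ} (hC : ∀ y, |f y| ≤ C) : Integrable f μ :=
  Integrable.of_bound hf.aestronglyMeasurable C (Filter.Eventually.of_forall fun y => by
    rw [Real.norm_eq_abs]; exact hC y)

lemma Sys.integrable_exp (h : Sys W) (s : Finset ι) (G : ι → R) :
    Integrable (fun y => Real.exp (en W s G y)) ν := by
  obtain ⟨C, hC⟩ := h.bdd_en s G
  refine integrable_of_bdd (h.meas_en_right s G).exp (C := Real.exp C) fun y => ?_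
  rw [abs_of_pos (Real.exp_pos _)]
  exact Real.exp_le_exp.2 ((le_abs_self _).trans (hC y))

lemma Sys.integrable_mul_exp (h : Sys W) (s : Finset ι) (G : ι → R) {f : Y → ℝ}
    (hf : Measurable f) {D : ℝ} (hD : ∀ y, |f y| ≤ D) :
    Integrable (fun y => f y * Real.exp (en W s G y)) ν := by
  obtain ⟨C, hC⟩ := h.bdd_en s G
  refine integrable_of_bdd (hf.mul (h.meas_en_right s G).exp) (C := D * Real.exp C) fun y => ?_
  rw [abs_mul, abs_of_pos (Real.exp_pos _)]
  have hD0 : 0 ≤ D := (abs_nonneg _).trans (hD y)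
  exact mul_le_mul (hD y) (Real.exp_le_exp.2 ((le_abs_self _).trans (hC y)))
    (Real.exp_pos _).le hD0

lemma Sys.ZZ_pos (h : Sys W) (s : Finset ι) (G : ι → R) : 0 < ZZ ν W s G := by
  unfold ZZ
  obtain ⟨C, hC⟩ := h.bdd_en s G
  have h1 : ∫ _y : Y, Real.exp (-C) ∂ν ≤ ∫ y, Real.exp (en W s G y) ∂ν := by
    refine integral_mono (integrable_const _) (h.integrable_exp s G) fun y => ?_
    exact Real.exp_le_exp.2 (by have := hC y; rw [abs_le] at this; linarith [this.1])
  have h2 : ∫ _y : Y, Real.exp (-C) ∂ν = Real.exp (-C) := by simp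
  rw [h2] at h1
  exact lt_of_lt_of_le (Real.exp_pos _) h1

lemma Sys.meas_ZZ (h : Sys W) (s : Finset ι) : Measurable (ZZ ν W s) := by
  unfold ZZ
  exact (StronglyMeasurable.integral_prod_right'
    (f := fun z : (ι → R) × Y => Real.exp (en W s z.1 z.2))
    ((h.meas_en s).exp.stronglyMeasurable)).measurable

lemma Sys.meas_gav (h : Sys W) (s : Finset ι) {f : (ι → R) × Y → ℝ} (hf : Measurable f) :
    Measurable (fun G => gav ν W s G (fun y => f (G, y))) := by
  unfold gav
  refine Measurable.div ?_ (h.meas_ZZ s)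
  exact (StronglyMeasurable.integral_prod_right'
    (f := fun z : (ι → R) × Y => f z * Real.exp (en W s z.1 z.2))
    ((hf.mul (h.meas_en s).exp).stronglyMeasurable)).measurable

lemma gav_nonneg (s : Finset ι) (G : ι → R) {f : Y → ℝ} (hf : ∀ y, 0 ≤ f y) :
    0 ≤ gav ν W s G f :=
  div_nonneg (integral_nonneg fun y => mul_nonneg (hf y) (Real.exp_pos _).le)
    (integral_nonneg fun y => (Real.exp_pos _).le)

lemma Sys.gav_mono (h : Sys W) (s : Finset ι) (G : ι → R) {f g : Y → ℝ} (hf : Measurable f)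
    (hg : Measurable g) {C D : ℝ} (hC : ∀ y, |f y| ≤ C) (hD : ∀ y, |g y| ≤ D)
    (hfg : ∀ y, f y ≤ g y) : gav ν W s G f ≤ gav ν W s G g := by
  unfold gav
  refine div_le_div_of_nonneg_right ?_ (h.ZZ_pos s G).le
  exact integral_mono (h.integrable_mul_exp s G hf hC) (h.integrable_mul_exp s G hg hD)
    fun y => mul_le_mul_of_nonneg_right (hfg y) (Real.exp_pos _).le

lemma Sys.gav_const (h : Sys W) (s : Finset ι) (G : ι → R) (c : ℝ) :
    gav ν W s G (fun _ => c) = c := by
  unfold gav
  rw [integral_const_mul]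
  exact mul_div_cancel_right₀ c (h.ZZ_pos s G).ne'

lemma Sys.gav_add (h : Sys W) (s : Finset ι) (G : ι → R) {f g : Y → ℝ} (hf : Measurable f)
    (hg : Measurable g) {C D : ℝ} (hC : ∀ y, |f y| ≤ C) (hD : ∀ y, |g y| ≤ D) :
    gav ν W s G (fun y => f y + g y) = gav ν W s G f + gav ν W s G g := by
  unfold gav
  rw [← add_div, ← integral_add (h.integrable_mul_exp s G hf hC) (h.integrable_mul_exp s G hg hD)]
  simp only [add_mul]

lemma gav_const_mul (s : Finset ι) (G : ι → R) (c : ℝ) (f : Y → ℝ) :
    gav ν W s G (fun y => c * f y) = c * gav ν W s G f := by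
  unfold gav
  rw [← mul_div_assoc, ← integral_const_mul]
  simp only [mul_assoc]

/-- adding one row -/
lemma Sys.ZZ_insert (h : Sys W) {s : Finset ι} {a : ι} (ha : a ∉ s) (G : ι → R) :
    ZZ ν W (insert a s) G = gav ν W s G (fun y => Real.exp (W a (G a) y)) * ZZ ν W s G := by
  unfold gav
  rw [div_mul_cancel₀ _ (h.ZZ_pos s G).ne']
  unfold ZZ en
  simp only [Finset.sum_insert ha, Real.exp_add]

/-- Jensen for the Gibbs average -/
lemma Sys.le_log_gav_exp (h : Sys W) (s : Finset ι) (G : ι → R) {f : Y → ℝ} (hf : Measurable f)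
    {C : ℝ} (hC : ∀ y, |f y| ≤ C) :
    gav ν W s G f ≤ Real.log (gav ν W s G (fun y => Real.exp (f y))) := by
  set m := gav ν W s G f with hm
  have hexp : ∀ y, |Real.exp (f y)| ≤ Real.exp C := fun y => by
    rw [abs_of_pos (Real.exp_pos _)]; exact Real.exp_le_exp.2 ((le_abs_self _).trans (hC y))
  have h1 : Real.exp m ≤ gav ν W s G (fun y => Real.exp (f y)) := by
    have h2 : ∀ y, Real.exp m * (1 - m) + Real.exp m * f y ≤ Real.exp (f y) := by
      intro y
      have h3 := Real.add_one_le_exp (f y - m)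
      have h4 : Real.exp (f y) = Real.exp m * Real.exp (f y - m) := by
        rw [← Real.exp_add]; congr 1; ring
      rw [h4]
      nlinarith [Real.exp_pos m]
    have h5 : gav ν W s G (fun y => Real.exp m * (1 - m) + Real.exp m * f y) = Real.exp m := by
      rw [h.gav_add s G measurable_const (hf.const_mul _) (C := |Real.exp m * (1 - m)|)
        (D := Real.exp m * C) (fun _ => le_rfl) (fun y => by
          rw [abs_mul, abs_of_pos (Real.exp_pos _)]
          exact mul_le_mul_of_nonneg_left (hC y) (Real.exp_pos _).le),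
        h.gav_const, gav_const_mul, ← hm]
      ring
    rw [← h5]
    refine h.gav_mono s G (measurable_const.add (hf.const_mul _)) hf.exp
      (C := |Real.exp m * (1 - m)| + Real.exp m * C) (fun y => ?_) hexp h2
    refine (abs_add_le _ _).trans (add_le_add le_rfl ?_)
    rw [abs_mul, abs_of_pos (Real.exp_pos _)]
    exact mul_le_mul_of_nonneg_left (hC y) (Real.exp_pos _).le
  calc m = Real.log (Real.exp m) := (Real.log_exp m).symm
    _ ≤ _ := Real.log_le_log (Real.exp_pos _) h1

/-- Cauchy-Schwarz for the Gibbs average -/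
lemma Sys.gav_sq_le (h : Sys W) (s : Finset ι) (G : ι → R) {f : Y → ℝ} (hf : Measurable f)
    {C : ℝ} (hC : ∀ y, |f y| ≤ C) :
    gav ν W s G f ^ 2 ≤ gav ν W s G (fun y => f y ^ 2) := by
  set m := gav ν W s G f with hm
  have hsq : ∀ y, |f y ^ 2| ≤ C ^ 2 := fun y => by
    rw [abs_pow]; exact pow_le_pow_left₀ (abs_nonneg _) (hC y) 2
  have h1 : gav ν W s G (fun y => -m ^ 2 + 2 * m * f y) = m ^ 2 := by
    rw [h.gav_add s G measurable_const (hf.const_mul _) (C := |-m ^ 2|)
      (D := |2 * m| * C) (fun _ => le_rfl) (fun y => by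
        rw [abs_mul]
        exact mul_le_mul_of_nonneg_left (hC y) (abs_nonneg _)),
      h.gav_const, gav_const_mul, ← hm]
    ring
  rw [← h1]
  refine h.gav_mono s G (measurable_const.add (hf.const_mul _)) (hf.pow_const 2)
    (C := |-m ^ 2| + |2 * m| * C) (fun y => ?_) hsq (fun y => by nlinarith [sq_nonneg (f y - m)])
  refine (abs_add_le _ _).trans (add_le_add le_rfl ?_)
  rw [abs_mul]
  exact mul_le_mul_of_nonneg_left (hC y) (abs_nonneg _)

/-- the Gibbs average over the other rows does not see row `a` -/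
lemma gav_congr (s : Finset ι) {G G' : ι → R} (hG : ∀ a ∈ s, G a = G' a) (f : Y → ℝ) :
    gav ν W s G f = gav ν W s G' f := by
  have : ∀ y, en W s G y = en W s G' y := fun y =>
    Finset.sum_congr rfl fun a ha => by rw [hG a ha]
  unfold gav ZZ
  simp only [this]

lemma ZZ_congr (s : Finset ι) {G G' : ι → R} (hG : ∀ a ∈ s, G a = G' a) :
    ZZ ν W s G = ZZ ν W s G' := by
  have : ∀ y, en W s G y = en W s G' y := fun y =>
    Finset.sum_congr rfl fun a ha => by rw [hG a ha]
  unfold ZZ
  simp only [this]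

/-- the free energy difference of row `a` -/
lemma Sys.log_ZZ_insert (h : Sys W) {s : Finset ι} {a : ι} (ha : a ∉ s) (G : ι → R) :
    Real.log (ZZ ν W (insert a s) G) - Real.log (ZZ ν W s G) =
      Real.log (gav ν W s G (fun y => Real.exp (W a (G a) y))) := by
  have hpos : 0 < gav ν W s G (fun y => Real.exp (W a (G a) y)) := by
    have h1 := h.ZZ_pos (ν := ν) (insert a s) G
    rw [h.ZZ_insert ha] at h1
    exact pos_of_mul_pos_left h1 (h.ZZ_pos s G).le
  rw [h.ZZ_insert ha, Real.log_mul hpos.ne' (h.ZZ_pos s G).ne']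
  ring

/-- `(log Z - log Z_{\a})^2 ≤ K^2 + ⟨W_a^2⟩_{\a}` -/
lemma Sys.sq_log_diff_le (h : Sys W) {s : Finset ι} {a : ι} (ha : a ∉ s) (G : ι → R)
    {K : ℝ} (hK0 : 0 ≤ K) (hK : ∀ r y, W a r y ≤ K) :
    (Real.log (ZZ ν W (insert a s) G) - Real.log (ZZ ν W s G)) ^ 2 ≤
      K ^ 2 + gav ν W s G (fun y => W a (G a) y ^ 2) := by
  rw [h.log_ZZ_insert ha]
  obtain ⟨C, hC⟩ := h.bdd a (G a)
  have hm := h.meas_row a (G a)
  have h1 := h.le_log_gav_exp (ν := ν) s G hm hC
  have h2 := h.gav_sq_le (ν := ν) s G hm hC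
  have h3 : Real.log (gav ν W s G (fun y => Real.exp (W a (G a) y))) ≤ K := by
    have hexp : ∀ y, |Real.exp (W a (G a) y)| ≤ Real.exp K := fun y => by
      rw [abs_of_pos (Real.exp_pos _)]; exact Real.exp_le_exp.2 (hK _ _)
    have h4 : gav ν W s G (fun y => Real.exp (W a (G a) y)) ≤ Real.exp K := by
      rw [← h.gav_const (ν := ν) s G (Real.exp K)]
      exact h.gav_mono s G hm.exp measurable_const hexp
        (D := |Real.exp K|) (fun _ => le_rfl) (fun y => Real.exp_le_exp.2 (hK _ _))
    have hpos : 0 < gav ν W s G (fun y => Real.exp (W a (G a) y)) := by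
      have h1 := h.ZZ_pos (ν := ν) (insert a s) G
      rw [h.ZZ_insert ha] at h1
      exact pos_of_mul_pos_left h1 (h.ZZ_pos s G).le
    calc _ ≤ Real.log (Real.exp K) := Real.log_le_log hpos h4
      _ = K := Real.log_exp K
  set L := Real.log (gav ν W s G (fun y => Real.exp (W a (G a) y)))
  set g := gav ν W s G (fun y => W a (G a) y)
  by_cases hL : 0 ≤ L
  · nlinarith
  · push Not at hL
    have : L ^ 2 ≤ g ^ 2 := by nlinarith
    nlinarith [sq_nonneg K]

/-! ### integration over the rows -/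

variable {ρ : Measure R} [IsProbabilityMeasure ρ]

lemma Sys.lintegral_exp (h : Sys W) (s : Finset ι) (G : ι → R) :
    ∫⁻ y, ENNReal.ofReal (Real.exp (en W s G y)) ∂ν = ENNReal.ofReal (ZZ ν W s G) := by
  unfold ZZ
  rw [ofReal_integral_eq_lintegral_ofReal (h.integrable_exp s G)
    (Filter.Eventually.of_forall fun y => (Real.exp_pos _).le)]

lemma Sys.ofReal_gav (h : Sys W) (s : Finset ι) (G : ι → R) {f : Y → ℝ} (hf : Measurable f)
    (hf0 : ∀ y, 0 ≤ f y) {C : ℝ} (hC : ∀ y, |f y| ≤ C) :
    ENNReal.ofReal (gav ν W s G f) =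
      (∫⁻ y, ENNReal.ofReal (f y) * ENNReal.ofReal (Real.exp (en W s G y)) ∂ν) /
        ENNReal.ofReal (ZZ ν W s G) := by
  unfold gav
  rw [ENNReal.ofReal_div_of_pos (h.ZZ_pos s G),
    ofReal_integral_eq_lintegral_ofReal (h.integrable_mul_exp s G hf hC)
      (Filter.Eventually.of_forall fun y => mul_nonneg (hf0 y) (Real.exp_pos _).le)]
  congr 1
  apply lintegral_congr
  intro y
  rw [ENNReal.ofReal_mul (hf0 y)]

/-- Fubini over a row which the Gibbs average does not see -/
theorem Sys.lintegral_gav_le (h : Sys W) {s : Finset ι} {a : ι} (ha : a ∉ s)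
    {φ : R → Y → ℝ} (hφ : Measurable (Function.uncurry φ)) (hφ0 : ∀ r y, 0 ≤ φ r y)
    (hφb : ∀ r, ∃ C : ℝ, ∀ y, |φ r y| ≤ C) {D : ℝ≥0∞}
    (hD : ∀ y, ∫⁻ r, ENNReal.ofReal (φ r y) ∂ρ ≤ D) :
    ∫⁻ G, ENNReal.ofReal (gav ν W s G (fun y => φ (G a) y)) ∂(Measure.pi fun _ : ι => ρ) ≤ D := by
  classical
  have hmp := mp_update_pi (ι := ι) ρ a
  have hmeas : Measurable (fun G : ι → R =>
      ENNReal.ofReal (gav ν W s G (fun y => φ (G a) y))) := by
    have hp : Measurable (fun z : (ι → R) × Y => (z.1 a, z.2)) :=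
      ((measurable_pi_apply a).comp measurable_fst).prodMk measurable_snd
    exact (h.meas_gav s (f := fun z => φ (z.1 a) z.2) (hφ.comp hp)).ennreal_ofReal
  rw [← hmp.lintegral_comp hmeas]
  have hmeas2 : Measurable (fun p : (ι → R) × R => ENNReal.ofReal
      (gav ν W s (Function.update p.1 a p.2) (fun y => φ (Function.update p.1 a p.2 a) y))) :=
    hmeas.comp hmp.measurable
  rw [lintegral_prod _ hmeas2.aemeasurable]
  have key : ∀ G : ι → R, ∫⁻ t, ENNReal.ofReal (gav ν W s (Function.update G a t)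
      (fun y => φ (Function.update G a t a) y)) ∂ρ ≤ D := by
    intro G
    have h1 : ∀ t, ENNReal.ofReal (gav ν W s (Function.update G a t)
        (fun y => φ (Function.update G a t a) y)) =
        (∫⁻ y, ENNReal.ofReal (φ t y) * ENNReal.ofReal (Real.exp (en W s G y)) ∂ν) /
        ENNReal.ofReal (ZZ ν W s G) := by
      intro t
      obtain ⟨C, hC⟩ := hφb t
      rw [Function.update_self, gav_congr s (G' := G) (fun b hb => by
        rw [Function.update_of_ne (fun hba : b = a => ha (hba ▸ hb))])]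
      exact h.ofReal_gav s G (hφ.comp (measurable_const.prodMk measurable_id)) (hφ0 t) hC
    simp_rw [h1]
    simp only [ENNReal.div_eq_inv_mul]
    rw [lintegral_const_mul']
    · rw [lintegral_lintegral_swap]
      · have h2 : ∀ y, ∫⁻ t, ENNReal.ofReal (φ t y) * ENNReal.ofReal (Real.exp (en W s G y)) ∂ρ
            ≤ D * ENNReal.ofReal (Real.exp (en W s G y)) := by
          intro y
          rw [lintegral_mul_const']
          · exact mul_le_mul_left (hD y) _
          · exact ENNReal.ofReal_ne_top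
        calc _ ≤ (ENNReal.ofReal (ZZ ν W s G))⁻¹ *
              ∫⁻ y, D * ENNReal.ofReal (Real.exp (en W s G y)) ∂ν :=
              mul_le_mul_right (lintegral_mono h2) _
          _ = (ENNReal.ofReal (ZZ ν W s G))⁻¹ * (D * ENNReal.ofReal (ZZ ν W s G)) := by
              rw [lintegral_const_mul _ ((h.meas_en_right s G).exp.ennreal_ofReal),
                h.lintegral_exp]
          _ = D := by
              rw [mul_comm D, ← mul_assoc, ENNReal.inv_mul_cancel, one_mul]
              · exact (ENNReal.ofReal_pos.2 (h.ZZ_pos s G)).ne'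
              · exact ENNReal.ofReal_ne_top
      · apply Measurable.aemeasurable
        have h3 : Measurable (fun z : R × Y => ENNReal.ofReal (φ z.1 z.2)) :=
          hφ.ennreal_ofReal
        exact h3.mul (((h.meas_en_right s G).comp measurable_snd).exp.ennreal_ofReal)
    · exact ENNReal.inv_ne_top.2 (ENNReal.ofReal_pos.2 (h.ZZ_pos s G)).ne'
  calc _ ≤ ∫⁻ _G : ι → R, D ∂(Measure.pi fun _ : ι => ρ) := lintegral_mono fun G => key G
    _ = D := by simp

/-- the square of a free energy difference -/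
theorem Sys.lintegral_sq_diff_le (h : Sys W) {s : Finset ι} {a : ι} (ha : a ∉ s)
    {K C₂ : ℝ} (hK0 : 0 ≤ K) (hK : ∀ r y, W a r y ≤ K) (hC0 : 0 ≤ C₂)
    (h2 : ∀ y, ∫⁻ r, ENNReal.ofReal (W a r y ^ 2) ∂ρ ≤ ENNReal.ofReal C₂) :
    ∫⁻ G, ENNReal.ofReal ((Real.log (ZZ ν W (insert a s) G) - Real.log (ZZ ν W s G)) ^ 2)
      ∂(Measure.pi fun _ : ι => ρ) ≤ ENNReal.ofReal (K ^ 2 + C₂) := by
  have h1 : ∀ G : ι → R,
      ENNReal.ofReal ((Real.log (ZZ ν W (insert a s) G) - Real.log (ZZ ν W s G)) ^ 2) ≤
      ENNReal.ofReal (K ^ 2) + ENNReal.ofReal (gav ν W s G (fun y => W a (G a) y ^ 2)) := by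
    intro G
    rw [← ENNReal.ofReal_add (sq_nonneg _) (gav_nonneg s G fun y => sq_nonneg _)]
    exact ENNReal.ofReal_le_ofReal (h.sq_log_diff_le ha G hK0 hK)
  calc _ ≤ ∫⁻ G, (ENNReal.ofReal (K ^ 2) +
        ENNReal.ofReal (gav ν W s G (fun y => W a (G a) y ^ 2))) ∂(Measure.pi fun _ : ι => ρ) :=
        lintegral_mono h1
    _ = ENNReal.ofReal (K ^ 2) + ∫⁻ G, ENNReal.ofReal (gav ν W s G (fun y => W a (G a) y ^ 2))
        ∂(Measure.pi fun _ : ι => ρ) := by
        rw [lintegral_add_left measurable_const]; simp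
    _ ≤ ENNReal.ofReal (K ^ 2) + ENNReal.ofReal C₂ := by
        refine add_le_add le_rfl ?_
        refine h.lintegral_gav_le ha (φ := fun r y => W a r y ^ 2) ((h.meas a).pow_const 2)
          (fun r y => sq_nonneg _) (fun r => ?_) h2
        obtain ⟨C, hC⟩ := h.bdd a r
        exact ⟨C ^ 2, fun y => by rw [abs_pow]; exact pow_le_pow_left₀ (abs_nonneg _) (hC y) 2⟩
    _ = ENNReal.ofReal (K ^ 2 + C₂) := (ENNReal.ofReal_add (sq_nonneg _) hC0).symm

lemma Sys.meas_log (h : Sys W) (s : Finset ι) : Measurable (fun G => Real.log (ZZ ν W s G)) :=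
  Real.measurable_log.comp (h.meas_ZZ s)

/-- `log Z` is square integrable -/
theorem Sys.memLp_log (h : Sys W) (s : Finset ι)
    {K C₂ : ℝ} (hK0 : 0 ≤ K) (hK : ∀ a r y, W a r y ≤ K) (hC0 : 0 ≤ C₂)
    (h2 : ∀ a y, ∫⁻ r, ENNReal.ofReal (W a r y ^ 2) ∂ρ ≤ ENNReal.ofReal C₂) :
    MemLp (fun G => Real.log (ZZ ν W s G)) 2 (Measure.pi fun _ : ι => ρ) := by
  induction s using Finset.induction_on with
  | empty =>
      have : (fun G : ι → R => Real.log (ZZ ν W ∅ G)) = fun _ => 0 := by
        funext G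
        unfold ZZ en
        simp
      rw [this]
      exact MemLp.zero'
  | insert a s ha ih =>
      have h1 : (fun G : ι → R => Real.log (ZZ ν W (insert a s) G)) =
          fun G => Real.log (ZZ ν W s G) +
            (Real.log (ZZ ν W (insert a s) G) - Real.log (ZZ ν W s G)) := by
        funext G; ring
      rw [h1]
      refine ih.add ?_
      have hm : Measurable (fun G : ι → R =>
          Real.log (ZZ ν W (insert a s) G) - Real.log (ZZ ν W s G)) :=
        (h.meas_log _).sub (h.meas_log _)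
      refine (memLp_two_iff_integrable_sq hm.aestronglyMeasurable).2
        ⟨(hm.pow_const 2).aestronglyMeasurable, ?_⟩
      rw [hasFiniteIntegral_iff_ofReal (Filter.Eventually.of_forall fun G => sq_nonneg _)]
      exact (h.lintegral_sq_diff_le ha hK0 (hK a) hC0 (h2 a)).trans_lt ENNReal.ofReal_lt_top

open Crest.Agent.R151.V in
/-- Efron-Stein for `log Z` -/
theorem Sys.dvar_log_le (h : Sys W)
    {K C₂ : ℝ} (hK0 : 0 ≤ K) (hK : ∀ a r y, W a r y ≤ K) (hC0 : 0 ≤ C₂)
    (h2 : ∀ a y, ∫⁻ r, ENNReal.ofReal (W a r y ^ 2) ∂ρ ≤ ENNReal.ofReal C₂) :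
    dvar (Measure.pi fun _ : ι => ρ) (fun G => Real.log (ZZ ν W Finset.univ G)) ≤
      (Fintype.card ι : ℝ≥0∞) * (4 * ENNReal.ofReal (K ^ 2 + C₂)) := by
  classical
  refine (dvar_pi_le ρ (h.meas_log _)).trans ?_
  have h1 : ∀ a : ι, infl (Measure.pi fun _ : ι => ρ) ρ
      (fun G => Real.log (ZZ ν W Finset.univ G)) a ≤ 4 * ENNReal.ofReal (K ^ 2 + C₂) := by
    intro a
    set F : (ι → R) → ℝ := fun G => Real.log (ZZ ν W Finset.univ G) with hF
    set F' : (ι → R) → ℝ := fun G => Real.log (ZZ ν W (Finset.univ.erase a) G) with hF'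
    have hna : a ∉ Finset.univ.erase a := Finset.notMem_erase a _
    have hins : insert a (Finset.univ.erase a) = (Finset.univ : Finset ι) :=
      Finset.insert_erase (Finset.mem_univ a)
    have hb : ∫⁻ G, ENNReal.ofReal ((F G - F' G) ^ 2) ∂(Measure.pi fun _ : ι => ρ) ≤
        ENNReal.ofReal (K ^ 2 + C₂) := by
      have := h.lintegral_sq_diff_le (ν := ν) (ρ := ρ) hna hK0 (hK a) hC0 (h2 a)
      rwa [hins] at this
    have hFm : Measurable F := h.meas_log _
    have hF'm : Measurable F' := h.meas_log _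
    have hup : ∀ (G : ι → R) (t : R), F' (Function.update G a t) = F' G := by
      intro G t
      simp only [hF']
      rw [ZZ_congr (Finset.univ.erase a) (G := Function.update G a t) (G' := G)]
      intro b hb
      rw [Function.update_of_ne (Finset.ne_of_mem_erase hb)]
    have hpt : ∀ (G : ι → R) (t : R), ENNReal.ofReal ((F G - F (Function.update G a t)) ^ 2) ≤
        2 * ENNReal.ofReal ((F G - F' G) ^ 2) +
        2 * ENNReal.ofReal ((F (Function.update G a t) - F' (Function.update G a t)) ^ 2) := by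
      intro G t
      rw [hup]
      have e2 : (2 : ℝ≥0∞) = ENNReal.ofReal 2 := by norm_num
      rw [e2, ← ENNReal.ofReal_mul (by norm_num), ← ENNReal.ofReal_mul (by norm_num),
        ← ENNReal.ofReal_add (by positivity) (by positivity)]
      apply ENNReal.ofReal_le_ofReal
      nlinarith [sq_nonneg ((F G - F' G) + (F (Function.update G a t) - F' G))]
    have hm1 : Measurable (fun G : ι → R => ENNReal.ofReal ((F G - F' G) ^ 2)) :=
      ((hFm.sub hF'm).pow_const 2).ennreal_ofReal
    have hmp := mp_update_pi (ι := ι) ρ a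
    unfold infl
    calc ∫⁻ G, ∫⁻ t, ENNReal.ofReal ((F G - F (Function.update G a t)) ^ 2) ∂ρ
          ∂(Measure.pi fun _ : ι => ρ)
        ≤ ∫⁻ G, ∫⁻ t, (2 * ENNReal.ofReal ((F G - F' G) ^ 2) +
        2 * ENNReal.ofReal ((F (Function.update G a t) - F' (Function.update G a t)) ^ 2)) ∂ρ
          ∂(Measure.pi fun _ : ι => ρ) :=
          lintegral_mono fun G => lintegral_mono fun t => hpt G t
      _ = 2 * ∫⁻ G, ENNReal.ofReal ((F G - F' G) ^ 2) ∂(Measure.pi fun _ : ι => ρ) +
          2 * ∫⁻ G, ∫⁻ t, ENNReal.ofReal ((F (Function.update G a t) -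
            F' (Function.update G a t)) ^ 2) ∂ρ ∂(Measure.pi fun _ : ι => ρ) := by
          have e1 : ∀ G : ι → R, ∫⁻ t, (2 * ENNReal.ofReal ((F G - F' G) ^ 2) +
              2 * ENNReal.ofReal ((F (Function.update G a t) -
                F' (Function.update G a t)) ^ 2)) ∂ρ =
              2 * ENNReal.ofReal ((F G - F' G) ^ 2) + 2 * ∫⁻ t, ENNReal.ofReal
                ((F (Function.update G a t) - F' (Function.update G a t)) ^ 2) ∂ρ := by
            intro G
            rw [lintegral_add_left measurable_const]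
            congr 1
            · simp
            · rw [lintegral_const_mul' _ _ (by norm_num)]
          simp_rw [e1]
          rw [lintegral_add_left (hm1.const_mul _), lintegral_const_mul' _ _ (by norm_num),
            lintegral_const_mul' _ _ (by norm_num)]
      _ = 2 * ∫⁻ G, ENNReal.ofReal ((F G - F' G) ^ 2) ∂(Measure.pi fun _ : ι => ρ) +
          2 * ∫⁻ G, ENNReal.ofReal ((F G - F' G) ^ 2) ∂(Measure.pi fun _ : ι => ρ) := by
          have e5 : ∫⁻ G, ENNReal.ofReal ((F G - F' G) ^ 2) ∂(Measure.pi fun _ : ι => ρ) =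
              ∫⁻ G, ∫⁻ t, ENNReal.ofReal ((F (Function.update G a t) -
                F' (Function.update G a t)) ^ 2) ∂ρ ∂(Measure.pi fun _ : ι => ρ) := by
            rw [← hmp.lintegral_comp hm1]
            exact lintegral_prod _ (hm1.comp hmp.measurable).aemeasurable
          rw [← e5]
      _ ≤ 2 * ENNReal.ofReal (K ^ 2 + C₂) + 2 * ENNReal.ofReal (K ^ 2 + C₂) :=
          add_le_add (mul_le_mul_right hb _) (mul_le_mul_right hb _)
      _ = 4 * ENNReal.ofReal (K ^ 2 + C₂) := by rw [← add_mul]; norm_num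
  calc _ ≤ ∑ _a : ι, 4 * ENNReal.ofReal (K ^ 2 + C₂) := Finset.sum_le_sum fun a _ => h1 a
    _ = _ := by rw [Finset.sum_const, Finset.card_univ, nsmul_eq_mul]

/-- variance bound for `log Z` -/
theorem Sys.variance_log_le (h : Sys W)
    {K C₂ : ℝ} (hK0 : 0 ≤ K) (hK : ∀ a r y, W a r y ≤ K) (hC0 : 0 ≤ C₂)
    (h2 : ∀ a y, ∫⁻ r, ENNReal.ofReal (W a r y ^ 2) ∂ρ ≤ ENNReal.ofReal C₂) :
    variance (fun G => Real.log (ZZ ν W Finset.univ G)) (Measure.pi fun _ : ι => ρ) ≤
      2 * (K ^ 2 + C₂) * Fintype.card ι := by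
  have h1 := h.dvar_log_le (ν := ν) (ρ := ρ) hK0 hK hC0 h2
  rw [Crest.Agent.R151.V.dvar_eq (h.memLp_log Finset.univ hK0 hK hC0 h2)] at h1
  have e4 : (4 : ℝ≥0∞) = ENNReal.ofReal 4 := by norm_num
  have ec : ((Fintype.card ι : ℕ) : ℝ≥0∞) = ENNReal.ofReal (Fintype.card ι : ℝ) := by
    rw [ENNReal.ofReal_natCast]
  rw [e4, ec, ← ENNReal.ofReal_mul (by norm_num), ← ENNReal.ofReal_mul (by positivity),
    ENNReal.ofReal_le_ofReal_iff (by positivity)] at h1
  nlinarith

/-- concentration of `log Z` in probability -/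
theorem Sys.conc_log (h : Sys W)
    {K C₂ : ℝ} (hK0 : 0 ≤ K) (hK : ∀ a r y, W a r y ≤ K) (hC0 : 0 ≤ C₂)
    (h2 : ∀ a y, ∫⁻ r, ENNReal.ofReal (W a r y ^ 2) ∂ρ ≤ ENNReal.ofReal C₂) {t : ℝ} (ht : 0 < t) :
    (Measure.pi fun _ : ι => ρ) {G | t ≤ |Real.log (ZZ ν W Finset.univ G) -
      ∫ G, Real.log (ZZ ν W Finset.univ G) ∂(Measure.pi fun _ : ι => ρ)|} ≤
      ENNReal.ofReal (2 * (K ^ 2 + C₂) * Fintype.card ι / t ^ 2) := by
  refine (meas_ge_le_variance_div_sq (h.memLp_log Finset.univ hK0 hK hC0 h2) ht).trans ?_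
  apply ENNReal.ofReal_le_ofReal
  exact div_le_div_of_nonneg_right (h.variance_log_le hK0 hK hC0 h2) (by positivity)

/-! ### the association inequality -/

/-- Chebyshev's association inequality for the Gibbs average -/
lemma Sys.gav_mul_le (h : Sys W) (s : Finset ι) (G : ι → R) {f g : Y → ℝ} (hf : Measurable f)
    (hg : Measurable g) {C D : ℝ} (hC : ∀ y, |f y| ≤ C) (hD : ∀ y, |g y| ≤ D)
    (hfg : ∀ y y', (f y - f y') * (g y - g y') ≤ 0) :
    gav ν W s G (fun y => f y * g y) ≤ gav ν W s G f * gav ν W s G g := by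
  set Ef := gav ν W s G f with hEf
  set Eg := gav ν W s G g with hEg
  set Efg := gav ν W s G (fun y => f y * g y) with hEfg
  have hfgb : ∀ y, |f y * g y| ≤ C * D := fun y => by
    rw [abs_mul]
    exact mul_le_mul (hC y) (hD y) (abs_nonneg _) ((abs_nonneg _).trans (hC y))
  have hfgm : Measurable (fun y => f y * g y) := hf.mul hg
  have hbg : ∀ (c : ℝ) y, |c * g y| ≤ |c| * D := fun c y => by
    rw [abs_mul]; exact mul_le_mul_of_nonneg_left (hD y) (abs_nonneg _)
  have hbf : ∀ (c : ℝ) y, |c * f y| ≤ |c| * C := fun c y => by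
    rw [abs_mul]; exact mul_le_mul_of_nonneg_left (hC y) (abs_nonneg _)
  -- inner integration
  have h1 : ∀ y', Efg - f y' * Eg - g y' * Ef + f y' * g y' ≤ 0 := by
    intro y'
    have m0 : Measurable (fun y => (-f y') * g y) := hg.const_mul _
    have m0' : Measurable (fun y => (-g y') * f y) := hf.const_mul _
    have m0c : Measurable (fun _ : Y => f y' * g y') := measurable_const
    have m1 : Measurable (fun y => f y * g y + (-f y') * g y) := hfgm.add m0
    have m2 : Measurable (fun y => (-g y') * f y + f y' * g y') := m0'.add m0c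
    have e1 : gav ν W s G (fun y => (f y * g y + (-f y') * g y) +
        ((-g y') * f y + f y' * g y')) = Efg - f y' * Eg - g y' * Ef + f y' * g y' := by
      rw [h.gav_add s G m1 m2
        (C := C * D + |-f y'| * D) (D := |-g y'| * C + |f y' * g y'|)
        (fun y => (abs_add_le _ _).trans (add_le_add (hfgb y) (hbg _ y)))
        (fun y => (abs_add_le _ _).trans (add_le_add (hbf _ y) le_rfl)),
        h.gav_add s G hfgm m0 hfgb (hbg _),
        h.gav_add s G m0' m0c (hbf _) (fun _ => le_rfl),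
        gav_const_mul, gav_const_mul, h.gav_const]
      ring
    rw [← e1, ← h.gav_const (ν := ν) s G 0]
    refine h.gav_mono s G (m1.add m2)
      measurable_const (C := (C * D + |-f y'| * D) + (|-g y'| * C + |f y' * g y'|)) (D := 0)
      (fun y => ?_) (fun _ => by simp) (fun y => ?_)
    · exact (abs_add_le _ _).trans (add_le_add
        ((abs_add_le _ _).trans (add_le_add (hfgb y) (hbg _ y)))
        ((abs_add_le _ _).trans (add_le_add (hbf _ y) le_rfl)))
    · have := hfg y y'
      nlinarith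
  -- outer integration
  have n0 : Measurable (fun y => (-Eg) * f y) := hf.const_mul _
  have n0' : Measurable (fun y => (-Ef) * g y) := hg.const_mul _
  have n0c : Measurable (fun _ : Y => Efg) := measurable_const
  have n1 : Measurable (fun y => Efg + (-Eg) * f y) := n0c.add n0
  have n2 : Measurable (fun y => (-Ef) * g y + f y * g y) := n0'.add hfgm
  have e2 : gav ν W s G (fun y' => (Efg + (-Eg) * f y') + ((-Ef) * g y' + f y' * g y')) =
      Efg - Eg * Ef - Ef * Eg + Efg := by
    rw [h.gav_add s G n1 n2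
      (C := |Efg| + |-Eg| * C) (D := |-Ef| * D + C * D)
      (fun y => (abs_add_le _ _).trans (add_le_add le_rfl (hbf _ y)))
      (fun y => (abs_add_le _ _).trans (add_le_add (hbg _ y) (hfgb y))),
      h.gav_add s G n0c n0 (fun _ => le_rfl) (hbf _),
      h.gav_add s G n0' hfgm (hbg _) hfgb,
      gav_const_mul, gav_const_mul, h.gav_const]
    ring
  have h3 : gav ν W s G (fun y' => (Efg + (-Eg) * f y') + ((-Ef) * g y' + f y' * g y')) ≤ 0 := by
    rw [← h.gav_const (ν := ν) s G 0]
    refine h.gav_mono s G (n1.add n2)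
      measurable_const (C := (|Efg| + |-Eg| * C) + (|-Ef| * D + C * D)) (D := 0)
      (fun y => ?_) (fun _ => by simp) (fun y => ?_)
    · exact (abs_add_le _ _).trans (add_le_add
        ((abs_add_le _ _).trans (add_le_add le_rfl (hbf _ y)))
        ((abs_add_le _ _).trans (add_le_add (hbg _ y) (hfgb y))))
    · have := h1 y
      linarith
  rw [e2] at h3
  linarith

/-- one-row association: an observable which decreases when the contribution of row `a`
increases has a smaller mean in the presence of row `a` -/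
theorem Sys.assoc_row (h : Sys W) {s : Finset ι} {a : ι} (ha : a ∉ s) (G : ι → R)
    {χ : Y → ℝ} (hχ : Measurable χ) {C : ℝ} (hC : ∀ y, |χ y| ≤ C)
    (hanti : ∀ y y', W a (G a) y ≤ W a (G a) y' → χ y' ≤ χ y) :
    gav ν W (insert a s) G χ ≤ gav ν W s G χ := by
  have hpos : 0 < gav ν W s G (fun y => Real.exp (W a (G a) y)) := by
    have h1 := h.ZZ_pos (ν := ν) (insert a s) G
    rw [h.ZZ_insert ha] at h1
    exact pos_of_mul_pos_left h1 (h.ZZ_pos s G).le
  have e1 : gav ν W (insert a s) G χ = gav ν W s G (fun y => χ y * Real.exp (W a (G a) y)) /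
      gav ν W s G (fun y => Real.exp (W a (G a) y)) := by
    rw [eq_div_iff hpos.ne']
    have hZ := h.ZZ_pos (ν := ν) s G
    have e2 : gav ν W (insert a s) G χ = (∫ y, χ y * Real.exp (en W (insert a s) G y) ∂ν) /
        (gav ν W s G (fun y => Real.exp (W a (G a) y)) * ZZ ν W s G) := by
      rw [← h.ZZ_insert ha]; rfl
    rw [e2]
    have e3 : (∫ y, χ y * Real.exp (en W (insert a s) G y) ∂ν) =
        ∫ y, (χ y * Real.exp (W a (G a) y)) * Real.exp (en W s G y) ∂ν := by
      congr 1
      funext y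
      unfold en
      rw [Finset.sum_insert ha, Real.exp_add, mul_assoc]
    rw [e3]
    have e4 : gav ν W s G (fun y => χ y * Real.exp (W a (G a) y)) =
      (∫ y, (χ y * Real.exp (W a (G a) y)) * Real.exp (en W s G y) ∂ν) / ZZ ν W s G := rfl
    rw [e4]
    field_simp
  rw [e1, div_le_iff₀ hpos]
  obtain ⟨D, hD⟩ := h.bdd a (G a)
  refine h.gav_mul_le s G hχ (h.meas_row a (G a)).exp hC (D := Real.exp D) (fun y => ?_) ?_
  · rw [abs_of_pos (Real.exp_pos _)]
    exact Real.exp_le_exp.2 ((le_abs_self _).trans (hD y))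
  · intro y y'
    rcases le_total (W a (G a) y) (W a (G a) y') with hle | hle
    · have h1 := hanti y y' hle
      have h2 := Real.exp_le_exp.2 hle
      exact mul_nonpos_of_nonneg_of_nonpos (by linarith) (by linarith)
    · have h1 := hanti y' y hle
      have h2 := Real.exp_le_exp.2 hle
      exact mul_nonpos_of_nonpos_of_nonneg (by linarith) (by linarith)

end sys

end Crest.Agent.R146.ObsA_468
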