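import Crest.Agent.R146.OvcA_679
import Crest.Agent.R164.OvConc

/-!
Row 146 (S0206), node CIBP, part B (helper679): classwise integration by parts for the field
observables of the sphere system `S6Def_988`.

* `ibp_rows`: summed integration by parts for `n` coins revealed at DIFFERENT steps which see the
  same increments of the exponents;
* `ibp_zf`: the field `zf c g i`;
* `ibp_Dobs` (MAIN): for `|f| ≤ 1` invariant under the coins of the cell `g`, `l ≤ st n g`,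
  `|E_l[D_g f] - s_g E_l[f T_g]| ≤ 52 s_g² N^{3/2} / √n`, `T_g = R164.OvC.Tg` with `B = univ`,
  `m g' = st n (g'+1)`, `w0 = (nc+1)⁻¹`: this is literally hypothesis `h` of `OvC.O1, O2, O4, O5`;
* `ibp_Dobs_one`: the case `f = 1`;
* `Sq_eq_one`: `N⁻¹ ∑ X_i² = 1`; `Tg_nc`: `T_{nc} = 1`; `abs_Tg_le`.
-/

set_option autoImplicit false

namespace Crest.Agent.R146.OvcB_679

open Finset
open Crest.Agent.R141 (IsProb IsExpo Filt eE cE tl A S Coin RMeas tl_isProb cE_sum cE_smul cE_sub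
  cE_bot cE_abs_le cE_const cE_mono' eE_mono eE_const eE_cE eE_smul eE_sub eE_add eE_sum)
open Crest.Agent.R164 (CoinIBP.ibp)
open Crest.Agent.R164.OvC (Tg Sq)
open Crest.Agent.R146.S6Def_988 Crest.Agent.R146.OvcA_679

noncomputable section

/-! ### a field made of `n` coins revealed at different steps -/

section Field

variable {Ω : Type*} [Fintype Ω] {P : Ω → ℝ} {𝓕 : Filt Ω} {x : ℕ → ℝ}

theorem ibp_rows (hP : IsProb P) (hx : IsExpo x) {n : ℕ} (hn : 0 < n) {k : Fin n → ℕ}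
    (hkL : ∀ t, k t ≤ 𝓕.L) {s : Fin n → Ω → ℝ} {ι : Fin n → Ω → Ω}
    (C : ∀ t, Coin P 𝓕 (k t) (s t) (ι t)) {U v f scr : Ω → ℝ} {c K Kf : ℝ}
    (hU : ∀ t ω, U (ι t ω) = U ω - 2 * ((Real.sqrt n)⁻¹ * c) * (2 * s t ω - 1) * v ω)
    (hv : ∀ t ω, v (ι t ω) = v ω) (hf : ∀ t ω, f (ι t ω) = f ω)
    (hvK : ∀ ω, |v ω| ≤ K) (hfK : ∀ ω, |f ω| ≤ Kf) (hc : |c| * K ≤ Real.sqrt n / 8)
    (hscr : ∀ t ω, x 𝓕.L * v ω - ∑ j ∈ Ico (k t) 𝓕.L, (x (j + 1) - x j) *
      cE (tl P 𝓕 x U) (𝓕.F j) v ω = scr ω)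
    {l : ℕ} (hl : ∀ t, l + 1 ≤ k t) (ω : Ω) :
    |cE (tl P 𝓕 x U) (𝓕.F l) (fun a => ((Real.sqrt n)⁻¹ * ∑ t, (2 * s t a - 1)) * f a) ω -
      c * cE (tl P 𝓕 x U) (𝓕.F l) (fun a => f a * scr a) ω| ≤
      52 * c ^ 2 * K ^ 2 * Kf / Real.sqrt n := by
  have hn0 : (0 : ℝ) < n := by exact_mod_cast hn
  have hsn : 0 < Real.sqrt n := Real.sqrt_pos.mpr hn0
  have hss : Real.sqrt n * Real.sqrt n = n := Real.mul_self_sqrt hn0.le
  set δ := (Real.sqrt n)⁻¹ * c with hδ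
  set R := cE (tl P 𝓕 x U) (𝓕.F l) (fun a => f a * scr a) ω with hR
  have hδK : |δ| * K ≤ 1 / 8 := by
    rw [hδ, abs_mul, abs_of_pos (inv_pos.mpr hsn), mul_assoc]
    calc (Real.sqrt n)⁻¹ * (|c| * K) ≤ (Real.sqrt n)⁻¹ * (Real.sqrt n / 8) :=
          mul_le_mul_of_nonneg_left hc (inv_pos.mpr hsn).le
      _ = 1 / 8 := by field_simp
  have h1 : ∀ t, |cE (tl P 𝓕 x U) (𝓕.F l) (fun a => (2 * s t a - 1) * f a) ω - δ * R| ≤
      52 * (δ * K) ^ 2 * Kf := by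
    intro t
    have hG : ∀ ω, (fun a => U a - δ * (2 * s t a - 1) * v a) (ι t ω) =
        (fun a => U a - δ * (2 * s t a - 1) * v a) ω := by
      intro a
      simp only [hU, hv, (C t).s_flip]
      ring
    have := CoinIBP.ibp (G := fun a => U a - δ * (2 * s t a - 1) * v a) (C t) hP hx (hkL t) hG
      (hv t) (hf t) hvK hfK hδK (hl t) ω
    simp only [sub_add_cancel] at this
    simp only [hscr t] at this
    exact this
  have e1 : cE (tl P 𝓕 x U) (𝓕.F l) (fun a => ((Real.sqrt n)⁻¹ * ∑ t, (2 * s t a - 1)) * f a) ω =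
      (Real.sqrt n)⁻¹ * ∑ t, cE (tl P 𝓕 x U) (𝓕.F l) (fun a => (2 * s t a - 1) * f a) ω := by
    rw [← cE_sum, ← cE_smul]
    congr 1; funext a
    rw [mul_assoc, Finset.sum_mul]
  have e2 : c * R = (Real.sqrt n)⁻¹ * ∑ _t : Fin n, δ * R := by
    rw [Finset.sum_const, Finset.card_univ, Fintype.card_fin, nsmul_eq_mul, hδ]
    have e3 : (n : ℝ) * ((Real.sqrt n)⁻¹ * c * R) =
        (Real.sqrt n * Real.sqrt n) * ((Real.sqrt n)⁻¹ * c * R) := by rw [hss]
    rw [e3]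
    field_simp
  rw [e1, e2, ← mul_sub, ← Finset.sum_sub_distrib, abs_mul, abs_of_pos (inv_pos.mpr hsn)]
  calc (Real.sqrt n)⁻¹ * |∑ t, (cE (tl P 𝓕 x U) (𝓕.F l) (fun a => (2 * s t a - 1) * f a) ω -
        δ * R)| ≤ (Real.sqrt n)⁻¹ * ∑ _t : Fin n, 52 * (δ * K) ^ 2 * Kf := by
        refine mul_le_mul_of_nonneg_left ?_ (inv_pos.mpr hsn).le
        exact (Finset.abs_sum_le_sum_abs _ _).trans (Finset.sum_le_sum fun t _ => h1 t)
    _ = 52 * c ^ 2 * K ^ 2 * Kf / Real.sqrt n := by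
        rw [Finset.sum_const, Finset.card_univ, Fintype.card_fin, nsmul_eq_mul, hδ]
        have e3 : (n : ℝ) * (52 * ((Real.sqrt n)⁻¹ * c * K) ^ 2 * Kf) =
            (Real.sqrt n * Real.sqrt n) * (52 * ((Real.sqrt n)⁻¹ * c * K) ^ 2 * Kf) := by rw [hss]
        rw [e3]
        field_simp

end Field

/-! ### the system -/

variable {N : ℕ} (C : Cfg N) (nc n : ℕ)

/-- the coordinates as functions on the enriched space -/
def XO (i : Fin N) (ω : Om C nc n) : ℝ := C.x ω.1 i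

theorem XO_flp (j : Fin N) (g : Fin nc) (t : Fin n) (i : Fin N) (ω : Om C nc n) :
    XO C nc n j (flp C nc n g t i ω) = XO C nc n j ω := rfl

theorem abs_XO_le (i : Fin N) (ω : Om C nc n) : |XO C nc n i ω| ≤ Real.sqrt N :=
  abs_x_le C ω.1 i

theorem sum_XO_sq (ω : Om C nc n) : ∑ i, XO C nc n i ω ^ 2 = N := C.hx ω.1

/-- the cell ends -/
def mE (n : ℕ) (g : ℕ) : ℕ := st n (g + 1)

theorem mE_eq (g : ℕ) : mE n g = (g + 1) * n := rfl

variable {M : ℕ} (f : ℕ → ℝ → ℝ) (G : Fin M → Fin N → ℝ) (s : Fin nc → ℝ)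

theorem QQ_isProb : IsProb (QQ C nc n f G s) :=
  tl_isProb (prior_isProb C nc n) (xs_pos nc n) _

/-- the conditional integration by parts for the field `(g, i)`. -/
theorem ibp_zf (hn : 0 < n) (g : Fin nc) (i : Fin N) {φ : Om C nc n → ℝ}
    (hφ : ∀ t ω, φ (flp C nc n g t i ω) = φ ω) {Kf : ℝ} (hφK : ∀ ω, |φ ω| ≤ Kf)
    (hc : |s g| * Real.sqrt N ≤ Real.sqrt n / 8) {l : ℕ} (hl : l ≤ st n g) (ω : Om C nc n) :
    |cE (QQ C nc n f G s) ((fil C nc n).F l) (fun w => zf w.2 g i * φ w) ω -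
      s g * cE (QQ C nc n f G s) ((fil C nc n).F l) (fun w => φ w * (XO C nc n i w -
        ((nc : ℝ) + 1)⁻¹ * ∑ g' ∈ Ico (g : ℕ) nc,
          cE (QQ C nc n f G s) ((fil C nc n).F (mE n g')) (XO C nc n i) w)) ω| ≤
      52 * (s g) ^ 2 * N * Kf / Real.sqrt n := by
  have hL : (fil C nc n).L = Lv nc n := rfl
  have h := ibp_rows (𝓕 := fil C nc n) (x := xs nc n) (prior_isProb C nc n) (xs_expo nc n) hn
    (k := fun t => cst n g t) (fun t => (cst_lt_L nc n g t).le) (fun t => coin C nc n g t i)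
    (U := UU f G s) (v := XO C nc n i) (f := φ)
    (scr := fun w => XO C nc n i w - ((nc : ℝ) + 1)⁻¹ * ∑ g' ∈ Ico (g : ℕ) nc,
          cE (QQ C nc n f G s) ((fil C nc n).F (mE n g')) (XO C nc n i) w)
    (c := s g) (K := Real.sqrt N) (Kf := Kf)
    (fun t ω => UU_flp C nc n f G s g t i ω) (fun t ω => rfl) hφ (abs_XO_le C nc n i) hφK hc
    (fun t w => by
      rw [hL, xs_last nc n hn le_rfl, one_mul, sum_incr_xs nc n _ g.2 (lt_cst nc n g t) (cst_le nc n g t)]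
      rfl)
    (l := l) (fun t => by
      have := lt_cst nc n g t
      unfold st at hl
      omega) ω
  have hN : Real.sqrt (N : ℝ) ^ 2 = N := Real.sq_sqrt (Nat.cast_nonneg N)
  rw [hN] at h
  simp only [two_cval] at h
  exact h

/-- **The classwise integration by parts for the field observable of the cell `g`.** -/
theorem ibp_Dobs (hn : 0 < n) (g : Fin nc) {φ : Om C nc n → ℝ}
    (hφ : ∀ t i ω, φ (flp C nc n g t i ω) = φ ω) (hφK : ∀ ω, |φ ω| ≤ 1)
    (hc : |s g| * Real.sqrt N ≤ Real.sqrt n / 8) {l : ℕ} (hl : l ≤ st n g) (ω : Om C nc n) :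
    |cE (QQ C nc n f G s) ((fil C nc n).F l) (fun w => Dobs C nc n g w * φ w) ω -
      s g * cE (QQ C nc n f G s) ((fil C nc n).F l) (fun w => φ w *
        Tg (XO C nc n) (QQ C nc n f G s) (fil C nc n) univ N ((nc : ℝ) + 1)⁻¹ (mE n) nc g w) ω| ≤
      52 * (s g) ^ 2 * (N * Real.sqrt N) / Real.sqrt n := by
  set Q := QQ C nc n f G s with hQ
  have hNr : (0 : ℝ) ≤ (N : ℝ)⁻¹ := by positivity
  have h1 : ∀ i : Fin N, |cE Q ((fil C nc n).F l)
        (fun w => zf w.2 g i * (XO C nc n i w * φ w)) ω -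
      s g * cE Q ((fil C nc n).F l)
        (fun w => (XO C nc n i w * φ w) * (XO C nc n i w -
        ((nc : ℝ) + 1)⁻¹ * ∑ g' ∈ Ico (g : ℕ) nc,
          cE Q ((fil C nc n).F (mE n g')) (XO C nc n i) w)) ω| ≤
      52 * (s g) ^ 2 * (N * Real.sqrt N) / Real.sqrt n := by
    intro i
    have := ibp_zf C nc n f G s hn g i (φ := fun w => XO C nc n i w * φ w)
      (fun t ω => by simp only [XO_flp, hφ]) (Kf := Real.sqrt N)
      (fun ω => by
        rw [abs_mul]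
        calc |XO C nc n i ω| * |φ ω| ≤ Real.sqrt N * 1 :=
              mul_le_mul (abs_XO_le C nc n i ω) (hφK ω) (abs_nonneg _) (Real.sqrt_nonneg _)
          _ = Real.sqrt N := mul_one _) hc hl ω
    rw [← mul_assoc]
    exact this
  have e1 : cE Q ((fil C nc n).F l) (fun w => Dobs C nc n g w * φ w) ω = (N : ℝ)⁻¹ *
      ∑ i, cE Q ((fil C nc n).F l) (fun w => zf w.2 g i * (XO C nc n i w * φ w)) ω := by
    rw [← cE_sum, ← cE_smul]
    congr 1; funext w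
    unfold Dobs XO
    rw [mul_assoc, Finset.sum_mul]
    congr 1
    exact Finset.sum_congr rfl fun i _ => by ring
  have e2 : s g * cE Q ((fil C nc n).F l) (fun w => φ w *
        Tg (XO C nc n) Q (fil C nc n) univ N ((nc : ℝ) + 1)⁻¹ (mE n) nc g w) ω = (N : ℝ)⁻¹ *
      ∑ i, s g * cE Q ((fil C nc n).F l)
        (fun w => (XO C nc n i w * φ w) * (XO C nc n i w -
        ((nc : ℝ) + 1)⁻¹ * ∑ g' ∈ Ico (g : ℕ) nc,
          cE Q ((fil C nc n).F (mE n g')) (XO C nc n i) w)) ω := by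
    rw [← Finset.mul_sum, ← cE_sum, ← cE_smul, ← cE_smul, ← cE_smul]
    congr 1; funext w
    unfold Tg
    have : ∑ i, XO C nc n i w * φ w * (XO C nc n i w - ((nc : ℝ) + 1)⁻¹ *
        ∑ g' ∈ Ico (g : ℕ) nc, cE Q ((fil C nc n).F (mE n g')) (XO C nc n i) w) =
        φ w * ∑ i, XO C nc n i w * (XO C nc n i w - ((nc : ℝ) + 1)⁻¹ *
        ∑ g' ∈ Ico (g : ℕ) nc, cE Q ((fil C nc n).F (mE n g')) (XO C nc n i) w) := by
      rw [Finset.mul_sum]
      exact Finset.sum_congr rfl fun i _ => by ring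
    rw [this]; ring
  rw [e1, e2, ← mul_sub, ← Finset.sum_sub_distrib, abs_mul, abs_of_nonneg hNr]
  calc (N : ℝ)⁻¹ * |_| ≤ (N : ℝ)⁻¹ * ∑ _i : Fin N,
        52 * (s g) ^ 2 * (N * Real.sqrt N) / Real.sqrt n :=
        mul_le_mul_of_nonneg_left
          ((Finset.abs_sum_le_sum_abs _ _).trans (Finset.sum_le_sum fun i _ => h1 i)) hNr
    _ = ((N : ℝ)⁻¹ * N) * (52 * (s g) ^ 2 * (N * Real.sqrt N) / Real.sqrt n) := by
        rw [Finset.sum_const, Finset.card_univ, Fintype.card_fin, nsmul_eq_mul]; ring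
    _ ≤ 1 * (52 * (s g) ^ 2 * (N * Real.sqrt N) / Real.sqrt n) := by
        refine mul_le_mul_of_nonneg_right ?_ (by positivity)
        rcases Nat.eq_zero_or_pos N with h0 | h0
        · subst h0; simp
        · have h3 : (0 : ℝ) < N := by exact_mod_cast h0
          rw [inv_mul_cancel₀ h3.ne']
    _ = 52 * (s g) ^ 2 * (N * Real.sqrt N) / Real.sqrt n := one_mul _

/-- the case `f = 1`: hypothesis of `OvC.O1`, `OvC.O2`, `OvC.O5`. -/
theorem ibp_Dobs_one (hn : 0 < n) (g : Fin nc)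
    (hc : |s g| * Real.sqrt N ≤ Real.sqrt n / 8) {l : ℕ} (hl : l ≤ st n g) (ω : Om C nc n) :
    |cE (QQ C nc n f G s) ((fil C nc n).F l) (Dobs C nc n g) ω -
      s g * cE (QQ C nc n f G s) ((fil C nc n).F l)
        (Tg (XO C nc n) (QQ C nc n f G s) (fil C nc n) univ N ((nc : ℝ) + 1)⁻¹ (mE n) nc g) ω| ≤
      52 * (s g) ^ 2 * (N * Real.sqrt N) / Real.sqrt n := by
  have h := ibp_Dobs C nc n f G s hn g (φ := fun _ => 1) (fun _ _ _ => rfl)
    (fun _ => by simp) hc hl ω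
  simp only [mul_one, one_mul] at h
  exact h

/-! ### the normalised square -/

theorem Sq_eq_one (hN : 0 < N) (ω : Om C nc n) : Sq (XO C nc n) univ N ω = 1 := by
  unfold Sq
  rw [sum_XO_sq, inv_mul_cancel₀ (by exact_mod_cast hN.ne')]

theorem Tg_nc (hN : 0 < N) (Q : Om C nc n → ℝ) (w0 : ℝ) (m : ℕ → ℕ) (ω : Om C nc n) :
    Tg (XO C nc n) Q (fil C nc n) univ N w0 m nc nc ω = 1 := by
  have h := Sq_eq_one C nc n hN ω
  unfold Sq at h
  unfold Tg
  simp only [Finset.Ico_self, Finset.sum_empty, mul_zero, sub_zero]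
  rw [← h]
  congr 1
  exact Finset.sum_congr rfl fun i _ => by ring

/-! ### size of the overlaps -/

open Crest.Agent.R164.RotRel (rr)

/-- `rr = N⁻¹ ∑_i (E_l x_i)²` -/
theorem rr_eq (Q : Om C nc n → ℝ) (l : ℕ) (ω : Om C nc n) :
    rr (XO C nc n) Q (fil C nc n) univ l ω =
      (N : ℝ)⁻¹ * ∑ i, (cE Q ((fil C nc n).F l) (fun w => C.x w.1 i) ω) ^ 2 := by
  unfold rr
  rw [Finset.card_univ, Fintype.card_fin]
  rfl

theorem rr_nonneg' (Q : Om C nc n → ℝ) (l : ℕ) (ω : Om C nc n) :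
    0 ≤ rr (XO C nc n) Q (fil C nc n) univ l ω := by
  rw [rr_eq]
  exact mul_nonneg (by positivity) (Finset.sum_nonneg fun _ _ => sq_nonneg _)

theorem rr_le_one {Q : Om C nc n → ℝ} (hQ : IsProb Q) (l : ℕ) (ω : Om C nc n) :
    rr (XO C nc n) Q (fil C nc n) univ l ω ≤ 1 := by
  rw [rr_eq]
  have h1 : ∑ i, (cE Q ((fil C nc n).F l) (fun w => C.x w.1 i) ω) ^ 2 ≤ N := by
    calc ∑ i, (cE Q ((fil C nc n).F l) (fun w => C.x w.1 i) ω) ^ 2
        ≤ ∑ i, cE Q ((fil C nc n).F l) (fun w => C.x w.1 i ^ 2) ω :=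
          Finset.sum_le_sum fun i _ => Crest.Agent.R141.cE_sq_le hQ _ _ ω
      _ = cE Q ((fil C nc n).F l) (fun w => ∑ i, C.x w.1 i ^ 2) ω := by rw [cE_sum]
      _ = N := by
          simp only [C.hx]
          exact cE_const hQ _ _ _
  rcases Nat.eq_zero_or_pos N with h0 | h0
  · subst h0; simp
  · have h3 : (0 : ℝ) < N := by exact_mod_cast h0
    rw [inv_mul_le_iff₀ h3, mul_one]; exact h1

end

end Crest.Agent.R146.OvcB_679
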