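import Crest.Agent.R146.P34_734
import Crest.Agent.R146.S6U_988

/-!
Row 146, node LOCUB of `P34_734` (upper bound for the mixture): sub-nodes as exact Props (helper734).
Nothing is proved here.  `LOCUB` follows from `FV` (finite volume) and `DET` (deterministic choice of
the profiles), see `AsmLoc_734`.
-/

set_option autoImplicit false

open MeasureTheory ProbabilityTheory Filter Crest.ProbabilityR.Perceptron
open scoped Topology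

namespace Crest.Agent.R146.P34Loc_734

open Crest.Agent.R146.P34_734 Crest.Agent.R146.S6Def_988 Crest.Agent.R146.S6U_988

noncomputable section

/-- weights `w` and variances `s` of a finite mixture of centred Gaussian laws with mean variance
`m`, all variances within `ε m` of `m`. -/
structure MixLaw (m ε : ℝ) {n : ℕ} (w s : Fin n → ℝ) : Prop where
  w_nonneg : ∀ i, 0 ≤ w i
  w_sum : ∑ i, w i = 1
  mean : ∑ i, w i * s i = m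
  near : ∀ i, |s i - m| ≤ ε * m

/-- the exponent of the part of the sphere whose delocalised component has norm `r`; the localised
component contributes the shifts `√(s i) z`. -/
def locE (J : ℕ) (α : ℝ) (φ : ℝ → ℝ) (r : ℝ) (Q : ℕ → ℝ) {n : ℕ} (w s : Fin n → ℝ) : ℝ :=
  Real.log r + α * ∑ i, w i * ∫ z, Th J (fun x => φ (√(s i) * z + r * x)) Q ∂(gaussianReal 0 1) +
    SP J Q

/-- (FV) **finite volume node**: decomposition of the sphere, net, concentration, Lindeberg, UB. -/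
def FV : Prop := ∀ φ : ℝ → ℝ, Test φ → ∀ α ε δ : ℝ, 0 < α → 0 ≤ ε → ε < 1 → 0 < δ →
  ∃ J0 : ℕ, ∀ J, J0 ≤ J → ∀ Q : ℝ → ℕ → ℝ,
  (∀ r ∈ Set.Ioc (0 : ℝ) 1, Lev J (Q r) ∧ Q r J < 1) → ∀ X : ℝ,
  (∀ r ∈ Set.Ioc (0 : ℝ) 1, ∀ (n : ℕ) (w s : Fin n → ℝ), MixLaw (1 - r ^ 2) ε w s →
    locE J α φ r (Q r) w s ≤ X) →
  ∀ᶠ N : ℕ in atTop, pM N α ε φ ≤ X + δ

/-- (DET) **deterministic node**. -/
def DET (W : BS) : Prop := ∀ αc : ℝ, 0 < αc → (∀ α, 0 < α → α < αc → W.ZeroE α (-1)) →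
  ∃ ε0 : ℝ, 0 < ε0 ∧ ε0 < 1 ∧ ∃ η : ℝ, 0 < η ∧ ∀ ε : ℝ, 0 ≤ ε → ε < ε0 →
    ∀ α : ℝ, αc < α → α < αc + η → ∀ b : ℝ, 0 < b → ∀ ψ : ℝ → ℝ, Test ψ →
    ∃ h0 : ℝ, 0 < h0 ∧ ∀ h : ℝ, |h| ≤ h0 → ∀ δ : ℝ, 0 < δ →
      ∃ φ : ℝ → ℝ, Test φ ∧ (∃ L0 : ℝ, 0 ≤ L0 ∧ ∀ x, fqL L0 b (-1) x + h * ψ x ≤ φ x) ∧
      ∀ J1 : ℕ, ∃ J, J1 ≤ J ∧ ∃ Q : ℝ → ℕ → ℝ,
        (∀ r ∈ Set.Ioc (0 : ℝ) 1, Lev J (Q r) ∧ Q r J < 1) ∧
        ∀ r ∈ Set.Ioc (0 : ℝ) 1, ∀ (n : ℕ) (w s : Fin n → ℝ), MixLaw (1 - r ^ 2) ε w s →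
          locE J α φ r (Q r) w s ≤ W.Pv α (fun x => fq b (-1) x + h * ψ x) + δ

/-! ### V-level nodes for DET (literal control values, all profiles) -/

/-- (VTRG) comparison: controls `≥ -c` suffice when `φ0` is monotone and `ψ` is `c`-Lipschitz; then
the terminal point is at least `B_1 - c`. -/
def VTRG (W : BS) : Prop := ∀ φ0 f0 ψ : ℝ → ℝ, ∀ c C : ℝ, 0 ≤ c → Continuous φ0 → Continuous f0 →
  Monotone φ0 → (∀ x, φ0 x ≤ C) → (∀ x, f0 x ≤ φ0 x) → Antitone (fun x => φ0 x - f0 x) →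
  (∀ x, |f0 x| ≤ C * (1 + x ^ 2)) → (∀ x, |φ0 x| ≤ C * (1 + x ^ 2)) →
  (∃ K, ∀ x, |ψ x| ≤ K) → (∀ x y, |ψ x - ψ y| ≤ c * |x - y|) → ∀ m : OverlapProfile,
  W.V (fun x => φ0 x + ψ x) m ≤ W.V (fun x => f0 x + ψ x) m +
    ∫ z, (φ0 (z - c) - f0 (z - c)) ∂(gaussianReal 0 1)

/-- (VMONOG) monotonicity of the control value in the potential (quadratic growth). -/
def VMONOG (W : BS) : Prop := ∀ f g : ℝ → ℝ, ∀ C : ℝ, Continuous f → Continuous g →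
  (∀ x, f x ≤ g x) → (∀ x, g x ≤ C) → (∀ x, |f x| ≤ C * (1 + x ^ 2)) →
  (∀ x, |g x| ≤ C * (1 + x ^ 2)) → ∀ m : OverlapProfile, W.V f m ≤ W.V g m

/-- (SCU) semiconcavity in the shift of the potential: concave `f0` plus a perturbation with
second difference at most `s`. -/
def SCU (W : BS) : Prop := ∀ f0 ψ : ℝ → ℝ, ∀ C s r : ℝ, Continuous f0 → Continuous ψ →
  ConcaveOn ℝ Set.univ f0 → (∀ x, f0 x ≤ C) → (∀ x, |f0 x| ≤ C * (1 + x ^ 2)) →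
  (∃ K, ∀ x, |ψ x| ≤ K) → 0 ≤ s →
  (∀ x y, ψ x + ψ y - 2 * ψ ((x + y) / 2) ≤ s * (x - y) ^ 2 / 4) → ∀ m : OverlapProfile,
  2 * s * r ^ 2 * m.tail 0 ≤ 1 → ∀ c t : ℝ,
  W.V (fun x => f0 (c + t + r * x) + ψ (c + t + r * x)) m +
    W.V (fun x => f0 (c - t + r * x) + ψ (c - t + r * x)) m ≤
    2 * W.V (fun x => f0 (c + r * x) + ψ (c + r * x)) m + 2 * s * t ^ 2

/-- (SCL) semiconvexity in the shift, every bounded potential. -/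
def SCL (W : BS) : Prop := ∀ f : ℝ → ℝ, Continuous f → (∃ K, ∀ x, |f x| ≤ K) → ∀ r : ℝ, 0 < r →
  ∀ m : OverlapProfile, 0 < m.tail 0 → ∀ c t : ℝ,
  2 * W.V (fun x => f (c + r * x)) m - t ^ 2 / (r ^ 2 * m.tail 0) ≤
    W.V (fun x => f (c + t + r * x)) m + W.V (fun x => f (c - t + r * x)) m

/-- (VQUAD) universal upper bound for the quadratic potential. -/
def VQUAD (W : BS) : Prop := ∀ b k : ℝ, 0 < b → ∀ m : OverlapProfile,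
  W.V (fq b k) m ≤ -(b / 2) * (∫ z, max (k - z) 0 ^ 2 ∂(gaussianReal 0 1)) / (1 + b * m.tail 0)

/-! ### Step profiles -/

/-- restriction of the levels to `[m, 1]`, rescaled -/
def resL (m : ℝ) (P : ℕ → ℝ) (j : ℕ) : ℝ := max (P j - m) 0 / (1 - m)

/-- (RES) Jensen on `[0, m]`. -/
def RES : Prop := ∀ φ : ℝ → ℝ, Test φ → ∀ (J : ℕ) (P : ℕ → ℝ), Lev J P → ∀ m : ℝ, 0 ≤ m → m < 1 →
  ∫ z, Th J (fun x => φ (√m * z + √(1 - m) * x)) (resL m P) ∂(gaussianReal 0 1) ≤ Th J φ P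

/-- (SPR) entropy of the restriction. -/
def SPR : Prop := ∀ (J : ℕ) (P : ℕ → ℝ), Lev J P → P J < 1 → ∀ m : ℝ, 0 ≤ m → m < 1 →
  Lev J (resL m P) ∧ resL m P J < 1 ∧ 0 < DP J P 0 ∧ DP J P 0 ≤ 1 ∧
  SP J (resL m P) + 1 / 2 * Real.log (1 - m) ≤ SP J P - m / (2 * DP J P 0) ∧
  DP J P 0 ≤ (mP J (resL m P)).tail 0 ∧ (mP J (resL m P)).tail 0 ≤ 1

/-- (RSY) the replica symmetric step profile. -/
def RSY : Prop := ∀ (J : ℕ) (q : ℝ), 0 ≤ q → q < 1 →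
  SP J (fun _ => q) = 1 / 2 * (q / (1 - q) + Real.log (1 - q)) ∧
  (mP J fun _ => q).tail 0 = 1 - q

/-- (SMQ) smooth bounded approximants of the quadratic potential from above. -/
def SMQ : Prop := ∀ b k C0 δ : ℝ, 0 < b → 0 < δ → ∃ φ0 : ℝ → ℝ, Test φ0 ∧ Monotone φ0 ∧
  (∀ x, fq b k x ≤ φ0 x) ∧ (∀ x, φ0 x ≤ 0) ∧ Antitone (fun x => φ0 x - fq b k x) ∧
  (∃ L0 : ℝ, 0 ≤ L0 ∧ ∀ x, fqL L0 b k x ≤ φ0 x) ∧
  ∀ σ c : ℝ, 0 ≤ σ → σ ≤ 2 → 0 ≤ c → c ≤ C0 →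
    ∫ z, (φ0 (σ * z - c) - fq b k (σ * z - c)) ∂(gaussianReal 0 1) ≤ δ

end

end Crest.Agent.R146.P34Loc_734
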