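import Crest.Agent.R146.P5Fin_12
import Crest.Agent.R146.ELim_12
import Crest.Agent.R146.MinW_952
import Crest.Agent.R146.P5Lk_288
import Crest.Agent.R146.Edge05_918

/-!
Row 146 (helper12): package P5 closed up to its five open nodes, in the form of helper918's
`Edge05_918.P5FIN`: `MINB`, `MIN0` (952), `ELIM` (12), `LINKM`, `LINKZ` (356/43/288) are discharged.
-/

set_option autoImplicit false

namespace Crest.Agent.R146.P5Close_12

open Crest.Agent.R146.P34_734 Crest.Agent.R146.P5Def_12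

/-- `P5FIN` from the open nodes `FLIM`, `LIPZ`, `LEVC`, `LEVD` and the tip theorem -/
theorem p5FIN_of (W : BS) (hFLIM : FLIM W) (hLIPZ : LIPZ W) (hLEVC : LEVC W) (hLEVD : LEVD W)
    (hTIP : TIPW W) : Edge05_918.P5FIN W := by
  intro αc hαc hZ hNZ
  obtain ⟨ν, m, x, D, x0, D0, xJ, DJ, s, F⟩ := P5Fin_12.p5fin W (MinW_952.minB W)
    (MinW_952.min0 W) (ELim_12.elim W) hFLIM hLIPZ hTIP hLEVC hLEVD (P5Lk_288.linkm W)
    (P5Lk_288.linkz W) hαc hZ hNZ (η := 1) one_pos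
  refine ⟨1, x, D, x0, D0, xJ, DJ, s, ν, F.out, fun α h1 _ b hb => ?_, F.jam, F.tip⟩
  obtain ⟨g1, g2, g3⟩ := F.prof α h1 b hb
  exact ⟨m α b, ⟨g1, g2⟩, g3⟩

end Crest.Agent.R146.P5Close_12
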