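import Crest.Agent.R146.Law_534
import Crest.Agent.R146.Back_847
import Crest.Agent.R146.PLaw_791
import Crest.Agent.R146.StepAsm_791

/-!
Row 146 (PT-STEP, helper534): `StepAsm_791.PLAW` is a theorem.
-/

set_option autoImplicit false

namespace Crest.Agent.R146.PLawThm_534

open Crest.Agent.R146.StepDef_791 Crest.Agent.R146.Cell_534
open Crest.Agent.R146.YB_534 Crest.Agent.R146.Law_534
open Crest.Agent.R146.Back_847 (back)

/-- the law of the step system, without hypotheses -/
theorem law' (A : SD) (x0 : ℝ) : Law A x0 (pd A x0) (Yp A x0) (Yxp A x0) (Yxxp A x0) :=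
  law A (back A) x0

/-- **PLAW** -/
theorem plaw : Crest.Agent.R146.StepAsm_791.PLAW :=
  ⟨fun A => Yp A 1, fun A => Yxp A 1, fun A => Yxxp A 1, fun A =>
    ⟨law' A 1, PLaw_791.first_cell (back A) (law' A 1),
      fun hm => PLaw_791.yst (back A) (law' A 1) hm⟩⟩

end Crest.Agent.R146.PLawThm_534
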