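import Mathlib

/-!
# Row 146, node PMAX (helper423): parabolic maximum principle on `[0,T] × I`, `I ⊆ ℝ` open

General form with a barrier `g`, one-sided (left) time derivatives, coefficients are arbitrary numbers at each
point (no regularity in time or space is needed).
-/

set_option autoImplicit false

open Set Filter Topology

namespace Crest.Agent.R146.PMax_423

/-- second order necessary condition for a local maximum, one dimension -/
theorem second_le_zero {f f1 : ℝ → ℝ} {x f2 : ℝ} (hmax : IsLocalMax f x)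
    (h1 : ∀ᶠ y in 𝓝 x, HasDerivAt f (f1 y) y) (h2 : HasDerivAt f1 f2 x) : f2 ≤ 0 := by
  by_contra hcon
  push Not at hcon
  have hx0 : f1 x = 0 := by
    have := h1.self_of_nhds
    exact hmax.hasDerivAt_eq_zero this
  -- f1 y > 0 for y > x close to x
  have hs : Tendsto (slope f1 x) (𝓝[≠] x) (𝓝 f2) := hasDerivAt_iff_tendsto_slope.mp h2
  have hpos : ∀ᶠ y in 𝓝[≠] x, 0 < slope f1 x y := hs.eventually (lt_mem_nhds hcon)
  have hpos' : ∀ᶠ y in 𝓝 x, y ≠ x → 0 < slope f1 x y := by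
    rwa [eventually_nhdsWithin_iff] at hpos
  obtain ⟨δ, hδ, hall⟩ := Metric.eventually_nhds_iff.mp (hpos'.and (h1.and hmax))
  set y := x + δ / 2 with hy
  have hyd : dist y x < δ := by
    rw [hy, Real.dist_eq]; simp [abs_of_pos (half_pos hδ)]; linarith
  have hxy : x < y := by rw [hy]; linarith
  have hfy : f y ≤ f x := (hall hyd).2.2
  -- mean value theorem
  have hmem : ∀ z ∈ Icc x y, dist z x < δ := by
    intro z hz
    rw [Real.dist_eq, abs_of_nonneg (by linarith [hz.1])]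
    have := hz.2
    rw [hy] at this; linarith
  obtain ⟨z, hz, hzd⟩ := exists_hasDerivAt_eq_slope f f1 hxy
    (fun z hz => ((hall (hmem z hz)).2.1).continuousAt.continuousWithinAt)
    (fun z hz => (hall (hmem z (Ioo_subset_Icc_self hz))).2.1)
  have h3 : 0 < slope f1 x z := (hall (hmem z (Ioo_subset_Icc_self hz))).1 hz.1.ne'
  rw [slope_def_field, hx0, sub_zero] at h3
  have h4 : 0 < f1 z := by
    have := mul_pos h3 (sub_pos.mpr hz.1)
    rwa [div_mul_cancel₀ _ (sub_pos.mpr hz.1).ne'] at this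
  rw [hzd] at h4
  have h5 : (f y - f x) / (y - x) ≤ 0 :=
    div_nonpos_of_nonpos_of_nonneg (by linarith) (by linarith)
  linarith

/-- a left derivative at a maximum from the left is nonnegative -/
theorem left_deriv_nonneg {f : ℝ → ℝ} {t f1 : ℝ} (h : HasDerivWithinAt f f1 (Iic t) t)
    (hmax : ∀ᶠ s in 𝓝[<] t, f s ≤ f t) : 0 ≤ f1 := by
  have hs : Tendsto (slope f t) (𝓝[Iic t \ {t}] t) (𝓝 f1) := hasDerivWithinAt_iff_tendsto_slope.mp h
  have he : Iic t \ {t} = Iio t := by ext z; simp [lt_iff_le_and_ne]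
  rw [he] at hs
  refine ge_of_tendsto hs ?_
  filter_upwards [hmax, self_mem_nhdsWithin] with s hs1 hs2
  rw [slope_def_field]
  have : s - t < 0 := sub_neg.mpr hs2
  exact div_nonneg_of_nonpos (by linarith) this.le

/-- **PMAX, general form.** -/
theorem pmax_gen {T K : ℝ} {I : Set ℝ} (hI : IsOpen I)
    (u : ℝ → ℝ → ℝ) (g g1 g2 : ℝ → ℝ)
    (hc : ContinuousOn (fun p : ℝ × ℝ => u p.1 p.2) (Icc 0 T ×ˢ I))
    (h0 : ∀ x ∈ I, u 0 x ≤ 0)
    (hg : ∀ x ∈ I, 0 < g x) (hg1 : ∀ x ∈ I, HasDerivAt g (g1 x) x)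
    (hg2 : ∀ x ∈ I, HasDerivAt g1 (g2 x) x)
    (hdec : ∀ ε : ℝ, 0 < ε → ∃ C ⊆ I, IsCompact C ∧ ∀ t ∈ Icc 0 T, ∀ x ∈ I, x ∉ C → u t x ≤ ε * g x)
    (hpde : ∀ t ∈ Ioc 0 T, ∀ x ∈ I, 0 < u t x →
      ∃ (ux : ℝ → ℝ) (ut uxx a b c : ℝ),
        HasDerivWithinAt (fun s => u s x) ut (Iic t) t ∧
        (∀ᶠ y in 𝓝 x, HasDerivAt (u t) (ux y) y) ∧ HasDerivAt ux uxx x ∧
        0 ≤ a ∧ a * g2 x + b * g1 x ≤ K * g x ∧ c ≤ K ∧
        ut ≤ a * uxx + b * ux x + c * u t x) :
    ∀ t ∈ Icc 0 T, ∀ x ∈ I, u t x ≤ 0 := by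
  by_contra hcon
  push Not at hcon
  obtain ⟨t1, ht1, x1, hx1, hpos1⟩ := hcon
  -- the weight
  set K' : ℝ := |K| + 1 with hK'
  have hKK' : K < K' := lt_of_le_of_lt (le_abs_self K) (lt_add_one _)
  have hK'0 : 0 < K' := by positivity
  have hT0 : 0 ≤ T := ht1.1.trans ht1.2
  -- w = exp (-K' t) u - ε exp (K' t) g
  set ε : ℝ := Real.exp (-K' * t1) * u t1 x1 / (2 * (Real.exp (K' * t1) * g x1)) with hε
  have hε0 : 0 < ε := by
    have := hg x1 hx1
    positivity
  set w : ℝ × ℝ → ℝ := fun p => Real.exp (-K' * p.1) * u p.1 p.2 - ε * (Real.exp (K' * p.1) * g p.2) with hw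
  have hw1 : 0 < w (t1, x1) := by
    have h1 : ε * (Real.exp (K' * t1) * g x1) = Real.exp (-K' * t1) * u t1 x1 / 2 := by
      have h2 : (Real.exp (K' * t1) * g x1) ≠ 0 := by
        have := hg x1 hx1
        positivity
      have key : ∀ A q : ℝ, q ≠ 0 → A / (2 * q) * q = A / 2 := by
        intro A q hq; field_simp
      rw [hε]; exact key _ _ h2
    have h3 : 0 < Real.exp (-K' * t1) * u t1 x1 := by positivity
    simp only [hw]
    rw [h1]; linarith
  obtain ⟨C, hCI, hCc, hCu⟩ := hdec ε hε0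
  have hout : ∀ t ∈ Icc 0 T, ∀ x ∈ I, x ∉ C → w (t, x) ≤ 0 := by
    intro t ht x hx hxC
    have h1 := hCu t ht x hx hxC
    have h2 : Real.exp (-K' * t) ≤ 1 := by
      rw [Real.exp_le_one_iff]; nlinarith [ht.1]
    have h3 : 1 ≤ Real.exp (K' * t) := by
      rw [Real.one_le_exp_iff]; exact mul_nonneg hK'0.le ht.1
    have h4 := hg x hx
    have h5 : Real.exp (-K' * t) * u t x ≤ ε * g x := by
      rcases le_or_gt (u t x) 0 with h6 | h6
      · have : Real.exp (-K' * t) * u t x ≤ 0 := mul_nonpos_of_nonneg_of_nonpos (Real.exp_pos _).le h6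
        have : 0 ≤ ε * g x := by positivity
        linarith
      · calc Real.exp (-K' * t) * u t x ≤ 1 * u t x := mul_le_mul_of_nonneg_right h2 h6.le
          _ ≤ ε * g x := by linarith
    have h7 : ε * g x ≤ ε * (Real.exp (K' * t) * g x) := by
      apply mul_le_mul_of_nonneg_left _ hε0.le
      nlinarith
    simp only [hw]; linarith
  -- maximum on the compact set
  have hx1C : x1 ∈ C := by
    by_contra h
    exact absurd (hout t1 ht1 x1 hx1 h) (not_le.mpr hw1)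
  have hgc : ContinuousOn g I := fun x hx => (hg1 x hx).continuousAt.continuousWithinAt
  have hwc : ContinuousOn w (Icc 0 T ×ˢ C) := by
    have h1 : ContinuousOn (fun p : ℝ × ℝ => u p.1 p.2) (Icc 0 T ×ˢ C) := hc.mono (prod_mono_right hCI)
    have h2 : ContinuousOn (fun p : ℝ × ℝ => g p.2) (Icc 0 T ×ˢ C) :=
      (hgc.mono hCI).comp continuousOn_snd (fun p hp => hp.2)
    have h3 : Continuous (fun p : ℝ × ℝ => Real.exp (-K' * p.1)) := by fun_prop
    have h4 : Continuous (fun p : ℝ × ℝ => Real.exp (K' * p.1)) := by fun_prop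
    exact (h3.continuousOn.mul h1).sub (continuousOn_const.mul (h4.continuousOn.mul h2))
  obtain ⟨⟨t0, x0⟩, hp0, hmax⟩ := (isCompact_Icc.prod hCc).exists_isMaxOn ⟨(t1, x1), ht1, hx1C⟩ hwc
  have ht0 : t0 ∈ Icc 0 T := hp0.1
  have hx0C : x0 ∈ C := hp0.2
  have hx0 : x0 ∈ I := hCI hx0C
  have hw0 : 0 < w (t0, x0) := lt_of_lt_of_le hw1 (hmax ⟨ht1, hx1C⟩)
  have hglob : ∀ t ∈ Icc 0 T, ∀ x ∈ I, w (t, x) ≤ w (t0, x0) := by
    intro t ht x hx
    by_cases h : x ∈ C
    · exact hmax (show (t, x) ∈ Icc 0 T ×ˢ C from ⟨ht, h⟩)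
    · exact (hout t ht x hx h).trans hw0.le
  have hu0 : 0 < u t0 x0 := by
    by_contra h
    push Not at h
    have h1 : Real.exp (-K' * t0) * u t0 x0 ≤ 0 := mul_nonpos_of_nonneg_of_nonpos (Real.exp_pos _).le h
    have h2 : 0 ≤ ε * (Real.exp (K' * t0) * g x0) := by
      have := hg x0 hx0
      positivity
    have : w (t0, x0) ≤ 0 := by simp only [hw]; linarith
    linarith
  have ht0' : t0 ∈ Ioc 0 T := by
    refine ⟨lt_of_le_of_ne ht0.1 ?_, ht0.2⟩
    intro h
    rw [← h] at hu0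
    exact absurd (h0 x0 hx0) (not_le.mpr hu0)
  obtain ⟨ux, ut, uxx, a, b, c, hut, hux, huxx, ha, hbar, hcK, hineq⟩ := hpde t0 ht0' x0 hx0 hu0
  set e1 := Real.exp (-K' * t0) with he1
  set e2 := Real.exp (K' * t0) with he2
  have he1p : 0 < e1 := Real.exp_pos _
  have he2p : 0 < e2 := Real.exp_pos _
  -- space derivatives
  have hlm : IsLocalMax (fun x => w (t0, x)) x0 := by
    filter_upwards [hI.mem_nhds hx0] with x hx
    exact hglob t0 ht0 x hx
  have hfx : ∀ᶠ y in 𝓝 x0, HasDerivAt (fun x => w (t0, x)) (e1 * ux y - ε * (e2 * g1 y)) y := by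
    filter_upwards [hux, hI.mem_nhds hx0] with y hy hyI
    exact (hy.const_mul e1).sub (((hg1 y hyI).const_mul e2).const_mul ε)
  have hfxx : HasDerivAt (fun y => e1 * ux y - ε * (e2 * g1 y)) (e1 * uxx - ε * (e2 * g2 x0)) x0 :=
    (huxx.const_mul e1).sub (((hg2 x0 hx0).const_mul e2).const_mul ε)
  have hx_eq : e1 * ux x0 - ε * (e2 * g1 x0) = 0 := hlm.hasDerivAt_eq_zero hfx.self_of_nhds
  have hxx_le : e1 * uxx - ε * (e2 * g2 x0) ≤ 0 := second_le_zero hlm hfx hfxx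
  -- time derivative
  have hwt : HasDerivWithinAt (fun t => w (t, x0))
      ((-K' * e1) * u t0 x0 + e1 * ut - ε * ((K' * e2) * g x0)) (Iic t0) t0 := by
    have h1 : HasDerivAt (fun t : ℝ => Real.exp (-K' * t)) (-K' * e1) t0 := by
      have := ((hasDerivAt_id t0).const_mul (-K')).exp
      simpa [he1, mul_comm] using this
    have h2 : HasDerivAt (fun t : ℝ => Real.exp (K' * t)) (K' * e2) t0 := by
      have := ((hasDerivAt_id t0).const_mul K').exp
      simpa [he2, mul_comm] using this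
    exact (h1.hasDerivWithinAt.mul hut).sub (((h2.hasDerivWithinAt).mul_const (g x0)).const_mul ε)
  have hwt0 : 0 ≤ (-K' * e1) * u t0 x0 + e1 * ut - ε * ((K' * e2) * g x0) := by
    refine left_deriv_nonneg hwt ?_
    have : ∀ᶠ s in 𝓝[<] t0, s ∈ Ioo 0 t0 := Ioo_mem_nhdsLT ht0'.1
    filter_upwards [this] with s hs
    exact hglob s ⟨hs.1.le, hs.2.le.trans ht0'.2⟩ x0 hx0
  -- contradiction
  have hgx := hg x0 hx0
  have h1 : e1 * ut ≤ a * (e1 * uxx) + b * (e1 * ux x0) + c * (e1 * u t0 x0) := by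
    have := mul_le_mul_of_nonneg_left hineq he1p.le
    linarith
  have h2 : a * (e1 * uxx) ≤ a * (ε * (e2 * g2 x0)) := mul_le_mul_of_nonneg_left (by linarith) ha
  have h3 : e1 * ux x0 = ε * (e2 * g1 x0) := by linarith
  have h4 : c * (e1 * u t0 x0) ≤ K * (e1 * u t0 x0) :=
    mul_le_mul_of_nonneg_right hcK (by positivity)
  have h5 : K * (e1 * u t0 x0) < K' * (e1 * u t0 x0) :=
    mul_lt_mul_of_pos_right hKK' (by positivity)
  have h6 : ε * e2 * (a * g2 x0 + b * g1 x0) ≤ ε * e2 * (K * g x0) :=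
    mul_le_mul_of_nonneg_left hbar (by positivity)
  have h7 : ε * e2 * (K * g x0) < ε * e2 * (K' * g x0) := by
    apply mul_lt_mul_of_pos_left _ (by positivity)
    exact mul_lt_mul_of_pos_right hKK' hgx
  rw [h3] at h1
  nlinarith

/-- the barrier `(1+x²)^n` -/
theorem hasDerivAt_bar (n : ℕ) (x : ℝ) :
    HasDerivAt (fun x : ℝ => (1 + x ^ 2) ^ (n + 1)) ((n + 1) * (1 + x ^ 2) ^ n * (2 * x)) x := by
  have h1 : HasDerivAt (fun x : ℝ => 1 + x ^ 2) (2 * x) x := by
    simpa using (hasDerivAt_pow 2 x).const_add 1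
  have h2 := h1.pow (n + 1)
  simp only [Nat.cast_add, Nat.cast_one, Nat.add_sub_cancel] at h2
  exact h2

/-- **PMAX on the line, polynomial growth.** -/
theorem pmax_poly {T A C : ℝ} {m : ℕ} (hA : 0 ≤ A)
    (u : ℝ → ℝ → ℝ)
    (hc : ContinuousOn (fun p : ℝ × ℝ => u p.1 p.2) (Icc 0 T ×ˢ univ))
    (h0 : ∀ x, u 0 x ≤ 0)
    (hgr : ∀ t ∈ Icc 0 T, ∀ x, u t x ≤ C * (1 + x ^ 2) ^ m)
    (hpde : ∀ t ∈ Ioc 0 T, ∀ x, 0 < u t x →
      ∃ (ux : ℝ → ℝ) (ut uxx a b c : ℝ),
        HasDerivWithinAt (fun s => u s x) ut (Iic t) t ∧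
        (∀ᶠ y in 𝓝 x, HasDerivAt (u t) (ux y) y) ∧ HasDerivAt ux uxx x ∧
        0 ≤ a ∧ a ≤ A * (1 + x ^ 2) ∧ |b| ≤ A * (1 + |x|) ∧ c ≤ A ∧
        ut ≤ a * uxx + b * ux x + c * u t x) :
    ∀ t ∈ Icc 0 T, ∀ x, u t x ≤ 0 := by
  -- barrier exponent
  set n : ℕ := m + 1 with hn
  set K : ℝ := A * (8 * (n + 1) ^ 2 + 1) with hK
  have hgen := pmax_gen (T := T) (K := K) (I := univ) isOpen_univ u
    (fun x => (1 + x ^ 2) ^ (n + 1)) (fun x => (n + 1) * (1 + x ^ 2) ^ n * (2 * x))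
    (fun x => (n + 1) * ((n * (1 + x ^ 2) ^ (n - 1) * (2 * x)) * (2 * x) + (1 + x ^ 2) ^ n * 2)) hc
    (fun x _ => h0 x) (fun x _ => by positivity) (fun x _ => hasDerivAt_bar n x) ?_ ?_ ?_
  · exact fun t ht x => hgen t ht x (mem_univ x)
  · intro x _
    have h1 : HasDerivAt (fun x : ℝ => 1 + x ^ 2) (2 * x) x := by
      simpa using (hasDerivAt_pow 2 x).const_add 1
    have h2 : HasDerivAt (fun x : ℝ => (1 + x ^ 2) ^ n) (n * (1 + x ^ 2) ^ (n - 1) * (2 * x)) x := by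
      exact h1.pow n
    have h3 : HasDerivAt (fun x : ℝ => 2 * x) 2 x := by simpa using (hasDerivAt_id x).const_mul 2
    have h4 := (h2.mul h3).const_mul ((n : ℝ) + 1)
    refine h4.congr_of_eventuallyEq (Eventually.of_forall fun y => ?_)
    simp only [Pi.mul_apply]; ring
  · intro ε hε
    -- outside a large ball `C (1+x²)^m ≤ ε (1+x²)^(m+2)`
    set R : ℝ := |C| / ε + 1 with hR
    refine ⟨Icc (-R) R, subset_univ _, isCompact_Icc, ?_⟩
    intro t ht x _ hx
    have hxR : R < |x| := by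
      by_contra h
      push Not at h
      exact hx (abs_le.mp h)
    have hR0 : 0 < R := by positivity
    have h1 : R ≤ 1 + x ^ 2 := by
      have : R ^ 2 ≤ x ^ 2 := by
        rw [← sq_abs x]; exact pow_le_pow_left₀ hR0.le hxR.le 2
      nlinarith [sq_nonneg (R - 1)]
    have h2 : |C| ≤ ε * (1 + x ^ 2) := by
      have h3 : |C| / ε ≤ 1 + x ^ 2 := by linarith
      rw [div_le_iff₀ hε] at h3; linarith
    have hq : (1 : ℝ) ≤ 1 + x ^ 2 := by nlinarith [sq_nonneg x]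
    calc u t x ≤ C * (1 + x ^ 2) ^ m := hgr t ht x
      _ ≤ |C| * (1 + x ^ 2) ^ m := mul_le_mul_of_nonneg_right (le_abs_self C) (by positivity)
      _ ≤ (ε * (1 + x ^ 2)) * (1 + x ^ 2) ^ m := mul_le_mul_of_nonneg_right h2 (by positivity)
      _ = ε * (1 + x ^ 2) ^ (m + 1) := by ring
      _ ≤ ε * (1 + x ^ 2) ^ (n + 1) := by
        apply mul_le_mul_of_nonneg_left _ hε.le
        exact pow_le_pow_right₀ hq (by omega)
  · intro t ht x _ hu
    obtain ⟨ux, ut, uxx, a, b, c, hut, hux, huxx, ha, haA, hbA, hcA, hineq⟩ := hpde t ht x hu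
    refine ⟨ux, ut, uxx, a, b, c, hut, hux, huxx, ha, ?_, ?_, hineq⟩
    · set q : ℝ := 1 + x ^ 2 with hq
      have hq1 : 1 ≤ q := by rw [hq]; nlinarith [sq_nonneg x]
      have hn0 : (0 : ℝ) ≤ n := Nat.cast_nonneg n
      have hqn : 0 < q ^ n := by positivity
      have hx2 : x ^ 2 ≤ q := by rw [hq]; linarith
      -- second derivative bound
      have hnn : (n : ℝ) * q ^ (n - 1) * q = n * q ^ n := by
        rcases Nat.eq_zero_or_pos n with h | h
        · rw [h]; simp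
        · rw [mul_assoc, ← pow_succ, Nat.sub_add_cancel h]
      have hg2 : ((n : ℝ) + 1) * ((n * q ^ (n - 1) * (2 * x)) * (2 * x) + q ^ n * 2)
          ≤ (n + 1) * (4 * n * q ^ n + 2 * q ^ n) := by
        apply mul_le_mul_of_nonneg_left _ (by positivity)
        have : (n * q ^ (n - 1) * (2 * x)) * (2 * x) = 4 * (n * q ^ (n - 1) * x ^ 2) := by ring
        rw [this]
        have h5 : (n : ℝ) * q ^ (n - 1) * x ^ 2 ≤ n * q ^ (n - 1) * q :=
          mul_le_mul_of_nonneg_left hx2 (by positivity)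
        linarith
      have hg2' : ((n : ℝ) + 1) * ((n * q ^ (n - 1) * (2 * x)) * (2 * x) + q ^ n * 2)
          ≤ 4 * (n + 1) ^ 2 * q ^ n := by
        refine hg2.trans ?_
        have : (4 : ℝ) * (n + 1) ^ 2 * q ^ n - (n + 1) * (4 * n * q ^ n + 2 * q ^ n) = 2 * (n + 1) * q ^ n := by
          ring
        have h6 : 0 ≤ 2 * ((n : ℝ) + 1) * q ^ n := by positivity
        linarith
      have hterm1 : a * (((n : ℝ) + 1) * ((n * q ^ (n - 1) * (2 * x)) * (2 * x) + q ^ n * 2))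
          ≤ A * q * (4 * (n + 1) ^ 2 * q ^ n) := by
        calc _ ≤ a * (4 * (n + 1) ^ 2 * q ^ n) := mul_le_mul_of_nonneg_left hg2' ha
          _ ≤ A * q * (4 * (n + 1) ^ 2 * q ^ n) := mul_le_mul_of_nonneg_right haA (by positivity)
      have hb1 : b * ((n + 1) * q ^ n * (2 * x)) ≤ A * (4 * (n + 1) * (q ^ n * q)) := by
        have hxx : (1 + |x|) * |x| ≤ 2 * q := by
          have : |x| ^ 2 = x ^ 2 := sq_abs x
          have h7 : |x| ≤ q := by rw [hq]; nlinarith [sq_nonneg (|x| - 1), abs_nonneg x]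
          nlinarith
        have h8 : b * x ≤ A * (2 * q) := by
          calc b * x ≤ |b * x| := le_abs_self _
            _ = |b| * |x| := abs_mul _ _
            _ ≤ A * (1 + |x|) * |x| := mul_le_mul_of_nonneg_right hbA (abs_nonneg x)
            _ = A * ((1 + |x|) * |x|) := by ring
            _ ≤ A * (2 * q) := mul_le_mul_of_nonneg_left hxx hA
        calc b * ((n + 1) * q ^ n * (2 * x)) = 2 * (n + 1) * q ^ n * (b * x) := by ring
          _ ≤ 2 * (n + 1) * q ^ n * (A * (2 * q)) := mul_le_mul_of_nonneg_left h8 (by positivity)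
          _ = A * (4 * (n + 1) * (q ^ n * q)) := by ring
      have hfin : A * q * (4 * (n + 1) ^ 2 * q ^ n) + A * (4 * (n + 1) * (q ^ n * q)) ≤ K * q ^ (n + 1) := by
        rw [hK, pow_succ]
        have h9 : (4 : ℝ) * (n + 1) ^ 2 + 4 * (n + 1) ≤ 8 * (n + 1) ^ 2 + 1 := by nlinarith
        have h10 : 0 ≤ A * (q ^ n * q) := by positivity
        have h11 := mul_le_mul_of_nonneg_left h9 h10
        calc A * q * (4 * (n + 1) ^ 2 * q ^ n) + A * (4 * (n + 1) * (q ^ n * q))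
            = A * (q ^ n * q) * (4 * (n + 1) ^ 2 + 4 * (n + 1)) := by ring
          _ ≤ A * (q ^ n * q) * (8 * (n + 1) ^ 2 + 1) := h11
          _ = A * (8 * (n + 1) ^ 2 + 1) * (q ^ n * q) := by ring
      linarith
    · refine hcA.trans ?_
      rw [hK]
      have h1 : (0 : ℝ) ≤ 8 * ((n : ℝ) + 1) ^ 2 := by positivity
      nlinarith [mul_nonneg hA h1]

end Crest.Agent.R146.PMax_423
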