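import Crest.Agent.R146.PP_865

/-!
# Row 146, helper865: piecewise polynomial certificates, part 2: interval parameters

`checkBox P n ps e p pcs = true` : the expression `e` in the certificate variables
(`0 = z`, `3k+1, 3k+2, 3k+3 = f_k, f_k', f_k''`) and in the parameter variables listed in
`ps : List (ℕ × Ex × Ex)` (index, lower bound, upper bound) is affine in every parameter and
positive at all vertices of the box; hence (`checkBox_sound`) it is positive for all values of the
parameters between the bounds, at every `z` of the interval.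

A parameter in which `e` is concave may be handled with `concave_pos` (end points suffice as well).
-/

set_option autoImplicit false

namespace Crest.Agent.R146.PP865

open Function

namespace Ex

def subst (a : Ex) (i : ℕ) (t : Ex) : Ex :=
  match a with
  | cst n e => cst n e
  | var j => if i = j then t else var j
  | add a b => add (a.subst i t) (b.subst i t)
  | mul a b => mul (a.subst i t) (b.subst i t)
  | neg a => neg (a.subst i t)

theorem evR_subst (i : ℕ) (t : Ex) (v : ℕ → ℝ) (e : Ex) :
    (e.subst i t).evR v = e.evR (update v i (t.evR v)) := by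
  induction e with
  | cst n e => rfl
  | var j =>
    by_cases h : i = j
    · subst h; simp [subst, evR]
    · simp [subst, evR, h, update_of_ne (Ne.symm h)]
  | add a b iha ihb => simp only [subst, evR, iha, ihb]
  | mul a b iha ihb => simp only [subst, evR, iha, ihb]
  | neg a iha => simp only [subst, evR, iha]

/-- degree in the variable `i` (upper bound) -/
def deg (i : ℕ) : Ex → ℕ
  | cst _ _ => 0
  | var j => if i = j then 1 else 0
  | add a b => max (a.deg i) (b.deg i)
  | mul a b => a.deg i + b.deg i
  | neg a => a.deg i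

theorem evR_update_of_deg_zero {i : ℕ} {e : Ex} (h : e.deg i = 0) (v : ℕ → ℝ) (x : ℝ) :
    e.evR (update v i x) = e.evR v := by
  induction e with
  | cst n e => rfl
  | var j =>
    have : i ≠ j := by
      intro hh
      simp [deg, hh] at h
    simp [evR, update_of_ne this.symm]
  | add a b iha ihb =>
    simp only [deg] at h
    simp only [evR, iha (by omega), ihb (by omega)]
  | mul a b iha ihb =>
    simp only [deg] at h
    simp only [evR, iha (by omega), ihb (by omega)]
  | neg a iha => simp only [evR, iha h]

theorem affine_of_deg {i : ℕ} {e : Ex} (h : e.deg i ≤ 1) (v : ℕ → ℝ) :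
    ∃ α β : ℝ, ∀ x, e.evR (update v i x) = α + β * x := by
  induction e with
  | cst n e => exact ⟨(n : ℝ) / 2 ^ e, 0, fun x => by simp [evR]⟩
  | var j =>
    by_cases hij : i = j
    · subst hij
      exact ⟨0, 1, fun x => by simp [evR]⟩
    · exact ⟨v j, 0, fun x => by simp [evR, update_of_ne (Ne.symm hij)]⟩
  | add a b iha ihb =>
    simp only [deg] at h
    obtain ⟨α, β, h1⟩ := iha (by omega)
    obtain ⟨γ, δ, h2⟩ := ihb (by omega)
    exact ⟨α + γ, β + δ, fun x => by simp only [evR, h1, h2]; ring⟩
  | mul a b iha ihb =>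
    simp only [deg] at h
    rcases Nat.eq_zero_or_pos (a.deg i) with h0 | h0
    · obtain ⟨γ, δ, h2⟩ := ihb (by omega)
      refine ⟨a.evR v * γ, a.evR v * δ, fun x => ?_⟩
      simp only [evR, h2, evR_update_of_deg_zero h0]
      ring
    · obtain ⟨γ, δ, h2⟩ := iha (by omega)
      refine ⟨b.evR v * γ, b.evR v * δ, fun x => ?_⟩
      simp only [evR, h2, evR_update_of_deg_zero (show b.deg i = 0 by omega)]
      ring
  | neg a iha =>
    obtain ⟨α, β, h1⟩ := iha h
    exact ⟨-α, -β, fun x => by simp only [evR, h1]; ring⟩

end Ex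

/-- a positive value at both ends of the interval gives a positive value inside (affine function) -/
theorem affine_pos {α β l h x : ℝ} (h1 : 0 < α + β * l) (h2 : 0 < α + β * h) (hl : l ≤ x)
    (hh : x ≤ h) : 0 < α + β * x := by
  rcases le_total 0 β with hb | hb
  · nlinarith
  · nlinarith

/-- the same for a concave quadratic -/
theorem concave_pos {α β γ l h x : ℝ} (hγ : γ ≤ 0) (h1 : 0 < α + β * l + γ * l ^ 2)
    (h2 : 0 < α + β * h + γ * h ^ 2) (hl : l ≤ x) (hh : x ≤ h) : 0 < α + β * x + γ * x ^ 2 := by
  rcases eq_or_lt_of_le (hl.trans hh) with heq | hlt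
  · have : x = l := le_antisymm (by rw [heq]; exact hh) hl
    rw [this]; exact h1
  · have hd : 0 < h - l := sub_pos.2 hlt
    have key : (h - l) * (α + β * x + γ * x ^ 2)
        = (h - x) * (α + β * l + γ * l ^ 2) + (x - l) * (α + β * h + γ * h ^ 2)
          + (-γ) * ((h - x) * (x - l) * (h - l)) := by ring
    have h3 : 0 ≤ (-γ) * ((h - x) * (x - l) * (h - l)) := by
      apply mul_nonneg (by linarith)
      exact mul_nonneg (mul_nonneg (by linarith) (by linarith)) hd.le
    have h4 : 0 < (h - x) * (α + β * l + γ * l ^ 2) + (x - l) * (α + β * h + γ * h ^ 2) := by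
      rcases eq_or_lt_of_le hl with h5 | h5
      · have : 0 < h - x := by rw [← h5]; exact hd
        have := mul_pos this h1
        have := mul_nonneg (show 0 ≤ x - l by linarith) h2.le
        linarith
      · have := mul_pos (show 0 < x - l by linarith) h2
        have := mul_nonneg (show 0 ≤ h - x by linarith) h1.le
        linarith
    have h5 : 0 < (h - l) * (α + β * x + γ * x ^ 2) := by rw [key]; linarith
    exact pos_of_mul_pos_right h5 hd.le

/-- parameters: index, lower bound, upper bound -/
abbrev Prm := ℕ × Ex × Ex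

def verts : List Prm → Ex → List Ex
  | [], e => [e]
  | (i, l, h) :: ps, e => verts ps (e.subst i l) ++ verts ps (e.subst i h)

def okdeg : List Prm → Ex → Bool
  | [], _ => true
  | (i, l, h) :: ps, e => decide (e.deg i ≤ 1) && okdeg ps (e.subst i l) && okdeg ps (e.subst i h)

theorem verts_sound {v : ℕ → ℝ} : ∀ {ps : List Prm} {e : Ex}, okdeg ps e = true →
    (∀ q ∈ ps, q.2.1.evR v ≤ v q.1 ∧ v q.1 ≤ q.2.2.evR v) →
    (∀ e' ∈ verts ps e, 0 < e'.evR v) → 0 < e.evR v
  | [], e, _, _, h => h e (by simp [verts])
  | (i, l, h) :: ps, e, hd, hb, hv => by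
    simp only [okdeg, Bool.and_eq_true, decide_eq_true_eq] at hd
    have b := hb (i, l, h) (by simp)
    have hb' : ∀ q ∈ ps, q.2.1.evR v ≤ v q.1 ∧ v q.1 ≤ q.2.2.evR v :=
      fun q hq => hb q (by simp [hq])
    have k1 : 0 < (e.subst i l).evR v :=
      verts_sound hd.1.2 hb' fun e' he' => hv e' (by simp [verts, he'])
    have k2 : 0 < (e.subst i h).evR v :=
      verts_sound hd.2 hb' fun e' he' => hv e' (by simp [verts, he'])
    rw [Ex.evR_subst] at k1 k2
    obtain ⟨α, β, haff⟩ := Ex.affine_of_deg hd.1.1 v
    rw [haff] at k1 k2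
    have := affine_pos k1 k2 b.1 b.2
    rw [← haff] at this
    simpa using this

/-- every variable of `e` has index at most `m` -/
def Ex.bnd (m : ℕ) : Ex → Bool
  | .cst _ _ => true
  | .var j => decide (j ≤ m)
  | .add a b => a.bnd m && b.bnd m
  | .mul a b => a.bnd m && b.bnd m
  | .neg a => a.bnd m

theorem Ex.evR_congr {m : ℕ} {v w : ℕ → ℝ} (h : ∀ i ≤ m, v i = w i) {e : Ex}
    (he : e.bnd m = true) : e.evR v = e.evR w := by
  induction e with
  | cst n e => rfl
  | var j => exact h j (by simpa [Ex.bnd] using he)
  | add a b iha ihb =>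
    simp only [Ex.bnd, Bool.and_eq_true] at he
    simp only [Ex.evR, iha he.1, ihb he.2]
  | mul a b iha ihb =>
    simp only [Ex.bnd, Bool.and_eq_true] at he
    simp only [Ex.evR, iha he.1, ihb he.2]
  | neg a iha =>
    simp only [Ex.bnd] at he
    simp only [Ex.evR, iha he]

/-- the values of the certificate variables at `z` -/
noncomputable def cv (P : ℕ) (p : Pc) (ps : List Pc) (z : ℝ) (i : ℕ) : ℝ :=
  val (fun k => Fn P k p ps) (fun k => Fn1 P k p ps) (fun k => Fn2 P k p ps) i z

/-- certificate for `0 < e` for all parameter values in the boxes `ps`; the certificate variables are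
those of index `≤ m`, the parameter variables must have index `> m` -/
def checkBox (P n m : ℕ) (ps : List Prm) (e : Ex) (p : Pc) (pcs : List Pc) : Bool :=
  okdeg ps e && (verts ps e).all fun e' => e'.bnd m && check P n e' p pcs

theorem checkBox_sound {P n m : ℕ} {ps : List Prm} {e : Ex} {p : Pc} {pcs : List Pc}
    (ha : chain adj p pcs = true) (h : checkBox P n m ps e p pcs = true) {z : ℝ}
    (h1 : p.lo ≤ z) (h2 : z ≤ hiL p pcs) {v : ℕ → ℝ} (hv : ∀ i ≤ m, v i = cv P p pcs z i)
    (hb : ∀ q ∈ ps, q.2.1.evR v ≤ v q.1 ∧ v q.1 ≤ q.2.2.evR v) : 0 < e.evR v := by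
  simp only [checkBox, Bool.and_eq_true, List.all_eq_true] at h
  refine verts_sound h.1 hb fun e' he' => ?_
  have k := h.2 e' he'
  rw [Ex.evR_congr hv k.1]
  exact check_sound ha k.2 z h1 h2

end Crest.Agent.R146.PP865
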