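import Crest.Agent.R146.PP3_865

/-!
# Row 146, helper865: piecewise polynomial certificates, part 4: fast Taylor models

Polynomials are packed into ONE integer (`evZ p (2 ^ K)`), so that a product of two Taylor models is one
big integer multiplication in the kernel (20-50 times faster than the list arithmetic of `PP3_865`).

`KT` : packed Taylor model (packed polynomial `n`, bound `m` of the sum of the coefficients, exponent `e`,
radius `r`).  `chkK K n P err m cs prm e a b p ps = true` : on every piece meeting `[a/8, b/8]` the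
coefficients `cs` (expressions in the certificate variables `≤ m`) are evaluated ONCE, then `e` (an expression in
the variables `200 + j ↦ cs[j]` and in the parameters `prm`) is positive at all vertices
(`chkK_sound`).
-/

set_option autoImplicit false

namespace Crest.Agent.R146.PP865

open Function

/-! ### integer evaluation -/

theorem evZ_padd (a b : Poly) (x : ℤ) : evZ (padd a b) x = evZ a x + evZ b x := by
  induction a generalizing b with
  | nil => simp [padd, evZ]
  | cons a as ih =>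
    cases b with
    | nil => simp [padd, evZ]
    | cons b bs => simp [padd, evZ, ih]; ring

theorem evZ_psmul (k : ℤ) (a : Poly) (x : ℤ) : evZ (psmul k a) x = k * evZ a x := by
  induction a with
  | nil => simp [psmul, evZ]
  | cons a as ih => simp [psmul, evZ, ih]; ring

theorem evZ_pmul (a b : Poly) (x : ℤ) : evZ (pmul a b) x = evZ a x * evZ b x := by
  induction a with
  | nil => simp [pmul, evZ]
  | cons a as ih => simp [pmul, evZ_padd, evZ_psmul, evZ, ih]; ring

theorem nsumAbs_padd_le (a b : Poly) : TM.nsumAbs (padd a b) ≤ TM.nsumAbs a + TM.nsumAbs b := by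
  induction a generalizing b with
  | nil => simp [padd, TM.nsumAbs]
  | cons a as ih =>
    cases b with
    | nil => simp [padd, TM.nsumAbs]
    | cons b bs =>
      simp only [padd, TM.nsumAbs]
      have h1 := ih bs
      have h2 := Int.natAbs_add_le a b
      omega

theorem nsumAbs_psmul (k : ℤ) (a : Poly) :
    TM.nsumAbs (psmul k a) = k.natAbs * TM.nsumAbs a := by
  induction a with
  | nil => simp [psmul, TM.nsumAbs]
  | cons a as ih => simp [psmul, TM.nsumAbs, ih, Int.natAbs_mul]; ring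

theorem nsumAbs_pmul_le (a b : Poly) :
    TM.nsumAbs (pmul a b) ≤ TM.nsumAbs a * TM.nsumAbs b := by
  induction a with
  | nil => simp [pmul, TM.nsumAbs]
  | cons a as ih =>
    simp only [pmul, TM.nsumAbs]
    have h1 := nsumAbs_padd_le (psmul a b) (0 :: pmul as b)
    rw [nsumAbs_psmul] at h1
    simp only [TM.nsumAbs, Int.natAbs_zero, zero_add] at h1
    calc TM.nsumAbs (padd (psmul a b) (0 :: pmul as b))
        ≤ a.natAbs * TM.nsumAbs b + TM.nsumAbs (pmul as b) := h1
      _ ≤ a.natAbs * TM.nsumAbs b + TM.nsumAbs as * TM.nsumAbs b := by gcongr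
      _ = _ := by ring

/-! ### forcing -/

/-- evaluate the natural number first -/
def fN {α : Type} (f : ℕ → α) (n : ℕ) : α :=
  Nat.casesOn (motive := fun _ => α) n (f Nat.zero) (fun k => f (Nat.succ k))

@[simp] theorem fN_eq {α : Type} (f : ℕ → α) (n : ℕ) : fN f n = f n := by cases n <;> rfl

/-- evaluate the integer first -/
def fZ {α : Type} (f : ℤ → α) (z : ℤ) : α :=
  Int.casesOn (motive := fun _ => α) z (fun n => fN (fun n => f (Int.ofNat n)) n)
    (fun n => fN (fun n => f (Int.negSucc n)) n)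

@[simp] theorem fZ_eq {α : Type} (f : ℤ → α) (z : ℤ) : fZ f z = f z := by
  cases z <;> simp [fZ]

/-! ### packed Taylor models -/

structure KT where
  n : ℤ
  m : ℕ
  e : ℕ
  r : ℕ

namespace KT

/-- all fields evaluated -/
def mkS (n : ℤ) (m e r : ℕ) : KT := fZ (fun n => fN (fun m => fN (fun e => fN (fun r => ⟨n, m, e, r⟩) r) e) m) n

@[simp] theorem mkS_eq (n : ℤ) (m e r : ℕ) : mkS n m e r = ⟨n, m, e, r⟩ := by simp [mkS]

/-- `t` contains the value `v` at the local coordinate `x` -/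
def Mem (K : ℕ) (t : KT) (x v : ℝ) : Prop :=
  ∃ p : Poly, evZ p (2 ^ K) = t.n ∧ TM.nsumAbs p ≤ t.m ∧ |2 ^ t.e * v - ev p x| ≤ t.r

/-- multiply by `2 ^ d` -/
def up (d : ℕ) (t : KT) : KT :=
  ⟨Int.mul (Int.ofNat (Nat.pow 2 d)) t.n, Nat.mul (Nat.pow 2 d) t.m, Nat.add t.e d,
    Nat.mul (Nat.pow 2 d) t.r⟩

theorem up_mem {K d : ℕ} {t : KT} {x v : ℝ} (h : t.Mem K x v) : (up d t).Mem K x v := by
  obtain ⟨p, h1, h2, h3⟩ := h
  have e0 : (Int.ofNat (Nat.pow 2 d) : ℤ) = 2 ^ d := by
    show ((2 ^ d : ℕ) : ℤ) = _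
    push_cast; rfl
  refine ⟨psmul (2 ^ d) p, ?_, ?_, ?_⟩
  · rw [evZ_psmul, h1]
    show _ = Int.ofNat (Nat.pow 2 d) * t.n
    rw [e0]
  · rw [nsumAbs_psmul]
    have : ((2 : ℤ) ^ d).natAbs = 2 ^ d := by rw [Int.natAbs_pow]; rfl
    rw [this]
    exact Nat.mul_le_mul_left _ h2
  · show |2 ^ (t.e + d) * v - ev (psmul (2 ^ d) p) x| ≤ ((2 ^ d * t.r : ℕ) : ℝ)
    rw [ev_psmul]
    push_cast
    have e1 : (2:ℝ) ^ (t.e + d) * v - 2 ^ d * ev p x = 2 ^ d * (2 ^ t.e * v - ev p x) := by
      rw [pow_add]; ring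
    rw [e1, abs_mul, abs_of_pos (show (0:ℝ) < 2 ^ d by positivity)]
    exact mul_le_mul_of_nonneg_left h3 (by positivity)

/-- sum with equal exponents -/
def add0 (p q : KT) : KT := ⟨Int.add p.n q.n, Nat.add p.m q.m, p.e, Nat.add p.r q.r⟩

theorem add0_mem {K : ℕ} {p q : KT} {x v w : ℝ} (he : p.e = q.e) (hp : p.Mem K x v)
    (hq : q.Mem K x w) : (add0 p q).Mem K x (v + w) := by
  obtain ⟨a, a1, a2, a3⟩ := hp
  obtain ⟨b, b1, b2, b3⟩ := hq
  refine ⟨padd a b, ?_, ?_, ?_⟩
  · rw [evZ_padd, a1, b1]; rfl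
  · exact (nsumAbs_padd_le a b).trans (Nat.add_le_add a2 b2)
  · show |2 ^ p.e * (v + w) - ev (padd a b) x| ≤ ((p.r + q.r : ℕ) : ℝ)
    rw [← he] at b3
    rw [ev_padd]
    push_cast
    have e1 : 2 ^ p.e * (v + w) - (ev a x + ev b x)
        = (2 ^ p.e * v - ev a x) + (2 ^ p.e * w - ev b x) := by ring
    rw [e1]
    exact (abs_add_le _ _).trans (add_le_add a3 b3)

/-- multiplication of an integer by `2 ^ d` -/
def shZ (d : ℕ) (z : ℤ) : ℤ :=
  Nat.casesOn (motive := fun _ => ℤ) d z fun k => Int.mul (Int.ofNat (Nat.pow 2 (Nat.succ k))) z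

theorem shZ_eq (d : ℕ) (z : ℤ) : shZ d z = Int.mul (Int.ofNat (Nat.pow 2 d)) z := by
  cases d with
  | zero => show z = Int.ofNat 1 * z; simp
  | succ k => rfl

def add (p q : KT) : KT :=
  KT.casesOn (motive := fun _ => KT) p fun n m e r =>
  KT.casesOn (motive := fun _ => KT) q fun n' m' e' r' =>
  mkS (Int.add (shZ (Nat.sub e' e) n) (shZ (Nat.sub e e') n'))
    (Nat.add (Nat.mul (Nat.pow 2 (Nat.sub e' e)) m) (Nat.mul (Nat.pow 2 (Nat.sub e e')) m'))
    (Nat.add e (Nat.sub e' e))
    (Nat.add (Nat.mul (Nat.pow 2 (Nat.sub e' e)) r) (Nat.mul (Nat.pow 2 (Nat.sub e e')) r'))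

theorem add_mem {K : ℕ} {p q : KT} {x v w : ℝ} (hp : p.Mem K x v) (hq : q.Mem K x w) :
    (p.add q).Mem K x (v + w) := by
  have h1 := up_mem (d := q.e - p.e) hp
  have h2 := up_mem (d := p.e - q.e) hq
  have h3 := add0_mem (show p.e + (q.e - p.e) = q.e + (p.e - q.e) by omega) h1 h2
  obtain ⟨n, m, e, r⟩ := p
  obtain ⟨n', m', e', r'⟩ := q
  have e1 : KT.add ⟨n, m, e, r⟩ ⟨n', m', e', r'⟩
      = add0 (up (e' - e) ⟨n, m, e, r⟩) (up (e - e') ⟨n', m', e', r'⟩) := by
    show mkS _ _ _ _ = _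
    rw [mkS_eq, shZ_eq, shZ_eq]
    rfl
  rw [e1]
  exact h3

def neg (p : KT) : KT :=
  KT.casesOn (motive := fun _ => KT) p fun n m e r => mkS (Int.neg n) m e r

theorem neg_mem {K : ℕ} {p : KT} {x v : ℝ} (hp : p.Mem K x v) : p.neg.Mem K x (-v) := by
  obtain ⟨a, a1, a2, a3⟩ := hp
  have e0 : p.neg = ⟨Int.neg p.n, p.m, p.e, p.r⟩ := by
    obtain ⟨n, m, e, r⟩ := p
    show mkS _ _ _ _ = _
    rw [mkS_eq]
  rw [e0]
  refine ⟨psmul (-1) a, ?_, ?_, ?_⟩
  · rw [evZ_psmul, a1]
    show -1 * p.n = -p.n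
    ring
  · rw [nsumAbs_psmul]
    show 1 * TM.nsumAbs a ≤ p.m
    rw [one_mul]
    exact a2
  · show |2 ^ p.e * -v - ev (psmul (-1) a) x| ≤ (p.r : ℝ)
    rw [ev_psmul]
    push_cast
    have e1 : (2:ℝ) ^ p.e * -v - -1 * ev a x = -(2 ^ p.e * v - ev a x) := by ring
    rw [e1, abs_neg]
    exact a3

def mul (p q : KT) : KT :=
  KT.casesOn (motive := fun _ => KT) p fun n m e r =>
  KT.casesOn (motive := fun _ => KT) q fun n' m' e' r' =>
  mkS (Int.mul n n') (Nat.mul m m') (Nat.add e e')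
    (Nat.add (Nat.add (Nat.mul m r') (Nat.mul m' r)) (Nat.mul r r'))

theorem mul_mem {K : ℕ} {p q : KT} {x v w : ℝ} (hx : |x| ≤ 1) (hp : p.Mem K x v)
    (hq : q.Mem K x w) : (p.mul q).Mem K x (v * w) := by
  obtain ⟨a, a1, a2, a3⟩ := hp
  obtain ⟨b, b1, b2, b3⟩ := hq
  have e0 : p.mul q = ⟨Int.mul p.n q.n, Nat.mul p.m q.m, Nat.add p.e q.e,
      Nat.add (Nat.add (Nat.mul p.m q.r) (Nat.mul q.m p.r)) (Nat.mul p.r q.r)⟩ := by
    obtain ⟨n, m, e, r⟩ := p
    obtain ⟨n', m', e', r'⟩ := q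
    show mkS _ _ _ _ = _
    rw [mkS_eq]
  rw [e0]
  refine ⟨pmul a b, ?_, ?_, ?_⟩
  · rw [evZ_pmul, a1, b1]; rfl
  · exact (nsumAbs_pmul_le a b).trans (Nat.mul_le_mul a2 b2)
  · show |2 ^ (p.e + q.e) * (v * w) - ev (pmul a b) x|
      ≤ ((p.m * q.r + q.m * p.r + p.r * q.r : ℕ) : ℝ)
    rw [ev_pmul]
    push_cast
    set s := (2:ℝ) ^ p.e * v - ev a x with hs
    set t := (2:ℝ) ^ q.e * w - ev b x with ht
    have e1 : (2:ℝ) ^ (p.e + q.e) * (v * w) - ev a x * ev b x
        = ev a x * t + ev b x * s + s * t := by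
      rw [hs, ht, pow_add]; ring
    rw [e1]
    have h1 : |ev a x| ≤ p.m := (TM.abs_ev_le' a hx).trans (by exact_mod_cast a2)
    have h2 : |ev b x| ≤ q.m := (TM.abs_ev_le' b hx).trans (by exact_mod_cast b2)
    refine (abs_add_le _ _).trans (add_le_add ((abs_add_le _ _).trans (add_le_add ?_ ?_)) ?_)
    · rw [abs_mul]; exact mul_le_mul h1 b3 (abs_nonneg _) (by positivity)
    · rw [abs_mul]; exact mul_le_mul h2 a3 (abs_nonneg _) (by positivity)
    · rw [abs_mul]; exact mul_le_mul a3 b3 (abs_nonneg _) (by positivity)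

/-- strict packing -/
def pk (B : ℕ) (l : Poly) : ℤ :=
  List.rec (motive := fun _ => ℤ) (Int.ofNat 0)
    (fun a _ ih => fZ (fun s => fZ (fun t => t) (Int.add a (Int.mul (Int.ofNat B) s))) ih) l

theorem pk_eq (B : ℕ) (l : Poly) : pk B l = evZ l B := by
  induction l with
  | nil => rfl
  | cons a l ih =>
    show fZ (fun s => fZ (fun t => t) (Int.add a (Int.mul (Int.ofNat B) s))) (pk B l) = _
    rw [fZ_eq, fZ_eq, ih]
    rfl

/-- strict sum of absolute values -/
def sA (l : Poly) : ℕ :=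
  List.rec (motive := fun _ => ℕ) 0 (fun a _ ih => Nat.add (Int.natAbs a) ih) l

theorem sA_eq (l : Poly) : sA l = TM.nsumAbs l := by
  induction l with
  | nil => rfl
  | cons a l ih =>
    show a.natAbs + sA l = _
    rw [ih]
    rfl

/-- from a list Taylor model -/
def ofTM (K : ℕ) (t : TM) : KT :=
  TM.casesOn (motive := fun _ => KT) t fun c e r => mkS (pk (Nat.pow 2 K) c) (sA c) e r

theorem ofTM_mem {K : ℕ} {t : TM} {x v : ℝ} (h : t.Mem x v) : (ofTM K t).Mem K x v := by
  have e0 : ofTM K t = ⟨pk (2 ^ K) t.c, sA t.c, t.e, t.r⟩ := by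
    obtain ⟨c, e, r⟩ := t
    show mkS _ _ _ _ = _
    rw [mkS_eq]
    rfl
  rw [e0]
  refine ⟨t.c, ?_, ?_, h⟩
  · show _ = pk (2 ^ K) t.c
    rw [pk_eq]
    push_cast
    rfl
  · show _ ≤ sA t.c
    rw [sA_eq]

/-! ### positivity -/

/-- `∑_{i<n} 2^(K-1) 2^(K i)` -/
def offs (K : ℕ) (n : ℕ) : ℕ :=
  Nat.rec (motive := fun _ => ℕ) 0
    (fun _ ih => Nat.add (Nat.pow 2 (Nat.sub K 1)) (Nat.mul (Nat.pow 2 K) ih)) n

/-- sum of the absolute values of the packed coefficients (`n` of them), `B = 2 ^ K`, `h = 2 ^ (K-1)` -/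
def sumD (B h : ℕ) (n : ℕ) : ℕ → ℕ :=
  Nat.rec (motive := fun _ => ℕ → ℕ) (fun X => Nat.mul X B)
    (fun _ ih X => fN (fun X => fN (fun d => Nat.add (Nat.add (Nat.sub d h) (Nat.sub h d))
      (ih (Nat.div X B))) (Nat.mod X B)) X) n

theorem offs_succ (K n : ℕ) : offs K (n + 1) = 2 ^ (K - 1) + 2 ^ K * offs K n := rfl
theorem sumD_zero (B h X : ℕ) : sumD B h 0 X = X * B := rfl
theorem sumD_succ (B h n X : ℕ) : sumD B h (n + 1) X
    = (X % B - h) + (h - X % B) + sumD B h n (X / B) := by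
  show fN (fun X => fN (fun d => Nat.add (Nat.add (Nat.sub d h) (Nat.sub h d))
      (sumD B h n (Nat.div X B))) (Nat.mod X B)) X = _
  rw [fN_eq, fN_eq]
  rfl

theorem evZ_zero {h B : ℤ} (hB : B = 2 * h) : ∀ (p : Poly), ((TM.nsumAbs p : ℕ) : ℤ) < h →
    evZ p B = 0 → TM.nsumAbs p = 0
  | [], _, _ => rfl
  | c :: cs, hm, h0 => by
    simp only [TM.nsumAbs] at hm ⊢
    simp only [evZ] at h0
    rw [Nat.cast_add] at hm
    have n1 : (0:ℤ) ≤ ((TM.nsumAbs cs : ℕ) : ℤ) := Int.natCast_nonneg _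
    have n2 : (0:ℤ) ≤ ((c.natAbs : ℕ) : ℤ) := Int.natCast_nonneg _
    have hc : |c| < h := by
      rw [Int.abs_eq_natAbs]; linarith
    have hcs : ((TM.nsumAbs cs : ℕ) : ℤ) < h := by linarith
    have hh : 0 < h := lt_of_le_of_lt (abs_nonneg _) hc
    have hE : evZ cs B = 0 := by
      by_contra hne
      have h1 : 1 ≤ |evZ cs B| := Int.one_le_abs hne
      have h2 : |c| = B * |evZ cs B| := by
        have : c = -(B * evZ cs B) := by linarith
        rw [this, abs_neg, abs_mul, abs_of_pos (show 0 < B by omega)]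
      nlinarith
    have hc0 : c = 0 := by rw [hE] at h0; linarith
    have := evZ_zero hB cs hcs hE
    rw [hc0, this]
    simp

theorem digit {K : ℕ} (hK : 0 < K) {c E : ℤ} {X : ℕ} (hc : |c| < 2 ^ (K - 1))
    (hX : (X : ℤ) = c + 2 ^ (K - 1) + 2 ^ K * E) :
    ((X % 2 ^ K : ℕ) : ℤ) = c + 2 ^ (K - 1) ∧ ((X / 2 ^ K : ℕ) : ℤ) = E := by
  have hB : (2:ℤ) ^ K = 2 * 2 ^ (K - 1) := by
    obtain ⟨k, rfl⟩ : ∃ k, K = k + 1 := ⟨K - 1, by omega⟩
    simp [pow_succ]; ring
  have hc' := abs_lt.1 hc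
  have h1 : 0 ≤ c + 2 ^ (K - 1) := by linarith
  have h2 : c + 2 ^ (K - 1) < 2 ^ K := by rw [hB]; linarith
  push_cast
  rw [hX]
  constructor
  · rw [Int.add_mul_emod_self_left, Int.emod_eq_of_lt h1 h2]
  · rw [Int.add_mul_ediv_left _ _ (by positivity), Int.ediv_eq_zero_of_lt h1 h2, zero_add]

theorem sumD_ge {K : ℕ} (hK : 0 < K) : ∀ (n : ℕ) (p : Poly) (X : ℕ),
    TM.nsumAbs p < 2 ^ (K - 1) → (X : ℤ) = evZ p (2 ^ K) + offs K n →
    TM.nsumAbs p ≤ sumD (2 ^ K) (2 ^ (K - 1)) n X
  | 0, p, X, hm, hX => by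
    rw [sumD_zero]
    have h0 : (X : ℤ) = evZ p (2 ^ K) := by rw [hX]; simp [offs]
    rcases Nat.eq_zero_or_pos X with hX0 | hX0
    · have hB : (2:ℤ) ^ K = 2 * 2 ^ (K - 1) := by
        obtain ⟨k, rfl⟩ : ∃ k, K = k + 1 := ⟨K - 1, by omega⟩
        simp [pow_succ]; ring
      have := evZ_zero hB p (by exact_mod_cast hm) (by rw [← h0, hX0]; rfl)
      omega
    · have h2 : 2 ^ (K - 1) ≤ 2 ^ K := Nat.pow_le_pow_right (by norm_num) (by omega)
      nlinarith
  | n + 1, [], X, _, _ => by simp [TM.nsumAbs]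
  | n + 1, c :: cs, X, hm, hX => by
    simp only [TM.nsumAbs] at hm ⊢
    have hc : |c| < 2 ^ (K - 1) := by
      rw [Int.abs_eq_natAbs]
      have : c.natAbs < 2 ^ (K - 1) := by omega
      exact_mod_cast this
    have hX' : (X : ℤ) = c + 2 ^ (K - 1) + 2 ^ K * (evZ cs (2 ^ K) + offs K n) := by
      rw [hX, offs_succ]
      simp only [evZ]
      push_cast
      ring
    obtain ⟨d1, d2⟩ := digit hK hc hX'
    have ih := sumD_ge hK n cs (X / 2 ^ K) (by omega) d2
    rw [sumD_succ]
    have h3 : c.natAbs ≤ (X % 2 ^ K - 2 ^ (K - 1)) + (2 ^ (K - 1) - X % 2 ^ K) := by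
      have d1' : ((X % 2 ^ K : ℕ) : ℤ) = c + ((2 ^ (K - 1) : ℕ) : ℤ) := by
        rw [d1]; push_cast; rfl
      generalize X % 2 ^ K = a at d1' ⊢
      generalize 2 ^ (K - 1) = b at d1' ⊢
      omega
    omega

/-- the test (constant term dominates); `n + 1` coefficients are read; `B = 2 ^ K`, `h = 2 ^ (K-1)`,
`o = offs K (n+1)` -/
def posK (B h o n : ℕ) (t : KT) : Bool :=
  KT.casesOn (motive := fun _ => Bool) t fun z m _ r =>
    and (Nat.blt m h)
      (Int.casesOn (motive := fun _ => Bool) (Int.add z (Int.ofNat o))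
        (fun X => fN (fun X => Nat.blt (Nat.add (Nat.add h r) (sumD B h n (Nat.div X B)))
          (Nat.mod X B)) X)
        (fun _ => false))

theorem posK_sound {K n : ℕ} (hK : 0 < K) {t : KT} {x v : ℝ} (hx : |x| ≤ 1)
    (ht : t.Mem K x v) (h : posK (2 ^ K) (2 ^ (K - 1)) (offs K (n + 1)) n t = true) : 0 < v := by
  obtain ⟨p, h1, h2, h3⟩ := ht
  obtain ⟨tz, tm, te, tr⟩ := t
  simp only at h1 h2 h3
  simp only [posK, Bool.and_eq_true] at h
  obtain ⟨ha, hb⟩ := h
  have ha' : tm < 2 ^ (K - 1) := by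
    rw [Nat.blt_eq] at ha
    exact ha
  have key : 0 < ev p x - tr := by
    cases hX : Int.add tz (Int.ofNat (offs K (n + 1))) with
    | negSucc _ => rw [hX] at hb; simp at hb
    | ofNat X =>
      rw [hX] at hb
      have hb' : 2 ^ (K - 1) + tr + sumD (2 ^ K) (2 ^ (K - 1)) n (X / 2 ^ K) < X % 2 ^ K := by
        have h0 := hb
        simp only [fN_eq, Nat.blt_eq] at h0
        exact h0
      have hX' : (X : ℤ) = evZ p (2 ^ K) + offs K (n + 1) := by
        rw [h1]
        exact hX.symm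
      rw [offs_succ] at hX'
      cases p with
      | nil =>
        have e2 : (X : ℤ) = 0 + 2 ^ (K - 1) + 2 ^ K * (offs K n : ℤ) := by
          rw [hX']; simp only [evZ]; push_cast; ring
        obtain ⟨d1, _⟩ := digit hK (c := 0) (by simp) e2
        exfalso
        rw [zero_add] at d1
        have d1' : X % 2 ^ K = 2 ^ (K - 1) := by exact_mod_cast d1
        omega
      | cons c cs =>
        simp only [TM.nsumAbs] at h2
        have hc : |c| < 2 ^ (K - 1) := by
          rw [Int.abs_eq_natAbs]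
          have : c.natAbs < 2 ^ (K - 1) := by omega
          exact_mod_cast this
        have e2 : (X : ℤ) = c + 2 ^ (K - 1) + 2 ^ K * (evZ cs (2 ^ K) + offs K n) := by
          rw [hX']; simp only [evZ]; push_cast; ring
        obtain ⟨d1, d2⟩ := digit hK hc e2
        have h4 := sumD_ge hK n cs (X / 2 ^ K) (by omega) d2
        have h5 : ((2 ^ (K - 1) : ℕ) : ℤ) + tr + TM.nsumAbs cs < c + ((2 ^ (K - 1) : ℕ) : ℤ) := by
          have h6 : ((2 ^ (K - 1) + tr + sumD (2 ^ K) (2 ^ (K - 1)) n (X / 2 ^ K) : ℕ) : ℤ)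
              < ((X % 2 ^ K : ℕ) : ℤ) := by exact_mod_cast hb'
          rw [d1] at h6
          have h7 : ((TM.nsumAbs cs : ℕ) : ℤ)
              ≤ ((sumD (2 ^ K) (2 ^ (K - 1)) n (X / 2 ^ K) : ℕ) : ℤ) := by
            exact_mod_cast h4
          push_cast at h6 h7 ⊢
          linarith
        have h8 : (tr : ℤ) + TM.nsumAbs cs < c := by linarith
        have h9 : (tr : ℝ) + TM.nsumAbs cs < c := by exact_mod_cast h8
        have h10 : |x * ev cs x| ≤ TM.nsumAbs cs := by
          rw [abs_mul]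
          calc |x| * |ev cs x| ≤ 1 * (TM.nsumAbs cs : ℝ) :=
                mul_le_mul hx (TM.abs_ev_le' cs hx) (abs_nonneg _) zero_le_one
            _ = _ := one_mul _
        have := (abs_le.1 h10).1
        simp only [ev_cons]
        linarith
  have h4 := (abs_le.1 h3).1
  have h5 : 0 < 2 ^ te * v := by linarith
  exact pos_of_mul_pos_right h5 (by positivity)

/-- exact sum of the absolute values of the coefficients; `o = offs K n` -/
def tight (B h o n : ℕ) (t : KT) : KT :=
  KT.casesOn (motive := fun _ => KT) t fun z m e r =>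
    Bool.casesOn (motive := fun _ => KT) (Nat.blt m h) ⟨z, m, e, r⟩
      (Int.casesOn (motive := fun _ => KT) (Int.add z (Int.ofNat o))
        (fun X => fN (fun m' => ⟨z, m', e, r⟩) (sumD B h n X))
        (fun _ => ⟨z, m, e, r⟩))

theorem tight_mem {K n : ℕ} (hK : 0 < K) {t : KT} {x v : ℝ} (ht : t.Mem K x v) :
    (tight (2 ^ K) (2 ^ (K - 1)) (offs K n) n t).Mem K x v := by
  obtain ⟨p, h1, h2, h3⟩ := ht
  obtain ⟨tz, tm, te, tr⟩ := t
  simp only at h1 h2 h3
  simp only [tight]
  cases ha : Nat.blt tm (2 ^ (K - 1)) with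
  | false => exact ⟨p, h1, h2, h3⟩
  | true =>
    have ha' : tm < 2 ^ (K - 1) := by
      rw [Nat.blt_eq] at ha
      exact ha
    cases hX : Int.add tz (Int.ofNat (offs K n)) with
    | negSucc _ => exact ⟨p, h1, h2, h3⟩
    | ofNat X =>
      simp only [fN_eq]
      refine ⟨p, h1, ?_, h3⟩
      refine sumD_ge hK n p X (by omega) ?_
      rw [h1]
      exact hX.symm

end KT

namespace Ex

/-- value of an expression on packed Taylor models -/
noncomputable def evK (v : ℕ → KT) (e : Ex) : KT :=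
  Ex.rec (motive := fun _ => KT)
    (fun n e => KT.mkS n n.natAbs e 0)
    (fun i => v i)
    (fun _ _ a b => a.add b)
    (fun _ _ a b => a.mul b)
    (fun _ a => a.neg) e

/-- all variables satisfy `ok` -/
def okv (ok : ℕ → Bool) : Ex → Bool
  | .cst _ _ => true
  | .var i => ok i
  | .add a b => okv ok a && okv ok b
  | .mul a b => okv ok a && okv ok b
  | .neg a => okv ok a

theorem evK_mem {K : ℕ} {v : ℕ → KT} {x : ℝ} (hx : |x| ≤ 1) {w : ℕ → ℝ} {ok : ℕ → Bool}
    (hv : ∀ i, ok i = true → (v i).Mem K x (w i)) {e : Ex} (he : okv ok e = true) :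
    (e.evK v).Mem K x (e.evR w) := by
  induction e with
  | cst n e =>
    show (KT.mkS n n.natAbs e 0).Mem K x _
    rw [KT.mkS_eq]
    refine ⟨[n], by simp [evZ], by simp [TM.nsumAbs], ?_⟩
    show |2 ^ e * ((n : ℝ) / 2 ^ e) - ev [n] x| ≤ ((0 : ℕ) : ℝ)
    have : (2:ℝ) ^ e ≠ 0 := by positivity
    have e1 : (2:ℝ) ^ e * ((n : ℝ) / 2 ^ e) - ev [n] x = 0 := by
      simp only [ev_cons, ev_nil, mul_zero, add_zero]
      field_simp
      ring
    rw [e1]; simp
  | var i => exact hv i he
  | add a b iha ihb =>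
    simp only [okv, Bool.and_eq_true] at he
    exact KT.add_mem (iha he.1) (ihb he.2)
  | mul a b iha ihb =>
    simp only [okv, Bool.and_eq_true] at he
    exact KT.mul_mem hx (iha he.1) (ihb he.2)
  | neg a iha => exact KT.neg_mem (iha he)

end Ex

/-! ### tables -/

/-- `i`-th entry of a table (`⟨0,0,0,0⟩` outside) -/
def nthK (l : List KT) (i : ℕ) : KT :=
  List.rec (motive := fun _ => ℕ → KT) (fun _ => ⟨0, 0, 0, 0⟩)
    (fun a _ ih i => Nat.casesOn (motive := fun _ => KT) i a (fun j => ih j)) l i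

@[simp] theorem nthK_zero (a : KT) (l : List KT) : nthK (a :: l) 0 = a := rfl
@[simp] theorem nthK_succ (a : KT) (l : List KT) (i : ℕ) : nthK (a :: l) (i + 1) = nthK l i := rfl

/-- force the fields of a Taylor model -/
def fK {α : Type} (f : KT → α) (t : KT) : α :=
  KT.casesOn (motive := fun _ => α) t fun n m e r => f ⟨n, m, e, r⟩

@[simp] theorem fK_eq {α : Type} (f : KT → α) (t : KT) : fK f t = f t := rfl

/-- append one element (the spine of the list is evaluated) -/
def snocF {α : Type} (t : KT) (f : List KT → α) (l : List KT) : α :=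
  List.rec (motive := fun _ => (List KT → α) → α) (fun g => g [t])
    (fun a _ ih g => ih (fun l' => g (a :: l'))) l f

@[simp] theorem snocF_eq {α : Type} (t : KT) (f : List KT → α) (l : List KT) :
    snocF t f l = f (l ++ [t]) := by
  induction l generalizing f with
  | nil => rfl
  | cons a l ih => exact ih fun l' => f (a :: l')

/-- level 0 table: the functions with indices `vs` -/
def tab0 {α : Type} (K P : ℕ) (err : ℕ → ℕ) (q : Pc) (f : List KT → α) (vs : List ℕ) : α :=
  List.rec (motive := fun _ => (List KT → α) → α) (fun g => g [])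
    (fun i _ ih g => fK (fun t => ih (fun l' => g (t :: l'))) (KT.ofTM K (q.envT P err i))) vs f

@[simp] theorem tab0_eq {α : Type} (K P : ℕ) (err : ℕ → ℕ) (q : Pc) (f : List KT → α)
    (vs : List ℕ) : tab0 K P err q f vs = f (vs.map fun i => KT.ofTM K (q.envT P err i)) := by
  induction vs generalizing f with
  | nil => rfl
  | cons a l ih => exact ih fun l' => f (KT.ofTM K (q.envT P err a) :: l')

/-- straight line program -/
noncomputable def runK (B h o n : ℕ) (g : List KT → Bool) (cs : List Ex) (L : List KT) : Bool :=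
  List.rec (motive := fun _ => List KT → Bool) g
    (fun e _ ih L => fK (fun t => snocF t ih L) (KT.tight B h o n (e.evK (nthK L)))) cs L

noncomputable def runL (B h o n : ℕ) : List Ex → List KT → List KT
  | [], L => L
  | e :: cs, L => runL B h o n cs (L ++ [KT.tight B h o n (e.evK (nthK L))])

theorem runK_eq (B h o n : ℕ) (g : List KT → Bool) (cs : List Ex) (L : List KT) :
    runK B h o n g cs L = g (runL B h o n cs L) := by
  induction cs generalizing L with
  | nil => rfl
  | cons e cs ih =>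
    show fK (fun t => snocF t (runK B h o n g cs) L) (KT.tight B h o n (e.evK (nthK L))) = _
    rw [fK_eq, snocF_eq, ih]
    rfl

/-- the table contains the values `w` -/
def Good (K : ℕ) (x : ℝ) (w : ℕ → ℝ) (L : List KT) : Prop :=
  ∀ i < L.length, (nthK L i).Mem K x (w i)

theorem nthK_append (L : List KT) (t : KT) (i : ℕ) (h : i ≤ L.length) :
    nthK (L ++ [t]) i = if i < L.length then nthK L i else t := by
  induction L generalizing i with
  | nil =>
    have : i = 0 := by simpa using h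
    subst this
    simp
  | cons a l ih =>
    cases i with
    | zero => simp
    | succ i =>
      simp only [List.cons_append, nthK_succ, List.length_cons] at h ⊢
      rw [ih i (by omega)]
      simp

theorem Good.snoc {K : ℕ} {x : ℝ} {w : ℕ → ℝ} {L : List KT} (hL : Good K x w L) {t : KT}
    (ht : t.Mem K x (w L.length)) : Good K x w (L ++ [t]) := by
  intro i hi
  rw [List.length_append, List.length_singleton] at hi
  rw [nthK_append L t i (by omega)]
  split_ifs with h
  · exact hL i h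
  · have : i = L.length := by omega
    rw [this]
    exact ht

def ltb (L i : ℕ) : Bool := Nat.blt i L

/-- every expression uses only what is already in the table -/
def okc : List Ex → ℕ → Bool
  | [], _ => true
  | e :: cs, L => e.okv (ltb L) && okc cs (L + 1)

theorem Good.run {K n : ℕ} (hK : 0 < K) {x : ℝ} (hx : |x| ≤ 1) {w : ℕ → ℝ} :
    ∀ (cs : List Ex) (L : List KT), okc cs L.length = true → Good K x w L →
    (∀ j (hj : j < cs.length), w (L.length + j) = (cs[j]).evR w) →
    Good K x w (runL (2 ^ K) (2 ^ (K - 1)) (KT.offs K n) n cs L) ∧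
      (runL (2 ^ K) (2 ^ (K - 1)) (KT.offs K n) n cs L).length = L.length + cs.length
  | [], L, _, hL, _ => ⟨hL, by simp [runL]⟩
  | e :: cs, L, hok, hL, hw => by
    simp only [okc, Bool.and_eq_true] at hok
    have h0 : w L.length = e.evR w := by
      have := hw 0 (by simp)
      simpa using this
    have h1 : (e.evK (nthK L)).Mem K x (e.evR w) := by
      refine Ex.evK_mem hx (ok := ltb L.length) ?_ hok.1
      intro i hi
      simp only [ltb, Nat.blt_eq] at hi
      exact hL i hi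
    have h2 := KT.tight_mem (n := n) hK h1
    rw [← h0] at h2
    have h3 := hL.snoc h2
    have h4 := Good.run (n := n) hK hx cs _ (by rw [List.length_append, List.length_singleton]; exact hok.2)
      h3 (by
        intro j hj
        have := hw (j + 1) (by simp; omega)
        rw [List.length_append, List.length_singleton]
        have e1 : L.length + (j + 1) = L.length + 1 + j := by omega
        rw [e1] at this
        rw [this]
        simp)
    refine ⟨h4.1, ?_⟩
    show (runL (2 ^ K) (2 ^ (K - 1)) (KT.offs K n) n cs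
      (L ++ [KT.tight (2 ^ K) (2 ^ (K - 1)) (KT.offs K n) n (e.evK (nthK L))])).length = _
    have := h4.2
    rw [List.length_append, List.length_singleton] at this
    rw [List.length_cons]
    omega

/-! ### the test -/

/-- does the piece meet `(a / 8, b / 8]`? -/
def Pc.meetsO (a b : ℤ) (q : Pc) : Bool :=
  decide (a * 2 ^ q.j < 8 * (q.c + 1)) && decide (8 * (q.c - 1) < b * 2 ^ q.j)

theorem Pc.meetsO_of {a b : ℤ} {q : Pc} {z : ℝ} (h1 : q.lo < z) (h2 : z ≤ q.hi)
    (ha : (a : ℝ) / 8 < z) (hb : z ≤ (b : ℝ) / 8) : q.meetsO a b = true := by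
  have hj : (0:ℝ) < 2 ^ q.j := by positivity
  unfold Pc.lo at h1
  unfold Pc.hi at h2
  rw [div_lt_iff₀ hj] at h1
  rw [le_div_iff₀ hj] at h2
  simp only [Pc.meetsO, Bool.and_eq_true, decide_eq_true_eq]
  constructor
  · have h3 : (a : ℝ) * 2 ^ q.j < 8 * ((q.c : ℝ) + 1) := by nlinarith
    exact_mod_cast h3
  · have h3 : 8 * ((q.c : ℝ) - 1) < (b : ℝ) * 2 ^ q.j := by nlinarith
    exact_mod_cast h3

/-- one piece -/
noncomputable def chkP (B h o o1 n K P : ℕ) (err : ℕ → ℕ) (vs : List ℕ) (cs es : List Ex) (q : Pc) :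
    Bool :=
  tab0 K P err q (runK B h o n (fun L => es.all fun e => KT.posK B h o1 n (e.evK (nthK L))) cs) vs

/-- on all pieces meeting `(a / 8, b / 8]`: table of the functions `vs`, then the straight line program
`cs`, then all the expressions `es` are positive -/
noncomputable def chkK (K n P : ℕ) (err : ℕ → ℕ) (vs : List ℕ) (cs es : List Ex) (a b : ℤ) (p : Pc)
    (ps : List Pc) : Bool :=
  Nat.blt 0 K && okc cs vs.length && (es.all fun e => e.okv (ltb (vs.length + cs.length))) &&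
  fN (fun B => fN (fun h => fN (fun o => fN (fun o1 =>
    (p :: ps).all fun q => !(q.meetsO a b) || chkP B h o o1 n K P err vs cs es q)
    (KT.offs K (n + 1))) (KT.offs K n)) (2 ^ (K - 1))) (2 ^ K)

theorem nthK_map (f : ℕ → KT) : ∀ (vs : List ℕ) (i : ℕ) (h : i < vs.length),
    nthK (vs.map f) i = f vs[i]
  | v :: vs, 0, _ => rfl
  | v :: vs, i + 1, h => by
    simp only [List.map_cons, nthK_succ, List.getElem_cons_succ]
    exact nthK_map f vs i (by simpa using h)

theorem pieceK_sound {K n P : ℕ} {err : ℕ → ℕ} {vs : List ℕ} {cs es : List Ex} {q : Pc}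
    (hK : 0 < K) (hcs : okc cs vs.length = true)
    (hes : ∀ e ∈ es, e.okv (ltb (vs.length + cs.length)) = true)
    (h : chkP (2 ^ K) (2 ^ (K - 1)) (KT.offs K n) (KT.offs K (n + 1)) n K P err vs cs es q = true)
    {z : ℝ} (h1 : q.lo ≤ z) (h2 : z ≤ q.hi) {w : ℕ → ℝ}
    (hw : ∀ j (hj : j < vs.length), (vs[j] = 0 → w j = z) ∧
      |w j - val (fun k => q.v0 P k) (fun k => q.v1 P k) (fun k => q.v2 P k) vs[j] z|
      ≤ (err vs[j] : ℝ) / 2 ^ P)
    (hc : ∀ j (hj : j < cs.length), w (vs.length + j) = (cs[j]).evR w) :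
    ∀ e ∈ es, 0 < e.evR w := by
  intro e he
  have hx := Pc.abs_loc_le h1 h2
  have g0 : Good K (q.loc z) w (vs.map fun i => KT.ofTM K (q.envT P err i)) := by
    intro i hi
    rw [List.length_map] at hi
    rw [nthK_map _ _ _ hi]
    exact KT.ofTM_mem (Pc.envT_mem (hw i hi).1 (hw i hi).2)
  have g1 := Good.run (n := n) hK hx cs _ (by rw [List.length_map]; exact hcs) g0
    (by rw [List.length_map]; exact hc)
  simp only [chkP, tab0_eq, runK_eq, List.all_eq_true] at h
  have h3 := h e he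
  refine KT.posK_sound hK hx (Ex.evK_mem hx (ok := ltb (vs.length + cs.length)) ?_ (hes e he)) h3
  intro i hi
  simp only [ltb, Nat.blt_eq] at hi
  refine g1.1 i ?_
  rw [g1.2, List.length_map]
  exact hi

theorem chkK_sound {K n P : ℕ} {err : ℕ → ℕ} {vs : List ℕ} {cs es : List Ex}
    {a b : ℤ} {p : Pc} {ps : List Pc} (hch : chain adj p ps = true)
    (h : chkK K n P err vs cs es a b p ps = true) {z : ℝ} (h1 : p.lo < z)
    (h2 : z ≤ hiL p ps) (ha : (a : ℝ) / 8 < z) (hb : z ≤ (b : ℝ) / 8) {w : ℕ → ℝ}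
    (hw : ∀ j (hj : j < vs.length), (vs[j] = 0 → w j = z) ∧
      |w j - cv P p ps z vs[j]| ≤ (err vs[j] : ℝ) / 2 ^ P)
    (hc : ∀ j (hj : j < cs.length), w (vs.length + j) = (cs[j]).evR w) :
    ∀ e ∈ es, 0 < e.evR w := by
  simp only [chkK, Bool.and_eq_true, Nat.blt_eq, fN_eq] at h
  obtain ⟨⟨⟨hK, hcs⟩, hes⟩, hall⟩ := h
  rw [List.all_eq_true] at hes hall
  -- induction over the pieces
  have main : ∀ (ps : List Pc) (p : Pc), chain adj p ps = true →
      (∀ q ∈ p :: ps, (!(q.meetsO a b) || chkP (2 ^ K) (2 ^ (K - 1)) (KT.offs K n)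
        (KT.offs K (n + 1)) n K P err vs cs es q) = true) →
      p.lo < z → z ≤ hiL p ps →
      (∀ j (hj : j < vs.length), (vs[j] = 0 → w j = z) ∧
        |w j - cv P p ps z vs[j]| ≤ (err vs[j] : ℝ) / 2 ^ P) → ∀ e ∈ es, 0 < e.evR w := by
    intro ps
    induction ps with
    | nil =>
      intro p _ hq h1 h2 hw
      have hz2 : z ≤ p.hi := h2
      have := hq p (by simp)
      rw [Pc.meetsO_of h1 hz2 ha hb] at this
      simp only [Bool.not_true, Bool.false_or] at this
      exact pieceK_sound hK hcs hes this h1.le hz2 hw hc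
    | cons q ps ih =>
      intro p hch hq h1 h2 hw
      by_cases hz : z ≤ p.hi
      · have := hq p (by simp)
        rw [Pc.meetsO_of h1 hz ha hb] at this
        simp only [Bool.not_true, Bool.false_or] at this
        refine pieceK_sound hK hcs hes this h1.le hz ?_ hc
        intro j hj
        refine ⟨(hw j hj).1, ?_⟩
        have := (hw j hj).2
        unfold cv at this
        rwa [val_sel P p (q :: ps) z hz] at this
      · simp only [chain, Bool.and_eq_true] at hch
        have hqlo : q.lo < z := by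
          rw [← adj_sound hch.1]
          exact not_le.1 hz
        refine ih q hch.2 (fun q' hq' => hq q' (by simp only [List.mem_cons] at hq' ⊢; tauto))
          hqlo h2 ?_
        have e2 : ∀ i, cv P p (q :: ps) z i = cv P q ps z i := by
          intro i
          have hs : ∀ g, sel g p (q :: ps) z = sel g q ps z := fun g => by simp [sel, hz]
          unfold cv val
          split
          · rfl
          · split <;> exact hs _
        intro j hj
        rw [← e2]
        exact hw j hj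
  exact main ps p hch hall h1 h2 hw

end Crest.Agent.R146.PP865
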