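import Crest.Agent.R146.RefX_355
import Crest.Agent.R146.YWRef_177
import Crest.Agent.R146.Stat9_307

/-!
Row 146 (helper355).  Qualitative facts of a stationary pair `SPair c W V I k lam` used to build
`PtRef_846.WS` from inequalities in `ξ`:

* `X_atBot, X_atTop` : limits of the inverse of `V`;
* `I_lin, k_lin` : `I (1+|x|)`, `k (1+|x|)` bounded;
* `W_left` : `W (1+|x|) ≤ M V` on `(-∞, a]`;  `U_right` : `U (1+|x|) ≤ M R` on `[a, ∞)`;
* `k1_ge` : `-M V ≤ k'`;
* `G0x` the algebraic dual function, `dG0 : G0' = k G0 + I² - 2 c V R²` (`lam = c`), growth bounds.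
-/

set_option autoImplicit false

open Set Filter Topology

namespace Crest.Agent.R146.PairQ_355

open SPair_307 RefX_355 YWRef_177 Stat8_307 Stat9_307 MaxP_371 MaxP2_371

variable {c : ℝ} {W V I k : ℝ → ℝ} {lam : ℝ}

/-! ### limits of the inverse -/

lemma X_atBot (h : SPair c W V I k lam) : Tendsto (X V) (𝓝[>] 0) atBot := by
  rw [tendsto_atBot]
  intro b
  have h1 : ∀ᶠ v in 𝓝[>] (0:ℝ), v < V b := by
    have : ∀ᶠ v in 𝓝 (0:ℝ), v < V b := gt_mem_nhds (h.V_pos b)
    exact this.filter_mono nhdsWithin_le_nhds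
  filter_upwards [h1, self_mem_nhdsWithin] with v hv hv0
  have hvm : v ∈ Ioo (0:ℝ) 1 := ⟨hv0, hv.trans (h.V_lt b)⟩
  rw [← h.V_strictMono.le_iff_le, V_X h hvm]
  exact hv.le

lemma X_atTop (h : SPair c W V I k lam) : Tendsto (X V) (𝓝[<] 1) atTop := by
  rw [tendsto_atTop]
  intro b
  have h1 : ∀ᶠ v in 𝓝[<] (1:ℝ), V b < v := by
    have : ∀ᶠ v in 𝓝 (1:ℝ), V b < v := lt_mem_nhds (h.V_lt b)
    exact this.filter_mono nhdsWithin_le_nhds
  filter_upwards [h1, self_mem_nhdsWithin] with v hv hv0
  have hvm : v ∈ Ioo (0:ℝ) 1 := ⟨(h.V_pos b).trans hv, hv0⟩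
  rw [← h.V_strictMono.le_iff_le, V_X h hvm]
  exact hv.le

/-! ### elementary bounds -/

lemma W_le_half (h : SPair c W V I k lam) {x : ℝ} (hx : x ≤ 0) : W x ≤ 1 / 2 :=
  (h.W_strictMono.monotone hx).trans (W0_le h)

lemma U_anti (h : SPair c W V I k lam) : Antitone fun x => W x - x := by
  apply antitone_of_deriv_nonpos
  · exact fun x => ((h.dW x).sub (hasDerivAt_id x)).differentiableAt
  · intro x
    have e : deriv (fun x => W x - x) x = V x - 1 := ((h.dW x).sub (hasDerivAt_id x)).deriv
    rw [e]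
    linarith [h.V_lt x]

lemma U_le_half (h : SPair c W V I k lam) {x : ℝ} (hx : 0 ≤ x) : W x - x ≤ 1 / 2 := by
  have h1 := U_anti h hx
  have h2 := W0_le h
  simp only at h1
  linarith

lemma W_le_abs (h : SPair c W V I k lam) (x : ℝ) : W x ≤ 1 + |x| := by
  rcases le_total x 0 with hx | hx
  · have := W_le_half h hx; have := abs_nonneg x; linarith
  · have := U_le_half h hx; rw [abs_of_nonneg hx]; linarith

lemma U_le_abs (h : SPair c W V I k lam) (x : ℝ) : W x - x ≤ 1 + |x| := by
  rcases le_total x 0 with hx | hx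
  · have := W_le_half h hx; rw [abs_of_nonpos hx]; linarith
  · have := U_le_half h hx; have := abs_nonneg x; linarith

lemma k_lin (h : SPair c W V I k lam) : ∃ M, 0 < M ∧ ∀ x, k x * (1 + |x|) ≤ M := by
  obtain ⟨C, hC⟩ := h.k_bdd
  obtain ⟨C1, hC1⟩ := h.k_right
  obtain ⟨C2, hC2⟩ := h.k_left
  refine ⟨|C| + |C1| + |C2| + 1, by positivity, fun x => ?_⟩
  have hk := h.k_pos x
  have a1 := le_abs_self C
  have a2 := le_abs_self C1
  have a3 := le_abs_self C2
  have b1 := abs_nonneg C
  have b2 := abs_nonneg C1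
  have b3 := abs_nonneg C2
  have h1 := hC x
  rcases lt_trichotomy x 0 with hx | hx | hx
  · have h2 := hC2 x hx
    rw [le_div_iff₀ (by linarith)] at h2
    rw [abs_of_neg hx]
    nlinarith
  · subst hx; simp; linarith
  · have h2 := hC1 x hx
    rw [le_div_iff₀ hx] at h2
    rw [abs_of_pos hx]
    nlinarith

/-- `(1+|x|)² e^{-b x²}` is Gaussian -/
lemma sq_exp {b : ℝ} (hb : 0 < b) (x : ℝ) :
    (1 + |x|) ^ 2 * Real.exp (-b * x ^ 2) ≤
      Real.exp (2 / b) * Real.exp (-(b / 2) * x ^ 2) := by
  have h1 : 1 + |x| ≤ Real.exp |x| := by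
    have := Real.add_one_le_exp |x|
    linarith
  have h2 : (1 + |x|) ^ 2 ≤ Real.exp |x| ^ 2 := pow_le_pow_left₀ (by positivity) h1 2
  have h3 : Real.exp |x| ^ 2 * Real.exp (-b * x ^ 2) ≤
      Real.exp (2 / b) * Real.exp (-(b / 2) * x ^ 2) := by
    rw [← Real.exp_nat_mul, ← Real.exp_add, ← Real.exp_add]
    apply Real.exp_le_exp.2
    push_cast
    have h4 : 2 * |x| ≤ b / 2 * x ^ 2 + 2 / b := by
      have h5 : 0 ≤ (b * |x| - 2) ^ 2 / (2 * b) := by positivity
      have h6 : (b * |x| - 2) ^ 2 / (2 * b) = b / 2 * x ^ 2 + 2 / b - 2 * |x| := by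
        rw [← sq_abs x]; field_simp; ring
      linarith
    linarith
  exact (mul_le_mul_of_nonneg_right h2 (Real.exp_pos _).le).trans h3

/-- `I (1+|x|)²` is Gaussian -/
lemma I_gauss (h : SPair c W V I k lam) : ∃ C b : ℝ, 0 < C ∧ 0 < b ∧
    ∀ x, I x * (1 + |x|) ^ 2 ≤ C * Real.exp (-b * x ^ 2) := by
  obtain ⟨C, b, hC, hb, h1⟩ := gauss h
  refine ⟨C * Real.exp (2 / b), b / 2, by positivity, by positivity, fun x => ?_⟩
  have h2 := (h1 x).1
  have h3 := sq_exp hb x
  calc I x * (1 + |x|) ^ 2 ≤ C * Real.exp (-b * x ^ 2) * (1 + |x|) ^ 2 :=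
        mul_le_mul_of_nonneg_right h2 (by positivity)
    _ = C * ((1 + |x|) ^ 2 * Real.exp (-b * x ^ 2)) := by ring
    _ ≤ C * (Real.exp (2 / b) * Real.exp (-(b / 2) * x ^ 2)) :=
        mul_le_mul_of_nonneg_left h3 hC.le
    _ = _ := by ring

lemma I_lin (h : SPair c W V I k lam) : ∃ M, 0 < M ∧ ∀ x, I x * (1 + |x|) ^ 2 ≤ M := by
  obtain ⟨C, b, hC, hb, h1⟩ := I_gauss h
  refine ⟨C, hC, fun x => (h1 x).trans ?_⟩
  have h2 : Real.exp (-b * x ^ 2) ≤ 1 := by
    apply Real.exp_le_one_iff.2
    nlinarith [sq_nonneg x]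
  nlinarith

/-- `A` for `x ≤ 0` -/
lemma A_le_left (h : SPair c W V I k lam) {x : ℝ} (hx : x ≤ 0) :
    Ad c W x ≤ (1 - c) / 2 * x + 1 / 2 := by
  have h1 := W_le_half h hx
  have h2 := h.c_pos
  have h3 := h.c_lt
  have h4 := h.W_pos x
  unfold Ad
  nlinarith

lemma A_ge_right (h : SPair c W V I k lam) (x : ℝ) : (1 + c) / 2 * x ≤ Ad c W x := by
  have h1 := h.U_pos x
  have h2 := h.c_pos
  unfold Ad
  nlinarith

/-- **left tail** : `W (1+|x|) ≤ M V` -/
lemma W_left (h : SPair c W V I k lam) (a : ℝ) :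
    ∃ M, 0 < M ∧ ∀ x ≤ a, W x * (1 + |x|) ≤ M * V x := by
  have hc := h.c_pos
  have hc1 := h.c_lt
  set x1 : ℝ := -(4 / (1 - c)) with hx1
  have h1c : 0 < 1 - c := by linarith
  have hx1' : 4 ≤ 4 / (1 - c) := by
    rw [le_div_iff₀ h1c]; linarith
  set M1 : ℝ := 4 / (1 - c) with hM1
  have hM10 : 0 < M1 := by positivity
  -- derivative
  have hd : ∀ x, HasDerivAt (fun x => M1 * V x - W x * (1 - x))
      (M1 * I x - (V x * (1 - x) + W x * (-1))) x := fun x =>
    ((h.dV x).const_mul M1).sub ((h.dW x).mul ((hasDerivAt_id x).const_sub 1))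
  have hmono : MonotoneOn (fun x => M1 * V x - W x * (1 - x)) (Iic x1) := by
    apply monotoneOn_of_deriv_nonneg (convex_Iic x1)
    · exact fun x _ => (hd x).continuousAt.continuousWithinAt
    · exact fun x _ => (hd x).differentiableAt.differentiableWithinAt
    · intro x hx
      rw [interior_Iic] at hx
      have hx' : x < x1 := hx
      rw [(hd x).deriv]
      have hI := h.eqI x
      have hA := A_le_left h (x := x) (by linarith)
      have hW := h.W_pos x
      have hV := h.V_pos x
      have h2 : 2 * (1 - x) ≤ M1 * (-2 * ((1 - c) / 2 * x + 1 / 2)) := by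
        have e : M1 * (-2 * ((1 - c) / 2 * x + 1 / 2)) = -(M1 * (1 - c)) * x - M1 := by ring
        have e2 : M1 * (1 - c) = 4 := by rw [hM1]; field_simp
        rw [e, e2]
        linarith
      have h3 : M1 * (-2 * ((1 - c) / 2 * x + 1 / 2)) * V x ≤ M1 * I x := by
        rw [hI]
        have h4 : (-2 * ((1 - c) / 2 * x + 1 / 2)) * V x ≤ (1 + c) * W x - 2 * Ad c W x * V x := by
          nlinarith [mul_pos (show 0 < 1 + c by linarith) hW]
        calc M1 * (-2 * ((1 - c) / 2 * x + 1 / 2)) * V x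
            = M1 * ((-2 * ((1 - c) / 2 * x + 1 / 2)) * V x) := by ring
          _ ≤ _ := mul_le_mul_of_nonneg_left h4 hM10.le
      have h5 : 2 * (1 - x) * V x ≤ M1 * (-2 * ((1 - c) / 2 * x + 1 / 2)) * V x :=
        mul_le_mul_of_nonneg_right h2 hV.le
      nlinarith [mul_pos hV (show 0 < 1 - x by linarith)]
  have hlim : Tendsto (fun x => M1 * V x - W x * (1 - x)) atBot (𝓝 0) := by
    have l1 := (V_tendsto_left h).const_mul M1
    have l2 : Tendsto (fun x => W x * (1 - x)) atBot (𝓝 0) := by
      obtain ⟨C, b, hC, hb, hI⟩ := I_gauss h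
      have h6 : Tendsto (fun x : ℝ => C * Real.exp (-b * x ^ 2)) atBot (𝓝 0) :=
        (tendsto_gauss (β := b) (C := C) hb (g := fun x => C * Real.exp (-b * x ^ 2))
          (fun x => by rw [abs_of_pos (by positivity)])).2
      refine tendsto_of_tendsto_of_tendsto_of_le_of_le' tendsto_const_nhds h6 ?_ ?_
      · filter_upwards [eventually_lt_atBot (0:ℝ)] with x hx
        have := h.W_pos x
        nlinarith
      · filter_upwards [eventually_lt_atBot x1] with x hx
        have hx0 : x < 0 := by linarith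
        have h7 := hI x
        have hW := h.W_pos x
        have hV := h.V_pos x
        have hIp := h.I_pos x
        have h8 : W x ≤ I x := by
          rw [h.eqI x]
          have hA := A_le_left h (x := x) hx0.le
          have hA2 : Ad c W x ≤ 0 := by
            have : (1 - c) / 2 * x ≤ (1 - c) / 2 * x1 := by
              apply mul_le_mul_of_nonneg_left hx.le (by linarith)
            have e : (1 - c) / 2 * x1 = -2 := by rw [hx1, hM1]; field_simp; norm_num
            linarith
          nlinarith [mul_nonneg (neg_nonneg.2 hA2) hV.le]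
        rw [abs_of_neg hx0] at h7
        nlinarith [mul_le_mul_of_nonneg_right h8 (show 0 ≤ 1 - x by linarith),
          mul_nonneg hIp.le (mul_nonneg (show 0 ≤ -x by linarith) (show 0 ≤ 1 - x by linarith))]
    have := l1.sub l2
    simpa using this
  have hleft : ∀ x ≤ x1, W x * (1 + |x|) ≤ M1 * V x := by
    intro x hx
    have h9 : (0:ℝ) ≤ M1 * V x - W x * (1 - x) := by
      refine le_of_tendsto' (b := M1 * V x - W x * (1 - x))
        (f := fun y => M1 * V (min x y) - W (min x y) * (1 - min x y)) (x := atBot) ?_ ?_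
      · refine Tendsto.congr' ?_ hlim
        filter_upwards [eventually_le_atBot x] with y hy
        rw [min_eq_right hy]
      · intro y
        exact hmono (show min x y ∈ Iic x1 from (min_le_left _ _).trans hx) hx (min_le_left _ _)
    rw [abs_of_neg (by linarith)]
    linarith
  -- compact part
  obtain ⟨B, hB⟩ := (isCompact_Icc (a := x1) (b := max x1 a)).exists_bound_of_continuousOn
    (f := fun x => W x * (1 + |x|) / V x) (by
      apply Continuous.continuousOn
      exact (h.cW.mul (continuous_const.add continuous_abs)).div h.cV fun x => (h.V_pos x).ne')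
  refine ⟨M1 + |B|, by positivity, fun x hx => ?_⟩
  have hV := h.V_pos x
  rcases le_total x x1 with h10 | h10
  · have := hleft x h10
    nlinarith [abs_nonneg B]
  · have h11 := hB x ⟨h10, hx.trans (le_max_right _ _)⟩
    rw [Real.norm_eq_abs] at h11
    have h12 := (le_abs_self _).trans h11
    rw [div_le_iff₀ hV] at h12
    nlinarith [le_abs_self B]

/-- **right tail** : `U (1+|x|) ≤ M R` -/
lemma U_right (h : SPair c W V I k lam) (a : ℝ) :
    ∃ M, 0 < M ∧ ∀ x ≥ a, (W x - x) * (1 + |x|) ≤ M * (1 - V x) := by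
  have hc := h.c_pos
  have hc1 := h.c_lt
  set M1 : ℝ := 2 with hM1
  have hd : ∀ x, HasDerivAt (fun x => M1 * (1 - V x) - (W x - x) * (1 + x))
      (M1 * (-(I x)) - ((V x - 1) * (1 + x) + (W x - x) * 1)) x := fun x =>
    (((h.dV x).const_sub 1).const_mul M1).sub
      (((h.dW x).sub (hasDerivAt_id x)).mul ((hasDerivAt_id x).const_add 1))
  have hanti : AntitoneOn (fun x => M1 * (1 - V x) - (W x - x) * (1 + x)) (Ici 1) := by
    apply antitoneOn_of_deriv_nonpos (convex_Ici 1)
    · exact fun x _ => (hd x).continuousAt.continuousWithinAt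
    · exact fun x _ => (hd x).differentiableAt.differentiableWithinAt
    · intro x hx
      rw [interior_Ici] at hx
      have hx' : 1 < x := hx
      rw [(hd x).deriv]
      have hI : I x = (1 - c) * (W x - x) + 2 * Ad c W x * (1 - V x) := by
        rw [h.eqI]; unfold Ad; ring
      have hA := A_ge_right h x
      have hU := h.U_pos x
      have hR := h.V_lt x
      have h2 : x * (1 - V x) ≤ I x := by
        rw [hI]
        have h3 : x ≤ 2 * Ad c W x := by nlinarith
        nlinarith [mul_le_mul_of_nonneg_right h3 (show 0 ≤ 1 - V x by linarith),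
          mul_nonneg (show 0 ≤ 1 - c by linarith) (show 0 ≤ W x - x by linarith)]
      rw [hM1]
      nlinarith [mul_nonneg (show 0 ≤ x - 1 by linarith) (show 0 ≤ 1 - V x by linarith)]
  have hlim : Tendsto (fun x => M1 * (1 - V x) - (W x - x) * (1 + x)) atTop (𝓝 0) := by
    have l1 := ((V_tendsto_right h).const_sub 1).const_mul M1
    have l2 : Tendsto (fun x => (W x - x) * (1 + x)) atTop (𝓝 0) := by
      have h6 : Tendsto (fun x : ℝ => Real.exp (2 / (1/2)) * Real.exp (-(1/4) * x ^ 2)) atTop (𝓝 0) :=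
        (tendsto_gauss (β := 1/4) (C := Real.exp (2 / (1/2))) (by norm_num)
          (g := fun x => Real.exp (2 / (1/2)) * Real.exp (-(1/4) * x ^ 2))
          (fun x => by rw [abs_of_pos (by positivity)])).1
      refine tendsto_of_tendsto_of_tendsto_of_le_of_le' tendsto_const_nhds h6 ?_ ?_
      · filter_upwards [eventually_gt_atTop (0:ℝ)] with x hx
        have := h.U_pos x
        nlinarith
      · filter_upwards [eventually_gt_atTop (0:ℝ)] with x hx
        have h7 := Stat8_307.U_le h hx.le
        have h8 := sq_exp (b := 1/2) (by norm_num) x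
        have h9 := h.U_pos x
        rw [abs_of_pos hx] at h8
        have e1 : -(1/2:ℝ) * x ^ 2 = -(x ^ 2 / 2) := by ring
        have e2 : -((1/2:ℝ) / 2) * x ^ 2 = -(1/4) * x ^ 2 := by ring
        rw [e1, e2] at h8
        have h10 := Real.exp_pos (-(x ^ 2 / 2))
        nlinarith [mul_le_mul_of_nonneg_right h7 (show 0 ≤ 1 + x by linarith),
          mul_nonneg h10.le (mul_nonneg hx.le (show 0 ≤ 1 + x by linarith))]
    have := l1.sub l2
    simpa using this
  have hright : ∀ x ≥ 1, (W x - x) * (1 + |x|) ≤ M1 * (1 - V x) := by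
    intro x hx
    have h9 : (0:ℝ) ≤ M1 * (1 - V x) - (W x - x) * (1 + x) := by
      refine le_of_tendsto' (b := M1 * (1 - V x) - (W x - x) * (1 + x))
        (f := fun y => M1 * (1 - V (max x y)) - (W (max x y) - max x y) * (1 + max x y))
        (x := atTop) ?_ ?_
      · refine Tendsto.congr' ?_ hlim
        filter_upwards [eventually_ge_atTop x] with y hy
        rw [max_eq_right hy]
      · intro y
        exact hanti (show x ∈ Ici (1:ℝ) from hx)
          (show max x y ∈ Ici (1:ℝ) from hx.trans (le_max_left _ _)) (le_max_left _ _)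
    rw [abs_of_pos (by linarith)]
    linarith
  obtain ⟨B, hB⟩ := (isCompact_Icc (a := min 1 a) (b := 1)).exists_bound_of_continuousOn
    (f := fun x => (W x - x) * (1 + |x|) / (1 - V x)) (by
      apply Continuous.continuousOn
      exact ((h.cW.sub continuous_id).mul (continuous_const.add continuous_abs)).div
        (continuous_const.sub h.cV) fun x => by linarith [h.V_lt x])
  refine ⟨M1 + |B|, by positivity, fun x hx => ?_⟩
  have hV := h.V_lt x
  rcases le_total 1 x with h10 | h10
  · have := hright x h10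
    nlinarith [abs_nonneg B]
  · have h11 := hB x ⟨(min_le_right _ _).trans hx, h10⟩
    rw [Real.norm_eq_abs] at h11
    have h12 := (le_abs_self _).trans h11
    rw [div_le_iff₀ (by linarith)] at h12
    nlinarith [le_abs_self B]

/-! ### `k'` is bounded below by `-M V` -/

lemma ck1 (h : SPair c W V I k lam) : Continuous (k1 c W V k lam) := by
  unfold k1
  have hA : Continuous (Ad c W) := Stat8_307.cA h
  have hA1 : Continuous (Ad1 c V) := by
    unfold Ad1
    exact continuous_const.sub (continuous_const.mul (continuous_const.sub h.cV))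
  exact ((((h.ck.pow 2).add ((continuous_const.mul hA).mul h.ck)).sub
    (continuous_const.mul hA1)).add continuous_const)

/-- far left, `-2cV ≤ k'` -/
lemma k1_ge_left (h : SPair c W V I k lam) {x1 : ℝ}
    (hx1 : ∀ x ≤ x1, k x + Ad c W x ≤ 0) : ∀ x ≤ x1, -(2 * c * V x) ≤ k1 c W V k lam x := by
  have hc := h.c_pos
  have hc1 := h.c_lt
  intro x0 hx0
  by_contra hcon
  push Not at hcon
  set f : ℝ → ℝ := fun x => k1 c W V k lam x + 2 * c * V x with hf
  have hf0 : f x0 < 0 := by rw [hf]; simp only; linarith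
  have hcont : Continuous fun x => k x + Ad c W x := h.ck.add (Stat8_307.cA h)
  set P : ℝ → ℝ := fun x => ∫ t in x0..x, (k t + Ad c W t) with hP
  have hPd : ∀ x, HasDerivAt P (k x + Ad c W x) x := fun x =>
    (hcont.integral_hasStrictDerivAt x0 x).hasDerivAt
  have hP0 : P x0 = 0 := by rw [hP]; simp
  have hfd : ∀ x, HasDerivAt f
      (2 * (k x + Ad c W x) * k1 c W V k lam x + 2 * Ad1 c V x * k x) x := by
    intro x
    have h1 : HasDerivAt (k1 c W V k lam) _ x := h.dk1 x
    have h2 := h1.add ((h.dV x).const_mul (2 * c))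
    refine h2.congr_deriv ?_
    unfold k1; ring
  have hgd : ∀ x, HasDerivAt (fun x => f x * Real.exp (-2 * P x))
      ((2 * (k x + Ad c W x) * k1 c W V k lam x + 2 * Ad1 c V x * k x) * Real.exp (-2 * P x)
        + f x * (Real.exp (-2 * P x) * (-2 * (k x + Ad c W x)))) x := fun x =>
    (hfd x).mul (((hPd x).const_mul (-2)).exp)
  have hgm : MonotoneOn (fun x => f x * Real.exp (-2 * P x)) (Iic x0) := by
    apply monotoneOn_of_deriv_nonneg (convex_Iic x0)
    · exact fun x _ => (hgd x).continuousAt.continuousWithinAt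
    · exact fun x _ => (hgd x).differentiableAt.differentiableWithinAt
    · intro x hx
      rw [interior_Iic] at hx
      have hx' : x < x0 := hx
      rw [(hgd x).deriv]
      have hE := Real.exp_pos (-2 * P x)
      have hk := h.k_pos x
      have hV := h.V_pos x
      have hA := hx1 x (by linarith)
      have hA1 : 0 ≤ Ad1 c V x := by unfold Ad1; nlinarith
      have e : (2 * (k x + Ad c W x) * k1 c W V k lam x + 2 * Ad1 c V x * k x) * Real.exp (-2 * P x)
        + f x * (Real.exp (-2 * P x) * (-2 * (k x + Ad c W x)))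
        = (2 * Ad1 c V x * k x + 4 * c * V x * (-(k x + Ad c W x))) * Real.exp (-2 * P x) := by
        rw [hf]; ring
      rw [e]
      have h3 : 0 ≤ 4 * c * V x * (-(k x + Ad c W x)) :=
        mul_nonneg (by positivity) (by linarith)
      have h4 : 0 ≤ 2 * Ad1 c V x * k x := by positivity
      exact mul_nonneg (by linarith) hE.le
  have hPm : AntitoneOn P (Iic x0) := by
    apply antitoneOn_of_deriv_nonpos (convex_Iic x0)
    · exact fun x _ => (hPd x).continuousAt.continuousWithinAt
    · exact fun x _ => (hPd x).differentiableAt.differentiableWithinAt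
    · intro x hx
      rw [interior_Iic] at hx
      rw [(hPd x).deriv]
      exact hx1 x (by have : x < x0 := hx; linarith)
  have hfx : ∀ x ≤ x0, f x ≤ f x0 := by
    intro x hx
    have h5 := hgm (show x ∈ Iic x0 from hx) (mem_Iic.2 (le_refl x0)) hx
    simp only [hP0, mul_zero, Real.exp_zero, mul_one] at h5
    have h6 : 0 ≤ P x := by
      have := hPm (show x ∈ Iic x0 from hx) (mem_Iic.2 (le_refl x0)) hx
      rw [hP0] at this; exact this
    have h7 : Real.exp (-2 * P x) ≤ 1 := Real.exp_le_one_iff.2 (by linarith)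
    have h8 := Real.exp_pos (-2 * P x)
    by_contra h9
    push Not at h9
    rcases le_total 0 (f x) with h10 | h10
    · nlinarith
    · nlinarith
  obtain ⟨C, hC⟩ := h.k_bdd
  set m : ℝ := -f x0 with hm
  have hm0 : 0 < m := by linarith
  have hkd : ∀ x, HasDerivAt (fun x => k x + m * x) (k1 c W V k lam x + m * 1) x := fun x =>
    (h.dk x).add ((hasDerivAt_id x).const_mul m)
  have hkm : AntitoneOn (fun x => k x + m * x) (Iic x0) := by
    apply antitoneOn_of_deriv_nonpos (convex_Iic x0)
    · exact fun x _ => (hkd x).continuousAt.continuousWithinAt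
    · exact fun x _ => (hkd x).differentiableAt.differentiableWithinAt
    · intro x hx
      rw [interior_Iic] at hx
      rw [(hkd x).deriv]
      have h11 := hfx x (by have : x < x0 := hx; linarith)
      have h12 := h.V_pos x
      have h13 : 0 < 2 * c * V x := by positivity
      rw [hf] at h11
      simp only at h11
      linarith
  set x2 : ℝ := x0 - (|C| + 1) / m with hx2
  have h14 : x2 ≤ x0 := by
    have : 0 ≤ (|C| + 1) / m := by positivity
    linarith
  have h15 := hkm (show x2 ∈ Iic x0 from h14) (mem_Iic.2 (le_refl x0)) h14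
  simp only at h15
  have h16 := hC x2
  have h17 := h.k_pos x0
  have h18 : m * x2 = m * x0 - (|C| + 1) := by rw [hx2]; field_simp
  have := le_abs_self C
  linarith

/-- **`-M V ≤ k'`** -/
lemma k1_ge (h : SPair c W V I k lam) : ∃ M, 0 < M ∧ ∀ x, -(M * V x) ≤ k1 c W V k lam x := by
  have hc := h.c_pos
  have hc1 := h.c_lt
  obtain ⟨C, hC⟩ := h.k_bdd
  have h1c : 0 < 1 - c := by linarith
  set x1 : ℝ := -(2 * (|C| + 1) / (1 - c)) with hx1
  have hx10 : x1 ≤ 0 := by
    have : 0 ≤ 2 * (|C| + 1) / (1 - c) := by positivity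
    linarith
  have hleft := k1_ge_left h (x1 := x1) (by
    intro x hx
    have h1 := A_le_left h (x := x) (by linarith)
    have h2 := hC x
    have h3 : (1 - c) / 2 * x ≤ (1 - c) / 2 * x1 := mul_le_mul_of_nonneg_left hx (by linarith)
    have h4 : (1 - c) / 2 * x1 = -(|C| + 1) := by rw [hx1]; field_simp
    have := le_abs_self C
    linarith)
  set K : ℝ := 2 * ((1 - c) / 2 * |x1| * (|C|)) + 2 with hK
  have hK0 : 0 < K := by positivity
  have hV1 := h.V_pos x1
  refine ⟨2 * c + K / V x1, by positivity, fun x => ?_⟩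
  have hV := h.V_pos x
  rcases le_total x x1 with hx | hx
  · have h5 := hleft x hx
    have h6 : 0 ≤ K / V x1 * V x := by positivity
    nlinarith
  · have hk := h.k_pos x
    have hkC := (hC x).trans (le_abs_self C)
    have hVm : V x1 ≤ V x := h.V_strictMono.monotone hx
    have h7 : K ≤ K / V x1 * V x := by
      rw [div_mul_eq_mul_div, le_div_iff₀ hV1]
      exact mul_le_mul_of_nonneg_left hVm hK0.le
    have hA : -((1 - c) / 2 * |x1|) ≤ Ad c W x := by
      have h8 := h.W_pos x
      have h9 : Ad c W x = (1 - c) / 2 * x + c * W x := by unfold Ad; ring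
      rw [h9]
      have h10 : -|x1| ≤ x := (neg_abs_le x1).trans hx
      nlinarith [mul_pos hc h8, mul_le_mul_of_nonneg_left h10 (show 0 ≤ (1 - c) / 2 by linarith)]
    have h11 : -((1 - c) / 2 * |x1| * |C|) ≤ Ad c W x * k x := by
      have h12 : -((1 - c) / 2 * |x1|) * k x ≤ Ad c W x * k x := mul_le_mul_of_nonneg_right hA hk.le
      have h13 : (1 - c) / 2 * |x1| * k x ≤ (1 - c) / 2 * |x1| * |C| :=
        mul_le_mul_of_nonneg_left hkC (by positivity)
      linarith
    have h14 : Ad1 c V x ≤ 1 := by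
      have := h.V_lt x
      unfold Ad1; nlinarith
    have h15 : -K ≤ k1 c W V k lam x := by
      unfold k1
      have := h.lam_gt
      rw [hK]
      nlinarith [sq_nonneg (k x)]
    have h16 : 0 ≤ 2 * c * V x := by positivity
    nlinarith

/-! ### the algebraic dual function (closed pair) -/

/-- `G0 = -(V R k + I R - (1-c) U V)/2` -/
noncomputable def G0x (c : ℝ) (W V I k : ℝ → ℝ) (x : ℝ) : ℝ :=
  -(V x * (1 - V x) * k x + I x * (1 - V x) - (1 - c) * (W x - x) * V x) / 2

/-- `G0' = k G0 + I² - 2 c V R²` for the closed pair -/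
lemma dG0 (h : SPair c W V I k c) (x : ℝ) : HasDerivAt (G0x c W V I k)
    (k x * G0x c W V I k x + I x ^ 2 - 2 * c * (V x * (1 - V x) ^ 2)) x := by
  have hV := h.dV x
  have hR := hV.const_sub 1
  have hU := (h.dW x).sub (hasDerivAt_id x)
  have h1 := ((hV.mul hR).mul (h.dk x)).add ((h.dI x).mul hR)
  have h2 := (hU.const_mul (1 - c)).mul hV
  have h3 := ((h1.sub h2).neg).div_const 2
  refine h3.congr_deriv ?_
  simp only [Pi.mul_apply, Pi.sub_apply, id_eq]
  unfold G0x Ad1
  have hI := h.eqI x
  have e : Ad c W x = (1 + c) / 2 * x + c * (W x - x) := rfl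
  rw [e] at hI ⊢
  linear_combination (1 / 2 * (V x * k x - I x)) * hI

/-- other form -/
lemma G0x_left (h : SPair c W V I k lam) (x : ℝ) : G0x c W V I k x =
    -(V x * (1 - V x) * k x + (1 + c) * W x * (1 - V x) - I x * V x) / 2 := by
  have hU' : I x = (1 + c) * W x * (1 - V x) + (1 - c) * (W x - x) * V x := by
    rw [h.eqI]; unfold Ad; ring
  unfold G0x
  linear_combination (-1 / 2) * hU'

lemma G0_left (h : SPair c W V I k lam) (a : ℝ) :
    ∃ M, 0 < M ∧ ∀ x ≤ a, |G0x c W V I k x| * (1 + |x|) ≤ M * V x := by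
  have hc := h.c_pos
  have hc1 := h.c_lt
  obtain ⟨M1, hM1, h1⟩ := W_left h a
  obtain ⟨M2, hM2, h2⟩ := k_lin h
  obtain ⟨M3, hM3, h3⟩ := I_lin h
  refine ⟨2 * M1 + M2 + M3, by positivity, fun x hx => ?_⟩
  have hV := h.V_pos x
  have hV1 := h.V_lt x
  have hI := h.I_pos x
  have hk := h.k_pos x
  have hW := h.W_pos x
  have hx0 := abs_nonneg x
  have a1 := h1 x hx
  have a2 := h2 x
  have a3 := h3 x
  rw [G0x_left h]
  have hb : |-(V x * (1 - V x) * k x + (1 + c) * W x * (1 - V x) - I x * V x) / 2| ≤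
      (V x * k x + 2 * W x + I x * V x) := by
    rw [abs_le]
    have e1 : 0 ≤ V x * (1 - V x) * k x := by
      have : 0 ≤ 1 - V x := by linarith
      positivity
    have e2 : V x * (1 - V x) * k x ≤ V x * k x := by nlinarith [mul_pos hV hk]
    have e3 : 0 ≤ (1 + c) * W x * (1 - V x) := by
      have : 0 ≤ 1 - V x := by linarith
      positivity
    have e4 : (1 + c) * W x * (1 - V x) ≤ 2 * W x := by
      have e6 : (1 + c) * W x ≤ 2 * W x := by nlinarith
      nlinarith [mul_pos (show 0 < 1 + c by linarith) hW]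
    have e5 : 0 < I x * V x := by positivity
    constructor <;> nlinarith
  have b3 : I x * (1 + |x|) ≤ M3 := by
    refine le_trans ?_ a3
    have : (1 + |x|) ≤ (1 + |x|) ^ 2 := by nlinarith
    exact mul_le_mul_of_nonneg_left this hI.le
  calc _ ≤ (V x * k x + 2 * W x + I x * V x) * (1 + |x|) :=
        mul_le_mul_of_nonneg_right hb (by positivity)
    _ = V x * (k x * (1 + |x|)) + 2 * (W x * (1 + |x|)) + V x * (I x * (1 + |x|)) := by ring
    _ ≤ V x * M2 + 2 * (M1 * V x) + V x * M3 := by
        have := mul_le_mul_of_nonneg_left a2 hV.le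
        have := mul_le_mul_of_nonneg_left b3 hV.le
        linarith
    _ = _ := by ring

lemma G0_right (h : SPair c W V I k lam) (a : ℝ) :
    ∃ M, 0 < M ∧ ∀ x ≥ a, |G0x c W V I k x| * (1 + |x|) ≤ M * (1 - V x) := by
  have hc := h.c_pos
  have hc1 := h.c_lt
  obtain ⟨M1, hM1, h1⟩ := U_right h a
  obtain ⟨M2, hM2, h2⟩ := k_lin h
  obtain ⟨M3, hM3, h3⟩ := I_lin h
  refine ⟨M1 + M2 + M3, by positivity, fun x hx => ?_⟩
  have hV := h.V_pos x
  have hV1 := h.V_lt x
  have hI := h.I_pos x
  have hk := h.k_pos x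
  have hU := h.U_pos x
  have hx0 := abs_nonneg x
  have a1 := h1 x hx
  have a2 := h2 x
  have a3 := h3 x
  have hR : 0 < 1 - V x := by linarith
  have hU' : 0 < W x - x := by linarith
  have hb : |G0x c W V I k x| ≤ (1 - V x) * k x + I x * (1 - V x) + (W x - x) := by
    unfold G0x
    rw [abs_le]
    have e1 : 0 ≤ V x * (1 - V x) * k x := by positivity
    have e2 : V x * (1 - V x) * k x ≤ (1 - V x) * k x := by nlinarith [mul_pos hR hk]
    have e3 : 0 ≤ (1 - c) * (W x - x) * V x := by
      have : 0 ≤ 1 - c := by linarith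
      positivity
    have e4 : (1 - c) * (W x - x) * V x ≤ W x - x := by
      have : (1 - c) * (W x - x) ≤ W x - x := by nlinarith
      nlinarith [mul_nonneg (show 0 ≤ 1 - c by linarith) hU'.le]
    have e5 : 0 < I x * (1 - V x) := by positivity
    constructor <;> nlinarith
  have b3 : I x * (1 + |x|) ≤ M3 := by
    refine le_trans ?_ a3
    have : (1 + |x|) ≤ (1 + |x|) ^ 2 := by nlinarith
    exact mul_le_mul_of_nonneg_left this hI.le
  calc _ ≤ ((1 - V x) * k x + I x * (1 - V x) + (W x - x)) * (1 + |x|) :=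
        mul_le_mul_of_nonneg_right hb (by positivity)
    _ = (1 - V x) * (k x * (1 + |x|)) + (1 - V x) * (I x * (1 + |x|)) + (W x - x) * (1 + |x|) := by
        ring
    _ ≤ (1 - V x) * M2 + (1 - V x) * M3 + M1 * (1 - V x) := by
        have := mul_le_mul_of_nonneg_left a2 hR.le
        have := mul_le_mul_of_nonneg_left b3 hR.le
        linarith
    _ = _ := by ring

lemma G0_bdd (h : SPair c W V I k lam) : ∃ M, 0 < M ∧ ∀ x, |G0x c W V I k x| ≤ M := by
  obtain ⟨M1, hM1, h1⟩ := G0_left h 0
  obtain ⟨M2, hM2, h2⟩ := G0_right h 0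
  refine ⟨M1 + M2, by positivity, fun x => ?_⟩
  have hV := h.V_pos x
  have hV1 := h.V_lt x
  have hG := abs_nonneg (G0x c W V I k x)
  have hx := abs_nonneg x
  rcases le_total x 0 with hx0 | hx0
  · have := h1 x hx0
    nlinarith [mul_nonneg hG hx]
  · have := h2 x hx0
    nlinarith [mul_nonneg hG hx]

end Crest.Agent.R146.PairQ_355
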