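import Crest.Agent.R146.Law_534
import Crest.Agent.R146.PLaw_791
import Crest.Agent.R146.StepAsm_791
import Crest.Agent.R146.Back_847

/-!
Row 146, package PT-STEP (helper791): `plaw : PLAW` from `Law_534.law`.
-/

set_option autoImplicit false

namespace Crest.Agent.R146.PlawThm_791

open Crest.Agent.R146.StepDef_791 Crest.Agent.R146.StepAsm_791 Crest.Agent.R146.YB_534

theorem plaw : PLAW := by
  refine ⟨fun A => Yp A 1, fun A => Yxp A 1, fun A => Yxxp A 1, fun A => ?_⟩
  have hB := Back_847.back A
  have hL := Law_534.law A hB 1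
  exact ⟨hL, PLaw_791.first_cell hB hL, fun hm => PLaw_791.yst hB hL hm⟩

end Crest.Agent.R146.PlawThm_791
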