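import Crest.Agent.R146.PressC_663
import Crest.Agent.R143.ES_831
import Crest.Agent.R146.RepairLaw_840
import Crest.Agent.R164.CavG1

/-!
# R146, helper663, node SP: change of potential by singling out a row
-/

set_option autoImplicit false

open MeasureTheory ProbabilityTheory Filter Topology
open scoped ENNReal
open Crest.ProbabilityR.Perceptron

namespace Crest.Agent.R146.Press_663

open Crest.Agent.R146.PressC_663

/-- resampling one coordinate preserves a finite product law -/
theorem mp_update_pi {ι : Type} [Fintype ι] [DecidableEq ι] {X : Type} [MeasurableSpace X]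
    (G : Measure X) [IsProbabilityMeasure G] (i : ι) :
    MeasurePreserving (fun p : (ι → X) × X => Function.update p.1 i p.2)
      ((Measure.pi fun _ : ι => G).prod G) (Measure.pi fun _ : ι => G) := by
  have h := R143.ESx831.mp_update (I := ι) (X := fun _ => X) (fun _ => G) i
  rwa [Measure.infinitePi_eq_pi] at h

variable {Y : Type*} [MeasurableSpace Y]

section onerow

variable {μ : Measure Y} {N M : ℕ} {y : Y → Fin N → ℝ} {ψ ψ' : Fin M → ℝ → ℝ} {K : ℝ}

theorem abs_exp_sub_exp_le {a b K : ℝ} (ha : |a| ≤ K) (hb : |b| ≤ K) :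
    |Real.exp a - Real.exp b| ≤ Real.exp K * |a - b| := by
  wlog hab : b ≤ a generalizing a b
  · rw [abs_sub_comm, abs_sub_comm a b]
    exact this hb ha (le_of_not_ge hab)
  rw [abs_of_nonneg (by linarith [Real.exp_le_exp.2 hab]), abs_of_nonneg (by linarith)]
  have h1 : Real.exp a * (1 - (a - b)) ≤ Real.exp b := by
    have h2 : 1 - (a - b) ≤ Real.exp (-(a - b)) := by
      have := Real.add_one_le_exp (-(a - b)); linarith
    calc Real.exp a * (1 - (a - b)) ≤ Real.exp a * Real.exp (-(a - b)) :=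
          mul_le_mul_of_nonneg_left h2 (Real.exp_pos _).le
      _ = Real.exp b := by rw [← Real.exp_add]; congr 1; ring
  have h3 : Real.exp a ≤ Real.exp K := Real.exp_le_exp.2 ((le_abs_self a).trans ha)
  have h4 : Real.exp a * (a - b) ≤ Real.exp K * (a - b) :=
    mul_le_mul_of_nonneg_right h3 (by linarith)
  nlinarith

theorem abs_log_sub_log_le {a b c : ℝ} (hc : 0 < c) (ha : c ≤ a) (hb : c ≤ b) :
    |Real.log a - Real.log b| ≤ |a - b| / c := by
  wlog hab : b ≤ a generalizing a b
  · rw [abs_sub_comm, abs_sub_comm a b]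
    exact this hb ha (le_of_not_ge hab)
  have hb0 : 0 < b := hc.trans_le hb
  have ha0 : 0 < a := hc.trans_le ha
  rw [abs_of_nonneg (by linarith [Real.log_le_log hb0 hab]), abs_of_nonneg (by linarith)]
  rw [← Real.log_div ha0.ne' hb0.ne']
  refine (Real.log_le_sub_one_of_pos (div_pos ha0 hb0)).trans ?_
  have h1 : a / b - 1 = (a - b) / b := by field_simp
  rw [h1]
  exact div_le_div_of_nonneg_left (by linarith) hc hb

/-- pointwise bound, one row changed: `W` is the weight of the other rows -/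
theorem abs_logZ_sub_le [IsProbabilityMeasure μ] (hy : Measurable y)
    (hψm : ∀ a, Measurable (ψ a)) (hψ : ∀ a x, |ψ a x| ≤ K)
    (hψm' : ∀ a, Measurable (ψ' a)) (hψ' : ∀ a x, |ψ' a x| ≤ K) (a₀ : Fin M)
    (hag : ∀ a, a ≠ a₀ → ψ a = ψ' a) (g : Fin M × Fin N → ℝ) :
    |logZ μ y ψ g - logZ μ y ψ' g| ≤
      Real.exp (2 * K) * ((∫ u, Real.exp (∑ a ∈ Finset.univ.erase a₀, ψ a (∑ i, g (a, i) * y u i)) *
        |ψ a₀ (∑ i, g (a₀, i) * y u i) - ψ' a₀ (∑ i, g (a₀, i) * y u i)| ∂μ) /
        ∫ u, Real.exp (∑ a ∈ Finset.univ.erase a₀, ψ a (∑ i, g (a, i) * y u i)) ∂μ) := by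
  set W : Y → ℝ := fun u => Real.exp (∑ a ∈ Finset.univ.erase a₀, ψ a (∑ i, g (a, i) * y u i))
    with hW
  set w1 : Y → ℝ := fun u => ψ a₀ (∑ i, g (a₀, i) * y u i) with hw1
  set w2 : Y → ℝ := fun u => ψ' a₀ (∑ i, g (a₀, i) * y u i) with hw2
  have hlm : ∀ a, Measurable fun u => ∑ i, g (a, i) * y u i := by
    intro a
    apply Finset.measurable_sum
    intro i _
    exact measurable_const.mul ((measurable_pi_apply i).comp hy)
  have hWm : Measurable W := by
    apply Real.measurable_exp.comp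
    apply Finset.measurable_sum
    intro a _
    exact (hψm a).comp (hlm a)
  have hw1m : Measurable w1 := (hψm a₀).comp (hlm a₀)
  have hw2m : Measurable w2 := (hψm' a₀).comp (hlm a₀)
  have hWpos : ∀ u, 0 < W u := fun u => Real.exp_pos _
  have hWle : ∀ u, W u ≤ Real.exp (M * K) := by
    intro u
    apply Real.exp_le_exp.2
    have hK0 : 0 ≤ K := (abs_nonneg _).trans (hψ a₀ 0)
    calc ∑ a ∈ Finset.univ.erase a₀, ψ a (∑ i, g (a, i) * y u i)
        ≤ ∑ a ∈ Finset.univ.erase a₀, K := Finset.sum_le_sum fun a _ =>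
          (le_abs_self _).trans (hψ a _)
      _ ≤ ∑ a : Fin M, K := Finset.sum_le_sum_of_subset_of_nonneg (Finset.erase_subset _ _)
          (fun _ _ _ => hK0)
      _ = M * K := by simp
  have hint : ∀ {f : Y → ℝ} (C : ℝ), Measurable f → (∀ u, |f u| ≤ C) →
      Integrable (fun u => W u * f u) μ := by
    intro f C hf hC
    refine Integrable.of_bound (C := Real.exp (M * K) * C) (hWm.mul hf).aestronglyMeasurable
      (Eventually.of_forall fun u => ?_)
    rw [Real.norm_eq_abs, abs_mul, abs_of_pos (hWpos u)]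
    exact mul_le_mul (hWle u) (hC u) (abs_nonneg _) (Real.exp_pos _).le
  have hWi : Integrable W μ := by
    have := hint (f := fun _ => 1) 1 measurable_const (fun _ => by simp)
    simpa using this
  have hZ0 : 0 < ∫ u, W u ∂μ := integral_exp_pos hWi
  have hb1 : ∀ u, |Real.exp (w1 u)| ≤ Real.exp K := fun u => by
    rw [abs_of_pos (Real.exp_pos _)]
    exact Real.exp_le_exp.2 ((le_abs_self _).trans (hψ a₀ _))
  have hb2 : ∀ u, |Real.exp (w2 u)| ≤ Real.exp K := fun u => by
    rw [abs_of_pos (Real.exp_pos _)]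
    exact Real.exp_le_exp.2 ((le_abs_self _).trans (hψ' a₀ _))
  have hi1 := hint (Real.exp K) (Real.measurable_exp.comp hw1m) hb1
  have hi2 := hint (Real.exp K) (Real.measurable_exp.comp hw2m) hb2
  simp only [Function.comp_apply] at hi1 hi2
  have e1 : logZ μ y ψ g = Real.log (∫ u, W u * Real.exp (w1 u) ∂μ) := by
    unfold logZ
    congr 2
    funext u
    rw [hW, hw1]
    simp only
    rw [← Real.exp_add, ← Finset.sum_erase_add _ _ (Finset.mem_univ a₀)]
  have e2 : logZ μ y ψ' g = Real.log (∫ u, W u * Real.exp (w2 u) ∂μ) := by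
    unfold logZ
    congr 2
    funext u
    rw [hW, hw2]
    simp only
    rw [← Real.exp_add, ← Finset.sum_erase_add _ _ (Finset.mem_univ a₀)]
    congr 2
    apply Finset.sum_congr rfl
    intro a ha
    rw [hag a (Finset.ne_of_mem_erase ha)]
  have l1 : Real.exp (-K) * ∫ u, W u ∂μ ≤ ∫ u, W u * Real.exp (w1 u) ∂μ := by
    rw [← integral_const_mul]
    apply integral_mono (hWi.const_mul _) hi1
    intro u
    show Real.exp (-K) * W u ≤ W u * Real.exp (w1 u)
    rw [mul_comm]
    exact mul_le_mul_of_nonneg_left (Real.exp_le_exp.2 (neg_le_of_abs_le (hψ a₀ _))) (hWpos u).le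
  have l2 : Real.exp (-K) * ∫ u, W u ∂μ ≤ ∫ u, W u * Real.exp (w2 u) ∂μ := by
    rw [← integral_const_mul]
    apply integral_mono (hWi.const_mul _) hi2
    intro u
    show Real.exp (-K) * W u ≤ W u * Real.exp (w2 u)
    rw [mul_comm]
    exact mul_le_mul_of_nonneg_left (Real.exp_le_exp.2 (neg_le_of_abs_le (hψ' a₀ _))) (hWpos u).le
  rw [e1, e2]
  refine (abs_log_sub_log_le (mul_pos (Real.exp_pos _) hZ0) l1 l2).trans ?_
  have hdm : Measurable fun u => |w1 u - w2 u| := (hw1m.sub hw2m).abs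
  have hid : Integrable (fun u => W u * |w1 u - w2 u|) μ := by
    apply hint (2 * K) hdm
    intro u
    rw [abs_abs]
    have h1 := hψ a₀ (∑ i, g (a₀, i) * y u i)
    have h2 := hψ' a₀ (∑ i, g (a₀, i) * y u i)
    rw [abs_le] at h1 h2 ⊢
    constructor <;> simp only [hw1, hw2] <;> linarith [h1.1, h1.2, h2.1, h2.2]
  have h3 : |(∫ u, W u * Real.exp (w1 u) ∂μ) - ∫ u, W u * Real.exp (w2 u) ∂μ| ≤
      Real.exp K * ∫ u, W u * |w1 u - w2 u| ∂μ := by
    rw [← integral_sub hi1 hi2, ← integral_const_mul]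
    refine (abs_integral_le_integral_abs).trans ?_
    apply integral_mono (hi1.sub hi2).abs (hid.const_mul _)
    intro u
    show |W u * Real.exp (w1 u) - W u * Real.exp (w2 u)| ≤ Real.exp K * (W u * |w1 u - w2 u|)
    rw [← mul_sub, abs_mul, abs_of_pos (hWpos u)]
    have := abs_exp_sub_exp_le (hψ a₀ (∑ i, g (a₀, i) * y u i)) (hψ' a₀ (∑ i, g (a₀, i) * y u i))
    calc W u * |Real.exp (w1 u) - Real.exp (w2 u)| ≤ W u * (Real.exp K * |w1 u - w2 u|) :=
          mul_le_mul_of_nonneg_left this (hWpos u).le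
      _ = _ := by ring
  rw [div_le_iff₀ (mul_pos (Real.exp_pos _) hZ0)]
  refine h3.trans (le_of_eq ?_)
  have h5 : Real.exp (2 * K) * Real.exp (-K) = Real.exp K := by
    rw [← Real.exp_add]; congr 1; ring
  have h6 : ∀ I Z : ℝ, 0 < Z → Real.exp K * I =
      Real.exp (2 * K) * (I / Z) * (Real.exp (-K) * Z) := by
    intro I Z hZ
    rw [← h5]
    field_simp
  exact h6 _ _ hZ0

/-- **one row changed**: `L¹` distance of the log partition functions -/
theorem lintegral_logZ_sub_le_one [IsProbabilityMeasure μ] (hy : Measurable y)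
    (hψm : ∀ a, Measurable (ψ a)) (hψ : ∀ a x, |ψ a x| ≤ K)
    (hψm' : ∀ a, Measurable (ψ' a)) (hψ' : ∀ a x, |ψ' a x| ≤ K) (a₀ : Fin M)
    (hag : ∀ a, a ≠ a₀ → ψ a = ψ' a) (ν : Measure ℝ) [IsProbabilityMeasure ν] {C : ℝ≥0∞}
    (hC : ∀ u, ∫⁻ t : Fin N → ℝ, ENNReal.ofReal |ψ a₀ (∑ i, t i * y u i) -
      ψ' a₀ (∑ i, t i * y u i)| ∂(Measure.pi fun _ => ν) ≤ C) :
    ∫⁻ g, ENNReal.ofReal |logZ μ y ψ g - logZ μ y ψ' g| ∂(Measure.pi fun _ : Fin M × Fin N => ν) ≤
      ENNReal.ofReal (Real.exp (2 * K)) * C := by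
  classical
  set G : Measure (Fin N → ℝ) := Measure.pi fun _ => ν with hG
  -- rows
  have hmp := R141.U.measurePreserving_curry (ι := Fin M) (κ := Fin N) ν
  set F : (Fin M → Fin N → ℝ) → ℝ≥0∞ := fun r =>
    ENNReal.ofReal |logZ μ y ψ (fun p => r p.1 p.2) - logZ μ y ψ' (fun p => r p.1 p.2)| with hF
  have hcm : Measurable (fun r : Fin M → Fin N → ℝ => (fun p : Fin M × Fin N => r p.1 p.2)) := by
    apply measurable_pi_lambda
    intro p
    exact (measurable_pi_apply p.2).comp (measurable_pi_apply p.1)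
  have hFm : Measurable F := by
    apply Measurable.ennreal_ofReal
    exact (((measurable_logZ hy hψm).comp hcm).sub ((measurable_logZ hy hψm').comp hcm)).abs
  have e1 : ∫⁻ g, ENNReal.ofReal |logZ μ y ψ g - logZ μ y ψ' g|
      ∂(Measure.pi fun _ : Fin M × Fin N => ν) =
      ∫⁻ r, F r ∂(Measure.pi fun _ : Fin M => G) := by
    rw [← hmp.lintegral_comp hFm]
    rfl
  have e2 : ∫⁻ r, F r ∂(Measure.pi fun _ : Fin M => G) =
      ∫⁻ r, ∫⁻ t, F (Function.update r a₀ t) ∂G ∂(Measure.pi fun _ : Fin M => G) := by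
    have h := mp_update_pi (ι := Fin M) (X := Fin N → ℝ) G a₀
    rw [← h.lintegral_comp hFm]
    rw [lintegral_prod]
    exact (hFm.comp h.measurable).aemeasurable
  rw [e1, e2]
  have key : ∀ r : Fin M → Fin N → ℝ, ∫⁻ t, F (Function.update r a₀ t) ∂G ≤
      ENNReal.ofReal (Real.exp (2 * K)) * C := by
    intro r
    set W : Y → ℝ := fun u => Real.exp (∑ a ∈ Finset.univ.erase a₀, ψ a (∑ i, r a i * y u i))
      with hW
    have hWm : Measurable W := by
      apply Real.measurable_exp.comp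
      apply Finset.measurable_sum
      intro a _
      apply (hψm a).comp
      apply Finset.measurable_sum
      intro i _
      exact measurable_const.mul ((measurable_pi_apply i).comp hy)
    have hWpos : ∀ u, 0 < W u := fun u => Real.exp_pos _
    have hWle : ∀ u, W u ≤ Real.exp (M * K) := by
      intro u
      apply Real.exp_le_exp.2
      have hK0 : 0 ≤ K := (abs_nonneg _).trans (hψ a₀ 0)
      calc ∑ a ∈ Finset.univ.erase a₀, ψ a (∑ i, r a i * y u i)
          ≤ ∑ a ∈ Finset.univ.erase a₀, K := Finset.sum_le_sum fun a _ =>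
            (le_abs_self _).trans (hψ a _)
        _ ≤ ∑ a : Fin M, K := Finset.sum_le_sum_of_subset_of_nonneg (Finset.erase_subset _ _)
            (fun _ _ _ => hK0)
        _ = M * K := by simp
    have hWi : Integrable W μ := Integrable.of_bound (C := Real.exp (M * K))
      hWm.aestronglyMeasurable (Eventually.of_forall fun u => by
        rw [Real.norm_eq_abs, abs_of_pos (hWpos u)]; exact hWle u)
    have hZ0 : 0 < ∫ u, W u ∂μ := integral_exp_pos hWi
    set Z0 := ∫ u, W u ∂μ with hZ0d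
    set D : (Fin N → ℝ) → Y → ℝ := fun t u =>
      |ψ a₀ (∑ i, t i * y u i) - ψ' a₀ (∑ i, t i * y u i)| with hD
    have hlin : Measurable (fun z : (Fin N → ℝ) × Y => ∑ i, z.1 i * y z.2 i) := by
      apply Finset.measurable_sum
      intro i _
      exact ((measurable_pi_apply i).comp measurable_fst).mul
        ((measurable_pi_apply i).comp (hy.comp measurable_snd))
    have hDm : Measurable (fun z : (Fin N → ℝ) × Y => D z.1 z.2) :=
      (((hψm a₀).comp hlin).sub ((hψm' a₀).comp hlin)).abs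
    have hpt : ∀ t, F (Function.update r a₀ t) ≤
        ENNReal.ofReal (Real.exp (2 * K)) *
          ∫⁻ u, ENNReal.ofReal (W u / Z0) * ENNReal.ofReal (D t u) ∂μ := by
      intro t
      have hDt : Measurable (D t) := hDm.comp (measurable_const.prodMk measurable_id)
      have hDb : ∀ u, |D t u| ≤ 2 * K := by
        intro u
        have h1 := hψ a₀ (∑ i, t i * y u i)
        have h2 := hψ' a₀ (∑ i, t i * y u i)
        simp only [hD, abs_abs]
        rw [abs_le] at h1 h2 ⊢
        constructor <;> linarith [h1.1, h1.2, h2.1, h2.2]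
      have hi : Integrable (fun u => W u * D t u) μ := by
        refine Integrable.of_bound (C := Real.exp (M * K) * (2 * K))
          (hWm.mul hDt).aestronglyMeasurable (Eventually.of_forall fun u => ?_)
        rw [Real.norm_eq_abs, abs_mul, abs_of_pos (hWpos u)]
        exact mul_le_mul (hWle u) (hDb u) (abs_nonneg _) (Real.exp_pos _).le
      have h1 := abs_logZ_sub_le (μ := μ) hy hψm hψ hψm' hψ' a₀ hag
        (fun p => Function.update r a₀ t p.1 p.2)
      have e3 : ∀ u, (∑ a ∈ Finset.univ.erase a₀,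
          ψ a (∑ i, Function.update r a₀ t a i * y u i)) =
          ∑ a ∈ Finset.univ.erase a₀, ψ a (∑ i, r a i * y u i) := by
        intro u
        apply Finset.sum_congr rfl
        intro a ha
        rw [Function.update_of_ne (Finset.ne_of_mem_erase ha)]
      simp only [e3, Function.update_self] at h1
      have e4 : (∫⁻ u, ENNReal.ofReal (W u / Z0) * ENNReal.ofReal (D t u) ∂μ) =
          ENNReal.ofReal ((∫ u, W u * D t u ∂μ) / Z0) := by
        rw [← integral_div, ofReal_integral_eq_lintegral_ofReal (hi.div_const _)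
          (Eventually.of_forall fun u => by
            have := (hWpos u).le
            have h5 : 0 ≤ D t u := abs_nonneg _
            positivity)]
        apply lintegral_congr
        intro u
        rw [← ENNReal.ofReal_mul (by have := (hWpos u).le; positivity)]
        congr 1
        ring
      rw [e4, ← ENNReal.ofReal_mul (Real.exp_pos _).le]
      exact ENNReal.ofReal_le_ofReal h1
    refine (lintegral_mono hpt).trans ?_
    have hjm : Measurable (fun z : (Fin N → ℝ) × Y =>
        ENNReal.ofReal (W z.2 / Z0) * ENNReal.ofReal (D z.1 z.2)) :=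
      ((hWm.comp measurable_snd).div_const _).ennreal_ofReal.mul hDm.ennreal_ofReal
    rw [lintegral_const_mul _ hjm.lintegral_prod_right']
    refine mul_le_mul_right ?_ _
    rw [lintegral_lintegral_swap hjm.aemeasurable]
    calc ∫⁻ u, ∫⁻ t, ENNReal.ofReal (W u / Z0) * ENNReal.ofReal (D t u) ∂G ∂μ
        ≤ ∫⁻ u, ENNReal.ofReal (W u / Z0) * C ∂μ := by
          refine lintegral_mono fun u => ?_
          rw [lintegral_const_mul' _ _ ENNReal.ofReal_ne_top]
          exact mul_le_mul_right (hC u) _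
      _ = C := by
          rw [lintegral_mul_const _ (hWm.div_const _).ennreal_ofReal,
            ← ofReal_integral_eq_lintegral_ofReal (hWi.div_const _)
              (Eventually.of_forall fun u => by have := (hWpos u).le; positivity),
            integral_div, ← hZ0d, div_self hZ0.ne', ENNReal.ofReal_one, one_mul]
  calc _ ≤ ∫⁻ _ : Fin M → Fin N → ℝ, ENNReal.ofReal (Real.exp (2 * K)) * C
          ∂(Measure.pi fun _ : Fin M => G) := lintegral_mono fun r => key r
    _ = _ := by simp

end onerow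

section many

variable {μ : Measure Y} {N M : ℕ} {y : Y → Fin N → ℝ} {K : ℝ}

/-- **change of potential**: `L¹` distance of the log partition functions -/
theorem lintegral_logZ_sub_le [IsProbabilityMeasure μ] (hy : Measurable y)
    (ν : Measure ℝ) [IsProbabilityMeasure ν] (C : Fin M → ℝ≥0∞) (S : Finset (Fin M)) :
    ∀ ψ ψ' : Fin M → ℝ → ℝ, (∀ a, Measurable (ψ a)) → (∀ a x, |ψ a x| ≤ K) →
    (∀ a, Measurable (ψ' a)) → (∀ a x, |ψ' a x| ≤ K) → (∀ a, a ∉ S → ψ a = ψ' a) →
    (∀ a ∈ S, ∀ u, ∫⁻ t : Fin N → ℝ, ENNReal.ofReal |ψ a (∑ i, t i * y u i) -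
      ψ' a (∑ i, t i * y u i)| ∂(Measure.pi fun _ => ν) ≤ C a) →
    ∫⁻ g, ENNReal.ofReal |logZ μ y ψ g - logZ μ y ψ' g| ∂(Measure.pi fun _ : Fin M × Fin N => ν) ≤
      ENNReal.ofReal (Real.exp (2 * K)) * ∑ a ∈ S, C a := by
  classical
  induction S using Finset.induction_on with
  | empty =>
    intro ψ ψ' _ _ _ _ h _
    have : ψ = ψ' := funext fun a => h a (Finset.notMem_empty a)
    subst this
    simp
  | insert a₀ T ha₀ ih =>
    intro ψ ψ' hψm hψ hψm' hψ' h hC
    set ψ'' : Fin M → ℝ → ℝ := Function.update ψ a₀ (ψ' a₀) with hdef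
    have hψm'' : ∀ a, Measurable (ψ'' a) := by
      intro a
      by_cases hb : a = a₀
      · subst hb; simp only [hdef, Function.update_self]; exact hψm' a
      · simp only [hdef, Function.update_of_ne hb]; exact hψm a
    have hψ'' : ∀ a x, |ψ'' a x| ≤ K := by
      intro a x
      by_cases hb : a = a₀
      · subst hb; simp only [hdef, Function.update_self]; exact hψ' a x
      · simp only [hdef, Function.update_of_ne hb]; exact hψ a x
    have h1 := lintegral_logZ_sub_le_one (μ := μ) hy hψm hψ hψm'' hψ'' a₀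
      (fun a ha => by simp only [hdef, Function.update_of_ne ha]) ν (C := C a₀)
      (fun u => by
        simp only [hdef, Function.update_self]
        exact hC a₀ (Finset.mem_insert_self _ _) u)
    have h2 := ih ψ'' ψ' hψm'' hψ'' hψm' hψ' (fun a ha => by
        by_cases hb : a = a₀
        · subst hb; simp only [hdef, Function.update_self]
        · simp only [hdef, Function.update_of_ne hb]
          exact h a (fun h' => by
            rcases Finset.mem_insert.1 h' with h'' | h''
            · exact hb h''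
            · exact ha h''))
      (fun a ha u => by
        have hb : a ≠ a₀ := fun hb => ha₀ (hb ▸ ha)
        simp only [hdef, Function.update_of_ne hb]
        exact hC a (Finset.mem_insert_of_mem ha) u)
    have hm1 := measurable_logZ (μ := μ) hy hψm
    have hm2 := measurable_logZ (μ := μ) hy hψm''
    rw [Finset.sum_insert ha₀, mul_add]
    refine le_trans ?_ (add_le_add h1 h2)
    have hm12 : Measurable (fun g => ENNReal.ofReal |logZ μ y ψ g - logZ μ y ψ'' g|) :=
      (hm1.sub hm2).abs.ennreal_ofReal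
    rw [← lintegral_add_left hm12]
    apply lintegral_mono
    intro g
    show ENNReal.ofReal |logZ μ y ψ g - logZ μ y ψ' g| ≤
      ENNReal.ofReal |logZ μ y ψ g - logZ μ y ψ'' g| +
      ENNReal.ofReal |logZ μ y ψ'' g - logZ μ y ψ' g|
    rw [← ENNReal.ofReal_add (abs_nonneg _) (abs_nonneg _)]
    exact ENNReal.ofReal_le_ofReal (abs_sub_le _ _ _)

/-- change of potential, difference of the means -/
theorem abs_integral_logZ_sub_le [IsProbabilityMeasure μ] (hy : Measurable y)
    (ν : Measure ℝ) [IsProbabilityMeasure ν] {C : Fin M → ℝ} (hC0 : ∀ a, 0 ≤ C a)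
    {ψ ψ' : Fin M → ℝ → ℝ} (hψm : ∀ a, Measurable (ψ a)) (hψ : ∀ a x, |ψ a x| ≤ K)
    (hψm' : ∀ a, Measurable (ψ' a)) (hψ' : ∀ a x, |ψ' a x| ≤ K)
    (hC : ∀ a u, ∫⁻ t : Fin N → ℝ, ENNReal.ofReal |ψ a (∑ i, t i * y u i) -
      ψ' a (∑ i, t i * y u i)| ∂(Measure.pi fun _ => ν) ≤ ENNReal.ofReal (C a)) :
    |(∫ g, logZ μ y ψ g ∂(Measure.pi fun _ : Fin M × Fin N => ν)) -
      ∫ g, logZ μ y ψ' g ∂(Measure.pi fun _ : Fin M × Fin N => ν)| ≤
      Real.exp (2 * K) * ∑ a, C a := by
  have h := lintegral_logZ_sub_le (μ := μ) (K := K) hy ν (fun a => ENNReal.ofReal (C a))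
    Finset.univ ψ ψ' hψm hψ hψm' hψ' (fun a ha => absurd (Finset.mem_univ a) ha)
    (fun a _ u => hC a u)
  have hi : ∀ {ψ : Fin M → ℝ → ℝ}, (∀ a, Measurable (ψ a)) → (∀ a x, |ψ a x| ≤ K) →
      Integrable (logZ μ y ψ) (Measure.pi fun _ : Fin M × Fin N => ν) := fun hm hb =>
    Integrable.of_bound (C := M * K) (measurable_logZ hy hm).aestronglyMeasurable
      (Eventually.of_forall fun g => by rw [Real.norm_eq_abs]; exact abs_logZ_le hy hm hb g)
  have hi1 := hi hψm hψ
  have hi2 := hi hψm' hψ'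
  have hi12 : Integrable (fun g => |logZ μ y ψ g - logZ μ y ψ' g|)
      (Measure.pi fun _ : Fin M × Fin N => ν) := (hi1.sub hi2).abs
  rw [← integral_sub hi1 hi2]
  have hnn : 0 ≤ Real.exp (2 * K) * ∑ a, C a :=
    mul_nonneg (Real.exp_pos _).le (Finset.sum_nonneg fun a _ => hC0 a)
  refine (abs_integral_le_integral_abs).trans ?_
  rw [← ENNReal.ofReal_le_ofReal_iff hnn,
    ofReal_integral_eq_lintegral_ofReal hi12 (Eventually.of_forall fun g => abs_nonneg _),
    ENNReal.ofReal_mul (Real.exp_pos _).le, ENNReal.ofReal_sum_of_nonneg (fun a _ => hC0 a)]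
  exact h

end many

/-! ### one row: tails -/

section tails

open Crest.Agent.R146.RepairLaw_840

/-- a row of a good law tested against a function which is small on `[-R, R]` -/
theorem lintegral_row_le {ν : Measure ℝ} (h : Good ν) {N : ℕ} {l : Fin N → ℝ}
    (hl : ∑ i, l i ^ 2 = 1) {D : ℝ → ℝ} {K δ R : ℝ} (hK : 0 ≤ K) (hR : 0 < R) (hδ : 0 ≤ δ)
    (hD : ∀ x, D x ≤ 2 * K) (hDR : ∀ x, |x| ≤ R → D x ≤ δ) :
    ∫⁻ t : Fin N → ℝ, ENNReal.ofReal (D (∑ i, t i * l i)) ∂(Measure.pi fun _ => ν) ≤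
      ENNReal.ofReal (δ + 2 * K / R ^ 2) := by
  have := h.prob
  obtain ⟨hi, h1, -, -⟩ := lin_moments h l hl
  have hlin : ∀ t : Fin N → ℝ, ∑ i, t i * l i = lin l t := fun t => by
    unfold lin; exact Finset.sum_congr rfl fun i _ => mul_comm _ _
  simp only [hlin]
  have hpt : ∀ x : ℝ, D x ≤ δ + 2 * K / R ^ 2 * x ^ 2 := by
    intro x
    by_cases hx : |x| ≤ R
    · have : 0 ≤ 2 * K / R ^ 2 * x ^ 2 := by positivity
      linarith [hDR x hx]
    · have h2 : R ^ 2 ≤ x ^ 2 := by
        rw [← sq_abs x]; exact pow_le_pow_left₀ hR.le (not_le.1 hx).le 2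
      have h3 : 2 * K ≤ 2 * K / R ^ 2 * x ^ 2 := by
        rw [div_mul_eq_mul_div, le_div_iff₀ (by positivity)]
        exact mul_le_mul_of_nonneg_left h2 (by positivity)
      linarith [hD x]
  have hadd : Integrable (fun t : Fin N → ℝ => δ + 2 * K / R ^ 2 * lin l t ^ 2)
      (Measure.pi fun _ => ν) := (integrable_const δ).add (hi.const_mul _)
  calc ∫⁻ t : Fin N → ℝ, ENNReal.ofReal (D (lin l t)) ∂(Measure.pi fun _ => ν)
      ≤ ∫⁻ t : Fin N → ℝ, ENNReal.ofReal (δ + 2 * K / R ^ 2 * lin l t ^ 2)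
          ∂(Measure.pi fun _ => ν) :=
        lintegral_mono fun t => ENNReal.ofReal_le_ofReal (hpt _)
    _ = ENNReal.ofReal (∫ t : Fin N → ℝ, (δ + 2 * K / R ^ 2 * lin l t ^ 2)
          ∂(Measure.pi fun _ => ν)) := by
        rw [ofReal_integral_eq_lintegral_ofReal hadd
          (Eventually.of_forall fun t => by positivity)]
    _ = _ := by
        rw [integral_add (integrable_const _) (hi.const_mul _), integral_const_mul, h1]
        simp

/-- a Gaussian row is exactly standard Gaussian -/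
theorem map_row_gauss {N : ℕ} {l : Fin N → ℝ} (hl : ∑ i, l i ^ 2 = 1) :
    (Measure.pi fun _ : Fin N => gaussianReal 0 1).map (fun t => ∑ i, t i * l i) =
      gaussianReal 0 1 := by
  have hm : Measurable (fun t : Fin N → ℝ => ∑ i, t i * l i) :=
    Finset.measurable_sum _ fun i _ => (measurable_pi_apply i).mul measurable_const
  ext A hA
  have h1 := R164.CavG.integral_one (κ := Fin N) l
    (F := Set.indicator A (fun _ => (1 : ℝ))) (measurable_const.indicator hA)
  rw [hl, Real.sqrt_one] at h1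
  simp only [one_mul] at h1
  have e1 : (fun t : Fin N → ℝ => Set.indicator A (fun _ => (1 : ℝ)) (∑ i, l i * t i)) =
      Set.indicator ((fun t : Fin N → ℝ => ∑ i, t i * l i) ⁻¹' A) (fun _ => (1 : ℝ)) := by
    funext t
    have : ∑ i, l i * t i = ∑ i, t i * l i := Finset.sum_congr rfl fun i _ => mul_comm _ _
    rw [this]
    rfl
  rw [e1, integral_indicator_const _ (hm hA), integral_indicator_const _ hA] at h1
  simp only [smul_eq_mul, mul_one] at h1
  rw [Measure.map_apply hm hA]
  have h2 : (Measure.pi fun _ : Fin N => gaussianReal 0 1)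
      ((fun t : Fin N → ℝ => ∑ i, t i * l i) ⁻¹' A) ≠ ⊤ := measure_ne_top _ _
  exact (ENNReal.toReal_eq_toReal_iff' h2 (measure_ne_top _ _)).1 h1

/-- a Gaussian row, exact form -/
theorem lintegral_row_gauss {N : ℕ} {l : Fin N → ℝ} (hl : ∑ i, l i ^ 2 = 1) {D : ℝ → ℝ≥0∞}
    (hD : Measurable D) :
    ∫⁻ t : Fin N → ℝ, D (∑ i, t i * l i) ∂(Measure.pi fun _ => gaussianReal 0 1) =
      ∫⁻ x, D x ∂(gaussianReal 0 1) := by
  have hm : Measurable (fun t : Fin N → ℝ => ∑ i, t i * l i) :=
    Finset.measurable_sum _ fun i _ => (measurable_pi_apply i).mul measurable_const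
  conv_rhs => rw [← map_row_gauss hl]
  rw [lintegral_map hD hm]

end tails

/-! ### pressure -/

section press

open Crest.Agent.R146.RepairLaw_840

theorem sum_sq_crd {N : ℕ} (u : UnitSphere N) : ∑ i, crd N u i ^ 2 = 1 := by
  have h : ‖(u : EuclideanSpace ℝ (Fin N))‖ = 1 := by
    have := u.2
    rwa [mem_sphere_zero_iff_norm] at this
  have h2 := EuclideanSpace.norm_sq_eq (u : EuclideanSpace ℝ (Fin N))
  rw [h] at h2
  simpa [crd] using h2.symm

variable {N M : ℕ} {K : ℝ}

/-- **CHG, general form**: rows of a good law, row dependent potentials -/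
theorem change_good (hN : 0 < N) {ν : Measure ℝ} (hν : Good ν) {δ R : ℝ} (hK : 0 ≤ K)
    (hR : 0 < R) (hδ : 0 ≤ δ) {ψ ψ' : Fin M → ℝ → ℝ} (hψm : ∀ a, Measurable (ψ a))
    (hψ : ∀ a x, |ψ a x| ≤ K) (hψm' : ∀ a, Measurable (ψ' a)) (hψ' : ∀ a x, |ψ' a x| ≤ K)
    (hd : ∀ a x, |x| ≤ R → |ψ a x - ψ' a x| ≤ δ) :
    |(∫ g, logZ (uSph N) (crd N) ψ g ∂(Measure.pi fun _ : Fin M × Fin N => ν)) -
      ∫ g, logZ (uSph N) (crd N) ψ' g ∂(Measure.pi fun _ : Fin M × Fin N => ν)| ≤
      Real.exp (2 * K) * (M * (δ + 2 * K / R ^ 2)) := by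
  have := isProb_uSph hN
  have := hν.prob
  have h := abs_integral_logZ_sub_le (μ := uSph N) (M := M) (measurable_crd N) ν (K := K)
    (C := fun _ => δ + 2 * K / R ^ 2) (fun _ => by positivity) hψm hψ hψm' hψ'
    (fun a u => lintegral_row_le hν (sum_sq_crd u)
      (D := fun x => |ψ a x - ψ' a x|) hK hR hδ (fun x => by
        have h1 := hψ a x
        have h2 := hψ' a x
        rw [abs_le] at h1 h2 ⊢
        constructor <;> linarith [h1.1, h1.2, h2.1, h2.2]) (hd a))
  rw [Finset.sum_const, Finset.card_univ, Fintype.card_fin, nsmul_eq_mul] at h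
  exact h

/-- **SP, Gaussian, exact form** -/
theorem change_gauss (hN : 0 < N) {ψ ψ' : Fin M → ℝ → ℝ} (hψm : ∀ a, Measurable (ψ a))
    (hψ : ∀ a x, |ψ a x| ≤ K) (hψm' : ∀ a, Measurable (ψ' a)) (hψ' : ∀ a x, |ψ' a x| ≤ K) :
    |(∫ g, logZ (uSph N) (crd N) ψ g ∂(Measure.pi fun _ : Fin M × Fin N => gaussianReal 0 1)) -
      ∫ g, logZ (uSph N) (crd N) ψ' g ∂(Measure.pi fun _ : Fin M × Fin N => gaussianReal 0 1)| ≤
      Real.exp (2 * K) * ∑ a, ∫ x, |ψ a x - ψ' a x| ∂(gaussianReal 0 1) := by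
  have := isProb_uSph hN
  refine abs_integral_logZ_sub_le (μ := uSph N) (M := M) (measurable_crd N) (gaussianReal 0 1)
    (K := K) (C := fun a => ∫ x, |ψ a x - ψ' a x| ∂(gaussianReal 0 1))
    (fun a => integral_nonneg fun x => abs_nonneg _) hψm hψ hψm' hψ' (fun a u => ?_)
  have hm : Measurable fun x => |ψ a x - ψ' a x| := ((hψm a).sub (hψm' a)).abs
  rw [lintegral_row_gauss (sum_sq_crd u) (D := fun x => ENNReal.ofReal |ψ a x - ψ' a x|)
    hm.ennreal_ofReal, ofReal_integral_eq_lintegral_ofReal]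
  · refine Integrable.of_bound (C := 2 * K) hm.aestronglyMeasurable
      (Eventually.of_forall fun x => ?_)
    rw [Real.norm_eq_abs, abs_abs]
    have h1 := hψ a x
    have h2 := hψ' a x
    rw [abs_le] at h1 h2 ⊢
    constructor <;> linarith [h1.1, h1.2, h2.1, h2.2]
  · exact Eventually.of_forall fun x => abs_nonneg _

end press

end Crest.Agent.R146.Press_663
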