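import Mathlib

/-!
# Parallel sums and harmonic means (node B of the split 624, row 146)

`psum a b = a b / (a + b)` (`= 0` at `a = b = 0`), so `1 / psum a b = 1 / a + 1 / b`.
-/

namespace Crest.Agent.R146.ProfA_540

open Set MeasureTheory Filter Topology

/-- the parallel sum of two nonnegative numbers -/
noncomputable def psum (a b : ℝ) : ℝ := a * b / (a + b)

lemma psum_comm (a b : ℝ) : psum a b = psum b a := by
  unfold psum; rw [mul_comm, add_comm]

@[simp] lemma psum_zero_left (b : ℝ) : psum 0 b = 0 := by simp [psum]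

@[simp] lemma psum_zero_right (a : ℝ) : psum a 0 = 0 := by simp [psum]

lemma psum_nonneg {a b : ℝ} (ha : 0 ≤ a) (hb : 0 ≤ b) : 0 ≤ psum a b := by
  unfold psum; positivity

lemma psum_pos {a b : ℝ} (ha : 0 < a) (hb : 0 < b) : 0 < psum a b := by
  unfold psum; positivity

lemma psum_self (a : ℝ) : psum a a = a / 2 := by
  unfold psum
  by_cases h : a = 0
  · simp [h]
  · field_simp; ring

lemma psum_mul (c a b : ℝ) : psum (c * a) (c * b) = c * psum a b := by
  unfold psum
  by_cases hc : c = 0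
  · simp [hc]
  by_cases h : a + b = 0
  · have : c * a + c * b = 0 := by rw [← mul_add, h, mul_zero]
    simp [h, this]
  · have : c * a + c * b ≠ 0 := by rw [← mul_add]; exact mul_ne_zero hc h
    field_simp

lemma one_div_psum {a b : ℝ} (ha : 0 < a) (hb : 0 < b) :
    1 / psum a b = 1 / a + 1 / b := by
  unfold psum
  have : a + b ≠ 0 := by positivity
  field_simp
  ring

lemma inv_psum {a b : ℝ} (ha : 0 < a) (hb : 0 < b) :
    (psum a b)⁻¹ = a⁻¹ + b⁻¹ := by
  have := one_div_psum ha hb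
  simpa [one_div] using this

/-- variational form, upper bound -/
lemma psum_le_form {a b : ℝ} (ha : 0 ≤ a) (hb : 0 ≤ b) (s : ℝ) :
    psum a b ≤ s ^ 2 * a + (1 - s) ^ 2 * b := by
  unfold psum
  rcases eq_or_lt_of_le (add_nonneg ha hb) with h | h
  · have : a + b = 0 := h.symm
    rw [this, div_zero]; positivity
  · rw [div_le_iff₀ h]
    nlinarith [sq_nonneg (s * a - (1 - s) * b), mul_nonneg ha hb]

/-- variational form, attained -/
lemma psum_eq_form {a b : ℝ} (ha : 0 ≤ a) (hb : 0 ≤ b) :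
    psum a b = (b / (a + b)) ^ 2 * a + (1 - b / (a + b)) ^ 2 * b := by
  unfold psum
  rcases eq_or_lt_of_le (add_nonneg ha hb) with h | h
  · have h1 : a = 0 := by linarith
    have h2 : b = 0 := by linarith
    simp [h1, h2]
  · have : a + b ≠ 0 := h.ne'
    field_simp
    ring

lemma psum_add_le {a b a' b' : ℝ} (ha : 0 ≤ a) (hb : 0 ≤ b) (ha' : 0 ≤ a') (hb' : 0 ≤ b') :
    psum a b + psum a' b' ≤ psum (a + a') (b + b') := by
  have h := psum_eq_form (add_nonneg ha ha') (add_nonneg hb hb')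
  set s := (b + b') / (a + a' + (b + b')) with hs
  rw [h]
  have h1 := psum_le_form ha hb s
  have h2 := psum_le_form ha' hb' s
  nlinarith

lemma psum_mono {a b a' b' : ℝ} (ha : 0 ≤ a) (hb : 0 ≤ b) (ha' : a ≤ a') (hb' : b ≤ b') :
    psum a b ≤ psum a' b' := by
  have h := psum_add_le ha hb (sub_nonneg.2 ha') (sub_nonneg.2 hb')
  have h2 := psum_nonneg (sub_nonneg.2 ha') (sub_nonneg.2 hb')
  have e1 : a + (a' - a) = a' := by ring
  have e2 : b + (b' - b) = b' := by ring
  rw [e1, e2] at h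
  linarith

lemma psum_le_left {a b : ℝ} (ha : 0 ≤ a) (hb : 0 ≤ b) : psum a b ≤ a := by
  have := psum_le_form ha hb 1
  simpa using this

lemma psum_le_right {a b : ℝ} (ha : 0 ≤ a) (hb : 0 ≤ b) : psum a b ≤ b := by
  have := psum_le_form ha hb 0
  simpa using this

/-- parallel sum against arithmetic mean -/
lemma psum_le_quarter {a b : ℝ} (ha : 0 ≤ a) (hb : 0 ≤ b) : psum a b ≤ (a + b) / 4 := by
  have := psum_le_form ha hb (1 / 2)
  linarith

/-- Cauchy-Schwarz for the parallel sum: the inequality behind the joint convexity of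
`(x, 1 / D) ↦ D ‖x‖²`. -/
lemma psum_mul_sq_le {E : Type*} [SeminormedAddCommGroup E] {a b : ℝ} (ha : 0 ≤ a) (hb : 0 ≤ b)
    (x y : E) : psum a b * ‖x + y‖ ^ 2 ≤ a * ‖x‖ ^ 2 + b * ‖y‖ ^ 2 := by
  have h0 := psum_nonneg ha hb
  have h1 : ‖x + y‖ ^ 2 ≤ (‖x‖ + ‖y‖) ^ 2 := by
    have := norm_add_le x y
    have := norm_nonneg (x + y)
    gcongr
  refine (mul_le_mul_of_nonneg_left h1 h0).trans ?_
  unfold psum
  rcases eq_or_lt_of_le (add_nonneg ha hb) with h | h
  · have : a + b = 0 := h.symm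
    rw [this, div_zero]
    have := norm_nonneg x
    have := norm_nonneg y
    rw [zero_mul]; positivity
  · rw [div_mul_eq_mul_div, div_le_iff₀ h]
    nlinarith [sq_nonneg (a * ‖x‖ - b * ‖y‖)]

/-- midpoint form -/
lemma psum_mul_sq_mid {E : Type*} [NormedAddCommGroup E] [NormedSpace ℝ E] {a b : ℝ}
    (ha : 0 ≤ a) (hb : 0 ≤ b) (x y : E) :
    2 * psum a b * ‖(1 / 2 : ℝ) • (x + y)‖ ^ 2 ≤ (a * ‖x‖ ^ 2 + b * ‖y‖ ^ 2) / 2 := by
  have h := psum_mul_sq_le ha hb x y
  have h2 : ‖(1 / 2 : ℝ) • (x + y)‖ = 1 / 2 * ‖x + y‖ := by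
    rw [norm_smul]; norm_num
  rw [h2]
  nlinarith

/-- exact gain of the arithmetic mean over the harmonic mean in `1 / D` -/
lemma inv_deficit {a b : ℝ} (ha : 0 < a) (hb : 0 < b) :
    (1 / a + 1 / b) / 2 - 2 / (a + b) = (a - b) ^ 2 / (2 * a * b * (a + b)) := by
  have : a + b ≠ 0 := by positivity
  field_simp
  ring

lemma inv_deficit_le {a b C : ℝ} (ha : 0 < a) (hb : 0 < b) (haC : a ≤ C) (hbC : b ≤ C) :
    (a - b) ^ 2 ≤ 4 * C ^ 3 * ((1 / a + 1 / b) / 2 - 2 / (a + b)) := by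
  rw [inv_deficit ha hb]
  have hC : 0 < C := ha.trans_le haC
  have h1 : 2 * a * b * (a + b) ≤ 4 * C ^ 3 := by
    have h2 : a * b ≤ C * C := mul_le_mul haC hbC hb.le hC.le
    have h3 : a + b ≤ 2 * C := by linarith
    have h4 : 0 < a * b := mul_pos ha hb
    calc 2 * a * b * (a + b) = 2 * ((a * b) * (a + b)) := by ring
      _ ≤ 2 * ((C * C) * (2 * C)) := by
          have := mul_le_mul h2 h3 (by positivity) (by positivity)
          linarith
      _ = 4 * C ^ 3 := by ring
  have h5 : 0 < 2 * a * b * (a + b) := by positivity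
  rw [mul_div_assoc', le_div_iff₀ h5]
  have := sq_nonneg (a - b)
  nlinarith

lemma continuousOn_psum :
    ContinuousOn (fun p : ℝ × ℝ => psum p.1 p.2) {p | 0 ≤ p.1 ∧ 0 ≤ p.2} := by
  intro p hp
  rcases eq_or_lt_of_le (add_nonneg hp.1 hp.2) with h | h
  · have h1 : p.1 = 0 := by linarith [hp.1, hp.2]
    have h2 : p.2 = 0 := by linarith [hp.1, hp.2]
    have hval : psum p.1 p.2 = 0 := by simp [h1]
    have hlim : Tendsto (fun q : ℝ × ℝ => q.1) (𝓝[{p | 0 ≤ p.1 ∧ 0 ≤ p.2}] p) (𝓝 0) := by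
      have : Tendsto (fun q : ℝ × ℝ => q.1) (𝓝 p) (𝓝 p.1) := continuous_fst.continuousAt
      rw [h1] at this
      exact this.mono_left nhdsWithin_le_nhds
    show Tendsto (fun p : ℝ × ℝ => psum p.1 p.2) _ (𝓝 (psum p.1 p.2))
    rw [hval]
    refine tendsto_of_tendsto_of_tendsto_of_le_of_le' tendsto_const_nhds hlim ?_ ?_
    · filter_upwards [self_mem_nhdsWithin] with q hq using psum_nonneg hq.1 hq.2
    · filter_upwards [self_mem_nhdsWithin] with q hq using psum_le_left hq.1 hq.2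
  · refine ContinuousAt.continuousWithinAt ?_
    unfold psum
    refine ContinuousAt.div (by fun_prop) (by fun_prop) h.ne'

end Crest.Agent.R146.ProfA_540
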