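import Crest.Agent.R146.Lev2_576

/-!
Row 146 (S0205), PT (helper45): strict positivity of the charge.

* `pos_core`   : `L ≥ 0`, `F_t`-measurable, not a.e. `0`; `h ≥ 0`, `h ≥ 1 + B_1`  ⟹  `0 < E[L h]`;
* `P_ne_zero`  : in a Brownian model, `0 ≤ J x`, `x ≠ 0`  ⟹  `P_t x ≠ 0`;
* `charge_pos` : `0 < ⟪P_t (ξ + Dop D x), x⟫` for `t < 1`.
-/

set_option autoImplicit false

namespace Crest.Agent.R146.PtPos_45

open Set Filter Topology MeasureTheory ProbabilityTheory Crest.Agent.R146.Hilb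
open Crest.Agent.R146.Lev_576 Crest.Agent.R146.Lev2_576 Crest.ProbabilityR.Perceptron
open scoped RealInnerProductSpace NNReal ENNReal

variable {Ω : Type*} {mΩ : MeasurableSpace Ω} {P : Measure Ω} {B : ℝ≥0 → Ω → ℝ}

theorem gauss_Ici_pos {v : ℝ≥0} (hv : v ≠ 0) (a : ℝ) : 0 < gaussianReal 0 v (Ici a) := by
  rw [pos_iff_ne_zero]
  intro h
  have h1 := (gaussianReal_absolutelyContinuous' 0 hv) h
  rw [Real.volume_Ici] at h1
  exact ENNReal.top_ne_zero h1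

theorem pos_core [IsProbabilityMeasure P] (hB : IsPreBrownianReal B P)
    (hBm : ∀ t, Measurable (B t)) {t : ℝ≥0} (ht : t < 1) {L h : Ω → ℝ}
    (hL : Measurable[brownianFiltration B hBm t] L) (hL0 : 0 ≤ᵐ[P] L) (hLne : ¬ L =ᵐ[P] 0)
    (hh0 : 0 ≤ᵐ[P] h) (hh1 : ∀ᵐ ω ∂P, 1 + B 1 ω ≤ h ω)
    (hint : Integrable (fun ω => L ω * h ω) P) : 0 < ∫ ω, L ω * h ω ∂P := by
  have hnn : 0 ≤ᵐ[P] fun ω => L ω * h ω := by
    filter_upwards [hL0, hh0] with ω h1 h2 using mul_nonneg h1 h2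
  refine lt_of_le_of_ne (integral_nonneg_of_ae hnn) ?_
  intro h0
  have hz := (integral_eq_zero_iff_of_nonneg_ae hnn hint).1 h0.symm
  -- on `{L > 0}`, `1 + B_1 ≤ 0`
  have hbad : ∀ᵐ ω ∂P, 0 < L ω → 1 + B 1 ω ≤ 0 := by
    filter_upwards [hz, hh1] with ω h1 h2 h3
    have h4 : L ω * h ω = 0 := h1
    rcases mul_eq_zero.1 h4 with h5 | h5
    · exact absurd h5 h3.ne'
    · rw [h5] at h2; exact h2
  set A : ℕ → Set Ω := fun n => {ω | 0 < L ω} ∩ {ω | -(n:ℝ) < B t ω} with hA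
  have hle : brownianFiltration B hBm t ≤ mΩ := (brownianFiltration B hBm).le t
  have hBt : Measurable[brownianFiltration B hBm t] (B t) := by
    rw [measurable_iff_comap_le]
    change MeasurableSpace.comap (B t) _ ≤ ⨆ j ≤ t, MeasurableSpace.comap (B j) _
    exact le_iSup₂_of_le t le_rfl le_rfl
  have hAm : ∀ n, MeasurableSet[brownianFiltration B hBm t] (A n) := fun n =>
    (measurableSet_lt measurable_const hL).inter (measurableSet_lt measurable_const hBt)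
  have hAz : ∀ n, P (A n) = 0 := by
    intro n
    set E : Set Ω := (fun ω => B 1 ω - B t ω) ⁻¹' Ici (n:ℝ) with hE
    have hEm : MeasurableSet[MeasurableSpace.comap (fun ω => B 1 ω - B t ω) inferInstance] E :=
      ⟨Ici (n:ℝ), measurableSet_Ici, rfl⟩
    have hI := (Indep_iff _ _ P).1 (indep_past hB hBm ht.le) (A n) E (hAm n) hEm
    have hPE : P E ≠ 0 := by
      have h1 : P E = gaussianReal 0 (1 - t) (Ici (n:ℝ)) := by
        have hm : Measurable (fun ω => B 1 ω - B t ω) := (hBm 1).sub (hBm t)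
        rw [← law_incr hB ht.le, Measure.map_apply hm measurableSet_Ici]
      rw [h1]
      exact (gauss_Ici_pos (tsub_pos_of_lt ht).ne' _).ne'
    have hz2 : P (A n ∩ E) = 0 := by
      have h2 : ∀ᵐ ω ∂P, ω ∉ A n ∩ E := by
        filter_upwards [hbad] with ω h3 h4
        have h5 := h3 h4.1.1
        have h6 : -(n:ℝ) < B t ω := h4.1.2
        have h7 : (n:ℝ) ≤ B 1 ω - B t ω := h4.2
        linarith
      exact measure_eq_zero_iff_ae_notMem.2 h2
    rw [hz2] at hI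
    rcases mul_eq_zero.1 hI.symm with h3 | h3
    · exact h3
    · exact absurd h3 hPE
  have hU : P {ω | 0 < L ω} = 0 := by
    have h1 : {ω | 0 < L ω} ⊆ ⋃ n, A n := by
      intro ω hω
      obtain ⟨n, hn⟩ := exists_nat_gt (-(B t ω))
      exact mem_iUnion.2 ⟨n, hω, by show -(n:ℝ) < B t ω; linarith⟩
    exact measure_mono_null h1 (measure_iUnion_null hAz)
  apply hLne
  have h2 : ∀ᵐ ω ∂P, ω ∉ {ω | 0 < L ω} := measure_eq_zero_iff_ae_notMem.1 hU
  filter_upwards [hL0, h2] with ω h3 h4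
  have h5 : ¬ 0 < L ω := h4
  exact le_antisymm (not_lt.1 h5) h3

section Mod

variable {H : Type*} [NormedAddCommGroup H] [InnerProductSpace ℝ H] {R : Res H}
  {hBm : ∀ t, Measurable (B t)}

theorem P_nonneg [IsProbabilityMeasure P] (M : Model R P B hBm) {x : H} (hx : 0 ≤ᵐ[P] M.J x)
    {t : ℝ} (ht : t ∈ Icc (0:ℝ) 1) : 0 ≤ᵐ[P] M.J (R.P t x) := by
  have h1 : 0 ≤ᵐ[P] P[M.J x | brownianFiltration B hBm t.toNNReal] := condExp_nonneg hx
  filter_upwards [M.cond t ht x, h1] with ω h2 h3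
  rw [h2]; exact h3

theorem int_pos [IsProbabilityMeasure P] (M : Model R P B hBm) {x : H} (hx : 0 ≤ᵐ[P] M.J x)
    (hne : x ≠ 0) : 0 < ∫ ω, M.J x ω ∂P := by
  refine lt_of_le_of_ne (integral_nonneg_of_ae hx) ?_
  intro h0
  have hz := (integral_eq_zero_iff_of_nonneg_ae hx
    ((M.memLp x).integrable (by norm_num))).1 h0.symm
  have h1 := M.norm_sq x
  have h2 : ∫ ω, M.J x ω ^ 2 ∂P = 0 := by
    rw [integral_eq_zero_of_ae]
    filter_upwards [hz] with ω h3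
    have h4 : M.J x ω = 0 := h3
    simp [h4]
  rw [h2] at h1
  exact hne (norm_eq_zero.1 (pow_eq_zero_iff two_ne_zero |>.1 h1.symm))

theorem P_ae_ne [IsProbabilityMeasure P] (M : Model R P B hBm) {x : H} (hx : 0 ≤ᵐ[P] M.J x)
    (hne : x ≠ 0) {t : ℝ} (ht : t ∈ Icc (0:ℝ) 1) : ¬ M.J (R.P t x) =ᵐ[P] 0 := by
  intro h0
  have h1 := int_pos M hx hne
  have h2 : ∫ ω, M.J (R.P t x) ω ∂P = ∫ ω, M.J x ω ∂P := by
    rw [integral_congr_ae (M.cond t ht x)]
    exact integral_condExp ((brownianFiltration B hBm).le _)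
  rw [integral_congr_ae h0] at h2
  simp at h2
  linarith

theorem P_ne_zero [IsProbabilityMeasure P] (M : Model R P B hBm) {x : H} (hx : 0 ≤ᵐ[P] M.J x)
    (hne : x ≠ 0) {t : ℝ} (ht : t ∈ Icc (0:ℝ) 1) : R.P t x ≠ 0 := by
  intro h0
  apply P_ae_ne M hx hne ht
  rw [h0]
  have h1 := M.norm_sq 0
  have h2 : ∫ ω, M.J 0 ω ^ 2 ∂P = 0 := by rw [h1]; simp
  have h3 := (integral_eq_zero_iff_of_nonneg (fun ω => sq_nonneg (M.J 0 ω))
    (M.memLp 0).integrable_sq).1 h2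
  filter_upwards [h3] with ω h4
  have h5 : M.J 0 ω ^ 2 = 0 := h4
  exact pow_eq_zero_iff two_ne_zero |>.1 h5

variable [CompleteSpace H]

/-- `J (ξ + Dop D x) ≥ 1 + B_1` -/
theorem h_ge [IsProbabilityMeasure P] (M : Model R P B hBm) {ξ x : H}
    (hξ : M.J ξ =ᵐ[P] fun ω => 1 + B 1 ω) {D : ℝ → ℝ} (hD : ContinuousOn D (Icc 0 1))
    (ha : AntitoneOn D (Icc 0 1)) (h1 : 0 ≤ D 1) (hx : 0 ≤ᵐ[P] M.J x) :
    ∀ᵐ ω ∂P, 1 + B 1 ω ≤ M.J (ξ + R.Dop D x) ω := by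
  have hK : R.Dop D x ∈ {z : H | 0 ≤ᵐ[P] M.J z} := by
    refine Dop_mem_cone R hD ha h1 M.isClosed_nonneg ?_ ?_ ?_ ?_ hx
    · have h2 := M.smul 0 (0:H)
      rw [zero_smul] at h2
      show 0 ≤ᵐ[P] M.J 0
      filter_upwards [h2] with ω h3
      rw [h3]; simp
    · intro y hy z hz
      have hy' : 0 ≤ᵐ[P] M.J y := hy
      have hz' : 0 ≤ᵐ[P] M.J z := hz
      show 0 ≤ᵐ[P] M.J (y + z)
      filter_upwards [M.add y z, hy', hz'] with ω h2 h3 h4
      rw [h2]; exact add_nonneg h3 h4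
    · intro c hc y hy
      have hy' : 0 ≤ᵐ[P] M.J y := hy
      show 0 ≤ᵐ[P] M.J (c • y)
      filter_upwards [M.smul c y, hy'] with ω h2 h3
      rw [h2]; exact mul_nonneg hc h3
    · intro t ht y hy
      exact P_nonneg M hy ht
  have hK' : 0 ≤ᵐ[P] M.J (R.Dop D x) := hK
  filter_upwards [M.add ξ (R.Dop D x), hξ, hK'] with ω h2 h3 h4
  rw [h2, h3]
  have h5 : 0 ≤ M.J (R.Dop D x) ω := h4
  linarith

/-- strict positivity of the charge -/
theorem charge_pos [IsProbabilityMeasure P] (M : Model R P B hBm) (hB : IsPreBrownianReal B P)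
    {ξ x : H} (hξ : M.J ξ =ᵐ[P] fun ω => 1 + B 1 ω) {D : ℝ → ℝ}
    (hD : ContinuousOn D (Icc 0 1)) (ha : AntitoneOn D (Icc 0 1)) (h1 : 0 ≤ D 1)
    (hx : 0 ≤ᵐ[P] M.J x) (hne : x ≠ 0) (hh : 0 ≤ᵐ[P] M.J (ξ + R.Dop D x))
    {t : ℝ} (ht : t ∈ Ico (0:ℝ) 1) : 0 < ⟪R.P t (ξ + R.Dop D x), x⟫ := by
  have ht' : t ∈ Icc (0:ℝ) 1 := ⟨ht.1, ht.2.le⟩
  have htn : t.toNNReal < 1 := by
    rw [← NNReal.coe_lt_coe, Real.coe_toNNReal _ ht.1]; exact ht.2
  rw [R.symm, real_inner_comm, ← M.inner]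
  set h := M.J (ξ + R.Dop D x) with hh'
  have hc := M.cond t ht' x
  have e1 : ∫ ω, M.J (R.P t x) ω * h ω ∂P =
      ∫ ω, (P[M.J x | brownianFiltration B hBm t.toNNReal]) ω * h ω ∂P := by
    apply integral_congr_ae
    filter_upwards [hc] with ω h2
    rw [h2]
  rw [e1]
  refine pos_core hB hBm htn stronglyMeasurable_condExp.measurable ?_ ?_ hh
    (h_ge M hξ hD ha h1 hx) ?_
  · exact condExp_nonneg hx
  · intro h0
    exact P_ae_ne M hx hne ht' (hc.trans h0)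
  · have h2 : MemLp (M.J (R.P t x)) 2 P := M.memLp _
    have h3 : Integrable (fun ω => M.J (R.P t x) ω * h ω) P :=
      MemLp.integrable_mul (p := 2) (q := 2) h2 (M.memLp _)
    refine h3.congr ?_
    filter_upwards [hc] with ω h4
    rw [h4]

end Mod

end Crest.Agent.R146.PtPos_45
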