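import Crest.Agent.R146.StepAsm_791
import Crest.Agent.R146.DZeroW_106
import Crest.Agent.R146.Back_847
import Crest.Agent.R146.StepPub_679
import Crest.Agent.R146.PtPos_45
import Crest.Agent.R146.HilbD_356

/-!
Row 146: LAST EDGE of PT (helper791): `PLAW → START → Bridge → NOGAP → PTMAIN → TIPW W`.
-/

set_option autoImplicit false

namespace Crest.Agent.R146.PtEdge_791

open MeasureTheory ProbabilityTheory Set Filter Topology
open Crest.Agent.R146.StepDef_791 Crest.Agent.R146.TipSeq_791 Crest.Agent.R146.StepAsm_791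
open Crest.Agent.R146.PtHlim_45 Crest.Agent.R146.PtScalC_45
open Crest.Agent.R146.Hilb Crest.Agent.R146.HilbE Crest.Agent.R146.HilbD
open Crest.Agent.R146.JamIface_776 Crest.Agent.R146.P5Def_12 Crest.Agent.R146.P34_734
open Crest.Agent.R146.ProfB_540
open scoped RealInnerProductSpace

noncomputable section

theorem pub : PUB := fun A h => StepPub_679.step_pub A (Back_847.back A) h

section

variable {H : Type*} [NormedAddCommGroup H] [InnerProductSpace ℝ H] [CompleteSpace H]
  {R : Res H} {K : Set H} {ξ x : H} {α : ℝ} {D : ℝ → ℝ}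

theorem jam_isMin (h : IsJam R K ξ α x D) : IsMin R α 0 0 ξ K x D where
  mem := h.xK
  adm := h.adm
  le := fun y hy D' hD' => by rw [h.zero]; exact h.min y hy D' hD'

theorem jam_kkt (hα : 0 < α) (hK : IsCone K) (h : IsJam R K ξ α x D) : Kkt R K ξ D x := by
  obtain ⟨h1, h2⟩ := (jam_isMin h).kkt_x R hα hK
  have e : hvec R 0 ξ D x = ξ + R.Dop D x := by unfold hvec; simp
  rw [e] at h2
  exact ⟨h.xK, fun y hy => by have := h1 y hy; rwa [e] at this, h2⟩

theorem jam_kktD (h : IsJam R K ξ α x D) : KKTD R α x D := by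
  intro D' h1 h2 h3 h4 h5 h6
  have hadm : Adm 0 D' :=
    { prof := { conc := h1, anti := h2, cont := h3, pos := h4, one := h5 }
      cap := fun t ht => by rw [zero_mul]; linarith [ht.2]
      int := by
        have e : entF 0 D' = fun t => 1 / D' t := by funext t; simp only [entF, zero_div, sub_zero]
        rw [e]; exact h6 }
  refine kkt_D R x h.adm hadm fun E hE => ?_
  have h7 := (jam_isMin h).le x h.xK E hE
  rw [Je_eq_Gd, Je_eq_Gd] at h7
  linarith

end

/-- `1 ↦` the Brownian instance -/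
theorem tipw (W : BS) (hlaw : PLAW) (hst : START) (hbr : Bridge (RW W) (KW W) (xiW W))
    (hng : NOGAP) (hmain : PTMAIN) : TIPW W := by
  intro αc hα x D h
  have hK : IsCone (KW W) := DZeroW_106.isCone_KW W
  have hk := jam_kkt hα hK h
  have hD1 := DZeroW_106.D_one W hα h
  have hp := h.adm.prof
  have hint : IntervalIntegrable (fun t => 1 / D t) volume 0 1 := by
    have := h.adm.int
    have e : entF 0 D = fun t => 1 / D t := by funext t; simp only [entF, zero_div, sub_zero]
    rwa [e] at this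
  have hcp : ∀ t ∈ Ico (0 : ℝ) 1, 0 < ⟪(RW W).P t (xiW W + (RW W).Dop D x), x⟫ := by
    intro t ht
    exact PtPos_45.charge_pos (MW W) W.br.toIsPreBrownianReal
      (DualG_256.modelB_xi W.meas W.br 1) hp.cont hp.anti hp.one
      ((DZeroW_106.mem_KW W).1 h.xK) h.x0 (DZeroW_106.kkt_ae W hα h).1 ht
  obtain ⟨P, hP, τ, hc⟩ := tipSeq_of hα hk (jam_kktD h) hp.conc hp.anti hp.cont hD1 hp.pos hint
    hcp Back_847.back hlaw hst pub hbr hng
  obtain ⟨ν, h1, h2, h3⟩ := hmain P τ
  refine ⟨ν, hD1, ⟨τ.c0, τ.hc0, τ.t1, τ.ht1, hc⟩, ?_, h2, h3⟩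
  refine h1.congr' ?_
  filter_upwards [Ioo_mem_nhdsLT (zero_lt_one' ℝ)] with t ht
  rw [hP t (Ioo_subset_Icc_self ht)]

end

end Crest.Agent.R146.PtEdge_791
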