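import Mathlib

/-!
Row 146, PT-END (post 726, helper539): pure real-variable part (helper524).

* `one_sign_change`   : `D z1 = 0` and `0 < D'` at every zero => `D < 0` left, `0 < D` right of `z1`;
* `surj_of_deriv_ge`  : `a ≤ A'`, `0 < a` => `A` is surjective;
* `transplant`        : explicit supersolution `ψ` at `n` transplanted to the true operator, `ν ≤ n`;
* `transplant_mirror` : explicit subsolution (on `{ψ > 0}`), `n ≤ ν`;
* `decay_of_deriv_right_le`, `growth_of_le_deriv_right` : Gronwall with right derivatives;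
* `endgame_bound`, `endgame`, `endgame_mirror` : the scalar contradictions.
-/

set_option autoImplicit false

namespace Crest.Agent.R146.PtEndA_524

open Set Filter Topology

/-! ### (T-a) one sign change -/

/-- right half of the sign lemma. -/
theorem pos_right {D D' : ℝ → ℝ} (hD : ∀ z, HasDerivAt D (D' z) z) {z1 : ℝ} (h1 : D z1 = 0)
    (hz : ∀ z, D z = 0 → 0 < D' z) : ∀ z, z1 < z → 0 < D z := by
  have hcont : Continuous D := continuous_iff_continuousAt.2 fun z => (hD z).continuousAt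
  -- near a zero, `D` is positive on the right and negative on the left
  have hloc : ∀ w, D w = 0 → (∀ᶠ x in 𝓝[>] w, 0 < D x) ∧ (∀ᶠ x in 𝓝[<] w, D x < 0) := by
    intro w hw
    have h := (hasDerivAt_iff_tendsto_slope.1 (hD w)).eventually (eventually_gt_nhds (hz w hw))
    constructor
    · have h2 : ∀ᶠ x in 𝓝[>] w, 0 < slope D w x :=
        h.filter_mono (nhdsWithin_mono w (fun x hx => ne_of_gt hx))
      filter_upwards [h2, self_mem_nhdsWithin] with x hx hxw
      have hxw' : 0 < x - w := sub_pos.2 hxw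
      rw [slope_def_field, hw, sub_zero] at hx
      exact (div_pos_iff_of_pos_right hxw').1 hx
    · have h2 : ∀ᶠ x in 𝓝[<] w, 0 < slope D w x :=
        h.filter_mono (nhdsWithin_mono w (fun x hx => ne_of_lt hx))
      filter_upwards [h2, self_mem_nhdsWithin] with x hx hxw
      have hxw' : x - w < 0 := sub_neg.2 hxw
      rw [slope_def_field, hw, sub_zero] at hx
      by_contra hcon
      push Not at hcon
      have : D x / (x - w) ≤ 0 := div_nonpos_of_nonneg_of_nonpos hcon hxw'.le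
      linarith
  intro z hz1
  by_contra hcon
  push Not at hcon
  -- the first bad point
  set S : Set ℝ := {w | z1 < w ∧ D w ≤ 0} with hS
  have hne : S.Nonempty := ⟨z, hz1, hcon⟩
  have hbd : BddBelow S := ⟨z1, fun w hw => hw.1.le⟩
  set z2 := sInf S with hz2
  have hge : z1 ≤ z2 := le_csInf hne fun w hw => hw.1.le
  -- `z1 < z2`
  obtain ⟨u, hu, hu'⟩ := (mem_nhdsGT_iff_exists_Ioo_subset).1 (hloc z1 h1).1
  have hlt : z1 < z2 := by
    have : u ≤ z2 := le_csInf hne fun w hw => by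
      by_contra hwu
      push Not at hwu
      have := hu' ⟨hw.1, hwu⟩
      exact absurd hw.2 (not_le.2 this)
    exact lt_of_lt_of_le hu this
  have hpos : ∀ w, z1 < w → w < z2 → 0 < D w := by
    intro w hw hw2
    by_contra hc
    push Not at hc
    exact absurd (csInf_le hbd (show w ∈ S from ⟨hw, hc⟩)) (not_le.2 hw2)
  -- `D z2 = 0`
  have hle : D z2 ≤ 0 := by
    have hcl : z2 ∈ closure S := csInf_mem_closure hne hbd
    have hsub : S ⊆ D ⁻¹' (Iic 0) := fun w hw => hw.2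
    exact (isClosed_Iic.preimage hcont).closure_subset_iff.2 hsub hcl
  have hge0 : 0 ≤ D z2 := by
    have hcw : Tendsto D (𝓝[<] z2) (𝓝 (D z2)) := hcont.continuousAt.mono_left nhdsWithin_le_nhds
    refine ge_of_tendsto hcw ?_
    have : Ioo z1 z2 ∈ 𝓝[<] z2 := Ioo_mem_nhdsLT hlt
    filter_upwards [this] with w hw
    exact (hpos w hw.1 hw.2).le
  have h0 : D z2 = 0 := le_antisymm hle hge0
  have hev := (hloc z2 h0).2
  have hmem : Ioo z1 z2 ∈ 𝓝[<] z2 := Ioo_mem_nhdsLT hlt
  obtain ⟨w, hw1, hw2⟩ := (hev.and (show ∀ᶠ x in 𝓝[<] z2, x ∈ Ioo z1 z2 from hmem)).exists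
  exact absurd hw1 (not_lt.2 (hpos w hw2.1 hw2.2).le)

theorem one_sign_change {D D' : ℝ → ℝ} (hD : ∀ z, HasDerivAt D (D' z) z) {z1 : ℝ} (h1 : D z1 = 0)
    (hz : ∀ z, D z = 0 → 0 < D' z) : (∀ z, z < z1 → D z < 0) ∧ (∀ z, z1 < z → 0 < D z) := by
  refine ⟨?_, pos_right hD h1 hz⟩
  have hE : ∀ z, HasDerivAt (fun x => -D (-x)) (D' (-z)) z := by
    intro z
    have h := ((hD (-z)).comp z (hasDerivAt_neg z)).neg
    have e : -(D' (-z) * -1) = D' (-z) := by ring
    rw [e] at h
    exact h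
  have h := pos_right (D := fun x => -D (-x)) (D' := fun x => D' (-x)) hE (z1 := -z1)
    (by simp [h1]) (fun z hz0 => hz _ (by simpa using hz0))
  intro z hz1
  have := h (-z) (by linarith)
  simp only [neg_neg] at this
  linarith

/-- mirror form: negative derivative at the zeros. -/
theorem one_sign_change_neg {D D' : ℝ → ℝ} (hD : ∀ z, HasDerivAt D (D' z) z) {z1 : ℝ}
    (h1 : D z1 = 0) (hz : ∀ z, D z = 0 → D' z < 0) :
    (∀ z, z < z1 → 0 < D z) ∧ (∀ z, z1 < z → D z < 0) := by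
  have h := one_sign_change (D := fun z => -D z) (D' := fun z => -D' z) (fun z => (hD z).neg)
    (z1 := z1) (by simp [h1]) (fun z hz0 => by
      have := hz z (by simpa using hz0)
      simpa using this)
  exact ⟨fun z hz1 => by simpa using h.1 z hz1, fun z hz1 => by simpa using h.2 z hz1⟩

/-- a function with derivative bounded below by a positive constant is onto. -/
theorem surj_of_deriv_ge {A A' : ℝ → ℝ} (hA : ∀ z, HasDerivAt A (A' z) z) {a : ℝ} (ha : 0 < a)
    (hA' : ∀ z, a ≤ A' z) : Function.Surjective A := by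
  have hcont : Continuous A := continuous_iff_continuousAt.2 fun z => (hA z).continuousAt
  have hB : ∀ z, HasDerivAt (fun z => A z - a * z) (A' z - a) z := by
    intro z
    have h := (hA z).sub ((hasDerivAt_id z).const_mul a)
    rw [mul_one] at h
    exact h
  have hmono : Monotone fun z => A z - a * z := by
    refine monotone_of_deriv_nonneg (fun z => (hB z).differentiableAt) ?_
    intro z
    rw [(hB z).deriv]
    have := hA' z
    linarith
  refine hcont.surjective ?_ ?_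
  · refine tendsto_atTop_mono' atTop (f₁ := fun z => A 0 + a * z) ?_ ?_
    · filter_upwards [eventually_ge_atTop (0 : ℝ)] with z hz
      have := hmono hz
      simp only [mul_zero, sub_zero] at this
      linarith
    · exact tendsto_atTop_add_const_left _ _ (tendsto_id.const_mul_atTop ha)
  · refine Filter.tendsto_atBot_mono' atBot (f₁ := fun z => A 0 + a * z) ?_ ?_
    · filter_upwards [eventually_le_atBot (0 : ℝ)] with z hz
      have := hmono hz
      simp only [mul_zero, sub_zero] at this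
      linarith
    · exact tendsto_atBot_add_const_left _ _ (tendsto_id.const_mul_atBot ha)

/-! ### (T-b) transplant -/

/-- the drift difference `A - At(· + c)` against the translated unimodal `ψ`. -/
theorem drift_mul_nonpos {A A' At At' ψ' : ℝ → ℝ}
    (hA : ∀ z, HasDerivAt A (A' z) z) (hAt : ∀ z, HasDerivAt At (At' z) z)
    (hslide : ∀ z w, A z = At w → At' w < A' z)
    {z0 zs : ℝ} (hzs : A zs = At z0) (huni : ∀ z, (z - z0) * ψ' z ≤ 0) (z : ℝ) :
    (A z - At (z + (z0 - zs))) * ψ' (z + (z0 - zs)) ≤ 0 := by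
  have hD : ∀ z, HasDerivAt (fun x => A x - At (x + (z0 - zs))) (A' z - At' (z + (z0 - zs))) z :=
    fun z => (hA z).sub ((hAt (z + (z0 - zs))).comp_add_const z (z0 - zs))
  have h := one_sign_change hD (z1 := zs)
    (by simp only [add_sub_cancel]; linarith [hzs])
    (fun z hz0 => by
      have := hslide z (z + (z0 - zs)) (by linarith)
      linarith)
  have hu := huni (z + (z0 - zs))
  have e : z + (z0 - zs) - z0 = z - zs := by ring
  rw [e] at hu
  rcases lt_trichotomy z zs with hlt | heq | hgt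
  · have h1 := h.1 z hlt
    have h2 : 0 ≤ ψ' (z + (z0 - zs)) := by
      by_contra hc
      push Not at hc
      nlinarith [mul_pos_of_neg_of_neg (sub_neg.2 hlt) hc]
    exact mul_nonpos_of_nonpos_of_nonneg h1.le h2
  · subst heq
    simp only [add_sub_cancel]
    rw [hzs, sub_self, zero_mul]
  · have h1 := h.2 z hgt
    have h2 : ψ' (z + (z0 - zs)) ≤ 0 := by
      by_contra hc
      push Not at hc
      nlinarith [mul_pos (sub_pos.2 hgt) hc]
    exact mul_nonpos_of_nonneg_of_nonpos h1.le h2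

theorem drift_mul_nonneg {A A' At At' ψ' : ℝ → ℝ}
    (hA : ∀ z, HasDerivAt A (A' z) z) (hAt : ∀ z, HasDerivAt At (At' z) z)
    (hslide : ∀ z w, A z = At w → A' z < At' w)
    {z0 zs : ℝ} (hzs : A zs = At z0) (huni : ∀ z, (z - z0) * ψ' z ≤ 0) (z : ℝ) :
    0 ≤ (A z - At (z + (z0 - zs))) * ψ' (z + (z0 - zs)) := by
  have hD : ∀ z, HasDerivAt (fun x => A x - At (x + (z0 - zs))) (A' z - At' (z + (z0 - zs))) z :=
    fun z => (hA z).sub ((hAt (z + (z0 - zs))).comp_add_const z (z0 - zs))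
  have h := one_sign_change_neg hD (z1 := zs)
    (by simp only [add_sub_cancel]; linarith [hzs])
    (fun z hz0 => by
      have := hslide z (z + (z0 - zs)) (by linarith)
      linarith)
  have hu := huni (z + (z0 - zs))
  have e : z + (z0 - zs) - z0 = z - zs := by ring
  rw [e] at hu
  rcases lt_trichotomy z zs with hlt | heq | hgt
  · have h1 := h.1 z hlt
    have h2 : 0 ≤ ψ' (z + (z0 - zs)) := by
      by_contra hc
      push Not at hc
      nlinarith [mul_pos_of_neg_of_neg (sub_neg.2 hlt) hc]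
    exact mul_nonneg h1.le h2
  · subst heq
    simp only [add_sub_cancel]
    rw [hzs, sub_self, zero_mul]
  · have h1 := h.2 z hgt
    have h2 : ψ' (z + (z0 - zs)) ≤ 0 := by
      by_contra hc
      push Not at hc
      nlinarith [mul_pos (sub_pos.2 hgt) hc]
    exact mul_nonneg_of_nonpos_of_nonpos h1.le h2

/-- TRANSPLANT, supersolution version: the explicit pair `(At, ψ)` at `n` gives a supersolution
for the true drift `A` at every `ν ≤ n`, with a translation `c`. -/
theorem transplant {A A' At At' ψ ψ' ψ'' : ℝ → ℝ} {n ν d a z0 : ℝ}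
    (hA : ∀ z, HasDerivAt A (A' z) z) (hAt : ∀ z, HasDerivAt At (At' z) z)
    (ha : 0 < a) (hA' : ∀ z, a ≤ A' z)
    (hslide : ∀ z w, A z = At w → At' w < A' z)
    (huni : ∀ z, (z - z0) * ψ' z ≤ 0) (hψ0 : ∀ z, 0 ≤ ψ z)
    (hψ : ∀ z, ψ'' z + At z * ψ' z + 2 * n * ψ z ≤ -(2 * d * ψ z)) (hν : ν ≤ n) :
    ∃ c, (∀ z, (A z - At (z + c)) * ψ' (z + c) ≤ 0) ∧
      ∀ z, ψ'' (z + c) + A z * ψ' (z + c) + 2 * ν * ψ (z + c) ≤ -(2 * d * ψ (z + c)) := by
  obtain ⟨zs, hzs⟩ := surj_of_deriv_ge hA ha hA' (At z0)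
  refine ⟨z0 - zs, drift_mul_nonpos hA hAt hslide hzs huni, fun z => ?_⟩
  have h1 := drift_mul_nonpos hA hAt hslide hzs huni z
  have h2 := hψ (z + (z0 - zs))
  have h3 : 0 ≤ (n - ν) * ψ (z + (z0 - zs)) := mul_nonneg (by linarith) (hψ0 _)
  nlinarith

/-- TRANSPLANT, subsolution version on `{ψ > 0}`. -/
theorem transplant_mirror {A A' At At' ψ ψ' ψ'' : ℝ → ℝ} {n ν d a z0 : ℝ}
    (hA : ∀ z, HasDerivAt A (A' z) z) (hAt : ∀ z, HasDerivAt At (At' z) z)
    (ha : 0 < a) (hA' : ∀ z, a ≤ A' z)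
    (hslide : ∀ z w, A z = At w → A' z < At' w)
    (huni : ∀ z, (z - z0) * ψ' z ≤ 0)
    (hψ : ∀ z, 0 < ψ z → d ≤ ψ'' z + At z * ψ' z + 2 * n * ψ z) (hν : n ≤ ν) :
    ∃ c, (∀ z, 0 ≤ (A z - At (z + c)) * ψ' (z + c)) ∧
      ∀ z, 0 < ψ (z + c) → d ≤ ψ'' (z + c) + A z * ψ' (z + c) + 2 * ν * ψ (z + c) := by
  obtain ⟨zs, hzs⟩ := surj_of_deriv_ge hA ha hA' (At z0)
  refine ⟨z0 - zs, drift_mul_nonneg hA hAt hslide hzs huni, fun z hz => ?_⟩
  have h1 := drift_mul_nonneg hA hAt hslide hzs huni z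
  have h2 := hψ (z + (z0 - zs)) hz
  have h3 : 0 ≤ (ν - n) * ψ (z + (z0 - zs)) := mul_nonneg (by linarith) hz.le
  nlinarith

/-! ### (T-c) scalar endgame -/

/-- `F' ≤ -κ F` (right derivatives) gives exponential decay. -/
theorem decay_of_deriv_right_le {F F' : ℝ → ℝ} {κ s0 s1 : ℝ}
    (hc : ContinuousOn F (Icc s0 s1))
    (hF : ∀ s ∈ Ico s0 s1, HasDerivWithinAt F (F' s) (Ici s) s)
    (hle : ∀ s ∈ Ico s0 s1, F' s ≤ -κ * F s) :
    ∀ s ∈ Icc s0 s1, F s ≤ F s0 * Real.exp (-κ * (s - s0)) := by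
  intro s hs
  have hE : ∀ x, HasDerivAt (fun x => Real.exp (κ * (x - s0))) (Real.exp (κ * (x - s0)) * κ) x := by
    intro x
    have h := (((hasDerivAt_id x).sub_const s0).const_mul κ).exp
    simpa using h
  have key := image_le_of_deriv_right_le_deriv_boundary
    (f := fun x => F x * Real.exp (κ * (x - s0)))
    (f' := fun x => F' x * Real.exp (κ * (x - s0)) + F x * (Real.exp (κ * (x - s0)) * κ))
    (a := s0) (b := s1)
    (hc.mul (by fun_prop))
    (fun x hx => (hF x hx).mul (hE x).hasDerivWithinAt)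
    (B := fun _ => F s0) (B' := fun _ => 0) (by simp) continuousOn_const
    (fun x _ => hasDerivWithinAt_const x _ (F s0))
    (fun x hx => by
      have h1 := hle x hx
      have h2 := Real.exp_pos (κ * (x - s0))
      have h3 : (F' x + κ * F x) * Real.exp (κ * (x - s0)) ≤ 0 :=
        mul_nonpos_of_nonpos_of_nonneg (by linarith) h2.le
      calc F' x * Real.exp (κ * (x - s0)) + F x * (Real.exp (κ * (x - s0)) * κ)
          = (F' x + κ * F x) * Real.exp (κ * (x - s0)) := by ring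
        _ ≤ 0 := h3) hs
  have h2 : Real.exp (κ * (s - s0)) * Real.exp (-κ * (s - s0)) = 1 := by
    rw [← Real.exp_add]; simp
  calc F s = F s * Real.exp (κ * (s - s0)) * Real.exp (-κ * (s - s0)) := by
        rw [mul_assoc, h2, mul_one]
    _ ≤ F s0 * Real.exp (-κ * (s - s0)) :=
        mul_le_mul_of_nonneg_right key (Real.exp_pos _).le

/-- `-κ F ≤ F'` (right derivatives) gives the exponential lower bound. -/
theorem growth_of_le_deriv_right {F F' : ℝ → ℝ} {κ s0 s1 : ℝ}
    (hc : ContinuousOn F (Icc s0 s1))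
    (hF : ∀ s ∈ Ico s0 s1, HasDerivWithinAt F (F' s) (Ici s) s)
    (hle : ∀ s ∈ Ico s0 s1, -κ * F s ≤ F' s) :
    ∀ s ∈ Icc s0 s1, F s0 * Real.exp (-κ * (s - s0)) ≤ F s := by
  intro s hs
  have h := decay_of_deriv_right_le (F := fun x => -F x) (F' := fun x => -F' x) (κ := κ)
    hc.neg (fun x hx => (hF x hx).neg) (fun x hx => by
      have := hle x hx
      linarith) s hs
  linarith

/-- a function of the form `K e^{-κ' r}` cannot dominate `c e^{-κ r}` for all `r ≥ 0` if `κ < κ'`. -/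
theorem endgame_bound {c K κ κ' : ℝ} (hc : 0 < c) (hκ : κ < κ')
    (h : ∀ r : ℝ, 0 ≤ r → c * Real.exp (-κ * r) ≤ K * Real.exp (-κ' * r)) : False := by
  have hlim : Tendsto (fun r : ℝ => K * Real.exp (-(κ' - κ) * r)) atTop (𝓝 (K * 0)) := by
    refine Tendsto.const_mul K ?_
    have h1 : Tendsto (fun r : ℝ => (κ' - κ) * r) atTop atTop :=
      tendsto_id.const_mul_atTop (by linarith)
    have h2 := Real.tendsto_exp_neg_atTop_nhds_zero.comp h1
    refine h2.congr fun r => ?_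
    simp only [Function.comp]
    congr 1
    ring
  have h2 : ∀ᶠ r : ℝ in atTop, c ≤ K * Real.exp (-(κ' - κ) * r) := by
    filter_upwards [eventually_ge_atTop (0 : ℝ)] with r hr
    have h3 := h r hr
    have h4 : Real.exp (-κ' * r) = Real.exp (-(κ' - κ) * r) * Real.exp (-κ * r) := by
      rw [← Real.exp_add]; congr 1; ring
    rw [h4, ← mul_assoc] at h3
    exact le_of_mul_le_mul_right h3 (Real.exp_pos _)
  have h3 := ge_of_tendsto hlim h2
  rw [mul_zero] at h3
  linarith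

/-- SCALAR ENDGAME (case `ν∞ ≤ n-`). `F k s` decays at rate `κ'` on `[s0, s1]` for all large `k`
(the threshold may depend on `s1`), `Q k ≤ C F k`, `Q k s1 → c0 D(s1)`, and `D` decays at most at
rate `κ < κ'`: contradiction. -/
theorem endgame {F Q : ℕ → ℝ → ℝ} {D : ℝ → ℝ} {C C1 c0 κ κ' s0 : ℝ}
    (hC : 0 ≤ C) (hc0 : 0 < c0) (hD0 : 0 < D s0) (hκ : κ < κ')
    (hF0 : ∀ᶠ k in atTop, F k s0 ≤ C1)
    (hF : ∀ s1, s0 ≤ s1 → ∀ᶠ k in atTop, F k s1 ≤ F k s0 * Real.exp (-κ' * (s1 - s0)))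
    (hQ : ∀ s1, s0 ≤ s1 → ∀ᶠ k in atTop, Q k s1 ≤ C * F k s1)
    (hQD : ∀ s1, s0 ≤ s1 → Tendsto (fun k => Q k s1) atTop (𝓝 (c0 * D s1)))
    (hD : ∀ s1, s0 ≤ s1 → D s0 * Real.exp (-κ * (s1 - s0)) ≤ D s1) : False := by
  refine endgame_bound (c := c0 * D s0) (K := C * C1) (κ := κ) (κ' := κ') (by positivity) hκ ?_
  intro r hr
  have hs : s0 ≤ s0 + r := by linarith
  have h1 : c0 * D (s0 + r) ≤ C * C1 * Real.exp (-κ' * r) := by
    refine le_of_tendsto (hQD _ hs) ?_
    filter_upwards [hF0, hF _ hs, hQ _ hs] with k h1 h2 h3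
    have e : s0 + r - s0 = r := by ring
    rw [e] at h2
    calc Q k (s0 + r) ≤ C * F k (s0 + r) := h3
      _ ≤ C * (F k s0 * Real.exp (-κ' * r)) := mul_le_mul_of_nonneg_left h2 hC
      _ ≤ C * (C1 * Real.exp (-κ' * r)) :=
          mul_le_mul_of_nonneg_left (mul_le_mul_of_nonneg_right h1 (Real.exp_pos _).le) hC
      _ = C * C1 * Real.exp (-κ' * r) := by ring
  have h2 := hD _ hs
  have e : s0 + r - s0 = r := by ring
  rw [e] at h2
  calc c0 * D s0 * Real.exp (-κ * r) = c0 * (D s0 * Real.exp (-κ * r)) := by ring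
    _ ≤ c0 * D (s0 + r) := mul_le_mul_of_nonneg_left h2 hc0.le
    _ ≤ C * C1 * Real.exp (-κ' * r) := h1

/-- SCALAR ENDGAME, mirror (case `n+ ≤ ν∞`). `F k s` decays at most at rate `κ`, starts above
`f0 > 0`, is dominated by `C Q k`, `Q k s1 → c0 D(s1)`, and `D` decays at least at rate
`κ' > κ`: contradiction. -/
theorem endgame_mirror {F Q : ℕ → ℝ → ℝ} {D : ℝ → ℝ} {C f0 c0 κ κ' s0 : ℝ}
    (hC : 0 ≤ C) (hf0 : 0 < f0) (hc0 : 0 ≤ c0) (hκ : κ < κ')
    (hF0 : ∀ᶠ k in atTop, f0 ≤ F k s0)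
    (hF : ∀ s1, s0 ≤ s1 → ∀ᶠ k in atTop, F k s0 * Real.exp (-κ * (s1 - s0)) ≤ F k s1)
    (hQ : ∀ s1, s0 ≤ s1 → ∀ᶠ k in atTop, F k s1 ≤ C * Q k s1)
    (hQD : ∀ s1, s0 ≤ s1 → Tendsto (fun k => Q k s1) atTop (𝓝 (c0 * D s1)))
    (hD : ∀ s1, s0 ≤ s1 → D s1 ≤ D s0 * Real.exp (-κ' * (s1 - s0))) : False := by
  refine endgame_bound (c := f0) (K := C * (c0 * D s0)) (κ := κ) (κ' := κ') hf0 hκ ?_
  intro r hr
  have hs : s0 ≤ s0 + r := by linarith
  have e : s0 + r - s0 = r := by ring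
  have h1 : f0 * Real.exp (-κ * r) ≤ C * (c0 * D (s0 + r)) := by
    refine ge_of_tendsto ((hQD _ hs).const_mul C) ?_
    filter_upwards [hF0, hF _ hs, hQ _ hs] with k h1 h2 h3
    rw [e] at h2
    calc f0 * Real.exp (-κ * r) ≤ F k s0 * Real.exp (-κ * r) :=
          mul_le_mul_of_nonneg_right h1 (Real.exp_pos _).le
      _ ≤ F k (s0 + r) := h2
      _ ≤ C * Q k (s0 + r) := h3
  have h2 := hD _ hs
  rw [e] at h2
  calc f0 * Real.exp (-κ * r) ≤ C * (c0 * D (s0 + r)) := h1
    _ ≤ C * (c0 * (D s0 * Real.exp (-κ' * r))) :=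
        mul_le_mul_of_nonneg_left (mul_le_mul_of_nonneg_left h2 hc0) hC
    _ = C * (c0 * D s0) * Real.exp (-κ' * r) := by ring

end Crest.Agent.R146.PtEndA_524
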