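import Crest.Agent.R146.StepDef_791

/-!
Row 146, PT-END (task 110, part (T-d)): similarity observables of the step system (helper524).

For a positive scale `S(t)` with one-sided derivatives `-κ, -κl` and a `C²` test function `φ`,
`F(t) = E φ(x/√S(t))` satisfies (right derivative, `z = x/√S`, `U = u/√S`)
`F'(t) = (1/(2S)) E[ φ''(z) + (κ z + 2 b S U) φ'(z) ]`.

* `S = χ = D K0`, `κ = 1 + m K0`, `b χ = m K0`;     (new clock)
* `S = 1 - t`, `κ = 1`, `b S = b (1 - t)`;            (old clock)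

`decay_of_super`, `growth_of_sub`: Gronwall in the clock `r(t) = ∫_0^t 1/S`; `D_decay`, `D_growth`.
`super_contra`, `sub_contra`: the contradictions of PT-END along a sequence of step systems whose drift
converges to `α z + 2 c Uc(z)` (`α = 1 + c` in the new clock, `α = 1` in the old one), from ONE explicit
robust super/subsolution `φ` comparable with `R V` (post 726).
-/

set_option autoImplicit false

namespace Crest.Agent.R146.PtEndD_524

open MeasureTheory Set Filter Topology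
open Crest.Agent.R146.StepDef_791

noncomputable section

/-! ### one-sided continuity and bounds of the step weights -/

theorem mrc_rc : ∀ (cs : Cells) (T t : ℝ), Valid T cs → ContinuousWithinAt (mrc T cs) (Ici t) t
  | [], _, _, _ => continuousWithinAt_const
  | c :: cs, T, t, h => by
      rcases lt_or_ge t c.1 with h1 | h1
      · have ih := mrc_rc cs c.1 t h.2.2
        refine ih.congr_of_eventuallyEq ?_ ?_
        · have : Iio c.1 ∈ 𝓝[Ici t] t := mem_nhdsWithin_of_mem_nhds (Iio_mem_nhds h1)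
          filter_upwards [this] with s hs
          have hs' : ¬ c.1 ≤ s := not_le.2 hs
          simp [mrc, hs']
        · simp [mrc, not_le.2 h1]
      · rcases lt_or_ge t T with h2 | h2
        · refine (continuousWithinAt_const (b := c.2)).congr_of_eventuallyEq ?_ ?_
          · filter_upwards [self_mem_nhdsWithin, mem_nhdsWithin_of_mem_nhds (Iio_mem_nhds h2)]
              with s hs hs2
            have h3 : c.1 ≤ s := h1.trans hs
            have h4 : s < T := hs2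
            simp [mrc, h3, h4]
          · simp [mrc, h1, h2]
        · refine (continuousWithinAt_const (b := (0 : ℝ))).congr_of_eventuallyEq ?_ ?_
          · filter_upwards [self_mem_nhdsWithin] with s hs
            have h3 : c.1 ≤ s := h1.trans hs
            have h4 : ¬ s < T := not_lt.2 (h2.trans hs)
            simp [mrc, h3, h4]
          · simp [mrc, h1, not_lt.2 h2]

theorem mlc_lc : ∀ (cs : Cells) (T t : ℝ), Valid T cs → ContinuousWithinAt (mlc T cs) (Iic t) t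
  | [], _, _, _ => continuousWithinAt_const
  | c :: cs, T, t, h => by
      rcases le_or_gt t c.1 with h1 | h1
      · have ih := mlc_lc cs c.1 t h.2.2
        refine ih.congr_of_eventuallyEq ?_ ?_
        · filter_upwards [self_mem_nhdsWithin] with s hs
          have hs' : ¬ c.1 < s := not_lt.2 (le_trans hs h1)
          simp [mlc, hs']
        · simp [mlc, not_lt.2 h1]
      · rcases le_or_gt t T with h2 | h2
        · refine (continuousWithinAt_const (b := c.2)).congr_of_eventuallyEq ?_ ?_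
          · filter_upwards [self_mem_nhdsWithin, mem_nhdsWithin_of_mem_nhds (Ioi_mem_nhds h1)]
              with s hs hs2
            have h3 : c.1 < s := hs2
            have h4 : s ≤ T := le_trans hs h2
            simp [mlc, h3, h4]
          · simp [mlc, h1, h2]
        · refine (continuousWithinAt_const (b := (0 : ℝ))).congr_of_eventuallyEq ?_ ?_
          · filter_upwards [mem_nhdsWithin_of_mem_nhds (Ioi_mem_nhds h1),
              mem_nhdsWithin_of_mem_nhds (Ioi_mem_nhds h2)] with s hs hs2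
            have h3 : c.1 < s := hs
            have h4 : ¬ s ≤ T := not_le.2 hs2
            simp [mlc, h3, h4]
          · simp [mlc, h1, not_le.2 h2]

theorem mc_bdd : ∀ (cs : Cells) (T : ℝ), ∃ M : ℝ, ∀ t, |mrc T cs t| ≤ M ∧ |mlc T cs t| ≤ M
  | [], _ => ⟨0, fun t => by simp [mrc, mlc]⟩
  | c :: cs, T => by
      obtain ⟨M, hM⟩ := mc_bdd cs c.1
      refine ⟨max M |c.2|, fun t => ⟨?_, ?_⟩⟩
      · unfold mrc
        split_ifs
        · exact le_max_right _ _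
        · rw [abs_zero]; exact le_max_of_le_right (abs_nonneg _)
        · exact (hM t).1.trans (le_max_left _ _)
      · unfold mlc
        split_ifs
        · exact le_max_right _ _
        · rw [abs_zero]; exact le_max_of_le_right (abs_nonneg _)
        · exact (hM t).2.trans (le_max_left _ _)

/-! ### test functions and scales -/

/-- `C²` test functions with polynomial growth -/
structure TF (φ φ' φ'' : ℝ → ℝ) : Prop where
  h1 : ∀ z, HasDerivAt φ (φ' z) z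
  h2 : ∀ z, HasDerivAt φ' (φ'' z) z
  hc : Continuous φ''
  gr : ∃ C : ℝ, ∃ n : ℕ, 0 ≤ C ∧ ∀ z, |φ z| ≤ C * (1 + |z|) ^ n ∧ |φ' z| ≤ C * (1 + |z|) ^ n ∧
    |φ'' z| ≤ C * (1 + |z|) ^ n

/-- admissible scales -/
structure Scale (A : SD) (S κ κl : ℝ → ℝ) : Prop where
  pos : ∀ t ∈ Icc 0 A.T, 0 < S t
  cont : ContinuousOn S (Icc 0 A.T)
  hr : ∀ t ∈ Ico 0 A.T, HasDerivWithinAt S (-(κ t)) (Ici t) t
  hl : ∀ t ∈ Ioc 0 A.T, HasDerivWithinAt S (-(κl t)) (Iic t) t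
  cr : ∀ t ∈ Ico 0 A.T, ContinuousWithinAt κ (Ici t) t
  cl : ∀ t ∈ Ioc 0 A.T, ContinuousWithinAt κl (Iic t) t
  bd : ∃ M : ℝ, ∀ t ∈ Icc 0 A.T, |κ t| ≤ M ∧ |κl t| ≤ M

/-- the new clock -/
theorem scale_chi {A : SD} (hC : Clock A) :
    Scale A A.chi (fun t => 1 + A.m t * A.K0 t) (fun t => 1 + A.ml t * A.K0 t) := by
  have hK : ∀ t ∈ Icc 0 A.T, ContinuousAt A.K0 t := fun t ht => (hC.K0_t t ht).continuousAt
  have hKc : ContinuousOn A.K0 (Icc 0 A.T) := fun t ht => (hK t ht).continuousWithinAt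
  obtain ⟨M, hM⟩ := mc_bdd A.cs A.T
  obtain ⟨B, hB⟩ := isCompact_Icc.exists_bound_of_continuousOn hKc
  have hM0 : 0 ≤ M := (abs_nonneg _).trans (hM 0).1
  refine ⟨fun t ht => hC.chi_pos t (ht.2.trans_lt A.hT1), ?_, hC.chi_t, hC.chi_tl, ?_, ?_, ?_⟩
  · exact hC.D_cont.continuousOn.mul hKc
  · intro t ht
    exact continuousWithinAt_const.add ((mrc_rc A.cs A.T t A.hv).mul
      (hK t ⟨ht.1, ht.2.le⟩).continuousWithinAt)
  · intro t ht
    exact continuousWithinAt_const.add ((mlc_lc A.cs A.T t A.hv).mul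
      (hK t ⟨ht.1.le, ht.2⟩).continuousWithinAt)
  · refine ⟨1 + M * B, fun t ht => ?_⟩
    have h1 := hB t ht
    rw [Real.norm_eq_abs] at h1
    constructor
    · refine (abs_add_le _ _).trans ?_
      rw [abs_one, abs_mul]
      exact add_le_add le_rfl (mul_le_mul (hM t).1 h1 (abs_nonneg _) hM0)
    · refine (abs_add_le _ _).trans ?_
      rw [abs_one, abs_mul]
      exact add_le_add le_rfl (mul_le_mul (hM t).2 h1 (abs_nonneg _) hM0)

/-- the old clock -/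
theorem scale_tau (A : SD) : Scale A (fun t => 1 - t) (fun _ => 1) (fun _ => 1) := by
  refine ⟨fun t ht => ?_, ?_, ?_, ?_, ?_, ?_, ?_⟩
  · have := A.hT1; have := ht.2; linarith
  · fun_prop
  · intro t _
    have h := ((hasDerivAt_id t).const_sub 1)
    simpa using h.hasDerivWithinAt
  · intro t _
    have h := ((hasDerivAt_id t).const_sub 1)
    simpa using h.hasDerivWithinAt
  · intro t _; exact continuousWithinAt_const
  · intro t _; exact continuousWithinAt_const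
  · exact ⟨1, fun t _ => by simp⟩

section test

variable {A : SD} {S κ κl : ℝ → ℝ} {φ φ' φ'' : ℝ → ℝ}

/-- one-sided time derivative of `φ(x/√S)` -/
theorem hasDeriv_sim {s : Set ℝ} {t x S' : ℝ} {S : ℝ → ℝ} (hS : 0 < S t)
    (hd : HasDerivWithinAt S (-S') s t) (h1 : ∀ z, HasDerivAt φ (φ' z) z) :
    HasDerivWithinAt (fun r => φ (x / Real.sqrt (S r)))
      (φ' (x / Real.sqrt (S t)) * (x / Real.sqrt (S t)) * (S' / (2 * S t))) s t := by
  have hs := hd.sqrt hS.ne'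
  have hsq : Real.sqrt (S t) ≠ 0 := (Real.sqrt_pos.2 hS).ne'
  have h2 := (hasDerivWithinAt_const t s x).div hs hsq
  have h3 := (h1 (x / Real.sqrt (S t))).comp_hasDerivWithinAt t h2
  refine h3.congr_deriv ?_
  have e : Real.sqrt (S t) * Real.sqrt (S t) = S t := Real.mul_self_sqrt hS.le
  have e2 : Real.sqrt (S t) ^ 2 = S t := Real.sq_sqrt hS.le
  rw [e2]
  have hS' : S t ≠ 0 := hS.ne'
  field_simp
  ring

theorem growth_sim {f : ℝ → ℝ} {C s0 s x : ℝ} {n : ℕ} (hC : 0 ≤ C) (hs0 : 0 < s0) (hs : s0 ≤ s)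
    (hf : ∀ z, |f z| ≤ C * (1 + |z|) ^ n) :
    |f (x / Real.sqrt s)| ≤ C * (1 + (Real.sqrt s0)⁻¹) ^ n * (1 + |x|) ^ n := by
  refine (hf _).trans ?_
  rw [mul_assoc, ← mul_pow]
  refine mul_le_mul_of_nonneg_left ?_ hC
  refine pow_le_pow_left₀ (by positivity) ?_ n
  have h1 : 0 < Real.sqrt s0 := Real.sqrt_pos.2 hs0
  have h2 : Real.sqrt s0 ≤ Real.sqrt s := Real.sqrt_le_sqrt hs
  have h3 : |x / Real.sqrt s| ≤ |x| * (Real.sqrt s0)⁻¹ := by
    rw [abs_div, abs_of_pos (h1.trans_le h2), div_eq_mul_inv]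
    exact mul_le_mul_of_nonneg_left (inv_anti₀ h1 h2) (abs_nonneg x)
  have h4 : 0 ≤ (Real.sqrt s0)⁻¹ := inv_nonneg.2 h1.le
  have h5 := abs_nonneg x
  nlinarith

theorem Scale.exists_lower (hS : Scale A S κ κl) : ∃ s0, 0 < s0 ∧ ∀ t ∈ Icc 0 A.T, s0 ≤ S t := by
  obtain ⟨t0, ht0, hmin⟩ := isCompact_Icc.exists_isMinOn (nonempty_Icc.2 A.hT0.le) hS.cont
  exact ⟨S t0, hS.pos t0 ht0, fun t ht => hmin ht⟩

theorem test_sim (hS : Scale A S κ κl) (hφ : TF φ φ' φ'') :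
    Test A (fun t x => φ (x / Real.sqrt (S t)))
      (fun t x => φ' (x / Real.sqrt (S t)) * (x / Real.sqrt (S t)) * (κ t / (2 * S t)))
      (fun t x => φ' (x / Real.sqrt (S t)) * (x / Real.sqrt (S t)) * (κl t / (2 * S t)))
      (fun t x => φ' (x / Real.sqrt (S t)) / Real.sqrt (S t))
      (fun t x => φ'' (x / Real.sqrt (S t)) / S t) := by
  have hcφ : Continuous φ := continuous_iff_continuousAt.2 fun z => (hφ.h1 z).continuousAt
  have hcφ' : Continuous φ' := continuous_iff_continuousAt.2 fun z => (hφ.h2 z).continuousAt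
  obtain ⟨s0, hs0, hsl⟩ := hS.exists_lower
  have hfst : ContinuousOn (fun q : ℝ × ℝ => S q.1) (Icc 0 A.T ×ˢ univ) :=
    hS.cont.comp continuousOn_fst fun q hq => hq.1
  have hsq : ContinuousOn (fun q : ℝ × ℝ => Real.sqrt (S q.1)) (Icc 0 A.T ×ˢ univ) := hfst.sqrt
  have hne : ∀ q ∈ (Icc 0 A.T ×ˢ univ : Set (ℝ × ℝ)), Real.sqrt (S q.1) ≠ 0 :=
    fun q hq => (Real.sqrt_pos.2 (hS.pos _ hq.1)).ne'
  have hz : ContinuousOn (fun q : ℝ × ℝ => q.2 / Real.sqrt (S q.1)) (Icc 0 A.T ×ˢ univ) :=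
    continuousOn_snd.div hsq hne
  have hx0 : ∀ t x, HasDerivAt (fun x => x / Real.sqrt (S t)) (1 / Real.sqrt (S t)) x :=
    fun t x => (hasDerivAt_id x).div_const _
  obtain ⟨C, n, hC, hgr⟩ := hφ.gr
  obtain ⟨M, hM⟩ := hS.bd
  have hM0 : 0 ≤ M := (abs_nonneg _).trans (hM 0 ⟨le_rfl, A.hT0.le⟩).1
  set R : ℝ := 1 + (Real.sqrt s0)⁻¹ with hR
  have hR1 : 1 ≤ R := by rw [hR]; have := Real.sqrt_nonneg s0; have := inv_nonneg.2 this; linarith
  refine ⟨?_, ?_, ?_, ?_, ?_, ?_, ?_, ?_, ?_, ?_⟩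
  · exact hcφ.comp_continuousOn hz
  · intro t ht x
    have h := (hφ.h1 (x / Real.sqrt (S t))).comp x (hx0 t x)
    refine h.congr_deriv ?_
    ring
  · intro t ht x
    have h := ((hφ.h2 (x / Real.sqrt (S t))).comp x (hx0 t x)).div_const (Real.sqrt (S t))
    refine h.congr_deriv ?_
    have e : Real.sqrt (S t) * Real.sqrt (S t) = S t := Real.mul_self_sqrt (hS.pos t ht).le
    rw [mul_one_div, div_div, e]
  · intro t ht x
    exact hasDeriv_sim (hS.pos t ⟨ht.1, ht.2.le⟩) (hS.hr t ht) hφ.h1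
  · intro t ht x
    exact hasDeriv_sim (hS.pos t ⟨ht.1.le, ht.2⟩) (hS.hl t ht) hφ.h1
  · intro t ht x
    have hpos := hS.pos t ⟨ht.1, ht.2.le⟩
    have hSc : ContinuousWithinAt (fun q : ℝ × ℝ => S q.1) (Ici t ×ˢ univ) (t, x) :=
      ContinuousWithinAt.comp (t := Ici t) (f := Prod.fst) (hS.hr t ht).continuousWithinAt
        continuousWithinAt_fst (fun q hq => hq.1)
    have hκc : ContinuousWithinAt (fun q : ℝ × ℝ => κ q.1) (Ici t ×ˢ univ) (t, x) :=
      ContinuousWithinAt.comp (t := Ici t) (f := Prod.fst) (hS.cr t ht)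
        continuousWithinAt_fst (fun q hq => hq.1)
    have hzc : ContinuousWithinAt (fun q : ℝ × ℝ => q.2 / Real.sqrt (S q.1))
        (Ici t ×ˢ univ) (t, x) :=
      continuousWithinAt_snd.div hSc.sqrt (Real.sqrt_pos.2 hpos).ne'
    exact (((hcφ'.continuousAt.comp_continuousWithinAt hzc).mul hzc).mul
      (hκc.div (continuousWithinAt_const.mul hSc) (by positivity)))
  · intro t ht x
    have hpos := hS.pos t ⟨ht.1.le, ht.2⟩
    have hSc : ContinuousWithinAt (fun q : ℝ × ℝ => S q.1) (Iic t ×ˢ univ) (t, x) :=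
      ContinuousWithinAt.comp (t := Iic t) (f := Prod.fst) (hS.hl t ht).continuousWithinAt
        continuousWithinAt_fst (fun q hq => hq.1)
    have hκc : ContinuousWithinAt (fun q : ℝ × ℝ => κl q.1) (Iic t ×ˢ univ) (t, x) :=
      ContinuousWithinAt.comp (t := Iic t) (f := Prod.fst) (hS.cl t ht)
        continuousWithinAt_fst (fun q hq => hq.1)
    have hzc : ContinuousWithinAt (fun q : ℝ × ℝ => q.2 / Real.sqrt (S q.1))
        (Iic t ×ˢ univ) (t, x) :=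
      continuousWithinAt_snd.div hSc.sqrt (Real.sqrt_pos.2 hpos).ne'
    exact (((hcφ'.continuousAt.comp_continuousWithinAt hzc).mul hzc).mul
      (hκc.div (continuousWithinAt_const.mul hSc) (by positivity)))
  · exact (hcφ'.comp_continuousOn hz).div hsq hne
  · exact (hφ.hc.comp_continuousOn hz).div hfst fun q hq => (hS.pos _ hq.1).ne'
  · -- growth
    have hsq0 : 0 < Real.sqrt s0 := Real.sqrt_pos.2 hs0
    have hR0 : 0 ≤ R := zero_le_one.trans hR1
    set C1 : ℝ := C * R ^ n with hC1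
    have hC1' : 0 ≤ C1 := mul_nonneg hC (pow_nonneg hR0 n)
    set K : ℝ := 1 + R * (M / (2 * s0)) + (Real.sqrt s0)⁻¹ + s0⁻¹ with hK
    have hb1 : 0 ≤ R * (M / (2 * s0)) := by positivity
    have hb2 : 0 ≤ (Real.sqrt s0)⁻¹ := by positivity
    have hb3 : 0 ≤ s0⁻¹ := by positivity
    have hK1 : 1 ≤ K := by rw [hK]; linarith
    refine ⟨C1 * K, n + 1, mul_nonneg hC1' (by linarith), fun t ht x => ?_⟩
    have hst := hsl t ht
    have hSt : 0 < S t := hs0.trans_le hst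
    have hx1 : (1 : ℝ) ≤ 1 + |x| := by have := abs_nonneg x; linarith
    have hp0 : 0 ≤ (1 + |x|) ^ n := by positivity
    have hpn : (1 + |x|) ^ n ≤ (1 + |x|) ^ (n + 1) := pow_le_pow_right₀ hx1 (Nat.le_succ n)
    have g0 := growth_sim (x := x) hC hs0 hst (fun z => (hgr z).1)
    have g1 := growth_sim (x := x) hC hs0 hst (fun z => (hgr z).2.1)
    have g2 := growth_sim (x := x) hC hs0 hst (fun z => (hgr z).2.2)
    rw [← hR, ← hC1] at g0 g1 g2
    have gz : |x / Real.sqrt (S t)| ≤ R * (1 + |x|) := by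
      have := growth_sim (f := fun z => z) (C := 1) (n := 1) (x := x) zero_le_one hs0 hst
        (fun z => by simp)
      simpa [hR] using this
    have hκ : ∀ k : ℝ, |k| ≤ M → |k / (2 * S t)| ≤ M / (2 * s0) := by
      intro k hk
      rw [abs_div, abs_of_pos (by positivity : (0:ℝ) < 2 * S t)]
      exact div_le_div₀ hM0 hk (by positivity) (by linarith)
    have hfr : ∀ k : ℝ, |k| ≤ M →
        |φ' (x / Real.sqrt (S t)) * (x / Real.sqrt (S t)) * (k / (2 * S t))|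
          ≤ C1 * K * (1 + |x|) ^ (n + 1) := by
      intro k hk
      rw [abs_mul, abs_mul]
      have h1 : |φ' (x / Real.sqrt (S t))| * |x / Real.sqrt (S t)| ≤
          C1 * (1 + |x|) ^ n * (R * (1 + |x|)) :=
        mul_le_mul g1 gz (abs_nonneg _) (by positivity)
      have h2 : |φ' (x / Real.sqrt (S t))| * |x / Real.sqrt (S t)| * |k / (2 * S t)| ≤
          C1 * (1 + |x|) ^ n * (R * (1 + |x|)) * (M / (2 * s0)) :=
        mul_le_mul h1 (hκ k hk) (abs_nonneg _) (by positivity)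
      refine h2.trans ?_
      have e : C1 * (1 + |x|) ^ n * (R * (1 + |x|)) * (M / (2 * s0)) =
          (R * (M / (2 * s0))) * (C1 * (1 + |x|) ^ (n + 1)) := by ring
      have e2 : C1 * K * (1 + |x|) ^ (n + 1) = K * (C1 * (1 + |x|) ^ (n + 1)) := by ring
      rw [e, e2]
      refine mul_le_mul_of_nonneg_right ?_ (by positivity)
      rw [hK]; linarith
    have hup : ∀ (a w : ℝ), |a| ≤ C1 * (1 + |x|) ^ n → 0 ≤ w → w ≤ K →
        |a| * w ≤ C1 * K * (1 + |x|) ^ (n + 1) := by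
      intro a w ha hw hwK
      calc |a| * w ≤ (C1 * (1 + |x|) ^ n) * K :=
            mul_le_mul ha hwK hw (by positivity)
        _ = (C1 * K) * (1 + |x|) ^ n := by ring
        _ ≤ C1 * K * (1 + |x|) ^ (n + 1) :=
            mul_le_mul_of_nonneg_left hpn (mul_nonneg hC1' (by linarith))
    refine ⟨?_, hfr _ (hM t ht).1, hfr _ (hM t ht).2, ?_, ?_⟩
    · have := hup _ 1 g0 zero_le_one hK1
      simpa using this
    · rw [abs_div, abs_of_pos (Real.sqrt_pos.2 hSt), div_eq_mul_inv]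
      refine hup _ _ g1 (inv_nonneg.2 (Real.sqrt_nonneg _)) ?_
      have : (Real.sqrt (S t))⁻¹ ≤ (Real.sqrt s0)⁻¹ := inv_anti₀ hsq0 (Real.sqrt_le_sqrt hst)
      rw [hK]; linarith
    · rw [abs_div, abs_of_pos hSt, div_eq_mul_inv]
      refine hup _ _ g2 (inv_nonneg.2 hSt.le) ?_
      have : (S t)⁻¹ ≤ s0⁻¹ := inv_anti₀ hs0 hst
      rw [hK]; linarith

end test

/-! ### the expectation functional -/

theorem ex_const_mul (x0 : ℝ) (p : ℝ → ℝ → ℝ) (t k : ℝ) (f : ℝ → ℝ) :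
    ex x0 p t (fun x => k * f x) = k * ex x0 p t f := by
  unfold ex
  split_ifs
  · rfl
  · rw [← integral_const_mul]
    refine integral_congr_ae (Eventually.of_forall fun x => ?_)
    ring

theorem ex_mono {A : SD} {x0 : ℝ} {p Y Yx Yxx : ℝ → ℝ → ℝ} (hL : Law A x0 p Y Yx Yxx)
    {t : ℝ} (ht : t ∈ Icc 0 A.T) {f g : ℝ → ℝ} (hf : Continuous f) (hg : Continuous g)
    {C : ℝ} {n : ℕ} (hfg : ∀ x, |f x| ≤ C * (1 + |x|) ^ n) {C' : ℝ} {n' : ℕ}
    (hgg : ∀ x, |g x| ≤ C' * (1 + |x|) ^ n') (h : ∀ x, f x ≤ g x) :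
    ex x0 p t f ≤ ex x0 p t g := by
  unfold ex
  split_ifs with h0
  · exact h x0
  · have ht' : t ∈ Ioc 0 A.T := ⟨not_le.1 h0, ht.2⟩
    have hpc : Continuous (p t) :=
      continuous_iff_continuousAt.2 fun x => (hL.p_x t ht' x).continuousAt
    have hint : ∀ (f : ℝ → ℝ), Continuous f → ∀ (C : ℝ) (n : ℕ),
        (∀ x, |f x| ≤ C * (1 + |x|) ^ n) → Integrable (fun x => p t x * f x) := by
      intro f hf C n hC
      obtain ⟨M, hM⟩ := hL.mom n
      refine ((hM t ht').1.const_mul C).mono' (hpc.mul hf).aestronglyMeasurable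
        (Eventually.of_forall fun x => ?_)
      rw [Real.norm_eq_abs, abs_mul, abs_of_pos (hL.p_pos t ht' x)]
      have := mul_le_mul_of_nonneg_left (hC x) (hL.p_pos t ht' x).le
      linarith
    refine integral_mono (hint f hf C n hfg) (hint g hg C' n' hgg) fun x => ?_
    exact mul_le_mul_of_nonneg_left (h x) (hL.p_pos t ht' x).le

section main

variable {A : SD} {S κ κl : ℝ → ℝ} {φ φ' φ'' : ℝ → ℝ} {x0 : ℝ} {p Y Yx Yxx : ℝ → ℝ → ℝ}

/-- the observable `F(t) = E φ(x/√S(t))` -/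
def Fz (S : ℝ → ℝ) (x0 : ℝ) (p : ℝ → ℝ → ℝ) (φ : ℝ → ℝ) (t : ℝ) : ℝ :=
  ex x0 p t (fun x => φ (x / Real.sqrt (S t)))

/-- the generator in similarity variables: `φ'' + (κ z + 2 b S U) φ'` at `z = x/√S` -/
def Gz (A : SD) (S κ φ' φ'' : ℝ → ℝ) (t x : ℝ) : ℝ :=
  φ'' (x / Real.sqrt (S t)) + (κ t * (x / Real.sqrt (S t)) +
    2 * (A.b t * S t) * (A.u t x / Real.sqrt (S t))) * φ' (x / Real.sqrt (S t))

theorem Fz_cont (hS : Scale A S κ κl) (hφ : TF φ φ' φ'') (hL : Law A x0 p Y Yx Yxx) :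
    ContinuousOn (Fz S x0 p φ) (Icc 0 A.T) :=
  hL.ex_cont _ _ _ _ _ (test_sim hS hφ)

/-- **the exact identity** -/
theorem Fz_hasDeriv (hS : Scale A S κ κl) (hφ : TF φ φ' φ'') (hL : Law A x0 p Y Yx Yxx)
    {t : ℝ} (ht : t ∈ Ico 0 A.T) :
    HasDerivWithinAt (Fz S x0 p φ) ((2 * S t)⁻¹ * ex x0 p t (Gz A S κ φ' φ'' t)) (Ici t) t := by
  have h := hL.ex_r _ _ _ _ _ (test_sim hS hφ) t ht
  refine h.congr_deriv ?_
  rw [← ex_const_mul]
  congr 1
  funext x
  have hpos := hS.pos t ⟨ht.1, ht.2.le⟩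
  have hsq : 0 < Real.sqrt (S t) := Real.sqrt_pos.2 hpos
  unfold Gz
  field_simp
  ring

/-- growth and continuity of the generator -/
theorem Gz_cont (hB : Back A) (hφ : TF φ φ' φ'') {t : ℝ} (ht : t ∈ Icc 0 A.T) :
    Continuous (Gz A S κ φ' φ'' t) := by
  have hcφ' : Continuous φ' := continuous_iff_continuousAt.2 fun z => (hφ.h2 z).continuousAt
  have hcφ'' := hφ.hc
  have hu : Continuous (A.u t) :=
    continuous_iff_continuousAt.2 fun x => (hB.u_x t ht x).continuousAt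
  unfold Gz
  fun_prop

theorem Gz_growth (hS : Scale A S κ κl) (hB : Back A) (hφ : TF φ φ' φ'') {t : ℝ}
    (ht : t ∈ Icc 0 A.T) : ∃ C : ℝ, ∃ n : ℕ, ∀ x, |Gz A S κ φ' φ'' t x| ≤ C * (1 + |x|) ^ n := by
  obtain ⟨M, hM⟩ := hB.bsys
  obtain ⟨C, n, hC, hgr⟩ := hφ.gr
  have hpos := hS.pos t ht
  have hsq : 0 < Real.sqrt (S t) := Real.sqrt_pos.2 hpos
  set R : ℝ := 1 + (Real.sqrt (S t))⁻¹ with hR
  have hR1 : 0 ≤ R := by positivity
  have hM0 : 0 ≤ M := (hM.b_nonneg t ht).trans (hM.b_le t ht)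
  refine ⟨C * R ^ n * (1 + |κ t| * R + 2 * |A.b t * S t| * (M * (Real.sqrt (S t))⁻¹)), n + 1,
    fun x => ?_⟩
  have g1 := growth_sim (x := x) hC hpos le_rfl (fun z => (hgr z).2.1)
  have g2 := growth_sim (x := x) hC hpos le_rfl (fun z => (hgr z).2.2)
  rw [← hR] at g1 g2
  have hx1 : (1 : ℝ) ≤ 1 + |x| := by have := abs_nonneg x; linarith
  have hpn : (1 + |x|) ^ n ≤ (1 + |x|) ^ (n + 1) := pow_le_pow_right₀ hx1 (Nat.le_succ n)
  have gz : |x / Real.sqrt (S t)| ≤ R * (1 + |x|) := by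
    have := growth_sim (f := fun z => z) (C := 1) (n := 1) (x := x) zero_le_one hpos le_rfl
      (fun z => by simp)
    simpa [hR] using this
  have gu : |A.u t x / Real.sqrt (S t)| ≤ (M * (Real.sqrt (S t))⁻¹) * (1 + |x|) := by
    rw [abs_div, abs_of_pos hsq, abs_of_nonneg (hM.u_nonneg t ht x), div_eq_mul_inv]
    have h1 := mul_le_mul_of_nonneg_right (hM.u_le t ht x) (inv_nonneg.2 hsq.le)
    linarith
  have hdr : |κ t * (x / Real.sqrt (S t)) + 2 * (A.b t * S t) * (A.u t x / Real.sqrt (S t))| ≤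
      (|κ t| * R + 2 * |A.b t * S t| * (M * (Real.sqrt (S t))⁻¹)) * (1 + |x|) := by
    refine (abs_add_le _ _).trans ?_
    rw [abs_mul, abs_mul, abs_mul, abs_two]
    have h1 := mul_le_mul_of_nonneg_left gz (abs_nonneg (κ t))
    have h2 := mul_le_mul_of_nonneg_left gu (by positivity : 0 ≤ 2 * |A.b t * S t|)
    linarith
  unfold Gz
  refine (abs_add_le _ _).trans ?_
  rw [abs_mul]
  have hb : 0 ≤ (|κ t| * R + 2 * |A.b t * S t| * (M * (Real.sqrt (S t))⁻¹)) := by positivity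
  have h3 := mul_le_mul hdr g1 (abs_nonneg _) (by positivity)
  have h4 : C * R ^ n * (1 + |x|) ^ n ≤ C * R ^ n * (1 + |x|) ^ (n + 1) :=
    mul_le_mul_of_nonneg_left hpn (by positivity)
  have e : (|κ t| * R + 2 * |A.b t * S t| * (M * (Real.sqrt (S t))⁻¹)) * (1 + |x|) *
      (C * R ^ n * (1 + |x|) ^ n) = C * R ^ n * (|κ t| * R + 2 * |A.b t * S t| *
        (M * (Real.sqrt (S t))⁻¹)) * (1 + |x|) ^ (n + 1) := by ring
  have e2 : C * R ^ n * (1 + |κ t| * R + 2 * |A.b t * S t| * (M * (Real.sqrt (S t))⁻¹)) *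
      (1 + |x|) ^ (n + 1) = C * R ^ n * (1 + |x|) ^ (n + 1) + C * R ^ n * (|κ t| * R +
        2 * |A.b t * S t| * (M * (Real.sqrt (S t))⁻¹)) * (1 + |x|) ^ (n + 1) := by ring
  rw [e2]
  rw [e] at h3
  linarith

theorem TF.cont (hφ : TF φ φ' φ'') : Continuous φ :=
  continuous_iff_continuousAt.2 fun z => (hφ.h1 z).continuousAt

/-- pointwise supersolution at time `t` ⇒ `F' ≤ -(k/S) F` -/
theorem Fz_deriv_le (hS : Scale A S κ κl) (hB : Back A) (hφ : TF φ φ' φ'')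
    (hL : Law A x0 p Y Yx Yxx) {t k : ℝ} (ht : t ∈ Ico 0 A.T)
    (h : ∀ x, Gz A S κ φ' φ'' t x ≤ -(2 * k * φ (x / Real.sqrt (S t)))) :
    (2 * S t)⁻¹ * ex x0 p t (Gz A S κ φ' φ'' t) ≤ -(k / S t) * Fz S x0 p φ t := by
  have ht' : t ∈ Icc 0 A.T := ⟨ht.1, ht.2.le⟩
  have hpos := hS.pos t ht'
  obtain ⟨C, n, hG⟩ := Gz_growth hS hB hφ (κ := κ) ht'
  obtain ⟨C', n', hC', hgr⟩ := hφ.gr
  have hcφ := hφ.cont
  have key := ex_mono hL ht' (Gz_cont (S := S) (κ := κ) hB hφ ht')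
    (g := fun x => (-(2 * k)) * φ (x / Real.sqrt (S t))) (by fun_prop) hG
    (C' := |2 * k| * (C' * (1 + (Real.sqrt (S t))⁻¹) ^ n')) (n' := n') (fun x => by
      rw [abs_mul, abs_neg, mul_assoc]
      exact mul_le_mul_of_nonneg_left (growth_sim hC' hpos le_rfl fun z => (hgr z).1)
        (abs_nonneg _)) (fun x => by have := h x; linarith)
  rw [ex_const_mul] at key
  have h2 := mul_le_mul_of_nonneg_left key (by positivity : 0 ≤ (2 * S t)⁻¹)
  refine h2.trans (le_of_eq ?_)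
  unfold Fz
  field_simp

/-- pointwise subsolution at time `t` ⇒ `F' ≥ -(k/S) F` -/
theorem le_Fz_deriv (hS : Scale A S κ κl) (hB : Back A) (hφ : TF φ φ' φ'')
    (hL : Law A x0 p Y Yx Yxx) {t k : ℝ} (ht : t ∈ Ico 0 A.T)
    (h : ∀ x, -(2 * k * φ (x / Real.sqrt (S t))) ≤ Gz A S κ φ' φ'' t x) :
    -(k / S t) * Fz S x0 p φ t ≤ (2 * S t)⁻¹ * ex x0 p t (Gz A S κ φ' φ'' t) := by
  have ht' : t ∈ Icc 0 A.T := ⟨ht.1, ht.2.le⟩
  have hpos := hS.pos t ht'
  obtain ⟨C, n, hG⟩ := Gz_growth hS hB hφ (κ := κ) ht'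
  obtain ⟨C', n', hC', hgr⟩ := hφ.gr
  have hcφ := hφ.cont
  have key := ex_mono hL ht' (f := fun x => (-(2 * k)) * φ (x / Real.sqrt (S t))) (by fun_prop)
    (Gz_cont (S := S) (κ := κ) hB hφ ht')
    (C := |2 * k| * (C' * (1 + (Real.sqrt (S t))⁻¹) ^ n')) (n := n') (fun x => by
      rw [abs_mul, abs_neg, mul_assoc]
      exact mul_le_mul_of_nonneg_left (growth_sim hC' hpos le_rfl fun z => (hgr z).1)
        (abs_nonneg _)) hG (fun x => by have := h x; linarith)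
  rw [ex_const_mul] at key
  have h2 := mul_le_mul_of_nonneg_left key (by positivity : 0 ≤ (2 * S t)⁻¹)
  refine le_trans (le_of_eq ?_) h2
  unfold Fz
  field_simp

/-! ### the clock and Gronwall -/

/-- the clock `r(t) = ∫_0^t 1/S` -/
def rk (S : ℝ → ℝ) (t : ℝ) : ℝ := ∫ s in (0 : ℝ)..t, (S s)⁻¹

theorem Scale.inv_cont (hS : Scale A S κ κl) : ContinuousOn (fun s => (S s)⁻¹) (Icc 0 A.T) :=
  hS.cont.inv₀ fun t ht => (hS.pos t ht).ne'

theorem rk_hasDeriv (hS : Scale A S κ κl) {t : ℝ} (ht : t ∈ Ico 0 A.T) :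
    HasDerivWithinAt (rk S) (S t)⁻¹ (Ici t) t := by
  have hc := hS.inv_cont
  have hsub : Ioo t A.T ⊆ Icc 0 A.T := fun s hs => ⟨ht.1.trans hs.1.le, hs.2.le⟩
  have hii : IntervalIntegrable (fun s => (S s)⁻¹) volume 0 t := by
    refine (hc.mono ?_).intervalIntegrable
    rw [uIcc_of_le ht.1]
    exact Icc_subset_Icc le_rfl ht.2.le
  refine intervalIntegral.integral_hasDerivWithinAt_right hii (t := Ioi t) ?_ ?_
  · have h := (hc.mono hsub).stronglyMeasurableAtFilter_nhdsWithin (μ := volume)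
      measurableSet_Ioo t
    rwa [nhdsWithin_Ioo_eq_nhdsGT ht.2] at h
  · have h : ContinuousWithinAt (fun s => (S s)⁻¹) (Icc 0 A.T) t := hc t ⟨ht.1, ht.2.le⟩
    have h2 : ContinuousWithinAt (fun s => (S s)⁻¹) (Ioo t A.T) t := h.mono hsub
    unfold ContinuousWithinAt at h2 ⊢
    rwa [nhdsWithin_Ioo_eq_nhdsGT ht.2] at h2

theorem rk_cont (hS : Scale A S κ κl) : ContinuousOn (rk S) (Icc 0 A.T) := by
  have hc := hS.inv_cont
  have h := intervalIntegral.continuousOn_primitive_interval' (f := fun s => (S s)⁻¹)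
    (μ := volume) (a := 0) (b₁ := 0) (b₂ := A.T) (by
      refine ContinuousOn.intervalIntegrable ?_
      rwa [uIcc_of_le A.hT0.le]) (by rw [uIcc_of_le A.hT0.le]; exact ⟨le_rfl, A.hT0.le⟩)
  rwa [uIcc_of_le A.hT0.le] at h

/-- Gronwall in a clock: right derivatives. -/
theorem gron_le {F F' r r' : ℝ → ℝ} {k t0 t1 : ℝ} (h01 : t0 ≤ t1)
    (hFc : ContinuousOn F (Icc t0 t1)) (hrc : ContinuousOn r (Icc t0 t1))
    (hF : ∀ t ∈ Ico t0 t1, HasDerivWithinAt F (F' t) (Ici t) t)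
    (hr : ∀ t ∈ Ico t0 t1, HasDerivWithinAt r (r' t) (Ici t) t)
    (hle : ∀ t ∈ Ico t0 t1, F' t ≤ -(k * r' t) * F t) :
    F t1 ≤ F t0 * Real.exp (-(k * (r t1 - r t0))) := by
  have key := image_le_of_deriv_right_le_deriv_boundary
    (f := fun t => F t * Real.exp (k * (r t - r t0)))
    (f' := fun t => F' t * Real.exp (k * (r t - r t0)) +
      F t * (Real.exp (k * (r t - r t0)) * (k * r' t)))
    (a := t0) (b := t1)
    (hFc.mul ((hrc.sub continuousOn_const).const_smul k).rexp)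
    (fun t ht => (hF t ht).mul (((hr t ht).sub_const (r t0)).const_mul k).exp)
    (B := fun _ => F t0) (B' := fun _ => 0) (by simp) continuousOn_const
    (fun t _ => hasDerivWithinAt_const _ _ _)
    (fun t ht => by
      have h1 := hle t ht
      have h2 : 0 < Real.exp (k * (r t - r t0)) := Real.exp_pos _
      have h3 : F' t * Real.exp (k * (r t - r t0)) + F t * (Real.exp (k * (r t - r t0)) *
          (k * r' t)) = (F' t + k * r' t * F t) * Real.exp (k * (r t - r t0)) := by ring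
      rw [h3]
      exact mul_nonpos_of_nonpos_of_nonneg (by linarith) h2.le)
  have h := key (right_mem_Icc.2 h01)
  have e : Real.exp (k * (r t1 - r t0)) * Real.exp (-(k * (r t1 - r t0))) = 1 := by
    rw [← Real.exp_add]; simp
  have h4 := mul_le_mul_of_nonneg_right h (Real.exp_pos (-(k * (r t1 - r t0)))).le
  calc F t1 = F t1 * Real.exp (k * (r t1 - r t0)) * Real.exp (-(k * (r t1 - r t0))) := by
        rw [mul_assoc, e, mul_one]
    _ ≤ _ := h4

theorem gron_ge {F F' r r' : ℝ → ℝ} {k t0 t1 : ℝ} (h01 : t0 ≤ t1)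
    (hFc : ContinuousOn F (Icc t0 t1)) (hrc : ContinuousOn r (Icc t0 t1))
    (hF : ∀ t ∈ Ico t0 t1, HasDerivWithinAt F (F' t) (Ici t) t)
    (hr : ∀ t ∈ Ico t0 t1, HasDerivWithinAt r (r' t) (Ici t) t)
    (hle : ∀ t ∈ Ico t0 t1, -(k * r' t) * F t ≤ F' t) :
    F t0 * Real.exp (-(k * (r t1 - r t0))) ≤ F t1 := by
  have h := gron_le (F := fun t => -F t) (F' := fun t => -F' t) (k := k) h01 hFc.neg hrc
    (fun t ht => (hF t ht).neg) hr (fun t ht => by have := hle t ht; linarith)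
  linarith

/-- decay of `E φ(z)` for a supersolution `φ` -/
theorem decay_of_super (hS : Scale A S κ κl) (hB : Back A) (hφ : TF φ φ' φ'')
    (hL : Law A x0 p Y Yx Yxx) {t0 t1 k : ℝ} (h0 : 0 ≤ t0) (h01 : t0 ≤ t1) (h1 : t1 ≤ A.T)
    (h : ∀ t ∈ Ico t0 t1, ∀ x, Gz A S κ φ' φ'' t x ≤ -(2 * k * φ (x / Real.sqrt (S t)))) :
    Fz S x0 p φ t1 ≤ Fz S x0 p φ t0 * Real.exp (-(k * (rk S t1 - rk S t0))) := by
  have hsub : Icc t0 t1 ⊆ Icc 0 A.T := Icc_subset_Icc h0 h1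
  have hsub' : ∀ t ∈ Ico t0 t1, t ∈ Ico 0 A.T := fun t ht => ⟨h0.trans ht.1, ht.2.trans_le h1⟩
  refine gron_le h01 ((Fz_cont hS hφ hL).mono hsub) ((rk_cont hS).mono hsub)
    (fun t ht => Fz_hasDeriv hS hφ hL (hsub' t ht)) (fun t ht => rk_hasDeriv hS (hsub' t ht))
    fun t ht => ?_
  have := Fz_deriv_le hS hB hφ hL (hsub' t ht) (h t ht)
  rwa [div_eq_mul_inv] at this

/-- growth of `E φ(z)` for a subsolution `φ` -/
theorem growth_of_sub (hS : Scale A S κ κl) (hB : Back A) (hφ : TF φ φ' φ'')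
    (hL : Law A x0 p Y Yx Yxx) {t0 t1 k : ℝ} (h0 : 0 ≤ t0) (h01 : t0 ≤ t1) (h1 : t1 ≤ A.T)
    (h : ∀ t ∈ Ico t0 t1, ∀ x, -(2 * k * φ (x / Real.sqrt (S t))) ≤ Gz A S κ φ' φ'' t x) :
    Fz S x0 p φ t0 * Real.exp (-(k * (rk S t1 - rk S t0))) ≤ Fz S x0 p φ t1 := by
  have hsub : Icc t0 t1 ⊆ Icc 0 A.T := Icc_subset_Icc h0 h1
  have hsub' : ∀ t ∈ Ico t0 t1, t ∈ Ico 0 A.T := fun t ht => ⟨h0.trans ht.1, ht.2.trans_le h1⟩
  refine gron_ge h01 ((Fz_cont hS hφ hL).mono hsub) ((rk_cont hS).mono hsub)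
    (fun t ht => Fz_hasDeriv hS hφ hL (hsub' t ht)) (fun t ht => rk_hasDeriv hS (hsub' t ht))
    fun t ht => ?_
  have := le_Fz_deriv hS hB hφ hL (hsub' t ht) (h t ht)
  rwa [div_eq_mul_inv] at this

/-! ### `D` in the clock of a scale -/

theorem D_decay (hS : Scale A S κ κl) (hC : Clock A) {t0 t1 k : ℝ} (h0 : 0 ≤ t0) (h01 : t0 ≤ t1)
    (h1 : t1 ≤ A.T) (h : ∀ t ∈ Ico t0 t1, k ≤ A.b t * S t) :
    A.D t1 ≤ A.D t0 * Real.exp (-(k * (rk S t1 - rk S t0))) := by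
  have hsub : Icc t0 t1 ⊆ Icc 0 A.T := Icc_subset_Icc h0 h1
  have hsub' : ∀ t ∈ Ico t0 t1, t ∈ Ico 0 A.T := fun t ht => ⟨h0.trans ht.1, ht.2.trans_le h1⟩
  refine gron_le h01 hC.D_cont.continuousOn ((rk_cont hS).mono hsub)
    (fun t ht => hC.D_t t (hsub' t ht)) (fun t ht => rk_hasDeriv hS (hsub' t ht)) fun t ht => ?_
  have hpos := hS.pos t (hsub ⟨ht.1, ht.2.le⟩)
  have hD := A.D_pos t
  have e : A.m t = A.b t * S t * (S t)⁻¹ * A.D t := by
    unfold SD.b; field_simp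
  have h2 := mul_le_mul_of_nonneg_right (mul_le_mul_of_nonneg_right (h t ht)
    (inv_nonneg.2 hpos.le)) hD.le
  rw [← e] at h2
  linarith

theorem D_growth (hS : Scale A S κ κl) (hC : Clock A) {t0 t1 k : ℝ} (h0 : 0 ≤ t0) (h01 : t0 ≤ t1)
    (h1 : t1 ≤ A.T) (h : ∀ t ∈ Ico t0 t1, A.b t * S t ≤ k) :
    A.D t0 * Real.exp (-(k * (rk S t1 - rk S t0))) ≤ A.D t1 := by
  have hsub : Icc t0 t1 ⊆ Icc 0 A.T := Icc_subset_Icc h0 h1
  have hsub' : ∀ t ∈ Ico t0 t1, t ∈ Ico 0 A.T := fun t ht => ⟨h0.trans ht.1, ht.2.trans_le h1⟩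
  refine gron_ge h01 hC.D_cont.continuousOn ((rk_cont hS).mono hsub)
    (fun t ht => hC.D_t t (hsub' t ht)) (fun t ht => rk_hasDeriv hS (hsub' t ht)) fun t ht => ?_
  have hpos := hS.pos t (hsub ⟨ht.1, ht.2.le⟩)
  have hD := A.D_pos t
  have e : A.m t = A.b t * S t * (S t)⁻¹ * A.D t := by
    unfold SD.b; field_simp
  have h2 := mul_le_mul_of_nonneg_right (mul_le_mul_of_nonneg_right (h t ht)
    (inv_nonneg.2 hpos.le)) hD.le
  rw [← e] at h2
  linarith

/-- in the new clock `b χ = m K0` -/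
theorem b_mul_chi (A : SD) (t : ℝ) : A.b t * A.chi t = A.m t * A.K0 t := by
  have hD := (A.D_pos t).ne'
  unfold SD.b SD.chi
  field_simp

/-! ### robust pointwise inequality -/

/-- The drift of the step system is within `(1 + 2(|c|+ε) + 2 C0) ε (1+|z|)` of `α z + 2 c Uc(z)`. -/
theorem drift_close {k bS z U Ucz α c ε C0 : ℝ} (hk : |k - α| ≤ ε) (hb : |bS - c| ≤ ε)
    (hU : |U - Ucz| ≤ ε * (1 + |z|)) (hU0 : |Ucz| ≤ C0 * (1 + |z|)) :
    |(k * z + 2 * bS * U) - (α * z + 2 * c * Ucz)| ≤ ε * (1 + 2 * (|c| + ε) + 2 * C0) * (1 + |z|) := by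
  have hε : 0 ≤ ε := (abs_nonneg _).trans hb
  have hz := abs_nonneg z
  have e : (k * z + 2 * bS * U) - (α * z + 2 * c * Ucz) =
      (k - α) * z + (2 * bS * (U - Ucz) + 2 * (bS - c) * Ucz) := by ring
  rw [e]
  have hbS : |bS| ≤ |c| + ε := by
    have h1 : bS = c + (bS - c) := by ring
    calc |bS| = |c + (bS - c)| := by rw [← h1]
      _ ≤ |c| + |bS - c| := abs_add_le _ _
      _ ≤ |c| + ε := by linarith
  have h1 : |(k - α) * z| ≤ ε * (1 + |z|) := by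
    rw [abs_mul]
    have := mul_le_mul_of_nonneg_right hk hz
    linarith
  have h2 : |2 * bS * (U - Ucz)| ≤ 2 * (|c| + ε) * (ε * (1 + |z|)) := by
    rw [abs_mul, abs_mul, abs_two]
    exact mul_le_mul (by linarith) hU (abs_nonneg _) (by positivity)
  have h3 : |2 * (bS - c) * Ucz| ≤ 2 * ε * (C0 * (1 + |z|)) := by
    rw [abs_mul, abs_mul, abs_two]
    exact mul_le_mul (by linarith) hU0 (abs_nonneg _) (by positivity)
  have h4 := abs_add_le (2 * bS * (U - Ucz)) (2 * (bS - c) * Ucz)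
  have h5 := abs_add_le ((k - α) * z) (2 * bS * (U - Ucz) + 2 * (bS - c) * Ucz)
  calc _ ≤ ε * (1 + |z|) + (2 * (|c| + ε) * (ε * (1 + |z|)) + 2 * ε * (C0 * (1 + |z|))) := by
        linarith
    _ = _ := by ring

/-- robust supersolution of the limit operator ⇒ supersolution of the step operator -/
theorem Gz_le_of_close {Uc : ℝ → ℝ} {t x α c ε η C0 k : ℝ}
    (hk : |κ t - α| ≤ ε) (hb : |A.b t * S t - c| ≤ ε)
    (hU : |A.u t x / Real.sqrt (S t) - Uc (x / Real.sqrt (S t))| ≤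
      ε * (1 + |x / Real.sqrt (S t)|))
    (hU0 : ∀ z, |Uc z| ≤ C0 * (1 + |z|)) (hη : ε * (1 + 2 * (|c| + ε) + 2 * C0) ≤ η)
    (h : ∀ z, φ'' z + (α * z + 2 * c * Uc z) * φ' z + η * (1 + |z|) * |φ' z| ≤ -(2 * k * φ z)) :
    Gz A S κ φ' φ'' t x ≤ -(2 * k * φ (x / Real.sqrt (S t))) := by
  have h1 := drift_close hk hb hU (hU0 (x / Real.sqrt (S t)))
  have h2 := h (x / Real.sqrt (S t))
  unfold Gz
  set z := x / Real.sqrt (S t) with hz
  have hz0 := abs_nonneg z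
  have h3 : ((κ t * z + 2 * (A.b t * S t) * (A.u t x / Real.sqrt (S t))) -
      (α * z + 2 * c * Uc z)) * φ' z ≤ η * (1 + |z|) * |φ' z| := by
    refine (le_abs_self _).trans ?_
    rw [abs_mul]
    refine mul_le_mul_of_nonneg_right (h1.trans ?_) (abs_nonneg _)
    exact mul_le_mul_of_nonneg_right hη (by linarith)
  linarith

/-- robust subsolution of the limit operator ⇒ subsolution of the step operator -/
theorem le_Gz_of_close {Uc : ℝ → ℝ} {t x α c ε η C0 k : ℝ}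
    (hk : |κ t - α| ≤ ε) (hb : |A.b t * S t - c| ≤ ε)
    (hU : |A.u t x / Real.sqrt (S t) - Uc (x / Real.sqrt (S t))| ≤
      ε * (1 + |x / Real.sqrt (S t)|))
    (hU0 : ∀ z, |Uc z| ≤ C0 * (1 + |z|)) (hη : ε * (1 + 2 * (|c| + ε) + 2 * C0) ≤ η)
    (h : ∀ z, -(2 * k * φ z) ≤ φ'' z + (α * z + 2 * c * Uc z) * φ' z - η * (1 + |z|) * |φ' z|) :
    -(2 * k * φ (x / Real.sqrt (S t))) ≤ Gz A S κ φ' φ'' t x := by
  have h1 := drift_close hk hb hU (hU0 (x / Real.sqrt (S t)))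
  have h2 := h (x / Real.sqrt (S t))
  unfold Gz
  set z := x / Real.sqrt (S t) with hz
  have hz0 := abs_nonneg z
  have h3 : -(η * (1 + |z|) * |φ' z|) ≤ ((κ t * z + 2 * (A.b t * S t) * (A.u t x / Real.sqrt (S t))) -
      (α * z + 2 * c * Uc z)) * φ' z := by
    refine le_trans (neg_le_neg ?_) (neg_abs_le _)
    rw [abs_mul]
    refine mul_le_mul_of_nonneg_right (h1.trans ?_) (abs_nonneg _)
    exact mul_le_mul_of_nonneg_right hη (by linarith)
  linarith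

end main

/-! ### the contradiction along a sequence of step systems -/

/-- the drift of the step system is `ε`-close to `α z + 2 c Uc(z)` on `[t0,t1)` -/
def Close (A : SD) (S κ Uc : ℝ → ℝ) (α c ε t0 t1 : ℝ) : Prop :=
  ∀ t ∈ Ico t0 t1, |κ t - α| ≤ ε ∧ |A.b t * S t - c| ≤ ε ∧
    ∀ x, |A.u t x / Real.sqrt (S t) - Uc (x / Real.sqrt (S t))| ≤
      ε * (1 + |x / Real.sqrt (S t)|)

/-- limits of `D` and of the clock -/
structure Lim (A : ℕ → SD) (S : ℕ → ℝ → ℝ) (D r : ℝ → ℝ) (ts : ℝ) : Prop where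
  ts0 : 0 ≤ ts
  hT : ∀ t ∈ Ico ts 1, ∀ᶠ n in atTop, t ≤ (A n).T
  hD : ∀ t ∈ Ico ts 1, Tendsto (fun n => (A n).D t) atTop (𝓝 (D t))
  hr : ∀ t ∈ Ico ts 1, Tendsto (fun n => rk (S n) t - rk (S n) ts) atTop (𝓝 (r t))
  D_pos : ∀ t ∈ Ico ts 1, 0 < D t
  r_inf : ∀ B : ℝ, ∀ t0 ∈ Ico ts 1, ∃ t1 ∈ Ico t0 1, B ≤ r t1

theorem Lim.hr2 {A : ℕ → SD} {S : ℕ → ℝ → ℝ} {D r : ℝ → ℝ} {ts : ℝ} (h : Lim A S D r ts)
    {t0 t1 : ℝ} (h0 : t0 ∈ Ico ts 1) (h1 : t1 ∈ Ico ts 1) :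
    Tendsto (fun n => rk (S n) t1 - rk (S n) t0) atTop (𝓝 (r t1 - r t0)) := by
  refine ((h.hr t1 h1).sub (h.hr t0 h0)).congr fun n => ?_
  ring

/-- exponentials with different rates cannot be ordered along `ρ → ∞` -/
theorem exp_contra {a K κ κ' : ℝ} (ha : 0 < a) (hκ : κ < κ') {P : ℝ → Prop}
    (hP : ∀ B : ℝ, ∃ ρ, B ≤ ρ ∧ P ρ)
    (h : ∀ ρ, P ρ → a * Real.exp (-(κ * ρ)) ≤ K * Real.exp (-(κ' * ρ))) : False := by
  obtain ⟨ρ, hρ, hPρ⟩ := hP (max 0 ((|K| / a) / (κ' - κ)))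
  have h1 := h ρ hPρ
  have hδ : 0 < κ' - κ := by linarith
  have hρ0 : 0 ≤ ρ := (le_max_left _ _).trans hρ
  have hρ1 : (|K| / a) / (κ' - κ) ≤ ρ := (le_max_right _ _).trans hρ
  rw [div_le_iff₀ hδ, div_le_iff₀ ha] at hρ1
  have h2 : a * Real.exp ((κ' - κ) * ρ) ≤ K := by
    have h3 := mul_le_mul_of_nonneg_right h1 (Real.exp_pos (κ' * ρ)).le
    rw [mul_assoc, mul_assoc, ← Real.exp_add, ← Real.exp_add] at h3
    have e1 : -(κ * ρ) + κ' * ρ = (κ' - κ) * ρ := by ring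
    have e2 : -(κ' * ρ) + κ' * ρ = 0 := by ring
    rwa [e1, e2, Real.exp_zero, mul_one] at h3
  have h4 := Real.add_one_le_exp ((κ' - κ) * ρ)
  have h5 : K ≤ |K| := le_abs_self K
  have h6 : a * ((κ' - κ) * ρ + 1) ≤ a * Real.exp ((κ' - κ) * ρ) :=
    mul_le_mul_of_nonneg_left h4 ha.le
  nlinarith

theorem ex_le_const {A : SD} {x0 : ℝ} {p Y Yx Yxx : ℝ → ℝ → ℝ} (hL : Law A x0 p Y Yx Yxx)
    {t : ℝ} (ht : t ∈ Icc 0 A.T) {f : ℝ → ℝ} (hf : Continuous f)
    {C : ℝ} {n : ℕ} (hfg : ∀ x, |f x| ≤ C * (1 + |x|) ^ n) {B : ℝ} (h : ∀ x, f x ≤ B) :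
    ex x0 p t f ≤ B := by
  have h1 := ex_mono hL ht hf (g := fun _ => B) continuous_const hfg (C' := |B|) (n' := 0)
    (fun x => by simp) h
  refine h1.trans (le_of_eq ?_)
  unfold ex
  split_ifs with h0
  · rfl
  · rw [integral_mul_const, hL.mass t ⟨not_le.1 h0, ht.2⟩, one_mul]

theorem Qs_le {A : SD} {S κ κl : ℝ → ℝ} {φ φ' φ'' : ℝ → ℝ} {x0 : ℝ} {p Y Yx Yxx : ℝ → ℝ → ℝ}
    (hS : Scale A S κ κl) (hB : Back A) (hφ : TF φ φ' φ'') (hL : Law A x0 p Y Yx Yxx)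
    {t K : ℝ} (ht : t ∈ Icc 0 A.T)
    (h : ∀ x, (1 - A.V t x) * A.V t x ≤ K * φ (x / Real.sqrt (S t))) :
    Qs A x0 p t ≤ K * Fz S x0 p φ t := by
  obtain ⟨M, hM⟩ := hB.bsys
  obtain ⟨C', n', hC', hgr⟩ := hφ.gr
  have hcφ := hφ.cont
  have hV : Continuous (A.V t) :=
    continuous_iff_continuousAt.2 fun x => (hB.V_x t ht x).continuousAt
  have h1 := ex_mono hL ht (f := fun x => (1 - A.V t x) * A.V t x) (by fun_prop)
    (g := fun x => K * φ (x / Real.sqrt (S t))) (by fun_prop) (C := 1) (n := 0) (fun x => by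
      have a := hM.V_pos t ht x
      have b := hM.V_lt t ht x
      rw [abs_of_nonneg (mul_nonneg (by linarith) a.le)]
      simp only [pow_zero, mul_one]
      nlinarith)
    (C' := |K| * (C' * (1 + (Real.sqrt (S t))⁻¹) ^ n')) (n' := n') (fun x => by
      rw [abs_mul, mul_assoc]
      exact mul_le_mul_of_nonneg_left (growth_sim hC' (hS.pos t ht) le_rfl fun z => (hgr z).1)
        (abs_nonneg _)) h
  rwa [ex_const_mul] at h1

theorem le_Qs {A : SD} {S κ κl : ℝ → ℝ} {φ φ' φ'' : ℝ → ℝ} {x0 : ℝ} {p Y Yx Yxx : ℝ → ℝ → ℝ}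
    (hS : Scale A S κ κl) (hB : Back A) (hφ : TF φ φ' φ'') (hL : Law A x0 p Y Yx Yxx)
    {t K : ℝ} (ht : t ∈ Icc 0 A.T)
    (h : ∀ x, φ (x / Real.sqrt (S t)) ≤ K * ((1 - A.V t x) * A.V t x)) :
    Fz S x0 p φ t ≤ K * Qs A x0 p t := by
  obtain ⟨M, hM⟩ := hB.bsys
  obtain ⟨C', n', hC', hgr⟩ := hφ.gr
  have hcφ := hφ.cont
  have hV : Continuous (A.V t) :=
    continuous_iff_continuousAt.2 fun x => (hB.V_x t ht x).continuousAt
  have h1 := ex_mono hL ht (f := fun x => φ (x / Real.sqrt (S t))) (by fun_prop)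
    (g := fun x => K * ((1 - A.V t x) * A.V t x)) (by fun_prop)
    (C := (C' * (1 + (Real.sqrt (S t))⁻¹) ^ n')) (n := n') (fun x =>
      growth_sim hC' (hS.pos t ht) le_rfl fun z => (hgr z).1)
    (C' := |K|) (n' := 0) (fun x => by
      have a := hM.V_pos t ht x
      have b := hM.V_lt t ht x
      rw [abs_mul, abs_of_nonneg (mul_nonneg (by linarith : 0 ≤ 1 - A.V t x) a.le)]
      simp only [pow_zero]
      refine mul_le_mul_of_nonneg_left ?_ (abs_nonneg _)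
      nlinarith) h
  rwa [ex_const_mul] at h1

section contra

variable {A : ℕ → SD} {S κ κl : ℕ → ℝ → ℝ} {φ φ' φ'' : ℝ → ℝ} {x0 : ℕ → ℝ}
  {p Y Yx Yxx : ℕ → ℝ → ℝ → ℝ} {D r Uc : ℝ → ℝ} {ts α c η C0 c0 K : ℝ}

/-- one step of the choice of `ε` -/
theorem exists_eps {c η C0 : ℝ} (hη : 0 < η) (hC0 : 0 ≤ C0) :
    ∃ ε, 0 < ε ∧ ε < η ∧ ε * (1 + 2 * (|c| + ε) + 2 * C0) ≤ η := by
  have h1 : 0 < 1 + 2 * (|c| + η) + 2 * C0 := by positivity
  refine ⟨min (η / 2) (η / (1 + 2 * (|c| + η) + 2 * C0)), by positivity, ?_, ?_⟩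
  · exact (min_le_left _ _).trans_lt (by linarith)
  · set ε := min (η / 2) (η / (1 + 2 * (|c| + η) + 2 * C0)) with hε
    have hε0 : 0 < ε := by positivity
    have h2 : ε ≤ η / 2 := min_le_left _ _
    have h3 : ε ≤ η / (1 + 2 * (|c| + η) + 2 * C0) := min_le_right _ _
    have h4 : 1 + 2 * (|c| + ε) + 2 * C0 ≤ 1 + 2 * (|c| + η) + 2 * C0 := by linarith
    calc ε * (1 + 2 * (|c| + ε) + 2 * C0)
        ≤ η / (1 + 2 * (|c| + η) + 2 * C0) * (1 + 2 * (|c| + η) + 2 * C0) := by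
          refine mul_le_mul h3 h4 ?_ (by positivity)
          have := abs_nonneg c
          linarith
      _ = η := by field_simp

/-- **PT-END, lower case**: a bounded test function `φ` dominating `R V` which is a strict (robust)
supersolution of the limit operator at rate `c + η` is impossible. -/
theorem super_contra (hB : ∀ n, Back (A n)) (hC : ∀ n, Clock (A n))
    (hL : ∀ n, Law (A n) (x0 n) (p n) (Y n) (Yx n) (Yxx n))
    (hS : ∀ n, Scale (A n) (S n) (κ n) (κl n)) (hlim : Lim A S D r ts)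
    (hclose : ∀ ε > 0, ∃ t0 ∈ Ico ts 1, ∀ t1 ∈ Ico t0 1, ∀ᶠ n in atTop,
      Close (A n) (S n) (κ n) Uc α c ε t0 t1)
    (hη : 0 < η) (hC0 : 0 ≤ C0) (hU0 : ∀ z, |Uc z| ≤ C0 * (1 + |z|))
    (hφ : TF φ φ' φ'') {B : ℝ} (hφB : ∀ z, φ z ≤ B)
    (hrob : ∀ z, φ'' z + (α * z + 2 * c * Uc z) * φ' z + η * (1 + |z|) * |φ' z| ≤
      -(2 * (c + η) * φ z))
    (hc0 : 0 < c0) (hQ : ∀ t ∈ Ico ts 1,
      Tendsto (fun n => Qs (A n) (x0 n) (p n) t) atTop (𝓝 (c0 * D t)))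
    (hK : 0 ≤ K) (hRV : ∀ t ∈ Ico ts 1, ∀ᶠ n in atTop, ∀ x,
      (1 - (A n).V t x) * (A n).V t x ≤ K * φ (x / Real.sqrt (S n t))) : False := by
  obtain ⟨ε, hε, hεη, hε2⟩ := exists_eps (c := c) hη hC0
  obtain ⟨t0, ht0, hcl⟩ := hclose ε hε
  have hD0 := hlim.D_pos t0 ht0
  refine exp_contra (a := c0 * D t0) (K := K * B) (κ := c + ε) (κ' := c + η) (by positivity)
    (by linarith) (P := fun ρ => ∃ t1 ∈ Ico t0 1, ρ = r t1 - r t0) ?_ ?_
  · intro B'
    obtain ⟨t1, ht1, h1⟩ := hlim.r_inf (B' + r t0) t0 ht0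
    exact ⟨r t1 - r t0, by linarith, t1, ht1, rfl⟩
  · rintro ρ ⟨t1, ht1, rfl⟩
    have ht1' : t1 ∈ Ico ts 1 := ⟨ht0.1.trans ht1.1, ht1.2⟩
    have hr2 := hlim.hr2 ht0 ht1'
    -- upper bound for `Q`
    have hup : c0 * D t1 ≤ K * B * Real.exp (-((c + η) * (r t1 - r t0))) := by
      refine le_of_tendsto_of_tendsto (hQ t1 ht1')
        ((hr2.const_mul (c + η)).neg.rexp.const_mul (K * B)) ?_
      filter_upwards [hcl t1 ht1, hlim.hT t1 ht1', hRV t1 ht1'] with n h1 h2 h3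
      have ht1n : t1 ∈ Icc 0 (A n).T := ⟨(hlim.ts0.trans ht0.1).trans ht1.1, h2⟩
      have ht0n : t0 ∈ Icc 0 (A n).T := ⟨hlim.ts0.trans ht0.1, ht1.1.trans h2⟩
      have h4 := Qs_le (hS n) (hB n) hφ (hL n) ht1n h3
      have h5 := decay_of_super (hS n) (hB n) hφ (hL n) (hlim.ts0.trans ht0.1) ht1.1 h2
        (k := c + η) (fun t ht x => Gz_le_of_close (h1 t ht).1 (h1 t ht).2.1 ((h1 t ht).2.2 x)
          hU0 hε2 hrob)
      obtain ⟨C', n', hC', hgr⟩ := hφ.gr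
      have hcφ := hφ.cont
      have h6 : Fz (S n) (x0 n) (p n) φ t0 ≤ B :=
        ex_le_const (hL n) ht0n (f := fun x => φ (x / Real.sqrt (S n t0))) (by fun_prop)
          (fun x => growth_sim hC' ((hS n).pos t0 ht0n) le_rfl fun z => (hgr z).1)
          fun x => hφB _
      have h7 := mul_le_mul_of_nonneg_right h6
        (Real.exp_pos (-((c + η) * (rk (S n) t1 - rk (S n) t0)))).le
      have h8 := mul_le_mul_of_nonneg_left (h5.trans h7) hK
      linarith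
    have hlow : D t0 * Real.exp (-((c + ε) * (r t1 - r t0))) ≤ D t1 := by
      refine le_of_tendsto_of_tendsto ((hlim.hD t0 ht0).mul (hr2.const_mul (c + ε)).neg.rexp)
        (hlim.hD t1 ht1') ?_
      filter_upwards [hcl t1 ht1, hlim.hT t1 ht1'] with n h1 h2
      exact D_growth (hS n) (hC n) (hlim.ts0.trans ht0.1) ht1.1 h2 fun t ht => by
        have := (abs_le.1 (h1 t ht).2.1).2
        linarith
    have h9 := mul_le_mul_of_nonneg_left hlow hc0.le
    linarith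

/-- **PT-END, upper case**: a `C²` test function `φ ≤ K R V` which is a (robust) subsolution of the
limit operator at rate `c - η` is impossible. -/
theorem sub_contra (hB : ∀ n, Back (A n)) (hC : ∀ n, Clock (A n))
    (hL : ∀ n, Law (A n) (x0 n) (p n) (Y n) (Yx n) (Yxx n))
    (hS : ∀ n, Scale (A n) (S n) (κ n) (κl n)) (hlim : Lim A S D r ts)
    (hclose : ∀ ε > 0, ∃ t0 ∈ Ico ts 1, ∀ t1 ∈ Ico t0 1, ∀ᶠ n in atTop,
      Close (A n) (S n) (κ n) Uc α c ε t0 t1)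
    (hη : 0 < η) (hC0 : 0 ≤ C0) (hU0 : ∀ z, |Uc z| ≤ C0 * (1 + |z|))
    (hφ : TF φ φ' φ'')
    (hpos : ∀ t ∈ Ico ts 1, ∃ f0 > 0, ∀ᶠ n in atTop, f0 ≤ Fz (S n) (x0 n) (p n) φ t)
    (hrob : ∀ z, -(2 * (c - η) * φ z) ≤
      φ'' z + (α * z + 2 * c * Uc z) * φ' z - η * (1 + |z|) * |φ' z|)
    (hQ : ∀ t ∈ Ico ts 1,
      Tendsto (fun n => Qs (A n) (x0 n) (p n) t) atTop (𝓝 (c0 * D t))) (hc0 : 0 ≤ c0)
    (hK : 0 ≤ K) (hRV : ∀ t ∈ Ico ts 1, ∀ᶠ n in atTop, ∀ x,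
      φ (x / Real.sqrt (S n t)) ≤ K * ((1 - (A n).V t x) * (A n).V t x)) : False := by
  obtain ⟨ε, hε, hεη, hε2⟩ := exists_eps (c := c) hη hC0
  obtain ⟨t0, ht0, hcl⟩ := hclose ε hε
  obtain ⟨f0, hf0, hf⟩ := hpos t0 ht0
  refine exp_contra (a := f0) (K := K * (c0 * D t0)) (κ := c - η) (κ' := c - ε) hf0
    (by linarith) (P := fun ρ => ∃ t1 ∈ Ico t0 1, ρ = r t1 - r t0) ?_ ?_
  · intro B'
    obtain ⟨t1, ht1, h1⟩ := hlim.r_inf (B' + r t0) t0 ht0
    exact ⟨r t1 - r t0, by linarith, t1, ht1, rfl⟩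
  · rintro ρ ⟨t1, ht1, rfl⟩
    have ht1' : t1 ∈ Ico ts 1 := ⟨ht0.1.trans ht1.1, ht1.2⟩
    have hr2 := hlim.hr2 ht0 ht1'
    have hup : f0 * Real.exp (-((c - η) * (r t1 - r t0))) ≤ K * (c0 * D t1) := by
      refine le_of_tendsto_of_tendsto ((hr2.const_mul (c - η)).neg.rexp.const_mul f0)
        ((hQ t1 ht1').const_mul K) ?_
      filter_upwards [hcl t1 ht1, hlim.hT t1 ht1', hRV t1 ht1', hf] with n h1 h2 h3 h6
      have ht1n : t1 ∈ Icc 0 (A n).T := ⟨(hlim.ts0.trans ht0.1).trans ht1.1, h2⟩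
      have h4 := le_Qs (hS n) (hB n) hφ (hL n) ht1n h3
      have h5 := growth_of_sub (hS n) (hB n) hφ (hL n) (hlim.ts0.trans ht0.1) ht1.1 h2
        (k := c - η) (fun t ht x => le_Gz_of_close (h1 t ht).1 (h1 t ht).2.1 ((h1 t ht).2.2 x)
          hU0 hε2 hrob)
      have h7 := mul_le_mul_of_nonneg_right h6
        (Real.exp_pos (-((c - η) * (rk (S n) t1 - rk (S n) t0)))).le
      linarith
    have hlow : D t1 ≤ D t0 * Real.exp (-((c - ε) * (r t1 - r t0))) := by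
      refine le_of_tendsto_of_tendsto (hlim.hD t1 ht1')
        ((hlim.hD t0 ht0).mul (hr2.const_mul (c - ε)).neg.rexp) ?_
      filter_upwards [hcl t1 ht1, hlim.hT t1 ht1'] with n h1 h2
      exact D_decay (hS n) (hC n) (hlim.ts0.trans ht0.1) ht1.1 h2 fun t ht => by
        have := (abs_le.1 (h1 t ht).2.1).1
        linarith
    have h9 := mul_le_mul_of_nonneg_left hlow (mul_nonneg hK hc0)
    linarith

end contra




end

end Crest.Agent.R146.PtEndD_524
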