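import Crest.Agent.R146.PtEndD_524

/-!
Row 146, PT-END (post 726): `C²` regularisation of the positive part of a subsolution (helper524).

`g_h(y) = y³/(y+h)²` for `y > 0`, `0` for `y ≤ 0`: `C²`, convex, `0 ≤ g_h(y) ≤ y₊`, `0 ≤ g_h' ≤ 1`,
`y g' - g = 2 h y³/(y+h)³`.  If `φ'' + A φ' - w |φ'| ≥ d' - 2 k φ` on `{φ > 0}` and `4 k h ≤ d'`, then
`Φ = g_h(φ)` satisfies `Φ'' + A Φ' - w |Φ'| ≥ -2 k Φ` everywhere (`smooth_sub`).
-/

set_option autoImplicit false

namespace Crest.Agent.R146.PtEndE_524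

open Set Filter Topology
open Crest.Agent.R146.PtEndD_524

noncomputable section

/-- a `C¹` function on `[0,∞)` vanishing at `0` to first order, extended by `0`. -/
theorem piece {a a' : ℝ → ℝ} (h : ∀ y, 0 ≤ y → HasDerivAt a (a' y) y) (h0 : a 0 = 0)
    (h0' : a' 0 = 0) (y : ℝ) :
    HasDerivAt (fun y => if 0 < y then a y else 0) (if 0 < y then a' y else 0) y := by
  rcases lt_trichotomy y 0 with hy | hy | hy
  · rw [if_neg (not_lt.2 hy.le)]
    refine (hasDerivAt_const y (0 : ℝ)).congr_of_eventuallyEq ?_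
    filter_upwards [Iio_mem_nhds hy] with s hs
    rw [if_neg (not_lt.2 (le_of_lt hs))]
  · subst hy
    rw [if_neg (lt_irrefl _)]
    have h1 : HasDerivWithinAt (fun y => if 0 < y then a y else 0) 0 (Ici 0) 0 := by
      have := (h 0 le_rfl).hasDerivWithinAt (s := Ici 0)
      rw [h0'] at this
      refine this.congr ?_ ?_
      · intro s hs
        rcases lt_or_eq_of_le (show (0 : ℝ) ≤ s from hs) with h2 | h2
        · rw [if_pos h2]
        · rw [← h2, if_neg (lt_irrefl _), h0]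
      · rw [if_neg (lt_irrefl _), h0]
    have h2 : HasDerivWithinAt (fun y => if 0 < y then a y else 0) 0 (Iic 0) 0 := by
      refine (hasDerivWithinAt_const (0 : ℝ) (Iic 0) (0 : ℝ)).congr ?_ ?_
      · intro s hs
        rw [if_neg (not_lt.2 hs)]
      · rw [if_neg (lt_irrefl _)]
    have h3 := h2.union h1
    rw [Iic_union_Ici] at h3
    exact h3.hasDerivAt univ_mem
  · rw [if_pos hy]
    refine (h y hy.le).congr_of_eventuallyEq ?_
    filter_upwards [Ioi_mem_nhds hy] with s hs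
    rw [if_pos (show 0 < s from hs)]

/-- `y³/(y+h)²` on `(0,∞)` -/
def g0 (h y : ℝ) : ℝ := if 0 < y then y ^ 3 / (y + h) ^ 2 else 0
def g1 (h y : ℝ) : ℝ := if 0 < y then y ^ 2 * (y + 3 * h) / (y + h) ^ 3 else 0
def g2 (h y : ℝ) : ℝ := if 0 < y then 6 * h ^ 2 * y / (y + h) ^ 4 else 0

theorem g0_deriv {h : ℝ} (hh : 0 < h) (y : ℝ) : HasDerivAt (g0 h) (g1 h y) y := by
  refine piece (a := fun y => y ^ 3 / (y + h) ^ 2) (a' := fun y => y ^ 2 * (y + 3 * h) / (y + h) ^ 3)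
    (fun y hy => ?_) (by simp) (by simp) y
  have hp : y + h ≠ 0 := by positivity
  have h1 := ((hasDerivAt_id y).pow 3).div (((hasDerivAt_id y).add_const h).pow 2)
    (pow_ne_zero 2 hp)
  refine h1.congr_deriv ?_
  simp only [Pi.pow_apply, Pi.mul_apply, id]
  field_simp
  push_cast
  ring

theorem g1_deriv {h : ℝ} (hh : 0 < h) (y : ℝ) : HasDerivAt (g1 h) (g2 h y) y := by
  refine piece (a := fun y => y ^ 2 * (y + 3 * h) / (y + h) ^ 3)
    (a' := fun y => 6 * h ^ 2 * y / (y + h) ^ 4) (fun y hy => ?_) (by simp) (by simp) y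
  have hp : y + h ≠ 0 := by positivity
  have h1 := (((hasDerivAt_id y).pow 2).mul ((hasDerivAt_id y).add_const (3 * h))).div
    (((hasDerivAt_id y).add_const h).pow 3) (pow_ne_zero 3 hp)
  refine h1.congr_deriv ?_
  simp only [Pi.pow_apply, Pi.mul_apply, id]
  field_simp
  push_cast
  ring

theorem g2_cont {h : ℝ} (hh : 0 < h) : Continuous (g2 h) := by
  have e : g2 h = fun y => 6 * h ^ 2 * max y 0 / (max y 0 + h) ^ 4 := by
    funext y
    unfold g2
    split_ifs with hy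
    · rw [max_eq_left hy.le]
    · rw [max_eq_right (not_lt.1 hy)]; simp
  rw [e]
  refine Continuous.div (by fun_prop) (by fun_prop) fun y => ?_
  have : 0 ≤ max y 0 := le_max_right _ _
  positivity

theorem g0_nonneg {h : ℝ} (hh : 0 < h) (y : ℝ) : 0 ≤ g0 h y := by
  unfold g0; split_ifs with hy <;> positivity

theorem g0_pos {h y : ℝ} (hh : 0 < h) (hy : 0 < y) : 0 < g0 h y := by
  unfold g0; rw [if_pos hy]; positivity

theorem g0_le {h : ℝ} (hh : 0 < h) (y : ℝ) : g0 h y ≤ max y 0 := by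
  unfold g0
  split_ifs with hy
  · refine le_max_of_le_left ?_
    rw [div_le_iff₀ (by positivity)]
    have e : y * (y + h) ^ 2 = y ^ 3 + (2 * h * y ^ 2 + h ^ 2 * y) := by ring
    rw [e]
    have : 0 ≤ 2 * h * y ^ 2 + h ^ 2 * y := by positivity
    linarith
  · exact le_max_right _ _

theorem g1_nonneg {h : ℝ} (hh : 0 < h) (y : ℝ) : 0 ≤ g1 h y := by
  unfold g1; split_ifs with hy <;> positivity

theorem g1_le {h : ℝ} (hh : 0 < h) (y : ℝ) : g1 h y ≤ 1 := by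
  unfold g1
  split_ifs with hy
  · rw [div_le_one (by positivity)]
    have e : (y + h) ^ 3 = y ^ 2 * (y + 3 * h) + (3 * h ^ 2 * y + h ^ 3) := by ring
    rw [e]
    have : 0 ≤ 3 * h ^ 2 * y + h ^ 3 := by positivity
    linarith
  · exact zero_le_one

theorem g2_nonneg {h : ℝ} (hh : 0 < h) (y : ℝ) : 0 ≤ g2 h y := by
  unfold g2; split_ifs with hy <;> positivity

theorem g2_le {h : ℝ} (hh : 0 < h) (y : ℝ) : g2 h y ≤ 6 / h := by
  unfold g2
  split_ifs with hy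
  · rw [div_le_div_iff₀ (by positivity) hh]
    have e : 6 * (y + h) ^ 4 = 6 * h ^ 2 * y * h +
        (6 * y ^ 4 + 24 * y ^ 3 * h + 36 * y ^ 2 * h ^ 2 + 18 * y * h ^ 3 + 6 * h ^ 4) := by ring
    rw [e]
    have : 0 ≤ 6 * y ^ 4 + 24 * y ^ 3 * h + 36 * y ^ 2 * h ^ 2 + 18 * y * h ^ 3 + 6 * h ^ 4 := by
      positivity
    linarith
  · positivity

/-- the algebraic core: `g'(y) (d' - 2 k y) + 2 k g(y) ≥ 0` if `4 k h ≤ d'`. -/
theorem core {h d' k : ℝ} (hh : 0 < h) (hd : 0 ≤ d') (hk : 4 * k * h ≤ d') (y : ℝ) :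
    -(2 * k * g0 h y) ≤ g1 h y * (d' - 2 * k * y) := by
  unfold g0 g1
  split_ifs with hy
  · have e : y ^ 2 * (y + 3 * h) / (y + h) ^ 3 * (d' - 2 * k * y) - -(2 * k * (y ^ 3 / (y + h) ^ 2)) =
        y ^ 2 / (y + h) ^ 3 * ((d' - 4 * k * h) * y + 3 * h * d') := by
      field_simp
      ring
    have h2 : 0 ≤ y ^ 2 / (y + h) ^ 3 * ((d' - 4 * k * h) * y + 3 * h * d') := by
      have : 0 ≤ (d' - 4 * k * h) * y := mul_nonneg (by linarith) hy.le
      positivity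
    linarith
  · simp

/-- `C²` regularisation of the positive part of a robust subsolution. -/
theorem smooth_sub {φ φ' φ'' A w : ℝ → ℝ} {k d' h : ℝ} (hφ : TF φ φ' φ'') (hh : 0 < h)
    (hd : 0 ≤ d') (hk : 4 * k * h ≤ d') 
    (hsub : ∀ z, 0 < φ z → d' - 2 * k * φ z ≤ φ'' z + A z * φ' z - w z * |φ' z|) :
    TF (fun z => g0 h (φ z)) (fun z => g1 h (φ z) * φ' z)
      (fun z => g2 h (φ z) * φ' z ^ 2 + g1 h (φ z) * φ'' z) ∧
    (∀ z, 0 ≤ g0 h (φ z)) ∧ (∀ z, g0 h (φ z) ≤ max (φ z) 0) ∧ (∀ z, 0 < φ z → 0 < g0 h (φ z)) ∧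
    ∀ z, -(2 * k * g0 h (φ z)) ≤ (g2 h (φ z) * φ' z ^ 2 + g1 h (φ z) * φ'' z) +
      A z * (g1 h (φ z) * φ' z) - w z * |g1 h (φ z) * φ' z| := by
  have hcφ : Continuous φ := hφ.cont
  have hcφ' : Continuous φ' := continuous_iff_continuousAt.2 fun z => (hφ.h2 z).continuousAt
  have hcφ'' := hφ.hc
  have hcg1 : Continuous (g1 h) := continuous_iff_continuousAt.2 fun z => (g1_deriv hh z).continuousAt
  have hcg2 := g2_cont hh
  refine ⟨⟨?_, ?_, ?_, ?_⟩, fun z => g0_nonneg hh _, fun z => g0_le hh _, fun z hz => g0_pos hh hz, ?_⟩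
  · intro z
    exact (g0_deriv hh (φ z)).comp z (hφ.h1 z)
  · intro z
    have h1 := ((g1_deriv hh (φ z)).comp z (hφ.h1 z)).mul (hφ.h2 z)
    refine h1.congr_deriv ?_
    simp only [Function.comp]
    ring
  · fun_prop
  · obtain ⟨C, n, hC, hgr⟩ := hφ.gr
    refine ⟨C + 6 / h * C ^ 2, 2 * n, by positivity, fun z => ?_⟩
    have hz1 : (1 : ℝ) ≤ 1 + |z| := by have := abs_nonneg z; linarith
    have hp : (1 + |z|) ^ n ≤ (1 + |z|) ^ (2 * n) := pow_le_pow_right₀ hz1 (by omega)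
    have hq : 0 ≤ (1 + |z|) ^ n := by positivity
    have hb : 0 ≤ 6 / h * C ^ 2 * (1 + |z|) ^ (2 * n) := by positivity
    have hbC : C * (1 + |z|) ^ n ≤ C * (1 + |z|) ^ (2 * n) := mul_le_mul_of_nonneg_left hp hC
    obtain ⟨a1, a2, a3⟩ := hgr z
    have e : (C + 6 / h * C ^ 2) * (1 + |z|) ^ (2 * n) =
      C * (1 + |z|) ^ (2 * n) + 6 / h * C ^ 2 * (1 + |z|) ^ (2 * n) := by ring
    rw [e]
    refine ⟨?_, ?_, ?_⟩
    · rw [abs_of_nonneg (g0_nonneg hh _)]
      have h1 := g0_le hh (φ z)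
      have h2 : max (φ z) 0 ≤ |φ z| := max_le (le_abs_self _) (abs_nonneg _)
      linarith
    · rw [abs_mul, abs_of_nonneg (g1_nonneg hh _)]
      have h1 := mul_le_mul_of_nonneg_right (g1_le hh (φ z)) (abs_nonneg (φ' z))
      linarith
    · have h1 : |g2 h (φ z) * φ' z ^ 2| ≤ 6 / h * C ^ 2 * (1 + |z|) ^ (2 * n) := by
        rw [abs_mul, abs_of_nonneg (g2_nonneg hh _), abs_of_nonneg (sq_nonneg (φ' z))]
        have h2 : φ' z ^ 2 ≤ (C * (1 + |z|) ^ n) ^ 2 := by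
          rw [← sq_abs]
          exact pow_le_pow_left₀ (abs_nonneg _) a2 2
        have h3 : (C * (1 + |z|) ^ n) ^ 2 = C ^ 2 * (1 + |z|) ^ (2 * n) := by
          rw [mul_pow, ← pow_mul, mul_comm n 2]
        calc g2 h (φ z) * φ' z ^ 2 ≤ 6 / h * (C * (1 + |z|) ^ n) ^ 2 :=
              mul_le_mul (g2_le hh _) h2 (sq_nonneg _) (by positivity)
          _ = _ := by rw [h3]; ring
      have h2 : |g1 h (φ z) * φ'' z| ≤ C * (1 + |z|) ^ n := by
        rw [abs_mul, abs_of_nonneg (g1_nonneg hh _)]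
        have h1 := mul_le_mul_of_nonneg_right (g1_le hh (φ z)) (abs_nonneg (φ'' z))
        linarith
      have h3 := abs_add_le (g2 h (φ z) * φ' z ^ 2) (g1 h (φ z) * φ'' z)
      linarith
  · intro z
    have h1 := core hh hd hk (φ z)
    have h2 : 0 ≤ g2 h (φ z) * φ' z ^ 2 := mul_nonneg (g2_nonneg hh _) (sq_nonneg _)
    rw [abs_mul, abs_of_nonneg (g1_nonneg hh _)]
    rcases le_or_gt (φ z) 0 with hz | hz
    · have e0 : g0 h (φ z) = 0 := by unfold g0; rw [if_neg (not_lt.2 hz)]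
      have e1 : g1 h (φ z) = 0 := by unfold g1; rw [if_neg (not_lt.2 hz)]
      rw [e0, e1]
      simp only [mul_zero, zero_mul, neg_zero, add_zero, sub_zero]
      exact h2
    · have h3 := mul_le_mul_of_nonneg_left (hsub z hz) (g1_nonneg hh (φ z))
      linarith

end

end Crest.Agent.R146.PtEndE_524
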