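import Mathlib

/-!
Row 146, package PT-END (post 726): the test-function form of the last step of the attractor lemma.
Real-variable part: one sign change, transplant of the explicit pair `(At, psi)` of the numerical
certificate into the true operator, one-sided Gronwall in the clock `tau = 1 - t`, scalar endgame.
-/

set_option autoImplicit false

namespace Crest.Agent.R146.PtEndT_539

open Set Filter Topology

/-! ### (T-a) one sign change -/

/-- If `D' > 0` at every zero of `D` and `D z = 0`, then `D > 0` on the right of `z`. -/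
theorem pos_right {D D' : ℝ → ℝ} (hD : ∀ x, HasDerivAt D (D' x) x)
    (hpos : ∀ x, D x = 0 → 0 < D' x) {z : ℝ} (hz : D z = 0) {x : ℝ} (hx : z < x) : 0 < D x := by
  have hcont : Continuous D := continuous_iff_continuousAt.2 fun y => (hD y).continuousAt
  -- near a zero the sign of D is the sign of (y - zero)
  have key : ∀ w, D w = 0 → ∀ᶠ y in 𝓝[≠] w, 0 < (D y - D w) / (y - w) := by
    intro w hw
    have h1 := (hasDerivAt_iff_tendsto_slope.1 (hD w))
    have h2 : ∀ᶠ y in 𝓝[≠] w, 0 < slope D w y := h1.eventually (lt_mem_nhds (hpos w hw))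
    filter_upwards [h2] with y hy
    rw [slope_def_field] at hy
    exact hy
  by_contra hcon
  push Not at hcon
  -- a point a in (z, x) with D > 0 on (z, a]
  obtain ⟨ε, hε, hball⟩ : ∃ ε > 0, ∀ y, y ≠ z → |y - z| < ε → 0 < (D y - D z) / (y - z) := by
    have h := key z hz
    rw [eventually_nhdsWithin_iff, Metric.eventually_nhds_iff] at h
    obtain ⟨ε, hε, h⟩ := h
    exact ⟨ε, hε, fun y hy hd => h (by rwa [Real.dist_eq]) hy⟩
  set a : ℝ := z + ε / 2 with ha
  have haz : z < a := by rw [ha]; linarith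
  have hDpos : ∀ y, z < y → y ≤ a → 0 < D y := by
    intro y h1 h2
    have h3 := hball y (ne_of_gt h1) (by rw [abs_lt]; constructor <;> linarith)
    rw [hz, sub_zero] at h3
    have h4 : 0 < y - z := by linarith
    exact (div_pos_iff_of_pos_right h4).1 h3
  have hax : a < x := by
    by_contra h
    push Not at h
    exact absurd (hDpos x hx h) (not_lt.2 hcon)
  -- the first zero after a
  set S : Set ℝ := Icc a x ∩ {y | D y ≤ 0} with hS
  have hScomp : IsCompact S := isCompact_Icc.inter_right (isClosed_le hcont continuous_const)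
  have hSne : S.Nonempty := ⟨x, ⟨hax.le, le_rfl⟩, hcon⟩
  have hw := hScomp.sInf_mem hSne
  set w := sInf S with hwdef
  have hwa : a < w := by
    rcases eq_or_lt_of_le hw.1.1 with h | h
    · exact absurd (hDpos w (by rw [← h]; exact haz) (by rw [← h])) (not_lt.2 hw.2)
    · exact h
  have hleft : ∀ y, a < y → y < w → 0 < D y := by
    intro y h1 h2
    by_contra h3
    push Not at h3
    have : w ≤ y := csInf_le hScomp.bddBelow ⟨⟨h1.le, h2.le.trans hw.1.2⟩, h3⟩
    linarith
  have hw0 : D w = 0 := by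
    apply le_antisymm hw.2
    have h1 : Tendsto D (𝓝[<] w) (𝓝 (D w)) := hcont.continuousAt.tendsto.mono_left nhdsWithin_le_nhds
    apply ge_of_tendsto h1
    filter_upwards [Ioo_mem_nhdsLT hwa] with y hy
    exact (hleft y hy.1 hy.2).le
  have h := (key w hw0)
  have h' : ∀ᶠ y in 𝓝[<] w, 0 < (D y - D w) / (y - w) :=
    h.filter_mono (nhdsWithin_mono w fun y hy => ne_of_lt hy)
  obtain ⟨y, hy1, hy2⟩ := (h'.and (Ioo_mem_nhdsLT hwa)).exists
  rw [hw0, sub_zero] at hy1
  have h4 : y - w < 0 := by linarith [hy2.2]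
  have h5 : 0 < D y := hleft y hy2.1 hy2.2
  have := div_neg_of_pos_of_neg h5 h4
  linarith

/-- (T-a) If `D' > 0` at every zero of `D` and `D z = 0`: `D < 0` left of `z`, `D > 0` right of `z`. -/
theorem one_sign_change {D D' : ℝ → ℝ} (hD : ∀ x, HasDerivAt D (D' x) x)
    (hpos : ∀ x, D x = 0 → 0 < D' x) {z : ℝ} (hz : D z = 0) :
    (∀ x, x < z → D x < 0) ∧ (∀ x, z < x → 0 < D x) := by
  refine ⟨fun x hx => ?_, fun x hx => pos_right hD hpos hz hx⟩
  have h := @pos_right (fun y => - D (-y)) (fun y => D' (-y)) (fun y => by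
      have h1 := (hD (-y)).comp y (hasDerivAt_neg y)
      have h2 : HasDerivAt (fun y => - D (-y)) (-(D' (-y) * -1)) y := h1.neg
      have h3 : -(D' (-y) * -1) = D' (-y) := by ring
      rwa [h3] at h2)
    (fun y hy => hpos (-y) (by simpa using hy)) (-z) (by simp [hz]) (-x) (by linarith)
  simp only [neg_neg] at h
  linarith

/-- (T-a') If `D' < 0` at every zero of `D` and `D z = 0`: `D > 0` left of `z`, `D < 0` right of `z`. -/
theorem one_sign_change_neg {D D' : ℝ → ℝ} (hD : ∀ x, HasDerivAt D (D' x) x)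
    (hneg : ∀ x, D x = 0 → D' x < 0) {z : ℝ} (hz : D z = 0) :
    (∀ x, x < z → 0 < D x) ∧ (∀ x, z < x → D x < 0) := by
  have h := @one_sign_change (fun y => - D y) (fun y => - D' y) (fun y => (hD y).neg)
    (fun y hy => by
      have := hneg y (by simpa using hy)
      linarith) z (by simp [hz])
  refine ⟨fun x hx => ?_, fun x hx => ?_⟩
  · have := h.1 x hx
    linarith
  · have := h.2 x hx
    linarith

/-! ### (T-b) transplant of the explicit test function -/

/-- (T-b) lower case (`nu ≤ n`): the explicit positive `psi` is a strict supersolution for the true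
operator after a shift. -/
theorem transplant_super {A A' At At' psi psi' psi'' : ℝ → ℝ} {nu n d z0 : ℝ}
    (hA : ∀ x, HasDerivAt A (A' x) x) (hAt : ∀ x, HasDerivAt At (At' x) x)
    (hcmp : ∀ z w, A z = At w → At' w < A' z)
    (hsurj : ∃ z, A z = At z0)
    (huni : ∀ z, (z - z0) * psi' z ≤ 0)
    (hpsi0 : ∀ z, 0 ≤ psi z)
    (hpsi : ∀ z, psi'' z + At z * psi' z + 2 * n * psi z ≤ -2 * d * psi z)
    (hnu : nu ≤ n) :
    ∃ c, ∀ z, psi'' (z + c) + A z * psi' (z + c) + 2 * nu * psi (z + c) ≤ -2 * d * psi (z + c) := by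
  obtain ⟨z1, hz1⟩ := hsurj
  refine ⟨z0 - z1, fun z => ?_⟩
  set c := z0 - z1 with hc
  have hD : ∀ x, HasDerivAt (fun y => A y - At (y + c)) (A' x - At' (x + c)) x := by
    intro x
    have h1 := (hAt (x + c)).comp x ((hasDerivAt_id x).add_const c)
    simp only [Function.comp_def, id_eq, mul_one] at h1
    exact (hA x).sub h1
  have hs := one_sign_change hD (fun x hx => by
    have := hcmp x (x + c) (by linarith)
    linarith) (z := z1) (by
      have h : z1 + c = z0 := by rw [hc]; ring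
      simp only [h, hz1, sub_self])
  have hsign : (A z - At (z + c)) * psi' (z + c) ≤ 0 := by
    have hu := huni (z + c)
    rcases lt_trichotomy z z1 with h | h | h
    · have h1 := hs.1 z h
      have h2 : z + c - z0 < 0 := by rw [hc]; linarith
      have h3 : 0 ≤ psi' (z + c) := by
        by_contra h4
        push Not at h4
        have := mul_pos_of_neg_of_neg h2 h4
        linarith
      exact mul_nonpos_of_nonpos_of_nonneg h1.le h3
    · subst h
      have h : z + c = z0 := by rw [hc]; ring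
      rw [h, hz1]; simp
    · have h1 := hs.2 z h
      have h2 : 0 < z + c - z0 := by rw [hc]; linarith
      have h3 : psi' (z + c) ≤ 0 := by
        by_contra h4
        push Not at h4
        have := mul_pos h2 h4
        linarith
      exact mul_nonpos_of_nonneg_of_nonpos h1.le h3
  have h1 := hpsi (z + c)
  have h2 : 0 ≤ (n - nu) * psi (z + c) := mul_nonneg (by linarith) (hpsi0 _)
  nlinarith

/-- (T-b') upper case (`n ≤ nu`): `psi` with `psi'' + At psi' + 2 n psi ≥ g` where `psi > 0`. -/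
theorem transplant_sub {A A' At At' psi psi' psi'' g : ℝ → ℝ} {nu n z0 : ℝ}
    (hA : ∀ x, HasDerivAt A (A' x) x) (hAt : ∀ x, HasDerivAt At (At' x) x)
    (hcmp : ∀ z w, A z = At w → A' z < At' w)
    (hsurj : ∃ z, A z = At z0)
    (huni : ∀ z, 0 < psi z → (z - z0) * psi' z ≤ 0)
    (hpsi : ∀ z, 0 < psi z → g z ≤ psi'' z + At z * psi' z + 2 * n * psi z)
    (hnu : n ≤ nu) :
    ∃ c, ∀ z, 0 < psi (z + c) →
      g (z + c) ≤ psi'' (z + c) + A z * psi' (z + c) + 2 * nu * psi (z + c) := by
  obtain ⟨z1, hz1⟩ := hsurj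
  refine ⟨z0 - z1, fun z hz => ?_⟩
  set c := z0 - z1 with hc
  have hD : ∀ x, HasDerivAt (fun y => A y - At (y + c)) (A' x - At' (x + c)) x := by
    intro x
    have h1 := (hAt (x + c)).comp x ((hasDerivAt_id x).add_const c)
    simp only [Function.comp_def, id_eq, mul_one] at h1
    exact (hA x).sub h1
  have hs := one_sign_change_neg hD (fun x hx => by
    have := hcmp x (x + c) (by linarith)
    linarith) (z := z1) (by
      have h : z1 + c = z0 := by rw [hc]; ring
      simp only [h, hz1, sub_self])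
  have hsign : 0 ≤ (A z - At (z + c)) * psi' (z + c) := by
    have hu := huni (z + c) hz
    rcases lt_trichotomy z z1 with h | h | h
    · have h1 := hs.1 z h
      have h2 : z + c - z0 < 0 := by rw [hc]; linarith
      have h3 : 0 ≤ psi' (z + c) := by
        by_contra h4
        push Not at h4
        have := mul_pos_of_neg_of_neg h2 h4
        linarith
      exact mul_nonneg h1.le h3
    · subst h
      have h : z + c = z0 := by rw [hc]; ring
      rw [h, hz1]; simp
    · have h1 := hs.2 z h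
      have h2 : 0 < z + c - z0 := by rw [hc]; linarith
      have h3 : psi' (z + c) ≤ 0 := by
        by_contra h4
        push Not at h4
        have := mul_pos h2 h4
        linarith
      exact mul_nonneg_of_nonpos_of_nonpos h1.le h3
  have h1 := hpsi (z + c) hz
  have h2 : 0 ≤ (nu - n) * psi (z + c) := mul_nonneg (by linarith) hz.le
  nlinarith

/-! ### (T-c) one-sided Gronwall in the clock `1 - t` and the scalar endgame -/

/-- `F' ≤ -κ/(1-t) F` (right derivatives) gives `F t1 ≤ F t0 ((1-t1)/(1-t0))^κ`. -/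
theorem power_decay {F F' : ℝ → ℝ} {t0 t1 κ : ℝ} (h01 : t0 ≤ t1) (h1 : t1 < 1)
    (hc : ContinuousOn F (Icc t0 t1))
    (hd : ∀ t ∈ Ico t0 t1, HasDerivWithinAt F (F' t) (Ici t) t)
    (hle : ∀ t ∈ Ico t0 t1, F' t ≤ -(κ / (1 - t)) * F t) :
    F t1 ≤ F t0 * ((1 - t1) / (1 - t0)) ^ κ := by
  -- G t = F t * (1-t)^(-κ) is nonincreasing
  set G : ℝ → ℝ := fun t => F t * (1 - t) ^ (-κ) with hG
  have hpow : ∀ t, t < 1 → HasDerivAt (fun s : ℝ => (1 - s) ^ (-κ)) (κ * (1 - t) ^ (-κ - 1)) t := by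
    intro t ht
    have h2 : HasDerivAt (fun s : ℝ => 1 - s) (-1) t := by
      simpa using (hasDerivAt_id t).const_sub 1
    have h3 := h2.rpow_const (p := -κ) (Or.inl (by linarith : (1 - t) ≠ 0))
    convert h3 using 1
    ring
  have hGc : ContinuousOn G (Icc t0 t1) := by
    apply hc.mul
    intro t ht
    exact (hpow t (lt_of_le_of_lt ht.2 h1)).continuousAt.continuousWithinAt
  have hGd : ∀ t ∈ Ico t0 t1, HasDerivWithinAt G
      (F' t * (1 - t) ^ (-κ) + F t * (κ * (1 - t) ^ (-κ - 1))) (Ici t) t := by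
    intro t ht
    exact (hd t ht).mul (hpow t (ht.2.trans h1)).hasDerivWithinAt
  have hmono : G t1 ≤ G t0 := by
    have hB := @image_le_of_deriv_right_le_deriv_boundary G
      (fun t => F' t * (1 - t) ^ (-κ) + F t * (κ * (1 - t) ^ (-κ - 1))) t0 t1 hGc hGd
      (fun _ => G t0) (fun _ => 0) le_rfl continuousOn_const
      (fun x _ => hasDerivWithinAt_const _ _ _) (by
        intro t ht
        have ht1 : 0 < 1 - t := by linarith [ht.2]
        have h4 := hle t ht
        have h5 : (1 - t) ^ (-κ - 1) = (1 - t) ^ (-κ) / (1 - t) := by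
          rw [Real.rpow_sub ht1, Real.rpow_one]
        have h6 : 0 < (1 - t) ^ (-κ) := Real.rpow_pos_of_pos ht1 _
        rw [h5]
        have h7 : F' t * (1 - t) ^ (-κ) ≤ (-(κ / (1 - t)) * F t) * (1 - t) ^ (-κ) :=
          mul_le_mul_of_nonneg_right h4 h6.le
        have h8 : (-(κ / (1 - t)) * F t) * (1 - t) ^ (-κ) + F t * (κ * ((1 - t) ^ (-κ) / (1 - t))) = 0 := by
          field_simp
          ring
        linarith)
    exact hB (right_mem_Icc.2 h01)
  have hp0 : 0 < 1 - t0 := by linarith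
  have hp1 : 0 < 1 - t1 := by linarith
  have h9 : F t1 = G t1 * (1 - t1) ^ κ := by
    simp only [hG]
    rw [mul_assoc, ← Real.rpow_add hp1]; simp
  have h10 : F t0 * ((1 - t1) / (1 - t0)) ^ κ = G t0 * (1 - t1) ^ κ := by
    simp only [hG]
    rw [Real.div_rpow hp1.le hp0.le, Real.rpow_neg hp0.le]
    ring
  rw [h9, h10]
  exact mul_le_mul_of_nonneg_right hmono (Real.rpow_pos_of_pos hp1 _).le

/-- Mirror of `power_decay`: `F' ≥ -κ/(1-t) F` gives `F t1 ≥ F t0 ((1-t1)/(1-t0))^κ`. -/
theorem power_growth {F F' : ℝ → ℝ} {t0 t1 κ : ℝ} (h01 : t0 ≤ t1) (h1 : t1 < 1)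
    (hc : ContinuousOn F (Icc t0 t1))
    (hd : ∀ t ∈ Ico t0 t1, HasDerivWithinAt F (F' t) (Ici t) t)
    (hle : ∀ t ∈ Ico t0 t1, -(κ / (1 - t)) * F t ≤ F' t) :
    F t0 * ((1 - t1) / (1 - t0)) ^ κ ≤ F t1 := by
  have h := @power_decay (fun t => - F t) (fun t => - F' t) t0 t1 κ h01 h1 hc.neg
    (fun t ht => (hd t ht).neg) (fun t ht => by
      have := hle t ht
      simp only [mul_neg]
      linarith)
  simp only [neg_mul] at h
  linarith

/-- (T-c) endgame, upper bound against lower bound. -/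
theorem endgame_super {Q : ℝ → ℝ} {nu κ C t0 : ℝ} (hnu : nu < κ) (ht0 : t0 < 1) (hQ0 : 0 < Q t0)
    (hlow : ∀ t ∈ Ico t0 1, Q t0 * ((1 - t) / (1 - t0)) ^ nu ≤ Q t)
    (hup : ∀ t ∈ Ico t0 1, Q t ≤ C * ((1 - t) / (1 - t0)) ^ κ) : False := by
  -- with r = (1-t)/(1-t0) in (0,1] arbitrary: Q t0 * r^nu ≤ C r^κ
  have key : ∀ r : ℝ, 0 < r → r ≤ 1 → Q t0 ≤ C * r ^ (κ - nu) := by
    intro r hr0 hr1
    have hp0 : 0 < 1 - t0 := by linarith
    set t := 1 - r * (1 - t0) with ht
    have h1 : (1 - t) / (1 - t0) = r := by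
      rw [ht]; field_simp; ring
    have h2 : t ∈ Ico t0 1 := by
      constructor
      · rw [ht]; nlinarith
      · rw [ht]; nlinarith [mul_pos hr0 hp0]
    have h3 := hlow t h2
    have h4 := hup t h2
    rw [h1] at h3 h4
    have h5 : Q t0 * r ^ nu ≤ C * r ^ κ := h3.trans h4
    rw [Real.rpow_sub hr0]
    rw [← mul_div_assoc, le_div_iff₀ (Real.rpow_pos_of_pos hr0 _)]
    exact h5
  have hlim : Tendsto (fun r : ℝ => C * r ^ (κ - nu)) (𝓝[>] 0) (𝓝 (C * 0)) := by
    apply Tendsto.const_mul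
    have : Tendsto (fun r : ℝ => r ^ (κ - nu)) (𝓝 0) (𝓝 (0 ^ (κ - nu))) :=
      (Real.continuousAt_rpow_const 0 (κ - nu) (Or.inr (by linarith))).tendsto
    rw [Real.zero_rpow (by linarith)] at this
    exact this.mono_left nhdsWithin_le_nhds
  rw [mul_zero] at hlim
  have : Q t0 ≤ 0 := by
    apply ge_of_tendsto hlim
    filter_upwards [Ioc_mem_nhdsGT (zero_lt_one' ℝ)] with r hr
    exact key r hr.1 hr.2
  linarith

/-- (T-c') mirror endgame. -/
theorem endgame_sub {Q : ℝ → ℝ} {nu κ m0 t0 : ℝ} (hnu : κ < nu) (ht0 : t0 < 1) (hm0 : 0 < m0)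
    (hup : ∀ t ∈ Ico t0 1, Q t ≤ Q t0 * ((1 - t) / (1 - t0)) ^ nu)
    (hlow : ∀ t ∈ Ico t0 1, m0 * ((1 - t) / (1 - t0)) ^ κ ≤ Q t) : False := by
  have key : ∀ r : ℝ, 0 < r → r ≤ 1 → m0 ≤ Q t0 * r ^ (nu - κ) := by
    intro r hr0 hr1
    have hp0 : 0 < 1 - t0 := by linarith
    set t := 1 - r * (1 - t0) with ht
    have h1 : (1 - t) / (1 - t0) = r := by
      rw [ht]; field_simp; ring
    have h2 : t ∈ Ico t0 1 := by
      constructor
      · rw [ht]; nlinarith
      · rw [ht]; nlinarith [mul_pos hr0 hp0]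
    have h3 := hup t h2
    have h4 := hlow t h2
    rw [h1] at h3 h4
    have h5 := h4.trans h3
    rw [Real.rpow_sub hr0]
    rw [← mul_div_assoc, le_div_iff₀ (Real.rpow_pos_of_pos hr0 _)]
    exact h5
  have hlim : Tendsto (fun r : ℝ => Q t0 * r ^ (nu - κ)) (𝓝[>] 0) (𝓝 (Q t0 * 0)) := by
    apply Tendsto.const_mul
    have : Tendsto (fun r : ℝ => r ^ (nu - κ)) (𝓝 0) (𝓝 (0 ^ (nu - κ))) :=
      (Real.continuousAt_rpow_const 0 (nu - κ) (Or.inr (by linarith))).tendsto
    rw [Real.zero_rpow (by linarith)] at this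
    exact this.mono_left nhdsWithin_le_nhds
  rw [mul_zero] at hlim
  have : m0 ≤ 0 := by
    apply ge_of_tendsto hlim
    filter_upwards [Ioc_mem_nhdsGT (zero_lt_one' ℝ)] with r hr
    exact key r hr.1 hr.2
  linarith

end Crest.Agent.R146.PtEndT_539
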