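import Crest.Agent.R146.PtEndD_524
import Crest.Agent.R146.StepStart_483
import Crest.Agent.R146.SPair_307

/-!
Row 146, PT-END: closeness of the backward field `u` of the step system to ONE stationary profile
(helper524), clock `χ = D K0`, `Y = m K0`.

`y = u - √χ U_c(x/√χ)` satisfies `y_t + y_xx/2 + b u y_x + b V_c y = -(Y-c) χ^{-1/2} σ`,
`σ = (U_c V_c - W_c R_c)/2`, `|σ| ≤ B`.  Barrier constant in `x`: `S(t) = √χ s(t)`,
`s(t) = ε B/κ + C exp(-κ (r(t1) - r(t)))`, `r = ∫ dt/χ`, `2 κ ≤ 1 - Y`.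
-/

set_option autoImplicit false

namespace Crest.Agent.R146.PtEndU_524

open MeasureTheory Set Filter Topology
open Crest.Agent.R146.StepDef_791 Crest.Agent.R146.PtEndD_524
open Crest.Agent.R146.MaxPCmp_371 Crest.Agent.R146.MaxP2_371
open Crest.Agent.R146.SPair_307

noncomputable section

/-- `Y = m K0` -/
def Yk (A : SD) (t : ℝ) : ℝ := A.m t * A.K0 t

/-- stationary profile at the constant `c` (part of `SPair`) -/
structure StatU (c : ℝ) (W V I : ℝ → ℝ) : Prop where
  dW : ∀ x, HasDerivAt W (V x) x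
  dV : ∀ x, HasDerivAt V (I x) x
  eqI : ∀ x, I x = (1 + c) * W x - 2 * Ad c W x * V x
  W_pos : ∀ x, 0 < W x
  U_pos : ∀ x, x < W x
  W_le : ∀ x, W x ≤ (x + Real.sqrt (x ^ 2 + 1)) / 2
  V_pos : ∀ x, 0 < V x
  V_lt : ∀ x, V x < 1
  I_nonneg : ∀ x, 0 ≤ I x

theorem StatU.of_spair {c : ℝ} {W V I k : ℝ → ℝ} {lam : ℝ} (h : SPair c W V I k lam) :
    StatU c W V I :=
  ⟨h.dW, h.dV, h.eqI, h.W_pos, h.U_pos, h.W_le, h.V_pos, h.V_lt, fun x => (h.I_pos x).le⟩

section stat

variable {c : ℝ} {W V I : ℝ → ℝ}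

theorem StatU.W_le_pos (h : StatU c W V I) {x : ℝ} (hx : 0 ≤ x) : W x ≤ x + 1 / 2 := by
  have h1 := h.W_le x
  have h2 : Real.sqrt (x ^ 2 + 1) ≤ x + 1 := by
    rw [Real.sqrt_le_left (by linarith)]
    nlinarith
  linarith

theorem StatU.W_le_neg (h : StatU c W V I) {x : ℝ} (hx : x ≤ 0) : W x ≤ 1 / 2 := by
  have h1 := h.W_le x
  have h2 : Real.sqrt (x ^ 2 + 1) ≤ 1 - x := by
    rw [Real.sqrt_le_left (by linarith)]
    nlinarith
  linarith

theorem StatU.V_mono (h : StatU c W V I) : Monotone V :=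
  monotone_of_deriv_nonneg (fun x => (h.dV x).differentiableAt) fun x => by
    rw [(h.dV x).deriv]; exact h.I_nonneg x

/-- mean value: `V(a) (b-a) ≤ W(b) - W(a) ≤ V(b) (b-a)` -/
theorem StatU.mv (h : StatU c W V I) {a b : ℝ} (hab : a < b) :
    V a * (b - a) ≤ W b - W a ∧ W b - W a ≤ V b * (b - a) := by
  obtain ⟨ξ, hξ, he⟩ := exists_hasDerivAt_eq_slope W V hab
    (fun x _ => (h.dW x).continuousAt.continuousWithinAt) (fun x _ => h.dW x)
  have hb : 0 < b - a := sub_pos.2 hab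
  rw [eq_div_iff hb.ne'] at he
  have h1 := h.V_mono hξ.1.le
  have h2 := h.V_mono hξ.2.le
  constructor
  · rw [← he]; exact mul_le_mul_of_nonneg_right h1 hb.le
  · rw [← he]; exact mul_le_mul_of_nonneg_right h2 hb.le

/-- `|z| V ≤ 1` for `z ≤ 0` -/
theorem StatU.zV (h : StatU c W V I) {z : ℝ} (hz : z ≤ 0) : -z * V z ≤ 1 := by
  rcases lt_or_eq_of_le hz with hz | hz
  · have h1 := (h.mv (show z < z / 2 by linarith)).1
    have h2 := h.W_le_neg (show z / 2 ≤ 0 by linarith)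
    have h3 := h.W_pos z
    nlinarith
  · rw [hz]; simp

/-- `z R ≤ 1` for `0 ≤ z` -/
theorem StatU.zR (h : StatU c W V I) {z : ℝ} (hz : 0 ≤ z) : z * (1 - V z) ≤ 1 := by
  rcases lt_or_eq_of_le hz with hz | hz
  · have h1 := (h.mv (show z / 2 < z by linarith)).2
    have h2 := h.W_le_pos (show 0 ≤ z / 2 by linarith)
    have h3 := h.U_pos z
    nlinarith
  · rw [← hz]; simp

/-- the source is bounded: `|U V - W R| ≤ 2` -/
theorem StatU.sigma (h : StatU c W V I) (z : ℝ) :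
    |(W z - z) * V z - W z * (1 - V z)| ≤ 2 := by
  have hW := h.W_pos z
  have hU := h.U_pos z
  have hV := h.V_pos z
  have hV1 := h.V_lt z
  have hUV : 0 ≤ (W z - z) * V z := mul_nonneg (by linarith) hV.le
  have hWR : 0 ≤ W z * (1 - V z) := mul_nonneg hW.le (by linarith)
  rw [abs_le]
  rcases le_total 0 z with hz | hz
  · have h1 := h.W_le_pos hz
    have h2 := h.zR hz
    have h3 : (W z - z) * V z ≤ 1 / 2 * 1 :=
      mul_le_mul (by linarith) hV1.le hV.le (by norm_num)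
    have h4 : W z * (1 - V z) ≤ (z + 1 / 2) * (1 - V z) :=
      mul_le_mul_of_nonneg_right h1 (by linarith)
    constructor <;> nlinarith
  · have h1 := h.W_le_neg hz
    have h2 := h.zV hz
    have h3 : W z * V z ≤ 1 / 2 * 1 := mul_le_mul h1 hV1.le hV.le (by norm_num)
    have h4 : W z * (1 - V z) ≤ 1 / 2 * 1 :=
      mul_le_mul h1 (by linarith) (by linarith) (by norm_num)
    constructor <;> nlinarith

theorem StatU.U_le (h : StatU c W V I) (z : ℝ) : |W z - z| ≤ 1 * (1 + |z|) := by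
  have hU := h.U_pos z
  rw [abs_of_pos (by linarith), one_mul]
  rcases le_total 0 z with hz | hz
  · have h1 := h.W_le_pos hz
    rw [abs_of_nonneg hz]; linarith
  · have h1 := h.W_le_neg hz
    rw [abs_of_nonpos hz]; linarith

/-- distance to the start profile -/
theorem StatU.U0_close (h : StatU c W V I) (z : ℝ) : |U0 z - (W z - z)| ≤ 1 := by
  have hU := h.U_pos z
  have hW := h.W_pos z
  have h00 : U0 0 ≤ 1 := by have := StepStart_483.U0_le 0; simpa using this
  rw [abs_le]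
  rcases le_total 0 z with hz | hz
  · have h1 := h.W_le_pos hz
    have h2 := StepStart_483.U0_pos z
    have h3 : U0 z ≤ U0 0 := StepStart_483.U0_strictAnti.antitone hz
    constructor <;> linarith
  · have h1 := h.W_le_neg hz
    have h2 := StepStart_483.U0_pos (-z)
    have h3 : U0 (-z) ≤ U0 0 := StepStart_483.U0_strictAnti.antitone (by linarith)
    have h4 := StepStart_483.add_U0 z
    constructor <;> linarith

end stat

/-- the reference field `√χ U_c(x/√χ)` -/
def uc (A : SD) (W : ℝ → ℝ) (t x : ℝ) : ℝ :=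
  Real.sqrt (A.chi t) * (W (x / Real.sqrt (A.chi t)) - x / Real.sqrt (A.chi t))

/-- the barrier `√χ (ε B/κ + C exp(-κ (r(t1)-r(t))))` -/
def sbar (A : SD) (a κ C t1 t : ℝ) : ℝ :=
  a + C * Real.exp (-(κ * (rk A.chi t1 - rk A.chi t)))

section main

variable {A : SD} {c : ℝ} {W V I : ℝ → ℝ}

/-- time derivative of `√χ` -/
theorem sqrt_chi_t (hC : Clock A) {t : ℝ} (ht : t ∈ Ico 0 A.T) :
    HasDerivWithinAt (fun s => Real.sqrt (A.chi s))
      (-(1 + Yk A t) / (2 * Real.sqrt (A.chi t))) (Ici t) t := by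
  have hpos := (scale_chi hC).pos t ⟨ht.1, ht.2.le⟩
  exact ((scale_chi hC).hr t ht).sqrt hpos.ne'

theorem uc_t (hC : Clock A) (h : StatU c W V I) {t : ℝ} (ht : t ∈ Ico 0 A.T) (x : ℝ) :
    HasDerivWithinAt (fun s => uc A W s x)
      (-(1 + Yk A t) / (2 * Real.sqrt (A.chi t)) *
        ((W (x / Real.sqrt (A.chi t)) - x / Real.sqrt (A.chi t)) -
          x / Real.sqrt (A.chi t) * (V (x / Real.sqrt (A.chi t)) - 1))) (Ici t) t := by
  have hpos := (scale_chi hC).pos t ⟨ht.1, ht.2.le⟩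
  have hsq : 0 < Real.sqrt (A.chi t) := Real.sqrt_pos.2 hpos
  have h1 := sqrt_chi_t hC ht
  have h2 : HasDerivWithinAt (fun s => x / Real.sqrt (A.chi s)) _ (Ici t) t :=
    (hasDerivWithinAt_const t (Ici t) x).div h1 hsq.ne'
  have h3 := ((h.dW (x / Real.sqrt (A.chi t))).comp_hasDerivWithinAt t h2).sub h2
  have h4 := h1.mul h3
  refine h4.congr_deriv ?_
  simp only [Function.comp, Pi.sub_apply]
  field_simp
  ring

theorem uc_x (hC : Clock A) (h : StatU c W V I) {t : ℝ} (ht : t ∈ Icc 0 A.T) (x : ℝ) :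
    HasDerivAt (uc A W t) (V (x / Real.sqrt (A.chi t)) - 1) x := by
  have hpos := (scale_chi hC).pos t ht
  have hsq : 0 < Real.sqrt (A.chi t) := Real.sqrt_pos.2 hpos
  have h1 : HasDerivAt (fun x => x / Real.sqrt (A.chi t)) (1 / Real.sqrt (A.chi t)) x :=
    (hasDerivAt_id x).div_const _
  have h3 := (((h.dW (x / Real.sqrt (A.chi t))).comp x h1).sub h1).const_mul (Real.sqrt (A.chi t))
  refine h3.congr_deriv ?_
  field_simp

theorem uc_xx (A : SD) (h : StatU c W V I) (t x : ℝ) :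
    HasDerivAt (fun x => V (x / Real.sqrt (A.chi t)) - 1)
      (I (x / Real.sqrt (A.chi t)) / Real.sqrt (A.chi t)) x := by
  have h1 : HasDerivAt (fun x => x / Real.sqrt (A.chi t)) (1 / Real.sqrt (A.chi t)) x :=
    (hasDerivAt_id x).div_const _
  have h3 := ((h.dV (x / Real.sqrt (A.chi t))).comp x h1).sub_const 1
  refine h3.congr_deriv ?_
  ring

theorem uc_cont (hC : Clock A) (h : StatU c W V I) :
    ContinuousOn (fun q : ℝ × ℝ => uc A W q.1 q.2) (Icc 0 A.T ×ˢ univ) := by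
  have hS := scale_chi hC
  have hcW : Continuous W := continuous_iff_continuousAt.2 fun z => (h.dW z).continuousAt
  have hfst : ContinuousOn (fun q : ℝ × ℝ => A.chi q.1) (Icc 0 A.T ×ˢ univ) :=
    hS.cont.comp continuousOn_fst fun q hq => hq.1
  have hz : ContinuousOn (fun q : ℝ × ℝ => q.2 / Real.sqrt (A.chi q.1)) (Icc 0 A.T ×ˢ univ) :=
    continuousOn_snd.div hfst.sqrt fun q hq => (Real.sqrt_pos.2 (hS.pos _ hq.1)).ne'
  exact hfst.sqrt.mul ((hcW.comp_continuousOn hz).sub hz)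

/-- `r` is the clock: right derivative of `sbar` -/
theorem sbar_t (hC : Clock A) {a κ C t1 t : ℝ} (ht : t ∈ Ico 0 A.T) :
    HasDerivWithinAt (sbar A a κ C t1)
      (κ * (A.chi t)⁻¹ * (sbar A a κ C t1 t - a)) (Ici t) t := by
  have h1 := rk_hasDeriv (scale_chi hC) ht
  have h2 := (((h1.const_sub (rk A.chi t1)).const_mul κ).neg.exp.const_mul C).const_add a
  refine h2.congr_deriv ?_
  unfold sbar
  simp only [Pi.neg_apply]
  ring

/-- **UCLOSE** on one window of one step system. -/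
theorem u_close (hB : Back A) (hC : Clock A) (h : StatU c W V I) {ε κ C t0 t1 : ℝ}
    (h0 : 0 ≤ t0) (h1 : t1 ≤ A.T) (hκ : 0 < κ) (hC0 : 0 ≤ C) (hε : 0 ≤ ε)
    (hY : ∀ t ∈ Ico t0 t1, |Yk A t - c| ≤ ε ∧ 2 * κ ≤ 1 - Yk A t)
    (hterm : ∀ x, |A.u t1 x - uc A W t1 x| ≤ Real.sqrt (A.chi t1) * C) :
    ∀ t ∈ Icc t0 t1, ∀ x, |A.u t x - uc A W t x| ≤
      Real.sqrt (A.chi t) * sbar A (ε / κ) κ C t1 t := by
  obtain ⟨M, hM⟩ := hB.bsys
  have hS := scale_chi hC
  have hsub : Icc t0 t1 ⊆ Icc 0 A.T := Icc_subset_Icc h0 h1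
  have hsub' : ∀ t ∈ Ico t0 t1, t ∈ Ico 0 A.T := fun t ht => ⟨h0.trans ht.1, ht.2.trans_le h1⟩
  -- the barrier is nonnegative
  have hs0 : ∀ t, 0 ≤ sbar A (ε / κ) κ C t1 t := fun t => by unfold sbar; positivity
  -- bound for √χ on [0,T]
  obtain ⟨K, hK⟩ := isCompact_Icc.exists_bound_of_continuousOn hS.cont.sqrt
  have hK' : ∀ t ∈ Icc 0 A.T, Real.sqrt (A.chi t) ≤ K := fun t ht => by
    have := hK t ht
    rwa [Real.norm_eq_abs, abs_of_nonneg (Real.sqrt_nonneg _)] at this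
  -- growth of `uc`
  have hucg : ∀ t ∈ Icc 0 A.T, ∀ x, |uc A W t x| ≤ (K + 1) * (1 + |x|) := by
    intro t ht x
    have hpos := hS.pos t ht
    have hsq : 0 < Real.sqrt (A.chi t) := Real.sqrt_pos.2 hpos
    unfold uc
    rw [abs_mul, abs_of_pos hsq]
    have h2 := h.U_le (x / Real.sqrt (A.chi t))
    have h3 : Real.sqrt (A.chi t) * |x / Real.sqrt (A.chi t)| = |x| := by
      rw [abs_div, abs_of_pos hsq]; field_simp
    have h4 := mul_le_mul_of_nonneg_left h2 hsq.le
    have h5 := hK' t ht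
    have h6 := abs_nonneg x
    nlinarith
  have hK0 : 0 ≤ K := (Real.sqrt_nonneg _).trans (hK' 0 ⟨le_rfl, A.hT0.le⟩)
  have hM0 : 0 ≤ M := (hM.b_nonneg 0 ⟨le_rfl, A.hT0.le⟩).trans (hM.b_le 0 ⟨le_rfl, A.hT0.le⟩)
  -- continuity of the barrier
  have hcs : ContinuousOn (fun q : ℝ × ℝ => Real.sqrt (A.chi q.1) * sbar A (ε / κ) κ C t1 q.1)
      (strip t0 t1) := by
    have hr : ContinuousOn (fun t => Real.sqrt (A.chi t) * sbar A (ε / κ) κ C t1 t)
        (Icc 0 A.T) := by
      refine hS.cont.sqrt.mul (continuousOn_const.add (continuousOn_const.mul ?_))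
      exact ((continuousOn_const.sub (rk_cont hS)).const_smul κ).neg.rexp
    exact hr.comp continuousOn_fst fun q hq => hsub hq.1
  have hcu : ContinuousOn (fun q : ℝ × ℝ => A.u q.1 q.2 - uc A W q.1 q.2) (strip t0 t1) :=
    (hM.cu.mono fun q hq => ⟨hsub hq.1, hq.2⟩).sub
      ((uc_cont hC h).mono fun q hq => ⟨hsub hq.1, hq.2⟩)
  -- the local computation, common to both signs
  have hloc : ∀ t ∈ Ico t0 t1, ∀ x, ∀ sg : ℝ, (sg = 1 ∨ sg = -1) →
      ∃ (wt wxx : ℝ) (w' : ℝ → ℝ),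
      HasDerivWithinAt (fun s => sg * (A.u s x - uc A W s x) -
        Real.sqrt (A.chi s) * sbar A (ε / κ) κ C t1 s) wt (Ici t) t ∧
      (∀ y, HasDerivAt (fun y => sg * (A.u t y - uc A W t y) -
        Real.sqrt (A.chi t) * sbar A (ε / κ) κ C t1 t) (w' y) y) ∧
      HasDerivAt w' wxx x ∧
      0 ≤ wt + 1 / 2 * wxx + (A.b t * A.u t x) * w' x +
        (A.b t * V (x / Real.sqrt (A.chi t))) * (sg * (A.u t x - uc A W t x) -
          Real.sqrt (A.chi t) * sbar A (ε / κ) κ C t1 t) := by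
    intro t ht x sg hsg
    have ht' := hsub' t ht
    have htI : t ∈ Icc 0 A.T := ⟨ht'.1, ht'.2.le⟩
    have hpos := hS.pos t htI
    have hsq : 0 < Real.sqrt (A.chi t) := Real.sqrt_pos.2 hpos
    refine ⟨_, _, _, (((hM.hut t ht' x).sub (uc_t hC h ht' x)).const_mul sg).sub
      ((sqrt_chi_t hC ht').mul (sbar_t (a := ε / κ) (κ := κ) (C := C) (t1 := t1) hC ht')),
      fun y => (((hM.hux t ht' y).sub (uc_x hC h htI y)).const_mul sg).sub_const _,
      ((((hM.hVx t ht' x).sub_const 1).sub (uc_xx A h t x)).const_mul sg), ?_⟩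
    obtain ⟨hY1, hY2⟩ := hY t ht
    set z := x / Real.sqrt (A.chi t) with hz
    set q := Real.sqrt (A.chi t) with hq
    set s := sbar A (ε / κ) κ C t1 t with hs
    have hsn : 0 ≤ s := hs0 t
    have hqq : q * q = A.chi t := Real.mul_self_sqrt hpos.le
    have hbY : A.b t * A.chi t = Yk A t := b_mul_chi A t
    have hbq : A.b t = Yk A t / (q * q) := by
      rw [hqq, ← hbY]; field_simp
    have hinv : (A.chi t)⁻¹ = 1 / (q * q) := by rw [hqq, one_div]
    have hVc := h.V_pos z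
    have hVc1 := h.V_lt z
    have hσ := h.sigma z
    have hst := h.eqI z
    unfold Ad at hst
    -- exact value of the operator
    have key : sg * (-(A.P t x / 2 + A.b t * A.u t x * A.V t x) -
        -(1 + Yk A t) / (2 * q) * ((W z - z) - z * (V z - 1))) -
        (-(1 + Yk A t) / (2 * q) * s + q * (κ * (A.chi t)⁻¹ * (s - ε / κ))) +
        1 / 2 * (sg * (A.P t x - I z / q)) +
        (A.b t * A.u t x) * (sg * ((A.V t x - 1) - (V z - 1))) +
        (A.b t * V z) * (sg * (A.u t x - uc A W t x) - q * s) =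
        1 / q * (-(sg * ((Yk A t - c) * (((W z - z) * V z - W z * (1 - V z)) / 2))) +
          (1 + Yk A t) / 2 * s - Yk A t * V z * s - (κ * s - ε)) := by
      rw [hst, hinv, hbq]
      unfold uc
      rw [← hz, ← hq]
      have hκ' : κ ≠ 0 := hκ.ne'
      field_simp
      ring
    rw [key]
    refine mul_nonneg (by positivity) ?_
    -- the sign
    have hsgabs : |sg| = 1 := by
      rcases hsg with h | h <;> rw [h] <;> simp
    have h3 : sg * ((Yk A t - c) * (((W z - z) * V z - W z * (1 - V z)) / 2)) ≤ ε := by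
      refine (le_abs_self _).trans ?_
      rw [abs_mul, hsgabs, one_mul, abs_mul, abs_div, abs_two]
      have h4 : |(W z - z) * V z - W z * (1 - V z)| / 2 ≤ 1 := by linarith
      calc |Yk A t - c| * (|(W z - z) * V z - W z * (1 - V z)| / 2) ≤ ε * 1 :=
            mul_le_mul hY1 h4 (by positivity) hε
        _ = ε := mul_one ε
    have hYn : 0 ≤ Yk A t := by
      rw [← hbY]; exact mul_nonneg (A.b_nonneg t) hpos.le
    have h5 : Yk A t * V z * s ≤ Yk A t * s := by
      have := mul_le_mul_of_nonneg_left hVc1.le hYn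
      rw [mul_one] at this
      exact mul_le_mul_of_nonneg_right this hsn
    have h6 : κ * s ≤ (1 - Yk A t) / 2 * s := mul_le_mul_of_nonneg_right (by linarith) hsn
    linarith
  -- apply the maximum principle to both signs
  have main : ∀ sg : ℝ, (sg = 1 ∨ sg = -1) → ∀ t ∈ Icc t0 t1, ∀ x,
      sg * (A.u t x - uc A W t x) - Real.sqrt (A.chi t) * sbar A (ε / κ) κ C t1 t ≤ 0 := by
    intro sg hsg
    have hsgabs : |sg| = 1 := by
      rcases hsg with h | h <;> rw [h] <;> simp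
    refine backward_strip (t0 := t0) (t1 := t1)
      (w := fun t x => sg * (A.u t x - uc A W t x) -
        Real.sqrt (A.chi t) * sbar A (ε / κ) κ C t1 t)
      ((hcu.const_smul sg).sub hcs) (A := 1) (B := M * M) (C := M) (M := M + (K + 1)) ?_ ?_ ?_
    · intro t ht x
      have ht' := hsub ht
      have h2 : 0 ≤ Real.sqrt (A.chi t) * sbar A (ε / κ) κ C t1 t :=
        mul_nonneg (Real.sqrt_nonneg _) (hs0 t)
      have h3 : sg * (A.u t x - uc A W t x) ≤ |A.u t x| + |uc A W t x| := by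
        refine (le_abs_self _).trans ?_
        rw [abs_mul, hsgabs, one_mul]
        exact abs_sub _ _
      have h4 := hucg t ht' x
      have h5 := hM.u_le t ht' x
      rw [abs_of_nonneg (hM.u_nonneg t ht' x)] at h3
      linarith
    · intro x
      have h2 := hterm x
      have h3 : sg * (A.u t1 x - uc A W t1 x) ≤ |A.u t1 x - uc A W t1 x| := by
        refine (le_abs_self _).trans ?_
        rw [abs_mul, hsgabs, one_mul]
      have h4 : Real.sqrt (A.chi t1) * C ≤
          Real.sqrt (A.chi t1) * sbar A (ε / κ) κ C t1 t1 := by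
        refine mul_le_mul_of_nonneg_left ?_ (Real.sqrt_nonneg _)
        unfold sbar
        rw [sub_self, mul_zero, neg_zero, Real.exp_zero, mul_one]
        have : 0 ≤ ε / κ := by positivity
        linarith
      linarith
    · intro t ht x _
      have ht' := hsub' t ht
      have htI : t ∈ Icc 0 A.T := ⟨ht'.1, ht'.2.le⟩
      obtain ⟨wt, wxx, w', a1, a2, a3, a4⟩ := hloc t ht x sg hsg
      refine ⟨wt, wxx, 1 / 2, A.b t * A.u t x, A.b t * V (x / Real.sqrt (A.chi t)), w', a1,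
        Eventually.of_forall a2, HasSide.of_hasDerivAt a3, by norm_num, ?_, hM.drift_le htI x,
        ?_, a4⟩
      · nlinarith [sq_nonneg x]
      · have hb := hM.b_nonneg t htI
        have hb2 := hM.b_le t htI
        have hVc := h.V_pos (x / Real.sqrt (A.chi t))
        have hVc1 := h.V_lt (x / Real.sqrt (A.chi t))
        calc A.b t * V (x / Real.sqrt (A.chi t)) ≤ A.b t * 1 :=
              mul_le_mul_of_nonneg_left hVc1.le hb
          _ ≤ M := by linarith
  intro t ht x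
  rw [abs_le]
  have m1 := main 1 (Or.inl rfl) t ht x
  have m2 := main (-1) (Or.inr rfl) t ht x
  constructor <;> linarith

/-- terminal estimate at `T` -/
theorem u_close_T (hB : Back A) (hC : Clock A) (h : StatU c W V I) (x : ℝ) :
    |A.u A.T x - uc A W A.T x| ≤ Real.sqrt (A.chi A.T) * 1 := by
  have hT := hC.chi_T
  rw [hB.u_T x]
  unfold uc
  rw [hT, ← mul_sub, abs_mul, abs_of_nonneg (Real.sqrt_nonneg _)]
  exact mul_le_mul_of_nonneg_left (h.U0_close _) (Real.sqrt_nonneg _)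

/-- **UCLOSE, two windows**: `Y ≤ 1 - 2κ` up to `T`, `|Y - c| ≤ ε` on `[t0,t1)`. -/
theorem u_close2 (hB : Back A) (hC : Clock A) (h : StatU c W V I) {ε κ t0 t1 : ℝ}
    (h0 : 0 ≤ t0) (h01 : t0 ≤ t1) (h1 : t1 ≤ A.T) (hκ : 0 < κ) (hκ1 : κ ≤ 1) (hε : 0 ≤ ε)
    (hc0 : 0 ≤ c) (hc1 : c ≤ 1)
    (hY1 : ∀ t ∈ Ico t0 A.T, 2 * κ ≤ 1 - Yk A t)
    (hY : ∀ t ∈ Ico t0 t1, |Yk A t - c| ≤ ε) :
    ∀ t ∈ Icc t0 t1, ∀ x, |A.u t x - uc A W t x| ≤
      Real.sqrt (A.chi t) *
        (ε / κ + (2 / κ) * Real.exp (-(κ * (rk A.chi t1 - rk A.chi t)))) := by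
  have hS := scale_chi hC
  have hYn : ∀ t ∈ Icc 0 A.T, 0 ≤ Yk A t := fun t ht => by
    have e : A.b t * A.chi t = Yk A t := b_mul_chi A t
    rw [← e]; exact mul_nonneg (A.b_nonneg t) (hS.pos t ht).le
  -- crude bound on `[t1, T]`
  have hcr := u_close hB hC h (ε := 1) (κ := κ) (C := 1) (t0 := t1) (t1 := A.T)
    (h0.trans h01) le_rfl hκ zero_le_one zero_le_one (fun t ht => by
      have a := hY1 t ⟨h01.trans ht.1, ht.2⟩
      have b := hYn t ⟨(h0.trans h01).trans ht.1, ht.2.le⟩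
      refine ⟨?_, a⟩
      rw [abs_le]; constructor <;> linarith) (u_close_T hB hC h) t1 ⟨le_rfl, h1⟩
  have hr : rk A.chi t1 ≤ rk A.chi A.T := by
    have := gron_ge (F := rk A.chi) (F' := fun t => (A.chi t)⁻¹) (r := rk A.chi)
      (r' := fun t => (A.chi t)⁻¹) (k := 0) h1
      ((rk_cont hS).mono (Icc_subset_Icc (h0.trans h01) le_rfl))
      ((rk_cont hS).mono (Icc_subset_Icc (h0.trans h01) le_rfl))
      (fun t ht => rk_hasDeriv hS ⟨(h0.trans h01).trans ht.1, ht.2⟩)
      (fun t ht => rk_hasDeriv hS ⟨(h0.trans h01).trans ht.1, ht.2⟩)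
      (fun t ht => by
        have := hS.pos t ⟨(h0.trans h01).trans ht.1, ht.2.le⟩
        have : 0 < (A.chi t)⁻¹ := by positivity
        linarith)
    simpa using this
  have hterm : ∀ x, |A.u t1 x - uc A W t1 x| ≤ Real.sqrt (A.chi t1) * (2 / κ) := by
    intro x
    refine (hcr x).trans (mul_le_mul_of_nonneg_left ?_ (Real.sqrt_nonneg _))
    unfold sbar
    have h2 : Real.exp (-(κ * (rk A.chi A.T - rk A.chi t1))) ≤ 1 := by
      rw [Real.exp_le_one_iff]
      have := mul_nonneg hκ.le (sub_nonneg.2 hr)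
      linarith
    have h3 : (1 : ℝ) ≤ 1 / κ := by rw [le_div_iff₀ hκ]; linarith
    have h4 : 2 / κ = 1 / κ + 1 / κ := by ring
    rw [h4]
    linarith
  have := u_close hB hC h (ε := ε) (κ := κ) (C := 2 / κ) (t0 := t0) (t1 := t1) h0 h1 hκ
    (by positivity) hε (fun t ht => ⟨hY t ht, hY1 t ⟨ht.1, ht.2.trans_le h1⟩⟩) hterm
  exact this

end main

end

end Crest.Agent.R146.PtEndU_524
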