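import Crest.Agent.R146.MaxPCmp_371
import Crest.Agent.R146.Prof_109

/-!
PT-END, part (T-d), file D1 (helper539): backward comparison for the tip system.
(a) `u ≤ (√(x²+χ) - x)/2`; (b) closeness to the self-similar profile; (c) exponential tails of `V`, `1-V`.
-/

set_option autoImplicit false

open Set Filter Topology

namespace Crest.Agent.R146.PtEndU_539

open Crest.Agent.R146.MaxP_371 Crest.Agent.R146.MaxP2_371 Crest.Agent.R146.MaxPCmp_371
open Crest.Agent.R146.Prof_109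

section
variable {t0 t1 : ℝ} {b : ℝ → ℝ} {u V P Px Pxx : ℝ → ℝ → ℝ} {M : ℝ}

lemma sqrt_hasDerivAt {χ : ℝ} (hχ : 0 < χ) (y : ℝ) :
    HasDerivAt (fun y => Real.sqrt (y ^ 2 + χ)) (y / Real.sqrt (y ^ 2 + χ)) y := by
  have h0 : 0 < y ^ 2 + χ := by positivity
  have h1 : HasDerivAt (fun y : ℝ => y ^ 2 + χ) (2 * y) y := by
    simpa using (hasDerivAt_pow 2 y).add_const χ
  refine (h1.sqrt h0.ne').congr_deriv ?_
  field_simp

/-- (a) a priori bound, for every `Y ≥ 0`, in the clock `χ' = -(1+Y)`, `b χ = Y`. -/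
theorem u_le_chi (h : BSys t0 t1 b u V P Px Pxx M) {χ Y : ℝ → ℝ}
    (hχ : ∀ t ∈ Ico t0 t1, HasDerivWithinAt χ (-(1 + Y t)) (Ici t) t)
    (hχc : ContinuousOn χ (Icc t0 t1)) (hχ0 : ∀ t ∈ Icc t0 t1, 0 < χ t)
    (hb : ∀ t ∈ Ico t0 t1, b t * χ t = Y t)
    (hterm : ∀ x, u t1 x ≤ (Real.sqrt (x ^ 2 + χ t1) - x) / 2) :
    ∀ t ∈ Icc t0 t1, ∀ x, u t x ≤ (Real.sqrt (x ^ 2 + χ t) - x) / 2 := by
  have key := backward_strip (t0 := t0) (t1 := t1)
    (w := fun t x => u t x - (Real.sqrt (x ^ 2 + χ t) - x) / 2)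
    ?_ (A := 1) (B := M * M) (C := M) (M := M) ?_ ?_ ?_
  · intro t ht x
    have := key t ht x
    linarith
  · refine h.cu.sub ?_
    have h1 : ContinuousOn (fun p : ℝ × ℝ => χ p.1) (strip t0 t1) :=
      hχc.comp continuous_fst.continuousOn (fun p hp => hp.1)
    have h2 : ContinuousOn (fun p : ℝ × ℝ => p.2 ^ 2 + χ p.1) (strip t0 t1) :=
      ((continuous_snd.pow 2).continuousOn).add h1
    exact ((h2.sqrt).sub continuous_snd.continuousOn).div_const 2
  · intro t ht x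
    have h3 := h.u_le t ht x
    have h4 : x ≤ Real.sqrt (x ^ 2 + χ t) :=
      Real.le_sqrt_of_sq_le (by have := hχ0 t ht; linarith)
    linarith
  · intro x; have := hterm x; linarith
  · intro t ht x hpos
    have htI : t ∈ Icc t0 t1 := ⟨ht.1, ht.2.le⟩
    have hχp := hχ0 t htI
    set S := Real.sqrt (x ^ 2 + χ t) with hS
    have hin : 0 < x ^ 2 + χ t := by positivity
    have hS0 : 0 < S := Real.sqrt_pos.2 hin
    have hS2 : S ^ 2 = x ^ 2 + χ t := Real.sq_sqrt hin.le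
    have hSx : |x| < S := by
      rw [← Real.sqrt_sq_eq_abs]
      exact Real.sqrt_lt_sqrt (sq_nonneg x) (by linarith)
    have hb0 := h.b_nonneg t htI
    have hbM := h.b_le t htI
    have d1 : HasDerivWithinAt (fun s => Real.sqrt (x ^ 2 + χ s)) (-(1 + Y t) / (2 * S))
        (Ici t) t := ((hχ t ht).const_add (x ^ 2)).sqrt hin.ne'
    have d2 : ∀ y, HasDerivAt (fun y => Real.sqrt (y ^ 2 + χ t)) (y / Real.sqrt (y ^ 2 + χ t)) y :=
      fun y => sqrt_hasDerivAt hχp y
    have d3 : HasDerivAt (fun y => y / Real.sqrt (y ^ 2 + χ t)) (χ t / S ^ 3) x := by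
      have h1 := (hasDerivAt_id x).div (d2 x) (by rw [← hS]; exact hS0.ne')
      refine h1.congr_deriv ?_
      simp only [id]
      rw [← hS]
      field_simp
      rw [hS2]; ring
    refine ⟨-(P t x / 2 + b t * u t x * V t x) - (-(1 + Y t) / (2 * S) / 2),
      P t x - (χ t / S ^ 3) / 2, 1/2, b t * u t x, b t * ((S + x) / (2 * S)),
      fun y => (V t y - 1) - (y / Real.sqrt (y ^ 2 + χ t) - 1) / 2, ?_, ?_, ?_, by norm_num, ?_,
      h.drift_le htI x, ?_, ?_⟩
    · have h1 := ((d1.sub_const x).div_const 2)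
      exact (h.hut t ht x).sub h1
    · refine Eventually.of_forall fun y => ?_
      exact (h.hux t ht y).sub (((d2 y).sub (hasDerivAt_id y)).div_const 2)
    · apply HasSide.of_hasDerivAt
      have h1 := ((h.hVx t ht x).sub_const 1).sub ((d3.sub_const 1).div_const 2)
      exact h1
    · nlinarith [sq_nonneg x]
    · have h1 : (S + x) / (2 * S) ≤ 1 := by
        rw [div_le_one (by positivity)]
        have := le_abs_self x
        linarith
      calc b t * ((S + x) / (2 * S)) ≤ b t * 1 := mul_le_mul_of_nonneg_left h1 hb0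
        _ ≤ M := by linarith
    · have hbχ := hb t ht
      have hw : u t x = (u t x - (S - x) / 2) + (S - x) / 2 := by ring
      simp only [← hS]
      set w := u t x - (S - x) / 2 with hwdef
      have e : -(P t x / 2 + b t * u t x * V t x) - -(1 + Y t) / (2 * S) / 2
          + 1 / 2 * (P t x - χ t / S ^ 3 / 2)
          + b t * u t x * (V t x - 1 - (x / S - 1) / 2) + b t * ((S + x) / (2 * S)) * w
          = x ^ 2 / (4 * S ^ 3) := by
        have hY : Y t = b t * χ t := hbχ.symm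
        have hχ' : χ t = S ^ 2 - x ^ 2 := by rw [hS2]; ring
        rw [hY, hw, hχ']
        field_simp
        ring
      rw [e]
      positivity

/-- the self-similar reference `√σ W(x/√σ)` (this is `x + u_c`) -/
noncomputable def wc (W : ℝ → ℝ) (σ x : ℝ) : ℝ := Real.sqrt σ * W (x / Real.sqrt σ)

lemma wc_x {W Vc : ℝ → ℝ} (hW : ∀ z, HasDerivAt W (Vc z) z) {σ : ℝ} (hσ : 0 < σ) (x : ℝ) :
    HasDerivAt (wc W σ) (Vc (x / Real.sqrt σ)) x := by
  have hρ : 0 < Real.sqrt σ := Real.sqrt_pos.2 hσ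
  have h1 : HasDerivAt (fun y : ℝ => y / Real.sqrt σ) (1 / Real.sqrt σ) x :=
    (hasDerivAt_id x).div_const _
  have h2 := ((hW (x / Real.sqrt σ)).comp x h1).const_mul (Real.sqrt σ)
  refine h2.congr_deriv ?_
  field_simp

lemma vc_x {Vc Wc2 : ℝ → ℝ} (hV : ∀ z, HasDerivAt Vc (Wc2 z) z) {σ : ℝ} (x : ℝ) :
    HasDerivAt (fun y => Vc (y / Real.sqrt σ)) (Wc2 (x / Real.sqrt σ) / Real.sqrt σ) x := by
  have h1 : HasDerivAt (fun y : ℝ => y / Real.sqrt σ) (1 / Real.sqrt σ) x :=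
    (hasDerivAt_id x).div_const _
  have h2 := ((hV (x / Real.sqrt σ)).comp x h1)
  refine h2.congr_deriv ?_
  ring

lemma wc_t {W Vc : ℝ → ℝ} (hW : ∀ z, HasDerivAt W (Vc z) z) {σ : ℝ → ℝ} {s t : ℝ}
    (hσ : 0 < σ t) (hd : HasDerivWithinAt σ (-s) (Ici t) t) (x : ℝ) :
    HasDerivWithinAt (fun r => wc W (σ r) x)
      (-(s / (2 * Real.sqrt (σ t))) * (W (x / Real.sqrt (σ t)) -
        x / Real.sqrt (σ t) * Vc (x / Real.sqrt (σ t)))) (Ici t) t := by
  have hρ : 0 < Real.sqrt (σ t) := Real.sqrt_pos.2 hσ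
  have h1 : HasDerivWithinAt (fun r => Real.sqrt (σ r)) (-s / (2 * Real.sqrt (σ t))) (Ici t) t :=
    hd.sqrt hσ.ne'
  have h2 : HasDerivWithinAt (fun r => x / Real.sqrt (σ r))
      (-(x * (-s / (2 * Real.sqrt (σ t)))) / Real.sqrt (σ t) ^ 2) (Ici t) t := by
    have := (hasDerivWithinAt_const t (Ici t) x).div h1 hρ.ne'
    refine this.congr_deriv ?_
    ring
  have h3 := (hW (x / Real.sqrt (σ t))).comp_hasDerivWithinAt t h2
  have h4 := h1.mul h3
  refine h4.congr_deriv ?_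
  simp only [Function.comp_apply]
  field_simp
  ring

lemma wc_cont {W : ℝ → ℝ} (hW : Continuous W) {σ : ℝ → ℝ} (hσc : ContinuousOn σ (Icc t0 t1))
    (hσ0 : ∀ t ∈ Icc t0 t1, 0 < σ t) :
    ContinuousOn (fun p : ℝ × ℝ => wc W (σ p.1) p.2) (strip t0 t1) := by
  have h1 : ContinuousOn (fun p : ℝ × ℝ => Real.sqrt (σ p.1)) (strip t0 t1) :=
    (hσc.comp continuous_fst.continuousOn (fun p hp => hp.1)).sqrt
  have h2 : ContinuousOn (fun p : ℝ × ℝ => p.2 / Real.sqrt (σ p.1)) (strip t0 t1) :=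
    continuous_snd.continuousOn.div h1 (fun p hp => (Real.sqrt_pos.2 (hσ0 p.1 hp.1)).ne')
  exact h1.mul (hW.comp_continuousOn h2)

/-- the transient factor `(σ₁/σ)^θ` -/
noncomputable def tq (σ1 θ σ : ℝ) : ℝ := (σ1 / σ) ^ θ

lemma tq_t {σ : ℝ → ℝ} {σ1 θ s t : ℝ} (h1 : 0 < σ1) (hσ : 0 < σ t)
    (hd : HasDerivWithinAt σ (-s) (Ici t) t) :
    HasDerivWithinAt (fun r => tq σ1 θ (σ r)) (θ * s / σ t * tq σ1 θ (σ t)) (Ici t) t := by
  have h2 : HasDerivWithinAt (fun r => σ1 / σ r) (-(σ1 * (-s)) / σ t ^ 2) (Ici t) t := by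
    have := (hasDerivWithinAt_const t (Ici t) σ1).div hd hσ.ne'
    refine this.congr_deriv ?_
    ring
  have h3 := h2.rpow_const (p := θ) (Or.inl (by positivity))
  refine h3.congr_deriv ?_
  unfold tq
  rw [Real.rpow_sub_one (by positivity)]
  field_simp

lemma tq_nonneg {σ1 θ σ : ℝ} (h1 : 0 ≤ σ1) (h : 0 ≤ σ) : 0 ≤ tq σ1 θ σ :=
  Real.rpow_nonneg (div_nonneg h1 h) _

/-- (b) one side of the closeness estimate. -/
theorem close_one (h : BSys t0 t1 b u V P Px Pxx M) {ν : ℝ} {W Vc : ℝ → ℝ} (hP : ProfD ν W Vc)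
    {σ s : ℝ → ℝ} (hσ : ∀ t ∈ Ico t0 t1, HasDerivWithinAt σ (-(s t)) (Ici t) t)
    (hσc : ContinuousOn σ (Icc t0 t1)) (hσ0 : ∀ t ∈ Icc t0 t1, 0 < σ t)
    {e : ℝ} (he0 : 0 ≤ e) (he : e ≤ (1 - 2 * ν) / 6)
    (hs : ∀ t ∈ Ico t0 t1, |s t - 1| ≤ e) (hb : ∀ t ∈ Ico t0 t1, |b t * σ t - ν| ≤ e)
    {B1 : ℝ} (hB0 : 0 ≤ B1) (hB1 : ∀ z, |(W z - z) * Vc z| ≤ B1)
    (hB2 : ∀ z, |W z - z * Vc z| ≤ B1) {C : ℝ} (hC0 : 0 ≤ C) (h01 : t0 ≤ t1)
    {sg : ℝ} (hsg : sg = 1 ∨ sg = -1)
    (hterm : ∀ x, sg * (x + u t1 x - wc W (σ t1) x) ≤ C * Real.sqrt (σ t1)) :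
    ∀ t ∈ Icc t0 t1, ∀ x, sg * (x + u t x - wc W (σ t) x) ≤
      Real.sqrt (σ t) * (6 * e * B1 / (1 - 2 * ν) + C * tq (σ t1) ((1 - 2 * ν) / 8) (σ t)) := by
  set θ : ℝ := (1 - 2 * ν) / 8 with hθ
  set β : ℝ := 6 * e * B1 / (1 - 2 * ν) with hβ
  have hν := hP.lt
  have hν0 := hP.pos
  have h12 : 0 < 1 - 2 * ν := by linarith
  have hβ0 : 0 ≤ β := by positivity
  have h1I : t1 ∈ Icc t0 t1 := ⟨h01, le_refl _⟩
  have hσ1 := hσ0 t1 h1I
  have hsg1 : |sg| = 1 := by rcases hsg with h | h <;> simp [h]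
  have hsg2 : sg * sg = 1 := by rcases hsg with h | h <;> simp [h]
  -- bound of √σ
  obtain ⟨S, hS⟩ : ∃ S, ∀ t ∈ Icc t0 t1, Real.sqrt (σ t) ≤ S := by
    obtain ⟨S, hS⟩ := isCompact_Icc.bddAbove_image (hσc.sqrt)
    exact ⟨S, fun t ht => hS ⟨t, ht, rfl⟩⟩
  have hW0 : 0 ≤ W 0 := hP.W_nonneg 0
  -- growth of `w_c`
  have hwc : ∀ t ∈ Icc t0 t1, ∀ x, 0 ≤ wc W (σ t) x - x ∧ wc W (σ t) x - x ≤ S * W 0 + |x| := by
    intro t ht x
    have hρ : 0 < Real.sqrt (σ t) := Real.sqrt_pos.2 (hσ0 t ht)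
    have hz : x = Real.sqrt (σ t) * (x / Real.sqrt (σ t)) := by field_simp
    have e1 : wc W (σ t) x - x = Real.sqrt (σ t) * (W (x / Real.sqrt (σ t)) - x / Real.sqrt (σ t)) := by
      unfold wc; rw [mul_sub, ← hz]
    have e2 := hP.u_nonneg (x / Real.sqrt (σ t))
    refine ⟨by rw [e1]; positivity, ?_⟩
    rcases le_total 0 x with hx | hx
    · have h3 : W (x / Real.sqrt (σ t)) - x / Real.sqrt (σ t) ≤ W 0 - 0 :=
        hP.u_anti (by positivity)
      have h4 : Real.sqrt (σ t) * (W (x / Real.sqrt (σ t)) - x / Real.sqrt (σ t)) ≤ S * (W 0) := by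
        apply mul_le_mul (hS t ht) (by linarith) e2 (hρ.le.trans (hS t ht))
      have := abs_nonneg x
      rw [e1]; linarith
    · have h3 : W (x / Real.sqrt (σ t)) ≤ W 0 :=
        hP.W_mono (div_nonpos_of_nonpos_of_nonneg hx hρ.le)
      have h4 : Real.sqrt (σ t) * W (x / Real.sqrt (σ t)) ≤ S * (W 0) :=
        mul_le_mul (hS t ht) h3 (hP.W_nonneg _) (hρ.le.trans (hS t ht))
      rw [abs_of_nonpos hx]
      unfold wc; linarith
  have hq0 : ∀ t ∈ Icc t0 t1, 0 ≤ tq (σ t1) θ (σ t) := fun t ht => tq_nonneg hσ1.le (hσ0 t ht).le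
  have key := backward_strip (t0 := t0) (t1 := t1)
    (w := fun t x => sg * (x + u t x - wc W (σ t) x) -
      Real.sqrt (σ t) * (β + C * tq (σ t1) θ (σ t)))
    ?_ (A := 1) (B := M * M) (C := M) (M := M + S * W 0 + 1) ?_ ?_ ?_
  · intro t ht x
    have := key t ht x
    linarith
  · have h1 : ContinuousOn (fun p : ℝ × ℝ => σ p.1) (strip t0 t1) :=
      hσc.comp continuous_fst.continuousOn (fun p hp => hp.1)
    have h2 := wc_cont (hP.contW) hσc hσ0
    have h3 : ContinuousOn (fun p : ℝ × ℝ => tq (σ t1) θ (σ p.1)) (strip t0 t1) := by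
      unfold tq
      refine ContinuousOn.rpow_const (continuousOn_const.div h1 fun p hp => (hσ0 p.1 hp.1).ne') ?_
      intro p hp
      exact Or.inl (div_pos hσ1 (hσ0 p.1 hp.1)).ne'
    exact (continuousOn_const.mul ((continuous_snd.continuousOn.add h.cu).sub h2)).sub
      (h1.sqrt.mul (continuousOn_const.add (continuousOn_const.mul h3)))
  · intro t ht x
    have h1 := hwc t ht x
    have h3 := h.u_le t ht x
    have h4 := h.u_nonneg t ht x
    have h5 : 0 ≤ Real.sqrt (σ t) * (β + C * tq (σ t1) θ (σ t)) := by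
      have := hq0 t ht; positivity
    have h6 := abs_nonneg x
    have hM0 : 0 ≤ M := (h.b_nonneg t ht).trans (h.b_le t ht)
    have hS0 : 0 ≤ S := (Real.sqrt_nonneg _).trans (hS t ht)
    have h7 : 0 ≤ S * W 0 := by positivity
    have h8 : 0 ≤ S * W 0 * |x| := by positivity
    have h9 : 0 ≤ M * |x| := by positivity
    rcases hsg with h' | h' <;> subst h' <;> nlinarith
  · intro x
    have h1 := hterm x
    have h2 : tq (σ t1) θ (σ t1) = 1 := by
      unfold tq; rw [div_self hσ1.ne', Real.one_rpow]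
    have h3 : 0 ≤ Real.sqrt (σ t1) * β := by positivity
    simp only [h2]
    nlinarith
  · intro t ht x hpos
    have htI : t ∈ Icc t0 t1 := ⟨ht.1, ht.2.le⟩
    have hσt := hσ0 t htI
    set ρ := Real.sqrt (σ t) with hρdef
    have hρ : 0 < ρ := Real.sqrt_pos.2 hσt
    have hρ2 : ρ ^ 2 = σ t := Real.sq_sqrt hσt.le
    set z := x / ρ with hz
    have hxz : x = ρ * z := by rw [hz]; field_simp
    set q := tq (σ t1) θ (σ t) with hqdef
    have hq : 0 ≤ q := hq0 t htI
    have hb0 := h.b_nonneg t htI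
    have hbM := h.b_le t htI
    have hVc0 := hP.V_nonneg z
    have hVc1 := hP.V_le_one z
    have dρ : HasDerivWithinAt (fun r => Real.sqrt (σ r)) (-(s t) / (2 * ρ)) (Ici t) t :=
      (hσ t ht).sqrt hσt.ne'
    have dq : HasDerivWithinAt (fun r => tq (σ t1) θ (σ r)) (θ * s t / σ t * q) (Ici t) t :=
      tq_t hσ1 hσt (hσ t ht)
    have dw := wc_t (W := W) (Vc := Vc) hP.d0 hσt (hσ t ht) x
    refine ⟨sg * (-(P t x / 2 + b t * u t x * V t x) -
        (-(s t / (2 * ρ)) * (W z - z * Vc z))) -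
        (-(s t) / (2 * ρ) * (β + C * q) + ρ * (C * (θ * s t / σ t * q))),
      sg * (P t x - (W z - A ν W z * Vc z) / ρ), 1/2, b t * u t x, b t * Vc z,
      fun y => sg * ((1 + (V t y - 1)) - Vc (y / ρ)), ?_, ?_, ?_, by norm_num, ?_,
      h.drift_le htI x, ?_, ?_⟩
    · have h1 := (((h.hut t ht x).const_add x).sub dw).const_mul sg
      have h2 := dρ.mul ((dq.const_mul C).const_add β)
      exact h1.sub h2
    · refine Eventually.of_forall fun y => ?_
      have h1 := ((((hasDerivAt_id y).add (h.hux t ht y)).sub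
        (wc_x (W := W) (Vc := Vc) hP.d0 hσt y)).const_mul sg).sub_const
          (ρ * (β + C * q))
      exact h1
    · apply HasSide.of_hasDerivAt
      have h1 := ((((h.hVx t ht x).sub_const 1).const_add 1).sub
        (vc_x (Vc := Vc) (σ := σ t) hP.d1 x)).const_mul sg
      exact h1
    · nlinarith [sq_nonneg x]
    · calc b t * Vc z ≤ b t * 1 := mul_le_mul_of_nonneg_left hVc1 hb0
        _ ≤ M := by linarith
    · -- the main computation
      have hσne : σ t ≠ 0 := hσt.ne'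
      set w := sg * (x + u t x - wc W (σ t) x) - ρ * (β + C * q) with hwdef
      have hwc' : wc W (σ t) x = ρ * W z := rfl
      -- u in terms of w
      have hu : u t x = sg * (w + ρ * (β + C * q)) + ρ * (W z - z) := by
        have h1 : sg * (w + ρ * (β + C * q)) = (sg * sg) * (x + u t x - wc W (σ t) x) := by
          rw [hwdef]; ring
        rw [h1, hsg2, hwc', hxz]; ring
      have e1 : sg * (-(P t x / 2 + b t * u t x * V t x) -
          (-(s t / (2 * ρ)) * (W z - z * Vc z))) -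
          (-(s t) / (2 * ρ) * (β + C * q) + ρ * (C * (θ * s t / σ t * q)))
          + 1 / 2 * (sg * (P t x - (W z - A ν W z * Vc z) / ρ))
          + b t * u t x * (sg * (1 + (V t x - 1) - Vc z)) + b t * Vc z * w
          = (1 / (2 * ρ)) * (sg * ((s t - 1) * (W z - z * Vc z)
              + 2 * (ν - b t * σ t) * ((W z - z) * Vc z))
              - 2 * (b t * σ t) * Vc z * (β + C * q) + s t * (β + (1 - 2 * θ) * (C * q))) := by
        have e2 : b t * u t x * (sg * (1 + (V t x - 1) - Vc z)) =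
            sg * (b t * u t x * V t x) - sg * b t * Vc z * u t x := by ring
        rw [e2]
        have e3 : sg * b t * Vc z * u t x =
            (sg * sg) * b t * Vc z * (w + ρ * (β + C * q)) + sg * b t * Vc z * ρ * (W z - z) := by
          rw [hu]; ring
        rw [e3, hsg2]
        unfold A
        rw [← hρ2]
        field_simp
        ring
      simp only [← hz]
      rw [e1]
      apply mul_nonneg (by positivity)
      have a1 := abs_le.1 (hs t ht)
      have a2 := abs_le.1 (hb t ht)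
      -- the error term
      have b1 : |sg * ((s t - 1) * (W z - z * Vc z) + 2 * (ν - b t * σ t) * ((W z - z) * Vc z))|
          ≤ 3 * e * B1 := by
        rw [abs_mul, hsg1, one_mul]
        have c1 : |(s t - 1) * (W z - z * Vc z)| ≤ e * B1 := by
          rw [abs_mul]
          exact mul_le_mul (hs t ht) (hB2 z) (abs_nonneg _) he0
        have c2 : |2 * (ν - b t * σ t) * ((W z - z) * Vc z)| ≤ 2 * e * B1 := by
          rw [abs_mul]
          refine mul_le_mul ?_ (hB1 z) (abs_nonneg _) (by positivity)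
          rw [abs_mul, abs_sub_comm, abs_of_pos (by norm_num : (0:ℝ) < 2)]
          linarith [hb t ht]
        calc _ ≤ _ := abs_add_le _ _
          _ ≤ e * B1 + 2 * e * B1 := add_le_add c1 c2
          _ = 3 * e * B1 := by ring
      have b2 := (abs_le.1 b1).1
      have hbσ0 : 0 ≤ b t * σ t := mul_nonneg hb0 hσt.le
      have b3 : 2 * (b t * σ t) * Vc z * (β + C * q) ≤ 2 * (ν + e) * (β + C * q) := by
        have hCq : 0 ≤ β + C * q := by positivity
        apply mul_le_mul_of_nonneg_right _ hCq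
        have : (b t * σ t) * Vc z ≤ (ν + e) * 1 :=
          mul_le_mul (by linarith [a2.2]) hVc1 hVc0 (by linarith)
        linarith
      have b4 : (1 - e) * (β + (1 - 2 * θ) * (C * q)) ≤ s t * (β + (1 - 2 * θ) * (C * q)) := by
        apply mul_le_mul_of_nonneg_right (by linarith [a1.1])
        have : 0 ≤ 1 - 2 * θ := by rw [hθ]; linarith
        positivity
      have hCq0 : 0 ≤ C * q := by positivity
      have b5 : β * ((1 - 2 * ν) / 2) = 3 * e * B1 := by
        rw [hβ]; field_simp; ring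
      have b6 : β * ((1 - 2 * ν) / 2) ≤ β * (1 - e - 2 * (ν + e)) :=
        mul_le_mul_of_nonneg_left (by linarith) hβ0
      have b7 : 0 ≤ (C * q) * ((1 - e) * (1 - 2 * θ) - 2 * (ν + e)) := by
        apply mul_nonneg hCq0
        have hθ0 : 0 ≤ θ := by rw [hθ]; linarith
        have h8 : 0 ≤ e * θ := mul_nonneg he0 hθ0
        have h9 : (1 - e) * (1 - 2 * θ) - 2 * (ν + e)
            = 1 - 2 * ν - 3 * e - 2 * θ + 2 * (e * θ) := by ring
        rw [h9]
        have h10 : 2 * θ = (1 - 2 * ν) / 4 := by rw [hθ]; ring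
        linarith
      have b8 : -(3 * e * B1) - 2 * (ν + e) * (β + C * q) + (1 - e) * (β + (1 - 2 * θ) * (C * q))
          = (β * (1 - e - 2 * (ν + e)) - 3 * e * B1)
            + (C * q) * ((1 - e) * (1 - 2 * θ) - 2 * (ν + e)) := by ring
      linarith

/-- (b) **closeness** of `u` to the self-similar solution. -/
theorem close (h : BSys t0 t1 b u V P Px Pxx M) {ν : ℝ} {W Vc : ℝ → ℝ} (hP : ProfD ν W Vc)
    {σ s : ℝ → ℝ} (hσ : ∀ t ∈ Ico t0 t1, HasDerivWithinAt σ (-(s t)) (Ici t) t)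
    (hσc : ContinuousOn σ (Icc t0 t1)) (hσ0 : ∀ t ∈ Icc t0 t1, 0 < σ t)
    {e : ℝ} (he0 : 0 ≤ e) (he : e ≤ (1 - 2 * ν) / 6)
    (hs : ∀ t ∈ Ico t0 t1, |s t - 1| ≤ e) (hb : ∀ t ∈ Ico t0 t1, |b t * σ t - ν| ≤ e)
    {B1 : ℝ} (hB0 : 0 ≤ B1) (hB1 : ∀ z, |(W z - z) * Vc z| ≤ B1)
    (hB2 : ∀ z, |W z - z * Vc z| ≤ B1) {C : ℝ} (hC0 : 0 ≤ C) (h01 : t0 ≤ t1)
    (hterm : ∀ x, |x + u t1 x - wc W (σ t1) x| ≤ C * Real.sqrt (σ t1)) :
    ∀ t ∈ Icc t0 t1, ∀ x, |x + u t x - wc W (σ t) x| ≤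
      Real.sqrt (σ t) * (6 * e * B1 / (1 - 2 * ν) + C * tq (σ t1) ((1 - 2 * ν) / 8) (σ t)) := by
  intro t ht x
  have h1 := close_one h hP hσ hσc hσ0 he0 he hs hb hB0 hB1 hB2 hC0 h01 (sg := 1) (Or.inl rfl)
    (fun x => by rw [one_mul]; exact (abs_le.1 (hterm x)).2) t ht x
  have h2 := close_one h hP hσ hσc hσ0 he0 he hs hb hB0 hB1 hB2 hC0 h01 (sg := -1) (Or.inr rfl)
    (fun x => by have := (abs_le.1 (hterm x)).1; linarith) t ht x
  rw [abs_le]
  constructor <;> linarith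

/-- terminal value for `close`, from the a priori bound. -/
theorem term_close {ν : ℝ} {W Vc : ℝ → ℝ} (hP : ProfD ν W Vc) {σ χ : ℝ} (hσ : 0 < σ)
    (hχσ : χ ≤ 4 * σ) {u x : ℝ} (h0 : 0 ≤ u) (h1 : 0 ≤ x + u)
    (h2 : u ≤ (Real.sqrt (x ^ 2 + χ) - x) / 2) :
    |x + u - wc W σ x| ≤ (1 + W 0) * Real.sqrt σ := by
  have hρ : 0 < Real.sqrt σ := Real.sqrt_pos.2 hσ
  have hW0 : 0 ≤ W 0 := hP.W_nonneg 0
  have e0 : Real.sqrt (x ^ 2 + χ) ≤ |x| + 2 * Real.sqrt σ := by
    rw [Real.sqrt_le_left (by positivity)]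
    have h3 : Real.sqrt σ ^ 2 = σ := Real.sq_sqrt hσ.le
    have h4 : |x| ^ 2 = x ^ 2 := sq_abs x
    nlinarith [mul_nonneg (abs_nonneg x) hρ.le]
  have hz : x = Real.sqrt σ * (x / Real.sqrt σ) := by field_simp
  have e1 : wc W σ x - x = Real.sqrt σ * (W (x / Real.sqrt σ) - x / Real.sqrt σ) := by
    unfold wc; rw [mul_sub, ← hz]
  have e2 := hP.u_nonneg (x / Real.sqrt σ)
  have e3 : 0 ≤ wc W σ x := mul_nonneg hρ.le (hP.W_nonneg _)
  have e4 : 0 ≤ wc W σ x - x := by rw [e1]; positivity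
  rcases le_total 0 x with hx | hx
  · rw [abs_of_nonneg hx] at e0
    have h3 : W (x / Real.sqrt σ) - x / Real.sqrt σ ≤ W 0 - 0 := hP.u_anti (by positivity)
    have h4 : wc W σ x - x ≤ Real.sqrt σ * W 0 := by
      rw [e1]; exact mul_le_mul_of_nonneg_left (by linarith) hρ.le
    rw [abs_le]
    constructor <;> nlinarith
  · rw [abs_of_nonpos hx] at e0
    have h3 : W (x / Real.sqrt σ) ≤ W 0 := hP.W_mono (div_nonpos_of_nonpos_of_nonneg hx hρ.le)
    have h4 : wc W σ x ≤ Real.sqrt σ * W 0 := mul_le_mul_of_nonneg_left h3 hρ.le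
    rw [abs_le]
    constructor <;> nlinarith

lemma exp_x {χ lam c : ℝ} (y : ℝ) :
    HasDerivAt (fun y => Real.exp (lam * (y / Real.sqrt χ + c)))
      (lam / Real.sqrt χ * Real.exp (lam * (y / Real.sqrt χ + c))) y := by
  have h1 : HasDerivAt (fun y : ℝ => lam * (y / Real.sqrt χ + c)) (lam * (1 / Real.sqrt χ)) y :=
    (((hasDerivAt_id y).div_const _).add_const c).const_mul lam
  refine h1.exp.congr_deriv ?_
  ring

lemma exp_t {χ : ℝ → ℝ} {lam c s t : ℝ} (hχ : 0 < χ t)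
    (hd : HasDerivWithinAt χ (-s) (Ici t) t) (x : ℝ) :
    HasDerivWithinAt (fun r => Real.exp (lam * (x / Real.sqrt (χ r) + c)))
      (lam * (x / Real.sqrt (χ t)) * s / (2 * χ t) *
        Real.exp (lam * (x / Real.sqrt (χ t) + c))) (Ici t) t := by
  set ρ := Real.sqrt (χ t) with hρd
  have hρ : 0 < ρ := Real.sqrt_pos.2 hχ
  have hρ2 : ρ ^ 2 = χ t := Real.sq_sqrt hχ.le
  have h1 : HasDerivWithinAt (fun r => Real.sqrt (χ r)) (-s / (2 * ρ)) (Ici t) t :=
    hd.sqrt hχ.ne'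
  have h2 : HasDerivWithinAt (fun r => lam * (x / Real.sqrt (χ r) + c))
      (lam * ((0 * ρ - x * (-s / (2 * ρ))) / ρ ^ 2)) (Ici t) t :=
    (((hasDerivWithinAt_const t (Ici t) x).div h1 hρ.ne').add_const c).const_mul lam
  refine h2.exp.congr_deriv ?_
  rw [← hρd, ← hρ2]
  have : lam * ((0 * ρ - x * (-s / (2 * ρ))) / ρ ^ 2) = lam * (x / ρ) * s / (2 * ρ ^ 2) := by
    field_simp
    ring
  rw [this]
  ring

/-- (c) left tail of `V`. -/
theorem V_tail (h : BSys t0 t1 b u V P Px Pxx M) {χ Y : ℝ → ℝ}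
    (hχ : ∀ t ∈ Ico t0 t1, HasDerivWithinAt χ (-(1 + Y t)) (Ici t) t)
    (hχc : ContinuousOn χ (Icc t0 t1)) (hχ0 : ∀ t ∈ Icc t0 t1, 0 < χ t)
    (hb : ∀ t ∈ Ico t0 t1, b t * χ t = Y t) {η lam z1 : ℝ} (hη : 0 < η) (hlam : 0 < lam)
    (hY : ∀ t ∈ Ico t0 t1, Y t ≤ 1 - 2 * η)
    (hu : ∀ t ∈ Icc t0 t1, ∀ x, u t x ≤ (Real.sqrt (x ^ 2 + χ t) - x) / 2)
    (hz1 : (1 + lam) / (2 * η) ≤ z1)
    (hterm : ∀ x, V t1 x ≤ Real.exp (lam * (x / Real.sqrt (χ t1) + z1))) :
    ∀ t ∈ Icc t0 t1, ∀ x, V t x ≤ Real.exp (lam * (x / Real.sqrt (χ t) + z1)) := by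
  have hz10 : 0 < z1 := lt_of_lt_of_le (by positivity) hz1
  have key := backward_strip (t0 := t0) (t1 := t1)
    (w := fun t x => V t x - Real.exp (lam * (x / Real.sqrt (χ t) + z1)))
    ?_ (A := 1) (B := M * M) (C := 0) (M := 1) ?_ ?_ ?_
  · intro t ht x
    have := key t ht x
    linarith
  · refine h.cV.sub ?_
    have h1 : ContinuousOn (fun p : ℝ × ℝ => Real.sqrt (χ p.1)) (strip t0 t1) :=
      (hχc.comp continuous_fst.continuousOn (fun p hp => hp.1)).sqrt
    have h2 : ContinuousOn (fun p : ℝ × ℝ => p.2 / Real.sqrt (χ p.1)) (strip t0 t1) :=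
      continuous_snd.continuousOn.div h1 (fun p hp => (Real.sqrt_pos.2 (hχ0 p.1 hp.1)).ne')
    exact (continuousOn_const.mul (h2.add continuousOn_const)).rexp
  · intro t ht x
    have h1 := h.V_lt t ht x
    have h2 := Real.exp_pos (lam * (x / Real.sqrt (χ t) + z1))
    have h3 := abs_nonneg x
    linarith
  · intro x; have := hterm x; linarith
  · intro t ht x hpos
    have htI : t ∈ Icc t0 t1 := ⟨ht.1, ht.2.le⟩
    have hχt := hχ0 t htI
    set ρ := Real.sqrt (χ t) with hρdef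
    have hρ : 0 < ρ := Real.sqrt_pos.2 hχt
    have hρ2 : ρ ^ 2 = χ t := Real.sq_sqrt hχt.le
    set z := x / ρ with hz
    have hxz : x = ρ * z := by rw [hz]; field_simp
    set B := Real.exp (lam * (z + z1)) with hB
    have hB0 : 0 < B := Real.exp_pos _
    have hb0 := h.b_nonneg t htI
    have hY0 : 0 ≤ Y t := by rw [← hb t ht]; positivity
    have hVp := h.V_pos t htI x
    have hVl := h.V_lt t htI x
    have dt := exp_t (χ := χ) (lam := lam) (c := z1) hχt (hχ t ht) x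
    refine ⟨(-(Px t x / 2 + b t * u t x * P t x) + b t * V t x * (1 - V t x)) -
        lam * z * (1 + Y t) / (2 * χ t) * B,
      Px t x - lam / ρ * (lam / ρ * B), 1/2, b t * u t x, 0,
      fun y => P t y - lam / ρ * Real.exp (lam * (y / ρ + z1)), ?_, ?_, ?_, by norm_num, ?_,
      h.drift_le htI x, le_refl _, ?_⟩
    · exact (h.hVt t ht x).sub dt
    · refine Eventually.of_forall fun y => ?_
      exact (h.hVx t ht y).sub (exp_x y)
    · apply HasSide.of_hasDerivAt
      exact (h.hPx t ht x).sub ((exp_x x).const_mul (lam / ρ))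
    · nlinarith [sq_nonneg x]
    · have hlt : B < 1 := by
        have h1 : B < V t x := by linarith
        linarith
      have hzn : z + z1 < 0 := by
        by_contra hc
        push Not at hc
        have : 1 ≤ B := Real.one_le_exp (by positivity)
        linarith
      have hu1 : u t x ≤ ρ * (-z + 1 / 2) := by
        have h1 := hu t htI x
        have h2 : Real.sqrt (x ^ 2 + χ t) ≤ -x + ρ := by
          have hx0 : x ≤ 0 := by rw [hxz]; nlinarith
          rw [Real.sqrt_le_left (by linarith), ← hρ2]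
          nlinarith
        rw [hxz] at h1 h2 ⊢
        linarith
      have e1 : (-(Px t x / 2 + b t * u t x * P t x) + b t * V t x * (1 - V t x)) -
          lam * z * (1 + Y t) / (2 * χ t) * B +
          1 / 2 * (Px t x - lam / ρ * (lam / ρ * B)) +
          b t * u t x * (P t x - lam / ρ * Real.exp (lam * (x / ρ + z1))) +
          0 * (V t x - Real.exp (lam * (x / ρ + z1)))
          = b t * V t x * (1 - V t x) - lam * B / χ t * (z * (1 + Y t) / 2 + lam / 2
              + Y t * (u t x / ρ)) := by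
        rw [← hz, ← hB, ← hb t ht, ← hρ2]
        field_simp
        ring
      rw [e1]
      have h2 : z * (1 + Y t) / 2 + lam / 2 + Y t * (u t x / ρ) ≤ 0 := by
        have h3 : u t x / ρ ≤ -z + 1 / 2 := by
          rw [div_le_iff₀ hρ]; linarith
        have h4 : Y t * (u t x / ρ) ≤ Y t * (-z + 1 / 2) := mul_le_mul_of_nonneg_left h3 hY0
        have h5 := hY t ht
        have h6 : (1 + lam) ≤ z1 * (2 * η) := by rwa [div_le_iff₀ (by positivity)] at hz1
        nlinarith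
      have h3 : 0 ≤ b t * V t x * (1 - V t x) := by
        apply mul_nonneg (mul_nonneg hb0 hVp.le); linarith
      have h4 : lam * B / χ t * (z * (1 + Y t) / 2 + lam / 2 + Y t * (u t x / ρ)) ≤ 0 :=
        mul_nonpos_of_nonneg_of_nonpos (by positivity) h2
      linarith

/-- (c) right tail of `1 - V`. -/
theorem R_tail (h : BSys t0 t1 b u V P Px Pxx M) {χ Y : ℝ → ℝ}
    (hχ : ∀ t ∈ Ico t0 t1, HasDerivWithinAt χ (-(1 + Y t)) (Ici t) t)
    (hχc : ContinuousOn χ (Icc t0 t1)) (hχ0 : ∀ t ∈ Icc t0 t1, 0 < χ t)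
    (hb : ∀ t ∈ Ico t0 t1, b t * χ t = Y t) {lam z1 : ℝ} (hlam : 0 < lam)
    (hY : ∀ t ∈ Ico t0 t1, Y t ≤ 1)
    (hz1 : lam + 2 / lam ≤ z1)
    (hterm : ∀ x, 1 - V t1 x ≤ Real.exp (-lam * (x / Real.sqrt (χ t1) + -z1))) :
    ∀ t ∈ Icc t0 t1, ∀ x, 1 - V t x ≤ Real.exp (-lam * (x / Real.sqrt (χ t) + -z1)) := by
  have hz10 : 0 < z1 := lt_of_lt_of_le (by positivity) hz1
  have key := backward_strip (t0 := t0) (t1 := t1)
    (w := fun t x => (1 - V t x) - Real.exp (-lam * (x / Real.sqrt (χ t) + -z1)))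
    ?_ (A := 1) (B := M * M) (C := M) (M := 1) ?_ ?_ ?_
  · intro t ht x
    have := key t ht x
    linarith
  · refine (continuousOn_const.sub h.cV).sub ?_
    have h1 : ContinuousOn (fun p : ℝ × ℝ => Real.sqrt (χ p.1)) (strip t0 t1) :=
      (hχc.comp continuous_fst.continuousOn (fun p hp => hp.1)).sqrt
    have h2 : ContinuousOn (fun p : ℝ × ℝ => p.2 / Real.sqrt (χ p.1)) (strip t0 t1) :=
      continuous_snd.continuousOn.div h1 (fun p hp => (Real.sqrt_pos.2 (hχ0 p.1 hp.1)).ne')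
    exact (continuousOn_const.mul (h2.add continuousOn_const)).rexp
  · intro t ht x
    have h1 := h.V_pos t ht x
    have h2 := Real.exp_pos (-lam * (x / Real.sqrt (χ t) + -z1))
    have h3 := abs_nonneg x
    linarith
  · intro x; have := hterm x; linarith
  · intro t ht x hpos
    have htI : t ∈ Icc t0 t1 := ⟨ht.1, ht.2.le⟩
    have hχt := hχ0 t htI
    set ρ := Real.sqrt (χ t) with hρdef
    have hρ : 0 < ρ := Real.sqrt_pos.2 hχt
    have hρ2 : ρ ^ 2 = χ t := Real.sq_sqrt hχt.le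
    set z := x / ρ with hz
    set B := Real.exp (-lam * (z + -z1)) with hB
    have hB0 : 0 < B := Real.exp_pos _
    have hb0 := h.b_nonneg t htI
    have hbM := h.b_le t htI
    have hY0 : 0 ≤ Y t := by rw [← hb t ht]; positivity
    have hVp := h.V_pos t htI x
    have hVl := h.V_lt t htI x
    have hu0 := h.u_nonneg t htI x
    have dt := exp_t (χ := χ) (lam := -lam) (c := -z1) hχt (hχ t ht) x
    refine ⟨-(-(Px t x / 2 + b t * u t x * P t x) + b t * V t x * (1 - V t x)) -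
        -lam * z * (1 + Y t) / (2 * χ t) * B,
      -Px t x - -lam / ρ * (-lam / ρ * B), 1/2, b t * u t x, b t * V t x,
      fun y => -P t y - -lam / ρ * Real.exp (-lam * (y / ρ + -z1)), ?_, ?_, ?_, by norm_num, ?_,
      h.drift_le htI x, ?_, ?_⟩
    · exact ((h.hVt t ht x).const_sub 1).sub dt
    · refine Eventually.of_forall fun y => ?_
      exact ((h.hVx t ht y).const_sub 1).sub (exp_x y)
    · apply HasSide.of_hasDerivAt
      exact (h.hPx t ht x).neg.sub ((exp_x x).const_mul (-lam / ρ))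
    · nlinarith [sq_nonneg x]
    · nlinarith
    · have hlt : B < 1 := by
        have h1 : B < 1 - V t x := by linarith
        linarith
      have hzn : z1 < z := by
        by_contra hc
        push Not at hc
        have : 1 ≤ B := Real.one_le_exp (by nlinarith)
        linarith
      have e1 : -(-(Px t x / 2 + b t * u t x * P t x) + b t * V t x * (1 - V t x)) -
          -lam * z * (1 + Y t) / (2 * χ t) * B +
          1 / 2 * (-Px t x - -lam / ρ * (-lam / ρ * B)) +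
          b t * u t x * (-P t x - -lam / ρ * Real.exp (-lam * (x / ρ + -z1))) +
          b t * V t x * ((1 - V t x) - Real.exp (-lam * (x / ρ + -z1)))
          = B / χ t * (lam * z * (1 + Y t) / 2 - lam ^ 2 / 2 + lam * Y t * (u t x / ρ)
              - Y t * V t x) := by
        rw [← hz, ← hB, ← hb t ht, ← hρ2]
        field_simp
        ring
      rw [e1]
      apply mul_nonneg (by positivity)
      have h2 : 0 ≤ lam * Y t * (u t x / ρ) := by positivity
      have h3 : Y t * V t x ≤ 1 := by have := hY t ht; nlinarith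
      have h4 : lam + 2 / lam ≤ z := by linarith
      have h5 : lam ^ 2 + 2 ≤ lam * z := by
        have := mul_le_mul_of_nonneg_left h4 hlam.le
        have h6 : lam * (lam + 2 / lam) = lam ^ 2 + 2 := by field_simp
        linarith
      have hz0 : 0 < z := hz10.trans hzn
      have h7 : 0 ≤ lam * z * Y t := mul_nonneg (mul_pos hlam hz0).le hY0
      nlinarith

end

end Crest.Agent.R146.PtEndU_539
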