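import Mathlib

/-!
Row 146, top logic of PT (helper164): from "every admissible window contracts towards the closure value
of the stationary reference" to convergence.  Pure real variable, any filter.

`Win Y l lo hi` : eventually (up to `ε`) the function `Y` is in `[lo, hi]`.
-/

set_option autoImplicit false

open Filter Topology Set

namespace Crest.Agent.R146.PtLogic_164

/-- asymptotic window: for every `ε > 0`, eventually `lo - ε ≤ Y ≤ hi + ε` -/
def Win (Y : ℝ → ℝ) (l : Filter ℝ) (lo hi : ℝ) : Prop :=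
  ∀ ε : ℝ, 0 < ε → ∀ᶠ t in l, lo - ε ≤ Y t ∧ Y t ≤ hi + ε

variable {Y : ℝ → ℝ} {l : Filter ℝ}

theorem Win.mono {lo hi lo' hi' : ℝ} (h : Win Y l lo hi) (h1 : lo' ≤ lo) (h2 : hi ≤ hi') :
    Win Y l lo' hi' := by
  intro ε hε
  filter_upwards [h ε hε] with t ht
  exact ⟨by linarith [ht.1], by linarith [ht.2]⟩

theorem Win.inter {lo hi lo' hi' : ℝ} (h : Win Y l lo hi) (h' : Win Y l lo' hi') :
    Win Y l (max lo lo') (min hi hi') := by
  intro ε hε
  filter_upwards [h ε hε, h' ε hε] with t ht ht'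
  refine ⟨?_, ?_⟩
  · rcases le_total lo lo' with h1 | h1
    · rw [max_eq_right h1]; exact ht'.1
    · rw [max_eq_left h1]; exact ht.1
  · rcases le_total hi hi' with h1 | h1
    · rw [min_eq_left h1]; exact ht.2
    · rw [min_eq_right h1]; exact ht'.2

/-- the set of upper window ends -/
def Ub (Y : ℝ → ℝ) (l : Filter ℝ) : Set ℝ := {b | ∀ ε : ℝ, 0 < ε → ∀ᶠ t in l, Y t ≤ b + ε}
/-- the set of lower window ends -/
def Lb (Y : ℝ → ℝ) (l : Filter ℝ) : Set ℝ := {a | ∀ ε : ℝ, 0 < ε → ∀ᶠ t in l, a - ε ≤ Y t}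

/-- the sharp window: there are `a ≤ b` with `Win a b`, and every window contains `[a, b]` -/
theorem exists_sharp [NeBot l] {lo hi : ℝ} (h : Win Y l lo hi) :
    ∃ a b : ℝ, a ≤ b ∧ Win Y l a b ∧ ∀ lo' hi' : ℝ, Win Y l lo' hi' → lo' ≤ a ∧ b ≤ hi' := by
  classical
  have hLU : ∀ x ∈ Lb Y l, ∀ y ∈ Ub Y l, x ≤ y := by
    intro x hx y hy
    refine le_of_forall_pos_le_add fun ε hε => ?_
    obtain ⟨t, h1, h2⟩ := ((hx (ε / 2) (by positivity)).and (hy (ε / 2) (by positivity))).exists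
    linarith
  have hlo : lo ∈ Lb Y l := fun ε hε => (h ε hε).mono fun t ht => ht.1
  have hhi : hi ∈ Ub Y l := fun ε hε => (h ε hε).mono fun t ht => ht.2
  have hbL : BddAbove (Lb Y l) := ⟨hi, fun x hx => hLU x hx hi hhi⟩
  have hbU : BddBelow (Ub Y l) := ⟨lo, fun y hy => hLU lo hlo y hy⟩
  refine ⟨sSup (Lb Y l), sInf (Ub Y l), ?_, ?_, ?_⟩
  · exact csSup_le ⟨lo, hlo⟩ fun x hx => le_csInf ⟨hi, hhi⟩ fun y hy => hLU x hx y hy
  · intro ε hε
    obtain ⟨x, hx, hx1⟩ := exists_lt_of_lt_csSup (s := Lb Y l) ⟨lo, hlo⟩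
      (show sSup (Lb Y l) - ε / 2 < sSup (Lb Y l) by linarith)
    obtain ⟨y, hy, hy1⟩ := exists_lt_of_csInf_lt (s := Ub Y l) ⟨hi, hhi⟩
      (show sInf (Ub Y l) < sInf (Ub Y l) + ε / 2 by linarith)
    filter_upwards [hx (ε / 2) (by positivity), hy (ε / 2) (by positivity)] with t h1 h2
    exact ⟨by linarith, by linarith⟩
  · intro lo' hi' h'
    exact ⟨le_csSup hbL fun ε hε => (h' ε hε).mono fun t ht => ht.1,
      csInf_le hbU fun ε hε => (h' ε hε).mono fun t ht => ht.2⟩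

theorem tendsto_of_Win {c : ℝ} (h : Win Y l c c) : Tendsto Y l (𝓝 c) := by
  rw [Metric.tendsto_nhds]
  intro ε hε
  filter_upwards [h (ε / 2) (by positivity)] with t ht
  rw [Real.dist_eq, abs_lt]
  constructor <;> linarith [ht.1, ht.2]

theorem Win_of_tendsto {c : ℝ} (h : Tendsto Y l (𝓝 c)) : Win Y l c c := by
  intro ε hε
  filter_upwards [Metric.tendsto_nhds.1 h ε hε] with t ht
  rw [Real.dist_eq, abs_lt] at ht
  constructor <;> linarith [ht.1, ht.2]

/-- **Top logic of PT.** If every window around a reference `c ∈ [cl, cu]` of radius `δ ≤ dmax`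
(cut to `[0, hi0]`) is improved to `C c ± g δ` with a common `g < 1`, then `Y` converges to a fixed
point of `C`. -/
theorem conv_of_ref [NeBot l] {C : ℝ → ℝ} {g ρ c0 cl cu hi0 dmax : ℝ}
    (hg : g < 1) (h0 : Win Y l 0 hi0)
    (hd1 : c0 ≤ dmax) (hd2 : hi0 - c0 ≤ dmax) (hc0 : c0 ∈ Icc cl cu)
    (hρ : |C c0 - c0| ≤ ρ) (hcl : cl ≤ c0 - ρ / (1 - g)) (hcu : c0 + ρ / (1 - g) ≤ cu)
    (hdm : 0 < dmax)
    (REF : ∀ c ∈ Icc cl cu, ∀ δ : ℝ, 0 < δ → δ ≤ dmax →
      Win Y l (max 0 (c - δ)) (min hi0 (c + δ)) → Win Y l (C c - g * δ) (C c + g * δ)) :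
    ∃ Yoo ∈ Icc cl cu, Tendsto Y l (𝓝 Yoo) ∧ C Yoo = Yoo := by
  obtain ⟨a, b, hab, hw, hsh⟩ := exists_sharp h0
  have h1g : 0 < 1 - g := by linarith
  obtain ⟨ha0, hbhi⟩ := hsh _ _ h0
  have hρ0 : 0 ≤ ρ := (abs_nonneg _).trans hρ
  have hCc := abs_le.1 hρ
  -- the radius around `c0`
  set δ := max (b - c0) (c0 - a) with hδ
  have hbδ : b ≤ c0 + δ := by have := le_max_left (b - c0) (c0 - a); rw [← hδ] at this; linarith
  have haδ : c0 - δ ≤ a := by have := le_max_right (b - c0) (c0 - a); rw [← hδ] at this; linarith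
  have hδρ : δ ≤ ρ / (1 - g) := by
    by_contra hcon
    push Not at hcon
    have hδpos : 0 < δ := lt_of_le_of_lt (div_nonneg hρ0 h1g.le) hcon
    have hδm : δ ≤ dmax := by
      rw [hδ]; exact max_le (by linarith) (by linarith)
    have hw1 : Win Y l (max 0 (c0 - δ)) (min hi0 (c0 + δ)) :=
      hw.mono (max_le ha0 haδ) (le_min hbhi hbδ)
    have hw2 := REF c0 hc0 δ hδpos hδm hw1
    obtain ⟨h3, h4⟩ := hsh _ _ hw2
    have h5 : δ ≤ ρ + g * δ := by
      rw [hδ]
      refine max_le ?_ ?_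
      · rw [← hδ]; linarith [hCc.2]
      · rw [← hδ]; linarith [hCc.1]
    have h6 : δ ≤ ρ / (1 - g) := by
      rw [le_div_iff₀ h1g]; linarith
    linarith
  have haI : a ∈ Icc cl cu := ⟨by linarith, by linarith [hab, hbδ]⟩
  have hbI : b ∈ Icc cl cu := ⟨by linarith [haI.1], by linarith⟩
  -- second use: the midpoint
  have hba : a = b := by
    by_contra hne
    have hlt : a < b := lt_of_le_of_ne hab hne
    have hcI : (a + b) / 2 ∈ Icc cl cu := ⟨by linarith [haI.1, hbI.1], by linarith [haI.2, hbI.2]⟩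
    have hr : 0 < (b - a) / 2 := by linarith
    have hrm : (b - a) / 2 ≤ dmax := by
      have h7 : b - a ≤ hi0 := by linarith
      have h8 : hi0 ≤ 2 * dmax := by linarith
      linarith
    have hw1 : Win Y l (max 0 ((a + b) / 2 - (b - a) / 2)) (min hi0 ((a + b) / 2 + (b - a) / 2)) := by
      refine hw.mono (max_le ha0 (by linarith)) (le_min hbhi (by linarith))
    have hw2 := REF _ hcI _ hr hrm hw1
    obtain ⟨h3, h4⟩ := hsh _ _ hw2
    nlinarith
  subst hba
  refine ⟨a, haI, tendsto_of_Win hw, ?_⟩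
  -- third use: the limit is a fixed point of `C`
  have key : ∀ δ : ℝ, 0 < δ → δ ≤ dmax → |C a - a| ≤ g * δ := by
    intro δ' hδ' hδm
    have hw1 : Win Y l (max 0 (a - δ')) (min hi0 (a + δ')) :=
      hw.mono (max_le ha0 (by linarith)) (le_min hbhi (by linarith))
    have hw2 := REF a haI δ' hδ' hδm hw1
    obtain ⟨h3, h4⟩ := hsh _ _ hw2
    rw [abs_le]; constructor <;> linarith
  have h9 : |C a - a| ≤ 0 := by
    refine le_of_forall_pos_le_add fun ε hε => ?_
    have h10 := key (min dmax ε) (lt_min hdm hε) (min_le_left _ _)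
    have h11 : g * min dmax ε ≤ 1 * ε :=
      mul_le_mul hg.le (min_le_right _ _) (lt_min hdm hε).le zero_le_one
    linarith
  have := abs_eq_zero.1 (le_antisymm h9 (abs_nonneg _))
  linarith

end Crest.Agent.R146.PtLogic_164
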