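import Crest.Agent.R146.TipSeq_791
import Crest.Agent.R146.YtoD_385
import Crest.Agent.R146.Stat7_307
import Crest.Agent.R146.PtLogic_164

/-!
Row 146, package PT-END (helper183).

* `clk`            : the clock data `YtoD_385.Clk` of the profile of a `PreSeq`;
* `out_of_tendsto` : `Y* → Y∞` and a stationary pair at `Y∞` with `λ = Y∞` give `OUT P`;
* `win_iff`        : `TipSeq_791.Win` is `PtLogic_164.Win` along `𝓝[<] 1`;
* `out_of_ref`     : window `[0, hi0]`, REF for stationary references in `[cl, cu]` ⟹ `OUT P`.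
-/

set_option autoImplicit false

open MeasureTheory Set Filter Topology

namespace Crest.Agent.R146.PtEnd_183

open Crest.Agent.R146.StepDef_791 Crest.Agent.R146.StepApx_856
open Crest.Agent.R146.TipSeq_791 Crest.Agent.R146.SPair_307
open Crest.Agent.R146.PtScalA_45 (Prof)

/-- the clock data of the limit profile -/
theorem clk {P : Prof} {T S : ℝ → ℝ} (Q : PreSeq P T S) :
    YtoD_385.Clk P.D (Ks P.D) P.m 0 where
  lt := zero_lt_one
  m_int := P.int
  D_eq t _ := by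
    have h1 : P.D 1 = P.d := by simp [Prof.D]
    rw [h1]; rfl
  D_pos := Q.pos
  E_int := Q.int1
  K_eq _ _ := rfl

/-- the digits from the closure -/
theorem out_of_tendsto {P : Prof} {T S : ℝ → ℝ} (Q : PreSeq P T S) {y : ℝ}
    (hy : Tendsto (Ystar P 1) (𝓝[<] 1) (𝓝 y)) {W V I k : ℝ → ℝ} (hS : SPair y W V I k y) :
    OUT P := by
  have hy' : Tendsto (fun t => P.m t * Ks P.D t) (𝓝[<] 1) (𝓝 y) := by
    refine hy.congr fun t => ?_
    simp [Ystar]
  refine ⟨y / (1 + y), ?_, Stat7_307.enclosure_of_closure hS⟩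
  exact (clk Q).logD_logtau (by linarith [hS.c_pos]) (YtoD_385.EssLim.of_tendsto hy')

/-- the two window notions agree -/
theorem win_iff {P : Prof} {a : Fin 2} {lo hi : ℝ} :
    Win P a lo hi ↔ PtLogic_164.Win (Ystar P a) (𝓝[<] 1) lo hi := by
  constructor
  · intro h ε hε
    obtain ⟨ta, h1, _, h3⟩ := h ε hε
    filter_upwards [Ico_mem_nhdsLT h1] with t ht
    exact h3 t ht
  · intro h ε hε
    obtain ⟨l, hl, hsub⟩ := mem_nhdsLT_iff_exists_Ioo_subset.1 (h ε hε)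
    have hl' : l < 1 := hl
    refine ⟨max 0 ((l + 1) / 2), max_lt zero_lt_one (by linarith), le_max_left _ _, ?_⟩
    intro t ht
    have h1 : (l + 1) / 2 ≤ t := (le_max_right _ _).trans ht.1
    exact hsub ⟨by linarith, ht.2⟩

/-- **PT-END.** The window `[0, hi0]` and REF (for every stationary reference `c ∈ [cl, cu]` and every
radius up to `dmax`) give the output of PT. `CC W V I k lam c` is the closure value of the pair. -/
theorem out_of_ref {P : Prof} {T S : ℝ → ℝ} (Q : PreSeq P T S)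
    (CC : ℝ → (ℝ → ℝ) → (ℝ → ℝ) → (ℝ → ℝ) → (ℝ → ℝ) → ℝ → ℝ)
    {g ρ c0 cl cu hi0 dmax : ℝ}
    (hg : g < 1) (h0 : Win P 1 0 hi0) (hcl0 : 0 < cl) (hcu1 : cu < 1)
    (hd1 : c0 ≤ dmax) (hd2 : hi0 - c0 ≤ dmax) (hc0 : c0 ∈ Icc cl cu) (hdm : 0 < dmax)
    (hρ : ∀ W V I k lam, SPair c0 W V I k lam → |CC c0 W V I k lam - c0| ≤ ρ)
    (hcl : cl ≤ c0 - ρ / (1 - g)) (hcu : c0 + ρ / (1 - g) ≤ cu)
    (hCC : ∀ c ∈ Icc cl cu, ∀ W V I k lam, SPair c W V I k lam → CC c W V I k lam = c → lam = c)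
    (REF : ∀ c ∈ Icc cl cu, ∀ W V I k lam, SPair c W V I k lam → ∀ δ : ℝ, 0 < δ → δ ≤ dmax →
      Win P 1 (max 0 (c - δ)) (min hi0 (c + δ)) →
        Win P 1 (CC c W V I k lam - g * δ) (CC c W V I k lam + g * δ)) :
    OUT P := by
  classical
  have hex : ∀ c ∈ Icc cl cu, ∃ W V I k : ℝ → ℝ, ∃ lam : ℝ, SPair c W V I k lam := fun c hc =>
    Stat7_307.exists_spair (by linarith [hc.1]) (by linarith [hc.2])
  choose! W V I k lam hS using hex
  obtain ⟨y, hy, hlim, hC⟩ := PtLogic_164.conv_of_ref (Y := Ystar P 1) (l := 𝓝[<] (1:ℝ))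
    (C := fun c => CC c (W c) (V c) (I c) (k c) (lam c)) (g := g) (ρ := ρ) (c0 := c0) (cl := cl)
    (cu := cu) (hi0 := hi0) (dmax := dmax) hg (win_iff.1 h0) hd1 hd2 hc0
    (hρ _ _ _ _ _ (hS c0 hc0)) hcl hcu hdm
    (fun c hc δ hδ hδm hw => win_iff.1 (REF c hc _ _ _ _ _ (hS c hc) δ hδ hδm (win_iff.2 hw)))
  have h1 := hCC y hy _ _ _ _ _ (hS y hy) hC
  have h2 := hS y hy
  rw [h1] at h2
  exact out_of_tendsto Q hlim h2

end Crest.Agent.R146.PtEnd_183
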