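import Crest.Agent.R146.PtTip_164
import Crest.Agent.R146.Stat9_307
import Crest.Agent.R146.YtoD_385

/-!
# Row 146, end of PT (route E2)

`STAT` is proved; the end of PT is discharged with the closure identity of the stationary pair:
`ptmain2 : T1 → T12 → T2 → REF → CC0 → PTMAIN`.
-/

set_option autoImplicit false

namespace Crest.Agent.R146.PtEnd_307

open MeasureTheory Set Filter Topology
open Crest.Agent.R146.TipSeq_791 Crest.Agent.R146.SPair_307 Crest.Agent.R146.PtTip_164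
open Crest.Agent.R146.PtScalA_45 (Prof)

/-- **(STAT)** -/
theorem stat : STAT := by
  intro c hc
  have h1 : (4107 : ℝ) / 10000 ≤ c := hc.1
  have h2 : c ≤ (4207 : ℝ) / 10000 := hc.2
  exact Stat7_307.exists_spair (by linarith) (by linarith)

/-- the closure value of `PtTip_164` is the one of `Stat9_307` -/
theorem cval_eq (V I k : ℝ → ℝ) : Cval V I k = Stat9_307.Cc V I k := rfl

/-- **Digits.** -/
theorem digits {c : ℝ} {W V I k : ℝ → ℝ} {lam : ℝ} (h : SPair c W V I k lam)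
    (hC : Cval V I k = c) : 0.2936533 < c / (1 + c) ∧ c / (1 + c) < 0.2936535 :=
  Stat9_307.digits h (by rw [← cval_eq]; exact hC)

/-- **END, route (E2).** -/
theorem end2 (P : Prof) (hP : TipSeq P) {Yoo : ℝ} (hY : Yoo ∈ Wt)
    (hT : Tendsto (Ystar P 1) (𝓝[<] 1) (𝓝 Yoo)) {W V I k : ℝ → ℝ} {lam : ℝ}
    (h : SPair Yoo W V I k lam) (hC : Cval V I k = Yoo) : OUT P := by
  have hY0 : (4107 : ℝ) / 10000 ≤ Yoo := hY.1
  obtain ⟨d1, d2⟩ := digits h hC
  refine ⟨Yoo / (1 + Yoo), ?_, d1, d2⟩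
  have hclk := YtoD_385.clk_of_prof P hP.seq.d0 hP.seq.pos hP.seq.int1 (t0 := 0) le_rfl one_pos
  have hfun : Ystar P 1 = fun t => P.m t * ∫ s in t..1, (P.D s)⁻¹ := by
    funext t
    simp [Ystar, StepApx_856.Ks]
  rw [hfun] at hT
  exact hclk.logD_logtau (by linarith) (YtoD_385.EssLim.of_tendsto hT)

/-- **PTMAIN from `T1, T12, T2, REF, CC0` only.** -/
theorem ptmain2 (h1 : T1) (h12 : T12) (h2 : T2) (hR : REF) (hC : CC0) : PTMAIN := by
  classical
  intro P hP
  have w0 : Win P 1 0 hiA := h2 P hP (h12 P hP (h1 P hP))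
  have hS := stat
  choose W V I k lam hp using hS
  let C : ℝ → ℝ := fun c => if hc : c ∈ Wt then Cval (V c hc) (I c hc) (k c hc) else 0
  have hcz : cz ∈ Wt := by unfold cz Wt; constructor <;> norm_num
  have key := PtLogic_164.conv_of_ref (Y := Ystar P 1) (l := 𝓝[<] 1) (C := C) (g := gz)
    (ρ := 1 / 1000) (c0 := cz) (cl := 4107 / 10000) (cu := 4207 / 10000) (hi0 := hiA) (dmax := cz)
    (by unfold gz; norm_num) ((win_iff P 1 0 hiA).1 w0) le_rfl
    (by unfold hiA cz; norm_num) hcz ?_ (by unfold cz gz; norm_num) (by unfold cz gz; norm_num)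
    (by unfold cz; norm_num) ?_
  · obtain ⟨Yoo, hY, hT, hCY⟩ := key
    have hY' : Yoo ∈ Wt := hY
    have h3 : C Yoo = Cval (V Yoo hY') (I Yoo hY') (k Yoo hY') := dif_pos hY'
    exact end2 P hP hY' hT (hp Yoo hY') (by rw [← h3]; exact hCY)
  · have h3 : C cz = Cval (V cz hcz) (I cz hcz) (k cz hcz) := dif_pos hcz
    rw [h3]
    exact hC _ _ _ _ _ (hp cz hcz)
  · intro c hc δ hδ hδm hw
    have hc' : c ∈ Wt := hc
    have h3 : C c = Cval (V c hc') (I c hc') (k c hc') := dif_pos hc'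
    rw [h3]
    exact (win_iff P 1 _ _).1 (hR P hP c hc' _ _ _ _ _ (hp c hc') δ hδ hδm ((win_iff P 1 _ _).2 hw))

end Crest.Agent.R146.PtEnd_307
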