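import Crest.Agent.R146.StepDef_791

/-!
Row 146 (S0205), PT (helper45): crude uniform bounds for the step system.

* `P_le`   : `(1-t) b ≤ 1` on `[0,T)`  ⟹  `V_x ≤ √6 / √(1-t)` on `[0,T]` (barrier
             `√(3 (2 - v²)) / √(1-t)` in `MaxPCmp_371.slope_le`);
* `Ns_le`, `Ts_nonneg`, `Qs_nonneg`, `Zs_nonneg`, `Zs_le`, `TQ_le` : bounds of the scalars.
-/

set_option autoImplicit false

namespace Crest.Agent.R146.PtNb_45

open MeasureTheory ProbabilityTheory Set Filter Topology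
open Crest.Agent.R146.StepDef_791 Crest.Agent.R146.MaxPCmp_371

noncomputable section

/-- the barrier -/
def Kb (v : ℝ) : ℝ := Real.sqrt (3 * (2 - v ^ 2))

theorem Kb_sq {v : ℝ} (hv : v ∈ Ioo (0:ℝ) 1) : Kb v ^ 2 = 3 * (2 - v ^ 2) := by
  unfold Kb
  apply Real.sq_sqrt
  nlinarith [hv.1, hv.2]

theorem Kb_pos {v : ℝ} (hv : v ∈ Ioo (0:ℝ) 1) : 0 < Kb v := by
  apply Real.sqrt_pos.2
  nlinarith [hv.1, hv.2]

theorem Kb_deriv {v : ℝ} (hv : v ∈ Ioo (0:ℝ) 1) : HasDerivAt Kb (-(3 * v) / Kb v) v := by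
  have h1 : HasDerivAt (fun v : ℝ => 3 * (2 - v ^ 2)) (3 * (0 - 2 * v)) v := by
    have := ((hasDerivAt_pow 2 v).const_sub 2).const_mul 3
    refine this.congr_deriv ?_
    simp
  have hne : 3 * (2 - v ^ 2) ≠ 0 := by nlinarith [hv.1, hv.2]
  have h2 := h1.sqrt hne
  refine h2.congr_deriv ?_
  unfold Kb
  have : Real.sqrt (3 * (2 - v ^ 2)) ≠ 0 := (Kb_pos hv).ne'
  field_simp
  ring

theorem Kb_deriv2 {v : ℝ} (hv : v ∈ Ioo (0:ℝ) 1) :
    HasDerivAt (fun v => -(3 * v) / Kb v) (-18 / Kb v ^ 3) v := by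
  have h1 : HasDerivAt (fun v : ℝ => -(3 * v)) (-3) v := by
    have h0 := (hasDerivAt_id v).const_mul (-3)
    have e : (fun v : ℝ => -(3 * v)) = fun y : ℝ => -3 * id y := by funext y; simp
    rw [e]
    exact h0.congr_deriv (by ring)
  have hne := (Kb_pos hv).ne'
  have h2 := h1.div (Kb_deriv hv) hne
  refine h2.congr_deriv ?_
  have hsq := Kb_sq hv
  field_simp
  have e : Kb v ^ 2 + 3 * v ^ 2 = 6 := by rw [hsq]; ring
  nlinarith [e]

/-- `g(t) = 1/√(1-t)` -/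
def gb (t : ℝ) : ℝ := (Real.sqrt (1 - t))⁻¹

theorem gb_pos {t : ℝ} (ht : t < 1) : 0 < gb t :=
  inv_pos.2 (Real.sqrt_pos.2 (by linarith))

theorem gb_sq {t : ℝ} (ht : t < 1) : gb t ^ 2 * (1 - t) = 1 := by
  unfold gb
  rw [inv_pow, Real.sq_sqrt (by linarith)]
  exact inv_mul_cancel₀ (by linarith)

theorem gb_deriv {t : ℝ} (ht : t < 1) : HasDerivAt gb (gb t ^ 3 / 2) t := by
  have h1 : HasDerivAt (fun t : ℝ => 1 - t) (-1) t := by
    simpa using (hasDerivAt_id t).const_sub 1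
  have hne : (1 - t) ≠ 0 := by linarith
  have h2 := (h1.sqrt hne)
  have hs : Real.sqrt (1 - t) ≠ 0 := (Real.sqrt_pos.2 (by linarith)).ne'
  have h3 := h2.inv hs
  refine h3.congr_deriv ?_
  unfold gb
  field_simp

theorem pdf_le_one (x : ℝ) : gaussianPDFReal 0 1 x ≤ 1 := by
  unfold gaussianPDFReal
  have h1 : Real.exp (-(x - 0) ^ 2 / (2 * ((1:NNReal):ℝ))) ≤ 1 := by
    apply Real.exp_le_one_iff.2
    have : 0 ≤ (x - 0) ^ 2 := sq_nonneg _
    rw [div_le_iff₀ (by norm_num)]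
    linarith
  have h2 : (Real.sqrt (2 * Real.pi * ((1:NNReal):ℝ)))⁻¹ ≤ 1 := by
    apply inv_le_one_of_one_le₀
    rw [Real.one_le_sqrt]
    have := Real.pi_gt_three
    simp only [NNReal.coe_one, mul_one]
    linarith
  calc (Real.sqrt (2 * Real.pi * ((1:NNReal):ℝ)))⁻¹ *
        Real.exp (-(x - 0) ^ 2 / (2 * ((1:NNReal):ℝ))) ≤ 1 * 1 :=
        mul_le_mul h2 h1 (Real.exp_nonneg _) zero_le_one
    _ = 1 := one_mul 1

theorem alg {K v ν : ℝ} (hK : 0 < K) (hsq : K ^ 2 = 3 * (2 - v ^ 2)) (hv0 : 0 < v) (hv1 : v < 1)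
    (hν0 : 0 ≤ ν) (hν1 : ν ≤ 1) :
    K / 2 + K ^ 2 * (-18 / K ^ 3) / 2 + ν * (v * (1 - v) * (-(3 * v) / K) - (2 - 3 * v) * K) ≤ 0 := by
  have e : K / 2 + K ^ 2 * (-18 / K ^ 3) / 2 +
      ν * (v * (1 - v) * (-(3 * v) / K) - (2 - 3 * v) * K) =
      (K ^ 2 / 2 - 9 - 3 * ν * (v ^ 2 * (1 - v)) + ν * (3 * v - 2) * K ^ 2) / K := by
    field_simp
    ring
  rw [e]
  apply div_nonpos_of_nonpos_of_nonneg _ hK.le
  have h1 : K ^ 2 ≤ 6 := by rw [hsq]; nlinarith [sq_nonneg v]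
  have h2 : 0 ≤ ν * (v ^ 2 * (1 - v)) :=
    mul_nonneg hν0 (mul_nonneg (sq_nonneg v) (by linarith))
  have h3 : ν * (3 * v - 2) * K ^ 2 ≤ 6 := by
    have h4 : ν * (3 * v - 2) ≤ 1 := by
      rcases le_total (3 * v - 2) 0 with h | h
      · have := mul_nonpos_of_nonneg_of_nonpos hν0 h
        linarith
      · calc ν * (3 * v - 2) ≤ 1 * 1 := mul_le_mul hν1 (by linarith) h zero_le_one
          _ = 1 := one_mul 1
    have h5 : ν * (3 * v - 2) * K ^ 2 ≤ 1 * K ^ 2 :=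
      mul_le_mul_of_nonneg_right h4 (sq_nonneg K)
    linarith
  linarith

/-- **crude slope bound** -/
theorem P_le (A : SD) (hb : Back A) (hbb : ∀ t ∈ Ico (0:ℝ) A.T, (1 - t) * A.b t ≤ 1) :
    ∀ t ∈ Icc 0 A.T, ∀ x, A.P t x ≤ Real.sqrt 6 / Real.sqrt (1 - t) := by
  obtain ⟨M, hB⟩ := hb.bsys
  have hT1 : A.T < 1 := A.hT1
  have key := hB.slope_le (g := gb) (g' := fun t => gb t ^ 3 / 2) (K := Kb)
    (K' := fun v => -(3 * v) / Kb v) (K'' := fun v => -18 / Kb v ^ 3)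
    (fun t ht => (gb_deriv (ht.2.trans hT1)).hasDerivWithinAt)
    (fun t ht => ((gb_deriv (ht.2.trans_lt hT1)).continuousAt).continuousWithinAt)
    (fun t ht => (gb_pos (ht.2.trans_lt hT1)).le)
    (fun v hv => (Kb_deriv hv).continuousAt.continuousWithinAt)
    (fun v hv => (Kb_pos hv).le)
    (fun v hv => Kb_deriv hv)
    (fun v hv => Crest.Agent.R146.MaxP2_371.HasSide.of_hasDerivAt (Kb_deriv2 hv))
    (fun v hv => by
      apply div_nonpos_of_nonpos_of_nonneg (by norm_num)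
      exact (pow_pos (Kb_pos hv) 3).le)
    (fun t ht v hv => by
      have ht1 : t < 1 := ht.2.trans hT1
      have hg := gb_pos ht1
      have hg2 := gb_sq ht1
      have hν0 : 0 ≤ A.b t * (1 - t) := mul_nonneg (A.b_nonneg t) (by linarith)
      have hν1 : A.b t * (1 - t) ≤ 1 := by have := hbb t ht; linarith
      have h1 := alg (Kb_pos hv) (Kb_sq hv) hv.1 hv.2 hν0 hν1
      have e : gb t ^ 3 / 2 * Kb v + gb t ^ 3 * (Kb v ^ 2 * (-18 / Kb v ^ 3)) / 2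
          + A.b t * gb t * (v * (1 - v) * (-(3 * v) / Kb v) - (2 - 3 * v) * Kb v) =
          gb t ^ 3 * (Kb v / 2 + Kb v ^ 2 * (-18 / Kb v ^ 3) / 2 +
            (A.b t * (1 - t)) * (v * (1 - v) * (-(3 * v) / Kb v) - (2 - 3 * v) * Kb v)) := by
        have h2 : A.b t * gb t = gb t ^ 3 * (A.b t * (1 - t)) := by
          calc A.b t * gb t = A.b t * gb t * 1 := by ring
            _ = A.b t * gb t * (gb t ^ 2 * (1 - t)) := by rw [hg2]
            _ = gb t ^ 3 * (A.b t * (1 - t)) := by ring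
        rw [h2]
        ring
      rw [e]
      exact mul_nonpos_of_nonneg_of_nonpos (pow_pos hg 3).le h1)
    (fun x => by
      have hVT : A.V A.T x ∈ Ioo (0:ℝ) 1 := ⟨hB.V_pos A.T ⟨A.hT0.le, le_rfl⟩ x,
        hB.V_lt A.T ⟨A.hT0.le, le_rfl⟩ x⟩
      rw [hb.P_T x]
      have h1 : (1:ℝ) ≤ Kb (A.V A.T x) := by
        rw [Kb, Real.one_le_sqrt]
        nlinarith [hVT.1, hVT.2]
      have h2 : gb A.T = 1 / Real.sqrt A.dl := by
        rw [gb, one_div]; rfl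
      have h3 : 0 < Real.sqrt A.dl := Real.sqrt_pos.2 A.dl_pos
      rw [h2, div_mul_eq_mul_div, one_mul]
      exact div_le_div_of_nonneg_right ((pdf_le_one _).trans h1) h3.le)
  intro t ht x
  have h1 := key t ht x
  have hVI : A.V t x ∈ Ioo (0:ℝ) 1 := ⟨hB.V_pos t ht x, hB.V_lt t ht x⟩
  have hg := gb_pos (ht.2.trans_lt hT1)
  have h2 : Kb (A.V t x) ≤ Real.sqrt 6 := by
    apply Real.sqrt_le_sqrt
    nlinarith [sq_nonneg (A.V t x)]
  calc A.P t x ≤ gb t * Kb (A.V t x) := h1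
    _ ≤ gb t * Real.sqrt 6 := mul_le_mul_of_nonneg_left h2 hg.le
    _ = Real.sqrt 6 / Real.sqrt (1 - t) := by rw [gb, div_eq_mul_inv, mul_comm]

/-! ### bounds of the scalars -/

theorem ex_nonneg {x0 : ℝ} {p : ℝ → ℝ → ℝ} {t : ℝ} {f : ℝ → ℝ} (hp : 0 < t → ∀ x, 0 < p t x)
    (hf : ∀ x, 0 ≤ f x) : 0 ≤ ex x0 p t f := by
  unfold ex
  split_ifs with h
  · exact hf x0
  · exact integral_nonneg fun x => mul_nonneg (hp (not_le.1 h) x).le (hf x)

theorem ex_le {x0 : ℝ} {p : ℝ → ℝ → ℝ} {t : ℝ} {f : ℝ → ℝ} {c : ℝ}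
    (hp : 0 < t → ∀ x, 0 < p t x) (hint : 0 < t → Integrable (p t)) (hm : 0 < t → ∫ x, p t x = 1)
    (hf0 : ∀ x, 0 ≤ f x) (hf : ∀ x, f x ≤ c) : ex x0 p t f ≤ c := by
  unfold ex
  split_ifs with h
  · exact hf x0
  · have h' := not_le.1 h
    have h1 : ∫ x, p t x * f x ≤ ∫ x, p t x * c := by
      apply integral_mono_of_nonneg
      · exact ae_of_all _ fun x => mul_nonneg (hp h' x).le (hf0 x)
      · exact (hint h').mul_const c
      · exact ae_of_all _ fun x => mul_le_mul_of_nonneg_left (hf x) (hp h' x).le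
    rw [integral_mul_const, hm h', one_mul] at h1
    exact h1

variable {A : SD} {x0 : ℝ} {p Y Yx Yxx : ℝ → ℝ → ℝ}

theorem law_int (hL : Law A x0 p Y Yx Yxx) {t : ℝ} (ht : t ∈ Icc 0 A.T) (h0 : 0 < t) :
    Integrable (p t) := by
  obtain ⟨C, hC⟩ := hL.mom 0
  simpa using (hC t ⟨h0, ht.2⟩).1

theorem ex_nonneg' (hL : Law A x0 p Y Yx Yxx) {t : ℝ} (ht : t ∈ Icc 0 A.T) {f : ℝ → ℝ}
    (hf : ∀ x, 0 ≤ f x) : 0 ≤ ex x0 p t f :=
  ex_nonneg (fun h => hL.p_pos t ⟨h, ht.2⟩) hf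

theorem ex_le' (hL : Law A x0 p Y Yx Yxx) {t : ℝ} (ht : t ∈ Icc 0 A.T) {f : ℝ → ℝ} {c : ℝ}
    (hf0 : ∀ x, 0 ≤ f x) (hf : ∀ x, f x ≤ c) : ex x0 p t f ≤ c :=
  ex_le (fun h => hL.p_pos t ⟨h, ht.2⟩) (fun h => law_int hL ht h)
    (fun h => hL.mass t ⟨h, ht.2⟩) hf0 hf

theorem V_mem (hb : Back A) {t : ℝ} (ht : t ∈ Icc 0 A.T) (x : ℝ) : A.V t x ∈ Ioo (0:ℝ) 1 := by
  obtain ⟨M, hB⟩ := hb.bsys
  exact ⟨hB.V_pos t ht x, hB.V_lt t ht x⟩

theorem Ns_nonneg (hL : Law A x0 p Y Yx Yxx) {t : ℝ} (ht : t ∈ Icc 0 A.T) :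
    0 ≤ Ns A x0 p t := ex_nonneg' hL ht fun _ => sq_nonneg _

theorem Ns_le (hb : Back A) (hL : Law A x0 p Y Yx Yxx)
    (hbb : ∀ t ∈ Ico (0:ℝ) A.T, (1 - t) * A.b t ≤ 1) {t : ℝ} (ht : t ∈ Icc 0 A.T) :
    Ns A x0 p t ≤ 6 / (1 - t) := by
  apply ex_le' hL ht (fun x => sq_nonneg _)
  intro x
  have h1 := P_le A hb hbb t ht x
  have h2 : 0 < A.P t x := hb.P_pos t ht x
  have ht1 : 0 < 1 - t := by have := A.hT1; linarith [ht.2]
  calc A.P t x ^ 2 ≤ (Real.sqrt 6 / Real.sqrt (1 - t)) ^ 2 := pow_le_pow_left₀ h2.le h1 2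
    _ = 6 / (1 - t) := by rw [div_pow, Real.sq_sqrt (by norm_num), Real.sq_sqrt ht1.le]

theorem Ts_nonneg (hL : Law A x0 p Y Yx Yxx) {t : ℝ} (ht : t ∈ Icc 0 A.T) :
    0 ≤ Ts A x0 p t := ex_nonneg' hL ht fun _ => sq_nonneg _

theorem Qs_nonneg (hb : Back A) (hL : Law A x0 p Y Yx Yxx) {t : ℝ} (ht : t ∈ Icc 0 A.T) :
    0 ≤ Qs A x0 p t := by
  refine ex_nonneg' hL ht fun x => ?_
  have := V_mem hb ht x
  exact mul_nonneg (by linarith [this.2]) this.1.le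

theorem Zs_nonneg (hb : Back A) (hL : Law A x0 p Y Yx Yxx) {t : ℝ} (ht : t ∈ Icc 0 A.T) :
    0 ≤ Zs A x0 p t := by
  refine ex_nonneg' hL ht fun x => ?_
  exact mul_nonneg (sq_nonneg _) (V_mem hb ht x).1.le

theorem Zs_le (hb : Back A) (hL : Law A x0 p Y Yx Yxx) {t : ℝ} (ht : t ∈ Icc 0 A.T) :
    Zs A x0 p t ≤ 1 := by
  refine ex_le' hL ht (fun x => mul_nonneg (sq_nonneg _) (V_mem hb ht x).1.le) fun x => ?_
  have h := V_mem hb ht x
  have h1 : 0 < 1 - A.V t x := by linarith [h.2]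
  have h2 : (1 - A.V t x) ^ 2 ≤ 1 := by nlinarith [h.1]
  calc (1 - A.V t x) ^ 2 * A.V t x ≤ 1 * 1 := mul_le_mul h2 h.2.le h.1.le zero_le_one
    _ = 1 := one_mul 1

theorem Zs_abs (hb : Back A) (hL : Law A x0 p Y Yx Yxx) {t : ℝ} (ht : t ∈ Icc 0 A.T) :
    |Zs A x0 p t| ≤ 1 := by
  rw [abs_of_nonneg (Zs_nonneg hb hL ht)]
  exact Zs_le hb hL ht

theorem V_cont (hb : Back A) {t : ℝ} (ht : t ∈ Icc 0 A.T) : Continuous (A.V t) :=
  continuous_iff_continuousAt.2 fun x => (hb.V_x t ht x).continuousAt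

theorem TQ_le (hb : Back A) (hL : Law A x0 p Y Yx Yxx) {t : ℝ} (ht : t ∈ Icc 0 A.T) :
    Ts A x0 p t + Qs A x0 p t ≤ 1 := by
  have hadd : Ts A x0 p t + Qs A x0 p t = ex x0 p t (fun x => 1 - A.V t x) := by
    unfold Ts Qs ex
    split_ifs with h
    · ring
    · have h' := not_le.1 h
      have hp := law_int hL ht h'
      have hVc := V_cont hb ht
      have hi : ∀ f : ℝ → ℝ, Continuous f → (∀ x, |f x| ≤ 1) →
          Integrable (fun x => p t x * f x) := by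
        intro f hf hf1
        refine (hp.bdd_mul (c := 1) hf.aestronglyMeasurable (ae_of_all _ fun x => ?_)).congr
          (ae_of_all _ fun x => ?_)
        · rw [Real.norm_eq_abs]; exact hf1 x
        · ring
      rw [← integral_add]
      · congr 1
        ext x
        ring
      · refine hi _ ((continuous_const.sub hVc).pow 2) fun x => ?_
        have h := V_mem hb ht x
        rw [abs_of_nonneg (sq_nonneg _)]
        nlinarith [h.1, h.2]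
      · refine hi _ ((continuous_const.sub hVc).mul hVc) fun x => ?_
        have h := V_mem hb ht x
        rw [abs_of_nonneg (mul_nonneg (by linarith [h.2]) h.1.le)]
        nlinarith [h.1, h.2]
  rw [hadd]
  refine ex_le' hL ht (fun x => ?_) fun x => ?_
  · have h := V_mem hb ht x
    linarith [h.2]
  · have h := V_mem hb ht x
    linarith [h.1]

end

end Crest.Agent.R146.PtNb_45
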