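import Crest.Agent.R146.PtScalA_45

/-!
Row 146 (S0205), tip of the jamming profile, real-variable part 2 (helper45).

`tip`: for a profile `P` (`D t = ∫_t^1 m`, i.e. `d = 0`) with `1/D²` integrable which satisfies the
variational inequality with `ρ = (α T - 1)/D²` (`T` continuous on `[0,1)`), and such that `T` is
quasi-convex on every interval `[a,b] ⊂ [t0,1)` on which `m` is constant, there is `t1 ∈ [t0,1)`
with `α T = 1` on `[t1,1)`.
`tip_charge`: if moreover `S/D` has the primitive `∫ m T / D²`, then `(S - T)/D` is constant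
on `[t1,1)`.
-/

set_option autoImplicit false

namespace Crest.Agent.R146.PtScalB_45

open MeasureTheory Set Filter Topology intervalIntegral
open Crest.Agent.R146.PtScalA_45

theorem G_hasDerivAt {κ : ℝ} {ρ : ℝ → ℝ} (hρ : IntervalIntegrable ρ volume 0 1) {t : ℝ}
    (ht : t ∈ Ioo (0:ℝ) 1) : HasDerivAt (G κ ρ) (-(I κ ρ t)) t := by
  have hc : ContinuousOn (I κ ρ) (Ioo 0 1) :=
    (I_continuousOn (κ := κ) hρ).mono Ioo_subset_Icc_self
  have hca : ContinuousAt (I κ ρ) t := hc.continuousAt (isOpen_Ioo.mem_nhds ht)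
  have hm : StronglyMeasurableAtFilter (I κ ρ) (𝓝 t) volume :=
    hc.stronglyMeasurableAtFilter isOpen_Ioo t ht
  exact intervalIntegral.integral_hasDerivAt_left
    (sub_int (I_int hρ) ht.1.le ht.2.le zero_le_one le_rfl) hm hca

theorem I_eq_zero {κ : ℝ} {ρ : ℝ → ℝ} (hρ : IntervalIntegrable ρ volume 0 1) {t : ℝ}
    (ht : t ∈ Ioo (0:ℝ) 1) (hG : ∀ s ∈ Icc (0:ℝ) 1, 0 ≤ G κ ρ s) (h0 : G κ ρ t = 0) :
    I κ ρ t = 0 := by
  have hmin : IsLocalMin (G κ ρ) t := by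
    filter_upwards [isOpen_Ioo.mem_nhds ht] with s hs
    rw [h0]
    exact hG s (Ioo_subset_Icc_self hs)
  have := hmin.hasDerivAt_eq_zero (G_hasDerivAt hρ ht)
  linarith

theorem G_continuousOn {κ : ℝ} {ρ : ℝ → ℝ} (hρ : IntervalIntegrable ρ volume 0 1) :
    ContinuousOn (G κ ρ) (Icc 0 1) := by
  have h3 : ContinuousOn (fun x => ∫ s in x..1, I κ ρ s) (uIcc 0 1) := by
    have h4 : ContinuousOn (fun x => ∫ s in (1:ℝ)..x, I κ ρ s) (uIcc 0 1) :=
      intervalIntegral.continuousOn_primitive_interval' (I_int hρ) (by simp)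
    refine h4.neg.congr ?_
    intro x _
    exact intervalIntegral.integral_symm _ _
  rw [uIcc_of_le (zero_le_one' ℝ)] at h3
  exact h3

theorem exists_neg {f : ℝ → ℝ} {a b : ℝ} (hab : a ≤ b) (h : ∫ x in a..b, f x < 0) :
    ∃ x ∈ Ioo a b, f x < 0 := by
  by_contra hne
  push Not at hne
  rw [intervalIntegral.integral_of_le hab, integral_Ioc_eq_integral_Ioo] at h
  have := setIntegral_nonneg (μ := volume) measurableSet_Ioo hne
  linarith

theorem exists_pos {f : ℝ → ℝ} {a b : ℝ} (hab : a ≤ b) (h : 0 < ∫ x in a..b, f x) :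
    ∃ x ∈ Ioo a b, 0 < f x := by
  have h' : ∫ x in a..b, -f x < 0 := by
    rw [intervalIntegral.integral_neg]; linarith
  obtain ⟨x, hx, hx'⟩ := exists_neg hab h'
  exact ⟨x, hx, by linarith⟩

/-- the gap argument: on a component `(a,b)` of `G > 0` the density `ρ` cannot be
"quasi-convex in sign". -/
theorem no_gap {κ : ℝ} {ρ : ℝ → ℝ} (hρ : IntervalIntegrable ρ volume 0 1) {a b : ℝ}
    (ha : 0 < a) (hab : a < b) (hb : b < 1) (hG : ∀ s ∈ Icc (0:ℝ) 1, 0 ≤ G κ ρ s)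
    (hGa : G κ ρ a = 0) (hGb : G κ ρ b = 0) (hpos : ∀ s ∈ Ioo a b, 0 < G κ ρ s)
    (hqc : ∀ x y z, a < x → x ≤ y → y ≤ z → z < b → ρ x < 0 → ρ z < 0 → ρ y < 0) : False := by
  have hIa : I κ ρ a = 0 := I_eq_zero hρ ⟨ha, hab.trans hb⟩ hG hGa
  have hIb : I κ ρ b = 0 := I_eq_zero hρ ⟨ha.trans hab, hb⟩ hG hGb
  -- negative points near `a`
  have hleft : ∀ y ∈ Ioo a b, ∃ x ∈ Ioo a y, ρ x < 0 := by
    intro y hy
    have h1 := G_sub (κ := κ) hρ ha.le hy.1.le (hy.2.le.trans hb.le)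
    have h2 := hpos y hy
    have h3 : ∫ t in a..y, I κ ρ t < 0 := by rw [← h1, hGa]; linarith
    obtain ⟨s, hs, hs'⟩ := exists_neg hy.1.le h3
    have h4 := I_sub (κ := κ) hρ ha.le hs.1.le ((hs.2.trans hy.2).le.trans hb.le)
    have h5 : ∫ t in a..s, ρ t < 0 := by rw [← h4, hIa]; linarith
    obtain ⟨x, hx, hx'⟩ := exists_neg hs.1.le h5
    exact ⟨x, ⟨hx.1, hx.2.trans hs.2⟩, hx'⟩
  have hright : ∀ y ∈ Ioo a b, ∃ x ∈ Ioo y b, ρ x < 0 := by
    intro y hy
    have h1 := G_sub (κ := κ) hρ (ha.le.trans hy.1.le) hy.2.le hb.le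
    have h2 := hpos y hy
    have h3 : 0 < ∫ t in y..b, I κ ρ t := by rw [← h1, hGb]; linarith
    obtain ⟨s, hs, hs'⟩ := exists_pos hy.2.le h3
    have h4 := I_sub (κ := κ) hρ (ha.le.trans (hy.1.le.trans hs.1.le)) hs.2.le hb.le
    have h5 : ∫ t in s..b, ρ t < 0 := by rw [← h4, hIb]; linarith
    obtain ⟨x, hx, hx'⟩ := exists_neg hs.2.le h5
    exact ⟨x, ⟨hs.1.trans hx.1, hx.2⟩, hx'⟩
  have hneg : ∀ y ∈ Ioo a b, ρ y < 0 := by
    intro y hy
    obtain ⟨x, hx, hx'⟩ := hleft y hy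
    obtain ⟨z, hz, hz'⟩ := hright y hy
    exact hqc x y z hx.1 hx.2.le hz.1.le hz.2 hx' hz'
  have h6 : 0 < ∫ t in a..b, -ρ t :=
    intervalIntegral.intervalIntegral_pos_of_pos_on
      (sub_int hρ.neg ha.le (hab.trans hb).le (ha.trans hab).le hb.le)
      (fun x hx => by have := hneg x hx; linarith) hab
  rw [intervalIntegral.integral_neg, ← I_sub (κ := κ) hρ ha.le hab.le hb.le, hIa, hIb] at h6
  linarith

/-- the component of `G > 0` around a point. -/
theorem component {f : ℝ → ℝ} {t1 t' z : ℝ} (h1 : t1 < t') (h2 : t' < z)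
    (hf : ContinuousOn f (Icc t1 z)) (h0 : f t1 = 0) (hz : f z = 0) (hnn : ∀ s ∈ Icc t1 z, 0 ≤ f s)
    (hpos : 0 < f t') :
    ∃ a b, t1 ≤ a ∧ a < b ∧ b ≤ z ∧ f a = 0 ∧ f b = 0 ∧ ∀ s ∈ Ioo a b, 0 < f s := by
  -- left end
  have hcl : IsCompact (Icc t1 t' ∩ f ⁻¹' {0}) := by
    have : IsClosed (Icc t1 t' ∩ f ⁻¹' {0}) :=
      (hf.mono (Icc_subset_Icc_right h2.le)).preimage_isClosed_of_isClosed isClosed_Icc
        isClosed_singleton
    exact isCompact_Icc.of_isClosed_subset this inter_subset_left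
  have hcr : IsCompact (Icc t' z ∩ f ⁻¹' {0}) := by
    have : IsClosed (Icc t' z ∩ f ⁻¹' {0}) :=
      (hf.mono (Icc_subset_Icc_left h1.le)).preimage_isClosed_of_isClosed isClosed_Icc
        isClosed_singleton
    exact isCompact_Icc.of_isClosed_subset this inter_subset_left
  obtain ⟨a, ha, hamax⟩ := hcl.exists_isGreatest ⟨t1, ⟨le_rfl, h1.le⟩, h0⟩
  obtain ⟨b, hb, hbmin⟩ := hcr.exists_isLeast ⟨z, ⟨h2.le, le_rfl⟩, hz⟩
  have hat : a < t' := by
    rcases lt_or_eq_of_le ha.1.2 with h | h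
    · exact h
    · exfalso
      have : f a = 0 := ha.2
      rw [h] at this
      linarith
  have hbt : t' < b := by
    rcases lt_or_eq_of_le hb.1.1 with h | h
    · exact h
    · exfalso
      have : f b = 0 := hb.2
      rw [← h] at this
      linarith
  refine ⟨a, b, ha.1.1, hat.trans hbt, hb.1.2, ha.2, hb.2, ?_⟩
  intro s hs
  have hs' : s ∈ Icc t1 z := ⟨ha.1.1.trans hs.1.le, hs.2.le.trans hb.1.2⟩
  rcases lt_or_eq_of_le (hnn s hs') with h | h
  · exact h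
  · exfalso
    rcases le_total s t' with h3 | h3
    · have := hamax ⟨⟨hs'.1, h3⟩, h.symm⟩
      linarith [hs.1]
    · have := hbmin ⟨⟨h3, hs'.2⟩, h.symm⟩
      linarith [hs.2]

theorem D_continuousOn (P : Prof) : ContinuousOn P.D (Icc 0 1) := by
  have h3 : ContinuousOn (fun x => ∫ s in x..1, P.m s) (uIcc 0 1) := by
    have h4 : ContinuousOn (fun x => ∫ s in (1:ℝ)..x, P.m s) (uIcc 0 1) :=
      intervalIntegral.continuousOn_primitive_interval' P.int (by simp)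
    refine h4.neg.congr ?_
    intro x _
    exact intervalIntegral.integral_symm _ _
  rw [uIcc_of_le (zero_le_one' ℝ)] at h3
  exact continuousOn_const.add h3

/-- no last gap: if `d = 0` and `1/D²` is integrable then `m` is not constant near `1`. -/
theorem not_const_of_int (P : Prof) (hd : P.d = 0) {a : ℝ} (ha0 : 0 ≤ a) (ha : a < 1)
    (hE : IntervalIntegrable (fun t => 1 / (P.D t) ^ 2) volume 0 1)
    (hpos : ∀ t ∈ Ico (0:ℝ) 1, 0 < P.D t)
    (hconst : ∀ t ∈ Ico a 1, P.m t = P.m a) : False := by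
  have hD : ∀ t ∈ Icc a 1, P.D t = P.m a * (1 - t) := by
    intro t ht
    unfold Prof.D
    rw [hd, zero_add]
    have : ∫ s in t..1, P.m s = ∫ s in t..1, P.m a := by
      rw [intervalIntegral.integral_of_le ht.2, intervalIntegral.integral_of_le ht.2,
        integral_Ioc_eq_integral_Ioo, integral_Ioc_eq_integral_Ioo]
      apply setIntegral_congr_fun measurableSet_Ioo
      intro s hs
      exact hconst s ⟨ht.1.trans hs.1.le, hs.2⟩
    rw [this, intervalIntegral.integral_const, smul_eq_mul]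
    ring
  have hm : 0 < P.m a := by
    have h1 := hpos a ⟨ha0, ha⟩
    rw [hD a ⟨le_rfl, ha.le⟩] at h1
    have h2 : 0 < 1 - a := by linarith
    exact (mul_pos_iff_of_pos_right h2).1 h1
  -- compare with `1 / (1 - t)`
  have h2 : IntervalIntegrable (fun t => 1 / (P.D t) ^ 2) volume a 1 :=
    sub_int hE ha0 ha.le zero_le_one le_rfl
  have h3 : IntervalIntegrable (fun t : ℝ => (t - 1)⁻¹) volume a 1 := by
    have h4 := h2.const_mul ((P.m a) ^ 2)
    refine h4.mono_fun' ?_ ?_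
    · exact (Measurable.aestronglyMeasurable (by fun_prop))
    · rw [uIoc_of_le ha.le]
      filter_upwards [ae_restrict_mem measurableSet_Ioc,
        ae_restrict_of_ae (measure_eq_zero_iff_ae_notMem.1 (Real.volume_singleton (a := 1)))]
        with t ht ht1
      have ht1' : t < 1 := lt_of_le_of_ne ht.2 (by simpa using ht1)
      have e : P.D t = P.m a * (1 - t) := hD t ⟨ht.1.le, ht.2⟩
      have h5 : 0 < 1 - t := by linarith
      have h6 : 1 - t ≤ 1 := by linarith [ht.1]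
      rw [e, norm_inv, Real.norm_eq_abs, abs_sub_comm, abs_of_pos h5]
      have e2 : P.m a ^ 2 * (1 / (P.m a * (1 - t)) ^ 2) = 1 / (1 - t) ^ 2 := by
        field_simp
      rw [e2, inv_eq_one_div]
      apply one_div_le_one_div_of_le (by positivity)
      nlinarith
  have h4 := (intervalIntegrable_sub_inv_iff (a := a) (b := 1) (c := 1)).1 h3
  rcases h4 with h4 | h4
  · linarith
  · exact h4 (by simp)

/-- THE TIP. -/
theorem tip {α κ : ℝ} (hα : 0 < α) (P : Prof) (T : ℝ → ℝ) (hd : P.d = 0)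
    (hpos : ∀ t ∈ Ico (0:ℝ) 1, 0 < P.D t) (hT : ContinuousOn T (Ico 0 1))
    (hTb : ∃ C, ∀ t ∈ Ico (0:ℝ) 1, |T t| ≤ C)
    (hE : IntervalIntegrable (fun t => 1 / (P.D t) ^ 2) volume 0 1)
    (hVI : VI κ (fun t => (α * T t - 1) / (P.D t) ^ 2) P)
    {t0 : ℝ} (ht0 : t0 < 1)
    (hQC : ∀ a b, t0 ≤ a → 0 ≤ a → a < b → b < 1 → (∀ t ∈ Icc a b, P.m t = P.m a) →
      ∀ x y z, a ≤ x → x ≤ y → y ≤ z → z ≤ b → T y ≤ max (T x) (T z)) :
    ∃ t1, t0 ≤ t1 ∧ 0 < t1 ∧ t1 < 1 ∧ ∀ t ∈ Ico t1 1, α * T t = 1 := by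
  set ρ : ℝ → ℝ := fun t => (α * T t - 1) / (P.D t) ^ 2 with hρdef
  obtain ⟨C, hC⟩ := hTb
  have hDc : ContinuousOn P.D (Icc 0 1) := D_continuousOn P
  have hρc : ContinuousOn ρ (Ico 0 1) := by
    apply ContinuousOn.div
    · exact (continuousOn_const.mul hT).sub continuousOn_const
    · exact (hDc.mono Ico_subset_Icc_self).pow 2
    · intro t ht
      exact (pow_pos (hpos t ht) 2).ne'
  have hρ : IntervalIntegrable ρ volume 0 1 := by
    have h1 := hE.const_mul (|α| * C + 1)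
    refine h1.mono_fun' ?_ ?_
    · rw [uIoc_of_le zero_le_one, Measure.restrict_congr_set Ioo_ae_eq_Ioc.symm]
      exact (hρc.mono Ioo_subset_Ico_self).aestronglyMeasurable measurableSet_Ioo
    · rw [uIoc_of_le zero_le_one, Measure.restrict_congr_set Ioo_ae_eq_Ioc.symm]
      filter_upwards [ae_restrict_mem measurableSet_Ioo] with t ht
      have ht' : t ∈ Ico (0:ℝ) 1 := Ioo_subset_Ico_self ht
      have h2 := hC t ht'
      have h3 := hpos t ht'
      rw [hρdef]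
      simp only
      rw [norm_div, Real.norm_eq_abs, Real.norm_eq_abs, abs_of_pos (pow_pos h3 2),
        div_eq_mul_one_div]
      apply mul_le_mul_of_nonneg_right _ (by positivity)
      calc |α * T t - 1| ≤ |α * T t| + |(1:ℝ)| := abs_sub _ _
        _ ≤ |α| * C + 1 := by
          rw [abs_mul, abs_one]
          have := mul_le_mul_of_nonneg_left h2 (abs_nonneg α)
          linarith
  have hG : ∀ s ∈ Icc (0:ℝ) 1, 0 ≤ G κ ρ s := fun s hs => hVI.G_nonneg hρ hs.1 hs.2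
  have hGc : ContinuousOn (G κ ρ) (Icc 0 1) := G_continuousOn hρ
  -- zeros of `G` accumulate at `1`
  have hacc : ∀ a0, a0 < 1 → ∃ t ∈ Ioo (max a0 0) 1, G κ ρ t = 0 := by
    intro a0 ha0
    by_contra hne
    push Not at hne
    have hm1 : max a0 0 < 1 := max_lt ha0 zero_lt_one
    have hpos' : ∀ t ∈ Ioo (max a0 0) 1, 0 < G κ ρ t := by
      intro t ht
      have h0t : 0 ≤ t := (le_max_right a0 0).trans ht.1.le
      exact lt_of_le_of_ne (hG t ⟨h0t, ht.2.le⟩) (Ne.symm (hne t ht))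
    obtain ⟨a, ha1, ha2⟩ := exists_between hm1
    have ha0' : 0 ≤ a := (le_max_right a0 0).trans ha1.le
    refine not_const_of_int P hd ha0' ha2 hE hpos ?_
    intro t ht
    refine (hVI.m_eq hρ ha0' ht.1 ht.2 ?_).symm
    intro s hs
    exact hpos' s ⟨ha1.trans_le hs.1, hs.2.trans_lt ht.2⟩
  obtain ⟨t1, ht1, hGt1⟩ := hacc t0 ht0
  have ht1t0 : t0 < t1 := (le_max_left t0 0).trans_lt ht1.1
  have ht10 : 0 < t1 := (le_max_right t0 0).trans_lt ht1.1
  -- `G = 0` on `[t1,1)`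
  have hG0 : ∀ t ∈ Ico t1 1, G κ ρ t = 0 := by
    intro t ht
    by_contra hne
    have hGt : 0 < G κ ρ t :=
      lt_of_le_of_ne (hG t ⟨ht10.le.trans ht.1, ht.2.le⟩) (Ne.symm hne)
    have h1t : t1 < t := by
      rcases lt_or_eq_of_le ht.1 with h | h
      · exact h
      · exfalso; rw [← h, hGt1] at hGt; exact lt_irrefl _ hGt
    obtain ⟨z, hz, hGz⟩ := hacc t ht.2
    have hzt : t < z := (le_max_left t 0).trans_lt hz.1
    have hsub : Icc t1 z ⊆ Icc 0 1 := Icc_subset_Icc ht10.le hz.2.le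
    obtain ⟨a, b, h1, h2, h3, h4, h5, h6⟩ := component h1t hzt (hGc.mono hsub) hGt1 hGz
      (fun s hs => hG s (hsub hs)) hGt
    have ha : 0 < a := ht10.trans_le h1
    have hb : b < 1 := h3.trans_lt hz.2
    refine no_gap hρ ha h2 hb hG h4 h5 h6 ?_
    intro x y w hx hxy hyw hw hρx hρw
    have hxw : x ≤ w := hxy.trans hyw
    have hcx : 0 < P.D x := hpos x ⟨(ha.trans hx).le, (hxw.trans_lt hw).trans hb⟩
    have hcy : 0 < P.D y := hpos y ⟨((ha.trans hx).trans_le hxy).le, (hyw.trans_lt hw).trans hb⟩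
    have hcw : 0 < P.D w := hpos w ⟨((ha.trans hx).trans_le hxw).le, hw.trans hb⟩
    have e1 : α * T x - 1 < 0 := by
      rw [hρdef] at hρx
      simp only at hρx
      by_contra hcon
      push Not at hcon
      have := div_nonneg hcon (pow_pos hcx 2).le
      linarith
    have e2 : α * T w - 1 < 0 := by
      rw [hρdef] at hρw
      simp only at hρw
      by_contra hcon
      push Not at hcon
      have := div_nonneg hcon (pow_pos hcw 2).le
      linarith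
    have e3 : T y ≤ max (T x) (T w) := by
      rcases lt_or_eq_of_le hxw with hlt | heq
      · refine hQC x w (ht1t0.le.trans (h1.trans hx.le)) (ha.trans hx).le hlt (hw.trans hb) ?_
          x y w le_rfl hxy hyw le_rfl
        intro s hs
        refine (hVI.m_eq hρ (ha.trans hx).le hs.1 (hs.2.trans_lt (hw.trans hb)) ?_).symm
        intro r hr
        exact h6 r ⟨hx.trans_le hr.1, (hr.2.trans hs.2).trans_lt hw⟩
      · have : y = x := le_antisymm (by rw [heq]; exact hyw) hxy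
        rw [this]
        exact le_max_left _ _
    have e4 : α * T y - 1 < 0 := by
      rcases le_max_iff.1 e3 with h | h
      · have := mul_le_mul_of_nonneg_left h hα.le
        linarith
      · have := mul_le_mul_of_nonneg_left h hα.le
        linarith
    rw [hρdef]
    exact div_neg_of_neg_of_pos e4 (pow_pos hcy 2)
  -- `I = 0` on `[t1,1)`
  have hI0 : ∀ t ∈ Ico t1 1, I κ ρ t = 0 := fun t ht =>
    I_eq_zero hρ ⟨ht10.trans_le ht.1, ht.2⟩ hG (hG0 t ht)
  refine ⟨t1, ht1t0.le, ht10, ht1.2, ?_⟩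
  -- `ρ = 0` on `[t1,1)`
  have hρ0 : ∀ t ∈ Ico t1 1, ρ t = 0 := by
    intro t ht
    have ht' : t ∈ Ico (0:ℝ) 1 := ⟨ht10.le.trans ht.1, ht.2⟩
    by_contra hne
    -- sign is constant on a right neighbourhood
    have hct : ContinuousWithinAt ρ (Ici t) t := by
      have h1 : ContinuousWithinAt ρ (Ico 0 1) t := hρc t ht'
      have h2 : ContinuousWithinAt ρ (Ico t 1) t := h1.mono (Ico_subset_Ico_left ht'.1)
      refine h2.mono_of_mem_nhdsWithin ?_
      exact Ico_mem_nhdsGE ht.2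
    have key : ∀ σ : ℝ, (σ = 1 ∨ σ = -1) → 0 < σ * ρ t → False := by
      intro σ _ hσ
      have h3 : ContinuousWithinAt (fun s => σ * ρ s) (Ici t) t := continuousWithinAt_const.mul hct
      have h4 : ∀ᶠ s in 𝓝[Ici t] t, 0 < σ * ρ s := h3.eventually (lt_mem_nhds hσ)
      have h5 : ∀ᶠ s in 𝓝[Ici t] t, s < 1 := by
        filter_upwards [mem_nhdsWithin_of_mem_nhds (Iio_mem_nhds ht.2)] with s hs using hs
      obtain ⟨u, hu, hu'⟩ := (mem_nhdsGE_iff_exists_Icc_subset.1 (h4.and h5))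
      have hu1 : u < 1 := (hu' ⟨(mem_Ioi.1 hu).le, le_rfl⟩).2
      have h6 : 0 < ∫ s in t..u, σ * ρ s := by
        apply intervalIntegral.intervalIntegral_pos_of_pos_on
        · exact (sub_int hρ ht'.1 ht.2.le (ht'.1.trans (mem_Ioi.1 hu).le) hu1.le).const_mul σ
        · intro s hs
          exact (hu' ⟨hs.1.le, hs.2.le⟩).1
        · exact hu
      rw [intervalIntegral.integral_const_mul, ← I_sub (κ := κ) hρ ht'.1 (mem_Ioi.1 hu).le hu1.le,
        hI0 t ht, hI0 u ⟨ht.1.trans (mem_Ioi.1 hu).le, hu1⟩] at h6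
      simp at h6
    rcases lt_or_gt_of_ne hne with h | h
    · exact key (-1) (Or.inr rfl) (by linarith)
    · exact key 1 (Or.inl rfl) (by linarith)
  intro t ht
  have h1 := hρ0 t ht
  have h2 := hpos t ⟨ht10.le.trans ht.1, ht.2⟩
  rw [hρdef] at h1
  simp only at h1
  rcases div_eq_zero_iff.1 h1 with h | h
  · linarith
  · exact absurd h (pow_pos h2 2).ne'

/-- `m/D²` is the derivative of `1/D`. -/
theorem int_inv (P : Prof) (hpos : ∀ t ∈ Ico (0:ℝ) 1, 0 < P.D t) {t1 t : ℝ} (ht1 : 0 ≤ t1)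
    (h1t : t1 ≤ t) (ht : t < 1) :
    ∫ s in t1..t, P.m s / (P.D s) ^ 2 = 1 / P.D t - 1 / P.D t1 := by
  have hDc : ContinuousOn P.D (Icc 0 1) := D_continuousOn P
  have ht0 : 0 ≤ t := ht1.trans h1t
  have hsub : Icc t1 t ⊆ Ico (0:ℝ) 1 := fun x hx => ⟨ht1.trans hx.1, hx.2.trans_lt ht⟩
  have hm1 : IntervalIntegrable P.m volume t1 t :=
    sub_int P.int ht1 (h1t.trans ht.le) ht0 ht.le
  have hDt : ∀ x ∈ Icc t1 t, ∀ y ∈ Icc t1 t, x ≤ y → P.D x - P.D y = ∫ s in x..y, P.m s := by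
    intro x hx y hy hxy
    have hx' := hsub hx
    have hy' := hsub hy
    have e := intervalIntegral.integral_add_adjacent_intervals
      (sub_int P.int hx'.1 hx'.2.le hy'.1 hy'.2.le) (sub_int P.int hy'.1 hy'.2.le zero_le_one le_rfl)
    unfold Prof.D
    linarith
  have hDanti : ∀ x ∈ Icc t1 t, P.D t ≤ P.D x := by
    intro x hx
    have := hDt x hx t ⟨h1t, le_rfl⟩ hx.2
    have h2 : 0 ≤ ∫ s in x..t, P.m s :=
      intervalIntegral.integral_nonneg hx.2 fun s hs =>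
        P.nonneg s (hsub ⟨hx.1.trans hs.1, hs.2⟩)
    linarith
  have hδ : 0 < P.D t := hpos t ⟨ht0, ht⟩
  have hmt : 0 ≤ P.m t := P.nonneg t ⟨ht0, ht⟩
  have hlipD : ∀ x ∈ Icc t1 t, ∀ y ∈ Icc t1 t, x ≤ y → |P.D x - P.D y| ≤ P.m t * |x - y| := by
    intro x hx y hy hxy
    rw [hDt x hx y hy hxy]
    have := intervalIntegral.norm_integral_le_of_norm_le_const (a := x) (b := y) (f := P.m)
      (C := P.m t) (by
        intro s hs
        rw [uIoc_of_le hxy] at hs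
        have hs' : s ∈ Icc t1 t := ⟨hx.1.trans hs.1.le, hs.2.trans hy.2⟩
        rw [Real.norm_eq_abs, abs_of_nonneg (P.nonneg s (hsub hs'))]
        exact P.mono (hsub hs') ⟨ht0, ht⟩ hs'.2)
    rw [Real.norm_eq_abs] at this
    rwa [abs_sub_comm y x] at this
  have hlip : LipschitzOnWith ⟨P.m t / (P.D t) ^ 2, by positivity⟩ (fun x => 1 / P.D x)
      (uIcc t1 t) := by
    rw [uIcc_of_le h1t]
    apply LipschitzOnWith.of_dist_le_mul
    have main : ∀ x ∈ Icc t1 t, ∀ y ∈ Icc t1 t, x ≤ y →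
        |1 / P.D x - 1 / P.D y| ≤ P.m t / (P.D t) ^ 2 * |x - y| := by
      intro x hx y hy hxy
      have hx' := hpos x (hsub hx)
      have hy' := hpos y (hsub hy)
      have e : 1 / P.D x - 1 / P.D y = -((P.D x - P.D y) / (P.D x * P.D y)) := by
        field_simp
        ring
      rw [e, abs_neg, abs_div, abs_of_pos (mul_pos hx' hy'), div_mul_eq_mul_div]
      apply div_le_div₀ (by positivity) (hlipD x hx y hy hxy) (by positivity)
      have h1 := hDanti x hx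
      have h2 := hDanti y hy
      rw [sq]
      exact mul_le_mul h1 h2 hδ.le hx'.le
    intro x hx y hy
    rw [Real.dist_eq, Real.dist_eq]
    rcases le_total x y with h | h
    · exact main x hx y hy h
    · have := main y hy x hx h
      rw [abs_sub_comm, abs_sub_comm y x] at this
      exact this
  have hac := hlip.absolutelyContinuousOnInterval
  rw [← hac.integral_deriv_eq_sub]
  apply intervalIntegral.integral_congr_ae
  filter_upwards [hm1.ae_hasDerivAt_integral,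
    (measure_eq_zero_iff_ae_notMem.1 (Real.volume_singleton (a := t)))] with x hx hxt hxI
  rw [uIoc_of_le h1t] at hxI
  have hxt' : x < t := lt_of_le_of_ne hxI.2 (by simpa using hxt)
  have hxm : x ∈ Icc t1 t := ⟨hxI.1.le, hxI.2⟩
  have h1 := hx (by rw [uIcc_of_le h1t]; exact hxm) t1 (by simp)
  have h2 : HasDerivAt (fun y => P.D t1 - ∫ s in t1..y, P.m s) (-(P.m x)) x :=
    by simpa using h1.const_sub (P.D t1)
  have h3 : HasDerivAt P.D (-(P.m x)) x := by
    refine h2.congr_of_eventuallyEq ?_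
    filter_upwards [isOpen_Ioo.mem_nhds (⟨hxI.1, hxt'⟩ : x ∈ Ioo t1 t)] with y hy
    have := hDt t1 ⟨le_rfl, h1t⟩ y ⟨hy.1.le, hy.2.le⟩ hy.1.le
    linarith
  have hne : P.D x ≠ 0 := (hpos x (hsub hxm)).ne'
  have h4 : HasDerivAt (fun y => 1 / P.D y) (P.m x / (P.D x) ^ 2) x := by
    have := h3.inv hne
    simp only [neg_neg] at this
    refine this.congr_of_eventuallyEq ?_
    filter_upwards with y
    simp
  exact h4.deriv.symm

/-- the charge: with `α T = 1` on `[t1,1)` and `S/D = S0/D0 + ∫_0^t m T / D²`,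
`(S - T)/D` is constant on `[t1,1)`. -/
theorem tip_charge {α : ℝ} (hα : 0 < α) (P : Prof) (S T : ℝ → ℝ)
    (hpos : ∀ t ∈ Ico (0:ℝ) 1, 0 < P.D t) {t1 : ℝ} (ht1 : 0 < t1) (ht11 : t1 < 1)
    (hT1 : ∀ t ∈ Ico t1 1, α * T t = 1)
    (hTc : ContinuousOn T (Ico 0 1))
    (hR2 : ∀ t ∈ Ico (0:ℝ) 1,
      S t / P.D t = S 0 / P.D 0 + ∫ s in (0:ℝ)..t, P.m s * T s / (P.D s) ^ 2)
    {t : ℝ} (ht : t ∈ Ico t1 1) :
    (S t - T t) / P.D t = (S t1 - T t1) / P.D t1 := by
  have hDc : ContinuousOn P.D (Icc 0 1) := D_continuousOn P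
  have hsub : Icc 0 t ⊆ Ico (0:ℝ) 1 := fun x hx => ⟨hx.1, hx.2.trans_lt ht.2⟩
  have h0t : 0 ≤ t := ht1.le.trans ht.1
  have hmt : IntervalIntegrable P.m volume 0 t := sub_int P.int le_rfl zero_le_one h0t ht.2.le
  have hint : IntervalIntegrable (fun s => P.m s * T s / (P.D s) ^ 2) volume 0 t := by
    have h1 : ContinuousOn (fun s => T s / (P.D s) ^ 2) (uIcc 0 t) := by
      rw [uIcc_of_le h0t]
      apply ContinuousOn.div (hTc.mono hsub)
      · exact (hDc.mono (hsub.trans Ico_subset_Icc_self)).pow 2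
      · intro x hx
        exact (pow_pos (hpos x (hsub hx)) 2).ne'
    have h2 := hmt.mul_continuousOn h1
    refine h2.congr ?_
    intro s _
    ring
  have hA : IntervalIntegrable (fun s => P.m s * T s / (P.D s) ^ 2) volume 0 t1 := by
    refine hint.mono_set ?_
    rw [uIcc_of_le ht1.le, uIcc_of_le h0t]
    exact Icc_subset_Icc_right ht.1
  have hB : IntervalIntegrable (fun s => P.m s * T s / (P.D s) ^ 2) volume t1 t := by
    refine hint.mono_set ?_
    rw [uIcc_of_le ht.1, uIcc_of_le h0t]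
    exact Icc_subset_Icc_left ht1.le
  have e1 := hR2 t ⟨h0t, ht.2⟩
  have e2 := hR2 t1 ⟨ht1.le, ht11⟩
  have e3 := intervalIntegral.integral_add_adjacent_intervals hA hB
  have e4 := int_inv P hpos ht1.le ht.1 ht.2
  have e5 : ∫ s in t1..t, P.m s * T s / (P.D s) ^ 2 = (1 / α) * ∫ s in t1..t, P.m s / (P.D s) ^ 2 := by
    rw [← intervalIntegral.integral_const_mul]
    apply intervalIntegral.integral_congr
    intro s hs
    rw [uIcc_of_le ht.1] at hs
    have : T s = 1 / α := by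
      have := hT1 s ⟨hs.1, hs.2.trans_lt ht.2⟩
      field_simp
      linarith
    simp only
    rw [this]
    ring
  have e6 : T t = 1 / α := by
    have := hT1 t ht
    field_simp
    linarith
  have e7 : T t1 = 1 / α := by
    have := hT1 t1 ⟨le_rfl, ht11⟩
    field_simp
    linarith
  rw [sub_div, sub_div, e1, e2, e6, e7]
  rw [e5, e4] at e3
  rw [← e3]
  ring

/-- summary: the tip of the profile for `d = 0`. -/
theorem tip_full {α κ : ℝ} (hα : 0 < α) (P : Prof) (S T : ℝ → ℝ) (hd : P.d = 0)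
    (hpos : ∀ t ∈ Ico (0:ℝ) 1, 0 < P.D t) (hT : ContinuousOn T (Ico 0 1))
    (hT0 : ∀ t ∈ Ico (0:ℝ) 1, 0 ≤ T t) (hTS : ∀ t ∈ Ico (0:ℝ) 1, T t < S t)
    (hS1 : ∀ t ∈ Ico (0:ℝ) 1, S t ≤ 1)
    (hE : IntervalIntegrable (fun t => 1 / (P.D t) ^ 2) volume 0 1)
    (hVI : VI κ (fun t => (α * T t - 1) / (P.D t) ^ 2) P)
    (hR2 : ∀ t ∈ Ico (0:ℝ) 1,
      S t / P.D t = S 0 / P.D 0 + ∫ s in (0:ℝ)..t, P.m s * T s / (P.D s) ^ 2)
    {t0 : ℝ} (ht0 : t0 < 1)
    (hQC : ∀ a b, t0 ≤ a → 0 ≤ a → a < b → b < 1 → (∀ t ∈ Icc a b, P.m t = P.m a) →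
      ∀ x y z, a ≤ x → x ≤ y → y ≤ z → z ≤ b → T y ≤ max (T x) (T z)) :
    ∃ t1 c0, t0 ≤ t1 ∧ 0 < t1 ∧ t1 < 1 ∧ 0 < c0 ∧ (∀ t ∈ Ico t1 1, α * T t = 1) ∧
      ∀ t ∈ Ico t1 1, S t - T t = c0 * P.D t := by
  obtain ⟨t1, h1, h2, h3, h4⟩ := tip hα P T hd hpos hT ⟨1, fun t ht => by
    rw [abs_of_nonneg (hT0 t ht)]
    exact (hTS t ht).le.trans (hS1 t ht)⟩ hE hVI ht0 hQC
  have h5 : 0 < P.D t1 := hpos t1 ⟨h2.le, h3⟩
  refine ⟨t1, (S t1 - T t1) / P.D t1, h1, h2, h3, ?_, h4, ?_⟩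
  · apply div_pos _ h5
    have := hTS t1 ⟨h2.le, h3⟩
    linarith
  · intro t ht
    have h6 : P.D t ≠ 0 := (hpos t ⟨h2.le.trans ht.1, ht.2⟩).ne'
    rw [← tip_charge hα P S T hpos h2 h3 h4 hT hR2 ht]
    field_simp

/-- summary: the tip of the profile for `d = 0`, with `T ≤ S` (not strict): `c0 ≥ 0`. -/
theorem tip_full_le {α κ : ℝ} (hα : 0 < α) (P : Prof) (S T : ℝ → ℝ) (hd : P.d = 0)
    (hpos : ∀ t ∈ Ico (0:ℝ) 1, 0 < P.D t) (hT : ContinuousOn T (Ico 0 1))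
    (hT0 : ∀ t ∈ Ico (0:ℝ) 1, 0 ≤ T t) (hTS : ∀ t ∈ Ico (0:ℝ) 1, T t ≤ S t)
    (hS1 : ∀ t ∈ Ico (0:ℝ) 1, S t ≤ 1)
    (hE : IntervalIntegrable (fun t => 1 / (P.D t) ^ 2) volume 0 1)
    (hVI : VI κ (fun t => (α * T t - 1) / (P.D t) ^ 2) P)
    (hR2 : ∀ t ∈ Ico (0:ℝ) 1,
      S t / P.D t = S 0 / P.D 0 + ∫ s in (0:ℝ)..t, P.m s * T s / (P.D s) ^ 2)
    {t0 : ℝ} (ht0 : t0 < 1)
    (hQC : ∀ a b, t0 ≤ a → 0 ≤ a → a < b → b < 1 → (∀ t ∈ Icc a b, P.m t = P.m a) →
      ∀ x y z, a ≤ x → x ≤ y → y ≤ z → z ≤ b → T y ≤ max (T x) (T z)) :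
    ∃ t1 c0, t0 ≤ t1 ∧ 0 < t1 ∧ t1 < 1 ∧ 0 ≤ c0 ∧ (∀ t ∈ Ico t1 1, α * T t = 1) ∧
      ∀ t ∈ Ico t1 1, S t - T t = c0 * P.D t := by
  obtain ⟨t1, h1, h2, h3, h4⟩ := tip hα P T hd hpos hT ⟨1, fun t ht => by
    rw [abs_of_nonneg (hT0 t ht)]
    exact (hTS t ht).trans (hS1 t ht)⟩ hE hVI ht0 hQC
  have h5 : 0 < P.D t1 := hpos t1 ⟨h2.le, h3⟩
  refine ⟨t1, (S t1 - T t1) / P.D t1, h1, h2, h3, ?_, h4, ?_⟩
  · apply div_nonneg _ h5.le
    have := hTS t1 ⟨h2.le, h3⟩
    linarith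
  · intro t ht
    have h6 : P.D t ≠ 0 := (hpos t ⟨h2.le.trans ht.1, ht.2⟩).ne'
    rw [← tip_charge hα P S T hpos h2 h3 h4 hT hR2 ht]
    field_simp

end Crest.Agent.R146.PtScalB_45
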