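import Crest.Agent.R146.PtTip_164
import Crest.Agent.R146.Stat7_307

/-! Row 146: the Prop `STAT` of `PtTip_164` from helper307's `exists_spair` (helper524). -/

set_option autoImplicit false

namespace Crest.Agent.R146.PtStat_524

open Crest.Agent.R146.PtTip_164

theorem stat : STAT := by
  intro c hc
  unfold Wt at hc
  exact Stat7_307.exists_spair (by have := hc.1; norm_num at this ⊢; linarith)
    (by have := hc.2; norm_num at this ⊢; linarith)

end Crest.Agent.R146.PtStat_524
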