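import Crest.Agent.R146.PtTip_164
import Crest.Agent.R146.YtoD_385
import Crest.Agent.R146.Stat7_307

/-!
Row 146: ASSEMBLY OF PT, route E2 (helper164).  `T12`, `STAT`, the digits and the logarithmic limit are
proved here from landed files; what remains is

`ptmain2 : T1 → T2 → REF → CC0 → T3 → PTMAIN`.

`T3` (helper307, Stat8): closure value `Cval = c` implies `λ = c` for a stationary pair.
-/

set_option autoImplicit false

namespace Crest.Agent.R146.PtTip2_164

open MeasureTheory Set Filter Topology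
open Crest.Agent.R146.TipSeq_791 Crest.Agent.R146.SPair_307 Crest.Agent.R146.PtTip_164
open Crest.Agent.R146.StepApx_856
open Crest.Agent.R146.PtScalA_45 (Prof)
open Crest.Agent.R146.YtoD_385 (Clk EssLim)

noncomputable section

/-- the clock data of the limit profile -/
theorem clk {P : Prof} (hP : TipSeq P) : Clk P.D (Ks P.D) P.m 0 where
  lt := one_pos
  m_int := P.int
  D_eq := by
    intro t _
    unfold Prof.D
    simp
  D_pos := hP.seq.pos
  E_int := hP.seq.int1
  K_eq := fun t _ => rfl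

theorem D_one {P : Prof} (hP : TipSeq P) : P.D 1 = 0 := by
  unfold Prof.D
  simp [hP.seq.d0]

theorem nu_le_one {P : Prof} (hP : TipSeq P) {t : ℝ} (ht : t ∈ Ico (0 : ℝ) 1) :
    (1 - t) * P.m t ≤ P.D t :=
  (clk hP).nu_le_one P.mono (D_one hP).ge ht

/-- the old clock window `[0, 1]` -/
theorem win01 {P : Prof} (hP : TipSeq P) : Win P 0 0 1 := by
  intro ε hε
  refine ⟨0, one_pos, le_rfl, fun t ht => ?_⟩
  have hD := hP.seq.pos t ht
  have hm := P.nonneg t ht
  have h1 := nu_le_one hP ht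
  have e : Ystar P 0 t = (1 - t) * P.m t / P.D t := by simp [Ystar]
  rw [e]
  constructor
  · have : 0 ≤ (1 - t) * P.m t / P.D t :=
      div_nonneg (mul_nonneg (by linarith [ht.2]) hm) hD.le
    linarith
  · rw [div_le_iff₀ hD]
    nlinarith

/-- **change of clock, upper side**: `limsup ν ≤ h < 1` gives `limsup Y ≤ h/(1-h)` -/
theorem clock_up {P : Prof} (hP : TipSeq P) {h H : ℝ} (hh : h < 1)
    (hH : h / (1 - h) < H) (hw : Win P 0 0 h) : Win P 1 0 H := by
  intro ε hε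
  -- choose `b` slightly larger than `h`
  have h1h : 0 < 1 - h := by linarith
  have hlim : Tendsto (fun b : ℝ => b / (1 - b)) (𝓝[>] h) (𝓝 (h / (1 - h))) := by
    have : ContinuousAt (fun b : ℝ => b / (1 - b)) h :=
      continuousAt_id.div (continuousAt_const.sub continuousAt_id) h1h.ne'
    exact this.tendsto.mono_left nhdsWithin_le_nhds
  have hev : ∀ᶠ b in 𝓝[>] h, b / (1 - b) < H ∧ b < 1 ∧ h < b := by
    refine (hlim.eventually_lt_const hH).and ?_
    refine (Eventually.and ?_ ?_)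
    · exact nhdsWithin_le_nhds (Iio_mem_nhds hh)
    · exact self_mem_nhdsWithin
  obtain ⟨b, hb1, hb2, hb3⟩ := hev.exists
  obtain ⟨ta, hta, hta0, hta1⟩ := hw (b - h) (by linarith)
  refine ⟨ta, hta, hta0, fun t ht => ?_⟩
  have ht0 : t ∈ Ico (0 : ℝ) 1 := ⟨hta0.trans ht.1, ht.2⟩
  have hD := hP.seq.pos t ht0
  have hm := P.nonneg t ht0
  have hK := (clk hP).K_pos ht0
  have e : Ystar P 1 t = P.m t * Ks P.D t := by simp [Ystar]
  rw [e]
  have h1b : 0 < 1 - b := by linarith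
  have key := (clk hP).chi_le_of_nu hb2 ht0 (by
    refine (ae_restrict_iff' measurableSet_Ioo).2 (Eventually.of_forall fun s hs => ?_)
    have hs1 : s ∈ Ico ta 1 := ⟨ht.1.trans hs.1.le, hs.2⟩
    have hs0 : s ∈ Ico (0 : ℝ) 1 := ⟨hta0.trans hs1.1, hs.2⟩
    have h2 := (hta1 s hs1).2
    have e2 : Ystar P 0 s = (1 - s) * P.m s / P.D s := by simp [Ystar]
    rw [e2, div_le_iff₀ (hP.seq.pos s hs0)] at h2
    linarith)
  have h3 := (hta1 t ⟨ht.1, ht.2⟩).2
  have e3 : Ystar P 0 t = (1 - t) * P.m t / P.D t := by simp [Ystar]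
  rw [e3, div_le_iff₀ hD] at h3
  constructor
  · have : 0 ≤ P.m t * Ks P.D t := mul_nonneg hm hK.le
    linarith
  · -- `m K (1-b) D ≤ m (1-t) ≤ b D`
    have h4 : P.m t * ((1 - b) * (P.D t * Ks P.D t)) ≤ P.m t * (1 - t) :=
      mul_le_mul_of_nonneg_left key hm
    have h5 : P.m t * Ks P.D t * (1 - b) * P.D t ≤ b * P.D t := by nlinarith
    have h6 : P.m t * Ks P.D t * (1 - b) ≤ b := le_of_mul_le_mul_right h5 hD
    have h7 : P.m t * Ks P.D t ≤ b / (1 - b) := by rw [le_div_iff₀ h1b]; exact h6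
    linarith

theorem t12 : T12 := fun P hP hw => clock_up hP (by norm_num) (by norm_num) hw

theorem stat : STAT := by
  intro c hc
  obtain ⟨h1, h2⟩ := hc
  exact Stat7_307.exists_spair (c := c) (by linarith) (by linarith)

/-- (T3): closure value `= c` implies `λ = c` -/
def T3 : Prop := ∀ c ∈ Wt, ∀ (W V I k : ℝ → ℝ) (lam : ℝ), SPair c W V I k lam →
  Cval V I k = c → lam = c

/-- **convergence and fixed point** -/
theorem conv2 {P : Prof} (hP : TipSeq P) (w0 : Win P 1 0 hiA) (hR : REF) (hC : CC0) :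
    ∃ Yoo ∈ Wt, Tendsto (Ystar P 1) (𝓝[<] 1) (𝓝 Yoo) ∧
      ∃ (W V I k : ℝ → ℝ) (lam : ℝ), SPair Yoo W V I k lam ∧ Cval V I k = Yoo := by
  classical
  have hS : STAT := stat
  choose W V I k lam hp using hS
  let C : ℝ → ℝ := fun c => if hc : c ∈ Wt then Cval (V c hc) (I c hc) (k c hc) else 0
  have hcz : cz ∈ Wt := by unfold cz Wt; constructor <;> norm_num
  have key := PtLogic_164.conv_of_ref (Y := Ystar P 1) (l := 𝓝[<] 1) (C := C) (g := gz)
    (ρ := 1 / 1000) (c0 := cz) (cl := 4107 / 10000) (cu := 4207 / 10000) (hi0 := hiA) (dmax := cz)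
    (by unfold gz; norm_num) ((win_iff P 1 0 hiA).1 w0) le_rfl
    (by unfold hiA cz; norm_num) hcz ?_ (by unfold cz gz; norm_num) (by unfold cz gz; norm_num)
    (by unfold cz; norm_num) ?_
  · obtain ⟨Yoo, hY, hT, hCY⟩ := key
    have hY' : Yoo ∈ Wt := hY
    have h3 : C Yoo = Cval (V Yoo hY') (I Yoo hY') (k Yoo hY') := dif_pos hY'
    exact ⟨Yoo, hY, hT, _, _, _, _, _, hp Yoo hY', h3 ▸ hCY⟩
  · have h3 : C cz = Cval (V cz hcz) (I cz hcz) (k cz hcz) := dif_pos hcz
    rw [h3]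
    exact hC _ _ _ _ _ (hp cz hcz)
  · intro c hc δ hδ hδm hw
    have hc' : c ∈ Wt := hc
    have h3 : C c = Cval (V c hc') (I c hc') (k c hc') := dif_pos hc'
    rw [h3]
    exact (win_iff P 1 _ _).1 (hR P hP c hc' _ _ _ _ _ (hp c hc') δ hδ hδm ((win_iff P 1 _ _).2 hw))

/-- **PTMAIN from the window `[0, .70]`, `REF`, `CC0`, `T3`.** -/
theorem ptmain_of_win (hw : ∀ P : Prof, TipSeq P → Win P 1 0 hiA) (hR : REF) (hC : CC0) (h3 : T3) :
    PTMAIN := by
  intro P hP
  obtain ⟨Yoo, hY, hT, W, V, I, k, lam, hp, hCv⟩ := conv2 hP (hw P hP) hR hC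
  have hl : lam = Yoo := h3 Yoo hY W V I k lam hp hCv
  subst hl
  have hdig := Stat7_307.enclosure_of_closure hp
  have hT' : Tendsto (fun t => P.m t * Ks P.D t) (𝓝[<] 1) (𝓝 lam) := by
    refine hT.congr fun t => ?_
    simp [Ystar]
  have hlog := (clk hP).logD_logtau (y := lam) (by linarith [hp.c_pos]) (EssLim.of_tendsto hT')
  exact ⟨lam / (1 + lam), hlog, hdig.1, hdig.2⟩

/-- any pair of numbers `h` (old clock) and `H > h/(1-h)` (new clock) -/
theorem ptmain_of {h H : ℝ} (hh : h < 1) (hH : h / (1 - h) < H)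
    (h1 : ∀ P : Prof, TipSeq P → Win P 0 0 1 → Win P 0 0 h)
    (h2 : ∀ P : Prof, TipSeq P → Win P 1 0 H → Win P 1 0 hiA) (hR : REF) (hC : CC0) (h3 : T3) :
    PTMAIN :=
  ptmain_of_win (fun P hP => h2 P hP (clock_up hP hh hH (h1 P hP (win01 hP)))) hR hC h3

/-- **PTMAIN from `T1`, `T2`, `REF`, `CC0`, `T3`.** -/
theorem ptmain2 (h1 : T1) (h2 : T2) (hR : REF) (hC : CC0) (h3 : T3) : PTMAIN :=
  ptmain_of_win (fun P hP => h2 P hP (t12 P hP (h1 P hP))) hR hC h3

end

end Crest.Agent.R146.PtTip2_164
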