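import Crest.Agent.R146.TipSeq_791
import Crest.Agent.R146.SPair_307
import Crest.Agent.R146.PtLogic_164

/-!
Row 146: ASSEMBLY OF PT (helper164), PT-SPEC v1.1 (posts 1064 + 1079).

Props (each to be proved by its owner; all are statements about `TipSeq P` of helper791 only):
* `T1`   : old clock window  `limsup ν ≤ .52`;
* `T12`  : change of clock (pure real variable);
* `T2`   : new clock, one-sided window A: `Y ≤ .70`;
* `STAT` : existence of the stationary pair at every `c ∈ [.4107, .4207]` (helper307);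
* `REF`  : the contraction towards the stationary reference, all radii `≤ .4157`;
* `CC0`  : `|C(.4157) - .4157| ≤ .001`;
* `END`  : from `Y* → Y∞` to the digits and the logarithmic limit.

`ptmain : T1 → T12 → T2 → STAT → REF → CC0 → END → PTMAIN`.
-/

set_option autoImplicit false

namespace Crest.Agent.R146.PtTip_164

open MeasureTheory Set Filter Topology
open Crest.Agent.R146.TipSeq_791 Crest.Agent.R146.SPair_307
open Crest.Agent.R146.PtScalA_45 (Prof)

noncomputable section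

/-! ### constants -/

/-- centre of the reference interval -/
def cz : ℝ := 4157 / 10000
/-- reference interval `Wt = [.4107, .4207]` -/
def Wt : Set ℝ := Icc (4107 / 10000) (4207 / 10000)
/-- contraction rate (true value `≤ .66`) -/
def gz : ℝ := 4 / 5
/-- upper end of window A -/
def hiA : ℝ := 7 / 10

/-- closure value of a stationary pair: `∫ q I² / (2 ∫ q V R²)`, `q = exp(-∫_0^x k)` -/
def Cval (V I k : ℝ → ℝ) : ℝ :=
  (∫ x, Real.exp (-∫ y in (0 : ℝ)..x, k y) * I x ^ 2) /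
    (2 * ∫ x, Real.exp (-∫ y in (0 : ℝ)..x, k y) * (V x * (1 - V x) ^ 2))

/-! ### the Props -/

/-- (T1) old clock: `limsup (1-t) m/D ≤ .52` -/
def T1 : Prop := ∀ P : Prof, TipSeq P → Win P 0 0 (13 / 25)

/-- (T12) change of clock -/
def T12 : Prop := ∀ P : Prof, TipSeq P → Win P 0 0 (13 / 25) → Win P 1 0 (109 / 100)

/-- (T2) window A -/
def T2 : Prop := ∀ P : Prof, TipSeq P → Win P 1 0 (109 / 100) → Win P 1 0 hiA

/-- (STAT) -/
def STAT : Prop := ∀ c ∈ Wt, ∃ (W V I k : ℝ → ℝ) (lam : ℝ), SPair c W V I k lam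

/-- (REF) at one pair -/
def REFat (P : Prof) (c : ℝ) (V I k : ℝ → ℝ) : Prop :=
  ∀ δ : ℝ, 0 < δ → δ ≤ cz → Win P 1 (max 0 (c - δ)) (min hiA (c + δ)) →
    Win P 1 (Cval V I k - gz * δ) (Cval V I k + gz * δ)

/-- (REF) -/
def REF : Prop := ∀ P : Prof, TipSeq P → ∀ c ∈ Wt, ∀ (W V I k : ℝ → ℝ) (lam : ℝ),
  SPair c W V I k lam → REFat P c V I k

/-- (CC0) the closure value at the centre -/
def CC0 : Prop := ∀ (W V I k : ℝ → ℝ) (lam : ℝ), SPair cz W V I k lam →
  |Cval V I k - cz| ≤ 1 / 1000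

/-- (END) -/
def END : Prop := ∀ P : Prof, TipSeq P → ∀ Yoo ∈ Wt, Tendsto (Ystar P 1) (𝓝[<] 1) (𝓝 Yoo) → OUT P

/-! ### windows as filters -/

theorem win_iff (P : Prof) (a : Fin 2) (lo hi : ℝ) :
    Win P a lo hi ↔ PtLogic_164.Win (Ystar P a) (𝓝[<] 1) lo hi := by
  constructor
  · intro h ε hε
    obtain ⟨ta, h1, h0, h2⟩ := h ε hε
    filter_upwards [Ico_mem_nhdsLT h1] with t ht
    exact h2 t ht
  · intro h ε hε
    have h1 := h ε hε
    obtain ⟨ta, h2, h3⟩ := (mem_nhdsLT_iff_exists_Ioo_subset (a := (1 : ℝ))).1 h1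
    have h2' : ta < 1 := h2
    refine ⟨max ((ta + 1) / 2) 0, ?_, le_max_right _ _, fun t ht => h3 ⟨?_, ht.2⟩⟩
    · exact max_lt (by linarith) one_pos
    · have := le_max_left ((ta + 1) / 2) (0 : ℝ)
      linarith [ht.1]

/-! ### the assembly -/

/-- convergence of `Y*` -/
theorem conv {P : Prof} (hP : TipSeq P) (h1 : T1) (h12 : T12) (h2 : T2) (hS : STAT) (hR : REF)
    (hC : CC0) : ∃ Yoo ∈ Wt, Tendsto (Ystar P 1) (𝓝[<] 1) (𝓝 Yoo) := by
  classical
  have w0 : Win P 1 0 hiA := h2 P hP (h12 P hP (h1 P hP))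
  choose W V I k lam hp using hS
  let C : ℝ → ℝ := fun c => if hc : c ∈ Wt then Cval (V c hc) (I c hc) (k c hc) else 0
  have hcz : cz ∈ Wt := by unfold cz Wt; constructor <;> norm_num
  have key := PtLogic_164.conv_of_ref (Y := Ystar P 1) (l := 𝓝[<] 1) (C := C) (g := gz)
    (ρ := 1 / 1000) (c0 := cz) (cl := 4107 / 10000) (cu := 4207 / 10000) (hi0 := hiA) (dmax := cz)
    (by unfold gz; norm_num) ((win_iff P 1 0 hiA).1 w0) le_rfl
    (by unfold hiA cz; norm_num) hcz ?_ (by unfold cz gz; norm_num) (by unfold cz gz; norm_num)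
    (by unfold cz; norm_num) ?_
  · obtain ⟨Yoo, hY, hT, -⟩ := key
    exact ⟨Yoo, hY, hT⟩
  · have h3 : C cz = Cval (V cz hcz) (I cz hcz) (k cz hcz) := dif_pos hcz
    rw [h3]
    exact hC _ _ _ _ _ (hp cz hcz)
  · intro c hc δ hδ hδm hw
    have hc' : c ∈ Wt := hc
    have h3 : C c = Cval (V c hc') (I c hc') (k c hc') := dif_pos hc'
    rw [h3]
    exact (win_iff P 1 _ _).1 (hR P hP c hc' _ _ _ _ _ (hp c hc') δ hδ hδm ((win_iff P 1 _ _).2 hw))

/-- **PTMAIN from the Props.** -/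
theorem ptmain (h1 : T1) (h12 : T12) (h2 : T2) (hS : STAT) (hR : REF) (hC : CC0) (hE : END) :
    PTMAIN := by
  intro P hP
  obtain ⟨Yoo, hY, hT⟩ := conv hP h1 h12 h2 hS hR hC
  exact hE P hP Yoo hY hT

end

end Crest.Agent.R146.PtTip_164
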