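import Crest.Agent.R146.PtS5_489
import Crest.Agent.R146.StepApx_856

/-!
Row 146, package PT, task 73 (helper489): LIMIT STEP OF A WINDOW.

* `Qs_sq_le`  : `Q² ≤ Z` (Cauchy–Schwarz) at step level;
* `winlim_le`, `winlim_ge` : if `T` is constant and `Q > 0` near `1` in the limit and
  `chi_n N_n ≤ 2 y Z_n + o(1)` for every fixed `t` (uniformly on `[ta,q]`, all `q < 1`) then
  `P.m * chi / P.D ≤ y` on `(ta,1)`.  Corollaries for the clocks `chi = D K0` and `chi = 1 - t`.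
-/

set_option autoImplicit false

namespace Crest.Agent.R146.PtWinLim_489

open Set MeasureTheory Filter Topology
open Crest.Agent.R146.PtS4_489 Crest.Agent.R146.PtS4b_489 Crest.Agent.R146.PtScalA_45
open Crest.Agent.R146.StepDef_791 Crest.Agent.R146.PtS5_489 Crest.Agent.R146.StepApx_856

noncomputable section

/-- Cauchy–Schwarz for a probability density -/
theorem cs_aux {q V : ℝ → ℝ} (hq : ∀ x, 0 ≤ q x) (hqi : Integrable q) (h1 : ∫ x, q x = 1)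
    (hVm : Continuous V) (hV0 : ∀ x, 0 ≤ V x) (hV1 : ∀ x, V x ≤ 1) :
    (∫ x, q x * ((1 - V x) * V x)) ^ 2 ≤ ∫ x, q x * ((1 - V x) ^ 2 * V x) := by
  set Q := ∫ x, q x * ((1 - V x) * V x) with hQ
  have hint : ∀ f : ℝ → ℝ, Continuous f → (∀ x, |f x| ≤ 1) → Integrable (fun x => q x * f x) := by
    intro f hf hb
    refine Integrable.mono' hqi (hqi.aestronglyMeasurable.mul hf.aestronglyMeasurable) ?_
    refine Eventually.of_forall fun x => ?_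
    rw [Real.norm_eq_abs, abs_mul, abs_of_nonneg (hq x)]
    exact mul_le_of_le_one_right (hq x) (hb x)
  have hi1 : Integrable (fun x => q x * ((1 - V x) * V x)) := by
    refine hint _ (by fun_prop) fun x => ?_
    have a1 := hV0 x; have a2 := hV1 x
    rw [abs_of_nonneg (mul_nonneg (by linarith) a1)]
    nlinarith
  have hi2 : Integrable (fun x => q x * ((1 - V x) ^ 2 * V x)) := by
    refine hint _ (by fun_prop) fun x => ?_
    have a1 := hV0 x; have a2 := hV1 x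
    rw [abs_of_nonneg (mul_nonneg (sq_nonneg _) a1)]
    have : (1 - V x) ^ 2 ≤ 1 := by nlinarith
    nlinarith [sq_nonneg (1 - V x)]
  have hi3 : Integrable (fun x => q x * V x) := by
    refine hint _ hVm fun x => ?_
    rw [abs_of_nonneg (hV0 x)]
    exact hV1 x
  have hE : ∫ x, q x * V x ≤ 1 := by
    rw [← h1]
    refine integral_mono hi3 hqi fun x => ?_
    exact mul_le_of_le_one_right (hq x) (hV1 x)
  have hpos : 0 ≤ ∫ x, q x * (V x * ((1 - V x) - Q) ^ 2) :=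
    integral_nonneg fun x => mul_nonneg (hq x) (mul_nonneg (hV0 x) (sq_nonneg _))
  have he : ∫ x, q x * (V x * ((1 - V x) - Q) ^ 2) =
      (∫ x, q x * ((1 - V x) ^ 2 * V x)) - 2 * Q * Q + Q ^ 2 * ∫ x, q x * V x := by
    have : ∀ x, q x * (V x * ((1 - V x) - Q) ^ 2) =
        q x * ((1 - V x) ^ 2 * V x) - 2 * Q * (q x * ((1 - V x) * V x)) + Q ^ 2 * (q x * V x) := by
      intro x; ring
    have hi1' := hi1.const_mul (2 * Q)
    have hi3' := hi3.const_mul (Q ^ 2)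
    have hi21 : Integrable (fun x => q x * ((1 - V x) ^ 2 * V x) -
        2 * Q * (q x * ((1 - V x) * V x))) := hi2.sub hi1'
    rw [integral_congr_ae (Eventually.of_forall this), integral_add hi21 hi3',
      integral_sub hi2 hi1', integral_const_mul, integral_const_mul, ← hQ]
  rw [he] at hpos
  nlinarith [mul_le_mul_of_nonneg_left hE (sq_nonneg Q)]

variable {A : SD} {x0 : ℝ} {p Y Yx Yxx : ℝ → ℝ → ℝ}

theorem V_cont (hB : Back A) {t : ℝ} (ht : t ∈ Icc 0 A.T) : Continuous (A.V t) :=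
  continuous_iff_continuousAt.2 fun x => (hB.V_x t ht x).continuousAt

theorem p_int (hL : Law A x0 p Y Yx Yxx) {t : ℝ} (ht : t ∈ Ioc 0 A.T) : Integrable (p t) := by
  by_contra hc
  have := hL.mass t ht
  rw [integral_undef hc] at this
  exact zero_ne_one this

/-- `Q² ≤ Z` -/
theorem Qs_sq_le (hB : Back A) (hL : Law A x0 p Y Yx Yxx) {t : ℝ} (ht : t ∈ Icc 0 A.T) :
    Qs A x0 p t ^ 2 ≤ Zs A x0 p t := by
  obtain ⟨M, hM⟩ := hB.bsys
  have h0 := fun x => (hM.V_pos t ht x).le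
  have h1 := fun x => (hM.V_lt t ht x).le
  unfold Qs Zs ex
  split_ifs with hc
  · have a1 := h0 x0; have a2 := h1 x0
    have : ((1 - A.V t x0) * A.V t x0) ^ 2 = (1 - A.V t x0) ^ 2 * A.V t x0 * A.V t x0 := by ring
    rw [this]
    exact mul_le_of_le_one_right (mul_nonneg (sq_nonneg _) a1) a2
  · have ht' : t ∈ Ioc 0 A.T := ⟨not_le.1 hc, ht.2⟩
    exact cs_aux (fun x => (hL.p_pos t ht' x).le) (p_int hL ht') (hL.mass t ht') (V_cont hB ht) h0 h1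

variable {P : Prof} {A : ℕ → SD} {x0 : ℝ} {p : ℕ → ℝ → ℝ → ℝ} {L0 C0 : ℝ → ℝ}

/-- data common to the two sides: `T` is constant and `Q > 0` in the limit on `[t1,1)`,
and `χ_n → χ` with `χ_n` bounded below. -/
structure Clk (P : Prof) (A : ℕ → SD) (x0 : ℝ) (p : ℕ → ℝ → ℝ → ℝ) (t1 : ℝ) (Q : ℝ → ℝ)
    (χn : ℕ → ℝ → ℝ) (χ : ℝ → ℝ) : Prop where
  t1_nonneg : 0 ≤ t1
  /-- `T` is constant on `[t1,1)` in the limit -/
  hT : ∀ x ∈ Ico t1 1, ∀ y ∈ Ico t1 1,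
    Tendsto (fun n => Ts (A n) x0 (p n) y - Ts (A n) x0 (p n) x) atTop (𝓝 0)
  hQ : ∀ q ∈ Ioo (0 : ℝ) 1, TendstoUniformlyOn (fun n => Qs (A n) x0 (p n)) Q atTop (Icc 0 q)
  Q_cont : ContinuousOn Q (Ico t1 1)
  Q_pos : ∀ t ∈ Ico t1 1, 0 < Q t
  QZ : ∀ n, ∀ t ∈ Icc 0 (A n).T, Qs (A n) x0 (p n) t ^ 2 ≤ Zs (A n) x0 (p n) t
  meas : ∀ n, Measurable (χn n)
  pos : ∀ q ∈ Ioo t1 1, ∃ c : ℝ, 0 < c ∧ ∀ᶠ n in atTop, ∀ t ∈ Icc t1 q, c ≤ χn n t
  lim : ∀ t ∈ Ico t1 1, Tendsto (fun n => χn n t) atTop (𝓝 (χ t))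
  χ_cont : ContinuousOn χ (Ico t1 1)
  χ_pos : ∀ t ∈ Ico t1 1, 0 < χ t

namespace Clk

variable {t1 : ℝ} {Q : ℝ → ℝ} {χn : ℕ → ℝ → ℝ} {χ : ℝ → ℝ}

/-- lower bound of `Z` -/
theorem Z_ge (h : Appr P A x0 p L0 C0) (hc : Clk P A x0 p t1 Q χn χ) {q : ℝ} (hq : q ∈ Ioo t1 1) :
    ∃ z0 : ℝ, 0 < z0 ∧ ∀ᶠ n in atTop, ∀ t ∈ Icc t1 q,
      z0 ≤ Zs (A n) x0 (p n) t ∧ Zs (A n) x0 (p n) t ≤ 1 := by
  have hne : (Icc t1 q).Nonempty := ⟨t1, le_rfl, hq.1.le⟩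
  obtain ⟨s, hs, hmin⟩ := isCompact_Icc.exists_isMinOn hne
    (hc.Q_cont.mono fun x hx => ⟨hx.1, hx.2.trans_lt hq.2⟩)
  have hQs : 0 < Q s := hc.Q_pos s ⟨hs.1, hs.2.trans_lt hq.2⟩
  have hu := hc.hQ q ⟨hc.t1_nonneg.trans_lt hq.1, hq.2⟩
  rw [Metric.tendstoUniformlyOn_iff] at hu
  refine ⟨(Q s / 2) ^ 2, by positivity, ?_⟩
  filter_upwards [hu (Q s / 2) (by positivity), h.T1 q hq.2] with n hn hT t ht
  have ht0 : t ∈ Icc 0 q := ⟨hc.t1_nonneg.trans ht.1, ht.2⟩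
  have htT : t ∈ Icc 0 (A n).T := ⟨ht0.1, ht.2.trans hT.le⟩
  have a1 := hn t ht0
  rw [Real.dist_eq, abs_lt] at a1
  have a2 : Q s ≤ Q t := hmin ht
  have a3 := hc.QZ n t htT
  refine ⟨le_trans ?_ a3, (abs_le.1 (h.Zb n t htT)).2⟩
  exact pow_le_pow_left₀ (by positivity) (by linarith) 2

/-- **limit step, upper side** -/
theorem winlim_le (h : Appr P A x0 p L0 C0) (hpos : ∀ t ∈ Ico (0 : ℝ) 1, 0 < P.D t)
    (hc : Clk P A x0 p t1 Q χn χ) {ta y : ℝ} (hta : t1 ≤ ta)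
    (hK : ∀ q ∈ Ioo ta 1, ∀ ε : ℝ, 0 < ε → ∀ᶠ n in atTop, ∀ t ∈ Ico ta q,
      χn n t * Ns (A n) x0 (p n) t ≤ 2 * y * Zs (A n) x0 (p n) t + ε) :
    ∀ t ∈ Ioo ta 1, P.m t * χ t ≤ y * P.D t := by
  intro t ht
  obtain ⟨q, hq1, hq2⟩ := exists_between ht.2
  have hqI : q ∈ Ioo t1 1 := ⟨(hta.trans_lt ht.1).trans hq1, hq2⟩
  obtain ⟨z0, hz0, hZ⟩ := hc.Z_ge h hqI
  obtain ⟨c, hc0, hcn⟩ := hc.pos q hqI
  have hsub : ∀ s, s ∈ Icc ta q → s ∈ Ico t1 1 := fun s hs =>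
    ⟨hta.trans hs.1, hs.2.trans_lt hq2⟩
  have key := closure_le (P := P) (A := A) (x0 := x0) (p := p) (L0 := L0) (C0 := C0) h hpos
    (p' := ta) (q := q) (z0 := z0) (hc.t1_nonneg.trans hta) (ht.1.trans hq1) hq2 hz0
    (fun x hx z hz => hc.hT x (hsub x hx) z (hsub z hz))
    (βn := fun n t => y * (χn n t)⁻¹) (β := fun t => y * (χ t)⁻¹) ?_ ?_ ?_ ?_ ?_ ?_ t ⟨ht.1, hq1⟩
  · have hχ := hc.χ_pos t ⟨hta.trans ht.1.le, ht.2⟩
    have : P.m t * χ t ≤ y * (χ t)⁻¹ * P.D t * χ t := mul_le_mul_of_nonneg_right key hχ.le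
    calc P.m t * χ t ≤ y * (χ t)⁻¹ * P.D t * χ t := this
      _ = y * P.D t := by field_simp
  · exact Eventually.of_forall fun n =>
      ((hc.meas n).inv.const_mul y).aestronglyMeasurable
  · refine ⟨|y| * c⁻¹, ?_⟩
    filter_upwards [hcn] with n hn s hs
    have a1 := hn s ⟨hta.trans hs.1, hs.2⟩
    rw [abs_mul, abs_of_pos (inv_pos.2 (hc0.trans_le a1))]
    exact mul_le_mul_of_nonneg_left (inv_anti₀ hc0 a1) (abs_nonneg _)
  · refine Eventually.of_forall fun s hs => ?_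
    exact ((hc.lim s (hsub s hs)).inv₀ (hc.χ_pos s (hsub s hs)).ne').const_mul y
  · exact continuousOn_const.mul ((hc.χ_cont.mono hsub).inv₀ fun s hs => (hc.χ_pos s (hsub s hs)).ne')
  · filter_upwards [hZ] with n hn s hs
    exact hn s ⟨hta.trans hs.1, hs.2⟩
  · intro ε hε
    filter_upwards [hK q ⟨ht.1.trans hq1, hq2⟩ (c * ε) (by positivity), hcn] with n hn hcn s hs
    have a1 := hn s hs
    have a2 := hcn s ⟨hta.trans hs.1, hs.2.le⟩
    have a3 : 0 < χn n s := hc0.trans_le a2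
    have a4 : c * ε ≤ χn n s * ε := mul_le_mul_of_nonneg_right a2 hε.le
    have a5 : χn n s * Ns (A n) x0 (p n) s ≤
        χn n s * (2 * (y * (χn n s)⁻¹) * Zs (A n) x0 (p n) s + ε) := by
      have : χn n s * (2 * (y * (χn n s)⁻¹) * Zs (A n) x0 (p n) s + ε) =
          2 * y * Zs (A n) x0 (p n) s + χn n s * ε := by
        field_simp
      rw [this]
      linarith
    exact le_of_mul_le_mul_left a5 a3

/-- **limit step, lower side** -/
theorem winlim_ge (h : Appr P A x0 p L0 C0) (hpos : ∀ t ∈ Ico (0 : ℝ) 1, 0 < P.D t)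
    (hc : Clk P A x0 p t1 Q χn χ) {ta y : ℝ} (hta : t1 ≤ ta)
    (hK : ∀ q ∈ Ioo ta 1, ∀ ε : ℝ, 0 < ε → ∀ᶠ n in atTop, ∀ t ∈ Ico ta q,
      2 * y * Zs (A n) x0 (p n) t - ε ≤ χn n t * Ns (A n) x0 (p n) t) :
    ∀ t ∈ Ioo ta 1, y * P.D t ≤ P.m t * χ t := by
  intro t ht
  obtain ⟨q, hq1, hq2⟩ := exists_between ht.2
  have hqI : q ∈ Ioo t1 1 := ⟨(hta.trans_lt ht.1).trans hq1, hq2⟩
  obtain ⟨z0, hz0, hZ⟩ := hc.Z_ge h hqI
  obtain ⟨c, hc0, hcn⟩ := hc.pos q hqI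
  have hsub : ∀ s, s ∈ Icc ta q → s ∈ Ico t1 1 := fun s hs =>
    ⟨hta.trans hs.1, hs.2.trans_lt hq2⟩
  have key := closure_ge (P := P) (A := A) (x0 := x0) (p := p) (L0 := L0) (C0 := C0) h hpos
    (p' := ta) (q := q) (z0 := z0) (hc.t1_nonneg.trans hta) (ht.1.trans hq1) hq2 hz0
    (fun x hx z hz => hc.hT x (hsub x hx) z (hsub z hz))
    (βn := fun n t => y * (χn n t)⁻¹) (β := fun t => y * (χ t)⁻¹) ?_ ?_ ?_ ?_ ?_ ?_ t ⟨ht.1, hq1⟩
  · have hχ := hc.χ_pos t ⟨hta.trans ht.1.le, ht.2⟩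
    have : y * (χ t)⁻¹ * P.D t * χ t ≤ P.m t * χ t := mul_le_mul_of_nonneg_right key hχ.le
    calc y * P.D t = y * (χ t)⁻¹ * P.D t * χ t := by field_simp
      _ ≤ P.m t * χ t := this
  · exact Eventually.of_forall fun n =>
      ((hc.meas n).inv.const_mul y).aestronglyMeasurable
  · refine ⟨|y| * c⁻¹, ?_⟩
    filter_upwards [hcn] with n hn s hs
    have a1 := hn s ⟨hta.trans hs.1, hs.2⟩
    rw [abs_mul, abs_of_pos (inv_pos.2 (hc0.trans_le a1))]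
    exact mul_le_mul_of_nonneg_left (inv_anti₀ hc0 a1) (abs_nonneg _)
  · refine Eventually.of_forall fun s hs => ?_
    exact ((hc.lim s (hsub s hs)).inv₀ (hc.χ_pos s (hsub s hs)).ne').const_mul y
  · exact continuousOn_const.mul ((hc.χ_cont.mono hsub).inv₀ fun s hs => (hc.χ_pos s (hsub s hs)).ne')
  · filter_upwards [hZ] with n hn s hs
    exact hn s ⟨hta.trans hs.1, hs.2⟩
  · intro ε hε
    filter_upwards [hK q ⟨ht.1.trans hq1, hq2⟩ (c * ε) (by positivity), hcn] with n hn hcn s hs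
    have a1 := hn s hs
    have a2 := hcn s ⟨hta.trans hs.1, hs.2.le⟩
    have a3 : 0 < χn n s := hc0.trans_le a2
    have a4 : c * ε ≤ χn n s * ε := mul_le_mul_of_nonneg_right a2 hε.le
    have a5 : χn n s * (2 * (y * (χn n s)⁻¹) * Zs (A n) x0 (p n) s - ε) ≤
        χn n s * Ns (A n) x0 (p n) s := by
      have : χn n s * (2 * (y * (χn n s)⁻¹) * Zs (A n) x0 (p n) s - ε) =
          2 * y * Zs (A n) x0 (p n) s - χn n s * ε := by
        field_simp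
      rw [this]
      linarith
    exact le_of_mul_le_mul_left a5 a3

end Clk

/-! ### The two clocks -/

/-- scalar limits near the tip (independent of the clock) -/
structure Base (P : Prof) (A : ℕ → SD) (x0 : ℝ) (p : ℕ → ℝ → ℝ → ℝ) (t1 : ℝ) (Q : ℝ → ℝ) :
    Prop where
  t1_nonneg : 0 ≤ t1
  hT : ∀ x ∈ Ico t1 1, ∀ y ∈ Ico t1 1,
    Tendsto (fun n => Ts (A n) x0 (p n) y - Ts (A n) x0 (p n) x) atTop (𝓝 0)
  hQ : ∀ q ∈ Ioo (0 : ℝ) 1, TendstoUniformlyOn (fun n => Qs (A n) x0 (p n)) Q atTop (Icc 0 q)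
  Q_cont : ContinuousOn Q (Ico t1 1)
  Q_pos : ∀ t ∈ Ico t1 1, 0 < Q t
  QZ : ∀ n, ∀ t ∈ Icc 0 (A n).T, Qs (A n) x0 (p n) t ^ 2 ≤ Zs (A n) x0 (p n) t

variable {t1 : ℝ} {Q : ℝ → ℝ}

/-- from the limit functions `T, S` of `Appr.limit` and the conclusion of `PtScalB_45.tip_full` -/
theorem base_of (hB : ∀ n, Back (A n)) {Y Yx Yxx : ℕ → ℝ → ℝ → ℝ}
    (hL : ∀ n, Law (A n) x0 (p n) (Y n) (Yx n) (Yxx n))
    (hpos : ∀ t ∈ Ico (0 : ℝ) 1, 0 < P.D t) {T S : ℝ → ℝ} {c0 α : ℝ} (ht1 : 0 ≤ t1)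
    (hT : ∀ q ∈ Ioo (0 : ℝ) 1, TendstoUniformlyOn (fun n => Ts (A n) x0 (p n)) T atTop (Icc 0 q))
    (hS : ∀ q ∈ Ioo (0 : ℝ) 1,
      TendstoUniformlyOn (fun n => Qs (A n) x0 (p n)) (fun t => S t - T t) atTop (Icc 0 q))
    (hα : ∀ t ∈ Ico t1 1, α * T t = 1) (hc0 : 0 < c0)
    (hST : ∀ t ∈ Ico t1 1, S t - T t = c0 * P.D t) :
    Base P A x0 p t1 (fun t => S t - T t) where
  t1_nonneg := ht1
  hT := by
    intro x hx y hy
    have hα0 : α ≠ 0 := by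
      rintro rfl
      have := hα x hx
      simp at this
    have he : T y - T x = 0 := by
      have a1 := hα x hx
      have a2 := hα y hy
      have : α * (T y - T x) = 0 := by rw [mul_sub, a1, a2, sub_self]
      rcases mul_eq_zero.1 this with h | h
      · exact absurd h hα0
      · exact h
    obtain ⟨q, hq1, hq2⟩ := exists_between (max_lt hx.2 hy.2)
    have hq0 : 0 < q := (ht1.trans hx.1).trans_lt ((le_max_left _ _).trans_lt hq1)
    have l1 := (hT q ⟨hq0, hq2⟩).tendsto_at (x := x)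
      ⟨ht1.trans hx.1, ((le_max_left _ _).trans_lt hq1).le⟩
    have l2 := (hT q ⟨hq0, hq2⟩).tendsto_at (x := y)
      ⟨ht1.trans hy.1, ((le_max_right _ _).trans_lt hq1).le⟩
    have := l2.sub l1
    rwa [he] at this
  hQ := hS
  Q_cont := by
    have h1 : ContinuousOn (fun t => c0 * P.D t) (Ico t1 1) :=
      continuousOn_const.mul ((D_contOn P).mono fun x hx => ⟨ht1.trans hx.1, hx.2.le⟩)
    exact h1.congr fun t ht => hST t ht
  Q_pos := by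
    intro t ht
    rw [hST t ht]
    exact mul_pos hc0 (hpos t ⟨ht1.trans ht.1, ht.2⟩)
  QZ := fun n t ht => Qs_sq_le (hB n) (hL n) ht

theorem K0_cont {A : SD} (h : Clock A) : Continuous A.K0 := by
  have h1 : Continuous A.E := E_cont h
  have h2 : Continuous fun t => ∫ s in (1 : ℝ)..t, A.E s :=
    intervalIntegral.continuous_primitive (fun a b => h1.intervalIntegrable a b) 1
  have h3 : A.K0 = fun t => -∫ s in (1 : ℝ)..t, A.E s := by
    funext t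
    unfold SD.K0
    rw [intervalIntegral.integral_symm]
  rw [h3]
  exact h2.neg

theorem K0_anti {A : SD} (h : Clock A) : Antitone A.K0 := by
  intro a b hab
  have h1 : Continuous A.E := E_cont h
  have h2 : (∫ s in a..b, A.E s) + ∫ s in b..1, A.E s = ∫ s in a..1, A.E s :=
    intervalIntegral.integral_add_adjacent_intervals (h1.intervalIntegrable _ _)
      (h1.intervalIntegrable _ _)
  have h3 : 0 ≤ ∫ s in a..b, A.E s :=
    intervalIntegral.integral_nonneg hab fun s _ => (A.E_pos s).le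
  unfold SD.K0
  linarith

theorem K0_pos {A : SD} (h : Clock A) {t : ℝ} (ht : t < 1) : 0 < A.K0 t := by
  have h1 : Continuous A.E := E_cont h
  exact intervalIntegral.intervalIntegral_pos_of_pos_on (h1.intervalIntegrable _ _)
    (fun s _ => A.E_pos s) ht

/-- the new clock `chi = D K0` -/
theorem clk_new (h : Appr P A x0 p L0 C0) (hpos : ∀ t ∈ Ico (0 : ℝ) 1, 0 < P.D t)
    (hint : IntervalIntegrable (fun x => (P.D x)⁻¹) volume 0 1)
    (hK0 : ∀ t ∈ Ico (0 : ℝ) 1, Tendsto (fun n => (A n).K0 t) atTop (𝓝 (Ks P.D t)))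
    (hb : Base P A x0 p t1 Q) :
    Clk P A x0 p t1 Q (fun n => (A n).chi) (fun t => P.D t * Ks P.D t) where
  t1_nonneg := hb.t1_nonneg
  hT := hb.hT
  hQ := hb.hQ
  Q_cont := hb.Q_cont
  Q_pos := hb.Q_pos
  QZ := hb.QZ
  meas := fun n => ((h.clk n).D_cont.mul (K0_cont (h.clk n))).measurable
  pos := by
    intro q hq
    have hq0 : 0 < q := hb.t1_nonneg.trans_lt hq.1
    have hDq := hpos q ⟨hq0.le, hq.2⟩
    have hKq : 0 < Ks P.D q := by
      unfold Ks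
      refine intervalIntegral.intervalIntegral_pos_of_pos_on (int_sub hint ⟨hq0.le, hq.2.le⟩
        ⟨zero_le_one, le_rfl⟩) (fun s hs => inv_pos.2 (hpos s ⟨hq0.le.trans hs.1.le, hs.2⟩)) hq.2
    have l1 : Tendsto (fun n => (A n).D q * (A n).K0 q) atTop (𝓝 (P.D q * Ks P.D q)) :=
      ((h.DL q ⟨hq0, hq.2⟩).tendsto_at (x := q) ⟨hq0.le, le_rfl⟩).mul (hK0 q ⟨hq0.le, hq.2⟩)
    refine ⟨P.D q * Ks P.D q / 2, by positivity, ?_⟩
    filter_upwards [l1.eventually (lt_mem_nhds (half_lt_self (mul_pos hDq hKq)))] with n hn t ht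
    refine hn.le.trans ?_
    exact mul_le_mul ((h.clk n).D_anti ht.2) (K0_anti (h.clk n) ht.2)
      (K0_pos (h.clk n) hq.2).le ((A n).D_pos t).le
  lim := by
    intro t ht
    have ht0 : 0 ≤ t := hb.t1_nonneg.trans ht.1
    obtain ⟨q, hq1, hq2⟩ := exists_between ht.2
    exact ((h.DL q ⟨ht0.trans_lt hq1, hq2⟩).tendsto_at (x := t) ⟨ht0, hq1.le⟩).mul
      (hK0 t ⟨ht0, ht.2⟩)
  χ_cont := by
    have h1 : ContinuousOn P.D (Ico t1 1) :=
      (D_contOn P).mono fun x hx => ⟨hb.t1_nonneg.trans hx.1, hx.2.le⟩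
    have h2 : ContinuousOn (Ks P.D) (Ico t1 1) := by
      have h3 : ContinuousOn (fun x => ∫ s in (1 : ℝ)..x, (P.D s)⁻¹) (uIcc 1 0) :=
        intervalIntegral.continuousOn_primitive_interval' hint.symm (by simp)
      rw [uIcc_of_ge zero_le_one] at h3
      refine (h3.neg.mono fun x hx => ⟨hb.t1_nonneg.trans hx.1, hx.2.le⟩).congr fun x _ => ?_
      show (∫ s in x..1, (P.D s)⁻¹) = -∫ s in (1 : ℝ)..x, (P.D s)⁻¹
      rw [intervalIntegral.integral_symm]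
    exact h1.mul h2
  χ_pos := by
    intro t ht
    have ht0 : 0 ≤ t := hb.t1_nonneg.trans ht.1
    have hKq : 0 < Ks P.D t := by
      unfold Ks
      refine intervalIntegral.intervalIntegral_pos_of_pos_on (int_sub hint ⟨ht0, ht.2.le⟩
        ⟨zero_le_one, le_rfl⟩) (fun s hs => inv_pos.2 (hpos s ⟨ht0.trans hs.1.le, hs.2⟩)) ht.2
    exact mul_pos (hpos t ⟨ht0, ht.2⟩) hKq

/-- the old clock `chi = 1 - t` -/
theorem clk_old (h : Appr P A x0 p L0 C0) (hb : Base P A x0 p t1 Q) :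
    Clk P A x0 p t1 Q (fun _ t => 1 - t) (fun t => 1 - t) where
  t1_nonneg := hb.t1_nonneg
  hT := hb.hT
  hQ := hb.hQ
  Q_cont := hb.Q_cont
  Q_pos := hb.Q_pos
  QZ := hb.QZ
  meas := fun _ => by fun_prop
  pos := fun q hq => ⟨1 - q, sub_pos.2 hq.2, Eventually.of_forall fun _ t ht => by linarith [ht.2]⟩
  lim := fun _ _ => tendsto_const_nhds
  χ_cont := by fun_prop
  χ_pos := fun t ht => sub_pos.2 ht.2

/-- **new clock, upper window**: `Y* = m K0 ≤ y` -/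
theorem new_le (h : Appr P A x0 p L0 C0) (hpos : ∀ t ∈ Ico (0 : ℝ) 1, 0 < P.D t)
    (hint : IntervalIntegrable (fun x => (P.D x)⁻¹) volume 0 1)
    (hK0 : ∀ t ∈ Ico (0 : ℝ) 1, Tendsto (fun n => (A n).K0 t) atTop (𝓝 (Ks P.D t)))
    (hb : Base P A x0 p t1 Q) {ta y : ℝ} (hta : t1 ≤ ta)
    (hK : ∀ q ∈ Ioo ta 1, ∀ ε : ℝ, 0 < ε → ∀ᶠ n in atTop, ∀ t ∈ Ico ta q,
      (A n).chi t * Ns (A n) x0 (p n) t ≤ 2 * y * Zs (A n) x0 (p n) t + ε) :
    ∀ t ∈ Ioo ta 1, P.m t * Ks P.D t ≤ y := by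
  intro t ht
  have h1 := (clk_new h hpos hint hK0 hb).winlim_le h hpos hta hK t ht
  have h2 := hpos t ⟨hb.t1_nonneg.trans (hta.trans ht.1.le), ht.2⟩
  have h3 : P.D t * (P.m t * Ks P.D t) ≤ P.D t * y := by linarith
  exact le_of_mul_le_mul_left h3 h2

/-- **new clock, lower window** -/
theorem new_ge (h : Appr P A x0 p L0 C0) (hpos : ∀ t ∈ Ico (0 : ℝ) 1, 0 < P.D t)
    (hint : IntervalIntegrable (fun x => (P.D x)⁻¹) volume 0 1)
    (hK0 : ∀ t ∈ Ico (0 : ℝ) 1, Tendsto (fun n => (A n).K0 t) atTop (𝓝 (Ks P.D t)))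
    (hb : Base P A x0 p t1 Q) {ta y : ℝ} (hta : t1 ≤ ta)
    (hK : ∀ q ∈ Ioo ta 1, ∀ ε : ℝ, 0 < ε → ∀ᶠ n in atTop, ∀ t ∈ Ico ta q,
      2 * y * Zs (A n) x0 (p n) t - ε ≤ (A n).chi t * Ns (A n) x0 (p n) t) :
    ∀ t ∈ Ioo ta 1, y ≤ P.m t * Ks P.D t := by
  intro t ht
  have h1 := (clk_new h hpos hint hK0 hb).winlim_ge h hpos hta hK t ht
  have h2 := hpos t ⟨hb.t1_nonneg.trans (hta.trans ht.1.le), ht.2⟩
  have h3 : P.D t * y ≤ P.D t * (P.m t * Ks P.D t) := by linarith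
  exact le_of_mul_le_mul_left h3 h2

/-- **old clock, upper window**: `ν* = (1 - t) m / D ≤ y` -/
theorem old_le (h : Appr P A x0 p L0 C0) (hpos : ∀ t ∈ Ico (0 : ℝ) 1, 0 < P.D t)
    (hb : Base P A x0 p t1 Q) {ta y : ℝ} (hta : t1 ≤ ta)
    (hK : ∀ q ∈ Ioo ta 1, ∀ ε : ℝ, 0 < ε → ∀ᶠ n in atTop, ∀ t ∈ Ico ta q,
      (1 - t) * Ns (A n) x0 (p n) t ≤ 2 * y * Zs (A n) x0 (p n) t + ε) :
    ∀ t ∈ Ioo ta 1, (1 - t) * P.m t ≤ y * P.D t := by
  intro t ht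
  have h1 := (clk_old h hb).winlim_le h hpos hta hK t ht
  linarith

/-- **old clock, lower window** -/
theorem old_ge (h : Appr P A x0 p L0 C0) (hpos : ∀ t ∈ Ico (0 : ℝ) 1, 0 < P.D t)
    (hb : Base P A x0 p t1 Q) {ta y : ℝ} (hta : t1 ≤ ta)
    (hK : ∀ q ∈ Ioo ta 1, ∀ ε : ℝ, 0 < ε → ∀ᶠ n in atTop, ∀ t ∈ Ico ta q,
      2 * y * Zs (A n) x0 (p n) t - ε ≤ (1 - t) * Ns (A n) x0 (p n) t) :
    ∀ t ∈ Ioo ta 1, y * P.D t ≤ (1 - t) * P.m t := by
  intro t ht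
  have h1 := (clk_old h hb).winlim_ge h hpos hta hK t ht
  linarith

end

end Crest.Agent.R146.PtWinLim_489
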