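import Crest.Agent.R146.PB_534

/-!
Row 146, PT0-R1 (helper847), part a: tilted Gaussian averages
`T z f s φ x = E[φ e^{z f}(x + s G)] / E[e^{z f}(x + s G)]` (design of helper534, post 698):
derivatives in `x` and in the variance, Stein identity, moment bounds, uniform polynomial growth,
`Sm` closure, joint continuity.
-/

set_option autoImplicit false

namespace Crest.Agent.R146.R1a_847

open MeasureTheory ProbabilityTheory Filter Topology Set
open Crest.Agent.R146.Hg_534 Crest.Agent.R146.PB_534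

noncomputable section

/-- the weight `e^{z f}` -/
def gz (z : ℝ) (f : ℝ → ℝ) : ℝ → ℝ := fun y => Real.exp (z * f y)

theorem gz_pos (z : ℝ) (f : ℝ → ℝ) (y : ℝ) : 0 < gz z f y := Real.exp_pos _

theorem gz_le_one {z : ℝ} {f : ℝ → ℝ} (hz : 0 ≤ z) (h0 : ∀ x, f x ≤ 0) (y : ℝ) : gz z f y ≤ 1 := by
  unfold gz
  rw [Real.exp_le_one_iff]
  exact mul_nonpos_of_nonneg_of_nonpos hz (h0 y)

theorem gz_hd {z : ℝ} {f : ℝ → ℝ} (hf : Sm f) (y : ℝ) :
    HasDerivAt (gz z f) (z * deriv f y * gz z f y) y := by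
  have := ((hf.hd y).const_mul z).exp
  rw [mul_comm] at this
  exact this

theorem Sm_gz {z : ℝ} {f : ℝ → ℝ} (hz : 0 ≤ z) (hf : Sm f) (h0 : ∀ x, f x ≤ 0) : Sm (gz z f) := by
  have hpg : PG (gz z f) := by
    refine PG.of_bdd (K := 1) ?_ ?_
    · unfold gz
      have := hf.cont
      fun_prop
    · intro x
      rw [abs_of_pos (gz_pos z f x)]
      exact gz_le_one hz h0 x
  have hdv : deriv (gz z f) = fun y => z * deriv f y * gz z f y := by
    funext y; exact (gz_hd hf y).deriv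
  intro n
  induction n with
  | zero => exact hpg
  | succ n ih =>
    refine ⟨hpg, fun x => (gz_hd hf x).differentiableAt, ?_⟩
    rw [hdv]
    exact PB.mul ((hf.deriv.const_mul z) n) ih

/-- the tilted derivative `φ' + z f' φ` -/
def dz (z : ℝ) (f φ : ℝ → ℝ) : ℝ → ℝ := fun y => deriv φ y + z * deriv f y * φ y

theorem Sm_dz {z : ℝ} {f φ : ℝ → ℝ} (hf : Sm f) (hφ : Sm φ) : Sm (dz z f φ) :=
  hφ.deriv.add ((hf.deriv.const_mul z).mul hφ)

theorem hd_mul_gz {z : ℝ} {f φ : ℝ → ℝ} (hf : Sm f) (hφ : Sm φ) (y : ℝ) :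
    HasDerivAt (fun y => φ y * gz z f y) (dz z f φ y * gz z f y) y := by
  have := (hφ.hd y).mul (gz_hd (z := z) hf y)
  have e : deriv φ y * gz z f y + φ y * (z * deriv f y * gz z f y) =
      dz z f φ y * gz z f y := by
    unfold dz; ring
  rw [e] at this
  exact this

/-- tilted average -/
def T (z : ℝ) (f : ℝ → ℝ) (s : ℝ) (φ : ℝ → ℝ) (x : ℝ) : ℝ :=
  H s (fun y => φ y * gz z f y) x / H s (gz z f) x

/-- standing assumptions on the weight -/
structure W (z : ℝ) (f : ℝ → ℝ) : Prop where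
  hz : 0 ≤ z
  sm : Sm f
  nonpos : ∀ x, f x ≤ 0

variable {z : ℝ} {f : ℝ → ℝ}

theorem W.smg (h : W z f) : Sm (gz z f) := Sm_gz h.hz h.sm h.nonpos

theorem W.egg (h : W z f) : EG (gz z f) := h.smg.pg.eg

theorem W.eg {φ : ℝ → ℝ} (h : W z f) (hφ : PG φ) : EG (fun y => φ y * gz z f y) :=
  (hφ.mul h.smg.pg).eg

theorem W.Hpos (h : W z f) (s x : ℝ) : 0 < H s (gz z f) x := H_pos h.egg (gz_pos z f) s x

theorem T_add (h : W z f) {φ ψ : ℝ → ℝ} (hφ : PG φ) (hψ : PG ψ) (s x : ℝ) :
    T z f s (fun y => φ y + ψ y) x = T z f s φ x + T z f s ψ x := by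
  unfold T
  rw [← add_div, ← H_add (h.eg hφ) (h.eg hψ)]
  congr 2
  funext y; ring

theorem T_sub (h : W z f) {φ ψ : ℝ → ℝ} (hφ : PG φ) (hψ : PG ψ) (s x : ℝ) :
    T z f s (fun y => φ y - ψ y) x = T z f s φ x - T z f s ψ x := by
  unfold T
  rw [← sub_div, ← H_sub (h.eg hφ) (h.eg hψ)]
  congr 2
  funext y; ring

theorem T_const_mul (φ : ℝ → ℝ) (c s x : ℝ) :
    T z f s (fun y => c * φ y) x = c * T z f s φ x := by
  unfold T
  rw [← mul_div_assoc, ← H_const_mul]
  congr 2
  funext y; ring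

theorem T_const (h : W z f) (c s x : ℝ) : T z f s (fun _ => c) x = c := by
  unfold T
  rw [H_const_mul, mul_div_assoc, div_self (h.Hpos s x).ne', mul_one]

theorem T_mono (h : W z f) {φ ψ : ℝ → ℝ} (hφ : PG φ) (hψ : PG ψ) (hle : ∀ y, φ y ≤ ψ y) (s x : ℝ) :
    T z f s φ x ≤ T z f s ψ x := by
  unfold T
  refine div_le_div_of_nonneg_right ?_ (h.Hpos s x).le
  exact H_mono (h.eg hφ) (h.eg hψ) (fun y => mul_le_mul_of_nonneg_right (hle y) (gz_pos z f y).le) s x

theorem T_nonneg (h : W z f) {φ : ℝ → ℝ} (hφ : PG φ) (hle : ∀ y, 0 ≤ φ y) (s x : ℝ) :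
    0 ≤ T z f s φ x := by
  have := T_mono h (PG.const 0) hφ hle s x
  rwa [T_const h] at this

theorem T_abs (h : W z f) {φ : ℝ → ℝ} (hφ : PG φ) (s x : ℝ) :
    |T z f s φ x| ≤ T z f s (fun y => |φ y|) x := by
  rw [abs_le]
  constructor
  · have h1 := T_mono h (PG.neg hφ.abs) hφ (fun y => neg_abs_le (φ y)) s x
    have h2 : T z f s (fun y => -|φ y|) x = -T z f s (fun y => |φ y|) x := by
      have := T_const_mul (z := z) (f := f) (fun y => |φ y|) (-1) s x
      simpa using this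
    rw [h2] at h1
    exact h1
  · exact T_mono h hφ hφ.abs (fun y => le_abs_self (φ y)) s x

theorem T_zero (φ : ℝ → ℝ) (x : ℝ) : T z f 0 φ x = φ x := by
  unfold T
  rw [H_zero, H_zero, mul_div_assoc, div_self (gz_pos z f x).ne', mul_one]

/-- strict positivity (Gaussian of full support, `s ≠ 0`) -/
theorem H_pos_of {φ : ℝ → ℝ} (hφ : EG φ) (h : ∀ y, 0 ≤ φ y) {y0 : ℝ} (h0 : 0 < φ y0) {s : ℝ}
    (hs : s ≠ 0) (x : ℝ) : 0 < H s φ x := by
  unfold H
  rw [integral_pos_iff_support_of_nonneg (fun _ => h _) (hφ.int s x)]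
  have hc : Continuous (fun g : ℝ => φ (x + s * g)) := by
    have := hφ.cont
    fun_prop
  have hopen : IsOpen (Function.support (fun g : ℝ => φ (x + s * g))) := hc.isOpen_support
  have hne : (Function.support (fun g : ℝ => φ (x + s * g))).Nonempty := by
    refine ⟨(y0 - x) / s, ?_⟩
    have e : x + s * ((y0 - x) / s) = y0 := by
      field_simp; ring
    simp only [Function.mem_support, e]
    exact h0.ne'
  rw [pos_iff_ne_zero]
  intro h0
  have hac : (volume : Measure ℝ) ≪ gaussianReal 0 1 :=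
    gaussianReal_absolutelyContinuous' 0 one_ne_zero
  exact (hopen.measure_pos volume hne).ne' (hac h0)

theorem T_pos (h : W z f) {φ : ℝ → ℝ} (hφ : PG φ) (hle : ∀ y, 0 ≤ φ y) {y0 : ℝ} (h0 : 0 < φ y0)
    {s : ℝ} (hs : s ≠ 0) (x : ℝ) : 0 < T z f s φ x := by
  unfold T
  refine div_pos ?_ (h.Hpos s x)
  exact H_pos_of (h.eg hφ) (fun y => mul_nonneg (hle y) (gz_pos z f y).le)
    (mul_pos h0 (gz_pos z f y0)) hs x

theorem T_cont (h : W z f) {φ : ℝ → ℝ} (hφ : PG φ) :
    Continuous (fun p : ℝ × ℝ => T z f p.1 φ p.2) := by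
  unfold T
  exact (H_continuous (h.eg hφ)).div (H_continuous h.egg) (fun p => (h.Hpos p.1 p.2).ne')

/-- derivative in the position -/
theorem T_hd_x (h : W z f) {φ : ℝ → ℝ} (hφ : Sm φ) (s x : ℝ) :
    HasDerivAt (fun x => T z f s φ x)
      (T z f s (dz z f φ) x - T z f s φ x * T z f s (dz z f (fun _ => 1)) x) x := by
  have h1 := H_deriv_x (h.eg hφ.pg) (h.eg (Sm_dz h.sm hφ).pg) (hd_mul_gz h.sm hφ) s x
  have h2 := H_deriv_x (h.eg (PG.const 1)) (h.eg (Sm_dz h.sm (Sm.const 1)).pg)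
    (hd_mul_gz h.sm (Sm.const 1)) s x
  have e : (fun y => (1 : ℝ) * gz z f y) = gz z f := by funext y; ring
  rw [e] at h2
  have h3 := h1.div h2 (h.Hpos s x).ne'
  refine h3.congr_deriv ?_
  unfold T
  have := (h.Hpos s x).ne'
  field_simp

/-- derivative in the variance -/
theorem T_hd_v_pos (h : W z f) {φ : ℝ → ℝ} (hφ : Sm φ) {v : ℝ} (hv : 0 < v) (x : ℝ) :
    HasDerivAt (fun v => T z f (Real.sqrt v) φ x)
      (1 / 2 * (T z f (Real.sqrt v) (dz z f (dz z f φ)) x -
        T z f (Real.sqrt v) φ x * T z f (Real.sqrt v) (dz z f (dz z f (fun _ => 1))) x)) v := by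
  have s1 := Sm_dz (z := z) h.sm hφ
  have s2 := Sm_dz (z := z) h.sm (Sm.const 1)
  have h1 := H_deriv_v (h.eg hφ.pg) (h.eg s1.pg) (h.eg (Sm_dz h.sm s1).pg)
    (hd_mul_gz h.sm hφ) (hd_mul_gz h.sm s1) hv x
  have h2 := H_deriv_v (h.eg (PG.const 1)) (h.eg s2.pg) (h.eg (Sm_dz h.sm s2).pg)
    (hd_mul_gz h.sm (Sm.const 1)) (hd_mul_gz h.sm s2) hv x
  have e : (fun y => (1 : ℝ) * gz z f y) = gz z f := by funext y; ring
  rw [e] at h2
  have h3 := h1.div h2 (h.Hpos (Real.sqrt v) x).ne'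
  refine h3.congr_deriv ?_
  unfold T
  have := (h.Hpos (Real.sqrt v) x).ne'
  field_simp

/-- derivative in the variance, one-sided at `0` -/
theorem T_hd_v (h : W z f) {φ : ℝ → ℝ} (hφ : Sm φ) {v : ℝ} (hv : 0 ≤ v) (x : ℝ) :
    HasDerivWithinAt (fun v => T z f (Real.sqrt v) φ x)
      (1 / 2 * (T z f (Real.sqrt v) (dz z f (dz z f φ)) x -
        T z f (Real.sqrt v) φ x * T z f (Real.sqrt v) (dz z f (dz z f (fun _ => 1))) x)) (Ici 0) v := by
  rcases hv.lt_or_eq with hv | hv
  · exact (T_hd_v_pos h hφ hv x).hasDerivWithinAt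
  · subst hv
    have s1 := Sm_dz (z := z) h.sm hφ
    have s2 := Sm_dz (z := z) h.sm (Sm.const 1)
    have s11 := Sm_dz (z := z) h.sm s1
    have s22 := Sm_dz (z := z) h.sm s2
    have c0 : ∀ {φ : ℝ → ℝ}, PG φ → Continuous (fun v : ℝ => T z f (Real.sqrt v) φ x) := by
      intro φ hφ
      exact (T_cont h hφ).comp ((Real.continuous_sqrt).prodMk continuous_const)
    refine hasDerivWithinAt_Ici_of_tendsto_deriv (s := Ioi 0) ?_ ?_ self_mem_nhdsWithin ?_
    · intro v hv
      exact (T_hd_v_pos h hφ hv x).differentiableAt.differentiableWithinAt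
    · exact (c0 hφ.pg).continuousWithinAt
    · have h1 : Tendsto (fun v => 1 / 2 * (T z f (Real.sqrt v) (dz z f (dz z f φ)) x -
          T z f (Real.sqrt v) φ x * T z f (Real.sqrt v) (dz z f (dz z f (fun _ => 1))) x)) (𝓝[>] 0)
          (𝓝 (1 / 2 * (T z f (Real.sqrt 0) (dz z f (dz z f φ)) x -
          T z f (Real.sqrt 0) φ x * T z f (Real.sqrt 0) (dz z f (dz z f (fun _ => 1))) x))) := by
        have hc : Continuous (fun v => 1 / 2 * (T z f (Real.sqrt v) (dz z f (dz z f φ)) x -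
          T z f (Real.sqrt v) φ x * T z f (Real.sqrt v) (dz z f (dz z f (fun _ => 1))) x)) :=
          continuous_const.mul ((c0 s11.pg).sub ((c0 hφ.pg).mul (c0 s22.pg)))
        exact (hc.tendsto 0).mono_left nhdsWithin_le_nhds
      refine h1.congr' ?_
      filter_upwards [self_mem_nhdsWithin] with v hv
      exact (T_hd_v_pos h hφ hv x).deriv.symm

/-- **Stein identity** for the tilted law -/
theorem T_stein (h : W z f) {φ : ℝ → ℝ} (hφ : Sm φ) (s x : ℝ) :
    T z f s (fun y => (y - x) * φ y) x = s ^ 2 * T z f s (dz z f φ) x := by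
  have h1 := stein (h.eg hφ.pg) (h.eg (Sm_dz h.sm hφ).pg) (hd_mul_gz h.sm hφ) s x
  unfold T
  rw [← mul_div_assoc]
  congr 1
  have h2 : s ^ 2 * H s (fun y => dz z f φ y * gz z f y) x =
      s * ∫ g, g * (φ (x + s * g) * gz z f (x + s * g)) ∂gaussianReal 0 1 := by
    rw [h1]; ring
  rw [h2, ← integral_const_mul]
  unfold H
  refine integral_congr_ae (Eventually.of_forall fun g => ?_)
  simp only
  ring

/-- covariance form of the derivative: `s² ∂_x⟨φ⟩ = ⟨(y - ⟨y⟩) φ⟩` -/
theorem T_cov (h : W z f) {φ : ℝ → ℝ} (hφ : Sm φ) (s x : ℝ) :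
    s ^ 2 * (T z f s (dz z f φ) x - T z f s φ x * T z f s (dz z f (fun _ => 1)) x) =
      T z f s (fun y => (y - T z f s (fun y => y) x) * φ y) x := by
  have h1 := T_stein h hφ s x
  have h2 := T_stein h (Sm.const 1) s x
  set m := T z f s (fun y => y) x with hm
  have e1 : T z f s (fun y => (y - x) * 1) x = m - x := by
    have : (fun y : ℝ => (y - x) * 1) = fun y => y - x := by funext y; ring
    rw [this, T_sub h PG.id (PG.const x), T_const h]
  rw [e1] at h2
  have e2 : T z f s (fun y => (y - m) * φ y) x =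
      T z f s (fun y => (y - x) * φ y) x - (m - x) * T z f s φ x := by
    have : (fun y : ℝ => (y - m) * φ y) = fun y => (y - x) * φ y - (m - x) * φ y := by
      funext y; ring
    rw [this, T_sub h ((PG.id.sub (PG.const x)).mul hφ.pg) (hφ.pg.const_mul _), T_const_mul]
  rw [e2, h1, h2]
  ring

theorem T_y (h : W z f) (s x : ℝ) :
    T z f s (fun y => y) x = x + s ^ 2 * z * T z f s (deriv f) x := by
  have h2 := T_stein h (Sm.const 1) s x
  have : (fun y : ℝ => (y - x) * 1) = fun y => y - x := by funext y; ring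
  rw [this, T_sub h PG.id (PG.const x), T_const h] at h2
  have e : dz z f (fun _ => 1) = fun y => z * deriv f y := by
    funext y; unfold dz; simp
  rw [e, T_const_mul] at h2
  linarith

/-- averages of nondecreasing functions are nondecreasing -/
theorem T_deriv_nonneg (h : W z f) {φ : ℝ → ℝ} (hφ : Sm φ) (hm : Monotone φ) {s : ℝ} (hs : s ≠ 0)
    (x : ℝ) :
    0 ≤ T z f s (dz z f φ) x - T z f s φ x * T z f s (dz z f (fun _ => 1)) x := by
  have h1 := T_cov h hφ s x
  set m := T z f s (fun y => y) x with hmd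
  have h2 : 0 ≤ T z f s (fun y => (y - m) * φ y) x := by
    have e : T z f s (fun y => (y - m) * φ y) x = T z f s (fun y => (y - m) * (φ y - φ m)) x := by
      have e1 : (fun y : ℝ => (y - m) * (φ y - φ m)) = fun y => (y - m) * φ y - φ m * (y - m) := by
        funext y; ring
      rw [e1, T_sub h ((PG.id.sub (PG.const m)).mul hφ.pg) ((PG.id.sub (PG.const m)).const_mul _),
        T_const_mul, T_sub h PG.id (PG.const m), T_const h, ← hmd]
      ring
    rw [e]
    refine T_nonneg h ((PG.id.sub (PG.const m)).mul (hφ.pg.sub (PG.const _))) (fun y => ?_) s x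
    rcases le_total m y with hy | hy
    · exact mul_nonneg (by linarith) (by linarith [hm hy])
    · exact mul_nonneg_of_nonpos_of_nonpos (by linarith) (by linarith [hm hy])
  rw [← h1] at h2
  have hs2 : 0 < s ^ 2 := by positivity
  exact nonneg_of_mul_nonneg_right h2 hs2

/-- strict version -/
theorem T_deriv_pos (h : W z f) {φ : ℝ → ℝ} (hφ : Sm φ) (hm : StrictMono φ) {s : ℝ} (hs : s ≠ 0)
    (x : ℝ) :
    0 < T z f s (dz z f φ) x - T z f s φ x * T z f s (dz z f (fun _ => 1)) x := by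
  have h1 := T_cov h hφ s x
  set m := T z f s (fun y => y) x with hmd
  have h2 : 0 < T z f s (fun y => (y - m) * φ y) x := by
    have e : T z f s (fun y => (y - m) * φ y) x = T z f s (fun y => (y - m) * (φ y - φ m)) x := by
      have e1 : (fun y : ℝ => (y - m) * (φ y - φ m)) = fun y => (y - m) * φ y - φ m * (y - m) := by
        funext y; ring
      rw [e1, T_sub h ((PG.id.sub (PG.const m)).mul hφ.pg) ((PG.id.sub (PG.const m)).const_mul _),
        T_const_mul, T_sub h PG.id (PG.const m), T_const h, ← hmd]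
      ring
    rw [e]
    refine T_pos h ((PG.id.sub (PG.const m)).mul (hφ.pg.sub (PG.const _))) (fun y => ?_)
      (y0 := m + 1) ?_ hs x
    · rcases le_total m y with hy | hy
      · exact mul_nonneg (by linarith) (by linarith [hm.monotone hy])
      · exact mul_nonneg_of_nonpos_of_nonpos (by linarith) (by linarith [hm.monotone hy])
    · have := hm (lt_add_one m)
      exact mul_pos (by linarith) (by linarith)
  rw [← h1] at h2
  have hs2 : 0 < s ^ 2 := by positivity
  exact (mul_pos_iff_of_pos_left hs2).1 h2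

end

end Crest.Agent.R146.R1a_847
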