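import Crest.Agent.R146.R1a_847

/-!
Row 146, PT0-R1 (helper847), part b: moments of the tilted law, uniform polynomial growth, `Sm` closure,
the tower `r n = ⟨d^n 1⟩` and the cumulants `p1..p5` of the Cole-Hopf function.
-/

set_option autoImplicit false

namespace Crest.Agent.R146.R1b_847

open MeasureTheory ProbabilityTheory Filter Topology Set
open Crest.Agent.R146.Hg_534 Crest.Agent.R146.PB_534 Crest.Agent.R146.R1a_847

noncomputable section

variable {z : ℝ} {f : ℝ → ℝ}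

/-- weight with `f' ≥ 0` decreasing -/
structure WM (z : ℝ) (f : ℝ → ℝ) : Prop extends W z f where
  d1 : ∀ x, 0 ≤ deriv f x
  anti : Antitone (deriv f)

theorem Sm_shift_pow (x : ℝ) (n : ℕ) : Sm (fun y => (y - x) ^ n) := (Sm.id.sub (Sm.const x)).pow n

theorem deriv_shift_pow (x : ℝ) (n : ℕ) (y : ℝ) :
    deriv (fun y => (y - x) ^ (n + 1)) y = (n + 1) * (y - x) ^ n := by
  have := ((hasDerivAt_id' y).sub_const x).fun_pow (n + 1)
  simpa using this.deriv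

theorem mom_rec (h : WM z f) (s x : ℝ) (n : ℕ) :
    T z f s (fun y => (y - x) ^ (2 * (n + 1))) x ≤
      (2 * (2 * n + 1) * s ^ 2 + (s ^ 2 * z * deriv f x) ^ 2) *
        T z f s (fun y => (y - x) ^ (2 * n)) x := by
  have h0 := h.toW
  set c := s ^ 2 * z * deriv f x with hc
  have hc0 : 0 ≤ c := mul_nonneg (mul_nonneg (sq_nonneg s) h.hz) (h.d1 x)
  have h1 := T_stein h0 (Sm_shift_pow x (2 * n + 1)) s x
  have e1 : (fun y : ℝ => (y - x) * (y - x) ^ (2 * n + 1)) = fun y => (y - x) ^ (2 * (n + 1)) := by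
    funext y; ring
  rw [e1, ← T_const_mul] at h1
  have h2 : T z f s (fun y => (y - x) ^ (2 * (n + 1))) x ≤
      T z f s (fun y => ((2 * n + 1) * s ^ 2 + c ^ 2 / 2) * (y - x) ^ (2 * n) +
        1 / 2 * (y - x) ^ (2 * (n + 1))) x := by
    rw [h1]
    refine T_mono h0 ((Sm_dz h0.sm (Sm_shift_pow x (2 * n + 1))).pg.const_mul _)
      (((Sm_shift_pow x (2 * n)).pg.const_mul _).add
        ((Sm_shift_pow x (2 * (n + 1))).pg.const_mul _)) (fun y => ?_) s x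
    unfold dz
    rw [deriv_shift_pow]
    set d := y - x with hd
    have hdn : 0 ≤ d ^ (2 * n) := by rw [pow_mul]; positivity
    have key : deriv f y * d ^ (2 * n + 1) ≤ deriv f x * |d| * d ^ (2 * n) := by
      rcases le_total 0 d with hy | hy
      · rw [abs_of_nonneg hy, pow_succ]
        have h3 : deriv f y ≤ deriv f x := h.anti (by linarith)
        have h4 : 0 ≤ d ^ (2 * n) * d := mul_nonneg hdn hy
        nlinarith
      · have h3 : deriv f y * d ^ (2 * n + 1) ≤ 0 := by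
          rw [pow_succ]
          exact mul_nonpos_of_nonneg_of_nonpos (h.d1 y) (mul_nonpos_of_nonneg_of_nonpos hdn hy)
        have h4 : 0 ≤ deriv f x * |d| * d ^ (2 * n) :=
          mul_nonneg (mul_nonneg (h.d1 x) (abs_nonneg d)) hdn
        linarith
    have key2 : s ^ 2 * z * (deriv f y * d ^ (2 * n + 1)) ≤ c * |d| * d ^ (2 * n) := by
      have h3 : 0 ≤ s ^ 2 * z := mul_nonneg (sq_nonneg s) h.hz
      have := mul_le_mul_of_nonneg_left key h3
      rw [hc]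
      linarith
    have key3 : c * |d| * d ^ (2 * n) ≤ (c ^ 2 / 2 + d ^ 2 / 2) * d ^ (2 * n) := by
      refine mul_le_mul_of_nonneg_right ?_ hdn
      nlinarith [sq_nonneg (c - |d|), sq_abs d]
    have e2 : d ^ (2 * (n + 1)) = d ^ 2 * d ^ (2 * n) := by ring
    rw [e2]
    push_cast
    nlinarith
  rw [T_add h0 ((Sm_shift_pow x (2 * n)).pg.const_mul _)
    ((Sm_shift_pow x (2 * (n + 1))).pg.const_mul _), T_const_mul, T_const_mul] at h2
  nlinarith

theorem mom_nonneg (h : WM z f) (s x : ℝ) (n : ℕ) :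
    0 ≤ T z f s (fun y => (y - x) ^ (2 * n)) x :=
  T_nonneg h.toW (Sm_shift_pow x (2 * n)).pg (fun y => by rw [pow_mul]; positivity) s x

theorem mom_le (h : WM z f) (s x : ℝ) (N : ℕ) : ∀ n ≤ N,
    T z f s (fun y => (y - x) ^ (2 * n)) x ≤
      (4 * N * s ^ 2 + (s ^ 2 * z * deriv f x) ^ 2) ^ n := by
  intro n
  induction n with
  | zero =>
    intro _
    simp only [Nat.mul_zero, pow_zero]
    rw [T_const h.toW]
  | succ n ih =>
    intro hn
    have h1 := ih (by omega)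
    have h2 := mom_rec h s x n
    have h3 : (2 * (2 * n + 1) * s ^ 2 + (s ^ 2 * z * deriv f x) ^ 2) ≤
        (4 * N * s ^ 2 + (s ^ 2 * z * deriv f x) ^ 2) := by
      have h4 : (2 * (2 * n + 1) : ℝ) ≤ 4 * N := by
        have : ((n : ℝ) + 1) ≤ N := by exact_mod_cast hn
        linarith
      have := mul_le_mul_of_nonneg_right h4 (sq_nonneg s)
      linarith
    have h5 := mom_nonneg h s x n
    have h6 : 0 ≤ (4 * N * s ^ 2 + (s ^ 2 * z * deriv f x) ^ 2) := by positivity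
    calc T z f s (fun y => (y - x) ^ (2 * (n + 1))) x
        ≤ (2 * (2 * n + 1) * s ^ 2 + (s ^ 2 * z * deriv f x) ^ 2) *
          T z f s (fun y => (y - x) ^ (2 * n)) x := h2
      _ ≤ (4 * N * s ^ 2 + (s ^ 2 * z * deriv f x) ^ 2) *
          (4 * N * s ^ 2 + (s ^ 2 * z * deriv f x) ^ 2) ^ n :=
          mul_le_mul h3 h1 h5 h6
      _ = _ := by ring

theorem base_pow_le (x y : ℝ) (m : ℕ) :
    (1 + |y|) ^ m ≤ 4 ^ m * ((1 + |x|) ^ (2 * m) + (y - x) ^ (2 * m)) := by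
  have h1 : 1 + |y| ≤ (1 + |y|) ^ 2 := by
    have := abs_nonneg y
    nlinarith
  have h0 : 0 ≤ 1 + |y| := by positivity
  have h2 : (1 + |y|) ^ 2 ≤ 2 * (1 + |x|) ^ 2 + 2 * (y - x) ^ 2 := by
    have h3 : |y| ≤ |x| + |y - x| := by
      have := abs_add_le x (y - x)
      simpa using this
    have h4 : 1 + |y| ≤ (1 + |x|) + |y - x| := by linarith
    have h5 : (1 + |y|) ^ 2 ≤ ((1 + |x|) + |y - x|) ^ 2 := pow_le_pow_left₀ h0 h4 2
    nlinarith [sq_nonneg ((1 + |x|) - |y - x|), sq_abs (y - x)]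
  calc (1 + |y|) ^ m ≤ (2 * (1 + |x|) ^ 2 + 2 * (y - x) ^ 2) ^ m :=
        pow_le_pow_left₀ h0 (h1.trans h2) m
    _ ≤ 2 ^ (m - 1) * ((2 * (1 + |x|) ^ 2) ^ m + (2 * (y - x) ^ 2) ^ m) :=
        add_pow_le (by positivity) (by positivity) m
    _ ≤ 2 ^ m * ((2 * (1 + |x|) ^ 2) ^ m + (2 * (y - x) ^ 2) ^ m) := by
        refine mul_le_mul_of_nonneg_right ?_ (by positivity)
        exact pow_le_pow_right₀ (by norm_num) (Nat.sub_le m 1)
    _ = _ := by
        rw [mul_pow, mul_pow, ← pow_mul, ← pow_mul]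
        have : (4 : ℝ) ^ m = 2 ^ m * 2 ^ m := by rw [← mul_pow]; norm_num
        rw [this]; ring

/-- **uniform polynomial growth of tilted averages** -/
theorem T_growth (h : WM z f) {φ : ℝ → ℝ} (hφ : PG φ) (S : ℝ) :
    ∃ (C : ℝ) (n : ℕ), 0 ≤ C ∧ ∀ s, |s| ≤ S → ∀ x, |T z f s φ x| ≤ C * (1 + |x|) ^ n := by
  obtain ⟨C, m, hC, hb⟩ := hφ.bd
  obtain ⟨C1, k, hC1, hb1⟩ := h.sm.deriv.pg.bd
  have h0 := h.toW
  refine ⟨C * (4 ^ m * (1 + (4 * m * S ^ 2 + (S ^ 2 * z * C1) ^ 2) ^ m)), 2 * m + 2 * k * m,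
    ?_, fun s hs x => ?_⟩
  · positivity
  have hpg : PG (fun y => C * (1 + |y|) ^ m) :=
    (((PG.const 1).add PG.id.abs).pow m).const_mul C
  have hpg2 : PG (fun y => C * (4 ^ m * ((1 + |x|) ^ (2 * m) + (y - x) ^ (2 * m)))) :=
    (((PG.const _).add (Sm_shift_pow x (2 * m)).pg).const_mul _).const_mul _
  have h1 : |T z f s φ x| ≤ C * (4 ^ m * ((1 + |x|) ^ (2 * m) +
      T z f s (fun y => (y - x) ^ (2 * m)) x)) := by
    calc |T z f s φ x| ≤ T z f s (fun y => |φ y|) x := T_abs h0 hφ s x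
      _ ≤ T z f s (fun y => C * (1 + |y|) ^ m) x := T_mono h0 hφ.abs hpg hb s x
      _ ≤ T z f s (fun y => C * (4 ^ m * ((1 + |x|) ^ (2 * m) + (y - x) ^ (2 * m)))) x :=
          T_mono h0 hpg hpg2 (fun y => mul_le_mul_of_nonneg_left (base_pow_le x y m) hC) s x
      _ = _ := by
          rw [T_const_mul, T_const_mul, T_add h0 (PG.const _) (Sm_shift_pow x (2 * m)).pg,
            T_const h0]
  refine h1.trans ?_
  have h2 := mom_le h s x m m le_rfl
  have hx := one_le_base x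
  have hs2 : s ^ 2 ≤ S ^ 2 := by
    rw [← sq_abs s]
    exact pow_le_pow_left₀ (abs_nonneg s) hs 2
  have h3 : (4 * m * s ^ 2 + (s ^ 2 * z * deriv f x) ^ 2) ≤
      (4 * m * S ^ 2 + (S ^ 2 * z * C1) ^ 2) * (1 + |x|) ^ (2 * k) := by
    have h4 : s ^ 2 * z * deriv f x ≤ (S ^ 2 * z * C1) * (1 + |x|) ^ k := by
      have h5 : deriv f x ≤ C1 * (1 + |x|) ^ k := (le_abs_self _).trans (hb1 x)
      have h6 : s ^ 2 * z ≤ S ^ 2 * z := mul_le_mul_of_nonneg_right hs2 h.hz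
      calc s ^ 2 * z * deriv f x ≤ (S ^ 2 * z) * (C1 * (1 + |x|) ^ k) :=
            mul_le_mul h6 h5 (h.d1 x) (mul_nonneg (sq_nonneg S) h.hz)
        _ = _ := by ring
    have h5 : 0 ≤ s ^ 2 * z * deriv f x := mul_nonneg (mul_nonneg (sq_nonneg s) h.hz) (h.d1 x)
    have h6 : (s ^ 2 * z * deriv f x) ^ 2 ≤ (S ^ 2 * z * C1) ^ 2 * (1 + |x|) ^ (2 * k) := by
      calc (s ^ 2 * z * deriv f x) ^ 2 ≤ ((S ^ 2 * z * C1) * (1 + |x|) ^ k) ^ 2 :=
            pow_le_pow_left₀ h5 h4 2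
        _ = _ := by rw [mul_pow, ← pow_mul, mul_comm k 2]
    have h7 : (1 : ℝ) ≤ (1 + |x|) ^ (2 * k) := one_le_pow₀ hx
    have h8 : 4 * (m : ℝ) * s ^ 2 ≤ 4 * m * S ^ 2 * (1 + |x|) ^ (2 * k) := by
      calc 4 * (m : ℝ) * s ^ 2 ≤ 4 * m * S ^ 2 := mul_le_mul_of_nonneg_left hs2 (by positivity)
        _ = 4 * m * S ^ 2 * 1 := by ring
        _ ≤ _ := mul_le_mul_of_nonneg_left h7 (by positivity)
    linarith [h6, h8, add_mul (4 * (m : ℝ) * S ^ 2) ((S ^ 2 * z * C1) ^ 2) ((1 + |x|) ^ (2 * k))]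
  have h4 : T z f s (fun y => (y - x) ^ (2 * m)) x ≤
      (4 * m * S ^ 2 + (S ^ 2 * z * C1) ^ 2) ^ m * (1 + |x|) ^ (2 * k * m) := by
    refine h2.trans ?_
    calc (4 * m * s ^ 2 + (s ^ 2 * z * deriv f x) ^ 2) ^ m ≤
        ((4 * m * S ^ 2 + (S ^ 2 * z * C1) ^ 2) * (1 + |x|) ^ (2 * k)) ^ m :=
          pow_le_pow_left₀ (by positivity) h3 m
      _ = _ := by rw [mul_pow, ← pow_mul]
  have h5 : (1 + |x|) ^ (2 * m) ≤ (1 + |x|) ^ (2 * m + 2 * k * m) :=
    pow_le_pow_right₀ hx (by omega)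
  have h6 : (1 + |x|) ^ (2 * k * m) ≤ (1 + |x|) ^ (2 * m + 2 * k * m) :=
    pow_le_pow_right₀ hx (by omega)
  have h7 : (1 + |x|) ^ (2 * m) + T z f s (fun y => (y - x) ^ (2 * m)) x ≤
      (1 + (4 * m * S ^ 2 + (S ^ 2 * z * C1) ^ 2) ^ m) * (1 + |x|) ^ (2 * m + 2 * k * m) := by
    have h8 := mul_le_mul_of_nonneg_left h6
      (by positivity : 0 ≤ (4 * m * S ^ 2 + (S ^ 2 * z * C1) ^ 2) ^ m)
    linarith [add_mul (1 : ℝ) ((4 * m * S ^ 2 + (S ^ 2 * z * C1) ^ 2) ^ m)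
      ((1 + |x|) ^ (2 * m + 2 * k * m))]
  calc C * (4 ^ m * ((1 + |x|) ^ (2 * m) + T z f s (fun y => (y - x) ^ (2 * m)) x))
      ≤ C * (4 ^ m * ((1 + (4 * m * S ^ 2 + (S ^ 2 * z * C1) ^ 2) ^ m) *
        (1 + |x|) ^ (2 * m + 2 * k * m))) := by
        refine mul_le_mul_of_nonneg_left (mul_le_mul_of_nonneg_left h7 (by positivity)) hC
    _ = _ := by ring

/-- tilted averages of `Sm` functions are `Sm` -/
theorem T_Sm (h : WM z f) {φ : ℝ → ℝ} (hφ : Sm φ) (s : ℝ) : Sm (fun x => T z f s φ x) := by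
  have h0 := h.toW
  have hpg : ∀ {φ : ℝ → ℝ}, PG φ → PG (fun x => T z f s φ x) := by
    intro φ hφ
    obtain ⟨C, n, hC, hb⟩ := T_growth h hφ |s|
    refine ⟨?_, C, n, hC, fun x => hb s le_rfl x⟩
    exact (T_cont h0 hφ).comp (continuous_const.prodMk continuous_id)
  intro n
  induction n generalizing φ with
  | zero => exact hpg hφ.pg
  | succ n ih =>
    refine ⟨hpg hφ.pg, fun x => (T_hd_x h0 hφ s x).differentiableAt, ?_⟩
    have e : deriv (fun x => T z f s φ x) = fun x =>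
        T z f s (dz z f φ) x + (-1 * T z f s φ x) * T z f s (dz z f (fun _ => 1)) x := by
      funext x
      rw [(T_hd_x h0 hφ s x).deriv]
      ring
    rw [e]
    exact PB.add (ih (Sm_dz h0.sm hφ)) (PB.mul (PB.mul (PB.const n (-1)) (ih hφ))
      (ih (Sm_dz h0.sm (Sm.const 1))))

/-- `d^n 1` -/
def en (z : ℝ) (f : ℝ → ℝ) : ℕ → ℝ → ℝ
  | 0 => fun _ => 1
  | n + 1 => dz z f (en z f n)

theorem Sm_en (h : W z f) : ∀ n, Sm (en z f n)
  | 0 => Sm.const 1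
  | n + 1 => Sm_dz h.sm (Sm_en h n)

/-- the tower -/
def r (z : ℝ) (f : ℝ → ℝ) (n : ℕ) (s x : ℝ) : ℝ := T z f s (en z f n) x

theorem r_zero (h : W z f) (s x : ℝ) : r z f 0 s x = 1 := T_const h 1 s x

theorem r_hd_x (h : W z f) (n : ℕ) (s x : ℝ) :
    HasDerivAt (r z f n s) (r z f (n + 1) s x - r z f n s x * r z f 1 s x) x :=
  T_hd_x h (Sm_en h n) s x

theorem r_hd_v (h : W z f) (n : ℕ) {v : ℝ} (hv : 0 ≤ v) (x : ℝ) :
    HasDerivWithinAt (fun v => r z f n (Real.sqrt v) x)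
      (1 / 2 * (r z f (n + 2) (Real.sqrt v) x - r z f n (Real.sqrt v) x *
        r z f 2 (Real.sqrt v) x)) (Ici 0) v :=
  T_hd_v h (Sm_en h n) hv x

theorem r_cont (h : W z f) (n : ℕ) : Continuous (fun p : ℝ × ℝ => r z f n (Real.sqrt p.1) p.2) := by
  have h1 := T_cont h (Sm_en h n).pg
  exact h1.comp ((Real.continuous_sqrt.comp continuous_fst).prodMk continuous_snd)

theorem r_Sm (h : WM z f) (n : ℕ) (s : ℝ) : Sm (r z f n s) := T_Sm h (Sm_en h.toW n) s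

end

end Crest.Agent.R146.R1b_847
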