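import Crest.Agent.R146.R1b_847
import Crest.Agent.R146.MaxP_86
import Crest.Prelude.Def_InvariantGlass

/-!
Row 146, PT0-R1 (helper847), part c: the Cole-Hopf function of one cell, its five `x`-derivatives
`q1..q5`, their equations in the variance `v`, signs and bounds; the state `St δ f` is propagated.
-/

set_option autoImplicit false

namespace Crest.Agent.R146.R1c_847

open MeasureTheory ProbabilityTheory Filter Topology Set
open Crest.ProbabilityR.InvariantGlass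
open Crest.Agent.R146.Hg_534 Crest.Agent.R146.PB_534 Crest.Agent.R146.R1a_847
open Crest.Agent.R146.R1b_847

noncomputable section

variable {z : ℝ} {f : ℝ → ℝ}

/-- value of the tower at variance `v` -/
def rv (z : ℝ) (f : ℝ → ℝ) (n : ℕ) (v x : ℝ) : ℝ := r z f n (Real.sqrt v) x

/-- Cole-Hopf function -/
def q0 (z : ℝ) (f : ℝ → ℝ) (v x : ℝ) : ℝ := z⁻¹ * Real.log (H (Real.sqrt v) (gz z f) x)

def q1 (z : ℝ) (f : ℝ → ℝ) (v x : ℝ) : ℝ := z⁻¹ * rv z f 1 v x
def q2 (z : ℝ) (f : ℝ → ℝ) (v x : ℝ) : ℝ := z⁻¹ * (rv z f 2 v x - rv z f 1 v x ^ 2)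
def q3 (z : ℝ) (f : ℝ → ℝ) (v x : ℝ) : ℝ :=
  z⁻¹ * (rv z f 3 v x - 3 * rv z f 1 v x * rv z f 2 v x + 2 * rv z f 1 v x ^ 3)
def q4 (z : ℝ) (f : ℝ → ℝ) (v x : ℝ) : ℝ :=
  z⁻¹ * (rv z f 4 v x - 4 * rv z f 3 v x * rv z f 1 v x - 3 * rv z f 2 v x ^ 2 +
    12 * rv z f 2 v x * rv z f 1 v x ^ 2 - 6 * rv z f 1 v x ^ 4)
def q5 (z : ℝ) (f : ℝ → ℝ) (v x : ℝ) : ℝ :=
  z⁻¹ * (rv z f 5 v x - 5 * rv z f 4 v x * rv z f 1 v x - 10 * rv z f 3 v x * rv z f 2 v x +
    20 * rv z f 3 v x * rv z f 1 v x ^ 2 + 30 * rv z f 2 v x ^ 2 * rv z f 1 v x -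
    60 * rv z f 2 v x * rv z f 1 v x ^ 3 + 24 * rv z f 1 v x ^ 5)

theorem gaussOp_eq (hz : z ≠ 0) (v : ℝ) : gaussOp z v f = q0 z f v := by
  funext x
  unfold gaussOp q0 H gz
  rw [if_neg hz]

theorem q0_zero (hz : z ≠ 0) (x : ℝ) : q0 z f 0 x = f x := by
  unfold q0
  rw [Real.sqrt_zero, H_zero]
  unfold gz
  rw [Real.log_exp]
  field_simp

section deriv

variable (h : W z f)
include h

theorem rv_hd_x (n : ℕ) (v x : ℝ) :
    HasDerivAt (rv z f n v) (rv z f (n + 1) v x - rv z f n v x * rv z f 1 v x) x :=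
  r_hd_x h n _ x

theorem rv_hd_v (n : ℕ) {v : ℝ} (hv : 0 ≤ v) (x : ℝ) :
    HasDerivWithinAt (fun v => rv z f n v x)
      (1 / 2 * (rv z f (n + 2) v x - rv z f n v x * rv z f 2 v x)) (Ici 0) v :=
  r_hd_v h n hv x

theorem rv_cont (n : ℕ) : Continuous (fun p : ℝ × ℝ => rv z f n p.1 p.2) := r_cont h n

theorem q0_hd_x (v x : ℝ) : HasDerivAt (q0 z f v) (q1 z f v x) x := by
  have e : (fun y => (1 : ℝ) * gz z f y) = gz z f := by funext y; ring
  have h2 := H_deriv_x (h.eg (PG.const 1)) (h.eg (Sm_dz h.sm (Sm.const 1)).pg)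
    (hd_mul_gz h.sm (Sm.const 1)) (Real.sqrt v) x
  rw [e] at h2
  have h3 := (h2.log (h.Hpos _ x).ne').const_mul z⁻¹
  exact h3

theorem q1_hd_x (v x : ℝ) : HasDerivAt (q1 z f v) (q2 z f v x) x := by
  have h1 := (rv_hd_x h 1 v x).const_mul z⁻¹
  refine h1.congr_deriv ?_
  unfold q2; ring

theorem q2_hd_x (v x : ℝ) : HasDerivAt (q2 z f v) (q3 z f v x) x := by
  have h1 := rv_hd_x h 1 v x
  have h2 := rv_hd_x h 2 v x
  have := (h2.sub (h1.fun_pow 2)).const_mul z⁻¹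
  refine this.congr_deriv ?_
  unfold q3; simp only [Nat.reduceSub, Nat.cast_ofNat, Nat.reduceAdd]; ring

theorem q3_hd_x (v x : ℝ) : HasDerivAt (q3 z f v) (q4 z f v x) x := by
  have h1 := rv_hd_x h 1 v x
  have h2 := rv_hd_x h 2 v x
  have h3 := rv_hd_x h 3 v x
  have := ((h3.sub ((h1.const_mul 3).mul h2)).add ((h1.fun_pow 3).const_mul 2)).const_mul z⁻¹
  refine this.congr_deriv ?_
  unfold q4; simp only [Nat.reduceSub, Nat.cast_ofNat, Nat.reduceAdd]; ring

theorem q4_hd_x (v x : ℝ) : HasDerivAt (q4 z f v) (q5 z f v x) x := by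
  have h1 := rv_hd_x h 1 v x
  have h2 := rv_hd_x h 2 v x
  have h3 := rv_hd_x h 3 v x
  have h4 := rv_hd_x h 4 v x
  have := ((((h4.sub ((h3.const_mul 4).mul h1)).sub ((h2.fun_pow 2).const_mul 3)).add
    ((h2.const_mul 12).mul (h1.fun_pow 2))).sub ((h1.fun_pow 4).const_mul 6)).const_mul z⁻¹
  refine this.congr_deriv ?_
  unfold q5; simp only [Nat.reduceSub, Nat.cast_ofNat, Nat.reduceAdd]; ring

theorem q0_hd_v (hz : z ≠ 0) {v : ℝ} (hv : 0 ≤ v) (x : ℝ) :
    HasDerivWithinAt (fun v => q0 z f v x) (1 / 2 * (q2 z f v x + z * q1 z f v x ^ 2)) (Ici 0) v := by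
  have e : (fun y => (1 : ℝ) * gz z f y) = gz z f := by funext y; ring
  have s2 := Sm_dz (z := z) h.sm (Sm.const 1)
  have key : ∀ v : ℝ, 1 / 2 * (q2 z f v x + z * q1 z f v x ^ 2) = z⁻¹ * (1 / 2 * rv z f 2 v x) := by
    intro v
    unfold q2 q1
    field_simp
    ring
  have hpos : ∀ v : ℝ, 0 < v → HasDerivAt (fun v => q0 z f v x)
      (1 / 2 * (q2 z f v x + z * q1 z f v x ^ 2)) v := by
    intro v hv
    have h2 := H_deriv_v (h.eg (PG.const 1)) (h.eg s2.pg) (h.eg (Sm_dz h.sm s2).pg)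
      (hd_mul_gz h.sm (Sm.const 1)) (hd_mul_gz h.sm s2) hv x
    rw [e] at h2
    have h3 := (h2.log (h.Hpos (Real.sqrt v) x).ne').const_mul z⁻¹
    rw [key v]
    refine h3.congr_deriv ?_
    unfold rv r T en en en
    ring
  rcases hv.lt_or_eq with hv | hv
  · exact (hpos v hv).hasDerivWithinAt
  · subst hv
    refine hasDerivWithinAt_Ici_of_tendsto_deriv (s := Ioi 0) ?_ ?_ self_mem_nhdsWithin ?_
    · intro v hv
      exact (hpos v hv).differentiableAt.differentiableWithinAt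
    · have hc : Continuous (fun v => q0 z f v x) := by
        unfold q0
        have h1 : Continuous (fun v : ℝ => H (Real.sqrt v) (gz z f) x) :=
          (H_continuous h.egg).comp (Real.continuous_sqrt.prodMk continuous_const)
        exact continuous_const.mul (h1.log (fun v => (h.Hpos _ x).ne'))
      exact hc.continuousWithinAt
    · have hc : Continuous (fun v => 1 / 2 * (q2 z f v x + z * q1 z f v x ^ 2)) := by
        have h1 : Continuous (fun v : ℝ => rv z f 2 v x) :=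
          (rv_cont h 2).comp (continuous_id.prodMk continuous_const)
        have : (fun v => 1 / 2 * (q2 z f v x + z * q1 z f v x ^ 2)) =
            fun v => z⁻¹ * (1 / 2 * rv z f 2 v x) := by funext v; exact key v
        rw [this]
        fun_prop
      have h1 := (hc.tendsto 0).mono_left (nhdsWithin_le_nhds (s := Ioi 0))
      refine h1.congr' ?_
      filter_upwards [self_mem_nhdsWithin] with v hv
      exact (hpos v hv).deriv.symm

theorem q1_hd_v (hz : z ≠ 0) {v : ℝ} (hv : 0 ≤ v) (x : ℝ) :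
    HasDerivWithinAt (fun v => q1 z f v x)
      (1 / 2 * (q3 z f v x + 2 * z * q1 z f v x * q2 z f v x)) (Ici 0) v := by
  have h1 := (rv_hd_v h 1 hv x).const_mul z⁻¹
  refine h1.congr_deriv ?_
  unfold q3 q2 q1
  field_simp
  ring

theorem q2_hd_v (hz : z ≠ 0) {v : ℝ} (hv : 0 ≤ v) (x : ℝ) :
    HasDerivWithinAt (fun v => q2 z f v x)
      (1 / 2 * (q4 z f v x + 2 * z * q2 z f v x ^ 2 + 2 * z * q1 z f v x * q3 z f v x)) (Ici 0) v := by
  have h1 := rv_hd_v h 1 hv x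
  have h2 := rv_hd_v h 2 hv x
  have := (h2.fun_sub (h1.fun_pow 2)).const_mul z⁻¹
  refine this.congr_deriv ?_
  unfold q4 q3 q2 q1
  field_simp
  norm_num
  ring

theorem q3_hd_v (hz : z ≠ 0) {v : ℝ} (hv : 0 ≤ v) (x : ℝ) :
    HasDerivWithinAt (fun v => q3 z f v x)
      (1 / 2 * (q5 z f v x + 6 * z * q2 z f v x * q3 z f v x + 2 * z * q1 z f v x * q4 z f v x))
      (Ici 0) v := by
  have h1 := rv_hd_v h 1 hv x
  have h2 := rv_hd_v h 2 hv x
  have h3 := rv_hd_v h 3 hv x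
  have := ((h3.fun_sub ((h1.const_mul 3).fun_mul h2)).fun_add ((h1.fun_pow 3).const_mul 2)).const_mul z⁻¹
  refine this.congr_deriv ?_
  unfold q5 q4 q3 q2 q1
  field_simp
  norm_num
  ring

theorem q0_cont : Continuous (fun p : ℝ × ℝ => q0 z f p.1 p.2) := by
  unfold q0
  have h1 : Continuous (fun p : ℝ × ℝ => H (Real.sqrt p.1) (gz z f) p.2) :=
    (H_continuous h.egg).comp ((Real.continuous_sqrt.comp continuous_fst).prodMk continuous_snd)
  exact continuous_const.mul (h1.log (fun v => (h.Hpos _ _).ne'))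

theorem q1_cont : Continuous (fun p : ℝ × ℝ => q1 z f p.1 p.2) := by
  unfold q1
  have := rv_cont h 1
  fun_prop

theorem q2_cont : Continuous (fun p : ℝ × ℝ => q2 z f p.1 p.2) := by
  unfold q2
  have := rv_cont h 1
  have := rv_cont h 2
  fun_prop

theorem q3_cont : Continuous (fun p : ℝ × ℝ => q3 z f p.1 p.2) := by
  unfold q3
  have := rv_cont h 1
  have := rv_cont h 2
  have := rv_cont h 3
  fun_prop

theorem q4_cont : Continuous (fun p : ℝ × ℝ => q4 z f p.1 p.2) := by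
  unfold q4
  have := rv_cont h 1
  have := rv_cont h 2
  have := rv_cont h 3
  have := rv_cont h 4
  fun_prop

theorem q5_cont : Continuous (fun p : ℝ × ℝ => q5 z f p.1 p.2) := by
  unfold q5
  have := rv_cont h 1
  have := rv_cont h 2
  have := rv_cont h 3
  have := rv_cont h 4
  have := rv_cont h 5
  fun_prop

end deriv

/-! ### uniform growth -/

/-- functions of `(v,x)` of polynomial growth in `x` uniformly for `v ∈ [0,S]`, for every `S` -/
def UG (F : ℝ → ℝ → ℝ) : Prop :=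
  ∀ S : ℝ, ∃ (C : ℝ) (n : ℕ), 0 ≤ C ∧ ∀ v ∈ Icc 0 S, ∀ x, |F v x| ≤ C * (1 + |x|) ^ n

theorem UG.const (c : ℝ) : UG (fun _ _ => c) := fun S =>
  ⟨|c|, 0, abs_nonneg c, fun v _ x => by simp⟩

theorem UG.add {F G : ℝ → ℝ → ℝ} (hF : UG F) (hG : UG G) : UG (fun v x => F v x + G v x) := by
  intro S
  obtain ⟨C, n, hC, h1⟩ := hF S
  obtain ⟨C', n', hC', h2⟩ := hG S
  refine ⟨C + C', n + n', by positivity, fun v hv x => ?_⟩
  have hx := one_le_base x
  have h3 : (1 + |x|) ^ n ≤ (1 + |x|) ^ (n + n') := pow_le_pow_right₀ hx (by omega)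
  have h4 : (1 + |x|) ^ n' ≤ (1 + |x|) ^ (n + n') := pow_le_pow_right₀ hx (by omega)
  calc |F v x + G v x| ≤ |F v x| + |G v x| := abs_add_le _ _
    _ ≤ C * (1 + |x|) ^ n + C' * (1 + |x|) ^ n' := add_le_add (h1 v hv x) (h2 v hv x)
    _ ≤ C * (1 + |x|) ^ (n + n') + C' * (1 + |x|) ^ (n + n') :=
        add_le_add (mul_le_mul_of_nonneg_left h3 hC) (mul_le_mul_of_nonneg_left h4 hC')
    _ = _ := by ring

theorem UG.mul {F G : ℝ → ℝ → ℝ} (hF : UG F) (hG : UG G) : UG (fun v x => F v x * G v x) := by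
  intro S
  obtain ⟨C, n, hC, h1⟩ := hF S
  obtain ⟨C', n', hC', h2⟩ := hG S
  refine ⟨C * C', n + n', by positivity, fun v hv x => ?_⟩
  have hx := one_le_base x
  calc |F v x * G v x| = |F v x| * |G v x| := abs_mul _ _
    _ ≤ (C * (1 + |x|) ^ n) * (C' * (1 + |x|) ^ n') :=
        mul_le_mul (h1 v hv x) (h2 v hv x) (abs_nonneg _) (by positivity)
    _ = _ := by rw [pow_add]; ring

theorem UG.const_mul {F : ℝ → ℝ → ℝ} (hF : UG F) (c : ℝ) : UG (fun v x => c * F v x) :=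
  (UG.const c).mul hF

theorem UG.sub {F G : ℝ → ℝ → ℝ} (hF : UG F) (hG : UG G) : UG (fun v x => F v x - G v x) := by
  have := hF.add (hG.const_mul (-1))
  simpa [sub_eq_add_neg] using this

theorem UG.pow {F : ℝ → ℝ → ℝ} (hF : UG F) (n : ℕ) : UG (fun v x => F v x ^ n) := by
  induction n with
  | zero => simpa using UG.const 1
  | succ n ih => simpa [pow_succ] using ih.mul hF

theorem rv_ug (h : WM z f) (n : ℕ) : UG (rv z f n) := by
  intro S
  obtain ⟨C, k, hC, hb⟩ := T_growth h (Sm_en h.toW n).pg (Real.sqrt S)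
  refine ⟨C, k, hC, fun v hv x => hb _ ?_ x⟩
  rw [abs_of_nonneg (Real.sqrt_nonneg v)]
  exact Real.sqrt_le_sqrt hv.2

theorem q1_ug (h : WM z f) : UG (q1 z f) := (rv_ug h 1).const_mul _
theorem q2_ug (h : WM z f) : UG (q2 z f) := ((rv_ug h 2).sub ((rv_ug h 1).pow 2)).const_mul _
theorem q3_ug (h : WM z f) : UG (q3 z f) :=
  (((rv_ug h 3).sub (((rv_ug h 1).const_mul 3).mul (rv_ug h 2))).add
    (((rv_ug h 1).pow 3).const_mul 2)).const_mul _
theorem q4_ug (h : WM z f) : UG (q4 z f) :=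
  (((((rv_ug h 4).sub (((rv_ug h 3).const_mul 4).mul (rv_ug h 1))).sub
    (((rv_ug h 2).pow 2).const_mul 3)).add (((rv_ug h 2).const_mul 12).mul ((rv_ug h 1).pow 2))).sub
    (((rv_ug h 1).pow 4).const_mul 6)).const_mul _
theorem q5_ug (h : WM z f) : UG (q5 z f) :=
  (((((((rv_ug h 5).sub (((rv_ug h 4).const_mul 5).mul (rv_ug h 1))).sub
    (((rv_ug h 3).const_mul 10).mul (rv_ug h 2))).add
    (((rv_ug h 3).const_mul 20).mul ((rv_ug h 1).pow 2))).add
    ((((rv_ug h 2).pow 2).const_mul 30).mul (rv_ug h 1))).sub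
    (((rv_ug h 2).const_mul 60).mul ((rv_ug h 1).pow 3))).add
    (((rv_ug h 1).pow 5).const_mul 24)).const_mul _

theorem q1_Sm (h : WM z f) (v : ℝ) : Sm (q1 z f v) := (r_Sm h 1 (Real.sqrt v)).const_mul z⁻¹

theorem q0_nonpos (h : W z f) (v x : ℝ) : q0 z f v x ≤ 0 := by
  unfold q0
  refine mul_nonpos_of_nonneg_of_nonpos (inv_nonneg.2 h.hz) ?_
  refine Real.log_nonpos (h.Hpos _ x).le ?_
  have := H_mono h.egg (EG.const 1) (gz_le_one h.hz h.nonpos) (Real.sqrt v) x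
  rwa [H_const] at this

theorem q0_ug (h : WM z f) : UG (q0 z f) := by
  intro S
  obtain ⟨C, n, hC, hb⟩ := q1_ug h S
  -- bound at x = 0 by continuity in v
  have hc : Continuous (fun v => q0 z f v 0) :=
    (q0_cont h.toW).comp (continuous_id.prodMk continuous_const)
  obtain ⟨B, hB⟩ := (isCompact_Icc (a := 0) (b := S)).exists_bound_of_continuousOn hc.continuousOn
  refine ⟨|B| + C, n + 1, by positivity, fun v hv x => ?_⟩
  have h0 : |q0 z f v 0| ≤ |B| := by
    have := hB v hv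
    rw [Real.norm_eq_abs] at this
    exact this.trans (le_abs_self B)
  have hx := one_le_base x
  have h1 : |q0 z f v x - q0 z f v 0| ≤ C * (1 + |x|) ^ n * |x| := by
    have := Convex.norm_image_sub_le_of_norm_hasDerivWithin_le (f := q0 z f v) (f' := q1 z f v)
      (s := uIcc 0 x) (x := 0) (y := x) (C := C * (1 + |x|) ^ n)
      (fun y _ => (q0_hd_x h.toW v y).hasDerivWithinAt) (fun y hy => ?_) (convex_uIcc 0 x)
      left_mem_uIcc right_mem_uIcc
    · rw [sub_zero, Real.norm_eq_abs, Real.norm_eq_abs] at this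
      exact this
    · rw [Real.norm_eq_abs]
      refine (hb v hv y).trans (mul_le_mul_of_nonneg_left ?_ hC)
      have h3 : |y| ≤ |x| := by
        rcases le_total 0 x with h4 | h4
        · rw [uIcc_of_le h4] at hy
          rw [abs_of_nonneg hy.1, abs_of_nonneg h4]; exact hy.2
        · rw [uIcc_of_ge h4] at hy
          rw [abs_of_nonpos hy.2, abs_of_nonpos h4]; linarith [hy.1]
      exact pow_le_pow_left₀ (by positivity) (by linarith) n
  have h2 : (1 : ℝ) ≤ (1 + |x|) ^ (n + 1) := one_le_pow₀ hx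
  have h3 : (1 + |x|) ^ n * |x| ≤ (1 + |x|) ^ (n + 1) := by
    rw [pow_succ]
    exact mul_le_mul_of_nonneg_left (by linarith) (by positivity)
  have h4 : |q0 z f v x| ≤ |q0 z f v 0| + |q0 z f v x - q0 z f v 0| := by
    have := abs_add_le (q0 z f v 0) (q0 z f v x - q0 z f v 0)
    simpa using this
  have h5 := mul_le_mul_of_nonneg_left h2 (abs_nonneg B)
  have h6 := mul_le_mul_of_nonneg_left h3 hC
  nlinarith

theorem q0_Sm (h : WM z f) (v : ℝ) (hv : 0 ≤ v) : Sm (q0 z f v) := by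
  refine Sm.of_deriv (φ' := q1 z f v) ?_ (q0_hd_x h.toW v) (q1_Sm h v)
  obtain ⟨C, n, hC, hb⟩ := q0_ug h v
  refine ⟨?_, C, n, hC, fun x => hb v ⟨hv, le_rfl⟩ x⟩
  exact (q0_cont h.toW).comp (continuous_const.prodMk continuous_id)

end

end Crest.Agent.R146.R1c_847
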