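import Crest.Agent.R146.R1c_847

/-!
Row 146, PT0-R1 (helper847), part d: propagation of the state `St δ f` through one cell
(`0 < f'`, `f'' < 0`, `1 + δ f'' > 0`, `x + δ f' > 0`, `0 < f''' ≤ M`).
-/

set_option autoImplicit false

namespace Crest.Agent.R146.R1d_847

open MeasureTheory ProbabilityTheory Filter Topology Set
open Crest.ProbabilityR.InvariantGlass
open Crest.Agent.R146.Hg_534 Crest.Agent.R146.PB_534 Crest.Agent.R146.R1a_847
open Crest.Agent.R146.R1b_847 Crest.Agent.R146.R1c_847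

noncomputable section

/-- the state at a fixed time (`δ = D(t)`, `f = ψ(t,·)`) -/
structure St (δ : ℝ) (f : ℝ → ℝ) : Prop where
  sm : Sm f
  nonpos : ∀ x, f x ≤ 0
  d1 : ∀ x, 0 < deriv f x
  d2 : ∀ x, deriv (deriv f) x < 0
  d2' : ∀ x, 0 < 1 + δ * deriv (deriv f) x
  w : ∀ x, 0 < x + δ * deriv f x
  d3 : ∀ x, 0 < deriv (deriv (deriv f)) x
  d3b : ∃ M, ∀ x, deriv (deriv (deriv f)) x ≤ M

variable {z δ : ℝ} {f : ℝ → ℝ}

theorem St.anti (h : St δ f) : StrictAnti (deriv f) :=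
  strictAnti_of_deriv_neg h.d2

theorem St.toWM (h : St δ f) (hz : 0 ≤ z) : WM z f :=
  { hz := hz, sm := h.sm, nonpos := h.nonpos, d1 := fun x => (h.d1 x).le, anti := h.anti.antitone }

theorem dz_one (z : ℝ) (f : ℝ → ℝ) : dz z f (fun _ => 1) = fun y => z * deriv f y := by
  funext y; unfold dz; simp

theorem dz_const_mul (z : ℝ) (f : ℝ → ℝ) {φ : ℝ → ℝ} (hφ : Sm φ) (c : ℝ) :
    dz z f (fun y => c * φ y) = fun y => c * dz z f φ y := by
  funext y
  unfold dz
  rw [deriv_const_mul _ (hφ.diff y)]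
  ring

theorem dz_add (z : ℝ) (f : ℝ → ℝ) {φ ψ : ℝ → ℝ} (hφ : Sm φ) (hψ : Sm ψ) :
    dz z f (fun y => φ y + ψ y) = fun y => dz z f φ y + dz z f ψ y := by
  funext y
  unfold dz
  rw [deriv_fun_add (hφ.diff y) (hψ.diff y)]
  ring

/-- `q1 = ⟨f'⟩` -/
theorem q1_eq (hz : z ≠ 0) (v x : ℝ) : q1 z f v x = T z f (Real.sqrt v) (deriv f) x := by
  unfold q1 rv r en en
  rw [dz_one, T_const_mul]
  field_simp

/-- `q2 = ⟨d f'⟩ - ⟨f'⟩⟨d 1⟩` -/
theorem q2_eq (h : W z f) (hz : z ≠ 0) (v x : ℝ) :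
    q2 z f v x = T z f (Real.sqrt v) (dz z f (deriv f)) x -
      T z f (Real.sqrt v) (deriv f) x * T z f (Real.sqrt v) (dz z f (fun _ => 1)) x := by
  unfold q2 rv r en en en
  rw [dz_one, dz_const_mul z f h.sm.deriv, T_const_mul, T_const_mul]
  field_simp

theorem q1_zero (hz : z ≠ 0) (x : ℝ) : q1 z f 0 x = deriv f x := by
  rw [q1_eq hz, Real.sqrt_zero, T_zero]

theorem q0_zero' (hz : z ≠ 0) : q0 z f 0 = f := funext fun x => q0_zero hz x

theorem q1_zero' (hz : z ≠ 0) : q1 z f 0 = deriv f := funext fun x => q1_zero hz x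

theorem q2_zero' (h : W z f) (hz : z ≠ 0) : q2 z f 0 = deriv (deriv f) := by
  funext x
  have h1 := q1_hd_x h 0 x
  rw [q1_zero' hz] at h1
  exact h1.deriv.symm

theorem q3_zero' (h : W z f) (hz : z ≠ 0) : q3 z f 0 = deriv (deriv (deriv f)) := by
  funext x
  have h1 := q2_hd_x h 0 x
  rw [q2_zero' h hz] at h1
  exact h1.deriv.symm

theorem q1_pos (h : St δ f) (hz : 0 < z) (v x : ℝ) : 0 < q1 z f v x := by
  rcases eq_or_ne (Real.sqrt v) 0 with hv | hv
  · rw [q1_eq hz.ne', hv, T_zero]; exact h.d1 x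
  · rw [q1_eq hz.ne']
    exact T_pos (h.toWM hz.le).toW h.sm.deriv.pg (fun y => (h.d1 y).le) (h.d1 0) hv x

theorem q2_neg (h : St δ f) (hz : 0 < z) {v : ℝ} (hv : 0 ≤ v) (x : ℝ) : q2 z f v x < 0 := by
  have hW := (h.toWM hz.le).toW
  rcases hv.lt_or_eq with hv | hv
  · have hs : Real.sqrt v ≠ 0 := (Real.sqrt_pos.2 hv).ne'
    have hm : StrictMono (fun y => -deriv f y) := fun a b hab => neg_lt_neg (h.anti hab)
    have h1 := T_deriv_pos hW h.sm.deriv.neg hm hs x
    have e1 : (fun y => -deriv f y) = fun y => (-1) * deriv f y := by funext y; ring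
    rw [e1, dz_const_mul z f h.sm.deriv, T_const_mul, T_const_mul] at h1
    rw [q2_eq hW hz.ne']
    linarith
  · rw [← hv, q2_zero' hW hz.ne']
    exact h.d2 x

/-- `w(v,x) = ⟨y + δ f'⟩` -/
theorem w_eq (h : W z f) (hz : z ≠ 0) {v : ℝ} (hv : 0 ≤ v) (x : ℝ) :
    x + (δ + z * v) * q1 z f v x = T z f (Real.sqrt v) (fun y => y + δ * deriv f y) x := by
  rw [T_add h PG.id (h.sm.deriv.pg.const_mul δ), T_const_mul, T_y h, q1_eq hz, Real.sq_sqrt hv]
  ring

theorem w_pos (h : St δ f) (hz : 0 < z) {v : ℝ} (hv : 0 ≤ v) (x : ℝ) :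
    0 < x + (δ + z * v) * q1 z f v x := by
  have hW := (h.toWM hz.le).toW
  rcases hv.lt_or_eq with hv' | hv'
  · rw [w_eq hW hz.ne' hv]
    exact T_pos hW (PG.id.add (h.sm.deriv.pg.const_mul δ)) (fun y => (h.w y).le) (h.w 0)
      (Real.sqrt_pos.2 hv').ne' x
  · rw [← hv', q1_zero hz.ne']
    have := h.w x
    simpa using this

theorem V_pos (h : St δ f) (hz : 0 < z) {v : ℝ} (hv : 0 ≤ v) (x : ℝ) :
    0 < 1 + (δ + z * v) * q2 z f v x := by
  have hW := (h.toWM hz.le).toW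
  rcases hv.lt_or_eq with hv' | hv'
  · have hs : Real.sqrt v ≠ 0 := (Real.sqrt_pos.2 hv').ne'
    have hsm : Sm (fun y => y + δ * deriv f y) := Sm.id.add (h.sm.deriv.const_mul δ)
    have hm : StrictMono (fun y => y + δ * deriv f y) := by
      refine strictMono_of_deriv_pos fun x => ?_
      have h1 : HasDerivAt (fun y => y + δ * deriv f y) (1 + δ * deriv (deriv f) x) x :=
        (hasDerivAt_id' x).add ((h.sm.deriv.hd x).const_mul δ)
      rw [h1.deriv]
      exact h.d2' x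
    have h1 := T_deriv_pos hW hsm hm hs x
    have h2 := T_hd_x hW hsm (Real.sqrt v) x
    have h3 : HasDerivAt (fun x => x + (δ + z * v) * q1 z f v x)
        (1 + (δ + z * v) * q2 z f v x) x :=
      (hasDerivAt_id' x).add ((q1_hd_x hW v x).const_mul _)
    have h4 : (fun x => x + (δ + z * v) * q1 z f v x) =
        fun x => T z f (Real.sqrt v) (fun y => y + δ * deriv f y) x :=
      funext fun x => w_eq hW hz.ne' hv x
    rw [h4] at h3
    rw [h3.unique h2]
    exact h1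
  · rw [← hv', q2_zero' hW hz.ne']
    have := h.d2' x
    simpa using this

/-- polynomial growth in the form of `mp_growth` -/
theorem UG.sq {F : ℝ → ℝ → ℝ} (hF : UG F) (S : ℝ) :
    ∃ (C : ℝ) (n : ℕ), 0 ≤ C ∧ ∀ v ∈ Icc 0 S, ∀ x, |F v x| ≤ C * (1 + x ^ 2) ^ n := by
  obtain ⟨C, n, hC, hb⟩ := hF S
  refine ⟨C * 2 ^ n, n, by positivity, fun v hv x => (hb v hv x).trans ?_⟩
  rw [mul_assoc, ← mul_pow]
  refine mul_le_mul_of_nonneg_left (pow_le_pow_left₀ (by positivity) ?_ n) hC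
  have := sq_abs x
  nlinarith [sq_nonneg (|x| - 1), abs_nonneg x]

theorem q2_bd (h : St δ f) (hδ : 0 < δ) (hz : 0 < z) {v : ℝ} (hv : 0 ≤ v) (x : ℝ) :
    -q2 z f v x ≤ 1 / δ := by
  have h1 := V_pos h hz hv x
  have h2 := q2_neg h hz hv x
  have h3 : 0 ≤ z * v := mul_nonneg hz.le hv
  rw [le_div_iff₀ hδ]
  nlinarith

/-- linear growth of the drift -/
theorem q1_lin (h : St δ f) (hδ : 0 < δ) (hz : 0 < z) (S : ℝ) :
    ∃ A : ℝ, 0 ≤ A ∧ ∀ v ∈ Icc 0 S, ∀ x, |z * q1 z f v x| ≤ A * (1 + |x|) := by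
  have hM := h.toWM (z := z) hz.le
  have hW := hM.toW
  obtain ⟨C, n, hC, hb⟩ := q1_ug hM S
  refine ⟨z * (C + 1 / δ), by positivity, fun v hv x => ?_⟩
  have h0 : |q1 z f v 0| ≤ C := by
    have := hb v hv 0
    simpa using this
  have h1 : |q1 z f v x - q1 z f v 0| ≤ 1 / δ * |x| := by
    have := Convex.norm_image_sub_le_of_norm_hasDerivWithin_le (f := q1 z f v) (f' := q2 z f v)
      (s := univ) (x := 0) (y := x) (C := 1 / δ)
      (fun y _ => (q1_hd_x hW v y).hasDerivWithinAt) (fun y _ => ?_) convex_univ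
      (mem_univ _) (mem_univ _)
    · rw [sub_zero, Real.norm_eq_abs, Real.norm_eq_abs] at this
      exact this
    · rw [Real.norm_eq_abs, abs_of_neg (q2_neg h hz hv.1 y)]
      exact q2_bd h hδ hz hv.1 y
  have h2 : |q1 z f v x| ≤ C + 1 / δ * |x| := by
    have := abs_add_le (q1 z f v 0) (q1 z f v x - q1 z f v 0)
    have e : q1 z f v 0 + (q1 z f v x - q1 z f v 0) = q1 z f v x := by ring
    rw [e] at this
    linarith
  rw [abs_mul, abs_of_pos hz, mul_assoc]
  refine mul_le_mul_of_nonneg_left (h2.trans ?_) hz.le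
  have hx := abs_nonneg x
  have h4 : 0 < 1 / δ := by positivity
  nlinarith

theorem q3_nonneg (h : St δ f) (hδ : 0 < δ) (hz : 0 < z) {v : ℝ} (hv : 0 ≤ v) (x : ℝ) :
    0 ≤ q3 z f v x := by
  have hM := h.toWM (z := z) hz.le
  have hW := hM.toW
  obtain ⟨A, hA, hlin⟩ := q1_lin h hδ hz v
  obtain ⟨C, n, hC, hg⟩ := UG.sq (q3_ug hM) v
  have key := MaxP_86.mp_growth (T := v) (A := A + 1) (C := C) (k := n)
    (u := fun v x => -q3 z f v x)
    (ut := fun v x => -(1 / 2 * (q5 z f v x + 6 * z * q2 z f v x * q3 z f v x +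
      2 * z * q1 z f v x * q4 z f v x)))
    (ux := fun v x => -q4 z f v x) (uxx := fun v x => -q5 z f v x)
    (a := fun _ _ => 1 / 2) (B := fun v x => z * q1 z f v x) (c := fun v x => 3 * z * q2 z f v x)
    (q3_cont hW).neg.continuousOn
    (fun t ht x => ((q3_hd_v hW hz.ne' ht.1.le x).hasDerivAt
      (Ici_mem_nhds ht.1)).neg.hasDerivWithinAt)
    (fun t ht x => (q3_hd_x hW t x).neg) (fun t ht x => (q4_hd_x hW t x).neg)
    (by positivity) (fun _ _ _ _ => by norm_num)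
    (fun _ _ x _ => by nlinarith [sq_nonneg x])
    (fun t ht x _ => by
      have := hlin t ⟨ht.1.le, ht.2⟩ x
      have h5 := abs_nonneg x
      nlinarith)
    (fun t ht x _ => by
      have := q2_neg h hz ht.1.le x
      nlinarith)
    (fun t ht x _ => by
      nlinarith)
    (fun x => by
      rw [q3_zero' hW hz.ne']
      have := h.d3 x
      linarith)
    (fun t ht x => (neg_le_abs _).trans (hg t ht x))
  have := key v ⟨hv, le_rfl⟩ x
  linarith

theorem q3_le (h : St δ f) (hδ : 0 < δ) (hz : 0 < z) {M : ℝ}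
    (hMb : ∀ x, deriv (deriv (deriv f)) x ≤ M) {v : ℝ} (hv : 0 ≤ v) (x : ℝ) :
    q3 z f v x ≤ M := by
  have hM := h.toWM (z := z) hz.le
  have hW := hM.toW
  obtain ⟨A, hA, hlin⟩ := q1_lin h hδ hz v
  obtain ⟨C, n, hC, hg⟩ := UG.sq (q3_ug hM) v
  have hM0 : 0 ≤ M := (h.d3 0).le.trans (hMb 0)
  have key := MaxP_86.mp_growth (T := v) (A := A + 1) (C := C) (k := n)
    (u := fun v x => q3 z f v x - M)
    (ut := fun v x => 1 / 2 * (q5 z f v x + 6 * z * q2 z f v x * q3 z f v x +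
      2 * z * q1 z f v x * q4 z f v x))
    (ux := fun v x => q4 z f v x) (uxx := fun v x => q5 z f v x)
    (a := fun _ _ => 1 / 2) (B := fun v x => z * q1 z f v x) (c := fun _ _ => 0)
    ((q3_cont hW).sub continuous_const).continuousOn
    (fun t ht x => ((q3_hd_v hW hz.ne' ht.1.le x).hasDerivAt
      (Ici_mem_nhds ht.1)).hasDerivWithinAt.sub_const M)
    (fun t ht x => (q3_hd_x hW t x).sub_const M) (fun t ht x => (q4_hd_x hW t x))
    (by positivity) (fun _ _ _ _ => by norm_num)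
    (fun _ _ x _ => by nlinarith [sq_nonneg x])
    (fun t ht x _ => by
      have := hlin t ⟨ht.1.le, ht.2⟩ x
      have h5 := abs_nonneg x
      nlinarith)
    (fun t ht x _ => by positivity)
    (fun t ht x _ => by
      have h1 := q2_neg h hz ht.1.le x
      have h2 := q3_nonneg h hδ hz ht.1.le x
      have h3 : z * q2 z f t x * q3 z f t x ≤ 0 :=
        mul_nonpos_of_nonpos_of_nonneg (mul_nonpos_of_nonneg_of_nonpos hz.le h1.le) h2
      nlinarith)
    (fun x => by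
      rw [q3_zero' hW hz.ne']
      have := hMb x
      linarith)
    (fun t ht x => by
      have := (le_abs_self _).trans (hg t ht x)
      linarith)
  have := key v ⟨hv, le_rfl⟩ x
  linarith

/-- tilted average as a function of the variance -/
def Gv (z : ℝ) (f φ : ℝ → ℝ) (v x : ℝ) : ℝ := T z f (Real.sqrt v) φ x

theorem Gv_hd_x (h : W z f) {φ : ℝ → ℝ} (hφ : Sm φ) (v x : ℝ) :
    HasDerivAt (Gv z f φ v)
      (Gv z f (dz z f φ) v x - Gv z f φ v x * Gv z f (dz z f (fun _ => 1)) v x) x :=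
  T_hd_x h hφ _ x

theorem Gv_hd_v (h : W z f) {φ : ℝ → ℝ} (hφ : Sm φ) {v : ℝ} (hv : 0 ≤ v) (x : ℝ) :
    HasDerivWithinAt (fun v => Gv z f φ v x)
      (1 / 2 * (Gv z f (dz z f (dz z f φ)) v x -
        Gv z f φ v x * Gv z f (dz z f (dz z f (fun _ => 1))) v x)) (Ici 0) v :=
  T_hd_v h hφ hv x

theorem Gv_ug (h : WM z f) {φ : ℝ → ℝ} (hφ : PG φ) : UG (Gv z f φ) := by
  intro S
  obtain ⟨C, k, hC, hb⟩ := T_growth h hφ (Real.sqrt S)
  refine ⟨C, k, hC, fun v hv x => hb _ ?_ x⟩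
  rw [abs_of_nonneg (Real.sqrt_nonneg v)]
  exact Real.sqrt_le_sqrt hv.2

theorem Gv_cont (h : W z f) {φ : ℝ → ℝ} (hφ : PG φ) :
    Continuous (fun p : ℝ × ℝ => Gv z f φ p.1 p.2) :=
  (T_cont h hφ).comp ((Real.continuous_sqrt.comp continuous_fst).prodMk continuous_snd)

theorem Gv_one (hz : z ≠ 0) (v x : ℝ) :
    Gv z f (dz z f (fun _ => 1)) v x = z * q1 z f v x := by
  rw [q1_eq hz, dz_one]
  unfold Gv
  rw [T_const_mul]

/-- **strict positivity of the third derivative** -/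
theorem q3_lower (h : St δ f) (hδ : 0 < δ) (hz : 0 < z) {v : ℝ} (hv : 0 ≤ v) (x : ℝ) :
    Real.exp (-(3 * z / δ) * v) * Gv z f (deriv (deriv (deriv f))) v x ≤ q3 z f v x := by
  have hM := h.toWM (z := z) hz.le
  have hW := hM.toW
  obtain ⟨A, hA, hlin⟩ := q1_lin h hδ hz v
  set φ := deriv (deriv (deriv f)) with hφd
  have hφ : Sm φ := h.sm.deriv.deriv.deriv
  set c := 3 * z / δ with hc
  have hc0 : 0 ≤ c := by positivity
  have hug : UG (fun v x => Real.exp (-c * v) * Gv z f φ v x - q3 z f v x) := by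
    refine UG.sub ?_ (q3_ug hM)
    intro S
    obtain ⟨C, k, hC, hb⟩ := Gv_ug hM hφ.pg S
    refine ⟨C, k, hC, fun v hv x => ?_⟩
    rw [abs_mul, abs_of_pos (Real.exp_pos _)]
    have h1 : Real.exp (-c * v) ≤ 1 := by
      rw [Real.exp_le_one_iff]; nlinarith [hv.1]
    calc Real.exp (-c * v) * |Gv z f φ v x| ≤ 1 * |Gv z f φ v x| :=
          mul_le_mul_of_nonneg_right h1 (abs_nonneg _)
      _ ≤ _ := by rw [one_mul]; exact hb v hv x
  obtain ⟨C, n, hC, hg⟩ := UG.sq hug v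
  set G0 := Gv z f φ with hG0
  set d1 := Gv z f (dz z f φ) with hd1
  set d2 := Gv z f (dz z f (dz z f φ)) with hd2
  set e1 := Gv z f (dz z f (fun _ => 1)) with he1
  set e2 := Gv z f (dz z f (dz z f (fun _ => 1))) with he2
  have s1 := Sm_dz (z := z) hW.sm hφ
  have s2 := Sm_dz (z := z) hW.sm (Sm.const 1)
  have key := MaxP_86.mp_growth (T := v) (A := A + 1) (C := C) (k := n)
    (u := fun v x => Real.exp (-c * v) * G0 v x - q3 z f v x)
    (ut := fun v x => (Real.exp (-c * v) * (-c)) * G0 v x + Real.exp (-c * v) *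
      (1 / 2 * (d2 v x - G0 v x * e2 v x)) - 1 / 2 * (q5 z f v x + 6 * z * q2 z f v x * q3 z f v x +
      2 * z * q1 z f v x * q4 z f v x))
    (ux := fun v x => Real.exp (-c * v) * (d1 v x - G0 v x * e1 v x) - q4 z f v x)
    (uxx := fun v x => Real.exp (-c * v) * ((d2 v x - d1 v x * e1 v x) -
      ((d1 v x - G0 v x * e1 v x) * e1 v x + G0 v x * (e2 v x - e1 v x * e1 v x))) - q5 z f v x)
    (a := fun _ _ => 1 / 2) (B := fun v x => z * q1 z f v x) (c := fun _ _ => -c)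
    (by
      have h1 := Gv_cont hW hφ.pg
      have h2 := q3_cont hW
      have : Continuous (fun p : ℝ × ℝ => Real.exp (-c * p.1) * Gv z f φ p.1 p.2 -
        q3 z f p.1 p.2) := by fun_prop
      exact this.continuousOn)
    (fun t ht x => by
      have h1 : HasDerivAt (fun v : ℝ => Real.exp (-c * v)) (Real.exp (-c * t) * (-c)) t := by
        have := ((hasDerivAt_id t).const_mul (-c)).exp
        simpa using this
      have h2 := (Gv_hd_v hW hφ ht.1.le x).hasDerivAt (Ici_mem_nhds ht.1)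
      have h3 := (q3_hd_v hW hz.ne' ht.1.le x).hasDerivAt (Ici_mem_nhds ht.1)
      exact ((h1.mul h2).sub h3).hasDerivWithinAt)
    (fun t ht x => ((Gv_hd_x hW hφ t x).const_mul _).sub (q3_hd_x hW t x))
    (fun t ht x => by
      have h1 := Gv_hd_x hW s1 t x
      have h2 := Gv_hd_x hW hφ t x
      have h3 := Gv_hd_x hW s2 t x
      exact ((h1.sub (h2.mul h3)).const_mul _).sub (q4_hd_x hW t x))
    (by positivity) (fun _ _ _ _ => by norm_num)
    (fun _ _ x _ => by nlinarith [sq_nonneg x])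
    (fun t ht x _ => by
      have := hlin t ⟨ht.1.le, ht.2⟩ x
      have h5 := abs_nonneg x
      nlinarith)
    (fun t ht x _ => by
      linarith)
    (fun t ht x _ => by
      have h1 := q2_bd h hδ hz ht.1.le x
      have h2 := q3_nonneg h hδ hz ht.1.le x
      have h3 : -(3 * z * q2 z f t x * q3 z f t x) ≤ c * q3 z f t x := by
        have h4 : -(3 * z * q2 z f t x) ≤ c := by
          have h5 := mul_le_mul_of_nonneg_left h1 (by positivity : 0 ≤ 3 * z)
          have e : c = 3 * z * (1 / δ) := by rw [hc]; ring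
          linarith
        have := mul_le_mul_of_nonneg_right h4 h2
        linarith
      have h6 : e1 t x = z * q1 z f t x := by rw [he1, Gv_one hz.ne']
      rw [← h6]
      have h7 : 2 * z * q1 z f t x * q4 z f t x = 2 * e1 t x * q4 z f t x := by rw [h6]; ring
      rw [h7]
      nlinarith)
    (fun x => by
      have h1 : G0 0 x = φ x := by
        rw [hG0]; unfold Gv; rw [Real.sqrt_zero, T_zero]
      rw [h1, q3_zero' hW hz.ne']
      simp [hφd])
    (fun t ht x => (le_abs_self _).trans (hg t ht x))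
  have := key v ⟨hv, le_rfl⟩ x
  linarith

theorem q3_pos (h : St δ f) (hδ : 0 < δ) (hz : 0 < z) {v : ℝ} (hv : 0 ≤ v) (x : ℝ) :
    0 < q3 z f v x := by
  have hW := (h.toWM (z := z) hz.le).toW
  rcases hv.lt_or_eq with hv' | hv'
  · refine lt_of_lt_of_le (mul_pos (Real.exp_pos _) ?_) (q3_lower h hδ hz hv x)
    exact T_pos hW h.sm.deriv.deriv.deriv.pg (fun y => (h.d3 y).le) (h.d3 0)
      (Real.sqrt_pos.2 hv').ne' x
  · rw [← hv', q3_zero' hW hz.ne']
    exact h.d3 x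

/-- **propagation of the state through one cell** -/
theorem St.step (h : St δ f) (hδ : 0 < δ) (hz : 0 < z) {v : ℝ} (hv : 0 ≤ v) :
    St (δ + z * v) (gaussOp z v f) := by
  have hM := h.toWM (z := z) hz.le
  have hW := hM.toW
  rw [gaussOp_eq hz.ne']
  have e1 : deriv (q0 z f v) = q1 z f v := funext fun x => (q0_hd_x hW v x).deriv
  have e2 : deriv (q1 z f v) = q2 z f v := funext fun x => (q1_hd_x hW v x).deriv
  have e3 : deriv (q2 z f v) = q3 z f v := funext fun x => (q2_hd_x hW v x).deriv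
  obtain ⟨M, hMb⟩ := h.d3b
  refine ⟨q0_Sm hM v hv, q0_nonpos hW v, ?_, ?_, ?_, ?_, ?_, ⟨M, ?_⟩⟩
  · rw [e1]; exact q1_pos h hz v
  · rw [e1, e2]; exact q2_neg h hz hv
  · rw [e1, e2]; exact V_pos h hz hv
  · rw [e1]; exact w_pos h hz hv
  · rw [e1, e2, e3]; exact q3_pos h hδ hz hv
  · rw [e1, e2, e3]; exact q3_le h hδ hz hMb hv

end

end Crest.Agent.R146.R1d_847
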