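import Crest.Agent.R146.R1d_847
import Crest.Agent.R146.StepDef_791

/-!
Row 146, PT0-R1 (helper847), part e: gluing of the cells. `sys_of`: the step system generated from a
terminal state `St δ f` satisfies all equations, continuity, growth and sign statements on `[0,T]`.
-/

set_option autoImplicit false

namespace Crest.Agent.R146.R1e_847

open MeasureTheory ProbabilityTheory Filter Topology Set
open Crest.ProbabilityR.InvariantGlass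
open Crest.Agent.R146.Hg_534 Crest.Agent.R146.PB_534 Crest.Agent.R146.R1a_847
open Crest.Agent.R146.R1b_847 Crest.Agent.R146.R1c_847 Crest.Agent.R146.R1d_847
open Crest.Agent.R146.StepDef_791

noncomputable section

/-- space derivative of a function of `(t,x)` -/
def Dx (ψ : ℝ → ℝ → ℝ) (t x : ℝ) : ℝ := deriv (ψ t) x

theorem Dx_congr {F G : ℝ → ℝ → ℝ} {t : ℝ} (h : F t = G t) : Dx F t = Dx G t := by
  funext x; unfold Dx; rw [h]

/-- gluing at time `s` -/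
def gl (s : ℝ) (F G : ℝ → ℝ → ℝ) (t x : ℝ) : ℝ := if s ≤ t then F t x else G t x

theorem Dx_gl (s : ℝ) (F G : ℝ → ℝ → ℝ) : Dx (gl s F G) = gl s (Dx F) (Dx G) := by
  funext t x
  unfold Dx gl
  by_cases h : s ≤ t
  · have : (fun x => if s ≤ t then F t x else G t x) = F t := by funext x; rw [if_pos h]
    rw [this, if_pos h]
  · have : (fun x => if s ≤ t then F t x else G t x) = G t := by funext x; rw [if_neg h]
    rw [this, if_neg h]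

theorem gl_of_le {s : ℝ} {F G : ℝ → ℝ → ℝ} {t : ℝ} (h : s ≤ t) : gl s F G t = F t := by
  funext x; unfold gl; rw [if_pos h]

theorem gl_of_lt {s : ℝ} {F G : ℝ → ℝ → ℝ} {t : ℝ} (h : t < s) : gl s F G t = G t := by
  funext x; unfold gl; rw [if_neg (not_le.2 h)]

theorem gl_of_le' {s : ℝ} {F G : ℝ → ℝ → ℝ} (hs : F s = G s) {t : ℝ} (h : t ≤ s) :
    gl s F G t = G t := by
  rcases h.lt_or_eq with h | h
  · exact gl_of_lt h
  · rw [h, gl_of_le le_rfl, hs]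

theorem gl_cont {s T : ℝ} {F G : ℝ → ℝ → ℝ} (hs : F s = G s) (h0 : 0 ≤ s) (hT : s ≤ T)
    (hF : ContinuousOn (fun q : ℝ × ℝ => F q.1 q.2) (Icc s T ×ˢ univ))
    (hG : ContinuousOn (fun q : ℝ × ℝ => G q.1 q.2) (Icc 0 s ×ˢ univ)) :
    ContinuousOn (fun q : ℝ × ℝ => gl s F G q.1 q.2) (Icc 0 T ×ˢ univ) := by
  have h1 : ContinuousOn (fun q : ℝ × ℝ => gl s F G q.1 q.2) (Icc s T ×ˢ univ) :=
    hF.congr fun q hq => by rw [gl_of_le hq.1.1]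
  have h2 : ContinuousOn (fun q : ℝ × ℝ => gl s F G q.1 q.2) (Icc 0 s ×ˢ univ) :=
    hG.congr fun q hq => by rw [gl_of_le' hs hq.1.2]
  have h3 := h2.union_of_isClosed h1 (isClosed_Icc.prod isClosed_univ)
    (isClosed_Icc.prod isClosed_univ)
  rw [← union_prod, Icc_union_Icc_eq_Icc h0 hT] at h3
  exact h3

/-- uniform polynomial growth on `[a,b]` -/
def Gr (a b : ℝ) (F : ℝ → ℝ → ℝ) : Prop :=
  ∃ (C : ℝ) (n : ℕ), 0 ≤ C ∧ ∀ t ∈ Icc a b, ∀ x, |F t x| ≤ C * (1 + |x|) ^ n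

theorem gl_growth {s T : ℝ} {F G : ℝ → ℝ → ℝ} (hF : Gr s T F) (hG : Gr 0 s G) :
    Gr 0 T (gl s F G) := by
  obtain ⟨C, n, hC, h1⟩ := hF
  obtain ⟨C', n', hC', h2⟩ := hG
  refine ⟨C + C', n + n', by positivity, fun t ht x => ?_⟩
  have hx := one_le_base x
  have h3 : (1 + |x|) ^ n ≤ (1 + |x|) ^ (n + n') := pow_le_pow_right₀ hx (by omega)
  have h4 : (1 + |x|) ^ n' ≤ (1 + |x|) ^ (n + n') := pow_le_pow_right₀ hx (by omega)
  have h5 : 0 ≤ (1 + |x|) ^ (n + n') := by positivity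
  rcases le_or_gt s t with h | h
  · rw [gl_of_le h]
    have := h1 t ⟨h, ht.2⟩ x
    nlinarith [mul_le_mul_of_nonneg_left h3 hC, mul_nonneg hC' h5]
  · rw [gl_of_lt h]
    have := h2 t ⟨ht.1, h.le⟩ x
    nlinarith [mul_le_mul_of_nonneg_left h4 hC', mul_nonneg hC h5]

/-- right derivative property of `F` with derivative field `F'` on `[a,b)` -/
def RD (a b : ℝ) (F F' : ℝ → ℝ → ℝ) : Prop :=
  ∀ t ∈ Ico a b, ∀ x, HasDerivWithinAt (fun s => F s x) (F' t x) (Ici t) t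

/-- left derivative property on `(a,b]` -/
def LD (a b : ℝ) (F F' : ℝ → ℝ → ℝ) : Prop :=
  ∀ t ∈ Ioc a b, ∀ x, HasDerivWithinAt (fun s => F s x) (F' t x) (Iic t) t

theorem gl_right {s T : ℝ} {F G F' G' : ℝ → ℝ → ℝ} {K' : ℝ → ℝ → ℝ}
    (hF : RD s T F F') (hG : RD 0 s G G')
    (h1 : ∀ t ∈ Ico s T, ∀ x, K' t x = F' t x) (h2 : ∀ t ∈ Ico 0 s, ∀ x, K' t x = G' t x) :
    RD 0 T (gl s F G) K' := by
  intro t ht x
  rcases le_or_gt s t with h | h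
  · rw [h1 t ⟨h, ht.2⟩ x]
    refine (hF t ⟨h, ht.2⟩ x).congr (fun r hr => ?_) ?_
    · rw [gl_of_le (h.trans hr)]
    · rw [gl_of_le h]
  · rw [h2 t ⟨ht.1, h⟩ x]
    refine (hG t ⟨ht.1, h⟩ x).congr_of_eventuallyEq ?_ ?_
    · filter_upwards [nhdsWithin_le_nhds (Iio_mem_nhds h)] with r hr
      rw [gl_of_lt hr]
    · rw [gl_of_lt h]

theorem gl_left {s T : ℝ} {F G F' G' : ℝ → ℝ → ℝ} {K' : ℝ → ℝ → ℝ} (hs : F s = G s)
    (hF : LD s T F F') (hG : LD 0 s G G')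
    (h1 : ∀ t ∈ Ioc s T, ∀ x, K' t x = F' t x) (h2 : ∀ t ∈ Ioc 0 s, ∀ x, K' t x = G' t x) :
    LD 0 T (gl s F G) K' := by
  intro t ht x
  rcases lt_or_ge s t with h | h
  · rw [h1 t ⟨h, ht.2⟩ x]
    refine (hF t ⟨h, ht.2⟩ x).congr_of_eventuallyEq ?_ ?_
    · filter_upwards [nhdsWithin_le_nhds (Ioi_mem_nhds h)] with r hr
      rw [gl_of_le (le_of_lt hr)]
    · rw [gl_of_le h.le]
  · rw [h2 t ⟨ht.1, h⟩ x]
    refine (hG t ⟨ht.1, h⟩ x).congr (fun r hr => ?_) ?_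
    · rw [gl_of_le' hs (le_trans hr h)]
    · rw [gl_of_le' hs h]

/-! ### the cell in the time variable -/

/-- time-reversed function of the variance -/
def tr (T : ℝ) (Q : ℝ → ℝ → ℝ) (t x : ℝ) : ℝ := Q (T - t) x

theorem tr_cont (T a : ℝ) {Q : ℝ → ℝ → ℝ} (hQ : Continuous (fun q : ℝ × ℝ => Q q.1 q.2)) :
    ContinuousOn (fun q : ℝ × ℝ => tr T Q q.1 q.2) (Icc a T ×ˢ univ) := by
  have : Continuous (fun q : ℝ × ℝ => tr T Q q.1 q.2) := by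
    unfold tr
    exact hQ.comp ((continuous_const.sub continuous_fst).prodMk continuous_snd)
  exact this.continuousOn

theorem tr_growth (T a : ℝ) {Q : ℝ → ℝ → ℝ} (hQ : UG Q) : Gr a T (tr T Q) := by
  obtain ⟨C, n, hC, h⟩ := hQ (T - a)
  exact ⟨C, n, hC, fun t ht x => h (T - t) ⟨by linarith [ht.2], by linarith [ht.1]⟩ x⟩

theorem tr_hd (T : ℝ) {Q Q' : ℝ → ℝ → ℝ}
    (h : ∀ v, 0 ≤ v → ∀ x, HasDerivWithinAt (fun v => Q v x) (Q' v x) (Ici 0) v) {t : ℝ}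
    (ht : t ≤ T) (x : ℝ) :
    HasDerivWithinAt (fun s => tr T Q s x) (-(Q' (T - t) x)) (Iic T) t := by
  have h1 : HasDerivWithinAt (fun s : ℝ => T - s) (-1) (Iic T) t := by
    simpa using ((hasDerivAt_id t).const_sub T).hasDerivWithinAt
  have h2 : MapsTo (fun s : ℝ => T - s) (Iic T) (Ici 0) := by
    intro r hr
    simp only [mem_Iic] at hr
    simp only [mem_Ici]
    linarith
  have h3 := HasDerivWithinAt.comp (h₂ := fun v => Q v x) (h := fun s : ℝ => T - s) t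
    (h (T - t) (by linarith) x) h1 h2
  have e : -(Q' (T - t) x) = Q' (T - t) x * (-1) := by ring
  rw [e]
  exact h3

theorem tr_RD (T a : ℝ) {Q Q' : ℝ → ℝ → ℝ}
    (h : ∀ v, 0 ≤ v → ∀ x, HasDerivWithinAt (fun v => Q v x) (Q' v x) (Ici 0) v) :
    RD a T (tr T Q) (fun t x => -(Q' (T - t) x)) := by
  intro t ht x
  exact ((tr_hd T h ht.2.le x).hasDerivAt (Iic_mem_nhds ht.2)).hasDerivWithinAt

theorem tr_LD (T a : ℝ) {Q Q' : ℝ → ℝ → ℝ}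
    (h : ∀ v, 0 ≤ v → ∀ x, HasDerivWithinAt (fun v => Q v x) (Q' v x) (Ici 0) v) :
    LD a T (tr T Q) (fun t x => -(Q' (T - t) x)) := by
  intro t ht x
  exact (tr_hd T h ht.2 x).mono (Iic_subset_Iic.2 ht.2)

/-! ### the system -/

/-- all facts on `[0,T]` in terms of the derivatives of `ψ` -/
structure Sys (T : ℝ) (D m ml : ℝ → ℝ) (ψ : ℝ → ℝ → ℝ) : Prop where
  st : ∀ t ∈ Icc 0 T, St (D t) (ψ t)
  c0 : ContinuousOn (fun q : ℝ × ℝ => ψ q.1 q.2) (Icc 0 T ×ˢ univ)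
  c1 : ContinuousOn (fun q : ℝ × ℝ => Dx ψ q.1 q.2) (Icc 0 T ×ˢ univ)
  c2 : ContinuousOn (fun q : ℝ × ℝ => Dx (Dx ψ) q.1 q.2) (Icc 0 T ×ˢ univ)
  c3 : ContinuousOn (fun q : ℝ × ℝ => Dx (Dx (Dx ψ)) q.1 q.2) (Icc 0 T ×ˢ univ)
  c4 : ContinuousOn (fun q : ℝ × ℝ => Dx (Dx (Dx (Dx ψ))) q.1 q.2) (Icc 0 T ×ˢ univ)
  c5 : ContinuousOn (fun q : ℝ × ℝ => Dx (Dx (Dx (Dx (Dx ψ)))) q.1 q.2) (Icc 0 T ×ˢ univ)
  g0 : Gr 0 T ψ
  g1 : Gr 0 T (Dx ψ)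
  g2 : Gr 0 T (Dx (Dx ψ))
  g3 : Gr 0 T (Dx (Dx (Dx ψ)))
  g4 : Gr 0 T (Dx (Dx (Dx (Dx ψ))))
  g5 : Gr 0 T (Dx (Dx (Dx (Dx (Dx ψ)))))
  r0 : RD 0 T ψ (fun t x => -(1 / 2 * (Dx (Dx ψ) t x + m t * Dx ψ t x ^ 2)))
  r1 : RD 0 T (Dx ψ) (fun t x => -(1 / 2 * (Dx (Dx (Dx ψ)) t x +
    2 * m t * Dx ψ t x * Dx (Dx ψ) t x)))
  r2 : RD 0 T (Dx (Dx ψ)) (fun t x => -(1 / 2 * (Dx (Dx (Dx (Dx ψ))) t x +
    2 * m t * Dx (Dx ψ) t x ^ 2 + 2 * m t * Dx ψ t x * Dx (Dx (Dx ψ)) t x)))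
  r3 : RD 0 T (Dx (Dx (Dx ψ))) (fun t x => -(1 / 2 * (Dx (Dx (Dx (Dx (Dx ψ)))) t x +
    6 * m t * Dx (Dx ψ) t x * Dx (Dx (Dx ψ)) t x + 2 * m t * Dx ψ t x * Dx (Dx (Dx (Dx ψ))) t x)))
  l0 : LD 0 T ψ (fun t x => -(1 / 2 * (Dx (Dx ψ) t x + ml t * Dx ψ t x ^ 2)))
  l1 : LD 0 T (Dx ψ) (fun t x => -(1 / 2 * (Dx (Dx (Dx ψ)) t x +
    2 * ml t * Dx ψ t x * Dx (Dx ψ) t x)))
  l2 : LD 0 T (Dx (Dx ψ)) (fun t x => -(1 / 2 * (Dx (Dx (Dx (Dx ψ))) t x +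
    2 * ml t * Dx (Dx ψ) t x ^ 2 + 2 * ml t * Dx ψ t x * Dx (Dx (Dx ψ)) t x)))
  l3 : LD 0 T (Dx (Dx (Dx ψ))) (fun t x => -(1 / 2 * (Dx (Dx (Dx (Dx (Dx ψ)))) t x +
    6 * ml t * Dx (Dx ψ) t x * Dx (Dx (Dx ψ)) t x + 2 * ml t * Dx ψ t x * Dx (Dx (Dx (Dx ψ))) t x)))
  b3 : ∃ M, ∀ t ∈ Icc 0 T, ∀ x, Dx (Dx (Dx ψ)) t x ≤ M
  cD : ContinuousOn D (Icc 0 T)
  rD : ∀ t ∈ Ico 0 T, HasDerivWithinAt D (-(m t)) (Ici t) t
  lD : ∀ t ∈ Ioc 0 T, HasDerivWithinAt D (-(ml t)) (Iic t) t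
  mb : ∃ M, ∀ t, m t ≤ M ∧ ml t ≤ M

theorem Psc_T : ∀ {cs : Cells} {T : ℝ} {f : ℝ → ℝ}, Valid T cs → Psc T f cs T = f
  | [], _, _, _ => rfl
  | c :: cs, T, f, h => by
      unfold Psc
      rw [if_pos h.1.le, sub_self, gaussOp_eq h.2.1.ne', q0_zero' h.2.1.ne']

theorem Dc_T : ∀ {cs : Cells} {T d : ℝ}, Valid T cs → Dc T d cs T = d
  | [], _, _, _ => rfl
  | c :: cs, T, d, h => by
      unfold Dc
      rw [if_pos h.1.le, sub_self, mul_zero, add_zero]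

theorem Sm.gr {f : ℝ → ℝ} (h : Sm f) {ψ : ℝ → ℝ → ℝ} (hψ : ψ 0 = f) : Gr 0 0 ψ := by
  obtain ⟨C, n, hC, hb⟩ := h.pg.bd
  refine ⟨C, n, hC, fun t ht x => ?_⟩
  have ht0 : t = 0 := le_antisymm ht.2 ht.1
  rw [ht0, hψ]; exact hb x

theorem cont_sing {f : ℝ → ℝ} (h : Continuous f) {ψ : ℝ → ℝ → ℝ} (hψ : ψ 0 = f) :
    ContinuousOn (fun q : ℝ × ℝ => ψ q.1 q.2) (Icc 0 0 ×ˢ univ) := by
  have h1 : Continuous (fun q : ℝ × ℝ => f q.2) := h.comp continuous_snd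
  refine h1.continuousOn.congr fun q hq => ?_
  have ht0 : q.1 = 0 := le_antisymm hq.1.2 hq.1.1
  rw [ht0, hψ]

theorem RD_empty {F F' : ℝ → ℝ → ℝ} : RD 0 0 F F' := fun _ ht => absurd ht.2 (not_lt.2 ht.1)
theorem LD_empty {F F' : ℝ → ℝ → ℝ} : LD 0 0 F F' := fun _ ht => absurd ht.1 (not_lt.2 ht.2)

/-- base of the induction: no cell -/
theorem sys_nil {δ : ℝ} {f : ℝ → ℝ} (h : St δ f) :
    Sys 0 (Dc 0 δ []) (mrc 0 []) (mlc 0 []) (Psc 0 f []) := by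
  have e0 : Psc 0 f [] 0 = f := rfl
  have e1 : Dx (Psc 0 f []) 0 = deriv f := rfl
  have e2 : Dx (Dx (Psc 0 f [])) 0 = deriv (deriv f) := rfl
  have e3 : Dx (Dx (Dx (Psc 0 f []))) 0 = deriv (deriv (deriv f)) := rfl
  have e4 : Dx (Dx (Dx (Dx (Psc 0 f [])))) 0 = deriv (deriv (deriv (deriv f))) := rfl
  have e5 : Dx (Dx (Dx (Dx (Dx (Psc 0 f []))))) 0 = deriv (deriv (deriv (deriv (deriv f)))) := rfl
  have s1 := h.sm.deriv
  have s2 := s1.deriv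
  have s3 := s2.deriv
  have s4 := s3.deriv
  have s5 := s4.deriv
  obtain ⟨M, hM⟩ := h.d3b
  exact
  { st := fun t ht => by
      have ht0 : t = 0 := le_antisymm ht.2 ht.1
      rw [ht0]; exact h
    c0 := cont_sing h.sm.cont e0
    c1 := cont_sing s1.cont e1
    c2 := cont_sing s2.cont e2
    c3 := cont_sing s3.cont e3
    c4 := cont_sing s4.cont e4
    c5 := cont_sing s5.cont e5
    g0 := Sm.gr h.sm e0
    g1 := Sm.gr s1 e1
    g2 := Sm.gr s2 e2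
    g3 := Sm.gr s3 e3
    g4 := Sm.gr s4 e4
    g5 := Sm.gr s5 e5
    r0 := RD_empty
    r1 := RD_empty
    r2 := RD_empty
    r3 := RD_empty
    l0 := LD_empty
    l1 := LD_empty
    l2 := LD_empty
    l3 := LD_empty
    b3 := ⟨M, fun t ht x => by
      have ht0 : t = 0 := le_antisymm ht.2 ht.1
      rw [ht0, e3]; exact hM x⟩
    cD := continuousOn_const
    rD := fun t ht => absurd ht.2 (not_lt.2 ht.1)
    lD := fun t ht => absurd ht.1 (not_lt.2 ht.2)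
    mb := ⟨0, fun t => ⟨le_rfl, le_rfl⟩⟩ }

theorem Psc_cons (T : ℝ) (f : ℝ → ℝ) (c : ℝ × ℝ) (cs : Cells) (hz : c.2 ≠ 0) :
    Psc T f (c :: cs) = gl c.1 (tr T (q0 c.2 f)) (Psc c.1 (gaussOp c.2 (T - c.1) f) cs) := by
  funext t x
  unfold gl tr
  rw [Psc]
  by_cases h : c.1 ≤ t
  · rw [if_pos h, if_pos h, gaussOp_eq hz]
  · rw [if_neg h, if_neg h]

theorem Dx_tr (T : ℝ) {Q Q' : ℝ → ℝ → ℝ} (h : ∀ v x, HasDerivAt (Q v) (Q' v x) x) :
    Dx (tr T Q) = tr T Q' := by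
  funext t x
  exact (h (T - t) x).deriv

/-- the induction step: one more cell on the right -/
theorem sys_cons {T δ : ℝ} {f : ℝ → ℝ} (h : St δ f) (hδ : 0 < δ) {c : ℝ × ℝ} {cs : Cells}
    (h0 : 0 ≤ c.1) (hcT : c.1 < T) (hz : 0 < c.2) (hv : Valid c.1 cs)
    (hS : Sys c.1 (Dc c.1 (δ + c.2 * (T - c.1)) cs) (mrc c.1 cs) (mlc c.1 cs)
      (Psc c.1 (gaussOp c.2 (T - c.1) f) cs)) :
    Sys T (Dc T δ (c :: cs)) (mrc T (c :: cs)) (mlc T (c :: cs)) (Psc T f (c :: cs)) := by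
  have hWM := h.toWM (z := c.2) hz.le
  have hW := hWM.toW
  have hz' := hz.ne'
  set G := Psc c.1 (gaussOp c.2 (T - c.1) f) cs with hG
  have eP : Psc T f (c :: cs) = gl c.1 (tr T (q0 c.2 f)) G := Psc_cons T f c cs hz'
  have t1 : Dx (tr T (q0 c.2 f)) = tr T (q1 c.2 f) := Dx_tr T (q0_hd_x hW)
  have t2 : Dx (tr T (q1 c.2 f)) = tr T (q2 c.2 f) := Dx_tr T (q1_hd_x hW)
  have t3 : Dx (tr T (q2 c.2 f)) = tr T (q3 c.2 f) := Dx_tr T (q2_hd_x hW)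
  have t4 : Dx (tr T (q3 c.2 f)) = tr T (q4 c.2 f) := Dx_tr T (q3_hd_x hW)
  have t5 : Dx (tr T (q4 c.2 f)) = tr T (q5 c.2 f) := Dx_tr T (q4_hd_x hW)
  have e1 : Dx (Psc T f (c :: cs)) = gl c.1 (tr T (q1 c.2 f)) (Dx G) := by rw [eP, Dx_gl, t1]
  have e2 : Dx (Dx (Psc T f (c :: cs))) = gl c.1 (tr T (q2 c.2 f)) (Dx (Dx G)) := by
    rw [e1, Dx_gl, t2]
  have e3 : Dx (Dx (Dx (Psc T f (c :: cs)))) = gl c.1 (tr T (q3 c.2 f)) (Dx (Dx (Dx G))) := by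
    rw [e2, Dx_gl, t3]
  have e4 : Dx (Dx (Dx (Dx (Psc T f (c :: cs))))) =
      gl c.1 (tr T (q4 c.2 f)) (Dx (Dx (Dx (Dx G)))) := by
    rw [e3, Dx_gl, t4]
  have e5 : Dx (Dx (Dx (Dx (Dx (Psc T f (c :: cs)))))) =
      gl c.1 (tr T (q5 c.2 f)) (Dx (Dx (Dx (Dx (Dx G))))) := by
    rw [e4, Dx_gl, t5]
  -- agreement at the joint
  have j0 : tr T (q0 c.2 f) c.1 = G c.1 := by
    rw [hG, Psc_T hv, gaussOp_eq hz']; rfl
  have j1 : tr T (q1 c.2 f) c.1 = Dx G c.1 := by rw [← t1]; exact Dx_congr j0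
  have j2 : tr T (q2 c.2 f) c.1 = Dx (Dx G) c.1 := by
    rw [← t2]; exact Dx_congr j1
  have j3 : tr T (q3 c.2 f) c.1 = Dx (Dx (Dx G)) c.1 := by
    rw [← t3]; exact Dx_congr j2
  have j4 : tr T (q4 c.2 f) c.1 = Dx (Dx (Dx (Dx G))) c.1 := by
    rw [← t4]; exact Dx_congr j3
  have j5 : tr T (q5 c.2 f) c.1 = Dx (Dx (Dx (Dx (Dx G)))) c.1 := by
    rw [← t5]; exact Dx_congr j4
  -- weights
  have mR : ∀ t ∈ Ico c.1 T, mrc T (c :: cs) t = c.2 := by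
    intro t ht; rw [mrc, if_pos ht.1, if_pos ht.2]
  have mR' : ∀ t ∈ Ico 0 c.1, mrc T (c :: cs) t = mrc c.1 cs t := by
    intro t ht; rw [mrc, if_neg (not_le.2 ht.2)]
  have mL : ∀ t ∈ Ioc c.1 T, mlc T (c :: cs) t = c.2 := by
    intro t ht; rw [mlc, if_pos ht.1, if_pos ht.2]
  have mL' : ∀ t ∈ Ioc 0 c.1, mlc T (c :: cs) t = mlc c.1 cs t := by
    intro t ht; rw [mlc, if_neg (not_lt.2 ht.2)]
  have dR : ∀ t, c.1 ≤ t → Dc T δ (c :: cs) t = δ + c.2 * (T - t) := by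
    intro t ht; rw [Dc, if_pos ht]
  have dR' : ∀ t, t ≤ c.1 → Dc T δ (c :: cs) t = Dc c.1 (δ + c.2 * (T - c.1)) cs t := by
    intro t ht
    rcases ht.lt_or_eq with ht | ht
    · rw [Dc, if_neg (not_le.2 ht)]
    · rw [ht, dR _ le_rfl, Dc_T hv]
  have glF : ∀ {F K : ℝ → ℝ → ℝ} {t : ℝ}, c.1 ≤ t → ∀ x, gl c.1 F K t x = F t x :=
    fun ht x => congrFun (gl_of_le ht) x
  have glG : ∀ {F K : ℝ → ℝ → ℝ} {t : ℝ}, t < c.1 → ∀ x, gl c.1 F K t x = K t x :=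
    fun ht x => congrFun (gl_of_lt ht) x
  have glG' : ∀ {F K : ℝ → ℝ → ℝ}, F c.1 = K c.1 → ∀ {t : ℝ}, t ≤ c.1 → ∀ x,
      gl c.1 F K t x = K t x :=
    fun hj _ ht x => congrFun (gl_of_le' hj ht) x
  obtain ⟨M0, hM0⟩ := h.d3b
  obtain ⟨M1, hM1⟩ := hS.b3
  obtain ⟨m1, hm1⟩ := hS.mb
  have hlin : ∀ t : ℝ, HasDerivAt (fun s : ℝ => δ + c.2 * (T - s)) (-c.2) t := by
    intro t
    have := (((hasDerivAt_id t).const_sub T).const_mul c.2).const_add δ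
    simpa using this
  refine
  { st := ?_
    c0 := ?_, c1 := ?_, c2 := ?_, c3 := ?_, c4 := ?_, c5 := ?_
    g0 := ?_, g1 := ?_, g2 := ?_, g3 := ?_, g4 := ?_, g5 := ?_
    r0 := ?_, r1 := ?_, r2 := ?_, r3 := ?_
    l0 := ?_, l1 := ?_, l2 := ?_, l3 := ?_
    b3 := ?_, cD := ?_, rD := ?_, lD := ?_, mb := ?_ }
  · intro t ht
    rcases le_or_gt c.1 t with h1 | h1
    · rw [dR t h1, eP, gl_of_le h1]
      have := h.step hδ hz (v := T - t) (by linarith [ht.2])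
      rw [gaussOp_eq hz'] at this
      exact this
    · rw [dR' t h1.le, eP, gl_of_lt h1]
      exact hS.st t ⟨ht.1, h1.le⟩
  · rw [eP]; exact gl_cont j0 h0 hcT.le (tr_cont T _ (q0_cont hW)) hS.c0
  · rw [e1]; exact gl_cont j1 h0 hcT.le (tr_cont T _ (q1_cont hW)) hS.c1
  · rw [e2]; exact gl_cont j2 h0 hcT.le (tr_cont T _ (q2_cont hW)) hS.c2
  · rw [e3]; exact gl_cont j3 h0 hcT.le (tr_cont T _ (q3_cont hW)) hS.c3
  · rw [e4]; exact gl_cont j4 h0 hcT.le (tr_cont T _ (q4_cont hW)) hS.c4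
  · rw [e5]; exact gl_cont j5 h0 hcT.le (tr_cont T _ (q5_cont hW)) hS.c5
  · rw [eP]; exact gl_growth (tr_growth T _ (q0_ug hWM)) hS.g0
  · rw [e1]; exact gl_growth (tr_growth T _ (q1_ug hWM)) hS.g1
  · rw [e2]; exact gl_growth (tr_growth T _ (q2_ug hWM)) hS.g2
  · rw [e3]; exact gl_growth (tr_growth T _ (q3_ug hWM)) hS.g3
  · rw [e4]; exact gl_growth (tr_growth T _ (q4_ug hWM)) hS.g4
  · rw [e5]; exact gl_growth (tr_growth T _ (q5_ug hWM)) hS.g5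
  · rw [e2, e1, eP]
    refine gl_right (tr_RD T c.1 (fun v hv x => q0_hd_v hW hz' hv x)) hS.r0 ?_ ?_
    · intro t ht x
      simp only [glF ht.1, mR t ht]; rfl
    · intro t ht x
      simp only [glG ht.2, mR' t ht]
  · rw [e3, e2, e1]
    refine gl_right (tr_RD T c.1 (fun v hv x => q1_hd_v hW hz' hv x)) hS.r1 ?_ ?_
    · intro t ht x
      simp only [glF ht.1, mR t ht]; rfl
    · intro t ht x
      simp only [glG ht.2, mR' t ht]
  · rw [e4, e3, e2, e1]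
    refine gl_right (tr_RD T c.1 (fun v hv x => q2_hd_v hW hz' hv x)) hS.r2 ?_ ?_
    · intro t ht x
      simp only [glF ht.1, mR t ht]; rfl
    · intro t ht x
      simp only [glG ht.2, mR' t ht]
  · rw [e5, e4, e3, e2, e1]
    refine gl_right (tr_RD T c.1 (fun v hv x => q3_hd_v hW hz' hv x)) hS.r3 ?_ ?_
    · intro t ht x
      simp only [glF ht.1, mR t ht]; rfl
    · intro t ht x
      simp only [glG ht.2, mR' t ht]
  · rw [e2, e1, eP]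
    refine gl_left j0 (tr_LD T c.1 (fun v hv x => q0_hd_v hW hz' hv x)) hS.l0 ?_ ?_
    · intro t ht x
      simp only [glF ht.1.le, mL t ht]; rfl
    · intro t ht x
      simp only [glG' j1 ht.2, glG' j2 ht.2, mL' t ht]
  · rw [e3, e2, e1]
    refine gl_left j1 (tr_LD T c.1 (fun v hv x => q1_hd_v hW hz' hv x)) hS.l1 ?_ ?_
    · intro t ht x
      simp only [glF ht.1.le, mL t ht]; rfl
    · intro t ht x
      simp only [glG' j1 ht.2, glG' j2 ht.2, glG' j3 ht.2, mL' t ht]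
  · rw [e4, e3, e2, e1]
    refine gl_left j2 (tr_LD T c.1 (fun v hv x => q2_hd_v hW hz' hv x)) hS.l2 ?_ ?_
    · intro t ht x
      simp only [glF ht.1.le, mL t ht]; rfl
    · intro t ht x
      simp only [glG' j1 ht.2, glG' j2 ht.2, glG' j3 ht.2, glG' j4 ht.2, mL' t ht]
  · rw [e5, e4, e3, e2, e1]
    refine gl_left j3 (tr_LD T c.1 (fun v hv x => q3_hd_v hW hz' hv x)) hS.l3 ?_ ?_
    · intro t ht x
      simp only [glF ht.1.le, mL t ht]; rfl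
    · intro t ht x
      simp only [glG' j1 ht.2, glG' j2 ht.2, glG' j3 ht.2, glG' j4 ht.2, glG' j5 ht.2, mL' t ht]
  · refine ⟨max M0 M1, fun t ht x => ?_⟩
    rw [e3]
    rcases le_or_gt c.1 t with h1 | h1
    · rw [glF h1]
      exact (q3_le h hδ hz hM0 (by linarith [ht.2]) x).trans (le_max_left _ _)
    · rw [glG h1]
      exact (hM1 t ⟨ht.1, h1.le⟩ x).trans (le_max_right _ _)
  · have k1 : ContinuousOn (Dc T δ (c :: cs)) (Icc c.1 T) := by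
      refine ContinuousOn.congr (f := fun t => δ + c.2 * (T - t)) ?_ fun t ht => dR t ht.1
      fun_prop
    have k2 : ContinuousOn (Dc T δ (c :: cs)) (Icc 0 c.1) :=
      hS.cD.congr fun t ht => dR' t ht.2
    have := k2.union_of_isClosed k1 isClosed_Icc isClosed_Icc
    rwa [Icc_union_Icc_eq_Icc h0 hcT.le] at this
  · intro t ht
    rcases le_or_gt c.1 t with h1 | h1
    · rw [mR t ⟨h1, ht.2⟩]
      refine (hlin t).hasDerivWithinAt.congr (fun r hr => dR r (h1.trans hr)) (dR t h1)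
    · rw [mR' t ⟨ht.1, h1⟩]
      refine (hS.rD t ⟨ht.1, h1⟩).congr_of_eventuallyEq ?_ (dR' t h1.le)
      filter_upwards [nhdsWithin_le_nhds (Iio_mem_nhds h1)] with r hr
      exact dR' r (le_of_lt hr)
  · intro t ht
    rcases lt_or_ge c.1 t with h1 | h1
    · rw [mL t ⟨h1, ht.2⟩]
      refine (hlin t).hasDerivWithinAt.congr_of_eventuallyEq ?_ (dR t h1.le)
      filter_upwards [nhdsWithin_le_nhds (Ioi_mem_nhds h1)] with r hr
      exact dR r (le_of_lt hr)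
    · rw [mL' t ⟨ht.1, h1⟩]
      refine (hS.lD t ⟨ht.1, h1⟩).congr (fun r hr => dR' r (le_trans hr h1)) (dR' t h1)
  · refine ⟨max (max c.2 0) m1, fun t => ⟨?_, ?_⟩⟩
    · rw [mrc]
      split_ifs
      · exact (le_max_left _ _).trans (le_max_left _ _)
      · exact (le_max_right _ _).trans (le_max_left _ _)
      · exact (hm1 t).1.trans (le_max_right _ _)
    · rw [mlc]
      split_ifs
      · exact (le_max_left _ _).trans (le_max_left _ _)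
      · exact (le_max_right _ _).trans (le_max_left _ _)
      · exact (hm1 t).2.trans (le_max_right _ _)

/-- **the step system** -/
theorem sys_of : ∀ {cs : Cells} {T δ : ℝ} {f : ℝ → ℝ}, Valid T cs → 0 < δ → St δ f →
    Sys T (Dc T δ cs) (mrc T cs) (mlc T cs) (Psc T f cs)
  | [], T, δ, f, hv, _, hst => by
      have hT : T = 0 := hv
      subst hT
      exact sys_nil hst
  | c :: cs, T, δ, f, hv, hδ, hst => by
      have h2 : 0 < δ + c.2 * (T - c.1) := by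
        have := mul_pos hv.2.1 (sub_pos.2 hv.1)
        linarith
      have h3 := hst.step hδ hv.2.1 (v := T - c.1) (by linarith [hv.1])
      exact sys_cons hst hδ (Valid.nonneg hv.2.2) hv.1 hv.2.1 hv.2.2 (sys_of hv.2.2 h2 h3)

end

end Crest.Agent.R146.R1e_847
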