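import Crest.Agent.R146.R1e_847

/-!
Row 146, PT0-R1 (helper847), part f: `Back A` (structure of `StepDef_791`) from the state at `T`
and the explicit start profile.
-/

set_option autoImplicit false

namespace Crest.Agent.R146.R1f_847

open MeasureTheory ProbabilityTheory Filter Topology Set
open Crest.ProbabilityR.InvariantGlass
open Crest.Agent.R146.Hg_534 Crest.Agent.R146.PB_534 Crest.Agent.R146.R1a_847
open Crest.Agent.R146.R1b_847 Crest.Agent.R146.R1c_847 Crest.Agent.R146.R1d_847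
open Crest.Agent.R146.R1e_847
open Crest.Agent.R146.StepDef_791

noncomputable section

variable (A : SD)

theorem sys (h : St A.d (startPsi A.d A.dl)) : Sys A.T A.D A.m A.ml A.psi := by
  have h1 := sys_of A.hv A.hd h
  have eD : ∀ t, t ≤ A.T → A.D t = Dc A.T A.d A.cs t := fun t ht => by
    unfold SD.D; rw [if_pos ht]
  have ePsi : A.psi = Psc A.T (startPsi A.d A.dl) A.cs := rfl
  have em : A.m = mrc A.T A.cs := rfl
  have eml : A.ml = mlc A.T A.cs := rfl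
  rw [ePsi, em, eml]
  exact
  { st := fun t ht => by rw [eD t ht.2]; exact h1.st t ht
    c0 := h1.c0, c1 := h1.c1, c2 := h1.c2, c3 := h1.c3, c4 := h1.c4, c5 := h1.c5
    g0 := h1.g0, g1 := h1.g1, g2 := h1.g2, g3 := h1.g3, g4 := h1.g4, g5 := h1.g5
    r0 := h1.r0, r1 := h1.r1, r2 := h1.r2, r3 := h1.r3
    l0 := h1.l0, l1 := h1.l1, l2 := h1.l2, l3 := h1.l3
    b3 := h1.b3
    cD := h1.cD.congr fun t ht => eD t ht.2
    rD := fun t ht => by
      refine (h1.rD t ht).congr_of_eventuallyEq ?_ (eD t ht.2.le)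
      filter_upwards [nhdsWithin_le_nhds (Iio_mem_nhds ht.2)] with r hr
      exact eD r (le_of_lt hr)
    lD := fun t ht => (h1.lD t ht).congr (fun r hr => eD r (le_trans hr ht.2)) (eD t ht.2)
    mb := h1.mb }

/-- abbreviations: the derivatives of `ψ` -/
def p1 (t x : ℝ) : ℝ := Dx A.psi t x
def p2 (t x : ℝ) : ℝ := Dx (Dx A.psi) t x
def p3 (t x : ℝ) : ℝ := Dx (Dx (Dx A.psi)) t x
def p4 (t x : ℝ) : ℝ := Dx (Dx (Dx (Dx A.psi))) t x
def p5 (t x : ℝ) : ℝ := Dx (Dx (Dx (Dx (Dx A.psi)))) t x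

theorem u_eq (t x : ℝ) : A.u t x = A.D t * p1 A t x := rfl

theorem V_eq (t x : ℝ) : A.V t x = 1 + A.D t * p2 A t x := by
  unfold SD.V
  have : A.u t = fun x => A.D t * p1 A t x := rfl
  rw [this, deriv_const_mul_field]
  rfl

theorem P_eq (t x : ℝ) : A.P t x = A.D t * p3 A t x := by
  unfold SD.P
  have : A.V t = fun x => 1 + A.D t * p2 A t x := funext fun x => V_eq A t x
  rw [this, deriv_const_add, deriv_const_mul_field]
  rfl

theorem Px_eq (t x : ℝ) : A.Px t x = A.D t * p4 A t x := by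
  unfold SD.Px
  have : A.P t = fun x => A.D t * p3 A t x := funext fun x => P_eq A t x
  rw [this, deriv_const_mul_field]
  rfl

theorem Pxx_eq (t x : ℝ) : A.Pxx t x = A.D t * p5 A t x := by
  unfold SD.Pxx
  have : A.Px t = fun x => A.D t * p4 A t x := funext fun x => Px_eq A t x
  rw [this, deriv_const_mul_field]
  rfl

section

variable {A} (S : Sys A.T A.D A.m A.ml A.psi)
include S

theorem sm0 {t : ℝ} (ht : t ∈ Icc 0 A.T) : Sm (A.psi t) := (S.st t ht).sm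
theorem hd0 {t : ℝ} (ht : t ∈ Icc 0 A.T) (x : ℝ) : HasDerivAt (A.psi t) (p1 A t x) x :=
  (sm0 S ht).hd x
theorem hd1 {t : ℝ} (ht : t ∈ Icc 0 A.T) (x : ℝ) : HasDerivAt (p1 A t) (p2 A t x) x :=
  (sm0 S ht).deriv.hd x
theorem hd2 {t : ℝ} (ht : t ∈ Icc 0 A.T) (x : ℝ) : HasDerivAt (p2 A t) (p3 A t x) x :=
  (sm0 S ht).deriv.deriv.hd x
theorem hd3 {t : ℝ} (ht : t ∈ Icc 0 A.T) (x : ℝ) : HasDerivAt (p3 A t) (p4 A t x) x :=
  (sm0 S ht).deriv.deriv.deriv.hd x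
theorem hd4 {t : ℝ} (ht : t ∈ Icc 0 A.T) (x : ℝ) : HasDerivAt (p4 A t) (p5 A t x) x :=
  (sm0 S ht).deriv.deriv.deriv.deriv.hd x

theorem u_x {t : ℝ} (ht : t ∈ Icc 0 A.T) (x : ℝ) : HasDerivAt (A.u t) (A.V t x - 1) x := by
  have h := (hd1 S ht x).const_mul (A.D t)
  have e : A.V t x - 1 = A.D t * p2 A t x := by rw [V_eq]; ring
  rw [e]; exact h

theorem V_x {t : ℝ} (ht : t ∈ Icc 0 A.T) (x : ℝ) : HasDerivAt (A.V t) (A.P t x) x := by
  have h := ((hd2 S ht x).const_mul (A.D t)).const_add 1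
  rw [P_eq]
  have : A.V t = fun x => 1 + A.D t * p2 A t x := funext fun x => V_eq A t x
  rw [this]; exact h

theorem P_x {t : ℝ} (ht : t ∈ Icc 0 A.T) (x : ℝ) : HasDerivAt (A.P t) (A.Px t x) x := by
  have h := (hd3 S ht x).const_mul (A.D t)
  rw [Px_eq]
  have : A.P t = fun x => A.D t * p3 A t x := funext fun x => P_eq A t x
  rw [this]; exact h

theorem Px_x {t : ℝ} (ht : t ∈ Icc 0 A.T) (x : ℝ) : HasDerivAt (A.Px t) (A.Pxx t x) x := by
  have h := (hd4 S ht x).const_mul (A.D t)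
  rw [Pxx_eq]
  have : A.Px t = fun x => A.D t * p4 A t x := funext fun x => Px_eq A t x
  rw [this]; exact h

theorem V_pos {t : ℝ} (ht : t ∈ Icc 0 A.T) (x : ℝ) : 0 < A.V t x := by
  rw [V_eq]; exact (S.st t ht).d2' x

theorem V_lt {t : ℝ} (ht : t ∈ Icc 0 A.T) (x : ℝ) : A.V t x < 1 := by
  rw [V_eq]
  have h1 := mul_neg_of_pos_of_neg (A.D_pos t) ((S.st t ht).d2 x)
  have h2 : A.D t * p2 A t x < 0 := h1
  linarith

theorem u_pos {t : ℝ} (ht : t ∈ Icc 0 A.T) (x : ℝ) : 0 < A.u t x :=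
  mul_pos (A.D_pos t) ((S.st t ht).d1 x)

theorem P_pos {t : ℝ} (ht : t ∈ Icc 0 A.T) (x : ℝ) : 0 < A.P t x := by
  rw [P_eq]; exact mul_pos (A.D_pos t) ((S.st t ht).d3 x)

theorem w_pos {t : ℝ} (ht : t ∈ Icc 0 A.T) (x : ℝ) : 0 < A.w t x := (S.st t ht).w x

theorem D_bd : ∃ M, 0 ≤ M ∧ ∀ t ∈ Icc 0 A.T, A.D t ≤ M := by
  obtain ⟨M, hM⟩ := isCompact_Icc.exists_bound_of_continuousOn S.cD
  refine ⟨|M|, abs_nonneg M, fun t ht => ?_⟩
  have := hM t ht
  rw [Real.norm_eq_abs] at this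
  exact (le_abs_self _).trans (this.trans (le_abs_self M))

/-- `|u(t,x)| ≤ u(t,0) + |x|` -/
theorem u_le' {t : ℝ} (ht : t ∈ Icc 0 A.T) (x : ℝ) : A.u t x ≤ A.u t 0 + |x| := by
  have := Convex.norm_image_sub_le_of_norm_hasDerivWithin_le (f := A.u t)
    (f' := fun x => A.V t x - 1) (s := univ) (x := 0) (y := x) (C := 1)
    (fun y _ => (u_x S ht y).hasDerivWithinAt) (fun y _ => ?_) convex_univ (mem_univ _) (mem_univ _)
  · rw [sub_zero, Real.norm_eq_abs, Real.norm_eq_abs, one_mul] at this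
    have := (le_abs_self _).trans this
    linarith
  · rw [Real.norm_eq_abs, abs_le]
    constructor
    · have := V_pos S ht y; linarith
    · have := V_lt S ht y; linarith

theorem c_D : ContinuousOn (fun q : ℝ × ℝ => A.D q.1) (Icc 0 A.T ×ˢ univ) :=
  S.cD.comp continuousOn_fst fun _ hq => hq.1

theorem cu : ContinuousOn (fun q : ℝ × ℝ => A.u q.1 q.2) (Icc 0 A.T ×ˢ univ) :=
  (c_D S).mul S.c1

theorem cV : ContinuousOn (fun q : ℝ × ℝ => A.V q.1 q.2) (Icc 0 A.T ×ˢ univ) :=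
  (continuousOn_const.add ((c_D S).mul S.c2)).congr fun q _ => V_eq A q.1 q.2

theorem cP : ContinuousOn (fun q : ℝ × ℝ => A.P q.1 q.2) (Icc 0 A.T ×ˢ univ) :=
  ((c_D S).mul S.c3).congr fun q _ => P_eq A q.1 q.2

theorem cPx : ContinuousOn (fun q : ℝ × ℝ => A.Px q.1 q.2) (Icc 0 A.T ×ˢ univ) :=
  ((c_D S).mul S.c4).congr fun q _ => Px_eq A q.1 q.2

theorem cPxx : ContinuousOn (fun q : ℝ × ℝ => A.Pxx q.1 q.2) (Icc 0 A.T ×ˢ univ) :=
  ((c_D S).mul S.c5).congr fun q _ => Pxx_eq A q.1 q.2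

theorem u_tr {t : ℝ} (ht : t ∈ Ico 0 A.T) (x : ℝ) : HasDerivWithinAt (fun s => A.u s x)
    (-(A.P t x / 2 + A.b t * A.u t x * A.V t x)) (Ici t) t := by
  have h := (S.rD t ht).mul (S.r1 t ht x)
  refine h.congr_deriv ?_
  rw [V_eq, P_eq, u_eq]
  unfold SD.b p1 p2 p3
  have := (A.D_pos t).ne'
  field_simp
  ring

theorem V_tr {t : ℝ} (ht : t ∈ Ico 0 A.T) (x : ℝ) : HasDerivWithinAt (fun s => A.V s x)
    (-(A.Px t x / 2 + A.b t * A.u t x * A.P t x) + A.b t * A.V t x * (1 - A.V t x)) (Ici t) t := by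
  have h := ((S.rD t ht).mul (S.r2 t ht x)).const_add 1
  have e : (fun s => A.V s x) = fun s => 1 + A.D s * Dx (Dx A.psi) s x :=
    funext fun s => V_eq A s x
  rw [e]
  refine h.congr_deriv ?_
  rw [V_eq, P_eq, u_eq, Px_eq]
  unfold SD.b p1 p2 p3 p4
  have := (A.D_pos t).ne'
  field_simp
  ring

theorem P_tr {t : ℝ} (ht : t ∈ Ico 0 A.T) (x : ℝ) : HasDerivWithinAt (fun s => A.P s x)
    (-(A.Pxx t x / 2 + A.b t * A.u t x * A.Px t x) + A.b t * (2 - 3 * A.V t x) * A.P t x)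
    (Ici t) t := by
  have h := (S.rD t ht).mul (S.r3 t ht x)
  have e : (fun s => A.P s x) = fun s => A.D s * Dx (Dx (Dx A.psi)) s x :=
    funext fun s => P_eq A s x
  rw [e]
  refine h.congr_deriv ?_
  rw [V_eq, P_eq, u_eq, Px_eq, Pxx_eq]
  unfold SD.b p1 p2 p3 p4 p5
  have := (A.D_pos t).ne'
  field_simp
  ring

theorem u_tl {t : ℝ} (ht : t ∈ Ioc 0 A.T) (x : ℝ) : HasDerivWithinAt (fun s => A.u s x)
    (-(A.P t x / 2 + A.bl t * A.u t x * A.V t x)) (Iic t) t := by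
  have h := (S.lD t ht).mul (S.l1 t ht x)
  refine h.congr_deriv ?_
  rw [V_eq, P_eq, u_eq]
  unfold SD.bl p1 p2 p3
  have := (A.D_pos t).ne'
  field_simp
  ring

theorem V_tl {t : ℝ} (ht : t ∈ Ioc 0 A.T) (x : ℝ) : HasDerivWithinAt (fun s => A.V s x)
    (-(A.Px t x / 2 + A.bl t * A.u t x * A.P t x) + A.bl t * A.V t x * (1 - A.V t x))
    (Iic t) t := by
  have h := ((S.lD t ht).mul (S.l2 t ht x)).const_add 1
  have e : (fun s => A.V s x) = fun s => 1 + A.D s * Dx (Dx A.psi) s x :=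
    funext fun s => V_eq A s x
  rw [e]
  refine h.congr_deriv ?_
  rw [V_eq, P_eq, u_eq, Px_eq]
  unfold SD.bl p1 p2 p3 p4
  have := (A.D_pos t).ne'
  field_simp
  ring

theorem P_tl {t : ℝ} (ht : t ∈ Ioc 0 A.T) (x : ℝ) : HasDerivWithinAt (fun s => A.P s x)
    (-(A.Pxx t x / 2 + A.bl t * A.u t x * A.Px t x) + A.bl t * (2 - 3 * A.V t x) * A.P t x)
    (Iic t) t := by
  have h := (S.lD t ht).mul (S.l3 t ht x)
  have e : (fun s => A.P s x) = fun s => A.D s * Dx (Dx (Dx A.psi)) s x :=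
    funext fun s => P_eq A s x
  rw [e]
  refine h.congr_deriv ?_
  rw [V_eq, P_eq, u_eq, Px_eq, Pxx_eq]
  unfold SD.bl p1 p2 p3 p4 p5
  have := (A.D_pos t).ne'
  field_simp
  ring

theorem psi_tr {t : ℝ} (ht : t ∈ Ico 0 A.T) (x : ℝ) : HasDerivWithinAt (fun s => A.psi s x)
    ((1 - A.V t x) / (2 * A.D t) - A.m t / 2 * (A.u t x / A.D t) ^ 2) (Ici t) t := by
  refine (S.r0 t ht x).congr_deriv ?_
  rw [V_eq, u_eq]
  unfold p1 p2
  have := (A.D_pos t).ne'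
  field_simp
  ring

theorem psi_tl {t : ℝ} (ht : t ∈ Ioc 0 A.T) (x : ℝ) : HasDerivWithinAt (fun s => A.psi s x)
    ((1 - A.V t x) / (2 * A.D t) - A.ml t / 2 * (A.u t x / A.D t) ^ 2) (Iic t) t := by
  refine (S.l0 t ht x).congr_deriv ?_
  rw [V_eq, u_eq]
  unfold p1 p2
  have := (A.D_pos t).ne'
  field_simp
  ring

/-- one constant for everything -/
theorem bsys : ∃ M, MaxPCmp_371.BSys 0 A.T A.b A.u A.V A.P A.Px A.Pxx M := by
  obtain ⟨MD, hMD0, hMD⟩ := D_bd S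
  obtain ⟨Mm, hMm⟩ := S.mb
  obtain ⟨M3, hM3⟩ := S.b3
  have hc0 : ContinuousOn (fun t => A.u t 0) (Icc 0 A.T) := by
    have h1 : ContinuousOn (fun t : ℝ => ((t, 0) : ℝ × ℝ)) (Icc 0 A.T) := by fun_prop
    exact (cu S).comp h1 fun t ht => ⟨ht, mem_univ _⟩
  obtain ⟨Mu, hMu⟩ := isCompact_Icc.exists_bound_of_continuousOn hc0
  have hMu' : ∀ t ∈ Icc 0 A.T, A.u t 0 ≤ |Mu| := fun t ht => by
    have := hMu t ht
    rw [Real.norm_eq_abs] at this
    exact (le_abs_self _).trans (this.trans (le_abs_self Mu))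
  set M := |Mm| / A.d + (|Mu| + 1) + MD * |M3| with hM
  have k1 : 0 ≤ |Mm| / A.d := div_nonneg (abs_nonneg _) A.hd.le
  have k2 : 0 ≤ |Mu| + 1 := by positivity
  have k3 : 0 ≤ MD * |M3| := mul_nonneg hMD0 (abs_nonneg _)
  refine ⟨M, ?_⟩
  have hI : ∀ {t}, t ∈ Ico 0 A.T → t ∈ Icc 0 A.T := fun ht => ⟨ht.1, ht.2.le⟩
  exact
  { hux := fun t ht x => u_x S (hI ht) x
    hVx := fun t ht x => V_x S (hI ht) x
    hPx := fun t ht x => P_x S (hI ht) x
    hPxx := fun t ht x => Px_x S (hI ht) x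
    hut := fun t ht x => u_tr S ht x
    hVt := fun t ht x => V_tr S ht x
    hPt := fun t ht x => P_tr S ht x
    cu := cu S
    cV := cV S
    cP := cP S
    b_nonneg := fun t _ => A.b_nonneg t
    b_le := fun t _ => by
      have h1 : A.m t ≤ |Mm| := (hMm t).1.trans (le_abs_self _)
      have h2 : A.b t ≤ |Mm| / A.d := by
        unfold SD.b
        exact div_le_div₀ (abs_nonneg _) h1 A.hd (A.d_le_D t)
      linarith
    V_pos := fun t ht x => V_pos S ht x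
    V_lt := fun t ht x => V_lt S ht x
    u_nonneg := fun t ht x => (u_pos S ht x).le
    u_le := fun t ht x => by
      have h1 := u_le' S ht x
      have h2 := hMu' t ht
      have h3 := abs_nonneg x
      have h4 : |Mu| + |x| ≤ (|Mu| + 1) * (1 + |x|) := by nlinarith [abs_nonneg Mu]
      have h5 : (|Mu| + 1) * (1 + |x|) ≤ M * (1 + |x|) := by
        refine mul_le_mul_of_nonneg_right ?_ (by positivity)
        linarith
      linarith
    P_nonneg := fun t ht x => (P_pos S ht x).le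
    P_le := fun t ht x => by
      rw [P_eq]
      have h1 : p3 A t x ≤ |M3| := (hM3 t ht x).trans (le_abs_self _)
      have h2 : 0 ≤ p3 A t x := ((S.st t ht).d3 x).le
      have h3 : A.D t * p3 A t x ≤ MD * |M3| := mul_le_mul (hMD t ht) h1 h2 hMD0
      linarith }

theorem growth : ∃ C : ℝ, ∃ n : ℕ, 0 ≤ C ∧ ∀ t ∈ Icc 0 A.T, ∀ x, |A.psi t x| ≤ C * (1 + |x|) ^ n ∧
    |A.Px t x| ≤ C * (1 + |x|) ^ n ∧ |A.Pxx t x| ≤ C * (1 + |x|) ^ n := by
  obtain ⟨MD, hMD0, hMD⟩ := D_bd S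
  obtain ⟨C0, n0, hC0, h0⟩ := S.g0
  obtain ⟨C4, n4, hC4, h4⟩ := S.g4
  obtain ⟨C5, n5, hC5, h5⟩ := S.g5
  refine ⟨C0 + MD * C4 + MD * C5, n0 + n4 + n5, by positivity, fun t ht x => ?_⟩
  have hx := one_le_base x
  have e0 : (1 + |x|) ^ n0 ≤ (1 + |x|) ^ (n0 + n4 + n5) := pow_le_pow_right₀ hx (by omega)
  have e4 : (1 + |x|) ^ n4 ≤ (1 + |x|) ^ (n0 + n4 + n5) := pow_le_pow_right₀ hx (by omega)
  have e5 : (1 + |x|) ^ n5 ≤ (1 + |x|) ^ (n0 + n4 + n5) := pow_le_pow_right₀ hx (by omega)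
  set B := (1 + |x|) ^ (n0 + n4 + n5) with hB
  have hB0 : 0 ≤ B := by positivity
  have hDt := hMD t ht
  have hD0 := (A.D_pos t).le
  have a0 : 0 ≤ C0 * B := mul_nonneg hC0 hB0
  have a4 : 0 ≤ MD * C4 * B := mul_nonneg (mul_nonneg hMD0 hC4) hB0
  have a5 : 0 ≤ MD * C5 * B := mul_nonneg (mul_nonneg hMD0 hC5) hB0
  refine ⟨?_, ?_, ?_⟩
  · have := (h0 t ht x).trans (mul_le_mul_of_nonneg_left e0 hC0)
    linarith
  · rw [Px_eq, abs_mul, abs_of_nonneg hD0]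
    have h6 : |p4 A t x| ≤ C4 * B := (h4 t ht x).trans (mul_le_mul_of_nonneg_left e4 hC4)
    have h7 : A.D t * |p4 A t x| ≤ MD * (C4 * B) := mul_le_mul hDt h6 (abs_nonneg _) hMD0
    linarith
  · rw [Pxx_eq, abs_mul, abs_of_nonneg hD0]
    have h6 : |p5 A t x| ≤ C5 * B := (h5 t ht x).trans (mul_le_mul_of_nonneg_left e5 hC5)
    have h7 : A.D t * |p5 A t x| ≤ MD * (C5 * B) := mul_le_mul hDt h6 (abs_nonneg _) hMD0
    linarith

end

/-- **R1** from the state at `T` and the three start formulas. -/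
theorem back_of (h : St A.d (startPsi A.d A.dl))
    (hu : ∀ x, A.u A.T x = Real.sqrt A.dl * U0 (x / Real.sqrt A.dl))
    (hV : ∀ x, A.V A.T x = (gaussianReal 0 1).real (Iic (x / Real.sqrt A.dl)))
    (hP : ∀ x, A.P A.T x = gaussianPDFReal 0 1 (x / Real.sqrt A.dl) / Real.sqrt A.dl) :
    Back A := by
  have S := sys A h
  exact
  { sm := fun t ht => sm0 S ht
    psi_nonpos := fun t ht => (S.st t ht).nonpos
    u_pos := fun t ht x => u_pos S ht x
    w_pos := fun t ht x => w_pos S ht x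
    P_pos := fun t ht x => P_pos S ht x
    bsys := bsys S
    u_x := fun t ht x => u_x S ht x
    V_x := fun t ht x => V_x S ht x
    P_x := fun t ht x => P_x S ht x
    Px_x := fun t ht x => Px_x S ht x
    psi_cont := S.c0
    Px_cont := cPx S
    Pxx_cont := cPxx S
    growth := growth S
    psi_t := fun t ht x => psi_tr S ht x
    psi_tl := fun t ht x => psi_tl S ht x
    u_tl := fun t ht x => u_tl S ht x
    V_tl := fun t ht x => V_tl S ht x
    P_tl := fun t ht x => P_tl S ht x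
    u_T := hu
    V_T := hV
    P_T := hP }

end

end Crest.Agent.R146.R1f_847
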