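import Crest.Agent.R146.MinC_952
import Crest.Agent.R146.NormF2_491

/-!
Package P5 (row 146): `RedNorm R (Phi R 0)` (the input of node F, `NormF2_491`), from node C.
-/

set_option autoImplicit false

namespace Crest.Agent.R146.RedN_952

open Set Filter Topology
open Crest.Agent.R146.Hilb Crest.Agent.R146.ProfB_540 Crest.Agent.R146.HilbE
open Crest.Agent.R146.MinC_952 Crest.Agent.R146.NormF1_491 Crest.Agent.R146.NormF2_491

variable {H : Type*} [NormedAddCommGroup H] [InnerProductSpace ℝ H] [CompleteSpace H]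

lemma val_eq' (R : Res H) (x : H) (D : ℝ → ℝ) : val R x D = (R.Q D x + Ent 0 D) / 2 := by
  unfold val; ring

lemma subLin (R : Res H) : SubLin (Phi R 0) where
  smul := by
    intro t ht x
    rcases ht.eq_or_lt with h | h
    · rw [← h, zero_smul, zero_mul, Phi_zero R le_rfl]
    · exact Phi_smul R h x
  add := Phi_add_le R
  le := Phi_le_norm R le_rfl

/-- pointwise convergence of profiles to a continuous profile is uniform on `[0,T]`, `T < 1` -/
lemma unif {ι : Type*} {l : Filter ι} {D : ι → ℝ → ℝ} {D₀ : ℝ → ℝ} {e : ℝ}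
    (hD : ∀ᶠ i in l, Adm e (D i)) (h₀ : Prof D₀)
    (hlim : ∀ t ∈ Ico (0 : ℝ) 1, Tendsto (fun i => D i t) l (𝓝 (D₀ t))) :
    ∀ T ∈ Ico (0 : ℝ) 1, TendstoUniformlyOn D D₀ l (Icc 0 T) := by
  intro T hT
  rw [Metric.tendstoUniformlyOn_iff]
  intro ε hε
  have hsub : Icc (0 : ℝ) T ⊆ Icc 0 1 := Icc_subset_Icc_right hT.2.le
  have := LimForm_952.unif_of_anti (l := l) (D := D) (D₀ := D₀) hT.1
    (fun t ht => hlim t ⟨ht.1, lt_of_le_of_lt ht.2 hT.2⟩)
    (hD.mono fun i hi => hi.prof.anti.mono hsub) (h₀.cont.mono hsub) (half_pos hε)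
  filter_upwards [this] with i hi t ht
  rw [dist_comm, Real.dist_eq]
  exact (hi t ht).trans_lt (half_lt_self hε)

theorem redNorm (R : Res H) : RedNorm R (Phi R 0) where
  sub := subLin R
  ge := norm_P0_le_Phi R
  le_val := fun x D hD => by rw [val_eq']; exact Phi_le R le_rfl hD x
  attained := fun x hx => by
    obtain ⟨D, hD⟩ := exists_opt R le_rfl (x := x) fun _ => hx
    exact ⟨D, hD.1, by rw [val_eq']; exact hD.2⟩
  cont := by
    intro l x D x0 D0 hx0 hx hD hD0 hv
    refine unif (hD.mono fun i hi => hi.1) hD0.prof ?_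
    refine tendsto_opt' R le_rfl hx (fun _ => hx0) (hD.mono fun i hi => ⟨hi.1, ?_⟩)
      ⟨hD0, ?_⟩
    · rw [← val_eq']; exact hi.2
    · rw [← val_eq']; exact hv

end Crest.Agent.R146.RedN_952
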