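import Crest.Agent.R146.Band_371
import Crest.Agent.R146.RefX_355
import Crest.Agent.R146.RatioB_39

/-!
Row 146 (helper371): REF slope band of the step system for a stationary pair (`SPair_307`), linear form
`I_c (1 ± δ e)`, uniform in the step datum.

`XData` : pointwise data in the variable `x` (= `ξ` of the pair); `ref_band` : the band.
Entry from the Gaussian start at `T` under the large window `[lo0, hi0]` only.
-/

set_option autoImplicit false

open Set Filter Topology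

namespace Crest.Agent.R146.RefBand_371

open MaxP_371 MaxP2_371 MaxPCmp_371 SlopeT_371 SlopeV_371 Band_371 ILog_371 ILin_355 RefX_355
open SPair_307 StepDef_791
open StepStart_483 (ph Phi)

variable {c lam : ℝ} {W V I k : ℝ → ℝ}

/-- pointwise data of the reference band at radius `δ`, small window `[yl,yu]`, large window `[lo0,hi0]` -/
structure XData (c δ : ℝ) (W V I e e1 e2 : ℝ → ℝ) (yl yu lo0 hi0 : ℝ) : Prop where
  bar : XBar c δ W V I e e1 e2 yl yu
  cont_e : Continuous e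
  mem : c ∈ Icc yl yu
  lo : lo0 ≤ yl
  hi : yu ≤ hi0
  conc : ∃ κ0 : ℝ, 0 < κ0 ∧
    ∀ x, κ0 ≤ Jx c W V I x + 2 * δ * c * qx V I x * e1 x / (1 + δ * e x)
  damp : ∃ m1 : ℝ, 0 < m1 ∧ ∀ x, ∀ y, (y = lo0 ∨ y = hi0) →
    m1 ≤ 1 / 2 + y * (sx c W V I x - δ * (qx V I x * e1 x) / (1 - δ * e x))
  conc_low : ∀ x, 0 ≤ Jx c W V I x * (1 - δ * e x) + δ * (e2 x + k1x c W V I x * e1 x)
  s_bdd : ∃ s0 : ℝ, ∀ x, |sx c W V I x| ≤ s0
  d_bdd : ∃ d0 : ℝ, ∀ x, |qx V I x * e1 x| ≤ d0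
  e_bdd : ∃ η : ℝ, 0 < η ∧ ∀ x, δ * e x ≤ 1 - η

/-- `Lin` of the linear barrier, in the variable `x` -/
lemma lin_LL (h : SPair c W V I k lam) {v : ℝ} (hv : v ∈ Ioo (0:ℝ) 1) {e e1 : ℝ → ℝ} {a y : ℝ}
    (hT : 1 + a * e (X V v) ≠ 0) :
    Lin 1 y v (LL a (Iv V I) (ev V e) v) (LL1 a (Iv V I) (I1v c W V I) (ev V e) (e1v V I e1) v) =
      (1 / 2 + y * (sx c W V I (X V v) + a * (qx V I (X V v) * e1 (X V v)) / (1 + a * e (X V v)))) *
        LL a (Iv V I) (ev V e) v := by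
  have hI := (h.I_pos (X V v)).ne'
  have hV := V_X h hv
  have hs := sc_eq h hv
  unfold sc at hs
  rw [← hs]
  unfold Lin LL LL1 ev e1v qx
  rw [hV]
  have e1' : Iv V I v = I (X V v) := rfl
  rw [e1']
  field_simp
  ring

theorem ref_band (h : SPair c W V I k lam) (hc : c < 1 / 2) {δ yl yu lo0 hi0 : ℝ}
    {e e1 e2 : ℝ → ℝ} (hδ : 0 < δ) (hX : XData c δ W V I e e1 e2 yl yu lo0 hi0) :
    ∃ C κ κ' : ℝ, 0 ≤ C ∧ 0 < κ ∧ 0 < κ' ∧ ∀ A : SD, Back A → Clock A →
      ∀ ta tb : ℝ, 0 ≤ ta → tb ≤ A.T →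
      (∀ t ∈ Ico tb A.T, A.b t * A.chi t ∈ Icc lo0 hi0) →
      (∀ t ∈ Ico ta tb, A.b t * A.chi t ∈ Icc yl yu) →
      ∀ t ∈ Icc ta tb, ∀ x,
        (1 - tr A.K0 tb 1 κ' t) * sf A.chi t *
            (I (X V (A.V t x)) * (1 - δ * e (X V (A.V t x)))) ≤ A.P t x ∧
        A.P t x ≤ (1 + tr A.K0 tb C κ t) * sf A.chi t *
            (I (X V (A.V t x)) * (1 + δ * e (X V (A.V t x)))) := by
  have hR := refI h
  have hL := hX.bar.lbar h
  obtain ⟨κ0, hκ0, hκ0'⟩ := hX.conc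
  obtain ⟨m1, hm1, hm1'⟩ := hX.damp
  obtain ⟨s0, hs0⟩ := hX.s_bdd
  obtain ⟨d0, hd0⟩ := hX.d_bdd
  obtain ⟨η, hη, hη'⟩ := hX.e_bdd
  have hc0 := h.c_pos
  -- positivity of the factors
  have hTu : ∀ x, 0 < 1 + δ * e x := fun x => by have := hX.bar.nonneg x; positivity
  have hTl : ∀ x, 0 < 1 - δ * e x := fun x => by have := hX.bar.lt x; linarith
  have hTl' : ∀ x, 0 < 1 + -δ * e x := fun x => by have := hTl x; linarith
  have hUp : ∀ v ∈ Ioo (0:ℝ) 1, 0 < LL δ (Iv V I) (ev V e) v := fun v _ =>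
    mul_pos (h.I_pos _) (hTu _)
  have hLo : ∀ v ∈ Ioo (0:ℝ) 1, 0 < LL (-δ) (Iv V I) (ev V e) v := fun v _ =>
    mul_pos (h.I_pos _) (hTl' _)
  have hqe : ∀ x, |δ * (qx V I x * e1 x) / (1 + δ * e x)| ≤ δ * d0 := by
    intro x
    rw [abs_div, abs_mul, abs_of_pos hδ, abs_of_pos (hTu x)]
    have h1 := hd0 x
    have h2 : (1:ℝ) ≤ 1 + δ * e x := by
      have := mul_nonneg hδ.le (hX.bar.nonneg x)
      linarith
    rw [div_le_iff₀ (hTu x)]
    have h3 : δ * |qx V I x * e1 x| ≤ δ * d0 := mul_le_mul_of_nonneg_left h1 hδ.le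
    have h4 : 0 ≤ δ * d0 := (mul_nonneg hδ.le (abs_nonneg _)).trans h3
    nlinarith
  have hqe2 : ∀ x, |-δ * (qx V I x * e1 x) / (1 + -δ * e x)| ≤ δ * d0 / η := by
    intro x
    rw [abs_div, abs_mul, abs_neg, abs_of_pos hδ, abs_of_pos (hTl' x)]
    have h1 := hd0 x
    have h2 : η ≤ 1 + -δ * e x := by have := hη' x; linarith
    have h3 : δ * |qx V I x * e1 x| ≤ δ * d0 := mul_le_mul_of_nonneg_left h1 hδ.le
    exact div_le_div₀ ((mul_nonneg hδ.le (abs_nonneg _)).trans h3) h3 hη h2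
  -- upper barrier
  have hS : UpBand 1 κ0 yl yu (LL δ (Iv V I) (ev V e))
      (LL1 δ (Iv V I) (I1v c W V I) (ev V e) (e1v V I e1))
      (LL2 δ (Iv V I) (I1v c W V I) (I2v c W V I) (ev V e) (e1v V I e1) (e2v c W V I e1 e2)) := by
    refine ⟨fun v hv => (LL_hasDerivAt hR hv (hL.d1 v hv)).continuousAt.continuousWithinAt, hUp,
      fun v hv => TouchAbove.of_Ioo (fun y hy => LL_hasDerivAt hR hy (hL.d1 y hy))
        (fun y hy => LL1_hasSide hR hy (hL.d1 y hy) (hL.d2 y hy)) hv, hκ0.le, ?_, ?_, ?_⟩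
    · intro v hv
      refine conc_up hR hδ hL hv hX.mem ?_
      rw [Jc_eq h hv]
      have h1 := hκ0' (X V v)
      have hI := (h.I_pos (X V v)).ne'
      have hV := V_X h hv
      have e1' : 2 * δ * c * (v * (1 - v)) * e1v V I e1 v / (1 + δ * ev V e v) =
          2 * δ * c * qx V I (X V v) * e1 (X V v) / (1 + δ * e (X V v)) := by
        unfold e1v qx ev; rw [hV]; field_simp
      rw [e1']
      exact h1
    · intro v hv
      exact stat_up hR hδ hL hv ⟨le_rfl, hX.mem.1.trans hX.mem.2⟩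
    · intro v hv
      exact stat_up hR hδ hL hv ⟨hX.mem.1.trans hX.mem.2, le_rfl⟩
  -- lower barrier
  have hneg : ∀ v ∈ Ioo (0:ℝ) 1, LL (-δ) (Iv V I) (ev V e) v *
      LL2 (-δ) (Iv V I) (I1v c W V I) (I2v c W V I) (ev V e) (e1v V I e1) (e2v c W V I e1 e2) v ≤
      0 := by
    intro v hv
    have := conc_low (κ := 0) (e := ev V e) (e1 := e1v V I e1) (e2 := e2v c W V I e1 e2) (δ := δ)
      hR hv (by
        rw [Jc_eq h hv]
        have hI := (h.I_pos (X V v)).ne'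
        have e2' : Iv V I v ^ 2 * (e2v c W V I e1 e2 v +
            2 * (I1v c W V I v / Iv V I v) * e1v V I e1 v) =
            e2 (X V v) + k1x c W V I (X V v) * e1 (X V v) := by
          unfold Iv e2v I1v e1v; field_simp; ring
        rw [e2']
        have h1 := hX.conc_low (X V v)
        have h2 := hTl (X V v)
        have h3 := mul_nonneg h2.le h1
        unfold ev
        nlinarith)
    linarith
  have hS' : LowBand 1 yl yu (LL (-δ) (Iv V I) (ev V e))
      (LL1 (-δ) (Iv V I) (I1v c W V I) (ev V e) (e1v V I e1))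
      (LL2 (-δ) (Iv V I) (I1v c W V I) (I2v c W V I) (ev V e) (e1v V I e1) (e2v c W V I e1 e2)) := by
    refine ⟨fun v hv => (LL_hasDerivAt hR hv (hL.d1 v hv)).continuousAt.continuousWithinAt, hLo,
      ⟨(1 + c) * W 0, ?_⟩,
      fun v hv => TouchBelow.of_Ioo (fun y hy => LL_hasDerivAt hR hy (hL.d1 y hy))
        (fun y hy => LL1_hasSide hR hy (hL.d1 y hy) (hL.d2 y hy)) hv, ⟨0, hneg⟩, ?_, ?_⟩
    · intro v hv
      have h1 := h.I_le (X V v)
      have h2 := h.I_pos (X V v)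
      have h3 := hX.bar.nonneg (X V v)
      show I (X V v) * (1 + -δ * e (X V v)) ≤ _
      have h4 : 0 ≤ δ * e (X V v) := by positivity
      nlinarith
    · intro v hv
      exact stat_low hR hδ hL hv ⟨le_rfl, hX.mem.1.trans hX.mem.2⟩
    · intro v hv
      exact stat_low hR hδ hL hv ⟨hX.mem.1.trans hX.mem.2, le_rfl⟩
  have hlin0 : ∀ v ∈ Ioo (0:ℝ) 1, ∀ y, (y = lo0 ∨ y = hi0) →
      m1 * LL (-δ) (Iv V I) (ev V e) v ≤ Lin 1 y v (LL (-δ) (Iv V I) (ev V e) v)
        (LL1 (-δ) (Iv V I) (I1v c W V I) (ev V e) (e1v V I e1) v) := by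
    intro v hv y hy
    rw [lin_LL h hv (hTl' _).ne']
    refine mul_le_mul_of_nonneg_right ?_ (hLo v hv).le
    have h1 := hm1' (X V v) y hy
    have e4 : sx c W V I (X V v) + -δ * (qx V I (X V v) * e1 (X V v)) / (1 + -δ * e (X V v)) =
        sx c W V I (X V v) - δ * (qx V I (X V v) * e1 (X V v)) / (1 - δ * e (X V v)) := by
      have : 1 + -δ * e (X V v) = 1 - δ * e (X V v) := by ring
      rw [this]; ring
    rw [e4]
    exact h1
  have hwin : ∀ y ∈ Icc yl yu, y ∈ Icc lo0 hi0 := fun y hy => ⟨hX.lo.trans hy.1, hy.2.trans hX.hi⟩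
  have hlin : ∀ v ∈ Ioo (0:ℝ) 1, ∀ y ∈ Icc lo0 hi0,
      m1 * LL (-δ) (Iv V I) (ev V e) v ≤ Lin 1 y v (LL (-δ) (Iv V I) (ev V e) v)
        (LL1 (-δ) (Iv V I) (I1v c W V I) (ev V e) (e1v V I e1) v) := by
    intro v hv y hy
    have := lin_ge (c := 0) hy (by simpa using hlin0 v hv lo0 (Or.inl rfl))
      (by simpa using hlin0 v hv hi0 (Or.inr rfl))
    simpa using this
  have hyl : yl ∈ Icc yl yu := ⟨le_rfl, hX.mem.1.trans hX.mem.2⟩
  have hyu : yu ∈ Icc yl yu := ⟨hX.mem.1.trans hX.mem.2, le_rfl⟩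
  have hsq : ∀ v ∈ Ioo (0:ℝ) 1, LL (-δ) (Iv V I) (ev V e) v ^ 2 *
      LL2 (-δ) (Iv V I) (I1v c W V I) (I2v c W V I) (ev V e) (e1v V I e1) (e2v c W V I e1 e2) v / 2 ≤
      0 := by
    intro v hv
    have h1 := hneg v hv
    have h2 := (hLo v hv).le
    have h3 := mul_nonpos_of_nonneg_of_nonpos h2 h1
    nlinarith
  have hTr : LowTr 1 m1 yl yu (LL (-δ) (Iv V I) (ev V e))
      (LL1 (-δ) (Iv V I) (I1v c W V I) (ev V e) (e1v V I e1))
      (LL2 (-δ) (Iv V I) (I1v c W V I) (I2v c W V I) (ev V e) (e1v V I e1) (e2v c W V I e1 e2)) := by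
    refine ⟨fun v hv => hlin v hv yl (hwin yl hyl), fun v hv => hlin v hv yu (hwin yu hyu), ?_, ?_⟩
    · intro v hv
      have h1 := hlin v hv yl (hwin yl hyl)
      have h2 := hsq v hv
      linarith
    · intro v hv
      have h1 := hlin v hv yu (hwin yu hyu)
      have h2 := hsq v hv
      linarith
  -- bounds
  obtain ⟨C, hC0, hCC⟩ := ref_up (lo0 := lo0) (hi0 := hi0)
    (B := 1 / 2 + (|lo0| + |hi0|) * (s0 + δ * d0)) (c2 := (Real.sqrt (1 - 2 * c))⁻¹) hS hκ0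
    (by
      intro v hv
      rw [lin_LL h hv (hTu _).ne']
      refine mul_le_mul_of_nonneg_right ?_ (hUp v hv).le
      have h1 := hs0 (X V v)
      have h2 := hqe (X V v)
      have h3 : |lo0 * (sx c W V I (X V v) + δ * (qx V I (X V v) * e1 (X V v)) /
          (1 + δ * e (X V v)))| ≤ |lo0| * (s0 + δ * d0) := by
        rw [abs_mul]
        exact mul_le_mul_of_nonneg_left ((abs_add_le _ _).trans (add_le_add h1 h2)) (abs_nonneg _)
      have h4 := le_abs_self (lo0 * (sx c W V I (X V v) + δ * (qx V I (X V v) * e1 (X V v)) /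
          (1 + δ * e (X V v))))
      have h5 : 0 ≤ |hi0| * (s0 + δ * d0) :=
        mul_nonneg (abs_nonneg _) (add_nonneg ((abs_nonneg _).trans h1) ((abs_nonneg _).trans h2))
      linarith)
    (by
      intro v hv
      rw [lin_LL h hv (hTu _).ne']
      refine mul_le_mul_of_nonneg_right ?_ (hUp v hv).le
      have h1 := hs0 (X V v)
      have h2 := hqe (X V v)
      have h3 : |hi0 * (sx c W V I (X V v) + δ * (qx V I (X V v) * e1 (X V v)) /
          (1 + δ * e (X V v)))| ≤ |hi0| * (s0 + δ * d0) := by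
        rw [abs_mul]
        exact mul_le_mul_of_nonneg_left ((abs_add_le _ _).trans (add_le_add h1 h2)) (abs_nonneg _)
      have h4 := le_abs_self (hi0 * (sx c W V I (X V v) + δ * (qx V I (X V v) * e1 (X V v)) /
          (1 + δ * e (X V v))))
      have h5 : 0 ≤ |lo0| * (s0 + δ * d0) :=
        mul_nonneg (abs_nonneg _) (add_nonneg ((abs_nonneg _).trans h1) ((abs_nonneg _).trans h2))
      linarith)
    (by
      intro z
      have hvz : Phi z ∈ Ioo (0:ℝ) 1 := ⟨StepStart_483.Phi_pos z, StepStart_483.Phi_lt_one z⟩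
      have h1 := (RatioB_39.ratio_bound h (x := X V (Phi z)) (y := z) (V_X h hvz).symm).1
      have h2 : 0 < Real.sqrt (1 - 2 * c) := Real.sqrt_pos.2 (by linarith)
      have h3 : ph z ≤ (Real.sqrt (1 - 2 * c))⁻¹ * I (X V (Phi z)) := by
        rw [inv_mul_eq_div, le_div_iff₀ h2, mul_comm]; exact h1
      have h4 : I (X V (Phi z)) ≤ LL δ (Iv V I) (ev V e) (Phi z) := by
        show I (X V (Phi z)) ≤ I (X V (Phi z)) * (1 + δ * e (X V (Phi z)))
        have h5 := h.I_pos (X V (Phi z))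
        have h6 := mul_nonneg hδ.le (hX.bar.nonneg (X V (Phi z)))
        nlinarith
      exact h3.trans (mul_le_mul_of_nonneg_left h4 (inv_pos.2 h2).le))
  obtain ⟨κ', hκ', hCC'⟩ := ref_low (lo0 := lo0) (hi0 := hi0) (m1 := m1)
    (κ3 := 2 * (1 / 2 + c * (s0 + δ * d0 / η)))
    (c1 := (Real.sqrt (1 + 2 * c))⁻¹) hS' hTr hm1 hm1
    (fun v hv => hlin0 v hv lo0 (Or.inl rfl)) (fun v hv => hlin0 v hv hi0 (Or.inr rfl))
    (by
      intro v hv
      have h0 := stat_low hR hδ hL hv (y := c) hX.mem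
      rw [stat_lin, lin_LL h hv (hTl' _).ne'] at h0
      have hp := hLo v hv
      have h1 := hs0 (X V v)
      have h2 := hqe2 (X V v)
      have h3 : sx c W V I (X V v) + -δ * (qx V I (X V v) * e1 (X V v)) / (1 + -δ * e (X V v)) ≤
          s0 + δ * d0 / η := by
        have a1 := le_abs_self (sx c W V I (X V v))
        have a2 := le_abs_self (-δ * (qx V I (X V v) * e1 (X V v)) / (1 + -δ * e (X V v)))
        linarith
      set Q := sx c W V I (X V v) + -δ * (qx V I (X V v) * e1 (X V v)) / (1 + -δ * e (X V v)) with hQ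
      set K := LL (-δ) (Iv V I) (ev V e) v with hK
      set K2 := LL2 (-δ) (Iv V I) (I1v c W V I) (I2v c W V I) (ev V e) (e1v V I e1)
        (e2v c W V I e1 e2) v with hK2
      have h4 : 0 ≤ K * ((1 / 2 + c * Q) + K * K2 / 2) := by
        have : K * ((1 / 2 + c * Q) + K * K2 / 2) = (1 / 2 + c * Q) * K + K ^ 2 * K2 / 2 := by ring
        rw [this]; exact h0
      have h5 : 0 ≤ (1 / 2 + c * Q) + K * K2 / 2 := nonneg_of_mul_nonneg_right h4 hp
      have h6 := mul_le_mul_of_nonneg_left h3 hc0.le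
      linarith)
    (inv_pos.2 (Real.sqrt_pos.2 (by linarith)))
    (by
      intro z
      have hvz : Phi z ∈ Ioo (0:ℝ) 1 := ⟨StepStart_483.Phi_pos z, StepStart_483.Phi_lt_one z⟩
      have h1 := (RatioB_39.ratio_bound h (x := X V (Phi z)) (y := z) (V_X h hvz).symm).2
      have h2 : 0 < Real.sqrt (1 + 2 * c) := Real.sqrt_pos.2 (by linarith)
      have h4 : LL (-δ) (Iv V I) (ev V e) (Phi z) ≤ I (X V (Phi z)) := by
        show I (X V (Phi z)) * (1 + -δ * e (X V (Phi z))) ≤ I (X V (Phi z))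
        have h5 := h.I_pos (X V (Phi z))
        have h6 := mul_nonneg hδ.le (hX.bar.nonneg (X V (Phi z)))
        nlinarith
      rw [inv_mul_eq_div, div_le_iff₀ h2]
      refine h4.trans ?_
      rw [mul_comm]; exact h1)
  refine ⟨C, κ0, κ', hC0, hκ0, hκ', ?_⟩
  intro A hB hCl ta tb hta htb hYb hYa t ht x
  have hk := clk1 hCl
  refine ⟨?_, hCC A A.chi A.K0 hB hk ta tb hta htb hYb hYa t ht x⟩
  have h1 := hCC' A A.chi A.K0 hB hk ta tb hta htb hYb hYa t ht x
  have e5 : LL (-δ) (Iv V I) (ev V e) (A.V t x) =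
      I (X V (A.V t x)) * (1 - δ * e (X V (A.V t x))) := by
    unfold LL Iv ev; ring
  rw [e5] at h1
  exact h1

end Crest.Agent.R146.RefBand_371
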