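import Crest.Agent.R146.S6L_988
import Crest.Agent.R146.CavInc_769

/-!
Row 146, statement S0206, node ROWOBS (helper874): exact Props of the last pieces.

* `ROb`    : `S6L_988.RO` for BOUNDED `ψ`;   `RO` follows by truncation (helper130).
* `rep`    : replacement of two rows;  `RESAMP` : Fubini for the replacement.
* `SECM`   : second moment argument (two rows ⇒ the empirical mean over the rows).
-/

set_option autoImplicit false

namespace Crest.Agent.R146.RowDef2_874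

open Finset MeasureTheory ProbabilityTheory Crest.Agent.R141
open Crest.Agent.R146.S6Def_988 Crest.Agent.R146.S6U_988 Crest.Agent.R146.S6L_988
open Crest.Agent.R146.RowDef_874

noncomputable section

/-- (ROb) `RO` for bounded `ψ`. -/
def ROb : Prop := ∀ (αm K L B ε : ℝ), 0 < ε → ∃ J0 : ℕ, ∀ J : ℕ, J0 ≤ J →
  ∃ ε1 : ℝ, 0 < ε1 ∧ ∃ N0 : ℕ, ∀ (wc nc : ℕ), 2 ≤ wc → nc + 1 = (J + 1) * wc →
  ∀ N, N0 ≤ N → 0 < N → ∀ n, 0 < n → ∀ (C : Cfg N) (f φ ψ : ℝ → ℝ), BL K L f → BL B B φ →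
  BL B B ψ →
  ∀ (M : ℕ) (s : Fin nc → ℝ) (τ : ℕ → ℕ), (M : ℝ) ≤ αm * N →
  Skel C nc n (fun _ => f) M s J wc τ ε1 →
  (∀ b ≤ J, ∫ G, pE (QQ C nc n (M := M) (fun _ => f) G s) ((fil C nc n).F (τ b))
      (fun u v => |RS C nc n φ ψ G u v -
        (M : ℝ) / N * kapX J f (PR C nc n f M s τ) b φ ψ|) ∂(gam M N) ≤ ε) ∧
  ∫ G, eE (QQ C nc n (M := M) (fun _ => f) G s) (fun u => |RS C nc n φ ψ G u u -
      (M : ℝ) / N * kapX J f (PR C nc n f M s τ) (J + 1) φ ψ|) ∂(gam M N) ≤ ε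

/-- replacement of the rows `a`, `b` by `ζ (0, ·)`, `ζ (1, ·)`. -/
def rep {M N : ℕ} (a b : Fin M) (G : Fin M → Fin N → ℝ) (ζ : Fin 2 × Fin N → ℝ) :
    Fin M → Fin N → ℝ :=
  fun c => if c = a then (fun i => ζ (0, i)) else if c = b then (fun i => ζ (1, i)) else G c

/-- (RESAMP) Fubini for the replacement of two rows. -/
def RESAMP : Prop := ∀ (M N : ℕ) (a b : Fin M), a ≠ b →
  MeasurePreserving (fun p : (Fin M → Fin N → ℝ) × (Fin 2 × Fin N → ℝ) => rep a b p.1 p.2)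
    ((gam M N).prod (Measure.pi fun _ => gaussianReal 0 1)) (gam M N)

/-- averaged product of two row observables -/
def two {N : ℕ} (C : Cfg N) (nc n : ℕ) (f φ ψ : ℝ → ℝ) {M : ℕ} (s : Fin nc → ℝ) (k : ℕ)
    (a b : Fin M) : ℝ :=
  ∫ G, pE (QQ C nc n (M := M) (fun _ => f) G s) ((fil C nc n).F k)
    (fun u v => (φ (hh G a (C.x u.1)) * ψ (hh G a (C.x v.1))) *
      (φ (hh G b (C.x u.1)) * ψ (hh G b (C.x v.1)))) ∂(gam M N)

/-- averaged row observable -/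
def one {N : ℕ} (C : Cfg N) (nc n : ℕ) (f φ ψ : ℝ → ℝ) {M : ℕ} (s : Fin nc → ℝ) (k : ℕ)
    (a : Fin M) : ℝ :=
  ∫ G, pE (QQ C nc n (M := M) (fun _ => f) G s) ((fil C nc n).F k)
    (fun u v => φ (hh G a (C.x u.1)) * ψ (hh G a (C.x v.1))) ∂(gam M N)

/-- (SECM) second moment argument; `k` is an arbitrary step (`k = Lv nc n` gives the leaf form). -/
def SECM : Prop := ∀ (αm K L B η κ : ℝ) (N nc n : ℕ), 0 < N → 0 < n → ∀ (C : Cfg N)
  (f φ ψ : ℝ → ℝ), BL K L f → BL B B φ → BL B B ψ → ∀ (M : ℕ) (s : Fin nc → ℝ) (k : ℕ),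
  (M : ℝ) ≤ αm * N → |κ| ≤ B ^ 2 → 0 ≤ η → 0 ≤ αm →
  (∀ a b : Fin M, a ≠ b → |two C nc n f φ ψ s k a b - κ ^ 2| ≤ η) →
  (∀ a : Fin M, |one C nc n f φ ψ s k a - κ| ≤ η) →
  ∫ G, pE (QQ C nc n (M := M) (fun _ => f) G s) ((fil C nc n).F k)
      (fun u v => |RS C nc n φ ψ G u v - (M : ℝ) / N * κ|) ∂(gam M N) ≤
    Real.sqrt (αm ^ 2 * ((1 + 2 * B ^ 2) * η) + 4 * B ^ 4 * αm / N)

end

end Crest.Agent.R146.RowDef2_874
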