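import Crest.Agent.R146.RowDef2_874
import Crest.Agent.R146.Cav5_47

/-!
Row 146, statement S0206, node ROWOBS: `RowDef2_874.RESAMP` (replacement of two rows by two fresh
Gaussian rows preserves the law of the patterns).
-/

set_option autoImplicit false

namespace Crest.Agent.R146.RowRes_679

open Finset MeasureTheory ProbabilityTheory
open Crest.Agent.R146.S6Def_988
open Crest.Agent.R146.RowDef2_874

noncomputable section

theorem measurable_rep {M N : ℕ} (a b : Fin M) :
    Measurable (fun p : (Fin M → Fin N → ℝ) × (Fin 2 × Fin N → ℝ) => rep a b p.1 p.2) := by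
  refine measurable_pi_lambda _ fun c => ?_
  unfold rep
  by_cases h1 : c = a
  · simp only [h1, if_true]
    exact measurable_pi_lambda _ fun i => (measurable_pi_apply _).comp measurable_snd
  · by_cases h2 : c = b
    · simp only [h2, if_true]
      by_cases h3 : b = a
      · exact absurd (h2.trans h3) h1
      · simp only [h3, if_false]
        exact measurable_pi_lambda _ fun i => (measurable_pi_apply _).comp measurable_snd
    · simp only [h1, h2, if_false]
      exact (measurable_pi_apply _).comp measurable_fst

theorem resamp : RESAMP := by
  intro M N a b hab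
  classical
  have hba : b ≠ a := fun h => hab h.symm
  refine ⟨measurable_rep a b, ?_⟩
  unfold gam
  symm
  refine Measure.pi_eq fun s hs => ?_
  rw [Measure.map_apply (measurable_rep a b) (MeasurableSet.univ_pi hs)]
  have hset : (fun p : (Fin M → Fin N → ℝ) × (Fin 2 × Fin N → ℝ) => rep a b p.1 p.2) ⁻¹'
      Set.univ.pi s = (Set.univ.pi fun c => if c = a ∨ c = b then Set.univ else s c) ×ˢ
        ((MeasurableEquiv.curry (Fin 2) (Fin N) ℝ) ⁻¹'
          (Set.univ.pi fun j : Fin 2 => if j = 0 then s a else s b)) := by
    ext ⟨G, ζ⟩
    simp only [Set.mem_preimage, Set.mem_univ_pi, Set.mem_prod, MeasurableEquiv.coe_curry]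
    constructor
    · intro h
      refine ⟨fun c => ?_, fun j => ?_⟩
      · by_cases hc : c = a ∨ c = b
        · rw [if_pos hc]; exact Set.mem_univ _
        · rw [if_neg hc]
          have := h c
          unfold rep at this
          rw [if_neg (fun h => hc (Or.inl h)), if_neg (fun h => hc (Or.inr h))] at this
          exact this
      · by_cases hj : j = 0
        · rw [if_pos hj, hj]
          have := h a
          unfold rep at this
          rw [if_pos rfl] at this
          exact this
        · have hj1 : j = 1 := by omega
          rw [if_neg hj, hj1]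
          have := h b
          unfold rep at this
          rw [if_neg hba, if_pos rfl] at this
          exact this
    · rintro ⟨h1, h2⟩ c
      unfold rep
      by_cases hc : c = a
      · rw [if_pos hc, hc]
        have := h2 0
        rw [if_pos rfl] at this
        exact this
      · rw [if_neg hc]
        by_cases hc2 : c = b
        · rw [if_pos hc2, hc2]
          have := h2 1
          rw [if_neg (by decide)] at this
          exact this
        · rw [if_neg hc2]
          have := h1 c
          rw [if_neg (by tauto)] at this
          exact this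
  have hm2 : MeasurableSet (Set.univ.pi fun j : Fin 2 => if j = 0 then s a else s b) := by
    refine MeasurableSet.univ_pi fun j => ?_
    by_cases hj : j = 0
    · rw [if_pos hj]; exact hs a
    · rw [if_neg hj]; exact hs b
  have hcur := (Cav5_47.gm_curry (Fin 2) (Fin N)).measure_preimage hm2.nullMeasurableSet
  rw [hset, Measure.prod_prod, Measure.pi_pi]
  have e1 : (Measure.pi fun _ : Fin 2 × Fin N => gaussianReal 0 1)
      ((MeasurableEquiv.curry (Fin 2) (Fin N) ℝ) ⁻¹'
          (Set.univ.pi fun j : Fin 2 => if j = 0 then s a else s b)) =
      (Measure.pi fun _ : Fin N => gaussianReal 0 1) (s a) *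
        (Measure.pi fun _ : Fin N => gaussianReal 0 1) (s b) := by
    refine hcur.trans ?_
    rw [Measure.pi_pi, Fin.prod_univ_two]
    rfl
  rw [e1]
  have hb : b ∈ univ.erase a := Finset.mem_erase.2 ⟨hba, mem_univ _⟩
  rw [← Finset.mul_prod_erase univ _ (mem_univ a), ← Finset.mul_prod_erase (univ.erase a) _ hb,
    ← Finset.mul_prod_erase univ (fun c => (Measure.pi fun _ : Fin N => gaussianReal 0 1) (s c))
      (mem_univ a), ← Finset.mul_prod_erase (univ.erase a)
      (fun c => (Measure.pi fun _ : Fin N => gaussianReal 0 1) (s c)) hb]
  rw [if_pos (Or.inl rfl), if_pos (Or.inr rfl)]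
  have e2 : ∏ x ∈ (univ.erase a).erase b, (Measure.pi fun _ : Fin N => gaussianReal 0 1)
      (if x = a ∨ x = b then Set.univ else s x) =
      ∏ x ∈ (univ.erase a).erase b, (Measure.pi fun _ : Fin N => gaussianReal 0 1) (s x) := by
    refine Finset.prod_congr rfl fun x hx => ?_
    have h1 := (Finset.mem_erase.1 hx).1
    have h2 := (Finset.mem_erase.1 (Finset.mem_erase.1 hx).2).1
    rw [if_neg (by tauto)]
  rw [e2, measure_univ, one_mul, one_mul]
  ring

end

end Crest.Agent.R146.RowRes_679
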