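import Crest.Agent.R146.RowSys_874
import Crest.Agent.R146.RowDef2_874
import Crest.Agent.R146.RowRes_679
import Crest.Agent.R146.CavAsm_769
import Crest.Agent.R146.S6Trans_944

/-!
Row 146, node ROWOBS (helper874), part 7: transfer from the system to the system without two rows,
resampling of the two rows; the averaged one-row and two-row observables.
-/

set_option autoImplicit false

namespace Crest.Agent.R146.RowObs_874

open Finset MeasureTheory ProbabilityTheory Crest.Agent.R141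
open Crest.Agent.R146.S6Def_988 Crest.Agent.R146.S6U_988 Crest.Agent.R146.S6L_988
open Crest.Agent.R146.RowDef_874 Crest.Agent.R146.RowDef2_874 Crest.Agent.R146.RowSys_874
open Crest.Agent.R164.CavG (gm pur)
open Crest.Agent.R146.CavInc_769 (prior_isProb xs_pos xs_expo QQ_isProb meas_QQ)

noncomputable section

section pE

variable {Ω : Type} [Fintype Ω] {Q : Ω → ℝ} {r : Setoid Ω}

/-- product form of the pair expectation. -/
theorem pE_prod (hQ : IsProb Q) (Φ Ψ : Ω → ℝ) :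
    pE Q r (fun u v => Φ u * Ψ v) = eE Q (fun ω => cE Q r Φ ω * cE Q r Ψ ω) := by
  unfold pE
  have h1 : ∀ a, cE Q r (fun b => Φ a * Ψ b) a = Φ a * cE Q r Ψ a := fun a => cE_smul _ _ _ _ _
  simp_rw [h1]
  rw [← eE_cE hQ r (fun a => Φ a * cE Q r Ψ a)]
  congr 1
  funext ω
  rw [cE_mul_right (cE_meas Q r Ψ)]

end pE

variable {N : ℕ} {C : Cfg N} {nc n : ℕ}

/-- the row functions without the rows `a`, `b` -/
def fz (a b : ℕ) (f : ℝ → ℝ) : ℕ → ℝ → ℝ := fun c x => if c = a ∨ c = b then 0 else f x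

theorem fz_meas {a b : ℕ} {f : ℝ → ℝ} (hf : Measurable f) (c : ℕ) : Measurable (fz a b f c) := by
  unfold fz
  by_cases h : c = a ∨ c = b
  · simp only [if_pos h]; exact measurable_const
  · simp only [if_neg h]; exact hf

theorem sum_two {M : ℕ} {a b : Fin M} (hab : a ≠ b) (F : Fin M → ℝ) :
    ∑ c, F c = ∑ c, (if c = a ∨ c = b then 0 else F c) + (F a + F b) := by
  have h1 : ∀ c, F c = (if c = a ∨ c = b then 0 else F c) +
      ((if c = a then F c else 0) + (if c = b then F c else 0)) := by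
    intro c
    by_cases h1 : c = a
    · have h2 : c ≠ b := fun h => hab (h1.symm.trans h)
      rw [if_pos (Or.inl h1), if_pos h1, if_neg h2]; ring
    · by_cases h2 : c = b
      · rw [if_pos (Or.inr h2), if_neg h1, if_pos h2]; ring
      · rw [if_neg (by tauto), if_neg h1, if_neg h2]; ring
  rw [Finset.sum_congr rfl fun c _ => h1 c, Finset.sum_add_distrib, Finset.sum_add_distrib]
  simp

theorem coe_eq_iff {M : ℕ} (c a : Fin M) : ((c : ℕ) = (a : ℕ)) ↔ c = a := Fin.val_inj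

/-- the potential = potential without the two rows + the two rows. -/
theorem UU_two {M : ℕ} {a b : Fin M} (hab : a ≠ b) (f : ℝ → ℝ) (G : Fin M → Fin N → ℝ)
    (s : Fin nc → ℝ) (ω : Om C nc n) :
    UU (fun _ => f) G s ω = UU (fz a b f) G s ω + (f (hh G a (C.x ω.1)) + f (hh G b (C.x ω.1))) := by
  unfold S6Def_988.UU rowE
  rw [sum_two hab]
  have : ∀ c : Fin M, (if c = a ∨ c = b then 0 else f (∑ i, G c i * (C.x ω.1 i / Real.sqrt N))) =
      fz a b f c (∑ i, G c i * (C.x ω.1 i / Real.sqrt N)) := by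
    intro c
    unfold fz
    simp only [coe_eq_iff]
  simp_rw [this]
  unfold hh
  ring

/-- the potential after the replacement of the two rows. -/
theorem UU_rep {M : ℕ} {a b : Fin M} (hab : a ≠ b) (f : ℝ → ℝ) (G : Fin M → Fin N → ℝ)
    (ζ : Fin 2 × Fin N → ℝ) (s : Fin nc → ℝ) (ω : Om C nc n) :
    UU (fun _ => f) (rep a b G ζ) s ω = UU (fz a b f) G s ω +
      ∑ r, f (∑ i, ζ (r, i) * (C.x ω.1 i / Real.sqrt N)) := by
  rw [UU_two hab, Fin.sum_univ_two]
  have h1 : UU (fz a b f) (rep a b G ζ) s ω = UU (fz a b f) G s ω := by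
    unfold S6Def_988.UU rowE
    congr 1
    refine Finset.sum_congr rfl fun c _ => ?_
    unfold fz rep
    simp only [coe_eq_iff]
    by_cases h : c = a ∨ c = b
    · rw [if_pos h, if_pos h]
    · rw [if_neg h, if_neg h]
      rw [not_or] at h
      simp only [if_neg h.1, if_neg h.2]
  have h2 : hh (rep a b G ζ) a (C.x ω.1) = ∑ i, ζ (0, i) * (C.x ω.1 i / Real.sqrt N) := by
    unfold hh rep
    simp
  have h3 : hh (rep a b G ζ) b (C.x ω.1) = ∑ i, ζ (1, i) * (C.x ω.1 i / Real.sqrt N) := by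
    unfold hh rep
    simp [hab.symm]
  rw [h1, h2, h3]

theorem hh_rep_a {M : ℕ} (a b : Fin M) (G : Fin M → Fin N → ℝ)
    (ζ : Fin 2 × Fin N → ℝ) (x : Fin N → ℝ) :
    hh (rep a b G ζ) a x = ∑ i, ζ (0, i) * (x i / Real.sqrt N) := by
  unfold hh rep
  simp

theorem hh_rep_b {M : ℕ} {a b : Fin M} (hab : a ≠ b) (G : Fin M → Fin N → ℝ)
    (ζ : Fin 2 × Fin N → ℝ) (x : Fin N → ℝ) :
    hh (rep a b G ζ) b x = ∑ i, ζ (1, i) * (x i / Real.sqrt N) := by
  unfold hh rep
  simp [hab.symm]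

theorem QQ_rep {M : ℕ} {a b : Fin M} (hab : a ≠ b) (f : ℝ → ℝ) (G : Fin M → Fin N → ℝ)
    (ζ : Fin 2 × Fin N → ℝ) (s : Fin nc → ℝ) :
    QQ C nc n (fun _ => f) (rep a b G ζ) s = tl (QQ C nc n (fz a b f) G s) (fil C nc n) (xs nc n)
      (fun ω => ∑ r, f (∑ i, ζ (r, i) * (C.x ω.1 i / Real.sqrt N))) := by
  unfold QQ
  rw [← tl_add (prior_isProb C nc n) (xs_pos nc n)]
  congr 1
  funext ω
  exact UU_rep hab f G ζ s ω

theorem QQ_two {M : ℕ} {a b : Fin M} (hab : a ≠ b) (f : ℝ → ℝ) (G : Fin M → Fin N → ℝ)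
    (s : Fin nc → ℝ) :
    QQ C nc n (fun _ => f) G s = tl (QQ C nc n (fz a b f) G s) (fil C nc n) (xs nc n)
      (fun ω => f (hh G a (C.x ω.1)) + f (hh G b (C.x ω.1))) := by
  unfold QQ
  rw [← tl_add (prior_isProb C nc n) (xs_pos nc n)]
  congr 1
  funext ω
  exact UU_two hab f G s ω

/-- the pair observable of two rows -/
def XV {M : ℕ} (C : Cfg N) (nc n : ℕ) (f : ℝ → ℝ) (φ ψ : Fin 2 → ℝ → ℝ) (a b : Fin M)
    (s : Fin nc → ℝ) (k : ℕ) (G : Fin M → Fin N → ℝ) : ℝ :=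
  pE (QQ C nc n (fun _ => f) G s) ((fil C nc n).F k)
    (fun u v => (φ 0 (hh G a (C.x u.1)) * φ 1 (hh G b (C.x u.1))) *
      (ψ 0 (hh G a (C.x v.1)) * ψ 1 (hh G b (C.x v.1))))

theorem XV_rep {M : ℕ} {a b : Fin M} (hab : a ≠ b) (f : ℝ → ℝ) (φ ψ : Fin 2 → ℝ → ℝ)
    (s : Fin nc → ℝ) (k : ℕ) (G : Fin M → Fin N → ℝ) (ζ : Fin 2 × Fin N → ℝ) :
    XV C nc n f φ ψ a b s k (rep a b G ζ) = pairV C nc n (QQ C nc n (fz a b f) G s) f φ ψ k ζ := by
  unfold XV
  rw [pE_prod (QQ_isProb _ _ _) (fun u => φ 0 (hh (rep a b G ζ) a (C.x u.1)) *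
    φ 1 (hh (rep a b G ζ) b (C.x u.1))) (fun v => ψ 0 (hh (rep a b G ζ) a (C.x v.1)) *
    ψ 1 (hh (rep a b G ζ) b (C.x v.1))), QQ_rep hab]
  unfold pairV
  simp only [hh_rep_a, hh_rep_b hab, Fin.prod_univ_two]

/-! ### measurability -/

theorem meas_hh {M : ℕ} (a : Fin M) (x : Fin N → ℝ) :
    Measurable fun G : Fin M → Fin N → ℝ => hh G a x := by
  unfold hh
  refine Finset.measurable_sum _ fun i _ => ?_
  exact ((measurable_pi_apply i).comp (measurable_pi_apply a)).mul_const _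

theorem meas_XV {M : ℕ} {f : ℝ → ℝ} (hf : Measurable f) {φ ψ : Fin 2 → ℝ → ℝ}
    (hφ : ∀ r, Measurable (φ r)) (hψ : ∀ r, Measurable (ψ r)) (a b : Fin M)
    (s : Fin nc → ℝ) (k : ℕ) : Measurable (XV C nc n f φ ψ a b s k) := by
  unfold XV pE
  have hq : ∀ ω, Measurable fun G : Fin M → Fin N → ℝ => QQ C nc n (fun _ => f) G s ω :=
    meas_QQ (fun _ => hf) s
  refine CavInc_769.meas_eE hq fun u => ?_
  refine CavInc_769.meas_cE hq (fun v => ?_) _ u
  exact (((hφ 0).comp (meas_hh a _)).mul ((hφ 1).comp (meas_hh b _))).mul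
    (((hψ 0).comp (meas_hh a _)).mul ((hψ 1).comp (meas_hh b _)))

theorem XV_bd {M : ℕ} {f : ℝ → ℝ} {B : ℝ} {φ ψ : Fin 2 → ℝ → ℝ}
    (hφ : ∀ r, BL B B (φ r)) (hψ : ∀ r, BL B B (ψ r)) (a b : Fin M)
    (s : Fin nc → ℝ) (k : ℕ) (G : Fin M → Fin N → ℝ) : |XV C nc n f φ ψ a b s k G| ≤ B ^ 2 * B ^ 2 := by
  have hQ := QQ_isProb (C := C) (nc := nc) (n := n) (fun _ => f) G s
  have hB : 0 ≤ B := (abs_nonneg _).trans ((hφ 0).bd 0)
  unfold XV pE
  refine (eE_abs_le hQ _).trans (eE_le_of_le hQ fun u => ?_)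
  refine abs_cE_le_of_le hQ (fun v => ?_) u
  rw [abs_mul, abs_mul, abs_mul]
  have := mul_le_mul ((hφ 0).bd (hh G a (C.x u.1))) ((hφ 1).bd (hh G b (C.x u.1))) (abs_nonneg _) hB
  have := mul_le_mul ((hψ 0).bd (hh G a (C.x v.1))) ((hψ 1).bd (hh G b (C.x v.1))) (abs_nonneg _) hB
  rw [sq]
  exact mul_le_mul (by assumption) (by assumption) (by positivity) (by positivity)

/-! ### transfer of the deviation -/

theorem xn_eq (ω : Om C nc n) : Cav5_47.xn C nc n ω = S6Trans_944.xN C nc n ω := rfl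

/-- the skeleton deviation of the system without the two rows. -/
theorem DevN_le {M : ℕ} {a b : Fin M} (hab : a ≠ b) (hN : 0 < N) {f : ℝ → ℝ} {K : ℝ}
    (hK : ∀ x, |f x| ≤ K) (G : Fin M → Fin N → ℝ) (s : Fin nc → ℝ) (J : ℕ) (τ : ℕ → ℕ)
    (P : ℕ → ℝ) :
    Cav5_47.DevN C nc n (QQ C nc n (fz a b f) G s) J τ P ≤
      17 * Real.exp (8 * K) * ∑ j ∈ range (J + 1),
        pE (QQ C nc n (fun _ => f) G s) ((fil C nc n).F (τ j)) (fun u v => |ovl C nc n u v - P j|) := by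
  have hQ := QQ_isProb (C := C) (nc := nc) (n := n) (fz a b f) G s
  have hV : ∀ ω : Om C nc n, |f (hh G a (C.x ω.1)) + f (hh G b (C.x ω.1))| ≤ 2 * K := by
    intro ω
    refine (abs_add_le _ _).trans ?_
    have := hK (hh G a (C.x ω.1))
    have := hK (hh G b (C.x ω.1))
    linarith
  unfold Cav5_47.DevN
  rw [Finset.mul_sum]
  refine Finset.sum_le_sum fun j _ => ?_
  have h1 := S6Trans_944.msq_sub_le_tl (𝓕 := fil C nc n) hQ (xs_expo nc n) hV
    (S6Trans_944.xN C nc n) (P j) (τ j)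
  have h2 := S6Trans_944.pur_le_tl (𝓕 := fil C nc n) hQ (xs_expo nc n) hV
    (x := S6Trans_944.xN C nc n) (D := 1)
    (fun ω => (S6Trans_944.xN_sq C nc n hN ω).le) (P j) (τ j)
  rw [← QQ_two hab] at h1 h2
  have e1 : ∀ u v, S6Trans_944.ov (S6Trans_944.xN C nc n) u v = ovl C nc n u v := fun u v =>
    (S6Trans_944.ovl_eq C nc n u v).symm
  simp only [e1] at h1 h2
  have e2 : ∀ ω, (N : ℝ)⁻¹ * ∑ i, (cE (QQ C nc n (fz a b f) G s) ((fil C nc n).F (τ j))
      (fun w => C.x w.1 i) ω) ^ 2 = S6Trans_944.msq (QQ C nc n (fz a b f) G s)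
        ((fil C nc n).F (τ j)) (S6Trans_944.xN C nc n) ω := fun ω =>
    S6Trans_944.msq_eq C nc n _ _ ω
  simp_rw [e2]
  have e3 : (4 : ℝ) * (2 * K) = 8 * K := by ring
  rw [e3] at h1 h2
  have e4 : pur (QQ C nc n (fz a b f) G s) ((fil C nc n).F (τ j)) (Cav5_47.xn C nc n) =
    pur (QQ C nc n (fz a b f) G s) ((fil C nc n).F (τ j)) (S6Trans_944.xN C nc n) := rfl
  rw [e4]
  linarith

/-! ### the averaged two-row observable -/

theorem integral_rep {M : ℕ} {a b : Fin M} (hab : a ≠ b) {F : (Fin M → Fin N → ℝ) → ℝ}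
    (hF : Measurable F) {c : ℝ} (hc : ∀ G, |F G| ≤ c) :
    ∫ G, F G ∂(gam M N) = ∫ G, ∫ ζ, F (rep a b G ζ) ∂(gm (Fin 2 × Fin N)) ∂(gam M N) := by
  have hmp := RowRes_679.resamp M N a b hab
  have hi : Integrable (fun p : (Fin M → Fin N → ℝ) × (Fin 2 × Fin N → ℝ) =>
      F (rep a b p.1 p.2)) ((gam M N).prod (Measure.pi fun _ => gaussianReal 0 1)) :=
    Integrable.of_bound (C := c) (hF.comp hmp.measurable).aestronglyMeasurable
      (ae_of_all _ fun p => by rw [Real.norm_eq_abs]; exact hc _)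
  rw [← hmp.map_eq, integral_map hmp.measurable.aemeasurable
    (by rw [hmp.map_eq]; exact hF.aestronglyMeasurable), hmp.map_eq]
  exact integral_prod _ hi

/-- **The averaged observable of two rows of the system.** -/
theorem two_bound (J : ℕ) {K L B : ℝ} (hL : 0 ≤ L) (hB : 0 < B) {b : ℕ} (hb : b ≤ J + 1)
    {ε : ℝ} (hε : 0 < ε) :
    ∃ D : ℝ, 0 ≤ D ∧ ∀ (ε1 : ℝ) (wc nc : ℕ), 2 ≤ wc → nc + 1 = (J + 1) * wc →
      ∀ (N n : ℕ), 0 < N → 0 < n → ∀ (C : Cfg N) (f : ℝ → ℝ), BL K L f →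
      ∀ φ ψ : Fin 2 → ℝ → ℝ, (∀ r, BL B B (φ r)) → (∀ r, BL B B (ψ r)) →
      ∀ (M : ℕ) (s : Fin nc → ℝ) (τ : ℕ → ℕ), Skel C nc n (fun _ => f) M s J wc τ ε1 →
      ∀ x y : Fin M, x ≠ y →
      |∫ G, XV C nc n f φ ψ x y s (stp nc n J τ b) G ∂(gam M N) -
          ∏ r, kapX J f (PR C nc n f M s τ) b (φ r) (ψ r)| ≤
        ε + D * ε1 + B ^ 2 * B ^ 2 *
          ((2 * Real.exp (2 * (2 * K)) + 1) * RowTilt_874.CT (2 * K)) *
            Real.sqrt (1 / ((J : ℝ) + 1)) := by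
  obtain ⟨D, hD, hmain⟩ := sys2 J (K := K) hL hB hb hε
  refine ⟨D * (17 * Real.exp (8 * K) * ((J : ℝ) + 1)), by positivity, ?_⟩
  intro ε1 wc nc hwc hnc N n hN hn C f hf φ ψ hφ hψ M s τ hS x y hxy
  set P := PR C nc n f M s τ with hP
  set cst := B ^ 2 * B ^ 2 * ((2 * Real.exp (2 * (2 * K)) + 1) * RowTilt_874.CT (2 * K)) *
            Real.sqrt (1 / ((J : ℝ) + 1)) with hcst
  have hfm : Measurable f := (RowSys_874.BL_BC hf).cont.measurable
  have hlev : Lev J P := CavAsm_769.lev_Rk hN (fun _ => hfm) M s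
    (CavAsm_769.tau_mono (by omega) hS.blk)
  have hXm := meas_XV (C := C) (nc := nc) (n := n) hfm (φ := φ) (ψ := ψ)
    (fun r => (RowSys_874.BL_BC (hφ r)).cont.measurable)
    (fun r => (RowSys_874.BL_BC (hψ r)).cont.measurable) x y s (stp nc n J τ b)
  have hXb := XV_bd (C := C) (nc := nc) (n := n) (f := f) hφ hψ x y s (stp nc n J τ b)
  rw [integral_rep hxy hXm hXb]
  have e1 : ∀ (G : Fin M → Fin N → ℝ) (ζ : Fin 2 × Fin N → ℝ),
      XV C nc n f φ ψ x y s (stp nc n J τ b) (rep x y G ζ) =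
      pairV C nc n (QQ C nc n (fz x y f) G s) f φ ψ (stp nc n J τ b) ζ := fun G ζ =>
    XV_rep hxy f φ ψ s _ G ζ
  simp_rw [e1]
  set κ := ∏ r, kapX J f P b (φ r) (ψ r) with hκ
  set I : (Fin M → Fin N → ℝ) → ℝ := fun G =>
    ∫ ζ, pairV C nc n (QQ C nc n (fz x y f) G s) f φ ψ (stp nc n J τ b) ζ ∂(gm (Fin 2 × Fin N))
    with hI
  have hpw : ∀ G, |I G - κ| ≤ ε + D * (17 * Real.exp (8 * K) * ∑ j ∈ range (J + 1),
      CavAsm_769.pf C nc n (fun _ => f) s (τ j) (P j) G) + cst := by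
    intro G
    have h1 := hmain wc nc hwc hnc N n hN hn C (QQ C nc n (fz x y f) G s) (QQ_isProb _ _ _) f hf φ ψ
      hφ hψ τ hS.blk P hlev
    have h2 := DevN_le (C := C) (nc := nc) (n := n) hxy hN hf.bd G s J τ P
    have h3 := mul_le_mul_of_nonneg_left h2 hD
    refine h1.trans ?_
    unfold CavAsm_769.pf
    linarith
  have hpi : ∀ j, Integrable (CavAsm_769.pf (M := M) C nc n (fun _ => f) s (τ j) (P j))
      (gam M N) := fun j => CavAsm_769.integrable_pf (fun _ => hfm) s (τ j) (P j)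
  have hgi : Integrable (fun G : Fin M → Fin N → ℝ => ε + D * (17 * Real.exp (8 * K) *
      ∑ j ∈ range (J + 1), CavAsm_769.pf C nc n (fun _ => f) s (τ j) (P j) G) + cst)
      (gam M N) := by
    refine ((integrable_const ε).add (Integrable.const_mul (Integrable.const_mul ?_ _) _)).add
      (integrable_const cst)
    exact integrable_finset_sum _ fun j _ => hpi j
  have hXi : Integrable (fun p : (Fin M → Fin N → ℝ) × (Fin 2 × Fin N → ℝ) =>
      XV C nc n f φ ψ x y s (stp nc n J τ b) (rep x y p.1 p.2))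
      ((gam M N).prod (gm (Fin 2 × Fin N))) := by
    have hmp := RowRes_679.resamp M N x y hxy
    exact Integrable.of_bound (C := B ^ 2 * B ^ 2) (hXm.comp hmp.measurable).aestronglyMeasurable
      (ae_of_all _ fun p => by rw [Real.norm_eq_abs]; exact hXb _)
  have hIi : Integrable I (gam M N) := by
    have := hXi.integral_prod_left
    simpa only [e1] using this
  have h4 : ∫ G, I G ∂(gam M N) - κ = ∫ G, (I G - κ) ∂(gam M N) := by
    rw [integral_sub hIi (integrable_const _), integral_const, probReal_univ, one_smul]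
  rw [h4]
  have h5 := norm_integral_le_of_norm_le hgi (ae_of_all _ fun G => by
    rw [Real.norm_eq_abs]; exact hpw G)
  rw [Real.norm_eq_abs] at h5
  refine h5.trans ?_
  rw [integral_add (by
      refine (integrable_const ε).add (Integrable.const_mul (Integrable.const_mul ?_ _) _)
      exact integrable_finset_sum _ fun j _ => hpi j) (integrable_const _),
    integral_add (integrable_const _) (Integrable.const_mul (Integrable.const_mul
      (integrable_finset_sum _ fun j _ => hpi j) _) _), integral_const, integral_const,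
    integral_const_mul, integral_const_mul, integral_finset_sum _ fun j _ => hpi j]
  simp only [probReal_univ, one_smul]
  have h6 : ∑ j ∈ range (J + 1), ∫ G, CavAsm_769.pf (M := M) C nc n (fun _ => f) s (τ j) (P j) G
      ∂(gam M N) ≤ ((J : ℝ) + 1) * ε1 := by
    calc ∑ j ∈ range (J + 1), ∫ G, CavAsm_769.pf (M := M) C nc n (fun _ => f) s (τ j) (P j) G
          ∂(gam M N) ≤ ∑ _j ∈ range (J + 1), ε1 := by
          refine Finset.sum_le_sum fun j hj => ?_
          exact hS.pair j (by rw [Finset.mem_range] at hj; omega)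
      _ = ((J : ℝ) + 1) * ε1 := by simp
  have h7 : D * (17 * Real.exp (8 * K) * ∑ j ∈ range (J + 1),
      ∫ G, CavAsm_769.pf (M := M) C nc n (fun _ => f) s (τ j) (P j) G ∂(gam M N)) ≤
      D * (17 * Real.exp (8 * K) * (((J : ℝ) + 1) * ε1)) :=
    mul_le_mul_of_nonneg_left (mul_le_mul_of_nonneg_left h6 (by positivity)) hD
  linarith

end

end Crest.Agent.R146.RowObs_874
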