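import Crest.Agent.R146.RowTilt2_874
import Crest.Agent.R146.RowFact_874
import Crest.Agent.R146.Cav5_47
import Crest.Agent.R146.LimIbp_290

/-!
Row 146, node ROWOBS (helper874), part 6: the instance of `row_limit` for `S6Def_988`, two new rows
acting on any law `Q` of the system, error expressed by `Cav5_47.DevN`.
-/

set_option autoImplicit false

namespace Crest.Agent.R146.RowSys_874

open Finset MeasureTheory ProbabilityTheory Crest.Agent.R141 Crest.Agent.R141.Fact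
open Crest.Agent.R164.CavG
open Crest.Agent.R164.GC (BC)
open Crest.Agent.R146.RowChain_874 Crest.Agent.R146.RowTilt_874
open Crest.Agent.R146.RowDef_874 Crest.Agent.R146.RowFact_874
open Crest.Agent.R146.S6Def_988 hiding zf
open Crest.Agent.R146.Cav5_47 (DevS DevN xn levels_xs zf_prod DevS_eq_DevN sum_xn_sq)


noncomputable section

/-! ### bounds in the limit model -/

/-- bounded functions stay bounded. -/
theorem cX_BCb {J : ℕ} {f : ℝ → ℝ} {K L : ℝ} (hL : 0 ≤ L) (hf : BL K L f) (P : ℕ → ℝ) {k : ℕ}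
    (hk : k ≤ J + 2) {g : ℝ → ℝ} {B : ℝ} (hg : BC g B) :
    ∀ i, i ≤ k → BC (cX J f P k g (k - i)) B := by
  intro i
  induction i with
  | zero => intro _; rw [Nat.sub_zero, cX_self]; exact hg
  | succ i ih =>
    intro hi
    rw [cX_step J f P g (show k - (i + 1) < k by omega)]
    have e : k - (i + 1) + 1 = k - i := by omega
    rw [e]
    have hbl := Psi_BL (J := J) hL hf P (J + 2 - (k - i)) (by omega)
    rw [show J + 2 - (J + 2 - (k - i)) = k - i by omega] at hbl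
    exact LimIbp_290.tE_BC (LimIbp_290.EE.of_bdd (cont_of_lip1 hbl.lip) hbl.bd) _ _ (ih (by omega))

theorem kapX_abs_le {J : ℕ} {f : ℝ → ℝ} {K L : ℝ} (hL : 0 ≤ L) (hf : BL K L f) (P : ℕ → ℝ)
    {b : ℕ} (hb : b ≤ J + 1) {φ ψ : ℝ → ℝ} {B B' : ℝ} (hφ : BC φ B)
    (hψ : BC ψ B') : |kapX J f P b φ ψ| ≤ B * B' := by
  unfold kapX
  have h1 := cX_BCb hL hf P (le_refl (J + 2)) hφ (J + 2 - (b + 1)) (by omega)
  have h2 := cX_BCb hL hf P (le_refl (J + 2)) hψ (J + 2 - (b + 1)) (by omega)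
  rw [show J + 2 - (J + 2 - (b + 1)) = b + 1 by omega] at h1 h2
  have h3 := cX_BCb hL hf P (show b + 1 ≤ J + 2 by omega) (h1.mul h2) (b + 1) le_rfl
  rw [Nat.sub_self] at h3
  exact h3.bd 0

theorem BL_BC {f : ℝ → ℝ} {K L : ℝ} (hf : BL K L f) : BC f K := ⟨cont_of_lip1 hf.lip, hf.bd⟩

/-! ### one law -/

variable {N : ℕ} {C : Cfg N} {nc n : ℕ}

/-- the skeleton steps of `S6Def_988` as `Lvl`. -/
theorem lvl_xs {J wc : ℕ} (hn : 0 < n) (hwc : 2 ≤ wc) (hnc : nc + 1 = (J + 1) * wc)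
    {τ : ℕ → ℕ} (hτ : ∀ b ≤ J, st n (b * wc) ≤ τ b ∧ τ b < st n (b * wc + wc - 1)) :
    Lvl (xs nc n) J (fun j => τ (min j J)) (1 / ((J : ℝ) + 1)) := by
  have h := levels_xs nc n hn hwc hnc hτ
  refine ⟨h.expo, h.nonneg, h.mono, h.low, h.mid, ?_⟩
  intro l hl
  by_cases hle : l ≤ Lv nc n
  · exact h.top l hl hle
  · have e : xs nc n l = 1 := by
      unfold xs
      refine min_eq_left ?_
      rw [le_div_iff₀ (by positivity), one_mul]
      have h1 : nc ≤ (l - 1) / n := by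
        rw [Nat.le_div_iff_mul_le hn]
        unfold Lv at hle
        omega
      exact_mod_cast Nat.succ_le_succ h1
    rw [e, sub_self]
    positivity

/-- pair expectation of two new rows acting on the law `Q` -/
def pairV (C : Cfg N) (nc n : ℕ) (Q : Om C nc n → ℝ) (f : ℝ → ℝ) (φ ψ : Fin 2 → ℝ → ℝ) (k : ℕ)
    (ζ : Fin 2 × Fin N → ℝ) : ℝ :=
  eE (tl Q (fil C nc n) (xs nc n) (fun ω => ∑ r, f (∑ i, ζ (r, i) * (C.x ω.1 i / Real.sqrt N))))
    (fun ω => cE (tl Q (fil C nc n) (xs nc n)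
        (fun ω => ∑ r, f (∑ i, ζ (r, i) * (C.x ω.1 i / Real.sqrt N)))) ((fil C nc n).F k)
        (fun ω => ∏ r, φ r (∑ i, ζ (r, i) * (C.x ω.1 i / Real.sqrt N))) ω *
      cE (tl Q (fil C nc n) (xs nc n)
        (fun ω => ∑ r, f (∑ i, ζ (r, i) * (C.x ω.1 i / Real.sqrt N)))) ((fil C nc n).F k)
        (fun ω => ∏ r, ψ r (∑ i, ζ (r, i) * (C.x ω.1 i / Real.sqrt N))) ω)

/-- the step of the level `b` (`b = J + 1`: the leaf) -/
def stp (nc n J : ℕ) (τ : ℕ → ℕ) (b : ℕ) : ℕ := if b ≤ J then τ b else Lv nc n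

theorem stp_eq (nc n J : ℕ) (τ : ℕ → ℕ) {b : ℕ} (hb : b ≤ J + 1) :
    stp nc n J τ b = lev J (fun j => τ (min j J)) (Lv nc n) (J + 1 - b) := by
  unfold stp
  by_cases h : b ≤ J
  · rw [if_pos h, show J + 1 - b = (J - b) + 1 by omega]
    show τ b = τ (min (J - (J - b)) J)
    congr 1
    omega
  · rw [if_neg h, show J + 1 - b = 0 by omega]
    rfl

theorem prod_bd {B : ℝ} (φ : Fin 2 → ℝ → ℝ) (h : ∀ r, BL B B (φ r)) (z : Fin 2 → ℝ) :
    |∏ r, φ r (z r)| ≤ B ^ 2 := by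
  rw [Fin.prod_univ_two, abs_mul, sq]
  exact mul_le_mul ((h 0).bd _) ((h 1).bd _) (abs_nonneg _) ((abs_nonneg _).trans ((h 0).bd 0))

theorem prod_lip {B : ℝ} (φ : Fin 2 → ℝ → ℝ) (h : ∀ r, BL B B (φ r)) :
    Lip (B ^ 2) (fun z : Fin 2 → ℝ => ∏ r, φ r (z r)) := by
  intro y y'
  simp only [Fin.prod_univ_two, Fin.sum_univ_two]
  have hB : 0 ≤ B := (abs_nonneg _).trans ((h 0).bd 0)
  have e : φ 0 (y 0) * φ 1 (y 1) - φ 0 (y' 0) * φ 1 (y' 1) =
      φ 0 (y 0) * (φ 1 (y 1) - φ 1 (y' 1)) + φ 1 (y' 1) * (φ 0 (y 0) - φ 0 (y' 0)) := by ring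
  rw [e]
  refine (abs_add_le _ _).trans ?_
  rw [abs_mul, abs_mul]
  have h1 := mul_le_mul ((h 0).bd (y 0)) ((h 1).lip (y 1) (y' 1)) (abs_nonneg _) hB
  have h2 := mul_le_mul ((h 1).bd (y' 1)) ((h 0).lip (y 0) (y' 0)) (abs_nonneg _) hB
  nlinarith

theorem abs_zf_eq (ω : Om C nc n) (ζ : Fin 2 × Fin N → ℝ) :
    (zf (Prod.fst : Fin 2 × Fin N → Fin 2) (fun p => xn C nc n ω p.2) ζ) =
      fun r => ∑ i, ζ (r, i) * (C.x ω.1 i / Real.sqrt N) := by
  funext r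
  rw [zf_prod]
  refine Finset.sum_congr rfl fun i _ => ?_
  unfold xn
  ring

theorem Qd_eq (J : ℕ) (P : ℕ → ℝ) {m : ℕ} (hm : m ≤ J + 1) (k : Fin 2) :
    RowFact_874.Qd (Fin 2) J P m k = Cav5_47.Qd J P m := by
  unfold RowFact_874.Qd Cav5_47.Qd tP
  by_cases h0 : m = 0
  · subst h0
    rw [if_neg (by omega), if_neg (by omega), if_pos rfl]
  · rw [if_neg (by omega), if_pos (by omega), if_neg h0]
    congr 1
    omega

/-- **Two new rows acting on any law `Q`.** -/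
theorem sys2 (J : ℕ) {K L B : ℝ} (hL : 0 ≤ L) (hB : 0 < B) {b : ℕ} (hb : b ≤ J + 1)
    {ε : ℝ} (hε : 0 < ε) :
    ∃ D : ℝ, 0 ≤ D ∧ ∀ (wc nc : ℕ), 2 ≤ wc → nc + 1 = (J + 1) * wc →
      ∀ (N n : ℕ), 0 < N → 0 < n → ∀ (C : Cfg N) (Q : Om C nc n → ℝ), IsProb Q →
      ∀ (f : ℝ → ℝ), BL K L f → ∀ φ ψ : Fin 2 → ℝ → ℝ, (∀ r, BL B B (φ r)) → (∀ r, BL B B (ψ r)) →
      ∀ τ : ℕ → ℕ, (∀ b ≤ J, st n (b * wc) ≤ τ b ∧ τ b < st n (b * wc + wc - 1)) →
      ∀ P : ℕ → ℝ, Lev J P →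
      |∫ ζ, pairV C nc n Q f φ ψ (stp nc n J τ b) ζ ∂(gm (Fin 2 × Fin N)) -
          ∏ r, kapX J f P b (φ r) (ψ r)| ≤
        ε + D * DevN C nc n Q J τ P +
          B ^ 2 * B ^ 2 * ((2 * Real.exp (2 * (2 * K)) + 1) * CT (2 * K)) *
            Real.sqrt (1 / ((J : ℝ) + 1)) := by
  have hB2 : 0 < B ^ 2 := by positivity
  obtain ⟨d, hd, hmain⟩ := row_limit (Fin 2) J (a := 2 * K) (L := L) (B1 := B ^ 2) (B2 := B ^ 2)
    (L1 := B ^ 2) (L2 := B ^ 2) 2 hL hB2 hB2 hB2.le hB2.le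
    (n0 := J + 1 - b) (by omega) hε
  refine ⟨2 * (B ^ 2 * B ^ 2) / d * (2 + 2 ^ 2), by positivity, ?_⟩
  intro wc nc hwc hnc N n hN hn C Q hQ f hf φ ψ hφ hψ τ hτ P hP
  have hlv := lvl_xs (nc := nc) hn hwc hnc hτ
  have hJ : (0 : ℝ) < (J : ℝ) + 1 := by positivity
  have hnn := levels_xs nc n hn hwc hnc hτ
  set t : ℕ → ℕ := fun j => τ (min j J) with ht
  set s : ℝ := Real.sqrt (1 / ((J : ℝ) + 1)) with hs
  have hs0 : 0 < s := Real.sqrt_pos.2 (by positivity)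
  have hs1 : s ≤ 1 := by
    rw [hs, Real.sqrt_le_one]
    rw [div_le_one hJ]
    linarith [(Nat.cast_nonneg J : (0 : ℝ) ≤ J)]
  have hs2 : s ^ 2 = 1 / ((J : ℝ) + 1) := by rw [hs, Real.sq_sqrt (by positivity)]
  have hK0 : 0 ≤ K := (abs_nonneg _).trans (hf.bd 0)
  have hDprod := Cav5_47.Dev_prod (β := Fin 2) hQ (fil C nc n) J t (xn C nc n)
    (sum_xn_sq C nc n hN) P
  rw [DevS_eq_DevN C nc n hN Q J τ P] at hDprod
  rw [Fintype.card_fin] at hDprod
  push_cast at hDprod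
  set Dv := Dev Q (fun n' => (fil C nc n).F (t (J - n'))) J (Prod.fst : Fin 2 × Fin N → Fin 2)
      (fun ω p => xn C nc n ω p.2) (fun n _ => Cav5_47.Qd J P n) with hDv
  have hDv0 : 0 ≤ Dv := by
    rw [hDv]
    unfold Dev
    exact add_nonneg (Finset.sum_nonneg fun _ _ => Finset.sum_nonneg fun _ _ =>
      eE_nonneg hQ fun _ => abs_nonneg _) (Finset.sum_nonneg fun _ _ => pur_nonneg hQ _)
  have hDN0 : 0 ≤ DevN C nc n Q J τ P := by
    by_contra hneg
    rw [not_le] at hneg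
    nlinarith
  have hCT : 0 ≤ CT (2 * K) := CT_nonneg _
  by_cases hDd : Dv ≤ d
  · -- main case
    have H : RowChain_874.RS Q (fun n' => (fil C nc n).F (t (J - n'))) J
        (Prod.fst : Fin 2 × Fin N → Fin 2) (fun ω p => xn C nc n ω p.2)
        (RowFact_874.Qd (Fin 2) J P) 2 Dv := by
      refine ⟨hQ, ?_, ?_, hDv0, ?_, ?_, ?_, ?_⟩
      · intro n' _
        exact (fil C nc n).antitone (hlv.mono (by omega))
      · intro ω
        rw [Fintype.sum_prod_type, Fin.sum_univ_two]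
        simp only [sum_xn_sq C nc n hN ω]
        norm_num
      · intro n' k hn'
        rw [Qd_eq J P hn' k]
        exact Cav5_47.Qd_nonneg hP hn'
      · intro n' k hn'
        rw [Qd_eq J P (show n' ≤ J + 1 by omega) k, Qd_eq J P (show n' + 1 ≤ J + 1 by omega) k]
        exact Cav5_47.Qd_anti hP hn'
      · intro n' hn'
        have h0 := ov_le_Dev (J := J) (kap := (Prod.fst : Fin 2 × Fin N → Fin 2))
          (x := fun ω p => xn C nc n ω p.2) (Q := fun n _ => Cav5_47.Qd J P n)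
          (r := fun n' => (fil C nc n).F (t (J - n'))) hQ hn'
        refine le_trans (le_of_eq ?_) h0
        refine Finset.sum_congr rfl fun k _ => ?_
        rw [Qd_eq J P hn' k]
      · intro n' hn'
        exact pur_le_Dev (J := J) (kap := (Prod.fst : Fin 2 × Fin N → Fin 2))
          (x := fun ω p => xn C nc n ω p.2) (Q := fun n _ => Cav5_47.Qd J P n)
          (r := fun n' => (fil C nc n).F (t (J - n'))) hQ hn'
    have h1 := hmain Q (fil C nc n) (xs nc n) t (Prod.fst : Fin 2 × Fin N → Fin 2)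
      (fun ω p => xn C nc n ω p.2) (RowFact_874.Qd (Fin 2) J P) Dv s (by rw [hs2]; exact hlv)
      hnn.le (Cav5_47.fil_zero C nc n) hs0 hs1 H hDd (fun z => ∑ r, f (z r))
      (fun z => ∏ r, φ r (z r)) (fun z => ∏ r, ψ r (z r))
      (by
        intro y y'
        rw [← Finset.sum_sub_distrib]
        refine (Finset.abs_sum_le_sum_abs _ _).trans ?_
        rw [Finset.mul_sum]
        exact Finset.sum_le_sum fun r _ => hf.lip _ _)
      (by
        intro z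
        rw [Fin.sum_univ_two]
        refine (abs_add_le _ _).trans ?_
        have := hf.bd (z 0)
        have := hf.bd (z 1)
        linarith)
      (prod_lip φ hφ) (prod_bd φ hφ) (prod_lip ψ hψ) (prod_bd ψ hψ)
    rw [pair_value J hL hf P (show J + 1 - b ≤ J + 1 by omega) φ ψ,
      show J + 1 - (J + 1 - b) = b by omega] at h1
    have e1 : ∀ ζ : Fin 2 × Fin N → ℝ, pairV C nc n Q f φ ψ (stp nc n J τ b) ζ =
        eE (tl Q (fil C nc n) (xs nc n) (fun ω => (fun z : Fin 2 → ℝ => ∑ r, f (z r))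
          (zf (Prod.fst : Fin 2 × Fin N → Fin 2) (fun p => xn C nc n ω p.2) ζ))) (fun ω =>
          cE (tl Q (fil C nc n) (xs nc n) (fun ω => (fun z : Fin 2 → ℝ => ∑ r, f (z r))
          (zf (Prod.fst : Fin 2 × Fin N → Fin 2) (fun p => xn C nc n ω p.2) ζ)))
            ((fil C nc n).F (lev J t (fil C nc n).L (J + 1 - b)))
            (fun ω => (fun z : Fin 2 → ℝ => ∏ r, φ r (z r))
              (zf (Prod.fst : Fin 2 × Fin N → Fin 2) (fun p => xn C nc n ω p.2) ζ)) ω *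
          cE (tl Q (fil C nc n) (xs nc n) (fun ω => (fun z : Fin 2 → ℝ => ∑ r, f (z r))
          (zf (Prod.fst : Fin 2 × Fin N → Fin 2) (fun p => xn C nc n ω p.2) ζ)))
            ((fil C nc n).F (lev J t (fil C nc n).L (J + 1 - b)))
            (fun ω => (fun z : Fin 2 → ℝ => ∏ r, ψ r (z r))
              (zf (Prod.fst : Fin 2 × Fin N → Fin 2) (fun p => xn C nc n ω p.2) ζ)) ω) := by
      intro ζ
      unfold pairV
      rw [stp_eq nc n J τ hb]
      simp only [abs_zf_eq]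
      rfl
    simp_rw [← e1] at h1
    refine h1.trans ?_
    have : 0 ≤ 2 * (B ^ 2 * B ^ 2) / d * (2 + 2 ^ 2) * DevN C nc n Q J τ P := by positivity
    linarith
  · -- trivial bound
    rw [not_le] at hDd
    have hT : ∀ ζ : Fin 2 × Fin N → ℝ, |pairV C nc n Q f φ ψ (stp nc n J τ b) ζ| ≤ B ^ 2 * B ^ 2 := by
      intro ζ
      unfold pairV
      have hTP := tl_isProb (𝓕 := fil C nc n) hQ (Cav5_47.xs_expo nc n).pos
        (fun ω => ∑ r, f (∑ i, ζ (r, i) * (C.x ω.1 i / Real.sqrt N)))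
      refine (eE_abs_le hTP _).trans (eE_le_of_le hTP fun ω => ?_)
      rw [abs_mul]
      refine mul_le_mul ?_ ?_ (abs_nonneg _) hB2.le
      · exact abs_cE_le_of_le hTP (fun ω => prod_bd φ hφ _) ω
      · exact abs_cE_le_of_le hTP (fun ω => prod_bd ψ hψ _) ω
    have hI : |∫ ζ, pairV C nc n Q f φ ψ (stp nc n J τ b) ζ ∂(gm (Fin 2 × Fin N))| ≤
        B ^ 2 * B ^ 2 := by
      have h0 := norm_integral_le_of_norm_le_const (μ := gm (Fin 2 × Fin N))
        (f := fun ζ => pairV C nc n Q f φ ψ (stp nc n J τ b) ζ) (C := B ^ 2 * B ^ 2)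
        (ae_of_all _ fun ζ => by rw [Real.norm_eq_abs]; exact hT ζ)
      rw [Real.norm_eq_abs, probReal_univ, mul_one] at h0
      exact h0
    have hk : |∏ r, kapX J f P b (φ r) (ψ r)| ≤ B ^ 2 * B ^ 2 := by
      rw [Fin.prod_univ_two, abs_mul]
      have k0 := kapX_abs_le (J := J) hL hf P hb (BL_BC (hφ 0)) (BL_BC (hψ 0))
      have k1 := kapX_abs_le (J := J) hL hf P hb (BL_BC (hφ 1)) (BL_BC (hψ 1))
      rw [sq]
      exact mul_le_mul k0 k1 (abs_nonneg _) (by positivity)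
    have h1 : 2 * (B ^ 2 * B ^ 2) ≤ 2 * (B ^ 2 * B ^ 2) / d * (2 + 2 ^ 2) * DevN C nc n Q J τ P := by
      have h2 : d ≤ (2 + 2 ^ 2) * DevN C nc n Q J τ P := hDd.le.trans hDprod
      have e : 2 * (B ^ 2 * B ^ 2) = 2 * (B ^ 2 * B ^ 2) / d * d := by field_simp
      calc 2 * (B ^ 2 * B ^ 2) = 2 * (B ^ 2 * B ^ 2) / d * d := e
        _ ≤ 2 * (B ^ 2 * B ^ 2) / d * ((2 + 2 ^ 2) * DevN C nc n Q J τ P) :=
          mul_le_mul_of_nonneg_left h2 (by positivity)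
        _ = _ := by ring
    have h3 : 0 ≤ B ^ 2 * B ^ 2 * ((2 * Real.exp (2 * (2 * K)) + 1) * CT (2 * K)) * s := by
      positivity
    have h4 := abs_sub (∫ ζ, pairV C nc n Q f φ ψ (stp nc n J τ b) ζ ∂(gm (Fin 2 × Fin N)))
      (∏ r, kapX J f P b (φ r) (ψ r))
    linarith

end

end Crest.Agent.R146.RowSys_874
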