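import Crest.Agent.R146.RowTilt_874
import Crest.Agent.R146.RowChain2_874

/-!
Row 146, node ROWOBS (helper874), part 4: **the limit of the pair expectations of the tilted law**
of the full system (`row_limit`).
-/

set_option autoImplicit false

namespace Crest.Agent.R146.RowTilt_874

open Finset MeasureTheory ProbabilityTheory Crest.Agent.R141 Crest.Agent.R141.Fact
open Crest.Agent.R141.Skel31 Crest.Agent.R164.CavG Crest.Agent.R146.RowChain_874

noncomputable section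

/-- level of the depth `n`: depth `0` is the leaf. -/
def lev (J : ℕ) (t : ℕ → ℕ) (L : ℕ) : ℕ → ℕ
  | 0 => L
  | n + 1 => t (J - n)

/-- exponents adapted to the skeleton levels. -/
structure Lvl (xe : ℕ → ℝ) (J : ℕ) (t : ℕ → ℕ) (δ : ℝ) : Prop where
  expo : IsExpo xe
  nonneg : 0 ≤ δ
  mono : Monotone t
  low : ∀ l, l ≤ t 0 → xe l ≤ δ
  mid : ∀ j, 1 ≤ j → j ≤ J → ∀ l, t (j - 1) < l → l ≤ t j →
      |xe l - (j : ℝ) / ((J : ℝ) + 1)| ≤ δ
  top : ∀ l, t J < l → 1 - xe l ≤ δ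

theorem Lvl.close {xe : ℕ → ℝ} {J : ℕ} {t : ℕ → ℕ} {δ : ℝ} (h : Lvl xe J t δ) :
    ∀ k, t 0 < k → |xe k - xsk J t k| ≤ δ := by
  intro k hk
  by_cases hkJ : t J < k
  · have e1 : xsk J t k = 1 := by
      unfold xsk
      rw [cnt_top h.mono hkJ, max_eq_right (by omega)]
      push_cast
      field_simp
    rw [e1]
    have := h.top k hkJ
    have := h.expo.le_one k
    rw [abs_le]; constructor <;> linarith
  · have hex : ∃ j, k ≤ t j := ⟨J, not_lt.1 hkJ⟩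
    classical
    set j := Nat.find hex with hj
    have hj1 : k ≤ t j := Nat.find_spec hex
    have hj0 : j ≠ 0 := by
      intro h0
      rw [h0] at hj1
      omega
    have hjJ : j ≤ J := Nat.find_le (n := J) (h := hex) (not_lt.1 hkJ)
    have hj2 : t (j - 1) < k := by
      have := Nat.find_min hex (m := j - 1) (by omega)
      omega
    have e1 : xsk J t k = (j : ℝ) / ((J : ℝ) + 1) := by
      unfold xsk
      rw [cnt_mid h.mono hjJ (by omega) hj2 hj1, max_eq_right (by omega)]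
    rw [e1]
    exact h.mid j (by omega) hjJ k hj2 hj1

theorem lev_anti {J : ℕ} {t : ℕ → ℕ} (ht : Monotone t) {L : ℕ} (hL : t J ≤ L) (m : ℕ) :
    lev J t L (m + 1) ≤ lev J t L m := by
  cases m with
  | zero => exact hL
  | succ m => exact ht (by omega)

theorem t0_le_lev {J : ℕ} {t : ℕ → ℕ} (ht : Monotone t) {L : ℕ} (hL : t J ≤ L) (m : ℕ) :
    t 0 ≤ lev J t L m := by
  cases m with
  | zero => exact (ht (Nat.zero_le J)).trans hL
  | succ m => exact ht (Nat.zero_le _)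

theorem xsk_lev {J : ℕ} {t : ℕ → ℕ} (ht : Monotone t) {L : ℕ} {m : ℕ} (hm : m ≤ J) :
    ∀ j, lev J t L (m + 1) < j → j ≤ lev J t L m → xsk J t j = ySk J m := by
  intro j h1 h2
  cases m with
  | zero =>
    have h1' : t J < j := h1
    unfold xsk
    rw [cnt_top ht h1', max_eq_right (by omega), ySk_zero]
    push_cast
    field_simp
  | succ m =>
    have h1' : t (J - (m + 1)) < j := h1
    have h2' : j ≤ t (J - m) := h2
    have hc : cnt J t j = J - m := cnt_mid ht (by omega) (by omega)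
      (by rwa [show J - m - 1 = J - (m + 1) by omega]) h2'
    unfold xsk ySk
    rw [hc, max_eq_right (by omega), Nat.cast_sub (by omega)]
    push_cast
    congr 1
    ring

section

variable {Ω : Type} [Fintype Ω] {P : Ω → ℝ} {𝓕 : Filt Ω}

theorem skelA_lev (hP : IsProb P) (U : Ω → ℝ) {J : ℕ} {t : ℕ → ℕ} (ht : Monotone t)
    (htL : t J ≤ 𝓕.L) {m : ℕ} (hm : m ≤ J) :
    skelA P (fun n => 𝓕.F (t (J - n))) (ySk J) U m = A P 𝓕 (xsk J t) U (lev J t 𝓕.L m) := by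
  cases m with
  | zero => exact (A_of_ge U (le_refl _)).symm
  | succ m => exact funext (skelA_eq_A hP U ht htL m (by omega))

/-- `tsk` is the tilted conditional expectation for the skeleton exponents. -/
theorem tsk_eq (hP : IsProb P) (V : Ω → ℝ) {J : ℕ} {t : ℕ → ℕ} (ht : Monotone t)
    (htL : t J ≤ 𝓕.L) {n0 : ℕ} {h : Ω → ℝ} (hh : RMeas (𝓕.F (lev J t 𝓕.L n0)) h) :
    ∀ i, n0 + i ≤ J + 1 →
    tsk P (fun n => 𝓕.F (t (J - n))) (ySk J) V n0 h i =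
      cE (tl P 𝓕 (xsk J t) V) (𝓕.F (lev J t 𝓕.L (n0 + i))) h := by
  have hx := xsk_expo J t
  have hT := tl_isProb (𝓕 := 𝓕) hP hx.pos V
  intro i
  induction i with
  | zero =>
    intro _
    funext ω
    exact (cE_of_meas hT hh ω).symm
  | succ i ih =>
    intro hi
    have ih' := ih (by omega)
    have hm : n0 + i ≤ J := by omega
    funext ω
    have e1 : tsk P (fun n => 𝓕.F (t (J - n))) (ySk J) V n0 h (i + 1) ω =
        cE P (𝓕.F (t (J - (n0 + i)))) (fun a => Real.exp (ySk J (n0 + i) *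
          skelA P (fun n => 𝓕.F (t (J - n))) (ySk J) V (n0 + i) a) *
          tsk P (fun n => 𝓕.F (t (J - n))) (ySk J) V n0 h i a) ω /
        cE P (𝓕.F (t (J - (n0 + i)))) (fun a => Real.exp (ySk J (n0 + i) *
          skelA P (fun n => 𝓕.F (t (J - n))) (ySk J) V (n0 + i) a)) ω := rfl
    rw [e1, skelA_lev hP V ht htL hm, ih']
    have hle : lev J t 𝓕.L (n0 + i + 1) ≤ lev J t 𝓕.L (n0 + i) := lev_anti ht htL _
    have e2 := cE_block (𝓕 := 𝓕) hP hx V hle (ySk_pos hm) (xsk_lev ht hm)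
      (g := cE (tl P 𝓕 (xsk J t) V) (𝓕.F (lev J t 𝓕.L (n0 + i))) h) (cE_meas _ _ _) ω
    have e3 : cE (tl P 𝓕 (xsk J t) V) (𝓕.F (lev J t 𝓕.L (n0 + i + 1)))
        (cE (tl P 𝓕 (xsk J t) V) (𝓕.F (lev J t 𝓕.L (n0 + i))) h) ω =
        cE (tl P 𝓕 (xsk J t) V) (𝓕.F (lev J t 𝓕.L (n0 + i + 1))) h ω :=
      cE_tower hT (𝓕.anti' hle) h ω
    rw [← add_assoc, ← e3, e2]
    rfl

/-! ### measurability in the disorder -/

variable {Z : Type*} [MeasurableSpace Z]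

theorem measurable_A {x : ℕ → ℝ} (hP : IsProb P) (hx : ∀ k, 0 < x k) {f : Z → Ω → ℝ}
    (hf : ∀ a, Measurable fun z => f z a) (k : ℕ) (ω : Ω) :
    Measurable fun z => A P 𝓕 x (f z) k ω := by
  revert ω
  refine back_induction 𝓕 (Q := fun k => ∀ ω : Ω, Measurable fun z => A P 𝓕 x (f z) k ω) ?_ ?_ k
  · intro k hk ω
    have : (fun z => A P 𝓕 x (f z) k ω) = fun z => f z ω := by
      funext z; rw [A_of_ge _ hk]
    rw [this]
    exact hf ω
  · intro k ih ω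
    have : (fun z => A P 𝓕 x (f z) k ω) = fun z => pm P (𝓕.F k) (x (k + 1))
        (A P 𝓕 x (f z) (k + 1)) ω := by
      funext z; exact congrFun (A_step hP hx _ k) ω
    rw [this]
    exact measurable_pm (fun a => ih a) _ _

theorem measurable_S {x : ℕ → ℝ} (hP : IsProb P) (hx : ∀ k, 0 < x k) {f : Z → Ω → ℝ}
    (hf : ∀ a, Measurable fun z => f z a) (k m : ℕ) (ω : Ω) :
    Measurable fun z => S P 𝓕 x (f z) k m ω := by
  unfold S
  exact Finset.measurable_sum _ fun l _ => ((measurable_A hP hx hf (l + 1) ω).sub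
    (measurable_A hP hx hf l ω)).const_mul _

theorem measurable_tl {x : ℕ → ℝ} (hP : IsProb P) (hx : ∀ k, 0 < x k) {f : Z → Ω → ℝ}
    (hf : ∀ a, Measurable fun z => f z a) (ω : Ω) :
    Measurable fun z => tl P 𝓕 x (f z) ω := by
  unfold tl
  exact (Real.measurable_exp.comp (measurable_S hP hx hf 0 𝓕.L ω)).const_mul _

theorem measurable_cE_tl {x : ℕ → ℝ} (hP : IsProb P) (hx : ∀ k, 0 < x k) {f g : Z → Ω → ℝ}
    (hf : ∀ a, Measurable fun z => f z a) (hg : ∀ a, Measurable fun z => g z a) (k : ℕ) (ω : Ω) :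
    Measurable fun z => cE (tl P 𝓕 x (f z)) (𝓕.F k) (g z) ω := by
  have : (fun z => cE (tl P 𝓕 x (f z)) (𝓕.F k) (g z) ω) = fun z =>
      cE P (𝓕.F k) (fun w => Real.exp (S P 𝓕 x (f z) k 𝓕.L w) * g z w) ω := by
    funext z
    exact cE_tl hP hx _ _ _ _
  rw [this]
  exact measurable_cE (fun a => (Real.measurable_exp.comp
    (measurable_S hP hx hf k 𝓕.L a)).mul (hg a)) ω

theorem measurable_eE_tl {x : ℕ → ℝ} (hP : IsProb P) (hx : ∀ k, 0 < x k) {f g : Z → Ω → ℝ}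
    (hf : ∀ a, Measurable fun z => f z a) (hg : ∀ a, Measurable fun z => g z a) :
    Measurable fun z => eE (tl P 𝓕 x (f z)) (g z) := by
  unfold eE
  exact Finset.measurable_sum _ fun a _ => (measurable_tl hP hx hf a).mul (hg a)

end

/-- **Pair expectations of the tilted law**: `d` new rows (`β`), pairs at the depth `n0`. -/
theorem row_limit (β : Type) [Fintype β] [DecidableEq β] (J : ℕ)
    {a L B1 B2 L1 L2 : ℝ} (C : ℝ) (hL : 0 ≤ L)
    (hB1 : 0 < B1) (hB2 : 0 < B2) (hL1 : 0 ≤ L1) (hL2 : 0 ≤ L2) {n0 : ℕ} (hn0 : n0 ≤ J + 1)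
    {ε : ℝ} (hε : 0 < ε) :
    ∃ d > 0, ∀ {Ω κ : Type} [Fintype Ω] [Fintype κ] (P : Ω → ℝ) (𝓕 : Filt Ω) (xe : ℕ → ℝ)
      (t : ℕ → ℕ) (kap : κ → β) (x : Ω → κ → ℝ) (Q : ℕ → β → ℝ) (δ s : ℝ),
      Lvl xe J t (s ^ 2) → t J ≤ 𝓕.L → 𝓕.F 0 = ⊤ → 0 < s → s ≤ 1 →
      RS P (fun n => 𝓕.F (t (J - n))) J kap x Q C δ → δ ≤ d →
      ∀ w φ1 φ2 : (β → ℝ) → ℝ, Lip L w → (∀ z, |w z| ≤ a) → Lip L1 φ1 → (∀ z, |φ1 z| ≤ B1) →
      Lip L2 φ2 → (∀ z, |φ2 z| ≤ B2) →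
      |∫ ζ, eE (tl P 𝓕 xe (fun ω => w (zf kap (x ω) ζ))) (fun ω =>
          cE (tl P 𝓕 xe (fun ω => w (zf kap (x ω) ζ))) (𝓕.F (lev J t 𝓕.L n0))
            (fun ω => φ1 (zf kap (x ω) ζ)) ω *
          cE (tl P 𝓕 xe (fun ω => w (zf kap (x ω) ζ))) (𝓕.F (lev J t 𝓕.L n0))
            (fun ω => φ2 (zf kap (x ω) ζ)) ω) ∂(gm κ) -
        sm (Q (J + 1)) (gsk (ySk J) (vQ Q) w n0 (fun z => gsk (ySk J) (vQ Q) w 0 φ1 n0 z *
          gsk (ySk J) (vQ Q) w 0 φ2 n0 z) (J + 1 - n0)) 0| ≤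
        ε + B1 * B2 * ((2 * Real.exp (2 * a) + 1) * CT a) * s := by
  obtain ⟨d, hd, hmain⟩ := pair_limit β J (ySk J) (y0 := ySk J J) (c := a) C (ySk_pos le_rfl)
    (fun n hn => by
      unfold ySk
      have : (n : ℝ) ≤ J := by exact_mod_cast hn
      gcongr) (fun n _ => ySk_le_one J n) hL hB1.le hB2.le hL1 hL2 hn0 hε
  refine ⟨d, hd, ?_⟩
  intro Ω κ _ _ P 𝓕 xe t kap x Q δ s hlv htL hF0 hs0 hs1 H hδ w φ1 φ2 hw hc hφ1 hb1 hφ2 hb2
  have h1 := hmain P (fun n => 𝓕.F (t (J - n))) kap x Q δ H hδ w φ1 φ2 hw hc hφ1 hb1 hφ2 hb2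
  have hP := H.hP
  have hxk := xsk_expo J t
  have hmz : ∀ ω, Measurable (fun ζ : κ → ℝ => zf kap (x ω) ζ) := fun ω => measurable_zf kap _
  have hmw : ∀ ω, Measurable (fun ζ : κ → ℝ => w (zf kap (x ω) ζ)) :=
    fun ω => hw.measurable.comp (hmz ω)
  have hm1 : ∀ ω, Measurable (fun ζ : κ → ℝ => φ1 (zf kap (x ω) ζ)) :=
    fun ω => hφ1.measurable.comp (hmz ω)
  have hm2 : ∀ ω, Measurable (fun ζ : κ → ℝ => φ2 (zf kap (x ω) ζ)) :=
    fun ω => hφ2.measurable.comp (hmz ω)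
  -- the two sides, pointwise in `ζ`
  have hpt : ∀ ζ : κ → ℝ, |eE (tl P 𝓕 xe (fun ω => w (zf kap (x ω) ζ))) (fun ω =>
          cE (tl P 𝓕 xe (fun ω => w (zf kap (x ω) ζ))) (𝓕.F (lev J t 𝓕.L n0))
            (fun ω => φ1 (zf kap (x ω) ζ)) ω *
          cE (tl P 𝓕 xe (fun ω => w (zf kap (x ω) ζ))) (𝓕.F (lev J t 𝓕.L n0))
            (fun ω => φ2 (zf kap (x ω) ζ)) ω) -
      eE P (tsk P (fun n => 𝓕.F (t (J - n))) (ySk J) (fun ω => w (zf kap (x ω) ζ)) n0 (fun ω =>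
          tsk P (fun n => 𝓕.F (t (J - n))) (ySk J) (fun ω => w (zf kap (x ω) ζ)) 0
            (fun ω => φ1 (zf kap (x ω) ζ)) n0 ω *
          tsk P (fun n => 𝓕.F (t (J - n))) (ySk J) (fun ω => w (zf kap (x ω) ζ)) 0
            (fun ω => φ2 (zf kap (x ω) ζ)) n0 ω)
          (J + 1 - n0))| ≤ B1 * B2 * ((2 * Real.exp (2 * a) + 1) * CT a) * s := by
    intro ζ
    have hbot : RMeas (𝓕.F (lev J t 𝓕.L 0)) (fun ω => φ1 (zf kap (x ω) ζ)) :=
      rmeas_of_ge (le_refl _) _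
    have hbot2 : RMeas (𝓕.F (lev J t 𝓕.L 0)) (fun ω => φ2 (zf kap (x ω) ζ)) :=
      rmeas_of_ge (le_refl _) _
    have e1 := tsk_eq hP (fun ω => w (zf kap (x ω) ζ)) hlv.mono htL hbot n0 (by omega)
    have e2 := tsk_eq hP (fun ω => w (zf kap (x ω) ζ)) hlv.mono htL hbot2 n0 (by omega)
    rw [zero_add] at e1 e2
    rw [e1, e2]
    have hm : RMeas (𝓕.F (lev J t 𝓕.L n0)) (fun ω =>
        cE (tl P 𝓕 (xsk J t) (fun ω => w (zf kap (x ω) ζ))) (𝓕.F (lev J t 𝓕.L n0))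
          (fun ω => φ1 (zf kap (x ω) ζ)) ω *
        cE (tl P 𝓕 (xsk J t) (fun ω => w (zf kap (x ω) ζ))) (𝓕.F (lev J t 𝓕.L n0))
          (fun ω => φ2 (zf kap (x ω) ζ)) ω) := by
      intro p q hpq
      have g1 := cE_meas (tl P 𝓕 (xsk J t) (fun ω => w (zf kap (x ω) ζ)))
        (𝓕.F (lev J t 𝓕.L n0)) (fun ω => φ1 (zf kap (x ω) ζ)) p q hpq
      have g2 := cE_meas (tl P 𝓕 (xsk J t) (fun ω => w (zf kap (x ω) ζ)))
        (𝓕.F (lev J t 𝓕.L n0)) (fun ω => φ2 (zf kap (x ω) ζ)) p q hpq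
      show _ * _ = _ * _
      rw [g1, g2]
    rw [tsk_eq hP (fun ω => w (zf kap (x ω) ζ)) hlv.mono htL hm (J + 1 - n0) (by omega)]
    have e3 : lev J t 𝓕.L (n0 + (J + 1 - n0)) = t 0 := by
      rw [show n0 + (J + 1 - n0) = J + 1 by omega]
      show t (J - J) = t 0
      rw [Nat.sub_self]
    rw [e3]
    exact pair_change hP hlv.expo hxk hF0 (fun ω => hc _) hB1 hB2 (fun ω => hb1 _)
      (fun ω => hb2 _) (t0_le_lev hlv.mono htL n0) hlv.close hlv.low hs0 hs1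
  -- integrability
  have hb12 : ∀ s t : ℝ, |s| ≤ B1 → |t| ≤ B2 → |s * t| ≤ B1 * B2 := fun s t h1 h2 => by
    rw [abs_mul]; exact mul_le_mul h1 h2 (abs_nonneg _) hB1.le
  have hi1 : Integrable (fun ζ : κ → ℝ => eE (tl P 𝓕 xe (fun ω => w (zf kap (x ω) ζ))) (fun ω =>
          cE (tl P 𝓕 xe (fun ω => w (zf kap (x ω) ζ))) (𝓕.F (lev J t 𝓕.L n0))
            (fun ω => φ1 (zf kap (x ω) ζ)) ω *
          cE (tl P 𝓕 xe (fun ω => w (zf kap (x ω) ζ))) (𝓕.F (lev J t 𝓕.L n0))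
            (fun ω => φ2 (zf kap (x ω) ζ)) ω)) (gm κ) := by
    refine Integrable.of_bound (C := B1 * B2) (measurable_eE_tl hP hlv.expo.pos
      hmw (fun ω => (measurable_cE_tl hP hlv.expo.pos hmw hm1 _ ω).mul
        (measurable_cE_tl hP hlv.expo.pos hmw hm2 _ ω))).aestronglyMeasurable
      (ae_of_all _ fun ζ => ?_)
    have hT := tl_isProb (𝓕 := 𝓕) hP hlv.expo.pos (fun ω => w (zf kap (x ω) ζ))
    rw [Real.norm_eq_abs]
    refine (eE_abs_le hT _).trans (eE_le_of_le hT fun ω => hb12 _ _ ?_ ?_)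
    · exact abs_cE_le_of_le hT (fun ω => hb1 _) ω
    · exact abs_cE_le_of_le hT (fun ω => hb2 _) ω
  have hmt : ∀ (n0 : ℕ) (h : (κ → ℝ) → Ω → ℝ), (∀ ω, Measurable fun ζ => h ζ ω) → ∀ i ω,
      Measurable fun ζ : κ → ℝ => tsk P (fun n => 𝓕.F (t (J - n))) (ySk J)
        (fun ω => w (zf kap (x ω) ζ)) n0 (h ζ) i ω := by
    intro n0 h hh i
    induction i with
    | zero => exact hh
    | succ i ih =>
      intro ω
      have hA : ∀ a, Measurable fun ζ : κ → ℝ => Real.exp (ySk J (n0 + i) *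
          skelA P (fun n => 𝓕.F (t (J - n))) (ySk J) (fun ω => w (zf kap (x ω) ζ)) (n0 + i) a) :=
        fun a => Real.measurable_exp.comp ((measurable_skelA hmw (n0 + i) a).const_mul _)
      exact (measurable_cE (fun a => (hA a).mul (ih a)) ω).div (measurable_cE hA ω)
  have hbt : ∀ (n0 : ℕ) (h : (κ → ℝ) → Ω → ℝ) (B : ℝ), (∀ ζ ω, |h ζ ω| ≤ B) → ∀ i ζ ω,
      |tsk P (fun n => 𝓕.F (t (J - n))) (ySk J)
        (fun ω => w (zf kap (x ω) ζ)) n0 (h ζ) i ω| ≤ B := by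
    intro n0 h B hh i
    induction i with
    | zero => exact hh
    | succ i ih =>
      intro ζ ω
      have h0 : 0 < cE P (𝓕.F (t (J - (n0 + i)))) (fun a => Real.exp (ySk J (n0 + i) *
          skelA P (fun n => 𝓕.F (t (J - n))) (ySk J) (fun ω => w (zf kap (x ω) ζ)) (n0 + i) a))
          ω := cE_pos hP (fun a => Real.exp_pos _) ω
      show |_ / _| ≤ _
      rw [abs_div, abs_of_pos h0, div_le_iff₀ h0]
      refine (cE_abs_le hP _ _).trans ?_
      rw [← cE_smul]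
      refine cE_mono' hP (fun b => ?_) ω
      rw [abs_mul, abs_of_pos (Real.exp_pos _), mul_comm]
      exact mul_le_mul_of_nonneg_right (ih ζ b) (Real.exp_pos _).le
  have hi2 : Integrable (fun ζ : κ → ℝ =>
      eE P (tsk P (fun n => 𝓕.F (t (J - n))) (ySk J) (fun ω => w (zf kap (x ω) ζ)) n0 (fun ω =>
          tsk P (fun n => 𝓕.F (t (J - n))) (ySk J) (fun ω => w (zf kap (x ω) ζ)) 0
            (fun ω => φ1 (zf kap (x ω) ζ)) n0 ω *
          tsk P (fun n => 𝓕.F (t (J - n))) (ySk J) (fun ω => w (zf kap (x ω) ζ)) 0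
            (fun ω => φ2 (zf kap (x ω) ζ)) n0 ω)
          (J + 1 - n0))) (gm κ) := by
    refine Integrable.of_bound (C := B1 * B2) (measurable_eE (hmt n0 _ (fun ω =>
      (hmt 0 _ hm1 n0 ω).mul (hmt 0 _ hm2 n0 ω)) _)).aestronglyMeasurable
      (ae_of_all _ fun ζ => ?_)
    rw [Real.norm_eq_abs]
    refine (eE_abs_le hP _).trans (eE_le_of_le hP fun ω => ?_)
    exact hbt n0 (fun ζ ω =>
          tsk P (fun n => 𝓕.F (t (J - n))) (ySk J) (fun ω => w (zf kap (x ω) ζ)) 0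
            (fun ω => φ1 (zf kap (x ω) ζ)) n0 ω *
          tsk P (fun n => 𝓕.F (t (J - n))) (ySk J) (fun ω => w (zf kap (x ω) ζ)) 0
            (fun ω => φ2 (zf kap (x ω) ζ)) n0 ω) (B1 * B2) (fun ζ ω => hb12 _ _
              (hbt 0 (fun ζ ω => φ1 (zf kap (x ω) ζ)) B1 (fun ζ ω => hb1 _) n0 ζ ω)
              (hbt 0 (fun ζ ω => φ2 (zf kap (x ω) ζ)) B2 (fun ζ ω => hb2 _) n0 ζ ω)) _ ζ ω
  refine (abs_sub_le _ _ _).trans ((add_le_add (?_ : _ ≤ B1 * B2 * ((2 * Real.exp (2 * a) + 1) *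
    CT a) * s) h1).trans (le_of_eq (add_comm _ _)))
  rw [← integral_sub hi1 hi2]
  refine abs_integral_le_integral_abs.trans ?_
  refine (integral_mono (hi1.sub hi2).abs (integrable_const _) hpt).trans ?_
  simp

end

end Crest.Agent.R146.RowTilt_874
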