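import Crest.Agent.R141.Skel31
import Crest.Agent.R164.CoinIBP

/-!
Row 146, node ROWOBS (helper874), part 3: tilted conditional expectations under a change of the
exponents (finite differences of the free energies), and their form along the skeleton.
-/

set_option autoImplicit false

namespace Crest.Agent.R146.RowTilt_874

open Finset Crest.Agent.R141 Crest.Agent.R141.Fact

noncomputable section

variable {Ω : Type} [Fintype Ω] {P : Ω → ℝ} {𝓕 : Filt Ω}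

/-- the constant of the exponent change. -/
def CT (a : ℝ) : ℝ := 2 + 30 * (a + 1) ^ 2 * Real.exp (4 * (a + 1))

theorem CT_nonneg (a : ℝ) : 0 ≤ CT a := by unfold CT; positivity

omit [Fintype Ω] in
theorem add_bd {V w : Ω → ℝ} {a s : ℝ} (hV : ∀ ω, |V ω| ≤ a) (hw : ∀ ω, |w ω| ≤ s) (ω : Ω) :
    |V ω + w ω| ≤ a + s :=
  (abs_add_le _ _).trans (add_le_add (hV ω) (hw ω))

theorem const_le {a s : ℝ} (ha : 0 ≤ a) (hs0 : 0 ≤ s) (hs1 : s ≤ 1) :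
    (a + s) ^ 2 * Real.exp (4 * (a + s)) ≤ (a + 1) ^ 2 * Real.exp (4 * (a + 1)) := by
  gcongr

/-- finite difference form of a tilted conditional expectation. -/
theorem fd (hP : IsProb P) {x : ℕ → ℝ} (hx : IsExpo x) (V : Ω → ℝ) {w : Ω → ℝ} {s : ℝ}
    (hw : ∀ ω, |w ω| ≤ s) (hs1 : s ≤ 1) (k : ℕ) (ω : Ω) :
    |(A P 𝓕 x (fun a => V a + w a) k ω - A P 𝓕 x V k ω) - cE (tl P 𝓕 x V) (𝓕.F k) w ω| ≤
      s ^ 2 := by
  rw [A_cocycle hP hx.pos, add_sub_cancel_left]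
  exact Crest.Agent.R164.CoinIBP.abs_A_sub_cE_le (tl_isProb hP hx.pos V) hx hw hs1 k ω

/-- **Change of the exponents** above the level `k0`. -/
theorem tilt_change (hP : IsProb P) {x x' : ℕ → ℝ} (hx : IsExpo x) (hx' : IsExpo x')
    {V g : Ω → ℝ} {a B s : ℝ} (hV : ∀ ω, |V ω| ≤ a) (hB : 0 < B) (hg : ∀ ω, |g ω| ≤ B) {k0 : ℕ}
    (hδ : ∀ k, k0 < k → |x k - x' k| ≤ s ^ 2) (hs0 : 0 < s) (hs1 : s ≤ 1) :
    eE P (fun ω => |cE (tl P 𝓕 x V) (𝓕.F k0) g ω - cE (tl P 𝓕 x' V) (𝓕.F k0) g ω|) ≤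
      B * CT a * s := by
  have ha : 0 ≤ a := by
    obtain ⟨ω⟩ : Nonempty Ω := by
      by_contra h
      rw [not_nonempty_iff] at h
      have := hP.sum
      simp at this
    exact (abs_nonneg _).trans (hV ω)
  set w : Ω → ℝ := fun ω => (s / B) * g ω with hwdef
  have hw : ∀ ω, |w ω| ≤ s := by
    intro ω
    rw [hwdef]
    show |s / B * g ω| ≤ s
    rw [abs_mul, abs_of_pos (by positivity)]
    calc s / B * |g ω| ≤ s / B * B := mul_le_mul_of_nonneg_left (hg ω) (by positivity)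
      _ = s := by field_simp
  have hVw := add_bd hV hw
  have h1 := Exch.expChange_abs (𝓕 := 𝓕) hP hx hx' hVw hδ (sq_nonneg s)
  have h2 := Exch.expChange_abs (𝓕 := 𝓕) hP hx hx' hV hδ (sq_nonneg s)
  have hpt : ∀ ω, (s / B) * |cE (tl P 𝓕 x V) (𝓕.F k0) g ω - cE (tl P 𝓕 x' V) (𝓕.F k0) g ω| ≤
      2 * s ^ 2 + (|A P 𝓕 x (fun a => V a + w a) k0 ω - A P 𝓕 x' (fun a => V a + w a) k0 ω| +
        |A P 𝓕 x V k0 ω - A P 𝓕 x' V k0 ω|) := by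
    intro ω
    have e1 := fd (𝓕 := 𝓕) hP hx V hw hs1 k0 ω
    have e2 := fd (𝓕 := 𝓕) hP hx' V hw hs1 k0 ω
    have e3 : cE (tl P 𝓕 x V) (𝓕.F k0) w ω = (s / B) * cE (tl P 𝓕 x V) (𝓕.F k0) g ω :=
      cE_smul _ _ _ _ _
    have e4 : cE (tl P 𝓕 x' V) (𝓕.F k0) w ω = (s / B) * cE (tl P 𝓕 x' V) (𝓕.F k0) g ω :=
      cE_smul _ _ _ _ _
    rw [e3] at e1
    rw [e4] at e2
    have e5 : (s / B) * |cE (tl P 𝓕 x V) (𝓕.F k0) g ω - cE (tl P 𝓕 x' V) (𝓕.F k0) g ω| =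
        |(s / B) * cE (tl P 𝓕 x V) (𝓕.F k0) g ω - (s / B) * cE (tl P 𝓕 x' V) (𝓕.F k0) g ω| := by
      rw [← mul_sub, abs_mul, abs_of_pos (by positivity : 0 < s / B)]
    rw [e5]
    have e6 := abs_le.1 e1
    have e7 := abs_le.1 e2
    have e8 := le_abs_self (A P 𝓕 x (fun a => V a + w a) k0 ω -
      A P 𝓕 x' (fun a => V a + w a) k0 ω)
    have e9 := neg_abs_le (A P 𝓕 x (fun a => V a + w a) k0 ω -
      A P 𝓕 x' (fun a => V a + w a) k0 ω)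
    have e10 := le_abs_self (A P 𝓕 x V k0 ω - A P 𝓕 x' V k0 ω)
    have e11 := neg_abs_le (A P 𝓕 x V k0 ω - A P 𝓕 x' V k0 ω)
    rw [abs_le]
    constructor <;> linarith
  have h3 := eE_mono hP hpt
  rw [eE_smul, eE_add, eE_add, eE_const hP] at h3
  have h4 := const_le ha hs0.le hs1
  have h5 := const_le ha (le_refl 0) zero_le_one
  rw [add_zero] at h5
  have h6 : (s / B) * eE P (fun ω => |cE (tl P 𝓕 x V) (𝓕.F k0) g ω -
      cE (tl P 𝓕 x' V) (𝓕.F k0) g ω|) ≤ CT a * s ^ 2 := by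
    refine h3.trans ?_
    have e0 : 0 ≤ s ^ 2 := sq_nonneg s
    have e1 : 10 * (a + s) ^ 2 * Real.exp (4 * (a + s)) * s ^ 2 ≤
        10 * ((a + 1) ^ 2 * Real.exp (4 * (a + 1))) * s ^ 2 := by nlinarith
    have e2 : 10 * a ^ 2 * Real.exp (4 * a) * s ^ 2 ≤
        10 * ((a + 1) ^ 2 * Real.exp (4 * (a + 1))) * s ^ 2 := by nlinarith
    have e3 : 0 ≤ (a + 1) ^ 2 * Real.exp (4 * (a + 1)) * s ^ 2 := by positivity
    unfold CT
    nlinarith [h1, h2]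
  have h7 : 0 < s / B := by positivity
  have h8 : eE P (fun ω => |cE (tl P 𝓕 x V) (𝓕.F k0) g ω - cE (tl P 𝓕 x' V) (𝓕.F k0) g ω|) ≤
      CT a * s ^ 2 / (s / B) := by
    rw [le_div_iff₀ h7, mul_comm]; exact h6
  refine h8.trans (le_of_eq ?_)
  field_simp

/-- **The bottom**: plain expectation at the level `t0`. -/
theorem tilt_bottom (hP : IsProb P) {x x' : ℕ → ℝ} (hx : IsExpo x) (hx' : IsExpo x')
    (hF0 : 𝓕.F 0 = ⊤)
    {V g : Ω → ℝ} {a B s : ℝ} (hV : ∀ ω, |V ω| ≤ a) (hB : 0 < B) (hg : ∀ ω, |g ω| ≤ B) {t0 : ℕ}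
    (hδ : ∀ k, t0 < k → |x k - x' k| ≤ s ^ 2) (hlow : ∀ l, l ≤ t0 → x l ≤ s ^ 2)
    (hs0 : 0 < s) (hs1 : s ≤ 1) :
    |eE (tl P 𝓕 x V) g - eE P (cE (tl P 𝓕 x' V) (𝓕.F t0) g)| ≤ B * CT a * s := by
  obtain ⟨ω₀⟩ : Nonempty Ω := by
    by_contra h
    rw [not_nonempty_iff] at h
    have := hP.sum
    simp at this
  have ha : 0 ≤ a := (abs_nonneg _).trans (hV ω₀)
  set w : Ω → ℝ := fun ω => (s / B) * g ω with hwdef
  have hw : ∀ ω, |w ω| ≤ s := by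
    intro ω
    rw [hwdef]
    show |s / B * g ω| ≤ s
    rw [abs_mul, abs_of_pos (by positivity)]
    calc s / B * |g ω| ≤ s / B * B := mul_le_mul_of_nonneg_left (hg ω) (by positivity)
      _ = s := by field_simp
  have hVw := add_bd hV hw
  -- value of `A_0`
  have h0 : ∀ {W : Ω → ℝ} {b : ℝ}, (∀ ω, |W ω| ≤ b) → 0 ≤ b → b ≤ a + 1 →
      |A P 𝓕 x W 0 ω₀ - eE P (A P 𝓕 x' W t0)| ≤
        15 * ((a + 1) ^ 2 * Real.exp (4 * (a + 1))) * s ^ 2 := by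
    intro W b hW hb0 hb
    have e1 : A P 𝓕 x W 0 ω₀ = eE P (A P 𝓕 x W 0) := by
      have hm := A_meas (𝓕 := 𝓕) hP hx.pos W 0
      rw [hF0] at hm
      rw [← eE_top hP (A P 𝓕 x W 0) ω₀]
      exact (cE_of_meas hP hm ω₀).symm
    have e2 := Exch.A_low (𝓕 := 𝓕) hP hx hW (Nat.zero_le t0) hlow (sq_nonneg s)
    have e3 := Exch.expChange_abs (𝓕 := 𝓕) hP hx hx' hW hδ (sq_nonneg s)
    have e4 : |eE P (A P 𝓕 x W t0) - eE P (A P 𝓕 x' W t0)| ≤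
        eE P (fun ω => |A P 𝓕 x W t0 ω - A P 𝓕 x' W t0 ω|) := by
      rw [← eE_sub]
      exact eE_abs_le hP _
    rw [e1]
    have e5 := abs_sub_le (eE P (A P 𝓕 x W 0)) (eE P (A P 𝓕 x W t0)) (eE P (A P 𝓕 x' W t0))
    have e6 : b ^ 2 * Real.exp (2 * b) ≤ (a + 1) ^ 2 * Real.exp (4 * (a + 1)) := by
      refine mul_le_mul (pow_le_pow_left₀ hb0 hb 2) (Real.exp_le_exp.2 (by linarith))
        (Real.exp_pos _).le (by positivity)
    have e7 : b ^ 2 * Real.exp (4 * b) ≤ (a + 1) ^ 2 * Real.exp (4 * (a + 1)) := by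
      refine mul_le_mul (pow_le_pow_left₀ hb0 hb 2) (Real.exp_le_exp.2 (by linarith))
        (Real.exp_pos _).le (by positivity)
    have e8 : 5 * b ^ 2 * Real.exp (2 * b) * s ^ 2 ≤
        5 * ((a + 1) ^ 2 * Real.exp (4 * (a + 1))) * s ^ 2 := by
      have := sq_nonneg s
      nlinarith
    have e9 : 10 * b ^ 2 * Real.exp (4 * b) * s ^ 2 ≤
        10 * ((a + 1) ^ 2 * Real.exp (4 * (a + 1))) * s ^ 2 := by
      have := sq_nonneg s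
      nlinarith
    linarith
  have h1 := h0 hVw (by positivity) (by linarith)
  have h2 := h0 hV ha (by linarith)
  have h3 := fd (𝓕 := 𝓕) hP hx V hw hs1 0 ω₀
  have h4 : |eE P (fun ω => (A P 𝓕 x' (fun a => V a + w a) t0 ω - A P 𝓕 x' V t0 ω) -
      cE (tl P 𝓕 x' V) (𝓕.F t0) w ω)| ≤ s ^ 2 :=
    (eE_abs_le hP _).trans (eE_le_of_le hP fun ω => fd (𝓕 := 𝓕) hP hx' V hw hs1 t0 ω)
  rw [eE_sub, eE_sub] at h4
  have e1 : cE (tl P 𝓕 x V) (𝓕.F 0) w ω₀ = (s / B) * eE (tl P 𝓕 x V) g := by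
    rw [hF0, eE_top (tl_isProb hP hx.pos V)]
    exact eE_smul _ _ _
  have e2 : eE P (fun ω => cE (tl P 𝓕 x' V) (𝓕.F t0) w ω) =
      (s / B) * eE P (cE (tl P 𝓕 x' V) (𝓕.F t0) g) := by
    rw [← eE_smul]
    congr 1
    funext ω
    exact cE_smul _ _ _ _ _
  rw [e1] at h3
  rw [e2] at h4
  have h5 : |(s / B) * eE (tl P 𝓕 x V) g - (s / B) * eE P (cE (tl P 𝓕 x' V) (𝓕.F t0) g)| ≤
      CT a * s ^ 2 := by
    have e3 := abs_le.1 h1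
    have e4 := abs_le.1 h2
    have e5 := abs_le.1 h3
    have e6 := abs_le.1 h4
    unfold CT
    rw [abs_le]
    constructor <;> nlinarith
  rw [← mul_sub, abs_mul, abs_of_pos (by positivity : 0 < s / B)] at h5
  have h7 : 0 < s / B := by positivity
  have h8 : |eE (tl P 𝓕 x V) g - eE P (cE (tl P 𝓕 x' V) (𝓕.F t0) g)| ≤
      CT a * s ^ 2 / (s / B) := by
    rw [le_div_iff₀ h7, mul_comm]; exact h5
  refine h8.trans (le_of_eq ?_)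
  field_simp

/-- **Pairs**: two conditionally independent copies given `F_k`, `t0 ≤ k`. -/
theorem pair_change (hP : IsProb P) {x x' : ℕ → ℝ} (hx : IsExpo x) (hx' : IsExpo x')
    (hF0 : 𝓕.F 0 = ⊤)
    {V φ1 φ2 : Ω → ℝ} {a B1 B2 s : ℝ} (hV : ∀ ω, |V ω| ≤ a) (hB1 : 0 < B1) (hB2 : 0 < B2)
    (h1 : ∀ ω, |φ1 ω| ≤ B1) (h2 : ∀ ω, |φ2 ω| ≤ B2) {t0 k : ℕ} (hk : t0 ≤ k)
    (hδ : ∀ k, t0 < k → |x k - x' k| ≤ s ^ 2) (hlow : ∀ l, l ≤ t0 → x l ≤ s ^ 2)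
    (hs0 : 0 < s) (hs1 : s ≤ 1) :
    |eE (tl P 𝓕 x V) (fun ω => cE (tl P 𝓕 x V) (𝓕.F k) φ1 ω * cE (tl P 𝓕 x V) (𝓕.F k) φ2 ω) -
      eE P (cE (tl P 𝓕 x' V) (𝓕.F t0) (fun ω =>
        cE (tl P 𝓕 x' V) (𝓕.F k) φ1 ω * cE (tl P 𝓕 x' V) (𝓕.F k) φ2 ω))| ≤
      B1 * B2 * ((2 * Real.exp (2 * a) + 1) * CT a) * s := by
  have hT := tl_isProb (𝓕 := 𝓕) hP hx.pos V
  have hT' := tl_isProb (𝓕 := 𝓕) hP hx'.pos V
  set e1 := cE (tl P 𝓕 x V) (𝓕.F k) φ1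
  set e2 := cE (tl P 𝓕 x V) (𝓕.F k) φ2
  set f1 := cE (tl P 𝓕 x' V) (𝓕.F k) φ1 with hf1
  set f2 := cE (tl P 𝓕 x' V) (𝓕.F k) φ2 with hf2
  have hb1 : ∀ ω, |e1 ω| ≤ B1 := fun ω => abs_cE_le_of_le hT h1 ω
  have hb2 : ∀ ω, |e2 ω| ≤ B2 := fun ω => abs_cE_le_of_le hT h2 ω
  have hc1 : ∀ ω, |f1 ω| ≤ B1 := fun ω => abs_cE_le_of_le hT' h1 ω
  have hc2 : ∀ ω, |f2 ω| ≤ B2 := fun ω => abs_cE_le_of_le hT' h2 ω
  have t1 := tilt_change (𝓕 := 𝓕) hP hx hx' hV hB1 h1 (k0 := k) (fun k' hk' => hδ k' (by omega))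
    hs0 hs1
  have t2 := tilt_change (𝓕 := 𝓕) hP hx hx' hV hB2 h2 (k0 := k) (fun k' hk' => hδ k' (by omega))
    hs0 hs1
  have t3 := tilt_bottom (𝓕 := 𝓕) hP hx hx' hF0 hV (B := B1 * B2) (by positivity)
    (g := fun ω => f1 ω * f2 ω) (fun ω => by
      rw [abs_mul]; exact mul_le_mul (hc1 ω) (hc2 ω) (abs_nonneg _) hB1.le) hδ hlow hs0 hs1
  have t4 : |eE (tl P 𝓕 x V) (fun ω => e1 ω * e2 ω) - eE (tl P 𝓕 x V) (fun ω => f1 ω * f2 ω)| ≤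
      Real.exp (2 * a) * (2 * (B1 * B2 * CT a * s)) := by
    rw [← eE_sub]
    refine (eE_abs_le hT _).trans ((eE_tl_le hP hx hV (fun ω => abs_nonneg _)).trans ?_)
    refine mul_le_mul_of_nonneg_left ?_ (Real.exp_pos _).le
    have e : ∀ ω, |e1 ω * e2 ω - f1 ω * f2 ω| ≤ B1 * |e2 ω - f2 ω| + B2 * |e1 ω - f1 ω| := by
      intro ω
      have e0 : e1 ω * e2 ω - f1 ω * f2 ω = e1 ω * (e2 ω - f2 ω) + f2 ω * (e1 ω - f1 ω) := by ring
      rw [e0]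
      refine (abs_add_le _ _).trans ?_
      rw [abs_mul, abs_mul]
      exact add_le_add (mul_le_mul_of_nonneg_right (hb1 ω) (abs_nonneg _))
        (mul_le_mul_of_nonneg_right (hc2 ω) (abs_nonneg _))
    refine (eE_mono hP e).trans ?_
    rw [eE_add, eE_smul, eE_smul]
    have e3 := mul_le_mul_of_nonneg_left t2 hB1.le
    have e4 := mul_le_mul_of_nonneg_left t1 hB2.le
    linarith
  refine (abs_sub_le _ (eE (tl P 𝓕 x V) (fun ω => f1 ω * f2 ω)) _).trans ?_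
  refine (add_le_add t4 t3).trans (le_of_eq ?_)
  ring

/-! ### along the skeleton -/

/-- constant exponents on `(k, m]`. -/
theorem S_const_expo {x : ℕ → ℝ} (U : Ω → ℝ) {k m : ℕ} (h : k ≤ m) {y : ℝ}
    (hy : ∀ j, k < j → j ≤ m → x j = y) (ω : Ω) :
    S P 𝓕 x U k m ω = y * (A P 𝓕 x U m ω - A P 𝓕 x U k ω) := by
  have e0 : S P 𝓕 x U k m ω = ∑ l ∈ Ico k m, y * (A P 𝓕 x U (l + 1) ω - A P 𝓕 x U l ω) := by
    unfold S
    refine Finset.sum_congr rfl fun l hl => ?_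
    rw [Finset.mem_Ico] at hl
    rw [hy (l + 1) (by omega) (by omega)]
  rw [e0, ← Finset.mul_sum, Finset.sum_Ico_eq_sum_range]
  congr 1
  have e := Finset.sum_range_sub (fun i => A P 𝓕 x U (k + i) ω) (m - k)
  rw [show k + (m - k) = m by omega, add_zero] at e
  exact e

/-- one block of constant exponents. -/
theorem cE_block (hP : IsProb P) {x : ℕ → ℝ} (hx : IsExpo x) (V : Ω → ℝ) {k m : ℕ} (h : k ≤ m)
    {y : ℝ} (hy0 : 0 < y) (hy : ∀ j, k < j → j ≤ m → x j = y) {g : Ω → ℝ} (hg : RMeas (𝓕.F m) g)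
    (ω : Ω) :
    cE (tl P 𝓕 x V) (𝓕.F k) g ω =
      cE P (𝓕.F k) (fun a => Real.exp (y * A P 𝓕 x V m a) * g a) ω /
        cE P (𝓕.F k) (fun a => Real.exp (y * A P 𝓕 x V m a)) ω := by
  rw [cE_tl_meas hP hx.pos V h hg]
  have e1 : ∀ a, Real.exp (S P 𝓕 x V k m a) * g a =
      Real.exp (-(y * A P 𝓕 x V k a)) * (Real.exp (y * A P 𝓕 x V m a) * g a) := by
    intro a
    rw [S_const_expo V h hy, ← mul_assoc, ← Real.exp_add]
    congr 2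
    ring
  simp_rw [e1]
  have hm : RMeas (𝓕.F k) (fun a => Real.exp (-(y * A P 𝓕 x V k a))) := by
    intro a b hab
    show Real.exp (-(y * A P 𝓕 x V k a)) = Real.exp (-(y * A P 𝓕 x V k b))
    rw [A_meas hP hx.pos V k a b hab]
  rw [cE_mul_left hm]
  have e2 : Real.exp (y * A P 𝓕 x V k ω) =
      cE P (𝓕.F k) (fun a => Real.exp (y * A P 𝓕 x V m a)) ω := by
    rw [A_collapse hP hx.pos hy0 V h hy ω]
    exact exp_pm hP _ hy0 _ ω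
  rw [← e2, Real.exp_neg, div_eq_mul_inv]
  ring

end

end Crest.Agent.R146.RowTilt_874
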