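import Crest.Agent.R146.TipW_131
import Crest.Agent.R146.Chk05_288
import Crest.Agent.R146.Bsw_649
import Crest.Agent.R146.S6Fin_734
import Crest.Agent.R146.Nodes_131
import Crest.Agent.R146.BrAll_256
import Crest.Agent.R146.NoGap_546
import Crest.Agent.R146.Expo_288

/-!
Row 146 (helper131, PM-C): THE LITERAL STATEMENT S0205 from the nodes which are still open.
* `s0205_top` : `S6 W` (= S0206 on `W`), `LOCCORE`, `EXPO`, `PLAW`, `START`, `Bridge`,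
  `NOGAP`, `PTMAIN` ⟹ S0205.
* `s0205_num` : `NUMREF` ⟹ S0205 (`S6`, `LOCCORE`, `EXPO`, `PLAW`, `START`, `Bridge`, `NOGAP`,
  `CLOSED`, `WINREF`, `WINA` are theorems).
-/

set_option autoImplicit false

namespace Crest.Agent.R146.S0205Top_131

open MeasureTheory ProbabilityTheory Filter Crest.ProbabilityR.Perceptron
open Crest.Agent.R146.P34_734 Crest.Agent.R146.P5Def_12 Crest.Agent.R146.S0205Asm_12
open Crest.Agent.R146.TipSeq_791 Crest.Agent.R146.StepAsm_791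
open scoped Topology

theorem s0205_top (W : BS) (h6 : S6 W) (hLoc : LocCore_508.LOCCORE) (hEXPO : EXPO W)
    (hlaw : PLAW) (hst : START) (hbr : Bridge (RW W) (KW W) (xiW W)) (hng : NOGAP)
    (hmain : PTMAIN) (αc : ℝ) (hαc : 0 < αc)
    (hlow : ∀ α : ℝ, 0 < α → α < αc →
      Filter.Tendsto (fun N : ℕ => satProb N α) Filter.atTop (nhds 1))
    (hhigh : ∀ α : ℝ, αc < α →
      Filter.Tendsto (fun N : ℕ => satProb N α) Filter.atTop (nhds 0)) :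
    ∃ ε₀ : ℝ, 0 < ε₀ ∧ ε₀ < 1 ∧ ∃ G F : ℝ → ℝ,
      (∀ ε : ℝ, 0 ≤ ε → ε < ε₀ →
        (∀ u : ℝ, 0 < u → ∃ g : ℝ → ℝ,
          (∀ δ : ℝ, 0 < δ → δ < u →
            HasOrderedLimit (fun N β α => gapMean N β α ε δ u) αc (g δ)) ∧
          Filter.Tendsto g (nhdsWithin 0 (Set.Ioi 0)) (nhds (G u))) ∧
        (∀ s : ℝ, 0 < s → HasOrderedLimit (fun N β α => forceMean N β α ε s) αc (F s))) ∧
      (∃ P : MeasureTheory.Measure ℝ, MeasureTheory.IsProbabilityMeasure P ∧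
        P (Set.Iic 0) = 0 ∧ ∫ x, x ∂P = 1 ∧
        ∀ s : ℝ, 0 < s → F s = (P (Set.Iic s)).toReal) ∧
      ∃ γ θ : ℝ, γ = 1 / (2 + θ) ∧ 0.4126930 < γ ∧ γ < 0.4126934 ∧
        0.4231063 < θ ∧ θ < 0.4231088 ∧
        Filter.Tendsto (fun u : ℝ => Real.log (G u) / Real.log u)
          (nhdsWithin 0 (Set.Ioi 0)) (nhds (1 - γ)) ∧
        Filter.Tendsto (fun s : ℝ => Real.log (F s) / Real.log s)
          (nhdsWithin 0 (Set.Ioi 0)) (nhds (1 + θ)) :=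
  Chk05_288.s0205_open4 W h6 hLoc (TipW_131.tipw_of W hlaw hst hbr hng hmain) hEXPO
    αc hαc hlow hhigh

theorem s0205_num (W : BS) (hNR : PtRef_846.NUMREF) (αc : ℝ) (hαc : 0 < αc)
    (hlow : ∀ α : ℝ, 0 < α → α < αc →
      Filter.Tendsto (fun N : ℕ => satProb N α) Filter.atTop (nhds 1))
    (hhigh : ∀ α : ℝ, αc < α →
      Filter.Tendsto (fun N : ℕ => satProb N α) Filter.atTop (nhds 0)) :
    ∃ ε₀ : ℝ, 0 < ε₀ ∧ ε₀ < 1 ∧ ∃ G F : ℝ → ℝ,
      (∀ ε : ℝ, 0 ≤ ε → ε < ε₀ →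
        (∀ u : ℝ, 0 < u → ∃ g : ℝ → ℝ,
          (∀ δ : ℝ, 0 < δ → δ < u →
            HasOrderedLimit (fun N β α => gapMean N β α ε δ u) αc (g δ)) ∧
          Filter.Tendsto g (nhdsWithin 0 (Set.Ioi 0)) (nhds (G u))) ∧
        (∀ s : ℝ, 0 < s → HasOrderedLimit (fun N β α => forceMean N β α ε s) αc (F s))) ∧
      (∃ P : MeasureTheory.Measure ℝ, MeasureTheory.IsProbabilityMeasure P ∧
        P (Set.Iic 0) = 0 ∧ ∫ x, x ∂P = 1 ∧
        ∀ s : ℝ, 0 < s → F s = (P (Set.Iic s)).toReal) ∧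
      ∃ γ θ : ℝ, γ = 1 / (2 + θ) ∧ 0.4126930 < γ ∧ γ < 0.4126934 ∧
        0.4231063 < θ ∧ θ < 0.4231088 ∧
        Filter.Tendsto (fun u : ℝ => Real.log (G u) / Real.log u)
          (nhdsWithin 0 (Set.Ioi 0)) (nhds (1 - γ)) ∧
        Filter.Tendsto (fun s : ℝ => Real.log (F s) / Real.log s)
          (nhdsWithin 0 (Set.Ioi 0)) (nhds (1 + θ)) :=
  s0205_top W (Fin34_734.s6_of S6Fin_734.s0206 W) LocAsm_508.loccore (Expo_288.expo W) Nodes_131.plaw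
    Nodes_131.start (BrAll_256.bridge W) NoGap_546.nogap (Nodes_131.ptmain_of hNR) αc hαc hlow hhigh

end Crest.Agent.R146.S0205Top_131
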