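import Crest.Agent.R146.Wrap_947
import Crest.Agent.R146.S6Lit_663
import Crest.Agent.R146.Disc_857
import Crest.Agent.R146.PLim_857
import Crest.Agent.R146.MonB_911
import Crest.Agent.R146.MonF_422
import Crest.Agent.R146.U0_762
import Crest.Agent.R146.S6U1_993
import Crest.Agent.R146.DerJen_52
import Crest.Agent.R146.S6Ibp_559
import Crest.Agent.R146.HConc_52
import Crest.Agent.R146.S6StrF_649
import Crest.Agent.R146.S6Cavity_769
import Crest.Agent.R146.S6UB_167
import Crest.Agent.R146.CtlG_130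
import Crest.Agent.R146.LBF_988

/-!
Row 146 (helper988): the conclusion of `S0206`, unconditional.
-/

set_option autoImplicit false

open MeasureTheory ProbabilityTheory Filter Topology
open Crest.ProbabilityR.Perceptron
open Crest.Agent.R146.S6Def_988 Crest.Agent.R146.S6U_988

namespace Crest.Agent.R146.S0206F_988

theorem ub : UB :=
  S6UB_167.UB_of U0_762.result S6U1_993.result DerJen_52.jen DerJen_52.der S6Ibp_559.ibp_node
    HConc_52.hconc S6StrF_649.str S6Cavity_769.cav (MonB_911.monod MonF_422.mono MonF_422.lip)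
    PLim857.plim Disc857.disc

theorem s0206
    (Ω : Type) [MeasurableSpace Ω] (P : Measure Ω) [IsProbabilityMeasure P]
    (B : NNReal → Ω → ℝ) (hBm : ∀ t, Measurable (B t)) (hB : IsBrownianReal B P)
    (α β : ℝ) (hα : 0 < α) (hβ : 0 < β)
    (φ : ℝ → ℝ) (hφc : Continuous φ) (hφb : ∃ K : ℝ, ∀ x, abs (φ x) ≤ K) :
    ∃ p : ℝ,
      ⨅ m : OverlapProfile, variationalFunctional P B hBm α β φ m = (p : EReal) ∧
      Filter.Tendsto (fun N : ℕ => expectedPressure N α β φ) Filter.atTop (nhds p) ∧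
      ∀ ε : ℝ, 0 < ε →
        Filter.Tendsto (fun N : ℕ => pressureTailProb N α β φ p ε) Filter.atTop (nhds 0) :=
  Wrap_947.s0206_of S6Lit_663.LIT_holds S6Lit_663.CHG_holds S6Lit_663.SMOOTH_holds CtlG_130.vid
    CtlG_130.vl CtlG_130.vc MonB_911.ent MonB_911.apx ub LBF_988.lb
    Ω P B hBm hB α β hα hβ φ hφc hφb

end Crest.Agent.R146.S0206F_988
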