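import Mathlib

/-!
Row 146 (helper988): the discrete contact lemma. The number `M` of rows is the time; the strengths
`s g ∈ [b0, A]`; the comparison function is affine in `s g ^ 2`; the penalty `(2 b0 - s g)_+^2` keeps
the maximum away from the faces `s g = b0`.
-/

set_option autoImplicit false

namespace Crest.Agent.R146.S6Contact_988

open Finset Set

/-- one-sided derivative at a maximum over `[x - r, x]`. -/
theorem deriv_nonneg_of_left_max {f : ℝ → ℝ} {f' x y : ℝ} (hy : y < x)
    (hf : HasDerivAt f f' x) (hmax : ∀ z ∈ Icc y x, f z ≤ f x) : 0 ≤ f' := by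
  by_contra hneg
  push Not at hneg
  have h := hf.hasDerivWithinAt (s := Iio x)
  rw [hasDerivWithinAt_iff_tendsto_slope' (by simp)] at h
  have h1 : ∀ᶠ z in nhdsWithin x (Iio x), slope f x z < 0 := h.eventually (gt_mem_nhds hneg)
  have h2 : ∀ᶠ z in nhdsWithin x (Iio x), z ∈ Ioo y x := Ioo_mem_nhdsLT hy
  obtain ⟨z, hz1, hz2⟩ := (h1.and h2).exists
  have h3 : f z ≤ f x := hmax z ⟨hz2.1.le, hz2.2.le⟩
  rw [slope_def_field] at hz1
  have h4 : 0 ≤ (f z - f x) / (z - x) :=
    div_nonneg_of_nonpos (by linarith) (by linarith [hz2.2])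
  linarith

/-- one-sided derivative at a maximum over `[x, y]`. -/
theorem deriv_nonpos_of_right_max {f : ℝ → ℝ} {f' x y : ℝ} (hy : x < y)
    (hf : HasDerivAt f f' x) (hmax : ∀ z ∈ Icc x y, f z ≤ f x) : f' ≤ 0 := by
  have h1 : HasDerivAt (fun z => f (-z)) (-f') (-x) := by
    have h2 : HasDerivAt f f' (-(-x)) := by simpa using hf
    have h3 : HasDerivAt (fun z => f (-z)) (f' * (-1)) (-x) := h2.comp (-x) (hasDerivAt_neg (-x))
    exact h3.congr_deriv (by ring)
  have h3 := deriv_nonneg_of_left_max (f := fun z => f (-z)) (x := -x) (y := -y) (by linarith) h1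
    (fun z hz => by
      have := hmax (-z) ⟨by linarith [hz.2], by linarith [hz.1]⟩
      simpa using this)
  linarith

/-- the penalty -/
noncomputable def rho (b0 s : ℝ) : ℝ := (max (2 * b0 - s) 0) ^ 2

theorem rho_nonneg (b0 s : ℝ) : 0 ≤ rho b0 s := sq_nonneg _

theorem rho_eq_zero {b0 s : ℝ} (h : 2 * b0 ≤ s) : rho b0 s = 0 := by
  unfold rho
  rw [max_eq_right (by linarith)]
  norm_num

theorem hasDerivAt_rho (b0 s : ℝ) : HasDerivAt (rho b0) (-(2 * max (2 * b0 - s) 0)) s := by
  -- `rho = phi ∘ (2 b0 - ·)`, `phi u = (max u 0)^2`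
  have key : ∀ u : ℝ, HasDerivAt (fun v : ℝ => (max v 0) ^ 2) (2 * max u 0) u := by
    intro u
    rcases lt_trichotomy u 0 with h | h | h
    · rw [max_eq_right h.le, mul_zero]
      refine (hasDerivAt_const u (0 : ℝ)).congr_of_eventuallyEq ?_
      filter_upwards [gt_mem_nhds h] with v hv
      rw [max_eq_right hv.le]; norm_num
    · subst h
      rw [max_self, mul_zero]
      rw [hasDerivAt_iff_isLittleO_nhds_zero]
      refine Asymptotics.IsBigO.trans_isLittleO (g := fun v : ℝ => v ^ 2) ?_ ?_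
      · refine Asymptotics.isBigO_of_le _ fun v => ?_
        have h1 : |max v 0| ≤ |v| := by
          rcases le_total v 0 with h | h
          · rw [max_eq_right h]; simp
          · rw [max_eq_left h]
        have h2 := sq_le_sq' (by linarith [abs_nonneg (max v 0), abs_nonneg v]) h1
        rw [sq_abs, sq_abs] at h2
        have h3 : 0 ≤ (max v 0) ^ 2 := sq_nonneg _
        have h4 : 0 ≤ v ^ 2 := sq_nonneg _
        simp only [zero_add, max_self, smul_zero, sub_zero, Real.norm_eq_abs]
        norm_num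
        exact h2
      · exact (Asymptotics.isLittleO_pow_id one_lt_two)
    · rw [max_eq_left h.le]
      have h1 : HasDerivAt (fun v : ℝ => v ^ 2) (2 * u) u := by
        simpa using hasDerivAt_pow 2 u
      refine h1.congr_of_eventuallyEq ?_
      filter_upwards [lt_mem_nhds h] with v hv
      rw [max_eq_left hv.le]
  have h2 : HasDerivAt (fun v : ℝ => 2 * b0 - v) (-1) s := by
    simpa using (hasDerivAt_id s).const_sub (2 * b0)
  have h3 := (key (2 * b0 - s)).comp s h2
  refine (h3.congr_deriv (by ring)).congr_of_eventuallyEq ?_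
  exact Filter.Eventually.of_forall fun v => rfl

/-- `rho` is semiconvex: quadratic upper bound with constant 1. -/
theorem rho_le (b0 s y : ℝ) :
    rho b0 y ≤ rho b0 s + -(2 * max (2 * b0 - s) 0) * (y - s) + (y - s) ^ 2 := by
  unfold rho
  rcases le_total (2 * b0 - s) 0 with h | h <;> rcases le_total (2 * b0 - y) 0 with h' | h'
  · rw [max_eq_right h, max_eq_right h']; nlinarith [sq_nonneg (y - s)]
  · rw [max_eq_right h, max_eq_left h']; nlinarith
  · rw [max_eq_left h, max_eq_right h']; nlinarith [sq_nonneg (2 * b0 - s - (y - s))]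
  · rw [max_eq_left h, max_eq_left h']; nlinarith

theorem continuous_rho (b0 : ℝ) : Continuous (rho b0) := by
  unfold rho; fun_prop

/-- the comparison function -/
noncomputable def cmp {nc : ℕ} (S0 iN : ℝ) (V : ℕ → ℝ) (T : Fin nc → ℝ) (M : ℕ) (s : Fin nc → ℝ) :
    ℝ := iN * ∑ a ∈ range M, V a + S0 - 1 / 2 * ∑ g, s g ^ 2 * T g

theorem sum_update_sq {nc : ℕ} (s T : Fin nc → ℝ) (g : Fin nc) (y : ℝ) :
    ∑ j, (Function.update s g y j) ^ 2 * T j =
      y ^ 2 * T g + ∑ j ∈ univ.erase g, s j ^ 2 * T j := by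
  rw [← Finset.add_sum_erase univ (fun j => (Function.update s g y j) ^ 2 * T j)
    (Finset.mem_univ g)]
  congr 1
  · simp
  · refine Finset.sum_congr rfl fun j hj => ?_
    rw [Function.update_of_ne (Finset.ne_of_mem_erase hj)]

theorem sum_update_rho {nc : ℕ} (b0 : ℝ) (s : Fin nc → ℝ) (g : Fin nc) (y : ℝ) :
    ∑ j, rho b0 (Function.update s g y j) = rho b0 y + ∑ j ∈ univ.erase g, rho b0 (s j) := by
  rw [← Finset.add_sum_erase univ (fun j => rho b0 (Function.update s g y j)) (Finset.mem_univ g)]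
  congr 1
  · simp
  · refine Finset.sum_congr rfl fun j hj => ?_
    rw [Function.update_of_ne (Finset.ne_of_mem_erase hj)]

/-- **Discrete contact lemma.** -/
theorem contact {nc : ℕ} (F : ℕ → (Fin nc → ℝ) → ℝ) (Fa : Fin nc → ℕ → (Fin nc → ℝ) → ℝ)
    (hc : ∀ M, Continuous (F M))
    (hFa : ∀ M s g, HasDerivAt (fun y => F M (Function.update s g y)) (Fa g M s) (s g))
    {b0 A S0 iN ε ε0 : ℝ} (hb0 : 0 < b0) (hA : 4 / 3 * b0 + 1 < A) (_hε0 : 0 ≤ ε0)
    (hε : 0 ≤ ε * iN) (V : ℕ → ℝ) (T : Fin nc → ℝ) (hT : ∀ g, 0 ≤ T g) (Mm : ℕ)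
    -- initial values
    (hinit : ∀ s, (∀ g, s g ∈ Icc b0 A) → F 0 s ≤ cmp S0 iN V T 0 s + ε0)
    -- coercivity near the faces `s g = A`
    (hface : ∀ M ≤ Mm, ∀ s, (∀ g, s g ∈ Icc b0 A) → (∃ g, A - 1 < s g) →
      F M s ≤ cmp S0 iN V T M s + ε0)
    -- the penalty excludes `s g < 4/3 b0`
    (hlow : ∀ M ≤ Mm, ∀ s, (∀ g, s g ∈ Icc b0 A) → ∀ g, s g < 4 / 3 * b0 →
      0 < Fa g M s + s g * T g + 2 * (2 * b0 - s g))
    -- structure at contact points
    (hstr : ∀ M < Mm, ∀ s, (∀ g, 4 / 3 * b0 ≤ s g ∧ s g ≤ A - 1) →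
      (∀ g, ∀ y ∈ Icc b0 A, F (M + 1) (Function.update s g y) ≤
        F (M + 1) s + Fa g (M + 1) s * (y - s g) + (y - s g) ^ 2) →
      (∀ g, Fa g (M + 1) s ≤ - (s g * T g)) →
      F (M + 1) s - F M s < iN * V M + ε * iN) :
    ∀ M ≤ Mm, ∀ s, (∀ g, s g ∈ Icc b0 A) →
      F M s ≤ cmp S0 iN V T M s + ∑ g, rho b0 (s g) + ε0 + ε * iN * M := by
  -- the comparison functional
  let Ξ : ℕ → (Fin nc → ℝ) → ℝ := fun M s =>
    F M s - cmp S0 iN V T M s - ∑ g, rho b0 (s g) - ε * iN * M
  let B : Set (Fin nc → ℝ) := Set.pi univ fun _ => Icc b0 A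
  have hbA : b0 ≤ A := by linarith
  have hBc : IsCompact B := isCompact_univ_pi fun _ => isCompact_Icc
  have hBn : B.Nonempty := ⟨fun _ => b0, fun _ _ => ⟨le_rfl, hbA⟩⟩
  have hΞc : ∀ M, Continuous (Ξ M) := by
    intro M
    have h1 : Continuous fun s : Fin nc → ℝ => cmp S0 iN V T M s := by
      unfold cmp; fun_prop
    have h2 : Continuous fun s : Fin nc → ℝ => ∑ g, rho b0 (s g) :=
      continuous_finsetSum _ fun g _ => (continuous_rho b0).comp (continuous_apply g)
    exact (((hc M).sub h1).sub h2).sub continuous_const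
  have hex : ∀ M, ∃ s ∈ B, ∀ s' ∈ B, Ξ M s' ≤ Ξ M s := fun M => by
    obtain ⟨s, hs, hm⟩ := hBc.exists_isMaxOn hBn (hΞc M).continuousOn
    exact ⟨s, hs, fun s' hs' => hm hs'⟩
  choose sM hsM hmM using hex
  obtain ⟨M0, hM0, hmax0⟩ := Finset.exists_max_image (range (Mm + 1)) (fun M => Ξ M (sM M))
    ⟨0, by simp⟩
  rw [Finset.mem_range] at hM0
  set s := sM M0 with hs
  have hmax : ∀ M ≤ Mm, ∀ s', (∀ g, s' g ∈ Icc b0 A) → Ξ M s' ≤ Ξ M0 s := by
    intro M hM s' hs'
    exact (hmM M s' fun g _ => hs' g).trans (hmax0 M (Finset.mem_range.2 (by omega)))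
  have hsB : ∀ g, s g ∈ Icc b0 A := fun g => hsM M0 g (Set.mem_univ g)
  have key : Ξ M0 s ≤ ε0 := by
    by_contra hcon
    push Not at hcon
    have hr : 0 ≤ ∑ g, rho b0 (s g) := Finset.sum_nonneg fun g _ => rho_nonneg _ _
    have hM00 : M0 ≠ 0 := by
      intro h0
      have h1 := hinit s hsB
      have h2 : Ξ M0 s = F M0 s - cmp S0 iN V T M0 s - ∑ g, rho b0 (s g) - ε * iN * M0 := rfl
      rw [h0] at h2 hcon
      push_cast at h2
      linarith
    have hpos : 0 ≤ ε * iN * (M0 : ℝ) := mul_nonneg hε (Nat.cast_nonneg _)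
    have hnf : ∀ g, s g ≤ A - 1 := by
      intro g
      by_contra hg
      push Not at hg
      have h1 := hface M0 (by omega) s hsB ⟨g, hg⟩
      have h2 : Ξ M0 s = F M0 s - cmp S0 iN V T M0 s - ∑ g, rho b0 (s g) - ε * iN * M0 := rfl
      linarith
    -- derivative of `Ξ` in the direction `g`
    have hder : ∀ g, HasDerivAt (fun y => Ξ M0 (Function.update s g y))
        (Fa g M0 s + s g * T g + 2 * max (2 * b0 - s g) 0) (s g) := by
      intro g
      have h0 : (fun y => Ξ M0 (Function.update s g y)) = fun y =>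
          F M0 (Function.update s g y) - (iN * ∑ a ∈ range M0, V a + S0 - 1 / 2 * (y ^ 2 * T g +
            ∑ j ∈ univ.erase g, s j ^ 2 * T j)) -
            (rho b0 y + ∑ j ∈ univ.erase g, rho b0 (s j)) - ε * iN * M0 := by
        funext y
        show F M0 (Function.update s g y) - cmp S0 iN V T M0 (Function.update s g y) -
          ∑ j, rho b0 (Function.update s g y j) - ε * iN * M0 = _
        unfold cmp
        rw [sum_update_sq, sum_update_rho]
      rw [h0]
      have h2 : HasDerivAt (fun y : ℝ => iN * ∑ a ∈ range M0, V a + S0 - 1 / 2 * (y ^ 2 * T g +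
          ∑ j ∈ univ.erase g, s j ^ 2 * T j)) (-(s g * T g)) (s g) := by
        have h3 := ((((hasDerivAt_pow 2 (s g)).mul_const (T g)).add_const
          (∑ j ∈ univ.erase g, s j ^ 2 * T j)).const_mul (1 / 2 : ℝ)).const_sub
            (iN * ∑ a ∈ range M0, V a + S0)
        refine h3.congr_deriv ?_
        push_cast
        ring
      have h3 : HasDerivAt (fun y : ℝ => rho b0 y + ∑ j ∈ univ.erase g, rho b0 (s j))
          (-(2 * max (2 * b0 - s g) 0)) (s g) := (hasDerivAt_rho b0 (s g)).add_const _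
      have h4 := (((hFa M0 s g).sub h2).sub h3).sub_const (ε * iN * M0)
      refine h4.congr_deriv ?_
      ring
    have hupd : ∀ g y, y ∈ Icc b0 A → ∀ j, Function.update s g y j ∈ Icc b0 A := by
      intro g y hy j
      rcases eq_or_ne j g with rfl | h
      · simpa using hy
      · rw [Function.update_of_ne h]; exact hsB j
    have hself : ∀ g, Function.update s g (s g) = s := fun g => Function.update_eq_self g s
    -- right derivative is nonpositive
    have hle : ∀ g, Fa g M0 s + s g * T g + 2 * max (2 * b0 - s g) 0 ≤ 0 := by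
      intro g
      refine deriv_nonpos_of_right_max (f := fun y => Ξ M0 (Function.update s g y))
        (x := s g) (y := A) (by have := hnf g; linarith) (hder g) (fun z hz => ?_)
      show Ξ M0 (Function.update s g z) ≤ Ξ M0 (Function.update s g (s g))
      rw [hself]
      exact hmax M0 (by omega) _ (hupd g z ⟨(hsB g).1.trans hz.1, hz.2⟩)
    -- `s g ≥ 4/3 b0`
    have h43 : ∀ g, 4 / 3 * b0 ≤ s g := by
      intro g
      by_contra hg
      push Not at hg
      have h1 := hlow M0 (by omega) s hsB g hg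
      have h2 := hle g
      have h3 := le_max_left (2 * b0 - s g) 0
      linarith
    have hint : ∀ g, b0 < s g := fun g => by have := h43 g; linarith
    -- first order condition
    have heq : ∀ g, Fa g M0 s = -(s g * T g) - 2 * max (2 * b0 - s g) 0 := by
      intro g
      have h1 := hle g
      have h2 := deriv_nonneg_of_left_max (f := fun y => Ξ M0 (Function.update s g y))
        (x := s g) (y := b0) (hint g) (hder g) (fun z hz => by
          show Ξ M0 (Function.update s g z) ≤ Ξ M0 (Function.update s g (s g))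
          rw [hself]
          exact hmax M0 (by omega) _ (hupd g z ⟨hz.1, hz.2.trans (hsB g).2⟩))
      linarith
    -- contact from above
    have hcon2 : ∀ g, ∀ y ∈ Icc b0 A, F M0 (Function.update s g y) ≤
        F M0 s + Fa g M0 s * (y - s g) + (y - s g) ^ 2 := by
      intro g y hy
      have h1 := hmax M0 (by omega) (Function.update s g y) (hupd g y hy)
      have h2 : Ξ M0 (Function.update s g y) = F M0 (Function.update s g y) -
          (iN * ∑ a ∈ range M0, V a + S0 - 1 / 2 * (y ^ 2 * T g +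
            ∑ j ∈ univ.erase g, s j ^ 2 * T j)) -
            (rho b0 y + ∑ j ∈ univ.erase g, rho b0 (s j)) - ε * iN * M0 := by
        show F M0 (Function.update s g y) - cmp S0 iN V T M0 (Function.update s g y) -
          ∑ j, rho b0 (Function.update s g y j) - ε * iN * M0 = _
        unfold cmp
        rw [sum_update_sq, sum_update_rho]
      have h3 : Ξ M0 s = F M0 s -
          (iN * ∑ a ∈ range M0, V a + S0 - 1 / 2 * (s g ^ 2 * T g +
            ∑ j ∈ univ.erase g, s j ^ 2 * T j)) -
            (rho b0 (s g) + ∑ j ∈ univ.erase g, rho b0 (s j)) - ε * iN * M0 := by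
        show F M0 s - cmp S0 iN V T M0 s - ∑ j, rho b0 (s j) - ε * iN * M0 = _
        unfold cmp
        rw [← Finset.add_sum_erase univ (fun j => s j ^ 2 * T j) (Finset.mem_univ g),
          ← Finset.add_sum_erase univ (fun j => rho b0 (s j)) (Finset.mem_univ g)]
      have h4 := rho_le b0 (s g) y
      have h5 := heq g
      have h6 := hT g
      rw [h2, h3] at h1
      rw [h5]
      nlinarith [mul_nonneg h6 (sq_nonneg (y - s g))]
    obtain ⟨M1, hM1⟩ : ∃ M1, M0 = M1 + 1 := ⟨M0 - 1, by omega⟩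
    have hstr' := hstr M1 (by omega) s (fun g => ⟨h43 g, hnf g⟩)
      (by rw [← hM1]; exact hcon2)
      (fun g => by
        rw [← hM1, heq g]
        have := le_max_right (2 * b0 - s g) 0
        linarith)
    -- comparison with `M1`
    have h7 := hmax M1 (by omega) s hsB
    have h8 : Ξ M1 s = F M1 s - (iN * ∑ a ∈ range M1, V a + S0 - 1 / 2 * ∑ g, s g ^ 2 * T g) -
      ∑ g, rho b0 (s g) - ε * iN * M1 := rfl
    have h9 : Ξ M0 s = F M0 s - (iN * ∑ a ∈ range M0, V a + S0 - 1 / 2 * ∑ g, s g ^ 2 * T g) -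
      ∑ g, rho b0 (s g) - ε * iN * M0 := rfl
    rw [h8, h9, hM1, Finset.sum_range_succ] at h7
    push_cast at h7
    nlinarith [h7, hstr']
  intro M hM s' hs'
  have h1 := (hmax M hM s' hs').trans key
  have h2 : Ξ M s' = F M s' - cmp S0 iN V T M s' - ∑ g, rho b0 (s' g) - ε * iN * M := rfl
  linarith

end Crest.Agent.R146.S6Contact_988
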