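import Crest.Agent.R146.S6L_988
import Crest.Agent.R146.S6U1_993
import Crest.Agent.R146.Rev_649
import Crest.Agent.R146.SysA_52

/-!
Row 146, statement S0206, task 131 (S6L-FLD), helper559: the fields have norm `O(√N)` under the
tilted law, `fld : S6L_988.FLD`.

Proof: convexity of the hierarchical free energy gives
`λ E^Q F ≤ A_0[U + λF] - A_0[U] ≤ 1/2 A_0[2U] + 1/2 A_0[2λF] - A_0[U]`, `λ = 1/8`; the first term
is bounded by `Rev_649.Phi_le`, the last one by `Rev_649.le_Phi`, and `A_0[F/4] ≤ N/2` by the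
Gaussian domination `S6U1_993.cells`.
-/

set_option autoImplicit false

namespace Crest.Agent.R146.S6Fld_559

open Finset MeasureTheory ProbabilityTheory
open Crest.Agent.R141
open Crest.Agent.R146.S6Def_988 Crest.Agent.R146.S6L_988
open Crest.Agent.R164
open Crest.Agent.R146.SysA_52

noncomputable section

/-- gradient and midpoint inequalities of the hierarchical free energy. -/
theorem grad_mid {Ω : Type} [Fintype Ω] {P : Ω → ℝ} {𝓕 : Filt Ω} {x : ℕ → ℝ} (hP : IsProb P)
    (hx : ∀ k, 0 < x k) (hF0 : 𝓕.F 0 = ⊤) (U V : Ω → ℝ) {l : ℝ} (hl : 0 < l) :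
    l * eE (tl P 𝓕 x U) V ≤ 1 / 2 * eE P (A P 𝓕 x (fun w => 2 * U w) 0) +
      1 / 2 * eE P (A P 𝓕 x (fun w => 2 * l * V w) 0) - eE P (A P 𝓕 x U 0) := by
  have h1 := (ObsConc.gA_sub (𝓕 := 𝓕) hP hx hF0 U V 0 l hl).1
  have hc := ObsConc.convexOn_gA (𝓕 := 𝓕) hP hx hF0 (fun w => 2 * U w)
    (fun w => 2 * l * V w - 2 * U w)
  have h2 := hc.2 (Set.mem_univ (0 : ℝ)) (Set.mem_univ (1 : ℝ)) (by norm_num : (0:ℝ) ≤ 1 / 2)
    (by norm_num : (0:ℝ) ≤ 1 / 2) (by norm_num)
  unfold ObsConc.tQ ObsConc.gA at h1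
  unfold ObsConc.gA at h2
  simp only [smul_eq_mul, mul_zero, zero_add, mul_one, zero_mul, add_zero, one_mul] at h1 h2
  have e1 : (fun w => 2 * U w + 1 / 2 * (2 * l * V w - 2 * U w)) = fun w => U w + l * V w := by
    funext w; ring
  have e2 : (fun w => 2 * U w + (2 * l * V w - 2 * U w)) = fun w => 2 * l * V w := by
    funext w; ring
  rw [e1, e2] at h2
  linarith

variable {N : ℕ} (C : Cfg N) (nc n : ℕ)

theorem zf_meas (g : Fin nc) (i : Fin N) :
    RMeas ((fil C nc n).F (nc * n)) (fun ω => zf ω.2 g i) := by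
  intro a b h
  have h : frel C nc n (nc * n) a b := h
  show zf a.2 g i = zf b.2 g i
  unfold zf
  congr 1
  refine Finset.sum_congr rfl fun t _ => ?_
  have h1 : (g : ℕ) * n + t < ((g : ℕ) + 1) * n := by
    have := t.2
    rw [add_mul, one_mul]; omega
  have h2 : ((g : ℕ) + 1) * n ≤ nc * n := Nat.mul_le_mul_right n g.2
  rw [h.1 g t (by omega)]

/-- the free energy of the squared norm of one field. -/
theorem A_sq (hn : 0 < n) (g : Fin nc) (ω : Om C nc n) :
    A (prior C nc n) (fil C nc n) (xs nc n) (fun ω => 1 / 4 * ∑ i, zf ω.2 g i ^ 2) 0 ω ≤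
      N / 2 := by
  have hP := prior_isProb C nc n
  set s : Fin nc → ℝ := fun g' => if g' = g then 1 else 0 with hs
  have hx0 : 0 < ((g : ℝ) + 1) / ((nc : ℝ) + 1) := by positivity
  have hx1 : ((g : ℝ) + 1) / ((nc : ℝ) + 1) ≤ 1 := by
    rw [div_le_one (by positivity)]
    have : ((g : ℕ) : ℝ) ≤ nc := by exact_mod_cast g.2.le
    linarith
  set x : ℝ := ((g : ℝ) + 1) / ((nc : ℝ) + 1) with hx
  set b : ℕ → ℝ := fun k => if k ≤ (g : ℕ) then 2 - x else 2 with hb
  have hbn : b nc = 2 := by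
    simp only [hb]
    rw [if_neg (by have := g.2; omega)]
  have h := S6U1_993.cells C nc n hn s (fun ω => 1 / 4 * ∑ i, zf ω.2 g i ^ 2) b (E0 := 0) ?_ ?_ ?_ ω
  · refine h.trans ?_
    rw [zero_add]
    have h1 : ∑ k ∈ range nc, ((nc : ℝ) + 1) / ((k : ℝ) + 1) *
        (Real.log (b (k + 1)) - Real.log (b k)) =
        ((nc : ℝ) + 1) / (((g : ℕ) : ℝ) + 1) * (Real.log 2 - Real.log (2 - x)) := by
      rw [Finset.sum_eq_single (g : ℕ)]
      · simp only [hb]
        rw [if_neg (by omega), if_pos le_rfl]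
      · intro k _ hk
        have : b (k + 1) = b k := by
          simp only [hb]
          by_cases h3 : k < (g : ℕ)
          · rw [if_pos (by omega), if_pos (by omega)]
          · rw [if_neg (by omega), if_neg (by omega)]
        rw [this, sub_self, mul_zero]
      · intro h3
        exact absurd (mem_range.mpr g.2) h3
    rw [h1]
    have h2 : ((nc : ℝ) + 1) / (((g : ℕ) : ℝ) + 1) = 1 / x := by
      rw [hx]; field_simp
    have h3 : Real.log 2 - Real.log (2 - x) ≤ x := by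
      have h4 : (0 : ℝ) < 2 - x := by linarith
      rw [← Real.log_div (by norm_num) h4.ne']
      have h5 : 0 < 2 / (2 - x) := by positivity
      refine (Real.log_le_sub_one_of_pos h5).trans ?_
      rw [div_sub_one h4.ne', div_le_iff₀ h4]
      nlinarith
    rw [h2]
    have h4 : 1 / x * (Real.log 2 - Real.log (2 - x)) ≤ 1 := by
      rw [one_div, inv_mul_le_iff₀ hx0]
      linarith
    have h5 : (0 : ℝ) ≤ (N : ℝ) / 2 := by positivity
    nlinarith [mul_le_mul_of_nonneg_left h4 h5]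
  · intro k _
    simp only [hb]
    split_ifs <;> linarith
  · intro g'
    simp only [hb, hs]
    by_cases h1 : g' = g
    · subst h1
      rw [if_pos le_rfl, if_neg (by omega), if_pos rfl, hx]
      ring
    · have h2 : (g' : ℕ) ≠ (g : ℕ) := fun h => h1 (Fin.ext h)
      rw [if_neg h1]
      by_cases h3 : (g' : ℕ) < (g : ℕ)
      · rw [if_pos (by omega), if_pos (by omega)]
        ring
      · rw [if_neg (by omega), if_neg (by omega)]
        ring
  · intro ω
    rw [A_of_meas hP (xs_pos nc n), zero_add, hbn, Finset.mul_sum]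
    · refine Finset.sum_le_sum fun i _ => le_of_eq ?_
      have : ∑ g', s g' * zf ω.2 g' i = zf ω.2 g i := by
        simp only [hs, ite_mul, one_mul, zero_mul, Finset.sum_ite_eq', mem_univ, if_true]
      rw [this]
      ring
    · intro a b h
      have : ∀ i, zf a.2 g i = zf b.2 g i := fun i => zf_meas C nc n g i a b h
      simp only [this]

/-- **(FLD)** for fixed parameters. -/
theorem fld_one (hn : 0 < n) {K : ℝ} {f : ℕ → ℝ → ℝ} {M : ℕ}
    (hf : ∀ a x, |f a x| ≤ K) (G : Fin M → Fin N → ℝ) (s : Fin nc → ℝ) (g : Fin nc) :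
    eE (QQ C nc n (M := M) f G s) (fun ω => ∑ i, zf ω.2 g i ^ 2) ≤
      16 * K * M + 8 * (∑ g, s g ^ 2) * N + 2 * N := by
  have hP := prior_isProb C nc n
  have h1 := grad_mid hP (xs_pos nc n) (fil_zero C nc n) (UU f G s)
    (fun ω => ∑ i, zf ω.2 g i ^ 2) (l := 1 / 8) (by norm_num)
  have e1 : (fun w : Om C nc n => 2 * UU f G s w) =
      UU (fun a x => 2 * f a x) G (fun g => 2 * s g) := by
    funext w
    unfold S6Def_988.UU rowE fieldE
    rw [mul_add, Finset.mul_sum, Finset.mul_sum]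
    congr 1
    exact Finset.sum_congr rfl fun g _ => by ring
  have e2 : (fun w : Om C nc n => 2 * (1 / 8 : ℝ) * ∑ i, zf w.2 g i ^ 2) =
      fun ω => 1 / 4 * ∑ i, zf ω.2 g i ^ 2 := by
    funext w; ring
  rw [e1, e2] at h1
  have h2 := Rev_649.Phi_le C nc n (fun a x => 2 * f a x) G (fun g => 2 * s g)
  have hf2 : ∀ a x, |2 * f a x| ≤ 2 * K := by
    intro a x
    rw [abs_mul, abs_of_pos (by norm_num : (0 : ℝ) < 2)]
    exact mul_le_mul_of_nonneg_left (hf a x) (by norm_num)
  have h3 := (abs_le.1 (Rev_649.abs_logZ_le C (fun a x => 2 * f a x) hf2 G)).2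
  have h4 := Rev_649.le_Phi C nc n f hf G s
  have h5 : eE (prior C nc n) (A (prior C nc n) (fil C nc n) (xs nc n)
      (fun ω => 1 / 4 * ∑ i, zf ω.2 g i ^ 2) 0) ≤ N / 2 := eE_le_of_le hP (A_sq C nc n hn g)
  have e3 : ∑ g, (2 * s g) ^ 2 = 4 * ∑ g, s g ^ 2 := by
    rw [Finset.mul_sum]
    exact Finset.sum_congr rfl fun g _ => by ring
  rw [e3] at h2
  unfold S6Def_988.Phi at h2 h4
  unfold QQ
  linarith

/-- **(FLD)** -/
theorem fld : FLD := by
  intro αm K
  refine ⟨16 * |αm| * |K| + 10, by positivity, ?_⟩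
  intro N nc n hN hn C f M G A s hM hK hs hA g
  have hN' : (0 : ℝ) < N := by exact_mod_cast hN
  have h := fld_one C nc n hn (K := |K|) (fun a x => (hK a x).trans (le_abs_self K)) G s g
  have hA0 : 0 ≤ A := (abs_nonneg _).trans (hs g)
  have hnc : (1 : ℝ) ≤ nc := by
    have : 0 < nc := lt_of_le_of_lt (Nat.zero_le _) g.2
    exact_mod_cast this
  have hA1 : A ≤ 1 := by nlinarith
  have h1 : ∑ g, s g ^ 2 ≤ 1 := by
    calc ∑ g, s g ^ 2 ≤ ∑ _g : Fin nc, A ^ 2 :=
          Finset.sum_le_sum fun g _ => sq_le_sq' (abs_le.1 (hs g)).1 (abs_le.1 (hs g)).2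
      _ = (nc : ℝ) * A * A := by
          rw [Finset.sum_const, Finset.card_univ, Fintype.card_fin, nsmul_eq_mul]; ring
      _ ≤ 1 * 1 := mul_le_mul hA hA1 hA0 (by norm_num)
      _ = 1 := by norm_num
  have h2 : |K| * (M : ℝ) ≤ |αm| * |K| * N := by
    have h3 : (M : ℝ) ≤ |αm| * N := hM.trans (mul_le_mul_of_nonneg_right (le_abs_self αm) hN'.le)
    calc |K| * (M : ℝ) ≤ |K| * (|αm| * N) := mul_le_mul_of_nonneg_left h3 (abs_nonneg K)
      _ = |αm| * |K| * N := by ring
  have h3 : (∑ g, s g ^ 2) * (N : ℝ) ≤ 1 * N := mul_le_mul_of_nonneg_right h1 hN'.le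
  nlinarith

end

end Crest.Agent.R146.S6Fld_559
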