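import Crest.Agent.R146.SphDiv_290
import Crest.Agent.R146.S6U_988
import Crest.Agent.R146.OvcA_679

/-!
Row 146, node (L2)/SD (helper290): Schwinger-Dyson identity for fine configuration spaces.

* `Near.onS`      : `Near C δ` tests functions which are `ℓ¹`-Lipschitz on the sphere only;
* `Sm K f f'`     : `f` has derivative `f'`, `|f|, |f'| ≤ K`, `f'` is `K`-Lipschitz;
* `Psi`           : the Schwinger-Dyson function;
* `sd_exact`      : `∫ exp U · Psi(·, w) = 0` on the sphere.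
-/

set_option autoImplicit false

namespace Crest.Agent.R146.S6Sd_290

open Finset MeasureTheory ProbabilityTheory Crest.Agent.R141
open Crest.Agent.R146.S6Def_988 Crest.Agent.R146.S6U_988
open Crest.ProbabilityR.Perceptron

noncomputable section

variable {N : ℕ}

/-- the sphere of radius `√N` in coordinates -/
def SS (N : ℕ) : Set (Fin N → ℝ) := {u | ∑ i, u i ^ 2 = N}

/-- `ℓ¹` distance -/
def d1 (u v : Fin N → ℝ) : ℝ := ∑ i, |u i - v i|

theorem d1_nonneg (u v : Fin N → ℝ) : 0 ≤ d1 u v := sum_nonneg fun _ _ => abs_nonneg _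

theorem d1_self (u : Fin N → ℝ) : d1 u u = 0 := by simp [d1]

theorem d1_comm (u v : Fin N → ℝ) : d1 u v = d1 v u := by
  unfold d1
  exact sum_congr rfl fun i _ => abs_sub_comm _ _

theorem d1_tri (u v w : Fin N → ℝ) : d1 u w ≤ d1 u v + d1 v w := by
  unfold d1
  rw [← sum_add_distrib]
  exact sum_le_sum fun i _ => abs_sub_le _ _ _

theorem SS_nonempty (N : ℕ) : (SS N).Nonempty := by
  refine ⟨fun _ => 1, ?_⟩
  simp [SS]

/-- McShane extension for the `ℓ¹` distance. -/
theorem mcshane {F : (Fin N → ℝ) → ℝ} {L : ℝ} (hL : 0 ≤ L)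
    (hF : ∀ u ∈ SS N, ∀ v ∈ SS N, |F u - F v| ≤ L * d1 u v) :
    ∃ F' : (Fin N → ℝ) → ℝ, (∀ u v, |F' u - F' v| ≤ L * d1 u v) ∧ ∀ u ∈ SS N, F' u = F u := by
  obtain ⟨v0, hv0⟩ := SS_nonempty N
  have : Nonempty (SS N) := ⟨⟨v0, hv0⟩⟩
  have hbd : ∀ u, BddBelow (Set.range fun v : SS N => F (v : Fin N → ℝ) + L * d1 u (v : Fin N → ℝ)) := by
    intro u
    refine ⟨F v0 - L * d1 u v0, ?_⟩
    rintro _ ⟨v, rfl⟩
    have h1 := (abs_le.1 (hF v v.2 v0 hv0)).1
    have h2 := d1_tri (v : Fin N → ℝ) u v0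
    rw [d1_comm (v : Fin N → ℝ) u] at h2
    have h3 := mul_le_mul_of_nonneg_left h2 hL
    dsimp only
    linarith
  refine ⟨fun u => ⨅ v : SS N, (F (v : Fin N → ℝ) + L * d1 u (v : Fin N → ℝ)), ?_, ?_⟩
  · have key : ∀ u v, (⨅ w : SS N, (F (w : Fin N → ℝ) + L * d1 u (w : Fin N → ℝ))) ≤
        (⨅ w : SS N, (F (w : Fin N → ℝ) + L * d1 v (w : Fin N → ℝ)))
        + L * d1 u v := by
      intro u v
      rw [← sub_le_iff_le_add]
      refine le_ciInf fun w => ?_
      have h1 := ciInf_le (hbd u) w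
      have h2 := mul_le_mul_of_nonneg_left (d1_tri u v (w : Fin N → ℝ)) hL
      linarith
    intro u v
    rw [abs_le]
    constructor
    · have := key v u; rw [d1_comm v u] at this; linarith
    · have := key u v; linarith
  · intro u hu
    refine le_antisymm ?_ ?_
    · have := ciInf_le (hbd u) ⟨u, hu⟩
      simpa [d1_self] using this
    · refine le_ciInf fun v => ?_
      have := (abs_le.1 (hF u hu v v.2)).2
      linarith

theorem sqrt_smul_mem_SS (y : UnitSphere N) :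
    (fun i => Real.sqrt N * (y : EuclideanSpace ℝ (Fin N)) i) ∈ SS N := by
  have h := SphDiv_290.sum_sq_eq_one y.2
  simp only [SS, Set.mem_ofPred_eq, mul_pow, Real.sq_sqrt (Nat.cast_nonneg N), ← mul_sum]
  rw [h, mul_one]

/-- `Near` tests functions which are Lipschitz on the sphere only. -/
theorem near_onS {C : Cfg N} {δ : ℝ} (hC : Near C δ)
    {F : (Fin N → ℝ) → ℝ} {L : ℝ} (hL : 0 < L)
    (hF : ∀ u ∈ SS N, ∀ v ∈ SS N, |F u - F v| ≤ L * d1 u v) :
    |∑ y, C.q y * F (C.x y) -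
      ∫ y, F (fun i => Real.sqrt N * (y : EuclideanSpace ℝ (Fin N)) i) ∂(sph N)| ≤ L * δ := by
  obtain ⟨F', h1, h2⟩ := mcshane hL.le hF
  have h3 := hC (fun u => L⁻¹ * F' u) (fun u v => by
    rw [← mul_sub, abs_mul, abs_of_pos (inv_pos.2 hL), inv_mul_le_iff₀ hL]
    exact h1 u v)
  have e1 : ∑ y, C.q y * (L⁻¹ * F' (C.x y)) = L⁻¹ * ∑ y, C.q y * F (C.x y) := by
    rw [mul_sum]
    refine sum_congr rfl fun y _ => ?_
    rw [h2 _ (C.hx y)]; ring
  have e2 : ∫ y, L⁻¹ * F' (fun i => Real.sqrt N * (y : EuclideanSpace ℝ (Fin N)) i) ∂(sph N)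
      = L⁻¹ * ∫ y, F (fun i => Real.sqrt N * (y : EuclideanSpace ℝ (Fin N)) i) ∂(sph N) := by
    rw [integral_const_mul]
    congr 1
    refine integral_congr_ae (Filter.Eventually.of_forall fun y => ?_)
    exact h2 _ (sqrt_smul_mem_SS y)
  rw [e1, e2, ← mul_sub, abs_mul, abs_of_pos (inv_pos.2 hL), inv_mul_le_iff₀ hL] at h3
  exact h3

/-! ### bounded Lipschitz functions on the sphere -/

/-- `F` is bounded by `B` and `L`-Lipschitz on the sphere (in `ℓ¹`). -/
structure BLS (F : (Fin N → ℝ) → ℝ) (B L : ℝ) : Prop where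
  bd : ∀ u ∈ SS N, |F u| ≤ B
  lip : ∀ u ∈ SS N, ∀ v ∈ SS N, |F u - F v| ≤ L * d1 u v
  nL : 0 ≤ L

theorem SS_coord {u : Fin N → ℝ} (hu : u ∈ SS N) (i : Fin N) : |u i| ≤ Real.sqrt N := by
  refine Real.abs_le_sqrt ?_
  have h1 : u i ^ 2 ≤ ∑ j, u j ^ 2 :=
    single_le_sum (f := fun j => u j ^ 2) (fun j _ => sq_nonneg _) (mem_univ i)
  exact h1.trans hu.le

theorem BLS.nB {F : (Fin N → ℝ) → ℝ} {B L : ℝ} (h : BLS F B L) : 0 ≤ B := by
  obtain ⟨v0, hv0⟩ := SS_nonempty N
  exact (abs_nonneg _).trans (h.bd v0 hv0)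

theorem BLS.add {F G : (Fin N → ℝ) → ℝ} {B L B' L' : ℝ} (h : BLS F B L) (h' : BLS G B' L') :
    BLS (fun u => F u + G u) (B + B') (L + L') where
  bd u hu := (abs_add_le _ _).trans (add_le_add (h.bd u hu) (h'.bd u hu))
  lip u hu v hv := by
    have e : F u + G u - (F v + G v) = (F u - F v) + (G u - G v) := by ring
    rw [e, add_mul]
    exact (abs_add_le _ _).trans (add_le_add (h.lip u hu v hv) (h'.lip u hu v hv))
  nL := add_nonneg h.nL h'.nL

theorem BLS.neg {F : (Fin N → ℝ) → ℝ} {B L : ℝ} (h : BLS F B L) :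
    BLS (fun u => - F u) B L where
  bd u hu := by rw [abs_neg]; exact h.bd u hu
  lip u hu v hv := by
    have e : - F u - (- F v) = - (F u - F v) := by ring
    rw [e, abs_neg]
    exact h.lip u hu v hv
  nL := h.nL

theorem BLS.sub {F G : (Fin N → ℝ) → ℝ} {B L B' L' : ℝ} (h : BLS F B L) (h' : BLS G B' L') :
    BLS (fun u => F u - G u) (B + B') (L + L') := by
  have := h.add h'.neg
  simpa only [sub_eq_add_neg] using this

theorem BLS.mul {F G : (Fin N → ℝ) → ℝ} {B L B' L' : ℝ} (h : BLS F B L)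
    (h' : BLS G B' L') : BLS (fun u => F u * G u) (B * B') (B * L' + B' * L) where
  bd u hu := by
    rw [abs_mul]
    exact mul_le_mul (h.bd u hu) (h'.bd u hu) (abs_nonneg _) (h.nB)
  lip u hu v hv := by
    have e : F u * G u - F v * G v = F u * (G u - G v) + G v * (F u - F v) := by ring
    rw [e]
    refine (abs_add_le _ _).trans ?_
    rw [abs_mul, abs_mul]
    have h1 := mul_le_mul (h.bd u hu) (h'.lip u hu v hv) (abs_nonneg _) (h.nB)
    have h2 := mul_le_mul (h'.bd v hv) (h.lip u hu v hv) (abs_nonneg _) (h'.nB)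
    linarith
  nL := add_nonneg (mul_nonneg (h.nB) h'.nL) (mul_nonneg (h'.nB) h.nL)

theorem BLS.const (c : ℝ) : BLS (N := N) (fun _ => c) |c| 0 where
  bd _ _ := le_rfl
  lip u _ v _ := by simp
  nL := le_rfl

theorem BLS.const_mul {F : (Fin N → ℝ) → ℝ} {B L : ℝ} (c : ℝ) (h : BLS F B L) :
    BLS (fun u => c * F u) (|c| * B) (|c| * L) where
  bd u hu := by rw [abs_mul]; exact mul_le_mul_of_nonneg_left (h.bd u hu) (abs_nonneg _)
  lip u hu v hv := by
    rw [← mul_sub, abs_mul, mul_assoc]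
    exact mul_le_mul_of_nonneg_left (h.lip u hu v hv) (abs_nonneg _)
  nL := mul_nonneg (abs_nonneg _) h.nL

theorem BLS.sum {ι : Type*} (t : Finset ι) {F : ι → (Fin N → ℝ) → ℝ} {B L : ι → ℝ}
    (h : ∀ i ∈ t, BLS (F i) (B i) (L i)) :
    BLS (fun u => ∑ i ∈ t, F i u) (∑ i ∈ t, B i) (∑ i ∈ t, L i) where
  bd u hu := (abs_sum_le_sum_abs _ _).trans (sum_le_sum fun i hi => (h i hi).bd u hu)
  lip u hu v hv := by
    rw [← sum_sub_distrib, sum_mul]
    exact (abs_sum_le_sum_abs _ _).trans (sum_le_sum fun i hi => (h i hi).lip u hu v hv)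
  nL := sum_nonneg fun i hi => (h i hi).nL

theorem BLS.mono {F : (Fin N → ℝ) → ℝ} {B L B' L' : ℝ} (h : BLS F B L) (hB : B ≤ B')
    (hL : L ≤ L') : BLS F B' L' where
  bd u hu := (h.bd u hu).trans hB
  lip u hu v hv := (h.lip u hu v hv).trans (mul_le_mul_of_nonneg_right hL (d1_nonneg _ _))
  nL := h.nL.trans hL

theorem BLS.coord (i : Fin N) : BLS (fun u : Fin N → ℝ => u i) (Real.sqrt N) 1 where
  bd u hu := SS_coord hu i
  lip u _ v _ := by
    rw [one_mul]
    exact single_le_sum (f := fun j => |u j - v j|) (fun j _ => abs_nonneg _) (mem_univ i)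
  nL := zero_le_one

theorem BLS.comp {F : (Fin N → ℝ) → ℝ} {B L K K' : ℝ} {φ : ℝ → ℝ} (hφ : ∀ x, |φ x| ≤ K)
    (hφ' : ∀ x y, |φ x - φ y| ≤ K' * |x - y|) (hK' : 0 ≤ K') (h : BLS F B L) :
    BLS (fun u => φ (F u)) K (K' * L) where
  bd u _ := hφ _
  lip u hu v hv := by
    rw [mul_assoc]
    exact (hφ' _ _).trans (mul_le_mul_of_nonneg_left (h.lip u hu v hv) hK')
  nL := mul_nonneg hK' h.nL

theorem exp_lip {x y B : ℝ} (hx : x ≤ B) (hy : y ≤ B) :
    |Real.exp x - Real.exp y| ≤ Real.exp B * |x - y| := by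
  wlog hxy : y ≤ x generalizing x y
  · rw [abs_sub_comm, abs_sub_comm x y]
    exact this hy hx (le_of_not_ge hxy)
  rw [abs_of_nonneg (sub_nonneg.2 (Real.exp_le_exp.2 hxy)), abs_of_nonneg (sub_nonneg.2 hxy)]
  have h1 : Real.exp x - Real.exp y = Real.exp x * (1 - Real.exp (y - x)) := by
    rw [mul_sub, ← Real.exp_add]; ring_nf
  rw [h1]
  have h2 : 1 - Real.exp (y - x) ≤ x - y := by
    have := Real.add_one_le_exp (y - x); linarith
  have h3 : 0 ≤ 1 - Real.exp (y - x) := by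
    have : Real.exp (y - x) ≤ 1 := Real.exp_le_one_iff.2 (by linarith)
    linarith
  exact mul_le_mul (Real.exp_le_exp.2 hx) h2 h3 (Real.exp_pos _).le

theorem BLS.exp {F : (Fin N → ℝ) → ℝ} {B L : ℝ} (h : BLS F B L) :
    BLS (fun u => Real.exp (F u)) (Real.exp B) (Real.exp B * L) where
  bd u hu := by
    rw [abs_of_pos (Real.exp_pos _)]
    exact Real.exp_le_exp.2 ((le_abs_self _).trans (h.bd u hu))
  lip u hu v hv := by
    rw [mul_assoc]
    exact (exp_lip ((le_abs_self _).trans (h.bd u hu)) ((le_abs_self _).trans (h.bd v hv))).trans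
      (mul_le_mul_of_nonneg_left (h.lip u hu v hv) (Real.exp_pos _).le)
  nL := mul_nonneg (Real.exp_pos _).le h.nL

/-! ### the Schwinger-Dyson function -/

/-- smooth row functions -/
structure Sm (K : ℝ) (f f' : ℝ → ℝ) : Prop where
  d : ∀ x, HasDerivAt f (f' x) x
  b0 : ∀ x, |f x| ≤ K
  b1 : ∀ x, |f' x| ≤ K
  l1 : ∀ x y, |f' x - f' y| ≤ K * |x - y|

theorem Sm.nK {K : ℝ} {f f' : ℝ → ℝ} (h : Sm K f f') : 0 ≤ K := (abs_nonneg _).trans (h.b0 0)

theorem Sm.lip {K : ℝ} {f f' : ℝ → ℝ} (h : Sm K f f') (x y : ℝ) : |f x - f y| ≤ K * |x - y| := by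
  have := Convex.norm_image_sub_le_of_norm_hasDerivWithin_le (f := f) (f' := f') (C := K)
    (s := Set.univ) (x := y) (y := x) (fun z _ => (h.d z).hasDerivWithinAt) (fun z _ => h.b1 z)
    convex_univ (Set.mem_univ _) (Set.mem_univ _)
  simpa [Real.norm_eq_abs] using this

/-- the field of the row `a` -/
def hr {M : ℕ} (G : Fin M → Fin N → ℝ) (a : Fin M) (x : Fin N → ℝ) : ℝ :=
  ∑ i, G a i * (x i / Real.sqrt N)

variable {nc n : ℕ}

/-- the log-weight as a function of the point, coins fixed -/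
def UF {M : ℕ} (f : ℕ → ℝ → ℝ) (G : Fin M → Fin N → ℝ) (s : Fin nc → ℝ) (c : Coins nc n N)
    (x : Fin N → ℝ) : ℝ :=
  rowE f G x + ∑ g, s g * ∑ i, zf c g i * x i

/-- the Schwinger-Dyson function -/
def Psi {M : ℕ} (f' : ℕ → ℝ → ℝ) (G : Fin M → Fin N → ℝ) (s : Fin nc → ℝ) (c : Coins nc n N)
    (x w : Fin N → ℝ) : ℝ :=
  ((N : ℝ) - 1) / N * (∑ i, w i * x i)
    - ∑ a : Fin M, f' a (hr G a x) * (hr G a w - (∑ i, w i * x i) / N * hr G a x)
    - ∑ g, s g * ((∑ i, zf c g i * w i) - (∑ i, w i * x i) / N * ∑ i, zf c g i * x i)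

/-- scalar product with a fixed vector -/
def dotL (v : Fin N → ℝ) : EuclideanSpace ℝ (Fin N) →L[ℝ] ℝ :=
  ∑ i, v i • (EuclideanSpace.proj i : EuclideanSpace ℝ (Fin N) →L[ℝ] ℝ)

theorem dotL_apply (v : Fin N → ℝ) (y : EuclideanSpace ℝ (Fin N)) :
    dotL v y = ∑ i, v i * y i := by
  simp [dotL]

theorem sd_exact (hN : 0 < N) {M : ℕ} {K : ℝ} {f f' : ℕ → ℝ → ℝ} (hf : ∀ a, Sm K (f a) (f' a))
    (G : Fin M → Fin N → ℝ) (s : Fin nc → ℝ) (c : Coins nc n N) (w : Fin N → ℝ) :
    ∫ y, Real.exp (UF f G s c (fun i => Real.sqrt N * (y : EuclideanSpace ℝ (Fin N)) i)) *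
      Psi f' G s c (fun i => Real.sqrt N * (y : EuclideanSpace ℝ (Fin N)) i) w ∂(sph N) = 0 := by
  have hN0 : (0 : ℝ) < N := by exact_mod_cast hN
  have hs : 0 < Real.sqrt N := Real.sqrt_pos.2 hN0
  have hss : Real.sqrt N * Real.sqrt N = N := Real.mul_self_sqrt hN0.le
  set F : EuclideanSpace ℝ (Fin N) → ℝ := fun y =>
    Real.exp (∑ a : Fin M, f a (dotL (G a) y) + ∑ g, (s g * Real.sqrt N) * dotL (zf c g) y) with hF
  set F' : EuclideanSpace ℝ (Fin N) → EuclideanSpace ℝ (Fin N) →L[ℝ] ℝ := fun y =>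
    F y • (∑ a : Fin M, f' a (dotL (G a) y) • dotL (G a)
      + ∑ g, (s g * Real.sqrt N) • dotL (zf c g)) with hF'
  have hcf' : ∀ a, Continuous (f' a) := by
    intro a
    refine (LipschitzWith.of_dist_le_mul (K := ⟨K, (hf a).nK⟩) fun x y => ?_).continuous
    rw [Real.dist_eq, Real.dist_eq]
    exact (hf a).l1 x y
  have hderiv : ∀ y, HasFDerivAt F (F' y) y := by
    intro y
    have h1 : ∀ a : Fin M, HasFDerivAt (fun y => f a (dotL (G a) y))
        (f' a (dotL (G a) y) • dotL (G a)) y := by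
      intro a
      exact ((hf a).d _).comp_hasFDerivAt y (dotL (G a)).hasFDerivAt
    have h2 : ∀ g : Fin nc, HasFDerivAt (fun y => (s g * Real.sqrt N) * dotL (zf c g) y)
        ((s g * Real.sqrt N) • dotL (zf c g)) y := by
      intro g
      exact (dotL (zf c g)).hasFDerivAt.const_mul _
    have h3 := (HasFDerivAt.fun_sum fun a (_ : a ∈ univ) => h1 a).add
      (HasFDerivAt.fun_sum fun g (_ : g ∈ univ) => h2 g)
    exact h3.exp
  have hcF : Continuous F := by
    rw [continuous_iff_continuousAt]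
    exact fun y => (hderiv y).continuousAt
  have hcF' : Continuous F' := by
    refine hcF.smul ((continuous_finsetSum _ fun a _ => ?_).add continuous_const)
    exact ((hcf' a).comp (dotL (G a)).continuous).smul continuous_const
  set w' : EuclideanSpace ℝ (Fin N) := WithLp.toLp 2 fun i => w i / Real.sqrt N with hw'
  have key := SphDiv_290.sphere_div F F' (fun y _ => hderiv y) hcF'.continuousOn w'
  have hpt : ∀ y : UnitSphere N,
      Real.exp (UF f G s c (fun i => Real.sqrt N * (y : EuclideanSpace ℝ (Fin N)) i)) *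
      Psi f' G s c (fun i => Real.sqrt N * (y : EuclideanSpace ℝ (Fin N)) i) w
      = ((N : ℝ) - 1) * ((∑ i, w' i * (y : EuclideanSpace ℝ (Fin N)) i) * F y)
        - F' y (w' - (∑ i, w' i * (y : EuclideanSpace ℝ (Fin N)) i)
          • (y : EuclideanSpace ℝ (Fin N))) := by
    intro y
    have e1 : ∀ a : Fin M, hr G a (fun i => Real.sqrt N * (y : EuclideanSpace ℝ (Fin N)) i)
        = dotL (G a) y := by
      intro a
      rw [dotL_apply]
      unfold hr
      refine sum_congr rfl fun i _ => ?_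
      field_simp
    have e2 : ∀ g : Fin nc, ∑ i, zf c g i * (Real.sqrt N * (y : EuclideanSpace ℝ (Fin N)) i)
        = Real.sqrt N * dotL (zf c g) y := by
      intro g
      rw [dotL_apply, mul_sum]
      exact sum_congr rfl fun i _ => by ring
    have e3 : UF f G s c (fun i => Real.sqrt N * (y : EuclideanSpace ℝ (Fin N)) i)
        = ∑ a : Fin M, f a (dotL (G a) y) + ∑ g, (s g * Real.sqrt N) * dotL (zf c g) y := by
      unfold UF rowE
      congr 1
      · refine sum_congr rfl fun a _ => ?_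
        exact congrArg _ (e1 a)
      · refine sum_congr rfl fun g _ => ?_
        rw [e2]; ring
    have e4 : (∑ i, w i * (Real.sqrt N * (y : EuclideanSpace ℝ (Fin N)) i)) / N
        = ∑ i, w' i * (y : EuclideanSpace ℝ (Fin N)) i := by
      rw [sum_div]
      refine sum_congr rfl fun i _ => ?_
      have : w' i = w i / Real.sqrt N := rfl
      rw [this, div_mul_eq_mul_div, div_eq_div_iff hN0.ne' hs.ne']
      linear_combination (w i * (y : EuclideanSpace ℝ (Fin N)) i) * hss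
    have e5 : ∀ a : Fin M, hr G a w = dotL (G a) w' := by
      intro a
      rw [dotL_apply]
      rfl
    have e6 : ∀ g : Fin nc, ∑ i, zf c g i * w i = Real.sqrt N * dotL (zf c g) w' := by
      intro g
      rw [dotL_apply, mul_sum]
      refine sum_congr rfl fun i _ => ?_
      have : w' i = w i / Real.sqrt N := rfl
      rw [this]
      field_simp
    have e7 : ((N : ℝ) - 1) / N * (∑ i, w i * (Real.sqrt N * (y : EuclideanSpace ℝ (Fin N)) i))
        = ((N : ℝ) - 1) * ∑ i, w' i * (y : EuclideanSpace ℝ (Fin N)) i := by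
      rw [← e4]; ring
    have hFy : F y = Real.exp (UF f G s c (fun i => Real.sqrt N * (y : EuclideanSpace ℝ (Fin N)) i)) := by
      rw [e3]
    rw [← hFy]
    unfold Psi
    rw [e7, e4]
    simp only [e1, e2, e5, e6]
    simp only [hF', smul_apply, add_apply,
      _root_.sum_apply, smul_eq_mul, map_sub, map_smul]
    have e8 : ∑ a : Fin M, f' a (dotL (G a) y) * (dotL (G a) w' -
          (∑ i, w' i * (y : EuclideanSpace ℝ (Fin N)) i) * dotL (G a) y)
        + ∑ g, s g * (Real.sqrt N * dotL (zf c g) w' -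
          (∑ i, w' i * (y : EuclideanSpace ℝ (Fin N)) i) * (Real.sqrt N * dotL (zf c g) y))
        = (∑ a : Fin M, f' a (dotL (G a) y) * dotL (G a) w' +
            ∑ g, (s g * Real.sqrt N) * dotL (zf c g) w') -
          (∑ i, w' i * (y : EuclideanSpace ℝ (Fin N)) i) *
          (∑ a : Fin M, f' a (dotL (G a) y) * dotL (G a) y +
            ∑ g, (s g * Real.sqrt N) * dotL (zf c g) y) := by
      rw [mul_add, mul_sum, mul_sum]
      simp only [mul_sub, sum_sub_distrib]
      have a1 : ∀ g, s g * (Real.sqrt N * dotL (zf c g) w')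
          = (s g * Real.sqrt N) * dotL (zf c g) w' := fun g => by ring
      have a2 : ∀ g, s g * ((∑ i, w' i * (y : EuclideanSpace ℝ (Fin N)) i) *
          (Real.sqrt N * dotL (zf c g) y)) = (∑ i, w' i * (y : EuclideanSpace ℝ (Fin N)) i) *
          ((s g * Real.sqrt N) * dotL (zf c g) y) := fun g => by ring
      have a3 : ∀ a : Fin M, f' a (dotL (G a) y) *
          ((∑ i, w' i * (y : EuclideanSpace ℝ (Fin N)) i) * dotL (G a) y)
          = (∑ i, w' i * (y : EuclideanSpace ℝ (Fin N)) i) *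
            (f' a (dotL (G a) y) * dotL (G a) y) := fun a => by ring
      simp only [a1, a2, a3]
      ring
    linear_combination (-F y) * e8
  rw [integral_congr_ae (Filter.Eventually.of_forall hpt)]
  unfold sph
  rw [integral_smul_measure]
  have i1 : Integrable (fun y : UnitSphere N => ((N : ℝ) - 1) *
      ((∑ i, w' i * (y : EuclideanSpace ℝ (Fin N)) i) * F y)) (sphereLaw N) := by
    refine SphDiv_290.integrable_sphere ?_
    have : Continuous fun y : UnitSphere N => F y := hcF.comp continuous_subtype_val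
    fun_prop
  have i2 : Integrable (fun y : UnitSphere N => F' y (w' - (∑ i, w' i *
      (y : EuclideanSpace ℝ (Fin N)) i) • (y : EuclideanSpace ℝ (Fin N)))) (sphereLaw N) := by
    refine SphDiv_290.integrable_sphere ?_
    have : Continuous fun y : UnitSphere N => F' y := hcF'.comp continuous_subtype_val
    exact this.clm_apply (by fun_prop)
  rw [integral_sub i1 i2, key, integral_const_mul, sub_self, smul_zero]

/-! ### bounds -/

/-- `F` is bounded and Lipschitz on the sphere with the constant `C * H ^ k`. -/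
def PB (H C : ℝ) (k : ℕ) (F : (Fin N → ℝ) → ℝ) : Prop := BLS F (C * H ^ k) (C * H ^ k)

variable {H : ℝ}

theorem PB.nC (hH : 1 ≤ H) {C : ℝ} {k : ℕ} {F : (Fin N → ℝ) → ℝ} (h : PB H C k F) : 0 ≤ C := by
  have h1 := BLS.nB h
  have h2 : 0 < H ^ k := pow_pos (by linarith) k
  exact nonneg_of_mul_nonneg_left h1 h2

theorem PB.mono (hH : 1 ≤ H) {C C' : ℝ} {k k' : ℕ} {F : (Fin N → ℝ) → ℝ} (h : PB H C k F)
    (hC : C ≤ C') (hk : k ≤ k') : PB H C' k' F := by
  have h1 : C * H ^ k ≤ C' * H ^ k' :=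
    mul_le_mul hC (pow_le_pow_right₀ hH hk) (pow_nonneg (by linarith) k) ((h.nC hH).trans hC)
  exact BLS.mono h h1 h1

theorem PB.add {C C' : ℝ} {k : ℕ} {F F' : (Fin N → ℝ) → ℝ} (h : PB H C k F)
    (h' : PB H C' k F') : PB H (C + C') k (fun u => F u + F' u) := by
  have := BLS.add h h'
  unfold PB
  rw [add_mul]
  exact this

theorem PB.sub {C C' : ℝ} {k : ℕ} {F F' : (Fin N → ℝ) → ℝ} (h : PB H C k F)
    (h' : PB H C' k F') : PB H (C + C') k (fun u => F u - F' u) := by
  have := BLS.sub h h'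
  unfold PB
  rw [add_mul]
  exact this

theorem PB.mul {C C' : ℝ} {k k' : ℕ} {F F' : (Fin N → ℝ) → ℝ} (h : PB H C k F)
    (h' : PB H C' k' F') (hH : 1 ≤ H) : PB H (2 * C * C') (k + k') (fun u => F u * F' u) := by
  have h1 := BLS.mul h h'
  have h2 : 0 ≤ C * C' := mul_nonneg (h.nC hH) (h'.nC hH)
  have h3 : 0 ≤ H ^ (k + k') := pow_nonneg (by linarith) _
  refine BLS.mono h1 ?_ ?_
  · have e : C * H ^ k * (C' * H ^ k') = (C * C') * H ^ (k + k') := by rw [pow_add]; ring
    rw [e]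
    have := mul_nonneg h2 h3
    nlinarith
  · have e : C * H ^ k * (C' * H ^ k') + C' * H ^ k' * (C * H ^ k) =
      (2 * C * C') * H ^ (k + k') := by rw [pow_add]; ring
    rw [e]

theorem PB.const_mul {C : ℝ} {k : ℕ} {F : (Fin N → ℝ) → ℝ} (c : ℝ) (h : PB H C k F) :
    PB H (|c| * C) k (fun u => c * F u) := by
  have := BLS.const_mul c h
  unfold PB
  rw [mul_assoc]
  exact this

theorem PB.const (c : ℝ) {C : ℝ} {k : ℕ} (h : |c| ≤ C * H ^ k) : PB (N := N) H C k (fun _ => c) :=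
  BLS.mono (BLS.const c) h ((abs_nonneg _).trans h)

theorem PB.sum {ι : Type*} (t : Finset ι) {F : ι → (Fin N → ℝ) → ℝ} {C : ι → ℝ} {k : ℕ}
    (h : ∀ i ∈ t, PB H (C i) k (F i)) : PB H (∑ i ∈ t, C i) k (fun u => ∑ i ∈ t, F i u) := by
  have := BLS.sum t h
  unfold PB
  rw [sum_mul]
  exact this

theorem PB.comp {C : ℝ} {k : ℕ} {F : (Fin N → ℝ) → ℝ} {K : ℝ} {φ : ℝ → ℝ} (hφ : ∀ x, |φ x| ≤ K)
    (hφ' : ∀ x y, |φ x - φ y| ≤ K * |x - y|) (hK : 0 ≤ K) (hC : 1 ≤ C) (hH : 1 ≤ H)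
    (h : PB H C k F) : PB H (K * C) k (fun u => φ (F u)) := by
  have h1 := BLS.comp hφ hφ' hK h
  have h2 : 1 ≤ C * H ^ k := one_le_mul_of_one_le_of_one_le hC (one_le_pow₀ hH)
  refine BLS.mono h1 ?_ (by rw [mul_assoc])
  rw [mul_assoc]
  exact le_mul_of_one_le_right hK h2

section bounds

variable {M : ℕ} {f f' : ℕ → ℝ → ℝ} {K A : ℝ} {G : Fin M → Fin N → ℝ} {s : Fin nc → ℝ}
  {c : Coins nc n N} {w : Fin N → ℝ}

/-- `H = 1 + ∑ |G a i|` -/
def HG (G : Fin M → Fin N → ℝ) : ℝ := 1 + ∑ a, ∑ i, |G a i|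

theorem one_le_HG (G : Fin M → Fin N → ℝ) : 1 ≤ HG G := by
  unfold HG
  have : 0 ≤ ∑ a, ∑ i, |G a i| := sum_nonneg fun _ _ => sum_nonneg fun _ _ => abs_nonneg _
  linarith

theorem sum_row_le_HG (G : Fin M → Fin N → ℝ) (a : Fin M) : ∑ i, |G a i| ≤ HG G := by
  unfold HG
  have : ∑ i, |G a i| ≤ ∑ a, ∑ i, |G a i| :=
    single_le_sum (f := fun a => ∑ i, |G a i|) (fun _ _ => sum_nonneg fun _ _ => abs_nonneg _)
      (mem_univ a)
  linarith

theorem one_le_sqrt (hN : 0 < N) : 1 ≤ Real.sqrt N := by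
  rw [Real.one_le_sqrt]
  exact_mod_cast hN

theorem sqrt_le_self' (hN : 0 < N) : Real.sqrt N ≤ N := by
  have h1 : (1 : ℝ) ≤ N := by exact_mod_cast hN
  rw [Real.sqrt_le_left (by linarith)]
  nlinarith

theorem PB_hr (hN : 0 < N) (a : Fin M) : PB (HG G) 1 1 (hr G a) := by
  have h1 : ∀ i ∈ (univ : Finset (Fin N)), BLS (fun u : Fin N → ℝ => G a i * (u i / Real.sqrt N))
      (|G a i|) (|G a i|) := by
    intro i _
    have hs := one_le_sqrt hN
    have h2 := (BLS.coord i).const_mul (G a i / Real.sqrt N)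
    have e : (fun u : Fin N → ℝ => G a i * (u i / Real.sqrt N)) =
        fun u => G a i / Real.sqrt N * u i := by
      funext u; ring
    rw [e]
    refine h2.mono ?_ ?_
    · rw [abs_div, abs_of_pos (by linarith : 0 < Real.sqrt N), div_mul_cancel₀ _ (by linarith)]
    · rw [abs_div, abs_of_pos (by linarith : 0 < Real.sqrt N), mul_one]
      exact div_le_self (abs_nonneg _) hs
  have h3 := BLS.sum univ h1
  have h4 : ∑ i, |G a i| ≤ 1 * HG G ^ 1 := by
    rw [one_mul, pow_one]; exact sum_row_le_HG G a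
  exact BLS.mono h3 h4 h4

theorem BLS_rowE (hN : 0 < N) (hf : ∀ a, Sm K (f a) (f' a)) :
    BLS (fun u => rowE f G u) (M * K) (M * (K * HG G)) := by
  have h1 : ∀ a ∈ (univ : Finset (Fin M)), BLS (fun u => f a (hr G a u)) K (K * HG G) := by
    intro a _
    have h2 := BLS.comp (hf a).b0 (hf a).lip (hf a).nK (PB_hr (G := G) hN a)
    rw [one_mul, pow_one] at h2
    exact h2
  have h3 := BLS.sum univ h1
  have e : (fun u => rowE f G u) = fun u => ∑ a : Fin M, f a (hr G a u) := rfl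
  rw [e]
  simpa using h3

theorem abs_zf_le (g : Fin nc) (i : Fin N) : |zf c g i| ≤ Real.sqrt n := by
  unfold zf
  rw [abs_mul, abs_inv, abs_of_nonneg (Real.sqrt_nonneg _)]
  have h1 : |∑ t : Fin n, S6Def_988.sv (c g t i)| ≤ n := by
    refine (abs_sum_le_sum_abs _ _).trans ?_
    have : ∀ t ∈ (univ : Finset (Fin n)), |S6Def_988.sv (c g t i)| ≤ 1 := by
      intro t _
      unfold S6Def_988.sv
      split_ifs <;> simp
    refine (sum_le_sum this).trans ?_
    simp
  rcases Nat.eq_zero_or_pos n with h0 | hn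
  · subst h0; simp
  · have hs : 0 < Real.sqrt n := Real.sqrt_pos.2 (by exact_mod_cast hn)
    rw [inv_mul_le_iff₀ hs, Real.mul_self_sqrt (Nat.cast_nonneg n)]
    exact h1

theorem PB_lin (hN : 0 < N) {v : Fin N → ℝ} {b : ℝ} (hv : ∀ i, |v i| ≤ b) :
    PB H (N * (b * N)) 0 (fun u => ∑ i, v i * u i) := by
  have h1 : ∀ i ∈ (univ : Finset (Fin N)), BLS (fun u : Fin N → ℝ => v i * u i)
      (b * N) (b * N) := by
    intro i _
    have h2 := (BLS.coord i).const_mul (v i)
    have h3 := sqrt_le_self' hN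
    have h4 : (1 : ℝ) ≤ N := by exact_mod_cast hN
    refine h2.mono ?_ ?_
    · exact mul_le_mul (hv i) h3 (Real.sqrt_nonneg _) ((abs_nonneg _).trans (hv i))
    · exact mul_le_mul (hv i) h4 zero_le_one ((abs_nonneg _).trans (hv i))
  have h3 := BLS.sum univ h1
  have e : ∑ _i : Fin N, b * (N : ℝ) = N * (b * N) * H ^ 0 := by simp
  rw [e] at h3
  exact h3

/-- bound of the log-weight -/
def BU (N nc n M : ℕ) (K A : ℝ) : ℝ := M * K + nc * (A * (N * (Real.sqrt n * N)))

theorem BLS_UF (hN : 0 < N) (hf : ∀ a, Sm K (f a) (f' a)) (hs : ∀ g, |s g| ≤ A) :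
    BLS (UF f G s c) (BU N nc n M K A) (BU N nc n M K A * HG G) := by
  have h1 : ∀ g ∈ (univ : Finset (Fin nc)), BLS (fun u => s g * ∑ i, zf c g i * u i)
      (A * (N * (Real.sqrt n * N))) (A * (N * (Real.sqrt n * N))) := by
    intro g _
    have h2 := (PB_lin (H := 1) hN (fun i => abs_zf_le (c := c) g i)).const_mul (s g)
    have hA : 0 ≤ A := (abs_nonneg _).trans (hs g)
    have h3 : |s g| * (N * (Real.sqrt n * N)) * 1 ^ 0 ≤ A * (N * (Real.sqrt n * N)) := by
      rw [pow_zero, mul_one]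
      exact mul_le_mul_of_nonneg_right (hs g) (by positivity)
    exact BLS.mono h2 h3 h3
  have h3 := BLS.sum univ h1
  have h4 := (BLS_rowE (G := G) hN hf).add h3
  refine h4.mono ?_ ?_
  · unfold BU; simp
  · unfold BU
    have h5 : (0 : ℝ) ≤ ∑ _g : Fin nc, A * (N * (Real.sqrt n * N)) := h3.nL
    have h6 := one_le_HG G
    have h7 : (∑ _g : Fin nc, A * (N * (Real.sqrt n * N)) : ℝ) = nc * (A * (N * (Real.sqrt n * N))) := by
      simp
    rw [h7] at h5 ⊢
    nlinarith [mul_le_mul_of_nonneg_left h6 h5]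

theorem PB_exp (hN : 0 < N) (hf : ∀ a, Sm K (f a) (f' a)) (hs : ∀ g, |s g| ≤ A) :
    PB (HG G) (Real.exp (BU N nc n M K A) * (1 + BU N nc n M K A)) 1
      (fun u => Real.exp (UF f G s c u)) := by
  have h1 := BLS_UF (G := G) (c := c) hN hf hs
  have h2 := h1.exp
  have h3 := one_le_HG G
  have h4 := h1.nB
  have h5 := Real.exp_pos (BU N nc n M K A)
  refine BLS.mono h2 ?_ ?_
  · rw [pow_one, mul_assoc]
    refine le_mul_of_one_le_right h5.le ?_
    nlinarith
  · rw [pow_one, mul_assoc]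
    refine mul_le_mul_of_nonneg_left ?_ h5.le
    nlinarith

/-- the constant of `Psi` -/
def CPsi (N nc n M : ℕ) (K A : ℝ) : ℝ :=
  N * (Real.sqrt N * N) + M * (2 * K * (1 + 2 * (N * (Real.sqrt N * N)) * 1))
    + nc * (A * (N * (Real.sqrt n * N) * 1 + 2 * (N * (Real.sqrt N * N)) * (N * (Real.sqrt n * N))))

theorem PB_Psi (hN : 0 < N) (hf : ∀ a, Sm K (f a) (f' a)) (hs : ∀ g, |s g| ≤ A) (hw : w ∈ SS N) :
    PB (HG G) (CPsi N nc n M K A) 2 (fun u => Psi f' G s c u w) := by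
  have hH := one_le_HG G
  have hN1 : (1 : ℝ) ≤ N := by exact_mod_cast hN
  have hW : PB (HG G) (N * (Real.sqrt N * N)) 0 (fun u => ∑ i, w i * u i) :=
    PB_lin hN (fun i => SS_coord hw i)
  have hWN : PB (HG G) (N * (Real.sqrt N * N)) 0 (fun u => (∑ i, w i * u i) / N) := by
    have h1 := hW.const_mul (N : ℝ)⁻¹
    have e : (fun u : Fin N → ℝ => (∑ i, w i * u i) / N) = fun u => (N : ℝ)⁻¹ * ∑ i, w i * u i := by
      funext u; ring
    rw [e]
    refine h1.mono hH ?_ le_rfl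
    rw [abs_of_pos (by positivity : (0:ℝ) < (N:ℝ)⁻¹)]
    have : (N : ℝ)⁻¹ ≤ 1 := inv_le_one_of_one_le₀ hN1
    exact mul_le_of_le_one_left (by positivity) this
  have hW1 : PB (HG G) (N * (Real.sqrt N * N)) 2
      (fun u => ((N : ℝ) - 1) / N * ∑ i, w i * u i) := by
    refine (hW.const_mul _).mono hH ?_ (by norm_num)
    have : |((N : ℝ) - 1) / N| ≤ 1 := by
      rw [abs_of_nonneg (by apply div_nonneg <;> linarith)]
      rw [div_le_one (by linarith)]; linarith
    exact mul_le_of_le_one_left (by positivity) this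
  have hrow : ∀ a ∈ (univ : Finset (Fin M)), PB (HG G)
      (2 * K * (1 + 2 * (N * (Real.sqrt N * N)) * 1)) 2
      (fun u => f' a (hr G a u) * (hr G a w - (∑ i, w i * u i) / N * hr G a u)) := by
    intro a _
    have h1 : PB (HG G) (K * 1) 1 (fun u => f' a (hr G a u)) :=
      PB.comp (hf a).b1 (hf a).l1 (hf a).nK le_rfl hH (PB_hr hN a)
    have h2 : PB (HG G) (2 * (N * (Real.sqrt N * N)) * 1) 1
        (fun u => (∑ i, w i * u i) / N * hr G a u) := by
      have := hWN.mul (PB_hr (G := G) hN a) hH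
      exact this
    have h3 : PB (N := N) (HG G) 1 1 (fun _ => hr G a w) := by
      refine PB.const _ ?_
      exact (PB_hr (G := G) hN a).bd w hw
    have h4 := h1.mul (h3.sub h2) hH
    refine h4.mono hH ?_ le_rfl
    rw [mul_one]
  have hfield : ∀ g ∈ (univ : Finset (Fin nc)), PB (HG G)
      (A * (N * (Real.sqrt n * N) * 1 + 2 * (N * (Real.sqrt N * N)) * (N * (Real.sqrt n * N)))) 2
      (fun u => s g * ((∑ i, zf c g i * w i) - (∑ i, w i * u i) / N * ∑ i, zf c g i * u i)) := by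
    intro g _
    have hA : 0 ≤ A := (abs_nonneg _).trans (hs g)
    have h1 : PB (HG G) (N * (Real.sqrt n * N)) 0 (fun u => ∑ i, zf c g i * u i) :=
      PB_lin hN (fun i => abs_zf_le g i)
    have h2 := hWN.mul h1 hH
    have h3 : PB (N := N) (HG G) (N * (Real.sqrt n * N) * 1) 0 (fun _ => ∑ i, zf c g i * w i) := by
      refine PB.const _ ?_
      rw [mul_one]
      exact h1.bd w hw
    have h4 := (h3.sub h2).const_mul (s g)
    refine h4.mono hH ?_ (by norm_num)
    exact mul_le_mul_of_nonneg_right (hs g) (by positivity)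
  have h5 := (hW1.sub (PB.sum univ hrow)).sub (PB.sum univ hfield)
  unfold Psi
  refine h5.mono hH ?_ le_rfl
  unfold CPsi
  simp

/-- the constant of the Schwinger-Dyson sum -/
def CSD (N nc n M : ℕ) (K A : ℝ) : ℝ :=
  2 * (Real.exp (BU N nc n M K A) * (1 + BU N nc n M K A)) * CPsi N nc n M K A

theorem PB_sd (hN : 0 < N) (hf : ∀ a, Sm K (f a) (f' a)) (hs : ∀ g, |s g| ≤ A) (hw : w ∈ SS N) :
    PB (HG G) (CSD N nc n M K A) 3 (fun u => Real.exp (UF f G s c u) * Psi f' G s c u w) :=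
  (PB_exp (G := G) (c := c) hN hf hs).mul (PB_Psi hN hf hs hw) (one_le_HG G)

/-- the Schwinger-Dyson sum over a fine configuration space. -/
theorem sd_sum_le (hN : 0 < N) {C : Cfg N} {δ : ℝ} (hδ : 0 ≤ δ) (hC : Near C δ)
    (hf : ∀ a, Sm K (f a) (f' a)) (hs : ∀ g, |s g| ≤ A) (hw : w ∈ SS N) :
    |∑ y, C.q y * (Real.exp (UF f G s c (C.x y)) * Psi f' G s c (C.x y) w)| ≤
      (CSD N nc n M K A + 1) * HG G ^ 3 * δ := by
  have h1 := PB_sd (c := c) (G := G) hN hf hs hw
  have hH := one_le_HG G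
  have h2 : 0 ≤ CSD N nc n M K A := h1.nC hH
  have hpos : 0 < (CSD N nc n M K A + 1) * HG G ^ 3 := by positivity
  have h3 := near_onS hC hpos (F := fun u => Real.exp (UF f G s c u) * Psi f' G s c u w)
    (fun u hu v hv => by
      refine (h1.lip u hu v hv).trans (mul_le_mul_of_nonneg_right ?_ (d1_nonneg _ _))
      exact mul_le_mul_of_nonneg_right (by linarith) (by positivity))
  rw [sd_exact hN hf G s c w, sub_zero] at h3
  exact h3

end bounds

/-! ### the hierarchical form -/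

open scoped Classical in
theorem pE_swap {Ω : Type} [Fintype Ω] (Q : Ω → ℝ) (r : Setoid Ω) (Ψ : Ω → Ω → ℝ) :
    pE Q r Ψ = pE Q r (fun a b => Ψ b a) := by
  unfold pE eE
  simp only [cE_eq_ite]
  have hZ : ∀ a b, r a b → (∑ ω', if r a ω' then Q ω' else 0) = ∑ ω', if r b ω' then Q ω' else 0 := by
    intro a b hab
    refine sum_congr rfl fun ω' _ => ?_
    have : r a ω' ↔ r b ω' := ⟨fun h => r.trans (r.symm hab) h, fun h => r.trans hab h⟩
    simp only [this]
  have h1 : ∀ Φ : Ω → Ω → ℝ, ∑ a, Q a * ((∑ b, if r a b then Q b * Φ a b else 0) /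
      ∑ ω', if r a ω' then Q ω' else 0) = ∑ a, ∑ b, if r a b then
        Q a * Q b * Φ a b / (∑ ω', if r a ω' then Q ω' else 0) else 0 := by
    intro Φ
    refine sum_congr rfl fun a _ => ?_
    rw [← mul_div_assoc, mul_sum, sum_div]
    refine sum_congr rfl fun b _ => ?_
    split_ifs <;> ring
  rw [h1, h1, sum_comm]
  refine sum_congr rfl fun a _ => sum_congr rfl fun b _ => ?_
  by_cases hab : r a b
  · rw [if_pos hab, if_pos (r.symm hab), hZ a b hab]
    ring
  · rw [if_neg hab, if_neg (fun h => hab (r.symm h))]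

variable (C : Cfg N)

theorem UU_eq {M : ℕ} (f : ℕ → ℝ → ℝ) (G : Fin M → Fin N → ℝ) (s : Fin nc → ℝ)
    (ω : Om C nc n) : UU f G s ω = UF f G s ω.2 (C.x ω.1) := rfl

open scoped Classical in
/-- conditional expectation given all the coins, prior law -/
theorem cE_prior_last (g : Om C nc n → ℝ) (ω : Om C nc n) :
    cE (S6Def_988.prior C nc n) ((fil C nc n).F (nc * n)) g ω = ∑ y, C.q y * g (y, ω.2) := by
  rw [cE_eq_ite]
  have hr : ∀ ω' : Om C nc n, (fil C nc n).F (nc * n) ω ω' ↔ ω.2 = ω'.2 := by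
    intro ω'
    constructor
    · intro h
      have h : frel C nc n (nc * n) ω ω' := h
      funext g t
      refine h.1 g t ?_
      have h1 : (g : ℕ) * n + t < ((g : ℕ) + 1) * n := by
        have := t.2
        rw [add_mul, one_mul]; omega
      have h2 : ((g : ℕ) + 1) * n ≤ nc * n := Nat.mul_le_mul_right n g.2
      omega
    · intro h
      show frel C nc n (nc * n) ω ω'
      refine ⟨fun g t _ => by rw [h], fun hL => ?_⟩
      unfold Lv at hL
      omega
  simp only [hr]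
  have h1 : ∀ h : Om C nc n → ℝ, (∑ ω' : Om C nc n, if ω.2 = ω'.2 then S6Def_988.prior C nc n ω' * h ω'
      else 0) = (Fintype.card (Coins nc n N) : ℝ)⁻¹ * ∑ y, C.q y * h (y, ω.2) := by
    intro h
    rw [Fintype.sum_prod_type, mul_sum]
    refine sum_congr rfl fun y _ => ?_
    simp only
    rw [sum_ite_eq]
    simp only [mem_univ, if_true, S6Def_988.prior]
    ring
  have h2 := h1 (fun _ => 1)
  simp only [mul_one] at h2
  rw [h1, h2, C.hq.sum]
  have hc : (Fintype.card (Coins nc n N) : ℝ)⁻¹ ≠ 0 := by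
    have : 0 < Fintype.card (Coins nc n N) := Fintype.card_pos
    positivity
  rw [mul_one, mul_div_cancel_left₀ _ hc]

/-- conditional expectation given all the coins, tilted law -/
theorem cE_QQ_last (hn : 0 < n) {M : ℕ} (f : ℕ → ℝ → ℝ) (G : Fin M → Fin N → ℝ)
    (s : Fin nc → ℝ) (g : Om C nc n → ℝ) (ω : Om C nc n) :
    cE (QQ C nc n f G s) ((fil C nc n).F (nc * n)) g ω =
      (∑ y, C.q y * (Real.exp (UF f G s ω.2 (C.x y)) * g (y, ω.2))) /
        ∑ y, C.q y * Real.exp (UF f G s ω.2 (C.x y)) := by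
  have hP : IsProb (S6Def_988.prior C nc n) := OvcA_679.prior_isProb C nc n
  have hx : ∀ k, 0 < xs nc n k := OvcA_679.xs_pos nc n
  have hL : (fil C nc n).L = nc * n + 1 := rfl
  have hxl : xs nc n (nc * n + 1) = 1 := OvcA_679.xs_last nc n hn le_rfl
  unfold QQ
  rw [cE_tl hP hx]
  rw [hL]
  set A0 := A (S6Def_988.prior C nc n) (fil C nc n) (xs nc n) (UU (C := C) f G s) (nc * n) with hA0
  have hS : ∀ w, S (S6Def_988.prior C nc n) (fil C nc n) (xs nc n) (UU f G s) (nc * n) (nc * n + 1) w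
      = UU f G s w - A0 w := by
    intro w
    rw [S_succ _ le_rfl, S_self, hxl, A_of_ge _ (by rw [hL])]
    ring
  have hm : RMeas ((fil C nc n).F (nc * n)) (fun w => Real.exp (- A0 w)) := by
    intro a b hab
    have h0 : A0 a = A0 b := A_meas hP hx _ (nc * n) a b hab
    show Real.exp (- A0 a) = Real.exp (- A0 b)
    rw [h0]
  have h1 : (fun w => Real.exp (S (S6Def_988.prior C nc n) (fil C nc n) (xs nc n) (UU f G s) (nc * n)
      (nc * n + 1) w) * g w) = fun w => Real.exp (- A0 w) * (Real.exp (UU f G s w) * g w) := by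
    funext w
    rw [hS, ← mul_assoc, ← Real.exp_add]
    congr 2
    ring
  rw [h1, cE_mul_left hm]
  have h2 := exp_A_step (x := xs nc n) (𝓕 := fil C nc n) hP hx (UU f G s) (nc * n) ω
  have hA1 : A (S6Def_988.prior C nc n) (fil C nc n) (xs nc n) (UU f G s) (nc * n + 1)
      = UU f G s := A_of_ge _ (by rw [hL])
  rw [hxl, hA1, ← hA0] at h2
  simp only [one_mul] at h2
  rw [cE_prior_last] at h2 ⊢
  rw [Real.exp_neg, h2, inv_mul_eq_div]
  rfl

/-- the pair function of the Schwinger-Dyson relation -/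
def PsiP {M : ℕ} (f' : ℕ → ℝ → ℝ) (G : Fin M → Fin N → ℝ) (s : Fin nc → ℝ)
    (a b : Om C nc n) : ℝ := Psi f' G s a.2 (C.x a.1) (C.x b.1)

theorem sd_pair_le (hN : 0 < N) (hn : 0 < n) {δ : ℝ} (hδ : 0 ≤ δ) (hC : Near C δ) {M : ℕ}
    {f f' : ℕ → ℝ → ℝ} {K A : ℝ} (hf : ∀ a, Sm K (f a) (f' a)) (G : Fin M → Fin N → ℝ)
    {s : Fin nc → ℝ} (hs : ∀ g, |s g| ≤ A) {k : ℕ} (hk : k ≤ nc * n) :
    |pE (QQ C nc n f G s) ((fil C nc n).F k) (PsiP C f' G s)| ≤
      Real.exp (BU N nc n M K A) * ((CSD N nc n M K A + 1) * HG G ^ 3 * δ) := by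
  have hP : IsProb (S6Def_988.prior C nc n) := OvcA_679.prior_isProb C nc n
  have hx : ∀ k, 0 < xs nc n k := OvcA_679.xs_pos nc n
  have hQ : IsProb (QQ C nc n f G s) := tl_isProb hP hx _
  rw [pE_swap]
  unfold pE
  set B := Real.exp (BU N nc n M K A) * ((CSD N nc n M K A + 1) * HG G ^ 3 * δ) with hB
  have key : ∀ (b : C.Y) (ω : Om C nc n),
      |cE (QQ C nc n f G s) ((fil C nc n).F (nc * n))
        (fun a => Psi f' G s a.2 (C.x a.1) (C.x b)) ω| ≤ B := by
    intro b ω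
    rw [cE_QQ_last C hn]
    have h1 := sd_sum_le (G := G) (c := ω.2) hN hδ hC hf hs (C.hx b)
    have h2 : Real.exp (- BU N nc n M K A) ≤ ∑ y, C.q y * Real.exp (UF f G s ω.2 (C.x y)) := by
      have h3 : ∀ y ∈ (univ : Finset C.Y), C.q y * Real.exp (- BU N nc n M K A) ≤
          C.q y * Real.exp (UF f G s ω.2 (C.x y)) := by
        intro y _
        refine mul_le_mul_of_nonneg_left (Real.exp_le_exp.2 ?_) (C.hq.pos y).le
        have := (BLS_UF (G := G) (c := ω.2) hN hf hs).bd (C.x y) (C.hx y)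
        exact (abs_le.1 this).1
      have h4 := sum_le_sum h3
      rw [← sum_mul, C.hq.sum, one_mul] at h4
      exact h4
    have h5 : 0 < ∑ y, C.q y * Real.exp (UF f G s ω.2 (C.x y)) := (Real.exp_pos _).trans_le h2
    rw [abs_div, abs_of_pos h5, div_le_iff₀ h5]
    refine h1.trans ?_
    have h6 : 0 ≤ (CSD N nc n M K A + 1) * HG G ^ 3 * δ := (abs_nonneg _).trans h1
    calc (CSD N nc n M K A + 1) * HG G ^ 3 * δ
        = Real.exp (BU N nc n M K A) * ((CSD N nc n M K A + 1) * HG G ^ 3 * δ) *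
          Real.exp (- BU N nc n M K A) := by
          have h8 : Real.exp (BU N nc n M K A) * Real.exp (- BU N nc n M K A) = 1 := by
            rw [← Real.exp_add]; simp
          linear_combination (-((CSD N nc n M K A + 1) * HG G ^ 3 * δ)) * h8
      _ ≤ B * ∑ y, C.q y * Real.exp (UF f G s ω.2 (C.x y)) := by
          rw [hB]
          exact mul_le_mul_of_nonneg_left h2 (by positivity)
  have h7 : ∀ b : Om C nc n, |cE (QQ C nc n f G s) ((fil C nc n).F k)
      (fun a => PsiP C f' G s a b) b| ≤ B := by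
    intro b
    rw [← cE_tower hQ ((fil C nc n).anti' hk)]
    exact abs_cE_le_of_le hQ (fun ω => key b.1 ω) b
  refine (eE_abs_le hQ _).trans ?_
  exact eE_le_of_le hQ h7

theorem integrable_exp_abs :
    Integrable (fun x : ℝ => Real.exp |x|) (gaussianReal 0 1) := by
  have h1 : Integrable (fun x : ℝ => Real.exp (1 * x)) (gaussianReal 0 1) :=
    integrable_exp_mul_gaussianReal 1
  have h2 : Integrable (fun x : ℝ => Real.exp ((-1) * x)) (gaussianReal 0 1) :=
    integrable_exp_mul_gaussianReal (-1)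
  refine (h1.add h2).mono' (by fun_prop) (Filter.Eventually.of_forall fun x => ?_)
  rw [Real.norm_eq_abs, abs_of_pos (Real.exp_pos _)]
  show Real.exp |x| ≤ Real.exp (1 * x) + Real.exp ((-1) * x)
  rcases abs_cases x with ⟨h, _⟩ | ⟨h, _⟩
  · rw [h, one_mul]
    linarith [Real.exp_pos ((-1) * x)]
  · rw [h, neg_one_mul]
    linarith [Real.exp_pos (1 * x)]

/-- `E H^3 < ∞` -/
theorem integrable_HG (M N : ℕ) : Integrable (fun G : Fin M → Fin N → ℝ => HG G ^ 3) (gam M N) := by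
  have h1 : Integrable (fun x : Fin N → ℝ => ∏ i, Real.exp |x i|)
      (Measure.pi fun _ => gaussianReal 0 1) :=
    Integrable.fintype_prod (fun _ => integrable_exp_abs)
  have h2 : Integrable (fun G : Fin M → Fin N → ℝ => ∏ a, ∏ i, Real.exp |G a i|) (gam M N) :=
    Integrable.fintype_prod (f := fun _ (x : Fin N → ℝ) => ∏ i, Real.exp |x i|) (fun _ => h1)
  have hm : Measurable fun G : Fin M → Fin N → ℝ => HG G ^ 3 := by
    unfold HG
    fun_prop
  refine (h2.const_mul (6 * Real.exp 1)).mono' hm.aestronglyMeasurable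
    (Filter.Eventually.of_forall fun G => ?_)
  have hH := one_le_HG G
  have h3 := Real.pow_div_factorial_le_exp (HG G) (by linarith) 3
  have h4 : Real.exp (HG G) = Real.exp 1 * ∏ a, ∏ i, Real.exp |G a i| := by
    unfold HG
    rw [Real.exp_add]
    simp only [Real.exp_sum]
  rw [Real.norm_eq_abs, abs_of_nonneg (by positivity)]
  rw [h4] at h3
  have h5 : ((Nat.factorial 3 : ℕ) : ℝ) = 6 := by norm_num [Nat.factorial]
  rw [h5] at h3
  rw [div_le_iff₀ (by norm_num)] at h3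
  linarith

/-- **(SDp)** Schwinger-Dyson relation for fine configuration spaces, pair form. -/
theorem sd_pair (N M nc n : ℕ) (hN : 0 < N) (hn : 0 < n) (K A ε : ℝ) (hε : 0 < ε) :
    ∃ δ : ℝ, 0 < δ ∧ ∀ C : Cfg N, Near C δ → ∀ f f' : ℕ → ℝ → ℝ, (∀ a, Sm K (f a) (f' a)) →
      ∀ s : Fin nc → ℝ, (∀ g, |s g| ≤ A) → ∀ k, k ≤ nc * n →
      |∫ G, pE (QQ C nc n f G s) ((fil C nc n).F k) (PsiP C f' G s) ∂(gam M N)| ≤ ε := by
  obtain ⟨I, hI⟩ : ∃ I, I = ∫ G : Fin M → Fin N → ℝ, HG G ^ 3 ∂(gam M N) := ⟨_, rfl⟩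
  have hI0 : 0 ≤ I := by
    rw [hI]
    exact integral_nonneg fun G => pow_nonneg (by linarith [one_le_HG G]) 3
  obtain ⟨D, hD⟩ : ∃ D, D = Real.exp (BU N nc n M K A) * (|CSD N nc n M K A| + 1) := ⟨_, rfl⟩
  have hD0 : 0 < D := by rw [hD]; positivity
  obtain ⟨δ, hδ⟩ : ∃ δ, δ = ε / (D * (I + 1)) := ⟨_, rfl⟩
  have hδ0 : 0 < δ := by rw [hδ]; positivity
  refine ⟨δ, hδ0, ?_⟩
  intro C hC f f' hf s hs k hk
  have h1 : ∀ G : Fin M → Fin N → ℝ,
      ‖pE (QQ C nc n f G s) ((fil C nc n).F k) (PsiP C f' G s)‖ ≤ D * δ * HG G ^ 3 := by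
    intro G
    have h2 := sd_pair_le C hN hn hδ0.le hC hf G hs hk
    rw [Real.norm_eq_abs]
    refine h2.trans ?_
    have h3 : (CSD N nc n M K A + 1) ≤ |CSD N nc n M K A| + 1 := by
      linarith [le_abs_self (CSD N nc n M K A)]
    have h4 : 0 ≤ HG G ^ 3 := pow_nonneg (by linarith [one_le_HG G]) 3
    have h5 : Real.exp (BU N nc n M K A) * (CSD N nc n M K A + 1) ≤ D := by
      rw [hD]
      exact mul_le_mul_of_nonneg_left h3 (Real.exp_pos _).le
    have h6 : 0 ≤ HG G ^ 3 * δ := mul_nonneg h4 hδ0.le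
    have h7 := mul_le_mul_of_nonneg_right h5 h6
    linarith
  have h5 := norm_integral_le_of_norm_le ((integrable_HG M N).const_mul (D * δ))
    (Filter.Eventually.of_forall h1)
  rw [Real.norm_eq_abs, integral_const_mul] at h5
  refine h5.trans ?_
  rw [← hI]
  have h6 : D * δ * (I + 1) = ε := by
    rw [hδ]; field_simp
  have h7 : 0 ≤ D * δ := by positivity
  linarith

end

end Crest.Agent.R146.S6Sd_290
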