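import Crest.Agent.R146.S6L_988
import Crest.Agent.R146.LimRel_290
import Crest.Agent.R146.S6Sd_290

/-!
Row 146, statement S0206, lower bound (helper290): the Prop `S6L_988.L2IBP` (Gaussian integration
by parts in the limit model), from `LimIbp_290`.
-/

set_option autoImplicit false

namespace Crest.Agent.R146.S6L2_290

open Finset MeasureTheory ProbabilityTheory Crest.Agent.R164.GC
open Crest.Agent.R146.S6Def_988 Crest.Agent.R146.RowDef_874 Crest.Agent.R146.LimIbp_290
open Crest.Agent.R146.LimRel_290 Crest.Agent.R146.CavW_47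
open Crest.Agent.R146.L2Alg_36 Crest.Agent.R146.S6L_988 Crest.Agent.R146.S6Sd_290

noncomputable section

theorem continuous_of_lip {K : ℝ} {g : ℝ → ℝ} (h : ∀ x y, |g x - g y| ≤ K * |x - y|) :
    Continuous g := by
  have hK : 0 ≤ K := by
    have := (abs_nonneg _).trans (h 1 0)
    simpa using this
  have : LipschitzWith K.toNNReal g := by
    refine LipschitzWith.of_dist_le_mul fun x y => ?_
    rw [Real.dist_eq, Real.dist_eq, Real.coe_toNNReal K hK]
    exact h x y
  exact this.continuous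

section S3

variable {K : ℝ} {f f1 f2 : ℝ → ℝ}

theorem S3_nK (h : S3 K f f1 f2) : 0 ≤ K := (abs_nonneg _).trans (h.b0 0)

theorem S3_S2 (h : S3 K f f1 f2) : S2 f f1 f2 K :=
  ⟨h.d1, h.d2, continuous_of_lip h.l2, h.b0, h.b1, h.b2⟩

theorem S3_lip1 (h : S3 K f f1 f2) (x y : ℝ) : |f1 x - f1 y| ≤ K * |x - y| := by
  have := Convex.norm_image_sub_le_of_norm_hasDerivWithin_le (f := f1) (f' := f2) (C := K)
    (s := Set.univ) (x := y) (y := x) (fun z _ => (h.d2 z).hasDerivWithinAt) (fun z _ => h.b2 z)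
    convex_univ (Set.mem_univ _) (Set.mem_univ _)
  simpa [Real.norm_eq_abs] using this

theorem S3_Sm (h : S3 K f f1 f2) : Sm K f f1 := ⟨h.d1, h.b0, h.b1, S3_lip1 h⟩

theorem S3_BL (h : S3 K f f1 f2) : BL K K f := ⟨h.b0, (S3_Sm h).lip⟩

theorem S3_BL1 (h : S3 K f f1 f2) : BL K K f1 := ⟨h.b1, S3_lip1 h⟩

end S3

variable {J : ℕ} {f f1 f2 : ℝ → ℝ} {P : ℕ → ℝ}

/-- the last pair expectation is a single expectation. -/
theorem kapX_top (φ ψ : ℝ → ℝ) : kapX J f P (J + 1) φ ψ =
    cX J f P (J + 2) (fun x => φ x * ψ x) 0 0 := by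
  unfold kapX
  rw [cX_self, cX_self]

theorem kapX_top_eq (φ ψ : ℝ → ℝ) : kapX J f P (J + 1) φ ψ =
    EX J f P (J + 2) (fun x => φ x * ψ x) := kapX_top φ ψ

theorem SX_eq {C : ℝ} (h : S2 f f1 f2 C) : SX J f f1 f2 P =
    kapX J f P (J + 1) f2 (fun _ => 1) + kapX J f P (J + 1) f1 f1 := by
  rw [kapX_top_eq, kapX_top_eq]
  have h1 : SX J f f1 f2 P = EX J f P (J + 2) (fun x => f2 x * 1 + f1 x * f1 x) := by
    unfold SX EX
    congr 1
    funext x
    ring
  rw [h1]
  have h2 : EG (fun x => f2 x * 1) := by simpa using h.B2.eg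
  exact EX_add h le_rfl h2 (h.B1.eg.mul h.B1.eg)

theorem kapX_top_sq : kapX J f P (J + 1) f1 f1 = cX J f P (J + 2) (fun x => f1 x ^ 2) 0 0 := by
  rw [kapX_top]
  congr 1
  funext x
  ring

theorem kapX_mono' {C : ℝ} (h : S2 f f1 f2 C) {i j : ℕ} (hij : i ≤ j) (hj : j ≤ J + 1) :
    kapX J f P i f1 f1 ≤ kapX J f P j f1 f1 := by
  rcases Nat.lt_or_ge j (J + 1) with h1 | h1
  · exact kapX_mono h hij (by omega)
  · have e : j = J + 1 := le_antisymm hj h1
    subst e
    rcases Nat.lt_or_ge i (J + 1) with h2 | h2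
    · refine (kapX_mono h (by omega : i ≤ J) le_rfl).trans ?_
      rw [kapX_top_sq]
      exact kapX_last_le h
    · have e : i = J + 1 := le_antisymm hij h2
      rw [e]

theorem kapX_top_le {C : ℝ} (h : S2 f f1 f2 C) : kapX J f P (J + 1) f1 f1 ≤ C ^ 2 := by
  rw [kapX_top_eq]
  have h1 : BC (fun x => f1 x * f1 x) (C * C) := h.B1.mul h.B1
  have := EX_abs_le (J := J) (P := P) h le_rfl h1
  rw [sq]
  exact (le_abs_self _).trans this

/-- **(L2IBP)** Gaussian integration by parts in the limit model. -/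
theorem l2ibp : L2IBP := by
  intro K f f1 f2 h3 J P hP
  have h := S3_S2 h3
  refine ⟨⟨kapX_nonneg h (Nat.zero_le _), fun i j hij hj => kapX_mono' h hij hj,
    kapX_top_le h⟩, ?_, ?_⟩
  · rw [kapX_top f1 (fun x => x), kap_star h hP, SX_eq h, one_div]
  · intro b hb
    rw [kapX_id h hP hb, sum_swap_b _ hb, SX_eq h, one_div]
    ring

end

end Crest.Agent.R146.S6L2_290
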