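import Crest.Agent.R146.S6L_988
import Crest.Agent.R146.CavInc_769

/-!
Row 146, statement S0206, node (MOM) (helper130): moments of the row fields under the tilted law.
`mom : S6L_988.MOM`.
-/

set_option autoImplicit false

namespace Crest.Agent.R146.S6Mom_130

open Finset MeasureTheory ProbabilityTheory Crest.Agent.R141
open Crest.Agent.R146.S6Def_988 Crest.Agent.R146.S6U_988 Crest.Agent.R146.S6L_988
open Crest.Agent.R146.CavInc_769 (meas_QQ meas_cE meas_eE QQ_isProb prior_isProb xs_pos xs_expo)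

noncomputable section

/-- law of a normalised linear form of a standard Gaussian vector. -/
theorem map_lin {I : Type*} [Fintype I] (u : I → ℝ) (hu : ∑ i, u i ^ 2 = 1) :
    (Measure.pi fun _ : I => gaussianReal 0 1).map (fun x : I → ℝ => ∑ i, x i * u i) =
      gaussianReal 0 1 := by
  have hm : Measurable fun x : I → ℝ => ∑ i, x i * u i := by fun_prop
  have hp : IsProbabilityMeasure ((Measure.pi fun _ : I => gaussianReal 0 1).map
      (fun x : I → ℝ => ∑ i, x i * u i)) := Measure.isProbabilityMeasure_map hm.aemeasurable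
  refine Measure.ext_of_charFun ?_
  funext t
  rw [charFun_gaussianReal, charFun_apply_real, integral_map hm.aemeasurable (by fun_prop)]
  have h1 : ∀ x : I → ℝ, Complex.exp (t * ((∑ i, x i * u i : ℝ) : ℂ) * Complex.I) =
      ∏ i, Complex.exp ((t * u i : ℝ) * (x i : ℂ) * Complex.I) := by
    intro x
    rw [← Complex.exp_sum]
    congr 1
    push_cast
    rw [Finset.mul_sum, Finset.sum_mul]
    refine Finset.sum_congr rfl fun i _ => ?_
    ring
  simp_rw [h1]
  rw [integral_fintype_prod_eq_prod (𝕜 := ℂ)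
    (f := fun (i : I) (s : ℝ) => Complex.exp ((t * u i : ℝ) * (s : ℂ) * Complex.I))]
  have h2 : ∀ i : I, ∫ s, Complex.exp ((t * u i : ℝ) * (s : ℂ) * Complex.I) ∂gaussianReal 0 1 =
      Complex.exp (-((t * u i : ℝ) : ℂ) ^ 2 / 2) := by
    intro i
    have := charFun_gaussianReal (μ := 0) (v := 1) (t * u i)
    rw [charFun_apply_real] at this
    rw [this]
    congr 1
    push_cast
    ring
  simp_rw [h2]
  rw [← Complex.exp_sum]
  congr 1
  push_cast
  rw [← Finset.sum_div, Finset.sum_neg_distrib]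
  have h3 : ∑ i, ((t : ℂ) * (u i : ℂ)) ^ 2 = (t : ℂ) ^ 2 := by
    have h4 : ∑ i, ((t : ℂ) * (u i : ℂ)) ^ 2 = (t : ℂ) ^ 2 * ((∑ i, u i ^ 2 : ℝ) : ℂ) := by
      push_cast
      rw [Finset.mul_sum]
      exact Finset.sum_congr rfl fun i _ => by ring
    rw [h4, hu]; simp
  rw [h3]
  ring

section

variable {N nc n : ℕ} {C : Cfg N}

theorem mp_hh (hN : 0 < N) {M : ℕ} (a : Fin M) (y : C.Y) :
    MeasurePreserving (fun G : Fin M → Fin N → ℝ => hh G a (C.x y)) (gam M N)
      (gaussianReal 0 1) := by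
  have hN0 : (0 : ℝ) < N := by exact_mod_cast hN
  have h1 : MeasurePreserving (Function.eval a) (gam M N)
      (Measure.pi fun _ : Fin N => gaussianReal 0 1) :=
    measurePreserving_eval (fun _ : Fin M => Measure.pi fun _ : Fin N => gaussianReal 0 1) a
  have hu : ∑ i, (C.x y i / Real.sqrt N) ^ 2 = 1 := by
    simp_rw [div_pow, Real.sq_sqrt hN0.le]
    rw [← Finset.sum_div, C.hx y, div_self hN0.ne']
  have h2 : MeasurePreserving (fun g : Fin N → ℝ => ∑ i, g i * (C.x y i / Real.sqrt N))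
      (Measure.pi fun _ : Fin N => gaussianReal 0 1) (gaussianReal 0 1) :=
    ⟨by fun_prop, map_lin _ hu⟩
  exact h2.comp h1

/-- Fubini at one row. -/
theorem fub {m : ℕ} (a : Fin (m + 1)) (φ : (Fin (m + 1) → Fin N → ℝ) → ℝ)
    (F : (Fin N → ℝ) → ℝ)
    (hφ : ∀ r r' G', φ (a.insertNth r G') = φ (a.insertNth r' G')) :
    ∫ G, φ G * F (G a) ∂(gam (m + 1) N) =
      (∫ G, φ G ∂(gam (m + 1) N)) * ∫ g, F g ∂(Measure.pi fun _ : Fin N => gaussianReal 0 1) := by
  set μ : Measure (Fin N → ℝ) := Measure.pi fun _ : Fin N => gaussianReal 0 1 with hμ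
  have hmp := measurePreserving_piFinSuccAbove (fun _ : Fin (m + 1) => μ) a
  set e := MeasurableEquiv.piFinSuccAbove (fun _ : Fin (m + 1) => (Fin N → ℝ)) a with he
  have hs : ∀ p : (Fin N → ℝ) × (Fin m → Fin N → ℝ), e.symm p = a.insertNth p.1 p.2 :=
    fun p => rfl
  have key : ∀ g : (Fin (m + 1) → Fin N → ℝ) → ℝ, ∫ G, g G ∂(gam (m + 1) N) =
      ∫ p, g (e.symm p) ∂(μ.prod (Measure.pi fun _ : Fin m => μ)) := by
    intro g
    have h := hmp.integral_comp' (g := fun p => g (e.symm p))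
    rw [← h]
    refine integral_congr_ae (ae_of_all _ fun G => ?_)
    show g G = g (e.symm (e G))
    rw [e.symm_apply_apply]
  have hφ0 : ∀ p : (Fin N → ℝ) × (Fin m → Fin N → ℝ), φ (e.symm p) =
      φ (a.insertNth 0 p.2) := fun p => by rw [hs]; exact hφ _ _ _
  rw [key, key]
  have e1 : ∀ p : (Fin N → ℝ) × (Fin m → Fin N → ℝ), φ (e.symm p) * F ((e.symm p) a) =
      F p.1 * φ (a.insertNth 0 p.2) := fun p => by
    rw [hφ0, hs, Fin.insertNth_apply_same, mul_comm]
  have e2 : ∀ p : (Fin N → ℝ) × (Fin m → Fin N → ℝ), φ (e.symm p) =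
      (fun _ : Fin N → ℝ => (1 : ℝ)) p.1 * φ (a.insertNth 0 p.2) := fun p => by
    rw [hφ0]; simp
  simp_rw [e1]
  rw [integral_prod_mul (μ := μ) (ν := Measure.pi fun _ : Fin m => μ) F
    (fun G' => φ (a.insertNth 0 G'))]
  have e3 : ∫ p, φ (e.symm p) ∂(μ.prod (Measure.pi fun _ : Fin m => μ)) =
      ∫ G', φ (a.insertNth 0 G') ∂(Measure.pi fun _ : Fin m => μ) := by
    simp_rw [e2]
    rw [integral_prod_mul (μ := μ) (ν := Measure.pi fun _ : Fin m => μ) (fun _ => (1 : ℝ))
      (fun G' => φ (a.insertNth 0 G'))]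
    simp
  rw [e3, mul_comm]

/-- the row functions with the row `a` removed -/
def rm (f : ℕ → ℝ → ℝ) (a : ℕ) : ℕ → ℝ → ℝ := fun b => if b = a then fun _ => 0 else f b

theorem UU_split {M : ℕ} (f : ℕ → ℝ → ℝ) (G : Fin M → Fin N → ℝ) (s : Fin nc → ℝ) (a : Fin M) :
    UU (C := C) (n := n) f G s = fun w => UU (rm f a) G s w + f a (hh G a (C.x w.1)) := by
  funext w
  unfold UU rowE rm hh
  rw [← Finset.add_sum_erase _ _ (Finset.mem_univ a),
    ← Finset.add_sum_erase (Finset.univ : Finset (Fin M)) (fun b : Fin M =>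
      (if (b : ℕ) = (a : ℕ) then fun _ => (0 : ℝ) else f b)
        (∑ i, G b i * (C.x w.1 i / Real.sqrt N))) (Finset.mem_univ a)]
  have h : ∑ b ∈ (Finset.univ : Finset (Fin M)).erase a,
      (if (b : ℕ) = (a : ℕ) then fun _ => (0 : ℝ) else f b)
        (∑ i, G b i * (C.x w.1 i / Real.sqrt N)) =
      ∑ b ∈ (Finset.univ : Finset (Fin M)).erase a, f b
        (∑ i, G b i * (C.x w.1 i / Real.sqrt N)) := by
    refine Finset.sum_congr rfl fun b hb => ?_
    rw [if_neg fun h => (Finset.ne_of_mem_erase hb) (Fin.ext h)]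
  rw [h, if_pos rfl]
  ring

theorem UU_rm {m : ℕ} (f : ℕ → ℝ → ℝ) (s : Fin nc → ℝ) (a : Fin (m + 1)) (r r' : Fin N → ℝ)
    (G' : Fin m → Fin N → ℝ) :
    UU (C := C) (n := n) (rm f a) (a.insertNth r G') s =
      UU (rm f a) (a.insertNth r' G') s := by
  funext w
  unfold UU rowE rm
  rw [Fin.sum_univ_succAbove _ a, Fin.sum_univ_succAbove _ a]
  simp

theorem QQ_le {M : ℕ} {f : ℕ → ℝ → ℝ} {K : ℝ} (hK : ∀ a x, |f a x| ≤ K)
    (G : Fin M → Fin N → ℝ) (s : Fin nc → ℝ) (a : Fin M) {g : Om C nc n → ℝ}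
    (hg : ∀ ω, 0 ≤ g ω) :
    eE (QQ C nc n f G s) g ≤ Real.exp (2 * K) * eE (QQ C nc n (rm f a) G s) g := by
  have hadd := tl_add (𝓕 := fil C nc n) (x := xs nc n) (prior_isProb C nc n) (xs_pos nc n)
    (UU (rm f a) G s) (fun w => f a (hh G a (C.x w.1)))
  have e : QQ C nc n f G s = tl (QQ C nc n (rm f a) G s) (fil C nc n) (xs nc n)
      (fun w => f a (hh G a (C.x w.1))) := by
    unfold QQ
    rw [← hadd, UU_split f G s a]
  rw [e]
  exact eE_tl_le (QQ_isProb (rm f a) G s) (xs_expo nc n) (fun ω => hK _ _) hg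

end

theorem mom : MOM := by
  intro K N nc n hN hn C f M s hf hK a F hF hF0 hFi
  have hmhh : ∀ x : Fin N → ℝ, Measurable fun G : Fin M → Fin N → ℝ => hh G a x := by
    intro x
    unfold hh
    refine Finset.measurable_sum _ fun i _ => ?_
    exact ((measurable_pi_apply i).comp (measurable_pi_apply a)).mul_const _
  have hQ1 : ∀ (h : ℕ → ℝ → ℝ) (G : Fin M → Fin N → ℝ) (ω : Om C nc n),
      QQ C nc n h G s ω ≤ 1 := by
    intro h G ω
    have hp := QQ_isProb (C := C) (n := n) h G s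
    rw [← hp.sum]
    exact Finset.single_le_sum (fun i _ => (hp.pos i).le) (Finset.mem_univ ω)
  have hint : ∀ (h : ℕ → ℝ → ℝ), (∀ b, Measurable (h b)) → ∀ ω : Om C nc n,
      Integrable (fun G : Fin M → Fin N → ℝ => QQ C nc n h G s ω * F (hh G a (C.x ω.1)))
        (gam M N) := by
    intro h hh' ω
    have h1 : Integrable (fun G : Fin M → Fin N → ℝ => F (hh G a (C.x ω.1))) (gam M N) :=
      (mp_hh hN a ω.1).integrable_comp_of_integrable hFi
    refine h1.mono' ((meas_QQ hh' s ω).mul (hF.comp (hmhh _))).aestronglyMeasurable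
      (ae_of_all _ fun G => ?_)
    have hp := QQ_isProb (C := C) (n := n) h G s
    rw [Real.norm_eq_abs, abs_of_nonneg (mul_nonneg (hp.pos ω).le (hF0 _))]
    have := mul_le_mul_of_nonneg_right (hQ1 h G ω) (hF0 (hh G a (C.x ω.1)))
    rwa [one_mul] at this
  have hrm : ∀ b, Measurable (rm f a b) := by
    intro b
    unfold rm
    split_ifs
    · exact measurable_const
    · exact hf b
  have hI : Integrable (fun G => eE (QQ C nc n (M := M) f G s) (fun ω => F (hh G a (C.x ω.1))))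
      (gam M N) := by
    unfold eE
    exact integrable_finsetSum _ fun ω _ => hint f hf ω
  refine ⟨hI, ?_⟩
  have hI' : Integrable (fun G => eE (QQ C nc n (M := M) (rm f a) G s)
      (fun ω => F (hh G a (C.x ω.1)))) (gam M N) := by
    unfold eE
    exact integrable_finsetSum _ fun ω _ => hint (rm f a) hrm ω
  have hF00 : 0 ≤ ∫ x, F x ∂gaussianReal 0 1 := integral_nonneg hF0
  -- the value without the row
  have hval : ∫ G, eE (QQ C nc n (M := M) (rm f a) G s) (fun ω => F (hh G a (C.x ω.1)))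
      ∂(gam M N) = ∫ x, F x ∂gaussianReal 0 1 := by
    have : IsProbabilityMeasure (gam M N) := by unfold gam; infer_instance
    have h1 : ∀ ω : Om C nc n, ∫ G, QQ C nc n (M := M) (rm f a) G s ω *
        F (hh G a (C.x ω.1)) ∂(gam M N) =
        (∫ G, QQ C nc n (M := M) (rm f a) G s ω ∂(gam M N)) * ∫ x, F x ∂gaussianReal 0 1 := by
      intro ω
      obtain ⟨m, rfl⟩ : ∃ m, M = m + 1 := ⟨M - 1, by have := a.2; omega⟩
      have h2 := fub a (fun G => QQ C nc n (rm f a) G s ω)
        (fun g : Fin N → ℝ => F (∑ i, g i * (C.x ω.1 i / Real.sqrt N))) (fun r r' G' => by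
          show QQ C nc n (rm f a) (a.insertNth r G') s ω =
            QQ C nc n (rm f a) (a.insertNth r' G') s ω
          unfold QQ
          rw [UU_rm f s a r r' G'])
      have h3 : ∫ g, F (∑ i, g i * (C.x ω.1 i / Real.sqrt N))
          ∂(Measure.pi fun _ : Fin N => gaussianReal 0 1) = ∫ x, F x ∂gaussianReal 0 1 := by
        have hN0 : (0 : ℝ) < N := by exact_mod_cast hN
        have hu : ∑ i, (C.x ω.1 i / Real.sqrt N) ^ 2 = 1 := by
          simp_rw [div_pow, Real.sq_sqrt hN0.le]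
          rw [← Finset.sum_div, C.hx ω.1, div_self hN0.ne']
        have hm : Measurable fun g : Fin N → ℝ => ∑ i, g i * (C.x ω.1 i / Real.sqrt N) := by
          fun_prop
        conv_rhs => rw [← map_lin _ hu]
        rw [integral_map hm.aemeasurable hF.aestronglyMeasurable]
      rw [h3] at h2
      exact h2
    unfold eE
    rw [integral_finsetSum _ fun ω _ => hint (rm f a) hrm ω]
    simp_rw [h1]
    rw [← Finset.sum_mul, ← integral_finsetSum]
    · have h2 : ∀ G : Fin M → Fin N → ℝ, ∑ ω : Om C nc n, QQ C nc n (rm f a) G s ω = 1 :=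
        fun G => (QQ_isProb (rm f a) G s).sum
      simp_rw [h2]
      simp
    · intro ω _
      refine Integrable.of_bound (C := 1) (meas_QQ hrm s ω).aestronglyMeasurable
        (ae_of_all _ fun G => ?_)
      rw [Real.norm_eq_abs, abs_of_nonneg ((QQ_isProb (C := C) (n := n) (rm f a) G s).pos ω).le]
      exact hQ1 _ G ω
  have hle : ∫ G, eE (QQ C nc n (M := M) f G s) (fun ω => F (hh G a (C.x ω.1))) ∂(gam M N) ≤
      ∫ G, Real.exp (2 * K) * eE (QQ C nc n (M := M) (rm f a) G s)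
        (fun ω => F (hh G a (C.x ω.1))) ∂(gam M N) :=
    integral_mono hI (hI'.const_mul _) fun G => QQ_le hK G s a fun ω => hF0 _
  refine hle.trans ?_
  rw [integral_const_mul, hval]
  have hK0 : 0 ≤ K := (abs_nonneg _).trans (hK 0 0)
  exact mul_le_mul_of_nonneg_right (Real.exp_le_exp.2 (by linarith)) hF00

end

end Crest.Agent.R146.S6Mom_130
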