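import Crest.Agent.R146.S6U_988

/-!
Row 146 (helper988): path algebra for the upper bound.

* `REF`: the entropy functional does not change under refinement of the resolution;
* `coarse_tail`: tails of the fine levels ⇒ tails of the skeleton levels.
-/

set_option autoImplicit false

namespace Crest.Agent.R146.S6Path_988

open Finset
open Crest.Agent.R146.S6Def_988 Crest.Agent.R146.S6U_988

noncomputable section

/-! ### Refinement -/

theorem div_pred {wc k : ℕ} (hk : 0 < k) (h : ¬ wc ∣ k) :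
    (k - 1) / wc = k / wc := by
  obtain ⟨m, rfl⟩ : ∃ m, k = m + 1 := ⟨k - 1, by omega⟩
  rw [Nat.add_sub_cancel, Nat.succ_div_of_not_dvd h]

theorem div_pred_dvd {wc b : ℕ} (hwc : 0 < wc) (hb : 0 < b) : (b * wc - 1) / wc = b - 1 := by
  obtain ⟨m, rfl⟩ : ∃ m, b = m + 1 := ⟨b - 1, by omega⟩
  rw [Nat.add_sub_cancel]
  rw [show (m + 1) * wc - 1 = m * wc + (wc - 1) by rw [add_mul, one_mul]; omega]
  rw [mul_comm m wc, Nat.mul_add_div hwc, Nat.div_eq_of_lt (by omega), add_zero]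

/-- a sum over the levels `k ∈ [a * wc + 1, c * wc)` of a function vanishing off the multiples of
`wc` is a sum over the blocks. -/
theorem sum_blocks (wc : ℕ) (hwc : 0 < wc) (F : ℕ → ℝ) (hF : ∀ k, 0 < k → ¬ wc ∣ k → F k = 0)
    (l c : ℕ) :
    ∑ k ∈ Ico (l + 1) (c * wc), F k = ∑ b ∈ Ico (l / wc + 1) c, F (b * wc) := by
  have hinj : ∀ b ∈ Ico (l / wc + 1) c, ∀ b' ∈ Ico (l / wc + 1) c, b * wc = b' * wc → b = b' :=
    fun b _ b' _ h => Nat.eq_of_mul_eq_mul_right hwc h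
  rw [← Finset.sum_image (f := F) (g := fun b => b * wc) hinj]
  symm
  refine Finset.sum_subset ?_ ?_
  · intro k hk
    rw [Finset.mem_image] at hk
    obtain ⟨b, hb, rfl⟩ := hk
    rw [Finset.mem_Ico] at hb ⊢
    constructor
    · have h1 : l < (l / wc + 1) * wc := by
        rw [add_mul, one_mul]; exact Nat.lt_div_mul_add hwc
      have h2 : (l / wc + 1) * wc ≤ b * wc := Nat.mul_le_mul_right _ hb.1
      omega
    · exact Nat.mul_lt_mul_of_pos_right hb.2 hwc
  · intro k hk hk'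
    refine hF k ?_ ?_
    · rw [Finset.mem_Ico] at hk; omega
    · intro hd
      obtain ⟨b, rfl⟩ := hd
      apply hk'
      rw [Finset.mem_image]
      rw [Finset.mem_Ico] at hk
      refine ⟨b, ?_, mul_comm _ _⟩
      rw [Finset.mem_Ico]
      constructor
      · rw [Nat.succ_le_iff, Nat.div_lt_iff_lt_mul hwc, mul_comm b wc]; omega
      · have : wc * b < wc * c := by rw [mul_comm wc c]; exact hk.2
        exact lt_of_mul_lt_mul_left this (Nat.zero_le _)

theorem DP_ref (J wc nc : ℕ) (hwc : 0 < wc) (hnc : nc + 1 = (J + 1) * wc) (P : ℕ → ℝ) (l : ℕ)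
    (_hl : l ≤ nc) : DP nc (fun k => P (k / wc)) l = DP J P (l / wc) := by
  unfold DP
  have hncw : nc / wc = J := by
    have h1 : nc = J * wc + (wc - 1) := by
      rw [add_mul, one_mul] at hnc; omega
    rw [h1, mul_comm J wc, Nat.mul_add_div hwc, Nat.div_eq_of_lt (by omega), add_zero]
  simp only [hncw]
  congr 1
  rw [hnc]
  rw [sum_blocks wc hwc _ ?_ l (J + 1)]
  · refine Finset.sum_congr rfl fun b hb => ?_
    rw [Finset.mem_Ico] at hb
    have hb0 : 0 < b := lt_of_lt_of_le (Nat.succ_pos _) hb.1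
    rw [div_pred_dvd hwc hb0, Nat.mul_div_cancel _ hwc]
    have h1 : ((nc : ℝ) + 1) = ((J : ℝ) + 1) * wc := by exact_mod_cast hnc
    rw [h1]
    have h2 : (wc : ℝ) ≠ 0 := by positivity
    have h3 : ((J : ℝ) + 1) ≠ 0 := by positivity
    push_cast
    field_simp
  · intro k hk hd
    rw [div_pred hk hd]; simp

/-- **refinement of the entropy functional** -/
theorem SP_ref (J wc nc : ℕ) (hwc : 0 < wc) (hnc : nc + 1 = (J + 1) * wc) (P : ℕ → ℝ) :
    SP nc (fun k => P (k / wc)) = SP J P := by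
  have hncw : nc / wc = J := by
    have h1 : nc = J * wc + (wc - 1) := by
      rw [add_mul, one_mul] at hnc; omega
    rw [h1, mul_comm J wc, Nat.mul_add_div hwc, Nat.div_eq_of_lt (by omega), add_zero]
  unfold SP
  rw [DP_ref J wc nc hwc hnc P 0 (Nat.zero_le _), DP_ref J wc nc hwc hnc P nc le_rfl, hncw]
  simp only [Nat.zero_div]
  congr 2
  congr 1
  rw [hnc]
  have := sum_blocks wc hwc (fun j => ((nc : ℝ) + 1) / j *
    Real.log (DP nc (fun k => P (k / wc)) (j - 1) / DP nc (fun k => P (k / wc)) j)) ?_ 0 (J + 1)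
  · rw [zero_add, Nat.zero_div, zero_add] at this
    rw [this]
    refine Finset.sum_congr rfl fun b hb => ?_
    rw [Finset.mem_Ico] at hb
    have hb0 : 0 < b := by omega
    have hle : b * wc ≤ nc := by
      have : b * wc ≤ J * wc := Nat.mul_le_mul_right _ (by omega)
      rw [add_mul, one_mul] at hnc; omega
    rw [DP_ref J wc nc hwc hnc P _ (by omega), DP_ref J wc nc hwc hnc P _ hle,
      div_pred_dvd hwc hb0, Nat.mul_div_cancel _ hwc]
    have h1 : ((nc : ℝ) + 1) = ((J : ℝ) + 1) * wc := by exact_mod_cast hnc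
    rw [h1]
    have h2 : (wc : ℝ) ≠ 0 := by positivity
    have h3 : (b : ℝ) ≠ 0 := by positivity
    push_cast
    field_simp
  · intro k hk hd
    have e : DP nc (fun k => P (k / wc)) (k - 1) = DP nc (fun k => P (k / wc)) k := by
      unfold DP
      congr 1
      rw [Nat.sub_add_cancel hk]
      rcases le_or_gt (k + 1) (nc + 1) with h | h
      · rw [Finset.sum_eq_sum_Ico_succ_bot (by omega : k < nc + 1)]
        have h9 := div_pred hk hd
        simp only [h9]
        simp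
      · rw [Finset.Ico_eq_empty_of_le (by omega : nc + 1 ≤ k),
          Finset.Ico_eq_empty_of_le (by omega : nc + 1 ≤ k + 1)]
    show ((nc : ℝ) + 1) / k * Real.log (DP nc (fun k => P (k / wc)) (k - 1) /
      DP nc (fun k => P (k / wc)) k) = 0
    rw [e]
    rcases eq_or_ne (DP nc (fun k => P (k / wc)) k) 0 with h | h
    · rw [h]; simp
    · rw [div_self h]; simp

/-! ### Tails -/

/-- sum over a block -/
theorem sum_block_eq (wc : ℕ) (F : ℕ → ℝ) (j0 J : ℕ) (h : j0 ≤ J) :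
    ∑ l ∈ Ico (j0 * wc) (J * wc), F l = ∑ b ∈ Ico j0 J, ∑ t ∈ range wc, F (b * wc + t) := by
  induction J, h using Nat.le_induction with
  | base => simp
  | succ J hJ ih =>
    rw [Finset.sum_Ico_succ_top hJ, ← ih]
    rw [← Finset.sum_Ico_consecutive F (Nat.mul_le_mul_right wc hJ)
      (Nat.mul_le_mul_right wc (Nat.le_succ J))]
    congr 1
    rw [Finset.sum_Ico_eq_sum_range]
    rw [show (J + 1) * wc - J * wc = wc by rw [add_mul, one_mul]; omega]

/-- **fine tails ⇒ skeleton tails.** -/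
theorem coarse_tail {J wc nc : ℕ} (hwc : 0 < wc) (hnc : nc + 1 = (J + 1) * wc) {P R Pb : ℕ → ℝ}
    (hP1 : P 0 ≤ 1) (hR0 : ∀ l, 0 ≤ R l) (hR1 : ∀ l, R l ≤ 1) (hRm : Monotone R)
    (hPb : ∀ b ≤ J, R (b * wc) ≤ Pb b) (hPb0 : ∀ b ≤ J, 0 ≤ Pb b) {e : ℝ} (he : 0 ≤ e)
    (htail : ∀ g < nc, tl1 nc (fun l => P (l / wc)) g ≤ tl1 nc R g + e) :
    ∀ j0 ≤ J, 1 / ((J : ℝ) + 1) * ∑ j ∈ Ico j0 (J + 1), P j ≤
      1 / ((J : ℝ) + 1) * ∑ j ∈ Ico j0 (J + 1), Pb j + (2 / ((J : ℝ) + 1) + e) := by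
  intro j0 hj0
  have hwcR : (0 : ℝ) < wc := by exact_mod_cast hwc
  have hJ1 : (0 : ℝ) < (J : ℝ) + 1 := by positivity
  have hncR : ((nc : ℝ) + 1) = ((J : ℝ) + 1) * wc := by exact_mod_cast hnc
  -- the sum of the target levels
  have hq : ∀ i ≤ J, ∑ l ∈ Ico (i * wc) (nc + 1), P (l / wc) = wc * ∑ j ∈ Ico i (J + 1), P j := by
    intro i hi
    rw [hnc, sum_block_eq wc (fun l => P (l / wc)) i (J + 1) (by omega), Finset.mul_sum]
    refine Finset.sum_congr rfl fun b _ => ?_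
    have : ∀ t ∈ range wc, P ((b * wc + t) / wc) = P b := by
      intro t ht
      rw [Finset.mem_range] at ht
      rw [mul_comm b wc, Nat.mul_add_div hwc, Nat.div_eq_of_lt ht, add_zero]
    rw [Finset.sum_congr rfl this]
    simp
  -- the sum of the fine levels
  have hR : ∀ i ≤ J, ∑ l ∈ Ico (i * wc) (nc + 1), R l ≤ wc * (∑ j ∈ Ico i (J + 1), Pb j + 1) := by
    intro i hi
    rw [hnc, sum_block_eq wc R i (J + 1) (by omega), Finset.sum_Ico_succ_top hi]
    have h1 : ∑ b ∈ Ico i J, ∑ t ∈ range wc, R (b * wc + t) ≤ ∑ b ∈ Ico i J, wc * Pb (b + 1) := by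
      refine Finset.sum_le_sum fun b hb => ?_
      rw [Finset.mem_Ico] at hb
      have h2 : ∀ t ∈ range wc, R (b * wc + t) ≤ Pb (b + 1) := by
        intro t ht
        rw [Finset.mem_range] at ht
        refine (hRm ?_).trans (hPb (b + 1) (by omega))
        rw [add_mul, one_mul]; omega
      refine (Finset.sum_le_sum h2).trans (le_of_eq ?_)
      simp
    have h2 : ∑ t ∈ range wc, R (J * wc + t) ≤ wc := by
      refine (Finset.sum_le_sum fun t _ => hR1 _).trans (le_of_eq ?_)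
      simp
    have h3 : ∑ b ∈ Ico i J, (wc : ℝ) * Pb (b + 1) = wc * ∑ j ∈ Ico (i + 1) (J + 1), Pb j := by
      rw [Finset.mul_sum, Finset.sum_Ico_add' (fun j => (wc : ℝ) * Pb j) i J 1]
    have h4 : ∑ j ∈ Ico (i + 1) (J + 1), Pb j ≤ ∑ j ∈ Ico i (J + 1), Pb j := by
      rw [Finset.sum_eq_sum_Ico_succ_bot (by omega : i < J + 1)]
      linarith [hPb0 i hi]
    nlinarith
  -- tails
  have htl : ∀ (F : ℕ → ℝ) (i : ℕ), 0 < i → i * wc ≤ nc →
      tl1 nc F (i * wc - 1) = 1 / ((nc : ℝ) + 1) * ∑ l ∈ Ico (i * wc) (nc + 1), F l := by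
    intro F i hi _
    unfold tl1
    congr 1
    refine Finset.sum_congr ?_ fun _ _ => rfl
    ext l
    have : 0 < i * wc := by positivity
    simp only [Finset.mem_Ioc, Finset.mem_Ico]
    omega
  rcases Nat.eq_zero_or_pos j0 with h0 | h0
  · subst h0
    have h1 := hq 0 (Nat.zero_le _)
    have h2 := hR 0 (Nat.zero_le _)
    rw [zero_mul] at h1 h2
    rw [Finset.sum_eq_sum_Ico_succ_bot (by omega : 0 < nc + 1)] at h1 h2
    simp only [Nat.zero_div] at h1
    rcases Nat.eq_zero_or_pos nc with hn | hn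
    · -- one level only
      have hJ0 : J = 0 := by
        rw [hn] at hnc
        by_contra hJ
        have : 2 ≤ (J + 1) * wc := by nlinarith [Nat.pos_of_ne_zero hJ]
        omega
      subst hJ0
      simp
      have := hPb0 0 le_rfl
      linarith
    · have h3 := htail 0 hn
      unfold tl1 at h3
      have e1 : Ioc 0 nc = Ico (0 + 1) (nc + 1) := by
        ext l; simp only [Finset.mem_Ioc, Finset.mem_Ico]; omega
      rw [e1] at h3
      have h5 := hR0 0
      have h6 : 1 / ((J : ℝ) + 1) * ∑ j ∈ Ico 0 (J + 1), P j =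
          1 / ((nc : ℝ) + 1) * (P 0 + ∑ k ∈ Ico (0 + 1) (nc + 1), P (k / wc)) := by
        rw [h1, hncR]; field_simp
      have h7 : 1 / ((nc : ℝ) + 1) * ∑ k ∈ Ico (0 + 1) (nc + 1), R k ≤
          1 / ((J : ℝ) + 1) * (∑ j ∈ Ico 0 (J + 1), Pb j + 1) := by
        rw [hncR]
        have h8 : ∑ k ∈ Ico (0 + 1) (nc + 1), R k ≤ wc * (∑ j ∈ Ico 0 (J + 1), Pb j + 1) := by
          linarith
        calc 1 / (((J : ℝ) + 1) * wc) * ∑ k ∈ Ico (0 + 1) (nc + 1), R k ≤
            1 / (((J : ℝ) + 1) * wc) * (wc * (∑ j ∈ Ico 0 (J + 1), Pb j + 1)) := by gcongr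
          _ = _ := by field_simp
      have h9 : 1 / ((nc : ℝ) + 1) * P 0 ≤ 1 / ((J : ℝ) + 1) := by
        have h10 : ((J : ℝ) + 1) ≤ (nc : ℝ) + 1 := by
          rw [hncR]
          have : (1 : ℝ) ≤ wc := by exact_mod_cast hwc
          nlinarith
        calc 1 / ((nc : ℝ) + 1) * P 0 ≤ 1 / ((nc : ℝ) + 1) * 1 := by gcongr
          _ ≤ 1 / ((J : ℝ) + 1) * 1 := by gcongr
          _ = _ := mul_one _
      rw [h6, mul_add]
      have h11 : 1 / ((J : ℝ) + 1) * (∑ j ∈ Ico 0 (J + 1), Pb j + 1) =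
          1 / ((J : ℝ) + 1) * ∑ j ∈ Ico 0 (J + 1), Pb j + 1 / ((J : ℝ) + 1) := by ring
      have h12 : 2 / ((J : ℝ) + 1) = 1 / ((J : ℝ) + 1) + 1 / ((J : ℝ) + 1) := by ring
      linarith
  · have hle : j0 * wc ≤ nc := by
      have : j0 * wc ≤ J * wc := Nat.mul_le_mul_right _ hj0
      rw [add_mul, one_mul] at hnc; omega
    have hlt : j0 * wc - 1 < nc := by
      have : 0 < j0 * wc := by positivity
      omega
    have h3 := htail _ hlt
    rw [htl _ j0 h0 hle, htl _ j0 h0 hle, hq j0 hj0] at h3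
    have h2 := hR j0 hj0
    have h6 : 1 / ((nc : ℝ) + 1) * (wc * ∑ j ∈ Ico j0 (J + 1), P j) =
        1 / ((J : ℝ) + 1) * ∑ j ∈ Ico j0 (J + 1), P j := by
      rw [hncR]; field_simp
    have h7 : 1 / ((nc : ℝ) + 1) * ∑ k ∈ Ico (j0 * wc) (nc + 1), R k ≤
        1 / ((J : ℝ) + 1) * (∑ j ∈ Ico j0 (J + 1), Pb j + 1) := by
      rw [hncR]
      calc 1 / (((J : ℝ) + 1) * wc) * ∑ k ∈ Ico (j0 * wc) (nc + 1), R k ≤
          1 / (((J : ℝ) + 1) * wc) * (wc * (∑ j ∈ Ico j0 (J + 1), Pb j + 1)) := by gcongr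
        _ = _ := by field_simp
    rw [h6] at h3
    have h11 : 1 / ((J : ℝ) + 1) * (∑ j ∈ Ico j0 (J + 1), Pb j + 1) =
        1 / ((J : ℝ) + 1) * ∑ j ∈ Ico j0 (J + 1), Pb j + 1 / ((J : ℝ) + 1) := by ring
    have h12 : 2 / ((J : ℝ) + 1) = 1 / ((J : ℝ) + 1) + 1 / ((J : ℝ) + 1) := by ring
    have h13 : 0 ≤ 1 / ((J : ℝ) + 1) := by positivity
    linarith

end

end Crest.Agent.R146.S6Path_988
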