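import Crest.Agent.R146.S6L_988
import Crest.Agent.R146.S6Sd_290
import Crest.Agent.R146.LimRel_290
import Crest.Agent.R146.S6Ovl_382
import Crest.Agent.R146.S6Trans_944

/-!
Row 146, S0206, lower bound, task S6L-REL (helper42): the relations (L2) between the levels `P`
and `T` (`S6L_988.REL`) from `RO` (row observables), `FLD` (norm of the fields), the
Schwinger-Dyson relation `S6Sd_290.sd_pair` and the limit model (`LimRel_290.rel_eq`).

* `psi_id`    : `N⁻¹ PsiP(u, v)` in terms of the overlap and of the row statistics `RS`;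
* `rel_row`   : the relation for one matrix of rows `G`;
* `rel_of'`   : `RO → FLD → REL`;  `rel_of` : `RO → FLD → L2IBP → REL`.
-/

set_option autoImplicit false

namespace Crest.Agent.R146.S6Rel_42

open Finset MeasureTheory ProbabilityTheory
open Crest.Agent.R141 hiding prior UU
open Crest.Agent.R146.S6Def_988 Crest.Agent.R146.S6U_988 Crest.Agent.R146.S6L_988
open Crest.Agent.R146.RowDef_874
open Crest.Agent.R146.L2Alg_36 (rel)
open Crest.Agent.R146.S6Ovl_382 (QQ_isProb measurable_QQ)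
open Crest.Agent.R146.S6Trans_944 (pE_const pE_add pE_smul pE_fst pE_nonneg)

noncomputable section

/-! ### Conversions of the smoothness structures -/

section conv

variable {K : ℝ} {f f1 f2 : ℝ → ℝ}

theorem nK (h : S3 K f f1 f2) : 0 ≤ K := (abs_nonneg _).trans (h.b0 0)

theorem lip_of {g g' : ℝ → ℝ} (hd : ∀ x, HasDerivAt g (g' x) x) (hb : ∀ x, |g' x| ≤ K) (x y : ℝ) :
    |g x - g y| ≤ K * |x - y| := by
  have := Convex.norm_image_sub_le_of_norm_hasDerivWithin_le (f := g) (f' := g') (C := K)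
    (s := Set.univ) (x := y) (y := x) (fun z _ => (hd z).hasDerivWithinAt) (fun z _ => hb z)
    convex_univ (Set.mem_univ _) (Set.mem_univ _)
  simpa [Real.norm_eq_abs] using this

theorem toS2 (h : S3 K f f1 f2) : LimIbp_290.S2 f f1 f2 K where
  d1 := h.d1
  d2 := h.d2
  c2 := by
    refine (LipschitzWith.of_dist_le_mul (K := Real.toNNReal K) fun x y => ?_).continuous
    rw [Real.dist_eq, Real.dist_eq, Real.coe_toNNReal _ (nK h)]
    exact h.l2 x y
  b0 := h.b0
  b1 := h.b1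
  b2 := h.b2

theorem toSm (h : S3 K f f1 f2) : S6Sd_290.Sm K f f1 where
  d := h.d1
  b0 := h.b0
  b1 := h.b1
  l1 := lip_of h.d2 h.b2

theorem toBL0 (h : S3 K f f1 f2) : BL K K f := ⟨h.b0, lip_of h.d1 h.b1⟩

theorem toBL1 (h : S3 K f f1 f2) : BL (max K 1) (max K 1) f1 where
  bd x := (h.b1 x).trans (le_max_left _ _)
  lip x y := (lip_of h.d2 h.b2 x y).trans
    (mul_le_mul_of_nonneg_right (le_max_left _ _) (abs_nonneg _))

end conv

/-! ### The levels of a skeleton -/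

section lev

variable {N : ℕ} {C : Cfg N} {nc n M J wc : ℕ} {f : ℝ → ℝ} {s : Fin nc → ℝ} {τ : ℕ → ℕ} {ε : ℝ}

theorem skel_lt (h : Skel C nc n (fun _ => f) M s J wc τ ε) {i j : ℕ} (hij : i ≤ j) (hj : j ≤ J) :
    τ i ≤ τ j := by
  rcases Nat.lt_or_ge i j with h1 | h1
  · have h2 := (h.blk i (hij.trans hj)).2
    have h3 := (h.blk j hj).1
    refine (h2.le.trans ?_).trans h3
    refine S6Ovl_382.st_mono n ?_
    have h4 : (i + 1) * wc ≤ j * wc := Nat.mul_le_mul_right _ h1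
    have h5 : (i + 1) * wc = i * wc + wc := by ring
    omega
  · have : i = j := le_antisymm hij h1
    rw [this]

theorem lev_PR (hN : 0 < N) (hf : Measurable f) (h : Skel C nc n (fun _ => f) M s J wc τ ε) :
    Lev J (PR C nc n f M s τ) where
  nonneg := S6Ovl_382.Rk_nonneg C nc n (fun _ => f) s (τ 0)
  mono _ _ hij hj := S6Ovl_382.Rk_mono C nc n s hN (fun _ => hf) (skel_lt h hij hj)
  le_one := S6Ovl_382.Rk_le_one C nc n s hN (fun _ => hf) (τ J)

end lev

/-! ### Bound of `κ_*` -/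

theorem kstar_le {K : ℝ} {f f1 f2 : ℝ → ℝ} (h : S3 K f f1 f2) {J : ℕ} {P : ℕ → ℝ} (hP : Lev J P) :
    |cX J f P (J + 2) (fun x => f1 x * x) 0 0| ≤ K + 2 * K ^ 2 := by
  have h2 := toS2 h
  rw [LimIbp_290.kap_star h2 hP]
  have hS : |LimIbp_290.SX J f f1 f2 P| ≤ K + K ^ 2 := by
    refine LimIbp_290.EX_abs_le (J := J) (P := P) h2 (le_refl (J + 2))
      (g := fun x => f2 x + f1 x ^ 2) ?_
    refine ⟨h2.c2.add (h2.c1.pow 2), fun x => ?_⟩
    refine (abs_add_le _ _).trans (add_le_add (h.b2 x) ?_)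
    rw [abs_pow]
    exact pow_le_pow_left₀ (abs_nonneg _) (h.b1 x) 2
  have hT : |((J : ℝ) + 1)⁻¹ * ∑ l ∈ range (J + 1), P l * kapX J f P l f1 f1| ≤ K ^ 2 := by
    have h0 : ∀ l ∈ range (J + 1), 0 ≤ P l * kapX J f P l f1 f1 := by
      intro l hl
      rw [mem_range] at hl
      exact mul_nonneg (hP.nonneg.trans (hP.mono 0 l (Nat.zero_le _) (by omega)))
        (LimIbp_290.kapX_nonneg h2 (by omega))
    have h1 : ∀ l ∈ range (J + 1), P l * kapX J f P l f1 f1 ≤ K ^ 2 := by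
      intro l hl
      rw [mem_range] at hl
      have h3 := LimIbp_290.kapX_le (P := P) h2 (show l ≤ J by omega)
      have h4 := LimIbp_290.kapX_nonneg (P := P) h2 (show l ≤ J by omega)
      have h5 : P l ≤ 1 := (hP.mono l J (by omega) le_rfl).trans hP.le_one
      calc P l * kapX J f P l f1 f1 ≤ 1 * kapX J f P l f1 f1 :=
            mul_le_mul_of_nonneg_right h5 h4
        _ ≤ K ^ 2 := by rw [one_mul]; exact h3
    have h6 := sum_le_sum h1
    rw [sum_const, card_range, nsmul_eq_mul] at h6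
    rw [abs_of_nonneg (mul_nonneg (by positivity) (sum_nonneg h0)), inv_mul_le_iff₀ (by positivity)]
    refine h6.trans (le_of_eq ?_)
    push_cast
    ring
  refine (abs_sub _ _).trans ?_
  linarith

/-! ### The relation for one matrix of rows -/

section row

variable {N : ℕ} (C : Cfg N) (nc n : ℕ) {M : ℕ}

theorem ovl_abs_le (hN : 0 < N) (u v : Om C nc n) : |ovl C nc n u v| ≤ 1 := by
  have hN0 : (0 : ℝ) < N := by exact_mod_cast hN
  unfold ovl
  rw [abs_mul, abs_of_pos (inv_pos.2 hN0), inv_mul_le_iff₀ hN0, mul_one]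
  have h1 : |∑ i, C.x u.1 i * C.x v.1 i| ≤ ∑ i, (C.x u.1 i ^ 2 + C.x v.1 i ^ 2) / 2 := by
    refine (abs_sum_le_sum_abs _ _).trans (sum_le_sum fun i _ => ?_)
    rw [abs_le]
    constructor
    · nlinarith [sq_nonneg (C.x u.1 i + C.x v.1 i)]
    · nlinarith [sq_nonneg (C.x u.1 i - C.x v.1 i)]
  refine h1.trans (le_of_eq ?_)
  rw [← sum_div, sum_add_distrib, C.hx, C.hx]
  ring

/-- the field part of the Schwinger-Dyson function -/
def FT (s : Fin nc → ℝ) (u v : Om C nc n) : ℝ :=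
  ∑ g, s g * ((N : ℝ)⁻¹ * ∑ i, zf u.2 g i * C.x v.1 i -
    ovl C nc n u v * ((N : ℝ)⁻¹ * ∑ i, zf u.2 g i * C.x u.1 i))

theorem fld_abs_le (hN : 0 < N) (u v : Om C nc n) (g : Fin nc) :
    |(N : ℝ)⁻¹ * ∑ i, zf u.2 g i * C.x v.1 i| ≤
      ((N : ℝ)⁻¹ * ∑ i, zf u.2 g i ^ 2 + 1) / 2 := by
  have hN0 : (0 : ℝ) < N := by exact_mod_cast hN
  rw [abs_mul, abs_of_pos (inv_pos.2 hN0)]
  have h1 : |∑ i, zf u.2 g i * C.x v.1 i| ≤ ∑ i, (zf u.2 g i ^ 2 + C.x v.1 i ^ 2) / 2 := by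
    refine (abs_sum_le_sum_abs _ _).trans (sum_le_sum fun i _ => ?_)
    rw [abs_le]
    constructor
    · nlinarith [sq_nonneg (zf u.2 g i + C.x v.1 i)]
    · nlinarith [sq_nonneg (zf u.2 g i - C.x v.1 i)]
  rw [← sum_div, sum_add_distrib, C.hx] at h1
  refine (mul_le_mul_of_nonneg_left h1 (inv_pos.2 hN0).le).trans (le_of_eq ?_)
  field_simp

theorem FT_abs_le (hN : 0 < N) {A : ℝ} {s : Fin nc → ℝ} (hs : ∀ g, |s g| ≤ A) (u v : Om C nc n) :
    |FT C nc n s u v| ≤ ∑ g : Fin nc, A * ((N : ℝ)⁻¹ * ∑ i, zf u.2 g i ^ 2 + 1) := by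
  unfold FT
  refine (abs_sum_le_sum_abs _ _).trans (sum_le_sum fun g _ => ?_)
  rw [abs_mul]
  refine mul_le_mul (hs g) ?_ (abs_nonneg _) ((abs_nonneg _).trans (hs g))
  have h1 := fld_abs_le C nc n hN u v g
  have h2 := fld_abs_le C nc n hN u u g
  have h3 := ovl_abs_le C nc n hN u v
  refine (abs_sub _ _).trans ?_
  rw [abs_mul (ovl C nc n u v)]
  have h4 := mul_le_mul h3 h2 (abs_nonneg _) zero_le_one
  linarith

/-- **the Schwinger-Dyson function in terms of the row statistics**. -/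
theorem psi_id (hN : 0 < N) (f1 : ℝ → ℝ) (G : Fin M → Fin N → ℝ) (s : Fin nc → ℝ)
    (u v : Om C nc n) :
    (N : ℝ)⁻¹ * S6Sd_290.PsiP C (fun _ => f1) G s u v =
      ((N : ℝ) - 1) / N * ovl C nc n u v - RS C nc n f1 (fun x => x) G u v +
        ovl C nc n u v * RS C nc n f1 (fun x => x) G u u - FT C nc n s u v := by
  have hN0 : (N : ℝ) ≠ 0 := by exact_mod_cast hN.ne'
  have e0 : ∑ i, C.x v.1 i * C.x u.1 i = N * ovl C nc n u v := by
    unfold ovl
    rw [mul_inv_cancel_left₀ hN0]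
    exact sum_congr rfl fun i _ => mul_comm _ _
  have e1 : ∑ a : Fin M, f1 (S6Sd_290.hr G a (C.x u.1)) * (S6Sd_290.hr G a (C.x v.1) -
      (∑ i, C.x v.1 i * C.x u.1 i) / N * S6Sd_290.hr G a (C.x u.1)) =
      N * (RS C nc n f1 (fun x => x) G u v -
        ovl C nc n u v * RS C nc n f1 (fun x => x) G u u) := by
    rw [e0, mul_div_cancel_left₀ _ hN0]
    unfold RS
    have h : (N : ℝ) * ((N : ℝ)⁻¹ * ∑ a : Fin M, f1 (hh G a (C.x u.1)) * hh G a (C.x v.1) -
        ovl C nc n u v * ((N : ℝ)⁻¹ * ∑ a : Fin M, f1 (hh G a (C.x u.1)) * hh G a (C.x u.1))) =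
        ∑ a : Fin M, f1 (hh G a (C.x u.1)) * hh G a (C.x v.1) -
        ovl C nc n u v * ∑ a : Fin M, f1 (hh G a (C.x u.1)) * hh G a (C.x u.1) := by
      field_simp
    rw [h, mul_sum, ← sum_sub_distrib]
    refine sum_congr rfl fun a _ => ?_
    show f1 (hh G a (C.x u.1)) * (hh G a (C.x v.1) - ovl C nc n u v * hh G a (C.x u.1)) = _
    ring
  have e2 : ∑ g, s g * ((∑ i, zf u.2 g i * C.x v.1 i) -
      (∑ i, C.x v.1 i * C.x u.1 i) / N * ∑ i, zf u.2 g i * C.x u.1 i) =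
      N * FT C nc n s u v := by
    rw [e0, mul_div_cancel_left₀ _ hN0]
    unfold FT
    rw [mul_sum]
    refine sum_congr rfl fun g _ => ?_
    field_simp
  show (N : ℝ)⁻¹ * (((N : ℝ) - 1) / N * (∑ i, C.x v.1 i * C.x u.1 i) -
    ∑ a : Fin M, f1 (S6Sd_290.hr G a (C.x u.1)) * (S6Sd_290.hr G a (C.x v.1) -
      (∑ i, C.x v.1 i * C.x u.1 i) / N * S6Sd_290.hr G a (C.x u.1)) -
    ∑ g, s g * ((∑ i, zf u.2 g i * C.x v.1 i) -
      (∑ i, C.x v.1 i * C.x u.1 i) / N * ∑ i, zf u.2 g i * C.x u.1 i)) = _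
  rw [e1, e2, e0]
  field_simp
  ring

/-- pointwise bound -/
theorem point_le (hN : 0 < N) {A : ℝ} (f1 : ℝ → ℝ) (G : Fin M → Fin N → ℝ) {s : Fin nc → ℝ}
    (hs : ∀ g, |s g| ≤ A) (p a b : ℝ) (u v : Om C nc n) :
    |(p - a + p * b) - (N : ℝ)⁻¹ * S6Sd_290.PsiP C (fun _ => f1) G s u v| ≤
      (1 + |b|) * |ovl C nc n u v - p| + (N : ℝ)⁻¹ + |RS C nc n f1 (fun x => x) G u v - a| +
        |RS C nc n f1 (fun x => x) G u u - b| +
        ∑ g : Fin nc, A * ((N : ℝ)⁻¹ * ∑ i, zf u.2 g i ^ 2 + 1) := by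
  have hN0 : (0 : ℝ) < N := by exact_mod_cast hN
  rw [psi_id C nc n hN f1 G s u v]
  set R := ovl C nc n u v with hR
  set X := RS C nc n f1 (fun x => x) G u v with hX
  set Y := RS C nc n f1 (fun x => x) G u u with hY
  set F := FT C nc n s u v with hF
  have h1 : (p - a + p * b) - (((N : ℝ) - 1) / N * R - X + R * Y - F) =
      (-(R - p)) + (N : ℝ)⁻¹ * R + (X - a) + (-(b * (R - p))) + (-(R * (Y - b))) + F := by
    field_simp
    ring
  have hR1 : |R| ≤ 1 := ovl_abs_le C nc n hN u v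
  have hF1 := FT_abs_le C nc n hN hs u v
  rw [h1]
  have t1 : |-(R - p)| = |R - p| := abs_neg _
  have t2 : |(N : ℝ)⁻¹ * R| ≤ (N : ℝ)⁻¹ := by
    rw [abs_mul, abs_of_pos (inv_pos.2 hN0)]
    exact mul_le_of_le_one_right (inv_pos.2 hN0).le hR1
  have t3 : |-(b * (R - p))| = |b| * |R - p| := by rw [abs_neg, abs_mul]
  have t4 : |-(R * (Y - b))| ≤ |Y - b| := by
    rw [abs_neg, abs_mul]
    exact mul_le_of_le_one_left (abs_nonneg _) hR1
  have s1 := abs_add_le (-(R - p) + (N : ℝ)⁻¹ * R + (X - a) + (-(b * (R - p))) + (-(R * (Y - b)))) F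
  have s2 := abs_add_le (-(R - p) + (N : ℝ)⁻¹ * R + (X - a) + (-(b * (R - p)))) (-(R * (Y - b)))
  have s3 := abs_add_le (-(R - p) + (N : ℝ)⁻¹ * R + (X - a)) (-(b * (R - p)))
  have s4 := abs_add_le (-(R - p) + (N : ℝ)⁻¹ * R) (X - a)
  have s5 := abs_add_le (-(R - p)) ((N : ℝ)⁻¹ * R)
  rw [t1] at s5
  rw [t3] at s3
  have e : (1 + |b|) * |R - p| = |R - p| + |b| * |R - p| := by ring
  linarith

theorem pE_mono' {Ω : Type} [Fintype Ω] {P : Ω → ℝ} {r : Setoid Ω} (hP : IsProb P)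
    {f g : Ω → Ω → ℝ} (h : ∀ a b, f a b ≤ g a b) : pE P r f ≤ pE P r g :=
  S6Trans_944.pE_mono hP fun a b _ => h a b

theorem pE_abs_le {Ω : Type} [Fintype Ω] {P : Ω → ℝ} {r : Setoid Ω} (hP : IsProb P)
    (f : Ω → Ω → ℝ) : |pE P r f| ≤ pE P r (fun a b => |f a b|) := by
  rw [abs_le]
  constructor
  · have h1 := pE_smul (P := P) (r := r) (-1) (fun a b => |f a b|)
    have h2 := pE_mono' (r := r) hP (f := fun a b => (-1) * |f a b|) (g := f) fun a b => by
      have := neg_abs_le (f a b)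
      linarith
    linarith
  · exact pE_mono' hP fun a b => le_abs_self _

theorem pE_lin {Ω : Type} [Fintype Ω] {P : Ω → ℝ} {r : Setoid Ω} (hP : IsProb P)
    (c d : ℝ) (f : Ω → Ω → ℝ) : c - d * pE P r f = pE P r (fun a b => c - d * f a b) := by
  have h1 := pE_add (P := P) (r := r) (fun _ _ => c) (fun a b => (-d) * f a b)
  have h2 := pE_smul (P := P) (r := r) (-d) f
  have h3 := pE_const (r := r) hP c
  have h4 : (fun a b => c - d * f a b) = fun a b => c + (-d) * f a b := by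
    funext a b; ring
  rw [h4, h1, h2, h3]
  ring

/-- **the relation for one matrix of rows.** -/
theorem rel_row (hN : 0 < N) {A C2 : ℝ} (hA : 0 ≤ A) (f f1 : ℝ → ℝ) (G : Fin M → Fin N → ℝ)
    {s : Fin nc → ℝ} (hs : ∀ g, |s g| ≤ A)
    (hfld : ∀ g : Fin nc, eE (QQ C nc n (M := M) (fun _ => f) G s)
      (fun ω => ∑ i, zf ω.2 g i ^ 2) ≤ C2 * N) (k : ℕ) (p a b : ℝ) :
    |(p - a + p * b) - (N : ℝ)⁻¹ * pE (QQ C nc n (M := M) (fun _ => f) G s) ((fil C nc n).F k)
        (S6Sd_290.PsiP C (fun _ => f1) G s)| ≤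
      (1 + |b|) * pE (QQ C nc n (M := M) (fun _ => f) G s) ((fil C nc n).F k)
        (fun u v => |ovl C nc n u v - p|) + (N : ℝ)⁻¹ +
      pE (QQ C nc n (M := M) (fun _ => f) G s) ((fil C nc n).F k)
        (fun u v => |RS C nc n f1 (fun x => x) G u v - a|) +
      eE (QQ C nc n (M := M) (fun _ => f) G s) (fun u => |RS C nc n f1 (fun x => x) G u u - b|) +
      (C2 + 1) * (nc * A) := by
  have hN0 : (0 : ℝ) < N := by exact_mod_cast hN
  have hQ := QQ_isProb C nc n (M := M) (fun _ => f) G s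
  set Q := QQ C nc n (M := M) (fun _ => f) G s with hQd
  set r := (fil C nc n).F k with hr
  rw [pE_lin hQ]
  refine (pE_abs_le hQ _).trans ?_
  refine (pE_mono' hQ fun u v => point_le C nc n hN f1 G hs p a b u v).trans ?_
  have e1 : (fun u v : Om C nc n => (1 + |b|) * |ovl C nc n u v - p| + (N : ℝ)⁻¹ +
      |RS C nc n f1 (fun x => x) G u v - a| + |RS C nc n f1 (fun x => x) G u u - b| +
      ∑ g : Fin nc, A * ((N : ℝ)⁻¹ * ∑ i, zf u.2 g i ^ 2 + 1)) = fun u v =>
      ((((1 + |b|) * |ovl C nc n u v - p| + (N : ℝ)⁻¹) +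
      |RS C nc n f1 (fun x => x) G u v - a|) + |RS C nc n f1 (fun x => x) G u u - b|) +
      ∑ g : Fin nc, A * ((N : ℝ)⁻¹ * ∑ i, zf u.2 g i ^ 2 + 1) := rfl
  rw [e1, pE_add, pE_add, pE_add, pE_add, pE_smul, pE_const hQ,
    pE_fst hQ (fun u => |RS C nc n f1 (fun x => x) G u u - b|),
    pE_fst hQ (fun u => ∑ g : Fin nc, A * ((N : ℝ)⁻¹ * ∑ i, zf u.2 g i ^ 2 + 1))]
  have e2 : eE Q (fun u => ∑ g : Fin nc, A * ((N : ℝ)⁻¹ * ∑ i, zf u.2 g i ^ 2 + 1)) ≤
      (C2 + 1) * (nc * A) := by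
    rw [eE_sum]
    have h1 : ∀ g ∈ (univ : Finset (Fin nc)),
        eE Q (fun u => A * ((N : ℝ)⁻¹ * ∑ i, zf u.2 g i ^ 2 + 1)) ≤ A * (C2 + 1) := by
      intro g _
      rw [eE_smul, eE_add, eE_smul, eE_const hQ]
      refine mul_le_mul_of_nonneg_left ?_ hA
      have h2 := hfld g
      have h3 := mul_le_mul_of_nonneg_left h2 (inv_pos.2 hN0).le
      have h4 : (N : ℝ)⁻¹ * (C2 * N) = C2 := by field_simp
      linarith
    refine (sum_le_sum h1).trans (le_of_eq ?_)
    rw [sum_const, card_univ, Fintype.card_fin, nsmul_eq_mul]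
    ring
  linarith

end row

/-! ### Integrability in the rows -/

section integ

variable {N : ℕ} (C : Cfg N) (nc n : ℕ) {M : ℕ}

theorem integrable_pE {f : ℕ → ℝ → ℝ} (hf : ∀ a, Measurable (f a)) (s : Fin nc → ℝ)
    (r : Setoid (Om C nc n)) {Ψ : (Fin M → Fin N → ℝ) → Om C nc n → Om C nc n → ℝ}
    (hm : ∀ u v, Measurable fun G => Ψ G u v) {B : ℝ}
    (hB : ∀ G u v, |Ψ G u v| ≤ B * S6Sd_290.HG G ^ 3) :
    Integrable (fun G => pE (QQ C nc n (M := M) f G s) r (Ψ G)) (gam M N) := by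
  refine ((S6Sd_290.integrable_HG M N).const_mul B).mono' ?_
    (Filter.Eventually.of_forall fun G => ?_)
  · refine Measurable.aestronglyMeasurable ?_
    unfold pE
    exact Crest.Agent.R164.G.meas_eE (measurable_QQ C nc n hf s) fun u =>
      Crest.Agent.R164.G.meas_cE (measurable_QQ C nc n hf s) (fun v => hm u v) r u
  · have hQ := QQ_isProb C nc n f G s
    rw [Real.norm_eq_abs]
    refine (pE_abs_le hQ _).trans ((pE_mono' hQ fun u v => hB G u v).trans (le_of_eq ?_))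
    exact pE_const hQ _

theorem meas_hh (a : Fin M) (x : Fin N → ℝ) :
    Measurable fun G : Fin M → Fin N → ℝ => hh G a x := by
  unfold hh
  exact Finset.measurable_sum _ fun i _ =>
    ((measurable_pi_apply i).comp (measurable_pi_apply a)).mul_const _

theorem meas_RS {φ ψ : ℝ → ℝ} (hφ : Measurable φ) (hψ : Measurable ψ) (u v : Om C nc n) :
    Measurable fun G : Fin M → Fin N → ℝ => RS C nc n φ ψ G u v := by
  unfold RS
  exact (Finset.measurable_sum _ fun a _ =>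
    (hφ.comp (meas_hh a _)).mul (hψ.comp (meas_hh a _))).const_mul _

theorem hh_abs_le (hN : 0 < N) (G : Fin M → Fin N → ℝ) (a : Fin M) (y : C.Y) :
    |hh G a (C.x y)| ≤ ∑ i, |G a i| := by
  unfold hh
  refine (abs_sum_le_sum_abs _ _).trans (sum_le_sum fun i _ => ?_)
  rw [abs_mul]
  refine mul_le_of_le_one_right (abs_nonneg _) ?_
  have hs : 0 < Real.sqrt N := Real.sqrt_pos.2 (by exact_mod_cast hN)
  rw [abs_div, abs_of_pos hs, div_le_one hs]
  exact S6Sd_290.SS_coord (C.hx y) i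

/-- crude bound of the row statistics -/
theorem RS_abs_le (hN : 0 < N) {K : ℝ} {f1 : ℝ → ℝ} (hK : ∀ x, |f1 x| ≤ K)
    (G : Fin M → Fin N → ℝ) (u v : Om C nc n) :
    |RS C nc n f1 (fun x => x) G u v| ≤ K * S6Sd_290.HG G ^ 3 := by
  have hN1 : (1 : ℝ) ≤ N := by exact_mod_cast hN
  have hN0 : (0 : ℝ) < N := by linarith
  have hK0 : 0 ≤ K := (abs_nonneg _).trans (hK 0)
  have hH := S6Sd_290.one_le_HG G
  have h1 : |∑ a : Fin M, f1 (hh G a (C.x u.1)) * hh G a (C.x v.1)| ≤ K * S6Sd_290.HG G := by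
    refine (abs_sum_le_sum_abs _ _).trans ?_
    have h2 : ∀ a ∈ (univ : Finset (Fin M)), |f1 (hh G a (C.x u.1)) * hh G a (C.x v.1)| ≤
        K * ∑ i, |G a i| := by
      intro a _
      rw [abs_mul]
      exact mul_le_mul (hK _) (hh_abs_le C hN G a v.1) (abs_nonneg _) hK0
    refine (sum_le_sum h2).trans ?_
    rw [← mul_sum]
    refine mul_le_mul_of_nonneg_left ?_ hK0
    unfold S6Sd_290.HG
    linarith
  unfold RS
  rw [abs_mul, abs_of_pos (inv_pos.2 hN0)]
  have h3 : (N : ℝ)⁻¹ ≤ 1 := inv_le_one_of_one_le₀ hN1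
  have h4 : S6Sd_290.HG G ≤ S6Sd_290.HG G ^ 3 := by
    have := pow_le_pow_right₀ hH (show 1 ≤ 3 by norm_num)
    simpa using this
  calc (N : ℝ)⁻¹ * |∑ a : Fin M, f1 (hh G a (C.x u.1)) * hh G a (C.x v.1)|
      ≤ 1 * (K * S6Sd_290.HG G) := mul_le_mul h3 h1 (abs_nonneg _) zero_le_one
    _ ≤ K * S6Sd_290.HG G ^ 3 := by
      rw [one_mul]; exact mul_le_mul_of_nonneg_left h4 hK0

end integ

/-! ### The averaged relation -/

theorem int_five {α : Type*} [MeasurableSpace α] {μ : Measure α} [IsProbabilityMeasure μ]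
    {F1 F2 F3 : α → ℝ} (h1 : Integrable F1 μ) (h2 : Integrable F2 μ) (h3 : Integrable F3 μ)
    (c d e : ℝ) :
    Integrable (fun x => c * F1 x + d + F2 x + F3 x + e) μ ∧
    ∫ x, (c * F1 x + d + F2 x + F3 x + e) ∂μ =
      c * ∫ x, F1 x ∂μ + d + ∫ x, F2 x ∂μ + ∫ x, F3 x ∂μ + e := by
  have j1 : Integrable (fun x => c * F1 x) μ := h1.const_mul c
  have j2 : Integrable (fun x => c * F1 x + d) μ := j1.add (integrable_const d)
  have j3 : Integrable (fun x => c * F1 x + d + F2 x) μ := j2.add h2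
  have j4 : Integrable (fun x => c * F1 x + d + F2 x + F3 x) μ := j3.add h3
  have j5 : Integrable (fun x => c * F1 x + d + F2 x + F3 x + e) μ := j4.add (integrable_const e)
  refine ⟨j5, ?_⟩
  rw [integral_add j4 (integrable_const e), integral_add j3 h3, integral_add j2 h2,
    integral_add j1 (integrable_const d), integral_const_mul]
  simp

section avg

variable {N : ℕ} (C : Cfg N) (nc n : ℕ) {M : ℕ}

theorem rel_avg (hN : 0 < N) {A C2 K : ℝ} (hA : 0 ≤ A) {f f1 : ℝ → ℝ} (hf : Measurable f)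
    (hf1 : Measurable f1) (hK : ∀ x, |f1 x| ≤ K)
    {s : Fin nc → ℝ} (hs : ∀ g, |s g| ≤ A)
    (hfld : ∀ (G : Fin M → Fin N → ℝ) (g : Fin nc), eE (QQ C nc n (M := M) (fun _ => f) G s)
      (fun ω => ∑ i, zf ω.2 g i ^ 2) ≤ C2 * N) (k : ℕ) (p a b : ℝ) :
    |(p - a + p * b) - (N : ℝ)⁻¹ * ∫ G, pE (QQ C nc n (M := M) (fun _ => f) G s)
        ((fil C nc n).F k) (S6Sd_290.PsiP C (fun _ => f1) G s) ∂(gam M N)| ≤
      (1 + |b|) * ∫ G, pE (QQ C nc n (M := M) (fun _ => f) G s) ((fil C nc n).F k)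
        (fun u v => |ovl C nc n u v - p|) ∂(gam M N) + (N : ℝ)⁻¹ +
      ∫ G, pE (QQ C nc n (M := M) (fun _ => f) G s) ((fil C nc n).F k)
        (fun u v => |RS C nc n f1 (fun x => x) G u v - a|) ∂(gam M N) +
      ∫ G, eE (QQ C nc n (M := M) (fun _ => f) G s)
        (fun u => |RS C nc n f1 (fun x => x) G u u - b|) ∂(gam M N) +
      (C2 + 1) * (nc * A) := by
  have hN0 : (0 : ℝ) < N := by exact_mod_cast hN
  have hK0 : 0 ≤ K := (abs_nonneg _).trans (hK 0)
  have hmRS : ∀ u v : Om C nc n, Measurable fun G : Fin M → Fin N → ℝ =>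
      RS C nc n f1 (fun x => x) G u v := fun u v => meas_RS C nc n hf1 measurable_id u v
  -- integrability
  have i1 : Integrable (fun G => pE (QQ C nc n (M := M) (fun _ => f) G s) ((fil C nc n).F k)
      (fun u v => |ovl C nc n u v - p|)) (gam M N) := by
    refine integrable_pE C nc n (fun _ => hf) s _ (fun u v => measurable_const)
      (B := 1 + |p|) fun G u v => ?_
    have hH := S6Sd_290.one_le_HG G
    have h1 : (1 : ℝ) ≤ S6Sd_290.HG G ^ 3 := one_le_pow₀ hH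
    rw [abs_abs]
    refine (abs_sub _ _).trans ?_
    have h2 := ovl_abs_le C nc n hN u v
    have h3 : 0 ≤ 1 + |p| := by positivity
    calc |ovl C nc n u v| + |p| ≤ (1 + |p|) * 1 := by linarith
      _ ≤ _ := mul_le_mul_of_nonneg_left h1 h3
  have hb : ∀ (c : ℝ) (G : Fin M → Fin N → ℝ) (u v : Om C nc n),
      |(|RS C nc n f1 (fun x => x) G u v - c|)| ≤ (K + |c|) * S6Sd_290.HG G ^ 3 := by
    intro c G u v
    have hH := S6Sd_290.one_le_HG G
    have h1 : (1 : ℝ) ≤ S6Sd_290.HG G ^ 3 := one_le_pow₀ hH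
    rw [abs_abs]
    refine (abs_sub _ _).trans ?_
    have h2 := RS_abs_le C nc n hN hK G u v
    have h3 := mul_le_mul_of_nonneg_left h1 (abs_nonneg c)
    linarith
  have i2 : Integrable (fun G => pE (QQ C nc n (M := M) (fun _ => f) G s) ((fil C nc n).F k)
      (fun u v => |RS C nc n f1 (fun x => x) G u v - a|)) (gam M N) :=
    integrable_pE C nc n (fun _ => hf) s _ (fun u v => ((hmRS u v).sub_const a).abs) (hb a)
  have i3 : Integrable (fun G => eE (QQ C nc n (M := M) (fun _ => f) G s)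
      (fun u => |RS C nc n f1 (fun x => x) G u u - b|)) (gam M N) := by
    have h := integrable_pE C nc n (fun _ => hf) s ((fil C nc n).F k)
      (Ψ := fun G u _ => |RS C nc n f1 (fun x => x) G u u - b|)
      (fun u _ => ((hmRS u u).sub_const b).abs) (fun G u _ => hb b G u u)
    refine h.congr (Filter.Eventually.of_forall fun G => ?_)
    exact pE_fst (QQ_isProb C nc n (fun _ => f) G s)
      (fun u => |RS C nc n f1 (fun x => x) G u u - b|)
  obtain ⟨BF, hBF⟩ : ∃ B : ℝ, ∀ u v : Om C nc n, |FT C nc n s u v| ≤ B := by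
    obtain ⟨B, hB⟩ := (Set.finite_range fun w : Om C nc n × Om C nc n =>
      |FT C nc n s w.1 w.2|).bddAbove
    exact ⟨B, fun u v => hB ⟨(u, v), rfl⟩⟩
  have hpsi : ∀ (G : Fin M → Fin N → ℝ) (u v : Om C nc n),
      S6Sd_290.PsiP C (fun _ => f1) G s u v = N * (((N : ℝ) - 1) / N * ovl C nc n u v -
        RS C nc n f1 (fun x => x) G u v +
        ovl C nc n u v * RS C nc n f1 (fun x => x) G u u - FT C nc n s u v) := by
    intro G u v
    rw [← psi_id C nc n hN f1 G s u v, mul_inv_cancel_left₀ hN0.ne']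
  have i4 : Integrable (fun G => pE (QQ C nc n (M := M) (fun _ => f) G s) ((fil C nc n).F k)
      (S6Sd_290.PsiP C (fun _ => f1) G s)) (gam M N) := by
    refine integrable_pE C nc n (fun _ => hf) s _ (fun u v => ?_)
      (B := N * (1 + K + K + |BF|)) fun G u v => ?_
    · have e : (fun G : Fin M → Fin N → ℝ => S6Sd_290.PsiP C (fun _ => f1) G s u v) = fun G =>
        N * (((N : ℝ) - 1) / N * ovl C nc n u v - RS C nc n f1 (fun x => x) G u v +
        ovl C nc n u v * RS C nc n f1 (fun x => x) G u u - FT C nc n s u v) := by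
        funext G; exact hpsi G u v
      rw [e]
      exact ((((hmRS u v).const_sub _).add ((hmRS u u).const_mul _)).sub_const _).const_mul _
    · rw [hpsi, abs_mul, abs_of_pos hN0, mul_assoc]
      refine mul_le_mul_of_nonneg_left ?_ hN0.le
      have hH := S6Sd_290.one_le_HG G
      have h1 : (1 : ℝ) ≤ S6Sd_290.HG G ^ 3 := one_le_pow₀ hH
      have hR1 := ovl_abs_le C nc n hN u v
      have h2 := RS_abs_le C nc n hN hK G u v
      have h3 := RS_abs_le C nc n hN hK G u u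
      have h4 : |((N : ℝ) - 1) / N * ovl C nc n u v| ≤ 1 := by
        rw [abs_mul]
        have h5 : |((N : ℝ) - 1) / N| ≤ 1 := by
          have hN1 : (1 : ℝ) ≤ N := by exact_mod_cast hN
          rw [abs_of_nonneg (div_nonneg (by linarith) hN0.le), div_le_one hN0]
          linarith
        exact mul_le_one₀ h5 (abs_nonneg _) hR1
      have h6 : |ovl C nc n u v * RS C nc n f1 (fun x => x) G u u| ≤ K * S6Sd_290.HG G ^ 3 := by
        rw [abs_mul]
        exact (mul_le_of_le_one_left (abs_nonneg _) hR1).trans h3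
      have h7 := (hBF u v).trans (le_abs_self BF)
      have h8 := mul_le_mul_of_nonneg_left h1 (abs_nonneg BF)
      have s1 := abs_sub (((N : ℝ) - 1) / N * ovl C nc n u v -
        RS C nc n f1 (fun x => x) G u v +
        ovl C nc n u v * RS C nc n f1 (fun x => x) G u u) (FT C nc n s u v)
      have s2 := abs_add_le (((N : ℝ) - 1) / N * ovl C nc n u v -
        RS C nc n f1 (fun x => x) G u v) (ovl C nc n u v * RS C nc n f1 (fun x => x) G u u)
      have s3 := abs_sub (((N : ℝ) - 1) / N * ovl C nc n u v) (RS C nc n f1 (fun x => x) G u v)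
      have e : (1 + K + K + |BF|) * S6Sd_290.HG G ^ 3 = 1 * S6Sd_290.HG G ^ 3 +
        K * S6Sd_290.HG G ^ 3 + K * S6Sd_290.HG G ^ 3 + |BF| * S6Sd_290.HG G ^ 3 := by ring
      linarith
  -- integrate
  have e0 : (p - a + p * b) - (N : ℝ)⁻¹ * ∫ G, pE (QQ C nc n (M := M) (fun _ => f) G s)
      ((fil C nc n).F k) (S6Sd_290.PsiP C (fun _ => f1) G s) ∂(gam M N) =
      ∫ G, ((p - a + p * b) - (N : ℝ)⁻¹ * pE (QQ C nc n (M := M) (fun _ => f) G s)
        ((fil C nc n).F k) (S6Sd_290.PsiP C (fun _ => f1) G s)) ∂(gam M N) := by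
    rw [integral_sub (integrable_const _) (i4.const_mul _), integral_const_mul]
    simp
  rw [e0]
  refine abs_integral_le_integral_abs.trans ?_
  have i5 := int_five i1 i2 i3 (1 + |b|) (N : ℝ)⁻¹ ((C2 + 1) * (nc * A))
  exact (integral_mono (((integrable_const _).sub (i4.const_mul _)).abs) i5.1 fun G =>
    rel_row C nc n hN hA f f1 G hs (hfld G) k p a b).trans (le_of_eq i5.2)

end avg

/-! ### Assembly -/

/-- **S6L-REL** from the row observables and the norm of the fields. -/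
theorem rel_of' (hRO : RO) (hFLD : FLD) : REL := by
  intro αm K
  obtain ⟨C2, hC2, h2⟩ := hFLD αm K
  refine ⟨C2 + 1, by positivity, fun ε hε => ?_⟩
  obtain ⟨J0, h1⟩ := hRO αm K K (max K 1) (ε / 8) (by positivity)
  refine ⟨J0, fun J hJ => ?_⟩
  obtain ⟨ε0, hε0, N0, h3⟩ := h1 J hJ
  obtain ⟨D, hD⟩ : ∃ D, D = 1 + |αm| * (|K| + 2 * K ^ 2) := ⟨_, rfl⟩
  have hD0 : 0 < D := by rw [hD]; positivity
  refine ⟨min ε0 (ε / (8 * D)), lt_min hε0 (by positivity), max N0 (⌈8 / ε⌉₊ + 1), ?_⟩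
  intro wc nc hwc hnc N hN hN0 n hn M hM A hA
  obtain ⟨δ, hδ, h4⟩ := S6Sd_290.sd_pair N M nc n hN0 hn K A (ε / 8) (by positivity)
  refine ⟨δ, hδ, ?_⟩
  intro C hC f f1 f2 hf s hs τ hsk b hb
  have hNr : (0 : ℝ) < N := by exact_mod_cast hN0
  have hN1 : (1 : ℝ) ≤ N := by exact_mod_cast hN0
  have hfm : Measurable f := (toS2 hf).c0.measurable
  have hf1m : Measurable f1 := (toS2 hf).c1.measurable
  have hA0 : 0 ≤ A := by
    have hnc1 : 0 < nc := by
      have : 2 ≤ (J + 1) * wc := by nlinarith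
      omega
    exact (abs_nonneg _).trans (hs ⟨0, hnc1⟩)
  have hsk0 : Skel C nc n (fun _ => f) M s J wc τ ε0 :=
    ⟨hsk.blk, fun b hb => (hsk.pair b hb).trans (min_le_left _ _)⟩
  have hLev := lev_PR hN0 hfm hsk
  set P := PR C nc n f M s τ with hP
  have hα0 : 0 ≤ (M : ℝ) / N := by positivity
  have hα1 : (M : ℝ) / N ≤ |αm| := by
    rw [div_le_iff₀ hNr]
    exact hM.trans (mul_le_mul_of_nonneg_right (le_abs_self _) hNr.le)
  -- the steps
  have hk : τ b ≤ nc * n := by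
    have h5 := (hsk.blk b hb).2
    refine h5.le.trans (Nat.mul_le_mul_right n ?_)
    have h6 : (b + 1) * wc ≤ (J + 1) * wc := Nat.mul_le_mul_right _ (by omega)
    have h7 : (b + 1) * wc = b * wc + wc := by ring
    omega
  have hRb := h3 wc nc hwc hnc N ((le_max_left _ _).trans hN) hN0 n hn C f f1 (fun x => x)
    (toBL0 hf) (toBL1 hf) (fun x y => le_mul_of_one_le_left (abs_nonneg _) (le_max_right _ _))
    (by simp) M s τ hM hsk0
  have hpair := hRb.1 b hb
  have hdiag := hRb.2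
  have hsd := h4 C hC (fun _ => f) (fun _ => f1) (fun _ => toSm hf) s hs (τ b) hk
  have hov := (hsk.pair b hb).trans (min_le_right _ _)
  have hfl := fun (G : Fin M → Fin N → ℝ) (g : Fin nc) =>
    h2 N nc n hN0 hn C (fun _ => f) M G A s hM (fun _ => hf.b0) hs hA g
  -- the limit model
  have hkap : kapX J f P (J + 1) f1 (fun x => x) =
      cX J f P (J + 2) (fun x => f1 x * x) 0 0 := by
    unfold kapX
    rw [cX_self, cX_self]
  have hrel : rel J P (TR J f f1 P ((M : ℝ) / N)) b =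
      P b - (M : ℝ) / N * kapX J f P b f1 (fun x => x) +
        P b * ((M : ℝ) / N * kapX J f P (J + 1) f1 (fun x => x)) := by
    unfold TR
    rw [LimRel_290.rel_eq (toS2 hf) hLev _ hb, hkap]
    ring
  have hmain := rel_avg C nc n (M := M) hN0 hA0 hfm hf1m hf.b1 hs hfl (τ b) (P b)
    ((M : ℝ) / N * kapX J f P b f1 (fun x => x))
    ((M : ℝ) / N * kapX J f P (J + 1) f1 (fun x => x))
  rw [← hrel] at hmain
  have hbd : 1 + |(M : ℝ) / N * kapX J f P (J + 1) f1 (fun x => x)| ≤ D := by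
    rw [hD, hkap, abs_mul, abs_of_nonneg hα0]
    have h5 := kstar_le hf hLev
    have h6 : K + 2 * K ^ 2 ≤ |K| + 2 * K ^ 2 := by linarith [le_abs_self K]
    have h7 := mul_le_mul hα1 (h5.trans h6) (abs_nonneg _) (abs_nonneg αm)
    linarith
  have hE1 : (1 + |(M : ℝ) / N * kapX J f P (J + 1) f1 (fun x => x)|) *
      ∫ G, pE (QQ C nc n (M := M) (fun _ => f) G s) ((fil C nc n).F (τ b))
        (fun u v => |ovl C nc n u v - P b|) ∂(gam M N) ≤ ε / 8 := by
    have h5 : ∫ G, pE (QQ C nc n (M := M) (fun _ => f) G s) ((fil C nc n).F (τ b))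
        (fun u v => |ovl C nc n u v - P b|) ∂(gam M N) ≤ ε / (8 * D) := hov
    have h6 : 0 ≤ ∫ G, pE (QQ C nc n (M := M) (fun _ => f) G s) ((fil C nc n).F (τ b))
        (fun u v => |ovl C nc n u v - P b|) ∂(gam M N) :=
      integral_nonneg fun G => pE_nonneg (QQ_isProb C nc n (fun _ => f) G s)
        fun _ _ => abs_nonneg _
    refine (mul_le_mul hbd h5 h6 hD0.le).trans (le_of_eq ?_)
    field_simp
  have hE2 : (N : ℝ)⁻¹ ≤ ε / 8 := by
    have h5 : ⌈8 / ε⌉₊ + 1 ≤ N := (le_max_right _ _).trans hN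
    have h6 : (8 / ε : ℝ) ≤ N := by
      refine (Nat.le_ceil _).trans ?_
      exact_mod_cast (Nat.le_succ _).trans h5
    rw [inv_le_comm₀ hNr (by positivity)]
    rw [inv_div]
    exact h6
  have hE3 : |(N : ℝ)⁻¹ * ∫ G, pE (QQ C nc n (M := M) (fun _ => f) G s)
      ((fil C nc n).F (τ b)) (S6Sd_290.PsiP C (fun _ => f1) G s) ∂(gam M N)| ≤ ε / 8 := by
    rw [abs_mul, abs_of_pos (inv_pos.2 hNr)]
    refine (mul_le_of_le_one_left (abs_nonneg _) (inv_le_one_of_one_le₀ hN1)).trans hsd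
  have htri := abs_sub_abs_le_abs_sub (rel J P (TR J f f1 P ((M : ℝ) / N)) b)
    ((N : ℝ)⁻¹ * ∫ G, pE (QQ C nc n (M := M) (fun _ => f) G s)
      ((fil C nc n).F (τ b)) (S6Sd_290.PsiP C (fun _ => f1) G s) ∂(gam M N))
  linarith

/-- **S6L-REL** (`MOM` and `L2IBP` are not needed). -/
theorem rel_of (hRO : RO) (hFLD : FLD) (_ : L2IBP) : REL := rel_of' hRO hFLD

end

end Crest.Agent.R146.S6Rel_42
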