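import Crest.Agent.R146.S6U_988
import Crest.Agent.R164.CavG2

/-!
Row 146, statement S0206 (helper649): the skeleton node `S6U_988.STR` from the overlap
concentration (`OVL2`) and the noise lemma (`NOISE2`).
-/

set_option autoImplicit false

namespace Crest.Agent.R146.S6Str_649

open Finset MeasureTheory ProbabilityTheory Crest.Agent.R141
open Crest.Agent.R146.S6Def_988 Crest.Agent.R146.S6U_988
open Crest.Agent.R164.CavG (E3 E3_mono E3_add E3_smul E3_base E3_swap E3_abs_le cEv pur dv cvr ip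
  E3_ip_mean E3_ip_dv pur_nonneg nonempty_of_isProb eE_sq_le)

noncomputable section

/-! ### Measurability in a parameter -/

section meas

variable {Θ : Type*} [MeasurableSpace Θ] {Ω : Type*} [Fintype Ω]

theorem meas_eE {P f : Θ → Ω → ℝ} (hP : ∀ ω, Measurable fun θ => P θ ω)
    (hf : ∀ ω, Measurable fun θ => f θ ω) : Measurable fun θ => eE (P θ) (f θ) := by
  unfold eE
  exact Finset.measurable_sum _ fun ω _ => (hP ω).mul (hf ω)

theorem meas_cE {P f : Θ → Ω → ℝ} (hP : ∀ ω, Measurable fun θ => P θ ω)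
    (hf : ∀ ω, Measurable fun θ => f θ ω) (r : Setoid Ω) (ω : Ω) :
    Measurable fun θ => cE (P θ) r (f θ) ω := by
  unfold cE
  exact (Finset.measurable_sum _ fun a _ => (hP a).mul (hf a)).div
    (Finset.measurable_sum _ fun a _ => hP a)

theorem meas_A {P : Ω → ℝ} (hP : IsProb P) {𝓕 : Filt Ω} {x : ℕ → ℝ} (hx : ∀ k, 0 < x k)
    {U : Θ → Ω → ℝ} (hU : ∀ ω, Measurable fun θ => U θ ω) (k : ℕ) :
    ∀ ω, Measurable fun θ => A P 𝓕 x (U θ) k ω := by
  induction k using back_induction 𝓕 with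
  | h0 k hk =>
    intro ω
    simp only [A_of_ge _ hk]
    exact hU ω
  | h1 k ih =>
    intro ω
    have h : (fun θ => A P 𝓕 x (U θ) k ω) =
        fun θ => pm P (𝓕.F k) (x (k + 1)) (A P 𝓕 x (U θ) (k + 1)) ω := by
      funext θ
      rw [A_step hP hx (U θ) k]
    rw [h]
    unfold pm
    have h2 : Measurable fun θ => cE P (𝓕.F k)
        (fun w => Real.exp (x (k + 1) * A P 𝓕 x (U θ) (k + 1) w)) ω :=
      meas_cE (P := fun _ => P) (fun _ => measurable_const)
        (fun w => (Real.measurable_exp.comp ((ih w).const_mul _))) (𝓕.F k) ω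
    exact (Real.measurable_log.comp h2).const_mul _

theorem meas_tl {P : Ω → ℝ} (hP : IsProb P) {𝓕 : Filt Ω} {x : ℕ → ℝ} (hx : ∀ k, 0 < x k)
    {U : Θ → Ω → ℝ} (hU : ∀ ω, Measurable fun θ => U θ ω) (ω : Ω) :
    Measurable fun θ => tl P 𝓕 x (U θ) ω := by
  unfold tl
  refine (Real.measurable_exp.comp ?_).const_mul _
  unfold S
  exact Finset.measurable_sum _ fun l _ =>
    ((meas_A hP hx hU _ ω).sub (meas_A hP hx hU _ ω)).const_mul _

end meas

/-! ### Pair form of the purity -/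

section pair

variable {Ω : Type} [Fintype Ω] {κ : Type} [Fintype κ] {P : Ω → ℝ} {r : Setoid Ω}

theorem pE_eq_E3 (hP : IsProb P) (Ψ : Ω → Ω → ℝ) : pE P r Ψ = E3 P r (fun _ a b => Ψ a b) := by
  unfold E3
  have h : ∀ ω, cE P r (fun a => cE P r (fun b => Ψ a b) ω) ω =
      cE P r (fun a => cE P r (fun b => Ψ a b) a) ω := fun ω =>
    cE_congr ω fun a ha => cE_meas P r (fun b => Ψ a b) ω a ha
  simp_rw [h]
  rw [eE_cE hP]
  rfl

theorem cEv_sq_le (hP : IsProb P) (y : Ω → κ → ℝ) (hy : ∀ ω, ∑ i, y ω i ^ 2 ≤ 1) (ω : Ω) :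
    ∑ i, cEv P r y ω i ^ 2 ≤ 1 := by
  have h1 : ∑ i, cEv P r y ω i ^ 2 ≤ ∑ i, cE P r (fun a => y a i ^ 2) ω :=
    Finset.sum_le_sum fun i _ => cE_sq_le hP r _ ω
  refine h1.trans ?_
  rw [← cE_sum]
  exact cE_le_of_le hP hy ω

theorem ip_unit (u v : κ → ℝ) : ip (fun _ : κ => ()) () u v = ∑ i, u i * v i := by
  unfold ip
  simp

/-- **pair form**: the overlap of two conditionally independent copies. -/
theorem pair_le (hP : IsProb P) (y : Ω → κ → ℝ) (hy : ∀ ω, ∑ i, y ω i ^ 2 ≤ 1) (c : ℝ) :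
    pE P r (fun a b => |∑ i, y a i * y b i - c|) ≤
      eE P (fun ω => |∑ i, cEv P r y ω i ^ 2 - c|) + 2 * Real.sqrt (Real.sqrt (pur P r y)) +
        Real.sqrt (pur P r y) := by
  rw [pE_eq_E3 hP]
  have h0 : E3 P r (fun _ a b => |∑ i, y a i * y b i - c|) ≤ E3 P r (fun ω a b =>
      |∑ i, cEv P r y ω i ^ 2 - c| +
        (|ip (fun _ : κ => ()) () (cEv P r y ω) (dv P r y ω a)| +
        (|ip (fun _ : κ => ()) () (cEv P r y ω) (dv P r y ω b)| +
          |ip (fun _ : κ => ()) () (dv P r y ω a) (dv P r y ω b)|))) := by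
    refine E3_mono hP fun ω a b _ _ => ?_
    simp only [ip_unit]
    have e : ∑ i, y a i * y b i - c = (∑ i, cEv P r y ω i ^ 2 - c) +
        (∑ i, cEv P r y ω i * dv P r y ω a i + (∑ i, cEv P r y ω i * dv P r y ω b i +
          ∑ i, dv P r y ω a i * dv P r y ω b i)) := by
      have : ∀ i, y a i * y b i = cEv P r y ω i ^ 2 + (cEv P r y ω i * dv P r y ω a i +
          (cEv P r y ω i * dv P r y ω b i + dv P r y ω a i * dv P r y ω b i)) := by
        intro i
        unfold dv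
        ring
      simp_rw [this, Finset.sum_add_distrib]
      ring
    rw [e]
    refine (abs_add_le _ _).trans (add_le_add le_rfl ((abs_add_le _ _).trans
      (add_le_add le_rfl (abs_add_le _ _))))
  refine h0.trans ?_
  rw [E3_add, E3_add, E3_add, E3_base hP (fun ω => |∑ i, cEv P r y ω i ^ 2 - c|)]
  have hC : ∀ ω, ∑ i, cEv P r y ω i ^ 2 ≤ 1 := cEv_sq_le hP y hy
  have h1 : E3 P r (fun ω a _ => |ip (fun _ : κ => ()) () (cEv P r y ω) (dv P r y ω a)|) ≤
      Real.sqrt (Real.sqrt (pur P r y)) := by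
    refine (E3_abs_le hP _).trans (Real.sqrt_le_sqrt ?_)
    have := E3_ip_mean hP (fun _ : κ => ()) () y hC
    rwa [one_mul] at this
  have h2 : E3 P r (fun ω _ b => |ip (fun _ : κ => ()) () (cEv P r y ω) (dv P r y ω b)|) ≤
      Real.sqrt (Real.sqrt (pur P r y)) := by
    rw [← E3_swap hP] at h1
    exact h1
  have h3 : E3 P r (fun ω a b => |ip (fun _ : κ => ()) () (dv P r y ω a) (dv P r y ω b)|) ≤
      Real.sqrt (pur P r y) :=
    (E3_abs_le hP _).trans (Real.sqrt_le_sqrt (E3_ip_dv hP (fun _ : κ => ()) () y))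
  linarith

/-- crude bound on the purity -/
theorem pur_le (hP : IsProb P) (y : Ω → κ → ℝ) (hy : ∀ ω, ∑ i, y ω i ^ 2 ≤ 1) :
    pur P r y ≤ (Fintype.card κ : ℝ) * ((Fintype.card κ : ℝ) * 16) := by
  unfold pur
  refine eE_le_of_le hP fun ω => ?_
  have hyi : ∀ a i, |y a i| ≤ 1 := by
    intro a i
    have h1 : y a i ^ 2 ≤ 1 :=
      (Finset.single_le_sum (f := fun i => y a i ^ 2) (fun j _ => sq_nonneg _)
        (Finset.mem_univ i)).trans (hy a)
    exact abs_le_one_iff_mul_self_le_one.2 (by nlinarith)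
  have hd : ∀ a i, |dv P r y ω a i| ≤ 2 := by
    intro a i
    unfold dv
    have h2 : |cEv P r y ω i| ≤ 1 := abs_cE_le_of_le hP (fun a => hyi a i) ω
    have h3 := abs_sub (y a i) (cEv P r y ω i)
    linarith [hyi a i]
  have hc : ∀ i j, cvr P r y i j ω ^ 2 ≤ 16 := by
    intro i j
    have h4 : |cvr P r y i j ω| ≤ 4 := by
      unfold cvr
      refine abs_cE_le_of_le hP (fun a => ?_) ω
      rw [abs_mul]
      nlinarith [hd a i, hd a j, abs_nonneg (dv P r y ω a i), abs_nonneg (dv P r y ω a j)]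
    rw [← sq_abs]
    nlinarith [abs_nonneg (cvr P r y i j ω)]
  refine (Finset.sum_le_sum fun i _ => Finset.sum_le_sum fun j _ => hc i j).trans (le_of_eq ?_)
  simp [Finset.sum_const, Finset.card_univ, nsmul_eq_mul]

theorem meas_pur' {Θ : Type*} [MeasurableSpace Θ] {P : Θ → Ω → ℝ}
    (hP : ∀ ω, Measurable fun θ => P θ ω) (r : Setoid Ω) (y : Ω → κ → ℝ) :
    Measurable fun θ => pur (P θ) r y := by
  have hd : ∀ ω a i, Measurable fun θ => dv (P θ) r y ω a i := fun ω a i =>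
    measurable_const.sub (meas_cE (P := P) (f := fun _ w => y w i) hP
      (fun _ => measurable_const) r ω)
  unfold pur
  refine meas_eE hP fun ω => ?_
  refine Finset.measurable_sum _ fun i _ => Finset.measurable_sum _ fun j _ =>
    Measurable.pow_const ?_ _
  exact meas_cE (P := P) (f := fun θ a => dv (P θ) r y ω a i * dv (P θ) r y ω a j) hP
    (fun a => (hd ω a i).mul (hd ω a j)) r ω

end pair

/-! ### The system -/

section sys

variable {N : ℕ} (C : Cfg N) (nc n : ℕ)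

theorem prior_isProb : IsProb (prior C nc n) := by
  have hc : 0 < (Fintype.card (Coins nc n N) : ℝ) := by
    exact_mod_cast Fintype.card_pos
  refine ⟨fun ω => mul_pos (C.hq.pos _) (inv_pos.2 hc), ?_⟩
  unfold prior
  rw [Fintype.sum_prod_type]
  simp only [Finset.sum_const, Finset.card_univ, nsmul_eq_mul]
  have : ∀ y : C.Y, (Fintype.card (Coins nc n N) : ℝ) *
      (C.q y * (Fintype.card (Coins nc n N) : ℝ)⁻¹) = C.q y := by
    intro y
    field_simp
  simp_rw [this]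
  exact C.hq.sum

theorem xs_pos (k : ℕ) : 0 < xs nc n k := by
  unfold xs
  refine lt_min one_pos (div_pos ?_ (by positivity))
  exact_mod_cast Nat.succ_pos _

theorem xs_expo : IsExpo (xs nc n) where
  pos := xs_pos nc n
  mono := by
    intro a b h
    unfold xs
    refine min_le_min_left _ (div_le_div_of_nonneg_right ?_ (by positivity))
    have : (a - 1) / n ≤ (b - 1) / n := Nat.div_le_div_right (by omega)
    exact_mod_cast Nat.add_le_add_right this 1
  le_one k := min_le_left _ _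

variable {M : ℕ} (f : ℕ → ℝ → ℝ)

theorem QQ_isProb (G : Fin M → Fin N → ℝ) (s : Fin nc → ℝ) : IsProb (QQ C nc n f G s) :=
  tl_isProb (prior_isProb C nc n) (xs_pos nc n) _

theorem meas_UU (hf : ∀ a, Measurable (f a)) (s : Fin nc → ℝ) (ω : Om C nc n) :
    Measurable fun G : Fin M → Fin N → ℝ => UU f G s ω := by
  unfold UU rowE
  refine Measurable.add_const ?_ _
  refine Finset.measurable_sum _ fun a _ => (hf a).comp ?_
  refine Finset.measurable_sum _ fun i _ => Measurable.mul_const ?_ _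
  exact (measurable_pi_apply i).comp (measurable_pi_apply a)

theorem meas_QQ (hf : ∀ a, Measurable (f a)) (s : Fin nc → ℝ) (ω : Om C nc n) :
    Measurable fun G : Fin M → Fin N → ℝ => QQ C nc n f G s ω :=
  meas_tl (prior_isProb C nc n) (xs_pos nc n) (meas_UU C nc n f hf s) ω

instance gam_prob (M N : ℕ) : IsProbabilityMeasure (gam M N) := by
  unfold gam
  infer_instance

/-- the squared norm of the conditional mean, normalised -/
def m2 (k : ℕ) (s : Fin nc → ℝ) (G : Fin M → Fin N → ℝ) (ω : Om C nc n) : ℝ :=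
  (N : ℝ)⁻¹ * ∑ i, (cE (QQ C nc n f G s) ((fil C nc n).F k) (fun w => C.x w.1 i) ω) ^ 2

theorem Rk_eq (s : Fin nc → ℝ) (k : ℕ) :
    Rk C nc n f M s k = ∫ G, eE (QQ C nc n (M := M) f G s) (m2 C nc n f k s G) ∂(gam M N) := rfl

theorem meas_m2 (hf : ∀ a, Measurable (f a)) (s : Fin nc → ℝ) (k : ℕ) (ω : Om C nc n) :
    Measurable fun G : Fin M → Fin N → ℝ => m2 C nc n f k s G ω := by
  unfold m2
  refine Measurable.const_mul (Finset.measurable_sum _ fun i _ => Measurable.pow_const ?_ _) _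
  exact meas_cE (P := fun G => QQ C nc n f G s) (f := fun _ w => C.x w.1 i)
    (meas_QQ C nc n f hf s) (fun _ => measurable_const) _ ω

theorem m2_nonneg (s : Fin nc → ℝ) (k : ℕ) (G : Fin M → Fin N → ℝ) (ω : Om C nc n) :
    0 ≤ m2 C nc n f k s G ω := by
  unfold m2
  exact mul_nonneg (inv_nonneg.2 (Nat.cast_nonneg _)) (Finset.sum_nonneg fun _ _ => sq_nonneg _)

theorem m2_le_one (s : Fin nc → ℝ) (k : ℕ) (G : Fin M → Fin N → ℝ) (ω : Om C nc n) :
    m2 C nc n f k s G ω ≤ 1 := by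
  unfold m2
  have hQ := QQ_isProb C nc n f G s
  have h1 : ∑ i, (cE (QQ C nc n f G s) ((fil C nc n).F k) (fun w => C.x w.1 i) ω) ^ 2 ≤
      ∑ i, cE (QQ C nc n f G s) ((fil C nc n).F k) (fun w => C.x w.1 i ^ 2) ω :=
    Finset.sum_le_sum fun i _ => cE_sq_le hQ _ _ ω
  rw [← cE_sum] at h1
  have h2 : cE (QQ C nc n f G s) ((fil C nc n).F k) (fun a => ∑ i, C.x a.1 i ^ 2) ω = N := by
    simp_rw [C.hx]
    exact cE_const hQ _ _ ω
  rw [h2] at h1
  rcases Nat.eq_zero_or_pos N with hN | hN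
  · subst hN
    simp
  · have hN' : (0 : ℝ) < N := by exact_mod_cast hN
    rw [inv_mul_le_iff₀ hN']
    linarith

theorem eE_m2_mono (s : Fin nc → ℝ) {k l : ℕ} (h : k ≤ l) (G : Fin M → Fin N → ℝ) :
    eE (QQ C nc n f G s) (m2 C nc n f k s G) ≤ eE (QQ C nc n f G s) (m2 C nc n f l s G) := by
  have hQ := QQ_isProb C nc n f G s
  have hle := (fil C nc n).anti' h
  rw [← eE_cE hQ ((fil C nc n).F k) (m2 C nc n f l s G)]
  refine eE_mono hQ fun ω => ?_
  unfold m2
  rw [cE_smul, cE_sum]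
  refine mul_le_mul_of_nonneg_left (Finset.sum_le_sum fun i _ => ?_)
    (inv_nonneg.2 (Nat.cast_nonneg _))
  rw [← cE_tower hQ hle]
  exact cE_sq_le hQ _ _ ω

theorem integrable_eE_m2 (hf : ∀ a, Measurable (f a)) (s : Fin nc → ℝ) (k : ℕ) :
    Integrable (fun G : Fin M → Fin N → ℝ => eE (QQ C nc n f G s) (m2 C nc n f k s G))
      (gam M N) := by
  refine Integrable.of_bound (C := 1) (meas_eE (meas_QQ C nc n f hf s)
    (meas_m2 C nc n f hf s k)).aestronglyMeasurable (ae_of_all _ fun G => ?_)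
  have hQ := QQ_isProb C nc n f G s
  rw [Real.norm_eq_abs, abs_of_nonneg (eE_nonneg hQ (m2_nonneg C nc n f s k G))]
  exact eE_le_of_le hQ (m2_le_one C nc n f s k G)

theorem Rk_mono (hf : ∀ a, Measurable (f a)) (s : Fin nc → ℝ) {k l : ℕ} (h : k ≤ l) :
    Rk C nc n f M s k ≤ Rk C nc n f M s l := by
  rw [Rk_eq, Rk_eq]
  exact integral_mono (integrable_eE_m2 C nc n f hf s k) (integrable_eE_m2 C nc n f hf s l)
    fun G => eE_m2_mono C nc n f s h G

theorem Rk_nonneg (s : Fin nc → ℝ) (k : ℕ) : 0 ≤ Rk C nc n f M s k := by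
  rw [Rk_eq]
  exact integral_nonneg fun G => eE_nonneg (QQ_isProb C nc n f G s) (m2_nonneg C nc n f s k G)

theorem Rk_le_one (hf : ∀ a, Measurable (f a)) (s : Fin nc → ℝ) (k : ℕ) :
    Rk C nc n f M s k ≤ 1 := by
  rw [Rk_eq]
  refine (integral_mono (integrable_eE_m2 C nc n f hf s k) (integrable_const 1)
    fun G => eE_le_of_le (QQ_isProb C nc n f G s) (m2_le_one C nc n f s k G)).trans ?_
  simp

/-- normalised coordinates -/
def yy (ω : Om C nc n) (i : Fin N) : ℝ := C.x ω.1 i / Real.sqrt N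

theorem yy_sq (hN : 0 < N) (ω : Om C nc n) : ∑ i, yy C nc n ω i ^ 2 ≤ 1 := by
  unfold yy
  have hN' : (0 : ℝ) < N := by exact_mod_cast hN
  simp_rw [div_pow, Real.sq_sqrt hN'.le]
  rw [← Finset.sum_div, C.hx, div_self hN'.ne']

theorem ovl_eq (a b : Om C nc n) : ovl C nc n a b = ∑ i, yy C nc n a i * yy C nc n b i := by
  unfold ovl yy
  rw [Finset.mul_sum]
  refine Finset.sum_congr rfl fun i _ => ?_
  rw [div_mul_div_comm, Real.mul_self_sqrt (Nat.cast_nonneg _)]
  ring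

theorem m2_eq (s : Fin nc → ℝ) (k : ℕ) (G : Fin M → Fin N → ℝ) (ω : Om C nc n) :
    m2 C nc n f k s G ω =
      ∑ i, cEv (QQ C nc n f G s) ((fil C nc n).F k) (yy C nc n) ω i ^ 2 := by
  unfold m2 cEv
  rw [Finset.mul_sum]
  refine Finset.sum_congr rfl fun i _ => ?_
  have h : (fun a => yy C nc n a i) = fun a => (Real.sqrt N)⁻¹ * C.x a.1 i := by
    funext a
    unfold yy
    ring
  rw [h, cE_smul, mul_pow, inv_pow, Real.sq_sqrt (Nat.cast_nonneg _)]

theorem meas_pur (hf : ∀ a, Measurable (f a)) (s : Fin nc → ℝ) (k : ℕ) :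
    Measurable fun G : Fin M → Fin N → ℝ =>
      pur (QQ C nc n f G s) ((fil C nc n).F k) (yy C nc n) :=
  meas_pur' (meas_QQ (M := M) C nc n f hf s) _ _

theorem sqrt_lin {p η : ℝ} (hp : 0 ≤ p) (hη : 0 < η) : Real.sqrt p ≤ η + p / η := by
  have h1 : Real.sqrt p ^ 2 = p := Real.sq_sqrt hp
  have h2 : 0 ≤ Real.sqrt p := Real.sqrt_nonneg p
  have h3 : η * Real.sqrt p ≤ η * η + p := by nlinarith [sq_nonneg (Real.sqrt p - η)]
  have h4 : (η + p / η) = (η * η + p) / η := by field_simp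
  rw [h4, le_div_iff₀ hη]
  linarith

theorem sqrt_sqrt_lin {p η : ℝ} (hp : 0 ≤ p) (hη : 0 < η) :
    Real.sqrt (Real.sqrt p) ≤ η + p / η ^ 3 := by
  set q := Real.sqrt (Real.sqrt p) with hq
  have h2 : 0 ≤ q := Real.sqrt_nonneg _
  have h1 : q ^ 4 = p := by
    have e1 : q ^ 2 = Real.sqrt p := Real.sq_sqrt (Real.sqrt_nonneg p)
    have e2 : q ^ 4 = (q ^ 2) ^ 2 := by ring
    rw [e2, e1, Real.sq_sqrt hp]
  rcases le_or_gt q η with h | h
  · have : 0 ≤ p / η ^ 3 := by positivity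
    linarith
  · have h3 : q ≤ p / η ^ 3 := by
      rw [le_div_iff₀ (by positivity), ← h1]
      have : η ^ 3 ≤ q ^ 3 := pow_le_pow_left₀ hη.le h.le 3
      nlinarith
    linarith

/-- averaged pair form -/
theorem pair_int (hN : 0 < N) (hf : ∀ a, Measurable (f a)) (s : Fin nc → ℝ) (k : ℕ) (c : ℝ)
    {η : ℝ} (hη : 0 < η) (hη1 : η ≤ 1)
    (hp : ∫ G, pur (QQ C nc n (M := M) f G s) ((fil C nc n).F k) (yy C nc n) ∂(gam M N) ≤ η ^ 4) :
    ∫ G, pE (QQ C nc n (M := M) f G s) ((fil C nc n).F k)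
      (fun a b => |ovl C nc n a b - c|) ∂(gam M N) ≤
      ∫ G, eE (QQ C nc n (M := M) f G s) (fun ω => |m2 C nc n f k s G ω - c|) ∂(gam M N) +
        6 * η := by
  have hQ : ∀ G : Fin M → Fin N → ℝ, IsProb (QQ C nc n f G s) := fun G => QQ_isProb C nc n f G s
  have ia : Integrable (fun G : Fin M → Fin N → ℝ =>
      eE (QQ C nc n f G s) (fun ω => |m2 C nc n f k s G ω - c|)) (gam M N) := by
    refine Integrable.of_bound (C := 1 + |c|) (meas_eE (meas_QQ C nc n f hf s) fun ω =>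
      (((meas_m2 C nc n f hf s k ω).sub_const c).abs)).aestronglyMeasurable
      (ae_of_all _ fun G => ?_)
    rw [Real.norm_eq_abs, abs_of_nonneg (eE_nonneg (hQ G) fun ω => abs_nonneg _)]
    refine eE_le_of_le (hQ G) fun ω => (abs_sub _ _).trans (add_le_add ?_ le_rfl)
    rw [abs_of_nonneg (m2_nonneg C nc n f s k G ω)]
    exact m2_le_one C nc n f s k G ω
  have ip : Integrable (fun G : Fin M → Fin N → ℝ =>
      pur (QQ C nc n f G s) ((fil C nc n).F k) (yy C nc n)) (gam M N) := by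
    refine Integrable.of_bound (C := (Fintype.card (Fin N) : ℝ) *
      ((Fintype.card (Fin N) : ℝ) * 16)) (meas_pur C nc n f hf s k).aestronglyMeasurable
      (ae_of_all _ fun G => ?_)
    rw [Real.norm_eq_abs, abs_of_nonneg (pur_nonneg (hQ G) _)]
    exact pur_le (hQ G) _ (yy_sq C nc n hN)
  have key : ∀ G : Fin M → Fin N → ℝ, pE (QQ C nc n f G s) ((fil C nc n).F k)
      (fun a b => |ovl C nc n a b - c|) ≤
      eE (QQ C nc n f G s) (fun ω => |m2 C nc n f k s G ω - c|) + (3 * η +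
        (2 / η ^ 3 + 1 / η) * pur (QQ C nc n f G s) ((fil C nc n).F k) (yy C nc n)) := by
    intro G
    have h1 := pair_le (r := (fil C nc n).F k) (hQ G) (yy C nc n) (yy_sq C nc n hN) c
    have h2 := sqrt_lin (pur_nonneg (r := (fil C nc n).F k) (hQ G) (yy C nc n)) hη
    have h3 := sqrt_sqrt_lin (pur_nonneg (r := (fil C nc n).F k) (hQ G) (yy C nc n)) hη
    have e1 : (fun a b : Om C nc n => |ovl C nc n a b - c|) =
        fun a b => |∑ i, yy C nc n a i * yy C nc n b i - c| := by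
      funext a b
      rw [ovl_eq]
    have e2 : (fun ω : Om C nc n => |m2 C nc n f k s G ω - c|) = fun ω =>
        |∑ i, cEv (QQ C nc n f G s) ((fil C nc n).F k) (yy C nc n) ω i ^ 2 - c| := by
      funext ω
      rw [m2_eq]
    rw [e1, e2]
    refine h1.trans ?_
    have e3 : (2 / η ^ 3 + 1 / η) * pur (QQ C nc n f G s) ((fil C nc n).F k) (yy C nc n) =
        2 * (pur (QQ C nc n f G s) ((fil C nc n).F k) (yy C nc n) / η ^ 3) +
          pur (QQ C nc n f G s) ((fil C nc n).F k) (yy C nc n) / η := by ring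
    rw [e3]
    linarith
  have i2 : Integrable (fun G : Fin M → Fin N → ℝ => 3 * η + (2 / η ^ 3 + 1 / η) *
      pur (QQ C nc n f G s) ((fil C nc n).F k) (yy C nc n)) (gam M N) :=
    (integrable_const _).add (ip.const_mul _)
  have h4 := integral_mono_of_nonneg (μ := gam M N) (ae_of_all _ fun G =>
    eE_nonneg (hQ G) fun a => cE_nonneg (hQ G) (fun b => abs_nonneg _) a)
    (ia.add i2) (ae_of_all _ key)
  refine h4.trans ?_
  simp only [Pi.add_apply]
  have h8 : ∫ G, (2 / η ^ 3 + 1 / η) *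
      pur (QQ C nc n (M := M) f G s) ((fil C nc n).F k) (yy C nc n) ∂(gam M N) =
      (2 / η ^ 3 + 1 / η) *
        ∫ G, pur (QQ C nc n (M := M) f G s) ((fil C nc n).F k) (yy C nc n) ∂(gam M N) :=
    integral_const_mul _ _
  rw [integral_add ia i2, integral_add (integrable_const _) (ip.const_mul _), h8]
  have h5 : (2 / η ^ 3 + 1 / η) *
      ∫ G, pur (QQ C nc n (M := M) f G s) ((fil C nc n).F k) (yy C nc n) ∂(gam M N) ≤
      (2 / η ^ 3 + 1 / η) * η ^ 4 := mul_le_mul_of_nonneg_left hp (by positivity)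
  have h6 : (2 / η ^ 3 + 1 / η) * η ^ 4 = 2 * η + η ^ 3 := by
    field_simp
  have h7 : η ^ 3 ≤ η := by
    have := pow_le_pow_of_le_one hη.le hη1 (show 1 ≤ 3 by norm_num)
    simpa using this
  simp only [integral_const, probReal_univ, smul_eq_mul, one_mul]
  linarith

end sys

/-! ### The two inputs -/

/-- output of S6-OVL (with S6-CIBP) -/
def OVL2 : Prop := ∀ (nc : ℕ) (b0 A K αm ε : ℝ), 0 < b0 → b0 < A → 0 < ε →
  ∃ δ : ℝ, 0 < δ ∧ ∃ (N0 : ℕ) (n0 : ℕ → ℕ), ∀ N, N0 ≤ N → ∀ n, n0 N ≤ n →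
  ∀ (C : Cfg N) (f : ℕ → ℝ → ℝ) (M : ℕ), (M : ℝ) ≤ αm * N → (∀ a, Measurable (f a)) →
  (∀ a x, |f a x| ≤ K) → ∀ s : Fin nc → ℝ, (∀ g, b0 ≤ s g ∧ s g ≤ A) →
  (∀ g, Dconc C nc n f M s g δ) → ∀ g k : ℕ, g + 2 < nc → st n g ≤ k → k < st n (g + 1) →
  ∫ G, eE (QQ C nc n (M := M) f G s) (fun ω => |(N : ℝ)⁻¹ *
    ∑ i, (cE (QQ C nc n (M := M) f G s) ((fil C nc n).F k) (fun w => C.x w.1 i) ω) ^ 2 -
      Rk C nc n f M s k|) ∂(gam M N) ≤
    ε + 2 * (Rk C nc n f M s (st n (g + 2)) - Rk C nc n f M s (st n g))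

/-- output of NOISE -/
def NOISE2 : Prop := ∀ (nc : ℕ) (b0 A K η : ℝ), 0 < b0 → b0 < A → 0 < η →
  ∃ (N0 : ℕ) (n0 : ℕ → ℕ), ∀ N, N0 ≤ N → ∀ n, n0 N ≤ n →
  ∀ (C : Cfg N) (f : ℕ → ℝ → ℝ) (M : ℕ), (∀ a, Measurable (f a)) → (∀ a x, |f a x| ≤ K) →
  ∀ s : Fin nc → ℝ, (∀ g, b0 ≤ s g ∧ s g ≤ A) → ∀ g : Fin nc, ∃ t < n,
  ∫ G, pur (QQ C nc n (M := M) f G s) ((fil C nc n).F (st n g + t))
    (fun w i => C.x w.1 i / Real.sqrt N) ∂(gam M N) ≤ η

/-! ### Assembly -/

/-- pigeonhole over two-step increments -/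
theorem pigeon2 (R : ℕ → ℝ) (h0 : ∀ k, 0 ≤ R k) (h1 : ∀ k, R k ≤ 1) {m : ℕ} (hm : 0 < m) :
    ∃ i < m, R (i + 2) - R i ≤ 2 / m := by
  by_contra hcon
  push Not at hcon
  have hsum : ∑ i ∈ range m, (R (i + 2) - R i) ≤ 2 := by
    have h2 : ∀ m, ∑ i ∈ range m, (R (i + 2) - R i) = R (m + 1) + R m - R 1 - R 0 := by
      intro m
      induction m with
      | zero => simp
      | succ m ih => rw [Finset.sum_range_succ, ih]; ring_nf
    rw [h2]
    linarith [h0 0, h0 1, h1 m, h1 (m + 1)]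
  have hlt : ∑ _i ∈ range m, (2 / m : ℝ) < ∑ i ∈ range m, (R (i + 2) - R i) := by
    refine Finset.sum_lt_sum_of_nonempty (Finset.nonempty_range_iff.2 hm.ne') fun i hi => ?_
    exact hcon i (Finset.mem_range.1 hi)
  rw [Finset.sum_const, Finset.card_range, nsmul_eq_mul] at hlt
  have hm' : (0 : ℝ) < m := by exact_mod_cast hm
  rw [mul_div_cancel₀ _ hm'.ne'] at hlt
  linarith

theorem STR_of (hO : OVL2) (hNo : NOISE2) : STR := by
  intro J ε hε
  obtain ⟨w1, hw1⟩ := exists_nat_gt (16 / ε)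
  refine ⟨w1 + 4, fun wc hwc nc hnc b0 A K αm hb0 hbA => ?_⟩
  set η : ℝ := min 1 (ε / 24) with hη
  have hη0 : 0 < η := lt_min one_pos (by positivity)
  obtain ⟨δ, hδ, N1, n1, H1⟩ := hO nc b0 A K αm (ε / 4) hb0 hbA (by positivity)
  obtain ⟨N2, n2, H2⟩ := hNo nc b0 A K (η ^ 4) hb0 hbA (by positivity)
  refine ⟨δ, hδ, max 1 (max N1 N2), fun N => max (n1 N) (n2 N), ?_⟩
  intro N hN n hn C f M hM hfm hfb s hs hD
  have hN0 : 0 < N := lt_of_lt_of_le Nat.one_pos ((le_max_left _ _).trans hN)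
  have hN1 : N1 ≤ N := ((le_max_left _ _).trans (le_max_right _ _)).trans hN
  have hN2 : N2 ≤ N := ((le_max_right _ _).trans (le_max_right _ _)).trans hN
  have hn1 : n1 N ≤ n := (le_max_left _ _).trans hn
  have hn2 : n2 N ≤ n := (le_max_right _ _).trans hn
  have G1 := H1 N hN1 n hn1 C f M hM hfm hfb s hs hD
  have G2 := H2 N hN2 n hn2 C f M hfm hfb s hs
  set R : ℕ → ℝ := fun k => Rk C nc n f M s (st n k) with hR
  -- the steps
  have hstep : ∀ b ≤ J, ∃ τ : ℕ, (st n (b * wc) ≤ τ ∧ τ < st n (b * wc + wc - 1)) ∧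
      ∫ G, pE (QQ C nc n (M := M) f G s) ((fil C nc n).F τ)
        (fun a c => |ovl C nc n a c - Rk C nc n f M s τ|) ∂(gam M N) ≤ ε := by
    intro b hb
    obtain ⟨i, hi, hinc⟩ := pigeon2 (fun j => R (b * wc + j)) (fun k => Rk_nonneg C nc n f s _)
      (fun k => Rk_le_one C nc n f hfm s _) (m := wc - 3) (by omega)
    have hbJ : b * wc ≤ J * wc := Nat.mul_le_mul_right wc hb
    have hnc' : nc + 1 = J * wc + wc := by rw [hnc]; ring
    have hg : b * wc + i + 2 < nc := by omega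
    obtain ⟨t, ht, hpur⟩ := G2 ⟨b * wc + i, by omega⟩
    have hk1 : st n (b * wc + i) ≤ st n (b * wc + i) + t := Nat.le_add_right _ _
    have hk2 : st n (b * wc + i) + t < st n (b * wc + i + 1) := by
      unfold st
      rw [add_mul (b * wc + i) 1 n, one_mul]
      omega
    have G1' := G1 (b * wc + i) (st n (b * wc + i) + t) hg hk1 hk2
    refine ⟨st n (b * wc + i) + t, ⟨?_, ?_⟩, ?_⟩
    · refine le_trans ?_ hk1
      unfold st
      exact Nat.mul_le_mul_right n (by omega)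
    · refine lt_of_lt_of_le hk2 ?_
      unfold st
      exact Nat.mul_le_mul_right n (by omega)
    · have h3 := pair_int (M := M) C nc n f hN0 hfm s (st n (b * wc + i) + t)
        (Rk C nc n f M s (st n (b * wc + i) + t)) hη0 (min_le_left _ _) hpur
      refine h3.trans ?_
      have h4 : ∫ G, eE (QQ C nc n (M := M) f G s) (fun ω =>
          |m2 C nc n f (st n (b * wc + i) + t) s G ω -
            Rk C nc n f M s (st n (b * wc + i) + t)|) ∂(gam M N) ≤
          ε / 4 + 2 * (Rk C nc n f M s (st n (b * wc + i + 2)) -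
            Rk C nc n f M s (st n (b * wc + i))) := G1'
      have h5 : Rk C nc n f M s (st n (b * wc + i + 2)) - Rk C nc n f M s (st n (b * wc + i)) ≤
          2 / ((wc - 3 : ℕ) : ℝ) := hinc
      have h6 : 2 / ((wc - 3 : ℕ) : ℝ) ≤ ε / 8 := by
        have h7 : (w1 : ℝ) ≤ ((wc - 3 : ℕ) : ℝ) := by
          exact_mod_cast (by omega : w1 ≤ wc - 3)
        have h8 : 0 < 16 / ε := by positivity
        have h9 : 16 / ε ≤ ((wc - 3 : ℕ) : ℝ) := hw1.le.trans h7
        have h10 : 2 / ((wc - 3 : ℕ) : ℝ) ≤ 2 / (16 / ε) :=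
          div_le_div_of_nonneg_left (by norm_num) h8 h9
        refine h10.trans (le_of_eq ?_)
        field_simp
        norm_num
      have h11 : η ≤ ε / 24 := min_le_right _ _
      linarith
  choose! τ hτ using hstep
  exact ⟨τ, ⟨fun b hb => (hτ b hb).1, fun b hb => (hτ b hb).2⟩⟩

end

end Crest.Agent.R146.S6Str_649
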