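import Crest.Agent.R146.S6L_988
import Crest.Agent.R146.S6Str_649

/-!
Row 146, statement S0206 (helper490): preparations for the node `S6L_988.TAYC`: lower bound of the
hierarchical functional by its linearisation, second order expansion of the new coordinate.
-/

set_option autoImplicit false

namespace Crest.Agent.R146.S6TayA_490

open Finset MeasureTheory ProbabilityTheory Crest.Agent.R141
open Crest.Agent.R146.S6Def_988 Crest.Agent.R146.S6U_988 Crest.Agent.R146.S6L_988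
open Crest.Agent.R146.S6Str_649 (meas_eE meas_cE meas_tl meas_QQ QQ_isProb xs_expo prior_isProb gam_prob)

noncomputable section

/-! ### Generic facts -/

section gen

variable {Θ : Type*} [MeasurableSpace Θ] {Ω : Type*} [Fintype Ω]

/-- measurability of `A` when the law and the potential depend on a parameter -/
theorem meas_A2 {P : Θ → Ω → ℝ} (hP : ∀ θ, IsProb (P θ)) (hPm : ∀ ω, Measurable fun θ => P θ ω)
    {𝓕 : Filt Ω} {x : ℕ → ℝ} (hx : ∀ k, 0 < x k)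
    {U : Θ → Ω → ℝ} (hU : ∀ ω, Measurable fun θ => U θ ω) (k : ℕ) :
    ∀ ω, Measurable fun θ => A (P θ) 𝓕 x (U θ) k ω := by
  induction k using back_induction 𝓕 with
  | h0 k hk =>
    intro ω
    simp only [A_of_ge _ hk]
    exact hU ω
  | h1 k ih =>
    intro ω
    have h : (fun θ => A (P θ) 𝓕 x (U θ) k ω) =
        fun θ => pm (P θ) (𝓕.F k) (x (k + 1)) (A (P θ) 𝓕 x (U θ) (k + 1)) ω := by
      funext θ
      rw [A_step (hP θ) hx (U θ) k]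
    rw [h]
    unfold pm
    have h2 : Measurable fun θ => cE (P θ) (𝓕.F k)
        (fun w => Real.exp (x (k + 1) * A (P θ) 𝓕 x (U θ) (k + 1) w)) ω :=
      meas_cE (P := P) hPm
        (fun w => (Real.measurable_exp.comp ((ih w).const_mul _))) (𝓕.F k) ω
    exact (Real.measurable_log.comp h2).const_mul _

/-- lower bound by the linearisation at a bounded potential -/
theorem A_lower {P : Ω → ℝ} (hP : IsProb P) {𝓕 : Filt Ω} {x : ℕ → ℝ} (hx : IsExpo x)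
    {V V' e : Ω → ℝ} {v : ℝ} (hv : ∀ ω, |V' ω| ≤ v) (he : ∀ ω, 0 ≤ e ω)
    (h : ∀ ω, V' ω - e ω ≤ V ω) :
    eE P (A P 𝓕 x V' 0) - Real.exp (2 * v) * eE P e ≤ eE P (A P 𝓕 x V 0) := by
  have hQ := tl_isProb (𝓕 := 𝓕) hP hx.pos V'
  have h1 : ∀ ω, A P 𝓕 x V' 0 ω + cE (tl P 𝓕 x V') (𝓕.F 0) (fun w => -e w) ω ≤
      A P 𝓕 x V 0 ω := by
    intro ω
    have h2 : A P 𝓕 x (fun w => V' w + (fun w => -e w) w) 0 ω ≤ A P 𝓕 x V 0 ω :=
      A_mono hP hx.pos (fun w => by have := h w; simp only; linarith) 0 ω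
    rw [A_cocycle hP hx.pos V' (fun w => -e w) 0 ω] at h2
    have h3 := cE_le_A (𝓕 := 𝓕) (x := x) hQ hx.pos (fun w => -e w) 0 ω
    linarith
  have h2 : eE P (fun ω => A P 𝓕 x V' 0 ω + cE (tl P 𝓕 x V') (𝓕.F 0) (fun w => -e w) ω) ≤
      eE P (A P 𝓕 x V 0) := eE_mono hP h1
  have h3 : eE P (fun ω => A P 𝓕 x V' 0 ω + cE (tl P 𝓕 x V') (𝓕.F 0) (fun w => -e w) ω) =
      eE P (A P 𝓕 x V' 0) + eE P (cE (tl P 𝓕 x V') (𝓕.F 0) (fun w => -e w)) := by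
    unfold eE
    rw [← Finset.sum_add_distrib]
    exact Finset.sum_congr rfl fun _ _ => by ring
  have h4 : eE P (cE (tl P 𝓕 x V') (𝓕.F 0) (fun w => -e w)) = - eE (tl P 𝓕 x V') e := by
    have h5 := eE_tl (𝓕 := 𝓕) hP hx.pos V' (m := 0)
      (cE_meas (tl P 𝓕 x V') (𝓕.F 0) (fun w => -e w))
    simp only [S_self, Real.exp_zero, one_mul] at h5
    have h6 : eE P (cE (tl P 𝓕 x V') (𝓕.F 0) (fun w => -e w)) =
        eE (tl P 𝓕 x V') (cE (tl P 𝓕 x V') (𝓕.F 0) (fun w => -e w)) := h5.symm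
    rw [h6, eE_cE hQ]
    unfold eE
    rw [← Finset.sum_neg_distrib]
    exact Finset.sum_congr rfl fun _ _ => by ring
  have h7 := eE_tl_le (𝓕 := 𝓕) hP hx hv he
  linarith

end gen

/-! ### Scalar Taylor expansion -/

/-- second-order Taylor bound -/
theorem taylor2 {K : ℝ} {f f1 f2 : ℝ → ℝ} (hf : S3 K f f1 f2) (h δ : ℝ) :
    |f (h + δ) - f h - f1 h * δ - f2 h * δ ^ 2 / 2| ≤ K * |δ| ^ 3 := by
  have hK : 0 ≤ K := (abs_nonneg _).trans (hf.b0 0)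
  -- first: `|f1 (h+s) - f1 h - f2 h s| ≤ K s²`
  have h1 : ∀ s : ℝ, |f1 (h + s) - f1 h - f2 h * s| ≤ K * |s| * |s| := by
    intro s
    have hd : ∀ u ∈ Set.uIcc (0 : ℝ) s, HasDerivWithinAt
        (fun u => f1 (h + u) - f1 h - f2 h * u) (f2 (h + u) - f2 h) (Set.uIcc 0 s) u := by
      intro u _
      have e1 : HasDerivAt (fun u => f1 (h + u)) (f2 (h + u)) u := by
        have := (hf.d2 (h + u)).comp_const_add h u
        exact this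
      have e2 : HasDerivAt (fun u => f1 (h + u) - f1 h - f2 h * u) (f2 (h + u) - f2 h) u := by
        have := (e1.sub_const (f1 h)).sub ((hasDerivAt_id u).const_mul (f2 h))
        exact this.congr_deriv (by simp)
      exact e2.hasDerivWithinAt
    have hb : ∀ u ∈ Set.uIcc (0 : ℝ) s, ‖f2 (h + u) - f2 h‖ ≤ K * |s| := by
      intro u hu
      rw [Real.norm_eq_abs]
      refine (hf.l2 _ _).trans ?_
      have : |h + u - h| ≤ |s| := by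
        rw [add_sub_cancel_left]
        rcases Set.mem_uIcc.1 hu with ⟨a, b⟩ | ⟨a, b⟩
        · rw [abs_of_nonneg a]; exact b.trans (le_abs_self s)
        · rw [abs_of_nonpos b]
          exact (neg_le_neg a).trans (neg_le_abs s)
      exact mul_le_mul_of_nonneg_left this hK
    have := (convex_uIcc 0 s).norm_image_sub_le_of_norm_hasDerivWithin_le hd hb
      (Set.left_mem_uIcc) (Set.right_mem_uIcc)
    simp only [Real.norm_eq_abs, add_zero, sub_self, mul_zero, sub_zero] at this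
    exact this
  have hd : ∀ u ∈ Set.uIcc (0 : ℝ) δ, HasDerivWithinAt
      (fun u => f (h + u) - f h - f1 h * u - f2 h * u ^ 2 / 2)
      (f1 (h + u) - f1 h - f2 h * u) (Set.uIcc 0 δ) u := by
    intro u _
    have e1 : HasDerivAt (fun u => f (h + u)) (f1 (h + u)) u := (hf.d1 (h + u)).comp_const_add h u
    have e3 : HasDerivAt (fun u : ℝ => f2 h * u ^ 2 / 2) (f2 h * u) u := by
      have := (((hasDerivAt_id u).pow 2).const_mul (f2 h)).div_const 2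
      refine this.congr_deriv ?_
      simp
      ring
    have e2 : HasDerivAt (fun u => f (h + u) - f h - f1 h * u - f2 h * u ^ 2 / 2)
        (f1 (h + u) - f1 h - f2 h * u) u := by
      have := ((e1.sub_const (f h)).sub ((hasDerivAt_id u).const_mul (f1 h))).sub e3
      exact this.congr_deriv (by simp)
    exact e2.hasDerivWithinAt
  have hb : ∀ u ∈ Set.uIcc (0 : ℝ) δ, ‖f1 (h + u) - f1 h - f2 h * u‖ ≤ K * |δ| * |δ| := by
    intro u hu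
    rw [Real.norm_eq_abs]
    refine (h1 u).trans ?_
    have : |u| ≤ |δ| := by
      rcases Set.mem_uIcc.1 hu with ⟨a, b⟩ | ⟨a, b⟩
      · rw [abs_of_nonneg a]; exact b.trans (le_abs_self δ)
      · rw [abs_of_nonpos b]
        exact (neg_le_neg a).trans (neg_le_abs δ)
    have h0 := abs_nonneg u
    exact mul_le_mul (mul_le_mul_of_nonneg_left this hK) this h0
      (mul_nonneg hK (abs_nonneg _))
  have := (convex_uIcc 0 δ).norm_image_sub_le_of_norm_hasDerivWithin_le hd hb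
    (Set.left_mem_uIcc) (Set.right_mem_uIcc)
  simp only [Real.norm_eq_abs, add_zero, sub_self, mul_zero, sub_zero, ne_eq, OfNat.ofNat_ne_zero,
    not_false_eq_true, zero_pow, zero_div] at this
  refine this.trans (le_of_eq ?_)
  ring

/-- the scaling factors -/
theorem scal {N k t : ℝ} (hN : 1 ≤ N) (hkN : k ^ 2 ≤ N) (ht : |t| ≤ k) :
    |Real.sqrt ((N + 1 - t ^ 2) / (N + 1)) - 1| ≤ k ^ 2 / N ∧
    |Real.sqrt ((N + 1 - t ^ 2) / (N + 1)) - 1 + t ^ 2 / (2 * N)| ≤ (k ^ 4 + k ^ 2) / N ^ 2 ∧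
    |Real.sqrt ((N + 1 - t ^ 2) / N) - 1| ≤ (1 + k ^ 2) / N := by
  have ht2 : t ^ 2 ≤ k ^ 2 := by
    rw [← sq_abs t]; exact pow_le_pow_left₀ (abs_nonneg t) ht 2
  have ht0 : 0 ≤ t ^ 2 := sq_nonneg t
  have hN0 : 0 < N := by linarith
  set w : ℝ := t ^ 2 / (N + 1) with hw
  have hw0 : 0 ≤ w := by positivity
  have hw1 : w ≤ 1 := by
    rw [hw, div_le_one (by linarith)]; linarith
  have hwN : w ≤ k ^ 2 / N := by
    rw [hw]
    exact div_le_div₀ (sq_nonneg k) ht2 hN0 (by linarith)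
  have e1 : (N + 1 - t ^ 2) / (N + 1) = 1 - w := by
    rw [hw]; field_simp
  set c := Real.sqrt ((N + 1 - t ^ 2) / (N + 1)) with hc
  have hc0 : 0 ≤ c := Real.sqrt_nonneg _
  have hc2 : c ^ 2 = 1 - w := by
    rw [hc, e1]; exact Real.sq_sqrt (by linarith)
  have hc1 : c ≤ 1 := by
    by_contra hcon; push Not at hcon; nlinarith
  have hcw : 1 - w ≤ c := by nlinarith
  have hA : |c - 1| ≤ w := by
    rw [abs_le]; constructor <;> linarith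
  -- `c - 1 + w/2 ∈ [-w²/2, 0]`
  have hB1 : c - 1 + w / 2 ≤ 0 := by nlinarith [sq_nonneg (c - 1)]
  have hB2 : - w ^ 2 ≤ c - 1 + w / 2 := by
    have h5 : (1 - c) * (1 + c) = w := by nlinarith
    have h6 : (1 - c) ≤ w := by linarith
    -- 1 - c - w/2 = (1-c)(1 - (1+c)/2) = (1-c)²/2
    have h7 : 1 - c - w / 2 = (1 - c) ^ 2 / 2 := by rw [← h5]; ring
    have h8 : (1 - c) ^ 2 ≤ w ^ 2 := pow_le_pow_left₀ (by linarith) h6 2
    nlinarith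
  refine ⟨hA.trans hwN, ?_, ?_⟩
  · have h9 : |t ^ 2 / (2 * N) - w / 2| ≤ k ^ 2 / N ^ 2 := by
      have e2 : t ^ 2 / (2 * N) - w / 2 = t ^ 2 / (2 * N * (N + 1)) := by
        rw [hw]; field_simp; ring
      rw [e2, abs_of_nonneg (by positivity)]
      refine div_le_div₀ (sq_nonneg k) ht2 (by positivity) ?_
      nlinarith
    have h10 : w ^ 2 ≤ k ^ 4 / N ^ 2 := by
      have := pow_le_pow_left₀ hw0 hwN 2
      refine this.trans (le_of_eq ?_)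
      rw [div_pow]; ring
    have e3 : c - 1 + t ^ 2 / (2 * N) = (c - 1 + w / 2) + (t ^ 2 / (2 * N) - w / 2) := by ring
    rw [e3]
    refine (abs_add_le _ _).trans ?_
    have h11 : |c - 1 + w / 2| ≤ w ^ 2 := by
      rw [abs_le]; constructor <;> nlinarith
    rw [add_div]
    linarith
  · set z : ℝ := (1 - t ^ 2) / N with hz
    have e4 : (N + 1 - t ^ 2) / N = 1 + z := by rw [hz]; field_simp; ring
    have hz1 : 0 ≤ 1 + z := by
      rw [← e4]; exact div_nonneg (by linarith) hN0.le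
    have hz2 : |z| ≤ (1 + k ^ 2) / N := by
      rw [hz, abs_div, abs_of_pos hN0]
      refine div_le_div_of_nonneg_right ?_ hN0.le
      rw [abs_le]; constructor <;> linarith
    rw [e4]
    refine le_trans ?_ hz2
    set c' := Real.sqrt (1 + z) with hc'
    have h1 : 0 ≤ c' := Real.sqrt_nonneg _
    have h2 : c' ^ 2 = 1 + z := Real.sq_sqrt hz1
    have h3 : (c' - 1) * (c' + 1) = z := by nlinarith
    rw [← h3, abs_mul]
    have h4 : 1 ≤ |c' + 1| := by rw [abs_of_nonneg (by linarith)]; linarith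
    exact le_mul_of_one_le_right (abs_nonneg _) h4

/-- `1/√(N+1)` against `1/√N` -/
theorem rs {N : ℝ} (hN : 1 ≤ N) : 0 ≤ 1 / Real.sqrt (N + 1) ∧
    1 / Real.sqrt (N + 1) ≤ 1 / Real.sqrt N ∧
    |1 / Real.sqrt (N + 1) - 1 / Real.sqrt N| ≤ 1 / (N * Real.sqrt N) := by
  have hN0 : 0 < N := by linarith
  set a := Real.sqrt N with ha
  set b := Real.sqrt (N + 1) with hb
  have ha0 : 0 < a := Real.sqrt_pos.2 hN0
  have hb0 : 0 < b := Real.sqrt_pos.2 (by linarith)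
  have ha2 : a ^ 2 = N := Real.sq_sqrt hN0.le
  have hb2 : b ^ 2 = N + 1 := Real.sq_sqrt (by linarith)
  have hab : a ≤ b := Real.sqrt_le_sqrt (by linarith)
  refine ⟨by positivity, one_div_le_one_div_of_le ha0 hab, ?_⟩
  rw [abs_sub_comm, abs_of_nonneg (sub_nonneg.2 (one_div_le_one_div_of_le ha0 hab))]
  have e : 1 / a - 1 / b = 1 / (a * b * (a + b)) := by
    field_simp
    nlinarith
  rw [e]
  refine one_div_le_one_div_of_le (by positivity) ?_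
  rw [← ha2]
  have h1 : a * a ≤ a * b := mul_le_mul_of_nonneg_left hab ha0.le
  have h2 : a ≤ a + b := by linarith
  calc a ^ 2 * a = (a * a) * a := by ring
    _ ≤ (a * b) * (a + b) := mul_le_mul h1 h2 ha0.le (by positivity)
    _ = a * b * (a + b) := rfl

/-- constant of the row lemma -/
def CR (K k : ℝ) : ℝ := K * ((k ^ 4 + k ^ 2) + k + (k ^ 4 + 2 * k ^ 3 + 2 * k ^ 2) / 2 +
  4 * (k ^ 6 + k ^ 3))

theorem CR_nonneg {K k : ℝ} (hK : 0 ≤ K) (hk : 0 ≤ k) : 0 ≤ CR K k := by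
  unfold CR; positivity

theorem powX {H Γ : ℝ} (hH0 : 0 ≤ H) (hΓ0 : 0 ≤ Γ) : H ≤ 1 + H ^ 3 + Γ ^ 3 ∧
    Γ ≤ 1 + H ^ 3 + Γ ^ 3 ∧ H ^ 2 ≤ 1 + H ^ 3 + Γ ^ 3 ∧ Γ ^ 2 ≤ 1 + H ^ 3 + Γ ^ 3 ∧
    H * Γ ≤ 1 + H ^ 3 + Γ ^ 3 := by
  have h1 := pow_nonneg hH0 3
  have h2 := pow_nonneg hΓ0 3
  have h3 : H ^ 2 ≤ 1 + H ^ 3 + Γ ^ 3 := by
    nlinarith [mul_nonneg hH0 (sq_nonneg (H - 1)), sq_nonneg (H - 1)]
  have h4 : Γ ^ 2 ≤ 1 + H ^ 3 + Γ ^ 3 := by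
    nlinarith [mul_nonneg hΓ0 (sq_nonneg (Γ - 1)), sq_nonneg (Γ - 1)]
  refine ⟨?_, ?_, h3, h4, ?_⟩
  · nlinarith [mul_nonneg hH0 (sq_nonneg (H - 1)), sq_nonneg (H - 1)]
  · nlinarith [mul_nonneg hΓ0 (sq_nonneg (Γ - 1)), sq_nonneg (Γ - 1)]
  · nlinarith [sq_nonneg (H - Γ)]

theorem rowT0 {k a c r t h g X : ℝ} (hk : 0 ≤ k) (ha0 : 0 < a) (ha1 : a ≤ 1)
    (hc1 : |c - 1| ≤ k ^ 2 * a ^ 2) (hr0 : 0 ≤ r) (hr : r ≤ a) (ht : |t| ≤ k)
    (hX6 : |h| ^ 3 ≤ X) (hX7 : |g| ^ 3 ≤ X) :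
    |(c - 1) * h + t * r * g| ^ 3 ≤ a ^ 3 * (4 * (k ^ 6 + k ^ 3) * X) := by
  have hH0 : 0 ≤ |h| := abs_nonneg _
  have hΓ0 : 0 ≤ |g| := abs_nonneg _
  have hδ1 : |(c - 1) * h + t * r * g| ≤ a * (k ^ 2 * |h| + k * |g|) := by
    refine (abs_add_le _ _).trans ?_
    rw [abs_mul, abs_mul, abs_mul, abs_of_nonneg hr0]
    have h1 : |c - 1| * |h| ≤ (k ^ 2 * a ^ 2) * |h| := mul_le_mul_of_nonneg_right hc1 hH0
    have h2 : |t| * r * |g| ≤ k * a * |g| :=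
      mul_le_mul_of_nonneg_right (mul_le_mul ht hr hr0 hk) hΓ0
    have h3 : k ^ 2 * a ^ 2 * |h| ≤ a * (k ^ 2 * |h|) := by
      have h4 : a ^ 2 ≤ a := by nlinarith
      have h5 := mul_le_mul_of_nonneg_right h4 (mul_nonneg (sq_nonneg k) hH0)
      linarith
    linarith
  have h1 := pow_le_pow_left₀ (abs_nonneg _) hδ1 3
  refine h1.trans ?_
  rw [mul_pow]
  refine mul_le_mul_of_nonneg_left ?_ (pow_nonneg ha0.le 3)
  have h2 : ∀ p q : ℝ, 0 ≤ p → 0 ≤ q → (p + q) ^ 3 ≤ 4 * (p ^ 3 + q ^ 3) := by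
    intro p q hp hq
    nlinarith [mul_nonneg (add_nonneg hp hq) (sq_nonneg (p - q))]
  refine (h2 _ _ (by positivity) (by positivity)).trans ?_
  have h3 : (k ^ 2 * |h|) ^ 3 ≤ k ^ 6 * X := by
    rw [mul_pow, ← pow_mul]
    exact mul_le_mul_of_nonneg_left hX6 (by positivity)
  have h4 : (k * |g|) ^ 3 ≤ k ^ 3 * X := by
    rw [mul_pow]
    exact mul_le_mul_of_nonneg_left hX7 (by positivity)
  linarith

theorem rowT2 {K k a c r t h g X y : ℝ} (hK : 0 ≤ K) (hy : |y| ≤ K) (hk : 0 ≤ k) (ha0 : 0 < a)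
    (ha1 : a ≤ 1)
    (hc2 : |c - 1 + t ^ 2 * a ^ 2 / 2| ≤ (k ^ 4 + k ^ 2) * a ^ 4)
    (hra : |r - a| ≤ a ^ 3) (ht : |t| ≤ k) (hX1 : |h| ≤ X) (hX2 : |g| ≤ X) :
    |y * ((c - 1 + t ^ 2 * a ^ 2 / 2) * h + t * (r - a) * g)| ≤
      K * ((k ^ 4 + k ^ 2) + k) * X * a ^ 3 := by
  have hH0 : 0 ≤ |h| := abs_nonneg _
  have hΓ0 : 0 ≤ |g| := abs_nonneg _
  have ha4 : a ^ 4 ≤ a ^ 3 := pow_le_pow_of_le_one ha0.le ha1 (by norm_num)
  rw [abs_mul]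
  have h1 : |(c - 1 + t ^ 2 * a ^ 2 / 2) * h + t * (r - a) * g| ≤
      ((k ^ 4 + k ^ 2) + k) * X * a ^ 3 := by
    refine (abs_add_le _ _).trans ?_
    rw [abs_mul, abs_mul, abs_mul]
    have h2 : |c - 1 + t ^ 2 * a ^ 2 / 2| * |h| ≤ (k ^ 4 + k ^ 2) * a ^ 3 * X := by
      refine mul_le_mul (hc2.trans ?_) hX1 hH0 (by positivity)
      exact mul_le_mul_of_nonneg_left ha4 (by positivity)
    have h3 : |t| * |r - a| * |g| ≤ k * a ^ 3 * X :=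
      mul_le_mul (mul_le_mul ht hra (abs_nonneg _) hk) hX2 hΓ0 (by positivity)
    linarith
  calc |y| * |(c - 1 + t ^ 2 * a ^ 2 / 2) * h + t * (r - a) * g| ≤
      K * (((k ^ 4 + k ^ 2) + k) * X * a ^ 3) := mul_le_mul hy h1 (abs_nonneg _) hK
    _ = _ := by ring

theorem rowT3 {K k a c r t h g X y : ℝ} (hK : 0 ≤ K) (hy : |y| ≤ K) (hk : 0 ≤ k) (ha0 : 0 < a)
    (ha1 : a ≤ 1) (hc1 : |c - 1| ≤ k ^ 2 * a ^ 2) (hr0 : 0 ≤ r) (hr : r ≤ a)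
    (hra : |r - a| ≤ a ^ 3) (ht : |t| ≤ k) (hX3 : |h| ^ 2 ≤ X) (hX4 : |g| ^ 2 ≤ X)
    (hX5 : |h| * |g| ≤ X) :
    |y / 2 * (((c - 1) * h + t * r * g) ^ 2 - t ^ 2 * g ^ 2 * a ^ 2)| ≤
      K * ((k ^ 4 + 2 * k ^ 3 + 2 * k ^ 2) / 2) * X * a ^ 3 := by
  have hX0 : 0 ≤ X := (by positivity : (0 : ℝ) ≤ |h| ^ 2).trans hX3
  have ha3 : 0 < a ^ 3 := pow_pos ha0 3
  have ha4 : a ^ 4 ≤ a ^ 3 := pow_le_pow_of_le_one ha0.le ha1 (by norm_num)
  have q1 : |(c - 1) ^ 2 * h ^ 2| ≤ k ^ 4 * X * a ^ 3 := by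
    rw [abs_mul, abs_pow, abs_pow]
    have h2 : |c - 1| ^ 2 ≤ k ^ 4 * a ^ 3 := by
      have := pow_le_pow_left₀ (abs_nonneg _) hc1 2
      refine this.trans ?_
      calc (k ^ 2 * a ^ 2) ^ 2 = k ^ 4 * a ^ 4 := by ring
        _ ≤ k ^ 4 * a ^ 3 := mul_le_mul_of_nonneg_left ha4 (by positivity)
    have h3 := mul_le_mul h2 hX3 (by positivity) (by positivity)
    linarith
  have q2 : |2 * ((c - 1) * h * (t * r * g))| ≤ 2 * k ^ 3 * X * a ^ 3 := by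
    rw [abs_mul, abs_mul, abs_mul, abs_mul, abs_mul, abs_of_nonneg hr0, abs_two]
    have h1 : |t| * r ≤ k * a := mul_le_mul ht hr hr0 hk
    have h2 : |c - 1| * (|t| * r) ≤ (k ^ 2 * a ^ 2) * (k * a) :=
      mul_le_mul hc1 h1 (by positivity) (by positivity)
    have h3 : (|c - 1| * (|t| * r)) * (|h| * |g|) ≤ ((k ^ 2 * a ^ 2) * (k * a)) * X :=
      mul_le_mul h2 hX5 (by positivity) (by positivity)
    have e1 : 2 * (|c - 1| * |h| * (|t| * r * |g|)) =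
        2 * ((|c - 1| * (|t| * r)) * (|h| * |g|)) := by ring
    have e2 : 2 * k ^ 3 * X * a ^ 3 = 2 * (((k ^ 2 * a ^ 2) * (k * a)) * X) := by ring
    rw [e1, e2]
    linarith
  have q3 : |t ^ 2 * g ^ 2 * ((r - a) * (r + a))| ≤ 2 * k ^ 2 * X * a ^ 3 := by
    rw [abs_mul, abs_mul, abs_mul, abs_pow, abs_pow, abs_of_nonneg (add_nonneg hr0 ha0.le)]
    have h3 : r + a ≤ 2 := by linarith
    have h4 : |t| ^ 2 ≤ k ^ 2 := pow_le_pow_left₀ (abs_nonneg _) ht 2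
    have h5 : |t| ^ 2 * |g| ^ 2 ≤ k ^ 2 * X := mul_le_mul h4 hX4 (by positivity) (by positivity)
    have h6 : |r - a| * (r + a) ≤ a ^ 3 * 2 :=
      mul_le_mul hra h3 (add_nonneg hr0 ha0.le) ha3.le
    have h7 := mul_le_mul h5 h6 (mul_nonneg (abs_nonneg _) (add_nonneg hr0 ha0.le))
      (by positivity)
    linarith
  have h1 : |((c - 1) * h + t * r * g) ^ 2 - t ^ 2 * g ^ 2 * a ^ 2| ≤
      (k ^ 4 + 2 * k ^ 3 + 2 * k ^ 2) * X * a ^ 3 := by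
    have e2 : ((c - 1) * h + t * r * g) ^ 2 - t ^ 2 * g ^ 2 * a ^ 2 =
        (c - 1) ^ 2 * h ^ 2 + 2 * ((c - 1) * h * (t * r * g)) +
        t ^ 2 * g ^ 2 * ((r - a) * (r + a)) := by ring
    rw [e2]
    have p0 := abs_add_le ((c - 1) ^ 2 * h ^ 2 + 2 * ((c - 1) * h * (t * r * g)))
      (t ^ 2 * g ^ 2 * ((r - a) * (r + a)))
    have p1 : |(c - 1) ^ 2 * h ^ 2 + 2 * ((c - 1) * h * (t * r * g))| ≤
        |(c - 1) ^ 2 * h ^ 2| + |2 * ((c - 1) * h * (t * r * g))| := abs_add_le _ _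
    linarith
  rw [abs_mul, abs_div, abs_two]
  have h2 := mul_le_mul (div_le_div_of_nonneg_right hy (by norm_num : (0 : ℝ) ≤ 2)) h1
    (abs_nonneg _) (by positivity)
  linarith

/-- expansion of one row -/
theorem row_exp {K k : ℝ} {f f1 f2 : ℝ → ℝ} (hf : S3 K f f1 f2) (hk : 0 ≤ k) {a c r t : ℝ}
    (ha0 : 0 < a) (ha1 : a ≤ 1) (hc1 : |c - 1| ≤ k ^ 2 * a ^ 2)
    (hc2 : |c - 1 + t ^ 2 * a ^ 2 / 2| ≤ (k ^ 4 + k ^ 2) * a ^ 4) (hr0 : 0 ≤ r) (hr : r ≤ a)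
    (hra : |r - a| ≤ a ^ 3) (ht : |t| ≤ k) (h g : ℝ) :
    |f (c * h + t * r * g) - f h - (t * (f1 h * a * g) +
      t ^ 2 / 2 * (a ^ 2 * (f2 h * g ^ 2) - a ^ 2 * (f1 h * h)))| ≤
      CR K k * a ^ 3 * (1 + |h| ^ 3 + |g| ^ 3) := by
  have hK : 0 ≤ K := (abs_nonneg _).trans (hf.b0 0)
  obtain ⟨hX1, hX2, hX3, hX4, hX5⟩ := powX (abs_nonneg h) (abs_nonneg g)
  have hX6 : |h| ^ 3 ≤ 1 + |h| ^ 3 + |g| ^ 3 := by linarith [pow_nonneg (abs_nonneg g) 3]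
  have hX7 : |g| ^ 3 ≤ 1 + |h| ^ 3 + |g| ^ 3 := by linarith [pow_nonneg (abs_nonneg h) 3]
  have T0 := rowT0 hk ha0 ha1 hc1 hr0 hr ht hX6 hX7
  have T2 := rowT2 hK (hf.b1 h) hk ha0 ha1 hc2 hra ht hX1 hX2
  have T3 := rowT3 hK (hf.b2 h) hk ha0 ha1 hc1 hr0 hr hra ht hX3 hX4 hX5
  have T1 := taylor2 hf h ((c - 1) * h + t * r * g)
  set X : ℝ := 1 + |h| ^ 3 + |g| ^ 3 with hX
  have e1 : c * h + t * r * g = h + ((c - 1) * h + t * r * g) := by ring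
  have e3 : f (c * h + t * r * g) - f h - (t * (f1 h * a * g) +
      t ^ 2 / 2 * (a ^ 2 * (f2 h * g ^ 2) - a ^ 2 * (f1 h * h))) =
      (f (h + ((c - 1) * h + t * r * g)) - f h - f1 h * ((c - 1) * h + t * r * g) -
        f2 h * ((c - 1) * h + t * r * g) ^ 2 / 2) +
      f1 h * ((c - 1 + t ^ 2 * a ^ 2 / 2) * h + t * (r - a) * g) +
      f2 h / 2 * (((c - 1) * h + t * r * g) ^ 2 - t ^ 2 * g ^ 2 * a ^ 2) := by
    rw [← e1]; ring
  rw [e3]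
  set z1 := f (h + ((c - 1) * h + t * r * g)) - f h - f1 h * ((c - 1) * h + t * r * g) -
        f2 h * ((c - 1) * h + t * r * g) ^ 2 / 2
  set z2 := f1 h * ((c - 1 + t ^ 2 * a ^ 2 / 2) * h + t * (r - a) * g)
  set z3 := f2 h / 2 * (((c - 1) * h + t * r * g) ^ 2 - t ^ 2 * g ^ 2 * a ^ 2)
  have p2 := abs_add_le (z1 + z2) z3
  have p3 := abs_add_le z1 z2
  have p4 : |z1| ≤ K * (a ^ 3 * (4 * (k ^ 6 + k ^ 3) * X)) :=
    T1.trans (mul_le_mul_of_nonneg_left T0 hK)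
  have e4 : CR K k * a ^ 3 * X = K * (a ^ 3 * (4 * (k ^ 6 + k ^ 3) * X)) +
      K * ((k ^ 4 + k ^ 2) + k) * X * a ^ 3 +
      K * ((k ^ 4 + 2 * k ^ 3 + 2 * k ^ 2) / 2) * X * a ^ 3 := by unfold CR; ring
  rw [e4]
  linarith

/-- error of the expansion of the new coordinate -/
def ER {N : ℕ} (C : Cfg N) (nc n : ℕ) {M : ℕ} (K k d : ℝ) (f1 f2 : ℝ → ℝ)
    (G : Fin M → Fin N → ℝ) (g0 : Fin M → ℝ) (s : Fin nc → ℝ) (ω : Om C nc n) : ℝ :=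
  k ^ 2 / 2 * (|RS C nc n f2 (fun _ => 1) G ω ω - RS C nc n f1 (fun x => x) G ω ω - d| +
    |(N : ℝ)⁻¹ * ∑ a, f2 (hh G a (C.x ω.1)) * (g0 a ^ 2 - 1)|) +
  CR K k * (1 / Real.sqrt N) ^ 3 * ∑ a : Fin M, (1 + |hh G a (C.x ω.1)| ^ 3 + |g0 a| ^ 3) +
  (1 + k ^ 2) / N * |fieldE s ω|

/-- expansion of `dE` -/
theorem dE_exp {N : ℕ} (hN : 0 < N) (C : Cfg N) (nc n : ℕ) {M : ℕ} {K k : ℝ} (hk : 0 ≤ k)
    (hkN : k ^ 2 ≤ N) {f f1 f2 : ℝ → ℝ} (hf : S3 K f f1 f2) (d : ℝ)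
    (G : Fin M → Fin N → ℝ) (g0 : Fin M → ℝ) (s : Fin nc → ℝ) (ω : Om C nc n) {t : ℝ}
    (ht : |t| ≤ k) :
    |dE C nc n f G g0 s ω t - (t * ∑ a, Wv C nc n f1 G ω a * g0 a + d * t ^ 2 / 2)| ≤
      ER C nc n K k d f1 f2 G g0 s ω := by
  have hN1 : (1 : ℝ) ≤ N := by exact_mod_cast hN
  have hN0 : (0 : ℝ) < N := by linarith
  obtain ⟨c1, c2, c3⟩ := scal hN1 hkN ht
  obtain ⟨r0, r1, r2⟩ := rs hN1
  set a : ℝ := 1 / Real.sqrt N with ha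
  have hsN : 0 < Real.sqrt N := Real.sqrt_pos.2 hN0
  have ha0 : 0 < a := by positivity
  have hs1 : 1 ≤ Real.sqrt N := by rw [← Real.sqrt_one]; exact Real.sqrt_le_sqrt hN1
  have ha1 : a ≤ 1 := by rw [ha, div_le_one hsN]; exact hs1
  have ha2 : a ^ 2 = (N : ℝ)⁻¹ := by
    rw [ha, div_pow, Real.sq_sqrt hN0.le]; simp
  have ha3 : a ^ 3 = 1 / (N * Real.sqrt N) := by
    rw [pow_succ, ha2, ha]; field_simp
  set c : ℝ := Real.sqrt (((N : ℝ) + 1 - t ^ 2) / ((N : ℝ) + 1)) with hc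
  set r : ℝ := 1 / Real.sqrt ((N : ℝ) + 1) with hr
  have hc1 : |c - 1| ≤ k ^ 2 * a ^ 2 := by rw [ha2, ← div_eq_mul_inv]; exact c1
  have hc2 : |c - 1 + t ^ 2 * a ^ 2 / 2| ≤ (k ^ 4 + k ^ 2) * a ^ 4 := by
    have e1 : a ^ 4 = ((N : ℝ) ^ 2)⁻¹ := by
      have : a ^ 4 = (a ^ 2) ^ 2 := by ring
      rw [this, ha2, inv_pow]
    have e2 : t ^ 2 * a ^ 2 / 2 = t ^ 2 / (2 * N) := by rw [ha2]; field_simp
    rw [e1, e2, ← div_eq_mul_inv]; exact c2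
  have hra : |r - a| ≤ a ^ 3 := by rw [ha3]; exact r2
  have key : ∀ b : Fin M, |f (c * hh G b (C.x ω.1) + t * r * g0 b) - f (hh G b (C.x ω.1)) -
      (t * (f1 (hh G b (C.x ω.1)) * a * g0 b) + t ^ 2 / 2 * (a ^ 2 * (f2 (hh G b (C.x ω.1)) *
        g0 b ^ 2) - a ^ 2 * (f1 (hh G b (C.x ω.1)) * hh G b (C.x ω.1))))| ≤
      CR K k * a ^ 3 * (1 + |hh G b (C.x ω.1)| ^ 3 + |g0 b| ^ 3) := fun b =>
    row_exp hf hk ha0 ha1 hc1 hc2 r0 r1 hra ht _ _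
  have hsum : |∑ b : Fin M, (f (c * hh G b (C.x ω.1) + t * r * g0 b) - f (hh G b (C.x ω.1)) -
      (t * (f1 (hh G b (C.x ω.1)) * a * g0 b) + t ^ 2 / 2 * (a ^ 2 * (f2 (hh G b (C.x ω.1)) *
        g0 b ^ 2) - a ^ 2 * (f1 (hh G b (C.x ω.1)) * hh G b (C.x ω.1)))))| ≤
      CR K k * a ^ 3 * ∑ b : Fin M, (1 + |hh G b (C.x ω.1)| ^ 3 + |g0 b| ^ 3) := by
    rw [Finset.mul_sum]
    exact (Finset.abs_sum_le_sum_abs _ _).trans (Finset.sum_le_sum fun b _ => key b)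
  have e5 : dE C nc n f G g0 s ω t - (t * ∑ b, Wv C nc n f1 G ω b * g0 b + d * t ^ 2 / 2) =
      (∑ b : Fin M, (f (c * hh G b (C.x ω.1) + t * r * g0 b) - f (hh G b (C.x ω.1)) -
      (t * (f1 (hh G b (C.x ω.1)) * a * g0 b) + t ^ 2 / 2 * (a ^ 2 * (f2 (hh G b (C.x ω.1)) *
        g0 b ^ 2) - a ^ 2 * (f1 (hh G b (C.x ω.1)) * hh G b (C.x ω.1)))))) +
      t ^ 2 / 2 * (RS C nc n f2 (fun _ => 1) G ω ω - RS C nc n f1 (fun x => x) G ω ω - d) +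
      t ^ 2 / 2 * ((N : ℝ)⁻¹ * ∑ b, f2 (hh G b (C.x ω.1)) * (g0 b ^ 2 - 1)) +
      (Real.sqrt (((N : ℝ) + 1 - t ^ 2) / N) - 1) * fieldE s ω := by
    unfold dE RS Wv
    rw [← hc]
    have e6 : ∀ b : Fin M, t / Real.sqrt ((N : ℝ) + 1) * g0 b = t * r * g0 b := fun b => by
      rw [hr]; ring
    simp_rw [e6]
    have e7 : ∀ b : Fin M, f1 (hh G b (C.x ω.1)) / Real.sqrt N * g0 b =
        f1 (hh G b (C.x ω.1)) * a * g0 b := fun b => by rw [ha]; ring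
    simp_rw [e7, ha2]
    simp only [Finset.sum_sub_distrib, Finset.sum_add_distrib, mul_sub, ← Finset.mul_sum, mul_one]
    ring
  rw [e5]
  have ht2 : t ^ 2 / 2 ≤ k ^ 2 / 2 := by
    have : t ^ 2 ≤ k ^ 2 := by
      rw [← sq_abs t]; exact pow_le_pow_left₀ (abs_nonneg t) ht 2
    linarith
  have ht0 : 0 ≤ t ^ 2 / 2 := by positivity
  unfold ER
  set q1 := RS C nc n f2 (fun _ => 1) G ω ω - RS C nc n f1 (fun x => x) G ω ω - d
  set q2 := (N : ℝ)⁻¹ * ∑ b, f2 (hh G b (C.x ω.1)) * (g0 b ^ 2 - 1)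
  set q3 := ∑ b : Fin M, (f (c * hh G b (C.x ω.1) + t * r * g0 b) - f (hh G b (C.x ω.1)) -
      (t * (f1 (hh G b (C.x ω.1)) * a * g0 b) + t ^ 2 / 2 * (a ^ 2 * (f2 (hh G b (C.x ω.1)) *
        g0 b ^ 2) - a ^ 2 * (f1 (hh G b (C.x ω.1)) * hh G b (C.x ω.1)))))
  set q4 := (Real.sqrt (((N : ℝ) + 1 - t ^ 2) / N) - 1) * fieldE s ω with hq4
  have p1 := abs_add_le (q3 + t ^ 2 / 2 * q1 + t ^ 2 / 2 * q2) q4
  have p2 := abs_add_le (q3 + t ^ 2 / 2 * q1) (t ^ 2 / 2 * q2)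
  have p3 := abs_add_le q3 (t ^ 2 / 2 * q1)
  have p4 : |t ^ 2 / 2 * q1| ≤ k ^ 2 / 2 * |q1| := by
    rw [abs_mul, abs_of_nonneg ht0]; exact mul_le_mul_of_nonneg_right ht2 (abs_nonneg _)
  have p5 : |t ^ 2 / 2 * q2| ≤ k ^ 2 / 2 * |q2| := by
    rw [abs_mul, abs_of_nonneg ht0]; exact mul_le_mul_of_nonneg_right ht2 (abs_nonneg _)
  have p6 : |q4| ≤ (1 + k ^ 2) / N * |fieldE s ω| := by
    rw [hq4, abs_mul]; exact mul_le_mul_of_nonneg_right c3 (abs_nonneg _)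
  linarith

end

end Crest.Agent.R146.S6TayA_490
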