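import Crest.Agent.R146.S6TayA_490

/-!
Row 146, statement S0206 (helper490): the node `S6L_988.TAYC` (Taylor expansion of the new
coordinate) from `MOM` and `FLD`.
-/

set_option autoImplicit false

namespace Crest.Agent.R146.S6Tay_490

open Finset MeasureTheory ProbabilityTheory Crest.Agent.R141
open Crest.Agent.R146.S6Def_988 Crest.Agent.R146.S6U_988 Crest.Agent.R146.S6L_988
open Crest.Agent.R146.S6TayA_490
open Crest.Agent.R146.S6Str_649 (meas_eE meas_cE meas_tl meas_QQ QQ_isProb xs_expo prior_isProb gam_prob)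

noncomputable section

/-! ### The truncated Gaussian integral -/

/-- mass of `[-k, k]` -/
def Zk (k : ℝ) : ℝ := ∫ t in (-k)..k, gaussianPDFReal 0 1 t

theorem pdf_cont : Continuous (gaussianPDFReal 0 1) := by
  unfold gaussianPDFReal
  fun_prop

theorem pdf_pos (t : ℝ) : 0 < gaussianPDFReal 0 1 t := gaussianPDFReal_pos 0 1 t one_ne_zero

theorem Zk_pos {k : ℝ} (hk : 0 < k) : 0 < Zk k := by
  unfold Zk
  exact intervalIntegral.intervalIntegral_pos_of_pos (pdf_cont.intervalIntegrable _ _) pdf_pos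
    (by linarith)

theorem Zk_le_one {k : ℝ} (hk : 0 < k) : Zk k ≤ 1 := by
  unfold Zk
  rw [intervalIntegral.integral_of_le (by linarith)]
  have h1 : ∫ t in Set.Ioc (-k) k, gaussianPDFReal 0 1 t ≤ ∫ t, gaussianPDFReal 0 1 t :=
    setIntegral_le_integral (integrable_gaussianPDFReal 0 1)
      (Filter.Eventually.of_forall fun t => (pdf_pos t).le)
  rw [integral_gaussianPDFReal_eq_one 0 one_ne_zero] at h1
  exact h1

/-- log of the truncated Gaussian integral of `exp (F t)` -/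
def LI (k : ℝ) (F : ℝ → ℝ) : ℝ := Real.log (∫ t in (-k)..k, gaussianPDFReal 0 1 t * Real.exp (F t))

theorem LI_pos {k : ℝ} (hk : 0 < k) {F : ℝ → ℝ} (hF : Continuous F) :
    0 < ∫ t in (-k)..k, gaussianPDFReal 0 1 t * Real.exp (F t) :=
  intervalIntegral.intervalIntegral_pos_of_pos
    ((pdf_cont.mul (Real.continuous_exp.comp hF)).intervalIntegrable _ _)
    (fun t => mul_pos (pdf_pos t) (Real.exp_pos _)) (by linarith)

theorem LI_mono {k : ℝ} (hk : 0 < k) {F H : ℝ → ℝ} (hF : Continuous F) (hH : Continuous H)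
    {e : ℝ} (h : ∀ t, |t| ≤ k → F t - e ≤ H t) : LI k F - e ≤ LI k H := by
  unfold LI
  have h1 : Real.exp (-e) * ∫ t in (-k)..k, gaussianPDFReal 0 1 t * Real.exp (F t) ≤
      ∫ t in (-k)..k, gaussianPDFReal 0 1 t * Real.exp (H t) := by
    rw [← intervalIntegral.integral_const_mul]
    refine intervalIntegral.integral_mono_on (by linarith) ?_ ?_ fun t ht => ?_
    · exact (continuous_const.mul (pdf_cont.mul (Real.continuous_exp.comp hF))).intervalIntegrable _ _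
    · exact (pdf_cont.mul (Real.continuous_exp.comp hH)).intervalIntegrable _ _
    · have h2 := h t (abs_le.2 ⟨ht.1, ht.2⟩)
      have h3 : Real.exp (-e) * (gaussianPDFReal 0 1 t * Real.exp (F t)) =
          gaussianPDFReal 0 1 t * Real.exp (F t - e) := by
        rw [sub_eq_add_neg, Real.exp_add]; ring
      rw [h3]
      exact mul_le_mul_of_nonneg_left (Real.exp_le_exp.2 h2) (pdf_pos t).le
  have h4 := Real.log_le_log (mul_pos (Real.exp_pos _) (LI_pos hk hF)) h1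
  rw [Real.log_mul (Real.exp_pos _).ne' (LI_pos hk hF).ne', Real.log_exp] at h4
  linarith

theorem LI_zero (k : ℝ) : LI k (fun _ => 0) = Real.log (Zk k) := by
  unfold LI Zk; simp

theorem LI_abs_le {k : ℝ} (hk : 0 < k) {F : ℝ → ℝ} (hF : Continuous F) {B : ℝ}
    (h : ∀ t, |t| ≤ k → |F t| ≤ B) : |LI k F| ≤ B - Real.log (Zk k) := by
  have h1 : LI k (fun _ => 0) - B ≤ LI k F :=
    LI_mono hk continuous_const hF fun t ht => by have := (abs_le.1 (h t ht)).1; linarith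
  have h2 : LI k F - B ≤ LI k (fun _ => 0) :=
    LI_mono hk hF continuous_const fun t ht => by have := (abs_le.1 (h t ht)).2; linarith
  rw [LI_zero] at h1 h2
  have h3 : Real.log (Zk k) ≤ 0 := Real.log_nonpos (Zk_pos hk).le (Zk_le_one hk)
  rw [abs_le]
  constructor <;> linarith

/-! ### The potential `Lam` -/

theorem Lam_eq (k d y : ℝ) : Lam k d y = LI k (fun t => t * y + d * t ^ 2 / 2) := rfl

theorem odd_zero (k : ℝ) : ∫ t in (-k)..k, gaussianPDFReal 0 1 t * t = 0 := by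
  have h1 : ∫ t in (-k)..k, gaussianPDFReal 0 1 (-t) * (-t) =
      ∫ t in (-k)..k, gaussianPDFReal 0 1 t * t := by
    have := intervalIntegral.integral_comp_neg (a := -k) (b := k)
      (fun t => gaussianPDFReal 0 1 t * t)
    simpa using this
  have h2 : ∀ t : ℝ, gaussianPDFReal 0 1 (-t) * (-t) = -(gaussianPDFReal 0 1 t * t) := by
    intro t
    unfold gaussianPDFReal
    simp
  simp_rw [h2] at h1
  rw [intervalIntegral.integral_neg] at h1
  linarith

theorem Lam_ge {k D d : ℝ} (hk : 0 < k) (hd : -D ≤ d) (y : ℝ) :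
    Real.log (Zk k) - D * k ^ 2 / 2 ≤ Lam k d y ∨ D < 0 := by
  rcases lt_or_ge D 0 with hD | hD
  · exact Or.inr hD
  refine Or.inl ?_
  have hc : Continuous fun t : ℝ => t * y := by fun_prop
  have hc2 : Continuous fun t : ℝ => t * y + d * t ^ 2 / 2 := by fun_prop
  have h1 : LI k (fun t => t * y) - D * k ^ 2 / 2 ≤ LI k (fun t => t * y + d * t ^ 2 / 2) := by
    refine LI_mono hk hc hc2 fun t ht => ?_
    have ht2 : t ^ 2 ≤ k ^ 2 := by
      rw [← sq_abs t]; exact pow_le_pow_left₀ (abs_nonneg t) ht 2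
    have h2 : -(D * k ^ 2) ≤ d * t ^ 2 := by
      have h3 := mul_le_mul_of_nonneg_left ht2 hD
      have h4 := mul_le_mul_of_nonneg_right hd (sq_nonneg t)
      linarith
    linarith
  rw [Lam_eq]
  refine le_trans ?_ h1
  have h5 : Real.log (Zk k) ≤ LI k (fun t => t * y) := by
    unfold LI
    refine Real.log_le_log (Zk_pos hk) ?_
    have h6 : Zk k = ∫ t in (-k)..k, (gaussianPDFReal 0 1 t + y * (gaussianPDFReal 0 1 t * t)) := by
      have i1 : IntervalIntegrable (fun t => y * (gaussianPDFReal 0 1 t * t)) volume (-k) k :=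
        (continuous_const.mul (pdf_cont.mul continuous_id)).intervalIntegrable _ _
      rw [intervalIntegral.integral_add (pdf_cont.intervalIntegrable _ _) i1,
        intervalIntegral.integral_const_mul, odd_zero]
      simp [Zk]
    rw [h6]
    refine intervalIntegral.integral_mono_on (by linarith) ?_ ?_ fun t _ => ?_
    · exact (pdf_cont.add (continuous_const.mul (pdf_cont.mul continuous_id))).intervalIntegrable _ _
    · exact (pdf_cont.mul (Real.continuous_exp.comp hc)).intervalIntegrable _ _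
    · have h7 := Real.add_one_le_exp (t * y)
      have h8 := mul_le_mul_of_nonneg_left h7 (pdf_pos t).le
      linarith
  linarith

/-- bound of the truncated potential -/
def vL (k L D : ℝ) : ℝ := L + D * k ^ 2 / 2 - Real.log (Zk k)

theorem LamT_abs {k L D d : ℝ} (hk : 0 < k) (hL : 0 ≤ L) (hD : 0 ≤ D) (hd : -D ≤ d) (y : ℝ) :
    |LamT k d L y| ≤ vL k L D := by
  unfold vL LamT
  have h1 := (Lam_ge hk hd y).resolve_right (not_lt.2 hD)
  have h3 : Real.log (Zk k) ≤ 0 := Real.log_nonpos (Zk_pos hk).le (Zk_le_one hk)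
  have h4 : 0 ≤ D * k ^ 2 / 2 := by positivity
  rw [abs_le]
  constructor
  · refine le_min ?_ ?_ <;> linarith
  · exact (min_le_right _ _).trans (by linarith)

/-! ### Measurability of the potentials -/

section meas

variable {Θ : Type*} [MeasurableSpace Θ]

theorem meas_LI {k : ℝ} (hk : 0 < k) {F : Θ → ℝ → ℝ}
    (hF : Measurable fun p : Θ × ℝ => F p.1 p.2) : Measurable fun θ => LI k (F θ) := by
  unfold LI
  refine Real.measurable_log.comp ?_
  have h1 : ∀ θ, ∫ t in (-k)..k, gaussianPDFReal 0 1 t * Real.exp (F θ t) =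
      ∫ t, gaussianPDFReal 0 1 t * Real.exp (F θ t) ∂(volume.restrict (Set.Ioc (-k) k)) :=
    fun θ => intervalIntegral.integral_of_le (by linarith)
  simp_rw [h1]
  have h2 : Measurable fun p : Θ × ℝ => gaussianPDFReal 0 1 p.2 * Real.exp (F p.1 p.2) :=
    (pdf_cont.measurable.comp measurable_snd).mul (Real.measurable_exp.comp hF)
  exact (h2.stronglyMeasurable.integral_prod_right).measurable

theorem meas_LamT {k : ℝ} (hk : 0 < k) (d L : ℝ) : Measurable (LamT k d L) := by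
  unfold LamT
  refine Measurable.min ?_ measurable_const
  have : Measurable fun y => LI k (fun t => t * y + d * t ^ 2 / 2) :=
    meas_LI hk (by fun_prop)
  exact this

end meas

/-! ### The potential of the new coordinate -/

section pot

variable {N : ℕ} {C : Cfg N} {nc n M : ℕ} {K k : ℝ} {f f1 f2 : ℝ → ℝ}

theorem S3.cont0 (hf : S3 K f f1 f2) : Continuous f :=
  continuous_iff_continuousAt.2 fun x => (hf.d1 x).continuousAt

theorem S3.cont1 (hf : S3 K f f1 f2) : Continuous f1 :=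
  continuous_iff_continuousAt.2 fun x => (hf.d2 x).continuousAt

theorem S3.meas2 (hf : S3 K f f1 f2) : Measurable f2 := by
  have h1 : f2 = deriv f1 := by funext x; exact (hf.d2 x).deriv.symm
  rw [h1]; exact measurable_deriv f1

theorem dV_eq (G : Fin M → Fin N → ℝ) (g0 : Fin M → ℝ) (s : Fin nc → ℝ) (ω : Om C nc n) :
    dV C nc n k f G g0 s ω = LI k (dE C nc n f G g0 s ω) := rfl

theorem dE_cont (hf : Continuous f) (G : Fin M → Fin N → ℝ) (g0 : Fin M → ℝ) (s : Fin nc → ℝ)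
    (ω : Om C nc n) : Continuous (dE C nc n f G g0 s ω) := by
  unfold dE
  fun_prop

theorem dE_meas (hf : Continuous f) (s : Fin nc → ℝ) (ω : Om C nc n) :
    Measurable fun p : ((Fin M → Fin N → ℝ) × (Fin M → ℝ)) × ℝ =>
      dE C nc n f p.1.1 p.1.2 s ω p.2 := by
  have : Continuous fun p : ((Fin M → Fin N → ℝ) × (Fin M → ℝ)) × ℝ =>
      dE C nc n f p.1.1 p.1.2 s ω p.2 := by
    unfold dE hh
    fun_prop
  exact this.measurable

theorem dV_meas (hk : 0 < k) (hf : Continuous f) (s : Fin nc → ℝ) (ω : Om C nc n) :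
    Measurable fun p : (Fin M → Fin N → ℝ) × (Fin M → ℝ) => dV C nc n k f p.1 p.2 s ω := by
  simp_rw [dV_eq]
  exact meas_LI hk (dE_meas hf s ω)

theorem LamT_meas (hk : 0 < k) (hf : S3 K f f1 f2) (d L : ℝ) (ω : Om C nc n) :
    Measurable fun p : (Fin M → Fin N → ℝ) × (Fin M → ℝ) =>
      LamT k d L (∑ a, Wv C nc n f1 p.1 ω a * p.2 a) := by
  refine (meas_LamT hk d L).comp ?_
  have h1 := S3.cont1 hf
  have : Continuous fun p : (Fin M → Fin N → ℝ) × (Fin M → ℝ) =>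
      ∑ a, Wv C nc n f1 p.1 ω a * p.2 a := by
    unfold Wv hh
    fun_prop
  exact this.measurable

/-- crude bound of `dV` -/
theorem dV_abs (hN : 0 < N) (hk : 0 < k) (hkN : k ^ 2 ≤ N) (hf : S3 K f f1 f2) (s : Fin nc → ℝ)
    {Bf : ℝ} (hBf : ∀ ω : Om C nc n, |fieldE s ω| ≤ Bf) (G : Fin M → Fin N → ℝ) (g0 : Fin M → ℝ)
    (ω : Om C nc n) :
    |dV C nc n k f G g0 s ω| ≤ 2 * K * M + (1 + k ^ 2) * Bf - Real.log (Zk k) := by
  rw [dV_eq]
  refine LI_abs_le hk (dE_cont (S3.cont0 hf) G g0 s ω) fun t ht => ?_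
  have hN1 : (1 : ℝ) ≤ N := by exact_mod_cast hN
  have hN0 : (0 : ℝ) < N := by linarith
  obtain ⟨-, -, c3⟩ := scal hN1 hkN ht
  unfold dE
  refine (abs_add_le _ _).trans (add_le_add ?_ ?_)
  · refine (Finset.abs_sum_le_sum_abs _ _).trans ?_
    have h1 : ∀ a ∈ (Finset.univ : Finset (Fin M)),
        |f (Real.sqrt (((N : ℝ) + 1 - t ^ 2) / ((N : ℝ) + 1)) * hh G a (C.x ω.1) +
          t / Real.sqrt ((N : ℝ) + 1) * g0 a) - f (hh G a (C.x ω.1))| ≤ 2 * K := fun a _ => by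
      refine (abs_sub _ _).trans ?_
      have := hf.b0 (Real.sqrt (((N : ℝ) + 1 - t ^ 2) / ((N : ℝ) + 1)) * hh G a (C.x ω.1) +
          t / Real.sqrt ((N : ℝ) + 1) * g0 a)
      have := hf.b0 (hh G a (C.x ω.1))
      linarith
    refine (Finset.sum_le_sum h1).trans (le_of_eq ?_)
    simp [Finset.sum_const, nsmul_eq_mul]; ring
  · rw [abs_mul]
    have h2 : (1 + k ^ 2) / N ≤ 1 + k ^ 2 := div_le_self (by positivity) hN1
    exact mul_le_mul (c3.trans h2) (hBf ω) (abs_nonneg _) (by positivity)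

/-- the pointwise comparison -/
theorem dV_ge (hN : 0 < N) (hk : 0 < k) (hkN : k ^ 2 ≤ N) (hf : S3 K f f1 f2) (d L : ℝ)
    (G : Fin M → Fin N → ℝ) (g0 : Fin M → ℝ) (s : Fin nc → ℝ) (ω : Om C nc n) :
    LamT k d L (∑ a, Wv C nc n f1 G ω a * g0 a) - ER C nc n K k d f1 f2 G g0 s ω ≤
      dV C nc n k f G g0 s ω := by
  have h1 : LamT k d L (∑ a, Wv C nc n f1 G ω a * g0 a) ≤
      LI k (fun t => t * (∑ a, Wv C nc n f1 G ω a * g0 a) + d * t ^ 2 / 2) := min_le_left _ _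
  rw [dV_eq]
  have h2 : LI k (fun t => t * (∑ a, Wv C nc n f1 G ω a * g0 a) + d * t ^ 2 / 2) -
      ER C nc n K k d f1 f2 G g0 s ω ≤ LI k (dE C nc n f G g0 s ω) := by
    refine LI_mono hk (by fun_prop) (dE_cont (S3.cont0 hf) G g0 s ω) fun t ht => ?_
    have h3 := (abs_le.1 (dE_exp hN C nc n hk.le hkN hf d G g0 s ω ht)).1
    linarith
  linarith

theorem ER_nonneg (hK : 0 ≤ K) (hk : 0 ≤ k) (d : ℝ) (G : Fin M → Fin N → ℝ) (g0 : Fin M → ℝ)
    (s : Fin nc → ℝ) (ω : Om C nc n) : 0 ≤ ER C nc n K k d f1 f2 G g0 s ω := by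
  unfold ER
  have := CR_nonneg hK hk
  positivity

end pot

/-! ### Gaussian moments -/

instance gv_prob (M : ℕ) : IsProbabilityMeasure (gv M) := by unfold gv; infer_instance

theorem int_cube : Integrable (fun x : ℝ => |x| ^ 3) (gaussianReal 0 1) := by
  have h := (memLp_id_gaussianReal (μ := 0) (v := 1) 3).integrable_norm_pow (by norm_num)
  simpa using h

theorem int_abs : Integrable (fun x : ℝ => |x|) (gaussianReal 0 1) := by
  have h := memLp_id_gaussianReal (μ := 0) (v := 1) 1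
  have h2 : Integrable (id : ℝ → ℝ) (gaussianReal 0 1) := memLp_one_iff_integrable.1 (by simpa using h)
  exact h2.abs

theorem memLp_sq : MemLp (fun x : ℝ => x ^ 2) 2 (gaussianReal 0 1) := by
  rw [memLp_two_iff_integrable_sq (by fun_prop)]
  have h := (memLp_id_gaussianReal (μ := 0) (v := 1) 4).integrable_norm_pow (by norm_num)
  refine h.congr (Filter.Eventually.of_forall fun x => ?_)
  simp only [id, Real.norm_eq_abs]
  have : |x| ^ 4 = (x ^ 2) ^ 2 := by rw [← abs_pow]; rw [abs_of_nonneg (by positivity)]; ring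
  simpa using this

theorem int_sq_one : ∫ x : ℝ, x ^ 2 ∂(gaussianReal 0 1) = 1 := by
  have h := variance_fun_id_gaussianReal (μ := 0) (v := 1)
  rw [variance_eq_integral measurable_id'.aemeasurable] at h
  simpa using h

/-- third absolute moment -/
def m3 : ℝ := ∫ x : ℝ, |x| ^ 3 ∂(gaussianReal 0 1)

/-- variance of the square -/
def m4 : ℝ := Var[fun x : ℝ => x ^ 2 - 1; gaussianReal 0 1]

theorem m3_nonneg : 0 ≤ m3 := integral_nonneg fun x => by positivity

theorem m4_nonneg : 0 ≤ m4 := variance_nonneg _ _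

theorem gv_eval {M : ℕ} (a : Fin M) : MeasurePreserving (fun g : Fin M → ℝ => g a) (gv M)
    (gaussianReal 0 1) := by
  unfold gv
  exact measurePreserving_eval (fun _ : Fin M => gaussianReal 0 1) a

theorem gv_int {M : ℕ} (a : Fin M) {F : ℝ → ℝ} (hF : Integrable F (gaussianReal 0 1)) :
    Integrable (fun g : Fin M → ℝ => F (g a)) (gv M) :=
  (gv_eval a).integrable_comp_of_integrable hF

theorem gv_integral {M : ℕ} (a : Fin M) {F : ℝ → ℝ} (hF : Measurable F) :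
    ∫ g, F (g a) ∂(gv M) = ∫ x, F x ∂(gaussianReal 0 1) := by
  rw [← (gv_eval a).map_eq, integral_map (measurable_pi_apply a).aemeasurable
    hF.aestronglyMeasurable]

/-- fluctuation of the weighted sum of squares -/
theorem fluct {M : ℕ} {K : ℝ} (c : Fin M → ℝ) (hc : ∀ a, |c a| ≤ K) :
    Integrable (fun g : Fin M → ℝ => ∑ a, c a * (g a ^ 2 - 1)) (gv M) ∧
    ∫ g, |∑ a, c a * (g a ^ 2 - 1)| ∂(gv M) ≤ Real.sqrt (K ^ 2 * m4 * M) := by
  have hL1 : MemLp (fun x : ℝ => x ^ 2 - 1) 2 (gaussianReal 0 1) :=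
    memLp_sq.sub (memLp_const 1)
  have hL : ∀ a, MemLp (fun x : ℝ => c a * (x ^ 2 - 1)) 2 (gaussianReal 0 1) := fun a =>
    hL1.const_mul (c a)
  have hLa : ∀ a, MemLp (fun g : Fin M → ℝ => c a * (g a ^ 2 - 1)) 2 (gv M) := fun a =>
    (hL a).comp_measurePreserving (gv_eval a)
  have hS : MemLp (fun g : Fin M → ℝ => ∑ a, c a * (g a ^ 2 - 1)) 2 (gv M) :=
    memLp_finsetSum _ fun a _ => hLa a
  have hi : Integrable (fun g : Fin M → ℝ => ∑ a, c a * (g a ^ 2 - 1)) (gv M) :=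
    hS.integrable (by norm_num)
  refine ⟨hi, ?_⟩
  set Y : (Fin M → ℝ) → ℝ := fun g => ∑ a, c a * (g a ^ 2 - 1) with hY
  have hmean : ∫ g, Y g ∂(gv M) = 0 := by
    rw [hY, integral_finsetSum _ fun a _ => (hLa a).integrable (by norm_num)]
    refine Finset.sum_eq_zero fun a _ => ?_
    rw [integral_const_mul, gv_integral a (F := fun x => x ^ 2 - 1) (by fun_prop),
      integral_sub (memLp_sq.integrable (by norm_num)) (integrable_const _), int_sq_one]
    simp
  have hvar : Var[Y; gv M] = ∑ a, c a ^ 2 * m4 := by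
    have h1 := variance_sum_pi (μ := fun _ : Fin M => gaussianReal 0 1)
      (X := fun a x => c a * (x ^ 2 - 1)) hL
    have h2 : (∑ i, fun ω : Fin M → ℝ => c i * (ω i ^ 2 - 1)) = Y := by
      funext g; simp [hY]
    rw [h2] at h1
    have h3 : Var[Y; gv M] = Var[Y; Measure.pi fun _ : Fin M => gaussianReal 0 1] := rfl
    rw [h3, h1]
    refine Finset.sum_congr rfl fun a _ => ?_
    rw [variance_const_mul]
    rfl
  have hvar2 : ∫ g, Y g ^ 2 ∂(gv M) = ∑ a, c a ^ 2 * m4 := by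
    rw [← hvar, variance_of_integral_eq_zero hi.aemeasurable hmean]
  have habs : MemLp (fun g => |Y g|) 2 (gv M) := hS.abs
  have h4 := variance_nonneg (fun g => |Y g|) (gv M)
  rw [variance_eq_sub habs] at h4
  have h5 : (∫ g, |Y g| ∂(gv M)) ^ 2 ≤ ∑ a, c a ^ 2 * m4 := by
    rw [← hvar2]
    have h6 : ∫ g, ((fun g => |Y g|) ^ 2) g ∂(gv M) = ∫ g, Y g ^ 2 ∂(gv M) := by
      refine integral_congr_ae (Filter.Eventually.of_forall fun g => ?_)
      simp
    rw [h6] at h4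
    linarith
  refine Real.le_sqrt_of_sq_le (h5.trans ?_)
  have h7 : ∀ a ∈ (Finset.univ : Finset (Fin M)), c a ^ 2 * m4 ≤ K ^ 2 * m4 := fun a _ => by
    refine mul_le_mul_of_nonneg_right ?_ m4_nonneg
    rw [← sq_abs (c a)]
    exact pow_le_pow_left₀ (abs_nonneg _) (hc a) 2
  refine (Finset.sum_le_sum h7).trans (le_of_eq ?_)
  simp [Finset.sum_const, nsmul_eq_mul]; ring

/-! ### Average of the error over the new Gaussians -/

section err

variable {N : ℕ} {C : Cfg N} {nc n M : ℕ} {K k : ℝ} {f f1 f2 : ℝ → ℝ}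

/-- pointwise bound of the averaged error -/
def EB (C : Cfg N) (nc n : ℕ) (K k d : ℝ) (f1 f2 : ℝ → ℝ) (G : Fin M → Fin N → ℝ)
    (s : Fin nc → ℝ) (ω : Om C nc n) : ℝ :=
  k ^ 2 / 2 * (|RS C nc n f2 (fun _ => 1) G ω ω - RS C nc n f1 (fun x => x) G ω ω - d| +
    (N : ℝ)⁻¹ * Real.sqrt (K ^ 2 * m4 * M)) +
  CR K k * (1 / Real.sqrt N) ^ 3 * ∑ a : Fin M, (1 + |hh G a (C.x ω.1)| ^ 3 + m3) +
  (1 + k ^ 2) / N * |fieldE s ω|

theorem ER_int (hf : S3 K f f1 f2) (d : ℝ) (G : Fin M → Fin N → ℝ)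
    (s : Fin nc → ℝ) (ω : Om C nc n) :
    Integrable (fun g0 => ER C nc n K k d f1 f2 G g0 s ω) (gv M) ∧
    ∫ g0, ER C nc n K k d f1 f2 G g0 s ω ∂(gv M) ≤ EB C nc n K k d f1 f2 G s ω := by
  have hK : 0 ≤ K := (abs_nonneg _).trans (hf.b0 0)
  obtain ⟨i1, b1⟩ := fluct (fun a : Fin M => f2 (hh G a (C.x ω.1))) (fun a => hf.b2 _)
  have i2 : Integrable (fun g0 : Fin M → ℝ =>
      |(N : ℝ)⁻¹ * ∑ a, f2 (hh G a (C.x ω.1)) * (g0 a ^ 2 - 1)|) (gv M) := (i1.const_mul _).abs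
  have i3 : ∀ a : Fin M, Integrable (fun g0 : Fin M → ℝ => |g0 a| ^ 3) (gv M) := fun a =>
    gv_int a int_cube
  have i4 : Integrable (fun g0 : Fin M → ℝ =>
      ∑ a : Fin M, (1 + |hh G a (C.x ω.1)| ^ 3 + |g0 a| ^ 3)) (gv M) :=
    integrable_finsetSum _ fun a _ => (integrable_const _).add (i3 a)
  have i5 : Integrable (fun g0 : Fin M → ℝ => k ^ 2 / 2 *
      (|RS C nc n f2 (fun _ => 1) G ω ω - RS C nc n f1 (fun x => x) G ω ω - d| +
      |(N : ℝ)⁻¹ * ∑ a, f2 (hh G a (C.x ω.1)) * (g0 a ^ 2 - 1)|)) (gv M) :=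
    ((integrable_const _).add i2).const_mul _
  have i6 : Integrable (fun g0 : Fin M → ℝ => CR K k * (1 / Real.sqrt N) ^ 3 *
      ∑ a : Fin M, (1 + |hh G a (C.x ω.1)| ^ 3 + |g0 a| ^ 3)) (gv M) := i4.const_mul _
  refine ⟨(i5.add i6).add (integrable_const _), ?_⟩
  unfold ER EB
  have i7 : Integrable (fun g0 : Fin M → ℝ => k ^ 2 / 2 *
      (|RS C nc n f2 (fun _ => 1) G ω ω - RS C nc n f1 (fun x => x) G ω ω - d| +
      |(N : ℝ)⁻¹ * ∑ a, f2 (hh G a (C.x ω.1)) * (g0 a ^ 2 - 1)|) +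
      CR K k * (1 / Real.sqrt N) ^ 3 *
      ∑ a : Fin M, (1 + |hh G a (C.x ω.1)| ^ 3 + |g0 a| ^ 3)) (gv M) := i5.add i6
  have i8 : ∀ a : Fin M, Integrable (fun g0 : Fin M → ℝ =>
      1 + |hh G a (C.x ω.1)| ^ 3 + |g0 a| ^ 3) (gv M) := fun a => (integrable_const _).add (i3 a)
  rw [integral_add i7 (integrable_const _), integral_add i5 i6, integral_const_mul,
    integral_const_mul, integral_add (integrable_const _) i2,
    integral_finsetSum _ fun a _ => i8 a]
  simp only [integral_const, probReal_univ, smul_eq_mul, one_mul]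
  have h1 : ∀ a : Fin M, ∫ g0 : Fin M → ℝ, (1 + |hh G a (C.x ω.1)| ^ 3 + |g0 a| ^ 3) ∂(gv M) =
      1 + |hh G a (C.x ω.1)| ^ 3 + m3 := fun a => by
    rw [integral_add (integrable_const _) (i3 a), gv_integral a (F := fun x => |x| ^ 3)
      (by fun_prop)]
    simp [m3]
  simp_rw [h1]
  have h2 : ∫ g0 : Fin M → ℝ, |(N : ℝ)⁻¹ * ∑ a, f2 (hh G a (C.x ω.1)) * (g0 a ^ 2 - 1)| ∂(gv M) ≤
      (N : ℝ)⁻¹ * Real.sqrt (K ^ 2 * m4 * M) := by
    have h3 : ∀ g0 : Fin M → ℝ, |(N : ℝ)⁻¹ * ∑ a, f2 (hh G a (C.x ω.1)) * (g0 a ^ 2 - 1)| =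
        (N : ℝ)⁻¹ * |∑ a, f2 (hh G a (C.x ω.1)) * (g0 a ^ 2 - 1)| := fun g0 => by
      rw [abs_mul, abs_of_nonneg (by positivity : (0 : ℝ) ≤ (N : ℝ)⁻¹)]
    simp_rw [h3]
    rw [integral_const_mul]
    exact mul_le_mul_of_nonneg_left b1 (by positivity)
  have h4 : 0 ≤ k ^ 2 / 2 := by positivity
  have h5 := mul_le_mul_of_nonneg_left h2 h4
  linarith

end err

/-! ### Field term -/

section main

variable {N : ℕ} {C : Cfg N} {nc n M : ℕ} {K k : ℝ} {f f1 f2 : ℝ → ℝ}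

theorem field_le {Q : Om C nc n → ℝ} (hQ : IsProb Q) {A CF : ℝ} {s : Fin nc → ℝ}
    (hz : ∀ g : Fin nc, eE Q (fun ω => ∑ i, zf ω.2 g i ^ 2) ≤ CF * N) (hs : ∀ g, |s g| ≤ A) :
    eE Q (fun ω => |fieldE s ω|) ≤ ((nc : ℝ) * A) * ((CF + 1) / 2 * N) := by
  have h1 : ∀ ω : Om C nc n, |fieldE s ω| ≤
      ∑ g : Fin nc, A * ((1 / 2) * ∑ i, zf ω.2 g i ^ 2 + (1 / 2) * N) := by
    intro ω
    unfold fieldE
    refine (Finset.abs_sum_le_sum_abs _ _).trans (Finset.sum_le_sum fun g _ => ?_)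
    rw [abs_mul]
    have h2 : |∑ i, zf ω.2 g i * C.x ω.1 i| ≤ (1 / 2) * ∑ i, zf ω.2 g i ^ 2 + (1 / 2) * N := by
      rw [← C.hx ω.1, Finset.mul_sum, Finset.mul_sum, ← Finset.sum_add_distrib]
      refine (Finset.abs_sum_le_sum_abs _ _).trans (Finset.sum_le_sum fun i _ => ?_)
      rw [abs_le]
      constructor <;> nlinarith [sq_nonneg (zf ω.2 g i - C.x ω.1 i),
        sq_nonneg (zf ω.2 g i + C.x ω.1 i)]
    exact mul_le_mul (hs g) h2 (abs_nonneg _) ((abs_nonneg _).trans (hs g))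
  refine (eE_mono hQ h1).trans ?_
  have h3 : eE Q (fun ω => ∑ g : Fin nc, A * ((1 / 2) * ∑ i, zf ω.2 g i ^ 2 + (1 / 2) * N)) =
      ∑ g : Fin nc, A * ((1 / 2) * eE Q (fun ω => ∑ i, zf ω.2 g i ^ 2) + (1 / 2) * N) := by
    have h4 : ∀ g : Fin nc, A * ((1 / 2) * eE Q (fun ω => ∑ i, zf ω.2 g i ^ 2) + (1 / 2) * N) =
        eE Q (fun ω => A * ((1 / 2) * ∑ i, zf ω.2 g i ^ 2 + (1 / 2) * N)) := by
      intro g
      have h5 := eE_const hQ ((1 / 2 : ℝ) * N)
      rw [← h5]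
      unfold eE
      rw [Finset.mul_sum, ← Finset.sum_add_distrib, Finset.mul_sum]
      refine Finset.sum_congr rfl fun ω _ => ?_
      have h6 : ∑ a, Q a * ((1 / 2 : ℝ) * N) = (1 / 2 : ℝ) * N := h5
      rw [h6]
      ring
    rw [Finset.sum_congr rfl fun g _ => h4 g]
    unfold eE
    rw [Finset.sum_comm]
    refine Finset.sum_congr rfl fun ω _ => ?_
    rw [Finset.mul_sum]
  rw [h3]
  have h7 : ∀ g ∈ (Finset.univ : Finset (Fin nc)),
      A * ((1 / 2) * eE Q (fun ω => ∑ i, zf ω.2 g i ^ 2) + (1 / 2) * N) ≤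
      A * ((CF + 1) / 2 * N) := fun g _ => by
    have hA : 0 ≤ A := (abs_nonneg _).trans (hs g)
    refine mul_le_mul_of_nonneg_left ?_ hA
    have := hz g
    linarith
  refine (Finset.sum_le_sum h7).trans (le_of_eq ?_)
  simp [Finset.sum_const, nsmul_eq_mul]; ring

/-! ### Integrability of the two functionals -/

/-- the functional of a potential depending on the rows and the new Gaussians -/
def SV (C : Cfg N) (nc n : ℕ) (f : ℝ → ℝ) (s : Fin nc → ℝ)
    (V : (Fin M → Fin N → ℝ) → (Fin M → ℝ) → Om C nc n → ℝ) (G : Fin M → Fin N → ℝ)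
    (g0 : Fin M → ℝ) : ℝ :=
  eE (QQ C nc n (M := M) (fun _ => f) G s)
    (Crest.Agent.R141.A (QQ C nc n (M := M) (fun _ => f) G s) (fil C nc n) (xs nc n)
      (V G g0) 0)

theorem SV_abs {s : Fin nc → ℝ} {V : (Fin M → Fin N → ℝ) → (Fin M → ℝ) → Om C nc n → ℝ} {B : ℝ}
    (hB : ∀ G g0 ω, |V G g0 ω| ≤ B) (G : Fin M → Fin N → ℝ) (g0 : Fin M → ℝ) :
    |SV C nc n f s V G g0| ≤ B := by
  have hQ := QQ_isProb C nc n (fun _ => f) G s
  unfold SV
  refine (Crest.Agent.R141.eE_abs_le hQ _).trans ?_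
  refine (eE_mono hQ fun ω => A_abs_le (𝓕 := fil C nc n) hQ (xs_expo nc n).pos (hB G g0) 0 ω).trans
    (le_of_eq (eE_const hQ _))

theorem SV_meas (hf : Measurable f) (s : Fin nc → ℝ)
    {V : (Fin M → Fin N → ℝ) → (Fin M → ℝ) → Om C nc n → ℝ}
    (hV : ∀ ω, Measurable fun p : (Fin M → Fin N → ℝ) × (Fin M → ℝ) => V p.1 p.2 ω) :
    Measurable fun p : (Fin M → Fin N → ℝ) × (Fin M → ℝ) => SV C nc n f s V p.1 p.2 := by
  have hQm : ∀ ω, Measurable fun p : (Fin M → Fin N → ℝ) × (Fin M → ℝ) =>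
      QQ C nc n (M := M) (fun _ => f) p.1 s ω := fun ω =>
    (meas_QQ C nc n (fun _ => f) (fun _ => hf) s ω).comp measurable_fst
  unfold SV
  exact meas_eE (P := fun p : (Fin M → Fin N → ℝ) × (Fin M → ℝ) =>
      QQ C nc n (M := M) (fun _ => f) p.1 s) hQm
    (meas_A2 (P := fun p : (Fin M → Fin N → ℝ) × (Fin M → ℝ) =>
      QQ C nc n (M := M) (fun _ => f) p.1 s) (fun p => QQ_isProb C nc n (fun _ => f) p.1 s) hQm
      (xs_expo nc n).pos hV 0)

theorem SV_int (hf : Measurable f) (s : Fin nc → ℝ)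
    {V : (Fin M → Fin N → ℝ) → (Fin M → ℝ) → Om C nc n → ℝ} {B : ℝ}
    (hB : ∀ G g0 ω, |V G g0 ω| ≤ B)
    (hV : ∀ ω, Measurable fun p : (Fin M → Fin N → ℝ) × (Fin M → ℝ) => V p.1 p.2 ω) :
    (∀ G, Integrable (fun g0 => SV C nc n f s V G g0) (gv M)) ∧
    Integrable (fun G => ∫ g0, SV C nc n f s V G g0 ∂(gv M)) (gam M N) := by
  have hm := SV_meas (C := C) (n := n) hf s hV
  constructor
  · intro G
    refine Integrable.of_bound (C := B) ?_ (Filter.Eventually.of_forall fun g0 => ?_)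
    · exact (hm.comp (measurable_const.prodMk measurable_id :
        Measurable fun g0 : Fin M → ℝ => (G, g0))).aestronglyMeasurable
    · rw [Real.norm_eq_abs]; exact SV_abs hB G g0
  · refine Integrable.of_bound (C := B) ?_ (Filter.Eventually.of_forall fun G => ?_)
    · exact (hm.stronglyMeasurable.integral_prod_right).aestronglyMeasurable
    · refine (norm_integral_le_of_norm_le_const (C := B) (Filter.Eventually.of_forall fun g0 => ?_)
        ).trans ?_
      · rw [Real.norm_eq_abs]; exact SV_abs hB G g0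
      · simp

end main

/-! ### Assembly -/

section asm

variable {N : ℕ} {C : Cfg N} {nc n M : ℕ} {K k : ℝ} {f f1 f2 : ℝ → ℝ}

theorem hh_meas (a : Fin M) (x : Fin N → ℝ) : Measurable fun G : Fin M → Fin N → ℝ => hh G a x := by
  have : Continuous fun G : Fin M → Fin N → ℝ => hh G a x := by
    unfold hh
    fun_prop
  exact this.measurable

/-- the deviation of the diagonal statistics is integrable -/
theorem Z_int (hM : MOM) (hN : 0 < N) (hn : 0 < n) (hf : S3 K f f1 f2) (s : Fin nc → ℝ) (d : ℝ) :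
    Integrable (fun G : Fin M → Fin N → ℝ => eE (QQ C nc n (M := M) (fun _ => f) G s)
      (fun ω => |RS C nc n f2 (fun _ => 1) G ω ω - RS C nc n f1 (fun x => x) G ω ω - d|))
      (gam M N) := by
  have hK : 0 ≤ K := (abs_nonneg _).trans (hf.b0 0)
  have hfm : Measurable f := (S3.cont0 hf).measurable
  have hN0 : (0 : ℝ) < N := by exact_mod_cast hN
  have i1 : ∀ a : Fin M, Integrable (fun G : Fin M → Fin N → ℝ =>
      eE (QQ C nc n (M := M) (fun _ => f) G s) (fun ω => |hh G a (C.x ω.1)|)) (gam M N) := fun a =>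
    (hM K N nc n hN hn C (fun _ => f) M s (fun _ => hfm) (fun _ x => hf.b0 x) a (fun x => |x|)
      (by fun_prop) (fun x => abs_nonneg x) int_abs).1
  have i2 : Integrable (fun G : Fin M → Fin N → ℝ => ((N : ℝ)⁻¹ * (M * K) + |d|) +
      (N : ℝ)⁻¹ * (K * ∑ a : Fin M, eE (QQ C nc n (M := M) (fun _ => f) G s)
        (fun ω => |hh G a (C.x ω.1)|))) (gam M N) :=
    (integrable_const _).add (((integrable_finsetSum _ fun a _ => i1 a).const_mul _).const_mul _)
  refine i2.mono' ?_ (Filter.Eventually.of_forall fun G => ?_)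
  · refine (meas_eE (P := fun G : Fin M → Fin N → ℝ => QQ C nc n (M := M) (fun _ => f) G s)
      (meas_QQ C nc n (fun _ => f) (fun _ => hfm) s) fun ω => ?_).aestronglyMeasurable
    have h2 := S3.meas2 hf
    have h1 := (S3.cont1 hf).measurable
    unfold RS
    refine ((Measurable.sub ?_ ?_).sub_const d).abs
    · exact (Finset.measurable_sum _ fun a _ => ((h2.comp (hh_meas a _)).mul_const _)).const_mul _
    · exact (Finset.measurable_sum _ fun a _ =>
        ((h1.comp (hh_meas a _)).mul (hh_meas a _))).const_mul _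
  · have hQ := QQ_isProb C nc n (fun _ => f) G s
    rw [Real.norm_eq_abs, abs_of_nonneg (eE_nonneg hQ fun ω => abs_nonneg _)]
    have hp : ∀ ω : Om C nc n,
        |RS C nc n f2 (fun _ => 1) G ω ω - RS C nc n f1 (fun x => x) G ω ω - d| ≤
        ((N : ℝ)⁻¹ * (M * K) + |d|) + (N : ℝ)⁻¹ * (K * ∑ a : Fin M, |hh G a (C.x ω.1)|) := by
      intro ω
      have q1 : |RS C nc n f2 (fun _ => 1) G ω ω| ≤ (N : ℝ)⁻¹ * (M * K) := by
        unfold RS
        rw [abs_mul, abs_of_nonneg (by positivity : (0 : ℝ) ≤ (N : ℝ)⁻¹)]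
        refine mul_le_mul_of_nonneg_left ?_ (by positivity)
        refine (Finset.abs_sum_le_sum_abs _ _).trans ?_
        have : ∀ a ∈ (Finset.univ : Finset (Fin M)), |f2 (hh G a (C.x ω.1)) * 1| ≤ K := fun a _ => by
          rw [mul_one]; exact hf.b2 _
        refine (Finset.sum_le_sum this).trans (le_of_eq ?_)
        simp [Finset.sum_const, nsmul_eq_mul]
      have q2 : |RS C nc n f1 (fun x => x) G ω ω| ≤
          (N : ℝ)⁻¹ * (K * ∑ a : Fin M, |hh G a (C.x ω.1)|) := by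
        unfold RS
        rw [abs_mul, abs_of_nonneg (by positivity : (0 : ℝ) ≤ (N : ℝ)⁻¹)]
        refine mul_le_mul_of_nonneg_left ?_ (by positivity)
        rw [Finset.mul_sum]
        refine (Finset.abs_sum_le_sum_abs _ _).trans (Finset.sum_le_sum fun a _ => ?_)
        rw [abs_mul]
        exact mul_le_mul_of_nonneg_right (hf.b1 _) (abs_nonneg _)
      have q3 := abs_sub (RS C nc n f2 (fun _ => 1) G ω ω - RS C nc n f1 (fun x => x) G ω ω) d
      have q4 := abs_sub (RS C nc n f2 (fun _ => 1) G ω ω) (RS C nc n f1 (fun x => x) G ω ω)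
      linarith
    refine (eE_mono hQ hp).trans (le_of_eq ?_)
    rw [eE_add, eE_const hQ, eE_smul, eE_smul, eE_sum]

/-- average of `EB` over the tilted law -/
theorem EB_avg {Q : Om C nc n → ℝ} (hQ : IsProb Q) (d : ℝ) (G : Fin M → Fin N → ℝ)
    (s : Fin nc → ℝ) :
    eE Q (EB C nc n K k d f1 f2 G s) =
      k ^ 2 / 2 * (eE Q (fun ω => |RS C nc n f2 (fun _ => 1) G ω ω -
        RS C nc n f1 (fun x => x) G ω ω - d|) + (N : ℝ)⁻¹ * Real.sqrt (K ^ 2 * m4 * M)) +
      CR K k * (1 / Real.sqrt N) ^ 3 *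
        (M * (1 + m3) + ∑ a : Fin M, eE Q (fun ω => |hh G a (C.x ω.1)| ^ 3)) +
      (1 + k ^ 2) / N * eE Q (fun ω => |fieldE s ω|) := by
  have e0 : EB C nc n K k d f1 f2 G s = fun ω =>
      (k ^ 2 / 2 * (|RS C nc n f2 (fun _ => 1) G ω ω - RS C nc n f1 (fun x => x) G ω ω - d| +
        (N : ℝ)⁻¹ * Real.sqrt (K ^ 2 * m4 * M)) +
      CR K k * (1 / Real.sqrt N) ^ 3 * (M * (1 + m3) + ∑ a : Fin M, |hh G a (C.x ω.1)| ^ 3)) +
      (1 + k ^ 2) / N * |fieldE s ω| := by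
    funext ω
    unfold EB
    have e1 : ∑ a : Fin M, (1 + |hh G a (C.x ω.1)| ^ 3 + m3) =
        M * (1 + m3) + ∑ a : Fin M, |hh G a (C.x ω.1)| ^ 3 := by
      simp only [Finset.sum_add_distrib, Finset.sum_const, Finset.card_univ, Fintype.card_fin,
        nsmul_eq_mul]
      ring
    rw [e1]
  rw [e0, eE_add, eE_smul, eE_add, eE_smul, eE_smul, eE_add, eE_add, eE_const hQ, eE_const hQ,
    eE_sum]

theorem sum_avg (Q : Om C nc n → ℝ) (F : (Fin M → ℝ) → Om C nc n → ℝ)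
    (hF : ∀ ω, Integrable (fun g0 => F g0 ω) (gv M)) :
    Integrable (fun g0 => eE Q (F g0)) (gv M) ∧
    ∫ g0, eE Q (F g0) ∂(gv M) = eE Q (fun ω => ∫ g0, F g0 ω ∂(gv M)) := by
  unfold eE
  refine ⟨integrable_finsetSum _ fun ω _ => (hF ω).const_mul _, ?_⟩
  rw [integral_finsetSum _ fun ω _ => (hF ω).const_mul _]
  refine Finset.sum_congr rfl fun ω _ => ?_
  rw [integral_const_mul]

/-- the inequality for fixed rows -/
theorem fix_rows (hN : 0 < N) (hk : 0 < k) (hkN : k ^ 2 ≤ N) (hf : S3 K f f1 f2) {L D d : ℝ}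
    (hL : 0 ≤ L) (hD : 0 ≤ D) (hd : -D ≤ d) (s : Fin nc → ℝ) {A CF : ℝ} (hs : ∀ g, |s g| ≤ A)
    (G : Fin M → Fin N → ℝ)
    (hz : ∀ g : Fin nc, eE (QQ C nc n (M := M) (fun _ => f) G s)
      (fun ω => ∑ i, zf ω.2 g i ^ 2) ≤ CF * N) :
    ∫ g0, SV C nc n f s (fun G g0 ω => LamT k d L (∑ a, Wv C nc n f1 G ω a * g0 a)) G g0 ∂(gv M) -
      Real.exp (2 * vL k L D) * (k ^ 2 / 2 * (eE (QQ C nc n (M := M) (fun _ => f) G s)
        (fun ω => |RS C nc n f2 (fun _ => 1) G ω ω - RS C nc n f1 (fun x => x) G ω ω - d|) +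
          (N : ℝ)⁻¹ * Real.sqrt (K ^ 2 * m4 * M)) +
        CR K k * (1 / Real.sqrt N) ^ 3 *
        (M * (1 + m3) + ∑ a : Fin M, eE (QQ C nc n (M := M) (fun _ => f) G s)
          (fun ω => |hh G a (C.x ω.1)| ^ 3)) +
        (1 + k ^ 2) * ((CF + 1) / 2) * ((nc : ℝ) * A)) ≤
    ∫ g0, SV C nc n f s (fun G g0 ω => dV C nc n k f G g0 s ω) G g0 ∂(gv M) := by
  have hK : 0 ≤ K := (abs_nonneg _).trans (hf.b0 0)
  have hQ := QQ_isProb C nc n (fun _ => f) G s
  have hN0 : (0 : ℝ) < N := by exact_mod_cast hN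
  obtain ⟨Bf, hBf⟩ : ∃ B, ∀ ω : Om C nc n, |fieldE s ω| ≤ B :=
    ⟨∑ ω : Om C nc n, |fieldE s ω|, fun ω =>
      Finset.single_le_sum (f := fun ω => |fieldE s ω|) (fun _ _ => abs_nonneg _)
        (Finset.mem_univ ω)⟩
  have hfm : Measurable f := (S3.cont0 hf).measurable
  have I1 := (SV_int (C := C) (n := n) hfm s
    (V := fun G g0 ω => LamT k d L (∑ a, Wv C nc n f1 G ω a * g0 a))
    (fun G g0 ω => LamT_abs hk hL hD hd _) (fun ω => LamT_meas hk hf d L ω)).1 G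
  have I2 := (SV_int (C := C) (n := n) hfm s (V := fun G g0 ω => dV C nc n k f G g0 s ω)
    (fun G g0 ω => dV_abs hN hk hkN hf s hBf G g0 ω)
    (fun ω => dV_meas hk (S3.cont0 hf) s ω)).1 G
  have E1 := sum_avg (QQ C nc n (M := M) (fun _ => f) G s)
    (fun g0 ω => ER C nc n K k d f1 f2 G g0 s ω) (fun ω => (ER_int hf d G s ω).1)
  have E2 : ∫ g0, eE (QQ C nc n (M := M) (fun _ => f) G s)
      (fun ω => ER C nc n K k d f1 f2 G g0 s ω) ∂(gv M) ≤
      eE (QQ C nc n (M := M) (fun _ => f) G s) (EB C nc n K k d f1 f2 G s) := by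
    rw [E1.2]
    exact eE_mono hQ fun ω => (ER_int hf d G s ω).2
  have h1 : ∀ g0 : Fin M → ℝ,
      SV C nc n f s (fun G g0 ω => LamT k d L (∑ a, Wv C nc n f1 G ω a * g0 a)) G g0 -
        Real.exp (2 * vL k L D) * eE (QQ C nc n (M := M) (fun _ => f) G s)
          (fun ω => ER C nc n K k d f1 f2 G g0 s ω) ≤
      SV C nc n f s (fun G g0 ω => dV C nc n k f G g0 s ω) G g0 := fun g0 =>
    A_lower hQ (xs_expo nc n) (fun ω => LamT_abs hk hL hD hd _)
      (fun ω => ER_nonneg hK hk.le d G g0 s ω) (fun ω => dV_ge hN hk hkN hf d L G g0 s ω)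
  have h2 := integral_mono (I1.sub (E1.1.const_mul (Real.exp (2 * vL k L D)))) I2 h1
  simp only [Pi.sub_apply] at h2
  rw [integral_sub I1 (E1.1.const_mul _), integral_const_mul] at h2
  have h3 := EB_avg (K := K) (k := k) (f1 := f1) (f2 := f2) hQ d G s
  have h4 := field_le hQ hz hs
  have h5 : (1 + k ^ 2) / N * eE (QQ C nc n (M := M) (fun _ => f) G s) (fun ω => |fieldE s ω|) ≤
      (1 + k ^ 2) * ((CF + 1) / 2) * ((nc : ℝ) * A) := by
    calc (1 + k ^ 2) / N * eE (QQ C nc n (M := M) (fun _ => f) G s) (fun ω => |fieldE s ω|) ≤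
        (1 + k ^ 2) / N * (((nc : ℝ) * A) * ((CF + 1) / 2 * N)) :=
          mul_le_mul_of_nonneg_left h4 (by positivity)
      _ = _ := by field_simp
  have hE : 0 ≤ Real.exp (2 * vL k L D) := (Real.exp_pos _).le
  refine le_trans (sub_le_sub_left (mul_le_mul_of_nonneg_left ?_ hE) _) h2
  refine E2.trans ?_
  rw [h3]
  linarith

end asm

/-- **the node** -/
theorem tayc_of (hM : MOM) (hF : FLD) : TAYC := by
  intro αm K k L D hk hL hD
  rcases lt_or_ge K 0 with hK | hK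
  · refine ⟨0, le_rfl, fun ε _ => ⟨0, fun N _ _ nc n _ C f f1 f2 hf => ?_⟩⟩
    exact absurd ((abs_nonneg _).trans (hf.b0 0)) (not_le.2 hK)
  obtain ⟨CF, hCF0, hCF⟩ := hF αm K
  set E : ℝ := Real.exp (2 * vL k L D) with hE
  have hE0 : 0 < E := Real.exp_pos _
  refine ⟨E * (k ^ 2 / 2) + E * ((1 + k ^ 2) * ((CF + 1) / 2)), by positivity, ?_⟩
  intro ε hε
  set B1 : ℝ := k ^ 2 / 2 * Real.sqrt (K ^ 2 * m4 * |αm|) +
    CR K k * (|αm| * (1 + m3) + |αm| * (Real.exp (4 * K) * m3)) with hB1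
  have hCR := CR_nonneg hK hk.le
  have hm3 := m3_nonneg
  have hB0 : 0 ≤ B1 := by rw [hB1]; positivity
  obtain ⟨N1, hN1⟩ := exists_nat_gt (max (k ^ 2) ((E * B1 / ε) ^ 2))
  refine ⟨N1, fun N hNN hN nc n hn C f f1 f2 hf M A s hMN hs hA d hd1 hd2 => ?_⟩
  have hN0 : (0 : ℝ) < N := by exact_mod_cast hN
  have hNN' : max (k ^ 2) ((E * B1 / ε) ^ 2) < N := hN1.trans_le (by exact_mod_cast hNN)
  have hkN : k ^ 2 ≤ N := (le_max_left _ _).trans hNN'.le
  have hsN : 0 < Real.sqrt N := Real.sqrt_pos.2 hN0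
  have hsmall : E * B1 * (1 / Real.sqrt N) ≤ ε := by
    have h1 : E * B1 / ε ≤ Real.sqrt N :=
      Real.le_sqrt_of_sq_le ((le_max_right _ _).trans hNN'.le)
    rw [div_le_iff₀ hε] at h1
    rw [mul_one_div, div_le_iff₀ hsN]
    linarith
  have hfm : Measurable f := (S3.cont0 hf).measurable
  obtain ⟨Bf, hBf⟩ : ∃ B, ∀ ω : Om C nc n, |fieldE s ω| ≤ B :=
    ⟨∑ ω : Om C nc n, |fieldE s ω|, fun ω =>
      Finset.single_le_sum (f := fun ω => |fieldE s ω|) (fun _ _ => abs_nonneg _)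
        (Finset.mem_univ ω)⟩
  have J1 := (SV_int (C := C) (n := n) (M := M) hfm s
    (V := fun G g0 ω => LamT k d L (∑ a, Wv C nc n f1 G ω a * g0 a))
    (fun G g0 ω => LamT_abs hk hL hD hd1 _) (fun ω => LamT_meas hk hf d L ω)).2
  have J2 := (SV_int (C := C) (n := n) (M := M) hfm s (V := fun G g0 ω => dV C nc n k f G g0 s ω)
    (fun G g0 ω => dV_abs hN hk hkN hf s hBf G g0 ω)
    (fun ω => dV_meas hk (S3.cont0 hf) s ω)).2
  have J3 := Z_int (C := C) (nc := nc) (n := n) (M := M) hM hN hn hf s d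
  have mo : ∀ a : Fin M, _ := fun a =>
    hM K N nc n hN hn C (fun _ => f) M s (fun _ => hfm) (fun _ x => hf.b0 x) a (fun x => |x| ^ 3)
      (by fun_prop) (fun x => by positivity) int_cube
  have J4 : Integrable (fun G : Fin M → Fin N → ℝ =>
      ∑ a : Fin M, eE (QQ C nc n (M := M) (fun _ => f) G s) (fun ω => |hh G a (C.x ω.1)| ^ 3))
      (gam M N) := integrable_finsetSum _ fun a _ => (mo a).1
  have b4 : ∫ G : Fin M → Fin N → ℝ,
      ∑ a : Fin M, eE (QQ C nc n (M := M) (fun _ => f) G s) (fun ω => |hh G a (C.x ω.1)| ^ 3)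
      ∂(gam M N) ≤ M * (Real.exp (4 * K) * m3) := by
    have h0 : ∫ G : Fin M → Fin N → ℝ,
      ∑ a : Fin M, eE (QQ C nc n (M := M) (fun _ => f) G s) (fun ω => |hh G a (C.x ω.1)| ^ 3)
      ∂(gam M N) = ∑ a : Fin M, ∫ G : Fin M → Fin N → ℝ,
        eE (QQ C nc n (M := M) (fun _ => f) G s) (fun ω => |hh G a (C.x ω.1)| ^ 3) ∂(gam M N) :=
      integral_finsetSum _ fun a _ => (mo a).1
    rw [h0]
    refine (Finset.sum_le_sum fun a _ => (mo a).2).trans (le_of_eq ?_)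
    simp [Finset.sum_const, nsmul_eq_mul, m3]
  set Z : (Fin M → Fin N → ℝ) → ℝ := fun G => eE (QQ C nc n (M := M) (fun _ => f) G s)
      (fun ω => |RS C nc n f2 (fun _ => 1) G ω ω - RS C nc n f1 (fun x => x) G ω ω - d|) with hZ
  set W : (Fin M → Fin N → ℝ) → ℝ := fun G =>
      ∑ a : Fin M, eE (QQ C nc n (M := M) (fun _ => f) G s) (fun ω => |hh G a (C.x ω.1)| ^ 3) with hW
  set q0 : ℝ := (N : ℝ)⁻¹ * Real.sqrt (K ^ 2 * m4 * M) with hq0
  set q1 : ℝ := CR K k * (1 / Real.sqrt N) ^ 3 with hq1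
  set q2 : ℝ := (1 + k ^ 2) * ((CF + 1) / 2) * ((nc : ℝ) * A) with hq2
  set X1 : (Fin M → Fin N → ℝ) → ℝ := fun G => ∫ g0, SV C nc n f s
    (fun G g0 ω => LamT k d L (∑ a, Wv C nc n f1 G ω a * g0 a)) G g0 ∂(gv M) with hX1
  set X2 : (Fin M → Fin N → ℝ) → ℝ := fun G => ∫ g0, SV C nc n f s
    (fun G g0 ω => dV C nc n k f G g0 s ω) G g0 ∂(gv M) with hX2
  have key : ∀ G : Fin M → Fin N → ℝ,
      X1 G - E * (k ^ 2 / 2 * (Z G + q0) + q1 * (M * (1 + m3) + W G) + q2) ≤ X2 G := fun G =>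
    fix_rows hN hk hkN hf hL hD hd1 s hs G
      (hCF N nc n hN hn C (fun _ => f) M G A s hMN (fun _ x => hf.b0 x) hs hA)
  have J5 : Integrable (fun G : Fin M → Fin N → ℝ =>
      E * (k ^ 2 / 2 * (Z G + q0) + q1 * (M * (1 + m3) + W G) + q2)) (gam M N) :=
    (((J3.add (integrable_const q0)).const_mul (k ^ 2 / 2)).add
      (((integrable_const ((M : ℝ) * (1 + m3))).add J4).const_mul q1)
      |>.add (integrable_const q2)).const_mul E
  have h2 : ∫ G, (X1 G - E * (k ^ 2 / 2 * (Z G + q0) + q1 * (M * (1 + m3) + W G) + q2))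
      ∂(gam M N) ≤ ∫ G, X2 G ∂(gam M N) := integral_mono (J1.sub J5) J2 key
  have e1 : ∫ G, (X1 G - E * (k ^ 2 / 2 * (Z G + q0) + q1 * (M * (1 + m3) + W G) + q2))
      ∂(gam M N) = ∫ G, X1 G ∂(gam M N) - E * (k ^ 2 / 2 * (∫ G, Z G ∂(gam M N) + q0) +
        q1 * (M * (1 + m3) + ∫ G, W G ∂(gam M N)) + q2) := by
    have i1 : Integrable (fun G => Z G + q0) (gam M N) := J3.add (integrable_const q0)
    have i2 : Integrable (fun G => (M : ℝ) * (1 + m3) + W G) (gam M N) :=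
      (integrable_const _).add J4
    have i3 : Integrable (fun G => k ^ 2 / 2 * (Z G + q0)) (gam M N) := i1.const_mul _
    have i4 : Integrable (fun G => q1 * (M * (1 + m3) + W G)) (gam M N) := i2.const_mul _
    have i5 : Integrable (fun G => k ^ 2 / 2 * (Z G + q0) + q1 * (M * (1 + m3) + W G))
      (gam M N) := i3.add i4
    rw [integral_sub J1 J5, integral_const_mul, integral_add i5 (integrable_const _),
      integral_add i3 i4, integral_const_mul, integral_const_mul,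
      integral_add J3 (integrable_const _), integral_add (integrable_const _) J4]
    simp
  rw [e1] at h2
  -- the small terms
  have hMN' : (M : ℝ) ≤ |αm| * N :=
    hMN.trans (mul_le_mul_of_nonneg_right (le_abs_self _) hN0.le)
  have hm4 := m4_nonneg
  have s1 : q0 ≤ Real.sqrt (K ^ 2 * m4 * |αm|) * (1 / Real.sqrt N) := by
    have h3 : Real.sqrt (K ^ 2 * m4 * M) ≤ Real.sqrt (K ^ 2 * m4 * |αm|) * Real.sqrt N := by
      rw [← Real.sqrt_mul (by positivity)]
      refine Real.sqrt_le_sqrt ?_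
      rw [mul_assoc (K ^ 2 * m4)]
      exact mul_le_mul_of_nonneg_left hMN' (by positivity)
    rw [hq0]
    calc (N : ℝ)⁻¹ * Real.sqrt (K ^ 2 * m4 * M) ≤
        (N : ℝ)⁻¹ * (Real.sqrt (K ^ 2 * m4 * |αm|) * Real.sqrt N) :=
          mul_le_mul_of_nonneg_left h3 (by positivity)
      _ = Real.sqrt (K ^ 2 * m4 * |αm|) * (1 / Real.sqrt N) := by
          have h4 : (N : ℝ)⁻¹ = 1 / Real.sqrt N * (1 / Real.sqrt N) := by
            rw [div_mul_div_comm, Real.mul_self_sqrt hN0.le]; simp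
          rw [h4]
          field_simp
  have s2 : (1 / Real.sqrt N) ^ 3 * M ≤ |αm| * (1 / Real.sqrt N) := by
    have h3 : (1 / Real.sqrt N) ^ 3 * M ≤ (1 / Real.sqrt N) ^ 3 * (|αm| * N) :=
      mul_le_mul_of_nonneg_left hMN' (by positivity)
    refine h3.trans (le_of_eq ?_)
    have h4 : (1 / Real.sqrt N) ^ 2 * N = 1 := by
      rw [div_pow, Real.sq_sqrt hN0.le]; field_simp
    calc (1 / Real.sqrt N) ^ 3 * (|αm| * N) = |αm| * (1 / Real.sqrt N) *
        ((1 / Real.sqrt N) ^ 2 * N) := by ring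
      _ = _ := by rw [h4, mul_one]
  have s3 : q1 * (M * (1 + m3) + ∫ G, W G ∂(gam M N)) ≤
      CR K k * (|αm| * (1 + m3) + |αm| * (Real.exp (4 * K) * m3)) * (1 / Real.sqrt N) := by
    have h3 : (M : ℝ) * (1 + m3) + ∫ G, W G ∂(gam M N) ≤
        M * ((1 + m3) + Real.exp (4 * K) * m3) := by
      have := b4
      linarith
    calc q1 * (M * (1 + m3) + ∫ G, W G ∂(gam M N)) ≤
        q1 * (M * ((1 + m3) + Real.exp (4 * K) * m3)) :=
          mul_le_mul_of_nonneg_left h3 (by rw [hq1]; positivity)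
      _ = CR K k * ((1 + m3) + Real.exp (4 * K) * m3) * ((1 / Real.sqrt N) ^ 3 * M) := by
          rw [hq1]; ring
      _ ≤ CR K k * ((1 + m3) + Real.exp (4 * K) * m3) * (|αm| * (1 / Real.sqrt N)) :=
          mul_le_mul_of_nonneg_left s2 (by positivity)
      _ = _ := by ring
  have s4 : E * (k ^ 2 / 2 * q0 + q1 * (M * (1 + m3) + ∫ G, W G ∂(gam M N))) ≤ ε := by
    refine le_trans ?_ hsmall
    have h3 : k ^ 2 / 2 * q0 + q1 * (M * (1 + m3) + ∫ G, W G ∂(gam M N)) ≤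
        B1 * (1 / Real.sqrt N) := by
      have h4 := mul_le_mul_of_nonneg_left s1 (by positivity : (0 : ℝ) ≤ k ^ 2 / 2)
      rw [hB1]
      linarith
    calc E * (k ^ 2 / 2 * q0 + q1 * (M * (1 + m3) + ∫ G, W G ∂(gam M N))) ≤
        E * (B1 * (1 / Real.sqrt N)) := mul_le_mul_of_nonneg_left h3 hE0.le
      _ = _ := by ring
  -- conclusion
  have hZ0 : 0 ≤ ∫ G, Z G ∂(gam M N) := integral_nonneg fun G =>
    eE_nonneg (QQ_isProb C nc n (fun _ => f) G s) fun ω => abs_nonneg _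
  have hA0 : 0 ≤ (nc : ℝ) * A := by
    rcases Nat.eq_zero_or_pos nc with h | h
    · subst h; simp
    · exact mul_nonneg (Nat.cast_nonneg _) ((abs_nonneg _).trans (hs ⟨0, h⟩))
  show ∫ G, X1 G ∂(gam M N) - (E * (k ^ 2 / 2) + E * ((1 + k ^ 2) * ((CF + 1) / 2))) *
    ∫ G, Z G ∂(gam M N) - (E * (k ^ 2 / 2) + E * ((1 + k ^ 2) * ((CF + 1) / 2))) *
      ((nc : ℝ) * A) - ε ≤ ∫ G, X2 G ∂(gam M N)
  have h8 : 0 ≤ E * ((1 + k ^ 2) * ((CF + 1) / 2)) := by positivity
  have h9 : 0 ≤ E * (k ^ 2 / 2) := by positivity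
  have h10 := mul_nonneg h8 hZ0
  have h11 := mul_nonneg h9 hA0
  have h12 : E * q2 = E * ((1 + k ^ 2) * ((CF + 1) / 2)) * ((nc : ℝ) * A) := by rw [hq2]; ring
  linarith

end

end Crest.Agent.R146.S6Tay_490
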