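import Crest.Agent.R146.S6Def_988

/-!
Row 146, S0206, task 68 (helper167), part A: path algebra for the assembly of the upper bound.
* the refined path `q l = P (l / wc)` on `nc + 1 = (J + 1) * wc` levels has the same entropy;
* bounds of the nested recursion `Th`;
* the tails of the refined path.
-/

set_option autoImplicit false

namespace Crest.Agent.R146.S6UBa_167

open Finset MeasureTheory ProbabilityTheory
open Crest.Agent.R146.S6Def_988

noncomputable section

/-! ### sums over blocks -/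

theorem sum_blocks (G : ℕ → ℝ) (wc J : ℕ) :
    ∑ l ∈ range (J * wc), G l = ∑ j ∈ range J, ∑ r ∈ range wc, G (j * wc + r) := by
  induction J with
  | zero => simp
  | succ J ih => rw [add_mul, one_mul, sum_range_add, sum_range_succ, ih]

theorem sum_blocks_Ico (G : ℕ → ℝ) (wc a b : ℕ) (hab : a ≤ b) :
    ∑ l ∈ Ico (a * wc) (b * wc), G l = ∑ j ∈ Ico a b, ∑ r ∈ range wc, G (j * wc + r) := by
  have h1 := sum_range_add_sum_Ico G (Nat.mul_le_mul_right wc hab)
  have h2 := sum_range_add_sum_Ico (fun j => ∑ r ∈ range wc, G (j * wc + r)) hab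
  rw [← sum_blocks, ← sum_blocks] at h2
  linarith

/-! ### the refined path -/

/-- the refined path -/
def ref (wc : ℕ) (P : ℕ → ℝ) (l : ℕ) : ℝ := P (l / wc)

variable {J wc nc : ℕ} {P : ℕ → ℝ}

theorem nc_div (hwc : 0 < wc) (hnc : nc + 1 = (J + 1) * wc) : nc / wc = J := by
  have h1 : nc = J * wc + (wc - 1) := by
    have : (J + 1) * wc = J * wc + wc := by ring
    omega
  rw [h1, mul_comm J wc, Nat.mul_add_div hwc, Nat.div_eq_of_lt (by omega)]
  omega

theorem div_le (hwc : 0 < wc) (hnc : nc + 1 = (J + 1) * wc) {l : ℕ} (hl : l ≤ nc) :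
    l / wc ≤ J := by
  rw [← nc_div hwc hnc]; exact Nat.div_le_div_right hl

theorem ref_lev (hwc : 0 < wc) (hnc : nc + 1 = (J + 1) * wc) (hP : Lev J P) :
    Lev nc (ref wc P) where
  nonneg := by unfold ref; simpa using hP.nonneg
  mono i j hij hj := hP.mono _ _ (Nat.div_le_div_right hij) (div_le hwc hnc hj)
  le_one := by unfold ref; rw [nc_div hwc hnc]; exact hP.le_one

theorem ref_last (hwc : 0 < wc) (hnc : nc + 1 = (J + 1) * wc) : ref wc P nc = P J := by
  unfold ref; rw [nc_div hwc hnc]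

theorem DP_step {J : ℕ} (P : ℕ → ℝ) {j : ℕ} (hj : j < J) :
    DP J P j = DP J P (j + 1) + ((j + 1 : ℕ) : ℝ) / ((J : ℝ) + 1) * (P (j + 1) - P j) := by
  unfold DP
  rw [sum_eq_sum_Ico_succ_bot (by omega : j + 1 < J + 1)]
  simp only [Nat.add_sub_cancel]
  ring

theorem DP_ref (hwc : 0 < wc) (hnc : nc + 1 = (J + 1) * wc) :
    ∀ d l : ℕ, l + d = nc → DP nc (ref wc P) l = DP J P (l / wc) := by
  intro d
  induction d with
  | zero =>
    intro l hl
    rw [add_zero] at hl
    subst hl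
    rw [nc_div hwc hnc]
    unfold DP
    rw [Ico_self, Ico_self, sum_empty, sum_empty, ref_last hwc hnc]
  | succ d ih =>
    intro l hl
    have ih := ih (l + 1) (by omega)
    rw [DP_step _ (by omega : l < nc), ih]
    by_cases hdiv : wc ∣ (l + 1)
    · obtain ⟨j, hj⟩ := hdiv
      have hj0 : 0 < j := by
        rcases Nat.eq_zero_or_pos j with h | h
        · subst h; simp at hj
        · exact h
      have e1 : (l + 1) / wc = j := by rw [hj]; exact Nat.mul_div_cancel_left j hwc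
      have e2 : l / wc = j - 1 := by
        have h3 : l = wc * (j - 1) + (wc - 1) := by
          have h4 : wc * j = wc * (j - 1) + wc := by
            conv_lhs => rw [show j = (j - 1) + 1 by omega]
            ring
          omega
        rw [h3, Nat.mul_add_div hwc, Nat.div_eq_of_lt (by omega)]
        omega
      have hjJ : j ≤ J := by rw [← e1]; exact div_le hwc hnc (by omega)
      rw [e1, e2]
      have h5 := DP_step (J := J) P (j := j - 1) (by omega)
      rw [show j - 1 + 1 = j by omega] at h5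
      rw [h5]
      unfold ref
      rw [e1, e2]
      have h6 : ((l + 1 : ℕ) : ℝ) / ((nc : ℝ) + 1) = (j : ℝ) / ((J : ℝ) + 1) := by
        have h7 : ((nc : ℝ) + 1) = ((J : ℝ) + 1) * wc := by exact_mod_cast hnc
        have h8 : ((l + 1 : ℕ) : ℝ) = wc * j := by rw [hj]; push_cast; ring
        have h9 : (wc : ℝ) ≠ 0 := by exact_mod_cast hwc.ne'
        have h10 : ((J : ℝ) + 1) ≠ 0 := by positivity
        rw [h7, h8]
        field_simp
      rw [h6]
    · have e1 : (l + 1) / wc = l / wc := by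
        rw [Nat.succ_div, if_neg hdiv, add_zero]
      unfold ref
      rw [e1]
      ring

theorem SP_ref (hwc : 0 < wc) (hnc : nc + 1 = (J + 1) * wc) :
    SP nc (ref wc P) = SP J P := by
  have hD : ∀ l ≤ nc, DP nc (ref wc P) l = DP J P (l / wc) := fun l hl =>
    DP_ref hwc hnc (nc - l) l (by omega)
  have e0 : DP nc (ref wc P) 0 = DP J P 0 := by rw [hD 0 (Nat.zero_le _), Nat.zero_div]
  have e1 : DP nc (ref wc P) nc = DP J P J := by rw [hD nc le_rfl, nc_div hwc hnc]
  have e2 : ref wc P 0 = P 0 := by unfold ref; rw [Nat.zero_div]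
  unfold SP
  rw [e0, e1, e2]
  congr 2
  congr 1
  -- the sum over the levels
  set Gf : ℕ → ℝ := fun l => (((nc : ℝ) + 1) / l) *
    Real.log (DP nc (ref wc P) (l - 1) / DP nc (ref wc P) l) with hGf
  have hzero : ∀ l, 0 < l → l ≤ nc → ¬ wc ∣ l → Gf l = 0 := by
    intro l hl0 hl hdiv
    rw [hGf]
    simp only
    rw [hD l hl, hD (l - 1) (by omega)]
    have h3 : (l - 1) / wc = l / wc := by
      obtain ⟨m, rfl⟩ : ∃ m, l = m + 1 := ⟨l - 1, by omega⟩
      rw [Nat.add_sub_cancel, Nat.succ_div, if_neg hdiv, add_zero]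
    rw [h3]
    by_cases h4 : DP J P (l / wc) = 0
    · rw [h4]; simp
    · rw [div_self h4]; simp
  have hblock : ∀ j, 0 < j → j ≤ J → ∑ r ∈ range wc, Gf (j * wc + r) = Gf (j * wc) := by
    intro j hj0 hj
    rw [sum_eq_single 0]
    · rw [add_zero]
    · intro r hr hr0
      have hr1 := mem_range.1 hr
      have h5 : j * wc + r ≤ nc := by
        have : j * wc ≤ J * wc := Nat.mul_le_mul_right _ hj
        have h6 : (J + 1) * wc = J * wc + wc := by ring
        omega
      refine hzero _ (by omega) h5 ?_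
      intro h6
      rw [Nat.dvd_add_right (Dvd.intro_left j rfl)] at h6
      exact absurd (Nat.le_of_dvd (by omega) h6) (by omega)
    · intro h; exact absurd (mem_range.2 hwc) h
  have hsplit : ∑ l ∈ Ico 1 (nc + 1), Gf l = ∑ j ∈ Ico 1 (J + 1), Gf (j * wc) := by
    have h1 : ∑ l ∈ Ico 1 (nc + 1), Gf l = ∑ l ∈ Ico (1 * wc) ((J + 1) * wc), Gf l := by
      rw [hnc, one_mul]
      have h3 : wc ≤ (J + 1) * wc := Nat.le_mul_of_pos_left wc (by omega)
      have h2 := sum_Ico_consecutive Gf (show 1 ≤ wc from hwc) h3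
      rw [← h2]
      have h4 : ∑ l ∈ Ico 1 wc, Gf l = 0 := by
        refine sum_eq_zero fun l hl => ?_
        rw [mem_Ico] at hl
        refine hzero l (by omega) (by omega) ?_
        intro h5
        exact absurd (Nat.le_of_dvd (by omega) h5) (by omega)
      rw [h4, zero_add]
    rw [h1, sum_blocks_Ico Gf wc 1 (J + 1) (by omega)]
    refine sum_congr rfl fun j hj => ?_
    rw [mem_Ico] at hj
    exact hblock j (by omega) (by omega)
  rw [hsplit]
  refine sum_congr rfl fun j hj => ?_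
  rw [mem_Ico] at hj
  have hjn : j * wc ≤ nc := by
    have : j * wc ≤ J * wc := Nat.mul_le_mul_right _ (by omega)
    have h6 : (J + 1) * wc = J * wc + wc := by ring
    omega
  have hjp : 0 < j * wc := Nat.mul_pos (by omega) hwc
  rw [hGf]
  simp only
  rw [hD (j * wc) hjn, hD (j * wc - 1) (by omega), Nat.mul_div_cancel j hwc]
  have h3 : (j * wc - 1) / wc = j - 1 := by
    have h4 : j * wc - 1 = wc * (j - 1) + (wc - 1) := by
      have h5 : j * wc = wc * (j - 1) + wc := by
        conv_lhs => rw [show j = (j - 1) + 1 by omega]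
        ring
      omega
    rw [h4, Nat.mul_add_div hwc, Nat.div_eq_of_lt (by omega)]
    omega
  rw [h3]
  have h6 : ((nc : ℝ) + 1) / ((j * wc : ℕ) : ℝ) = ((J : ℝ) + 1) / j := by
    have h7 : ((nc : ℝ) + 1) = ((J : ℝ) + 1) * wc := by exact_mod_cast hnc
    have h9 : (wc : ℝ) ≠ 0 := by exact_mod_cast hwc.ne'
    have h10 : (j : ℝ) ≠ 0 := by
      have : 0 < j := by omega
      exact_mod_cast this.ne'
    rw [h7]
    push_cast
    field_simp
  rw [h6]

/-! ### bounds of the recursion -/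

theorem gaussOp_bd {a v K : ℝ} (ha : 0 ≤ a) {f : ℝ → ℝ} (hm : Measurable f) (hf : ∀ x, |f x| ≤ K)
    (z : ℝ) : |Crest.ProbabilityR.InvariantGlass.gaussOp a v f z| ≤ K := by
  have hK : 0 ≤ K := (abs_nonneg _).trans (hf 0)
  unfold Crest.ProbabilityR.InvariantGlass.gaussOp
  have hmz : Measurable fun g : ℝ => f (z + Real.sqrt v * g) :=
    hm.comp (measurable_const.add (measurable_const.mul measurable_id))
  split_ifs with h
  · have h1 : |∫ g, f (z + Real.sqrt v * g) ∂gaussianReal 0 1| ≤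
        ∫ g, |f (z + Real.sqrt v * g)| ∂gaussianReal 0 1 := abs_integral_le_integral_abs
    refine h1.trans ?_
    have hint : Integrable (fun g => f (z + Real.sqrt v * g)) (gaussianReal 0 1) :=
      Integrable.of_bound (C := K) hmz.aestronglyMeasurable
        (ae_of_all _ fun g => by rw [Real.norm_eq_abs]; exact hf _)
    calc ∫ g, |f (z + Real.sqrt v * g)| ∂gaussianReal 0 1 ≤ ∫ _g : ℝ, K ∂gaussianReal 0 1 :=
          integral_mono hint.abs (integrable_const _) fun g => hf _
      _ = K := by simp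
  · have ha' : 0 < a := lt_of_le_of_ne ha (Ne.symm h)
    have hb : ∀ g, a * f (z + Real.sqrt v * g) ≤ a * K := fun g =>
      mul_le_mul_of_nonneg_left ((le_abs_self _).trans (hf _)) ha
    have hb' : ∀ g, -(a * K) ≤ a * f (z + Real.sqrt v * g) := fun g => by
      rw [← mul_neg]
      exact mul_le_mul_of_nonneg_left (neg_le_of_abs_le (hf _)) ha
    have hint : Integrable (fun g => Real.exp (a * f (z + Real.sqrt v * g))) (gaussianReal 0 1) :=
      Integrable.of_bound (C := Real.exp (a * K)) ((hmz.const_mul a).exp).aestronglyMeasurable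
        (ae_of_all _ fun g => by
          rw [Real.norm_eq_abs, abs_of_pos (Real.exp_pos _)]
          exact Real.exp_le_exp.2 (hb g))
    have h1 : Real.exp (-(a * K)) ≤ ∫ g, Real.exp (a * f (z + Real.sqrt v * g)) ∂gaussianReal 0 1 := by
      calc Real.exp (-(a * K)) = ∫ _g : ℝ, Real.exp (-(a * K)) ∂gaussianReal 0 1 := by simp
        _ ≤ _ := integral_mono (integrable_const _) hint fun g => Real.exp_le_exp.2 (hb' g)
    have h2 : ∫ g, Real.exp (a * f (z + Real.sqrt v * g)) ∂gaussianReal 0 1 ≤ Real.exp (a * K) := by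
      calc _ ≤ ∫ _g : ℝ, Real.exp (a * K) ∂gaussianReal 0 1 :=
            integral_mono hint (integrable_const _) fun g => Real.exp_le_exp.2 (hb g)
        _ = Real.exp (a * K) := by simp
    have h3 : -(a * K) ≤ Real.log (∫ g, Real.exp (a * f (z + Real.sqrt v * g)) ∂gaussianReal 0 1) := by
      rw [← Real.log_exp (-(a * K))]
      exact Real.log_le_log (Real.exp_pos _) h1
    have h4 : Real.log (∫ g, Real.exp (a * f (z + Real.sqrt v * g)) ∂gaussianReal 0 1) ≤ a * K := by
      rw [← Real.log_exp (a * K)]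
      exact Real.log_le_log ((Real.exp_pos _).trans_le h1) h2
    rw [abs_mul, abs_of_pos (inv_pos.2 ha'), inv_mul_le_iff₀ ha']
    exact abs_le.2 ⟨h3, h4⟩

theorem gaussOp_meas {a v : ℝ} {f : ℝ → ℝ} (hm : Measurable f) :
    Measurable (Crest.ProbabilityR.InvariantGlass.gaussOp a v f) := by
  have h : Measurable (Function.uncurry fun (z g : ℝ) => f (z + Real.sqrt v * g)) :=
    hm.comp (measurable_fst.add (measurable_snd.const_mul _))
  unfold Crest.ProbabilityR.InvariantGlass.gaussOp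
  by_cases ha : a = 0
  · simp only [ha, if_true]
    exact (h.stronglyMeasurable.integral_prod_right (ν := gaussianReal 0 1)).measurable
  · simp only [ha, if_false]
    have h2 : Measurable (Function.uncurry fun (z g : ℝ) => Real.exp (a * f (z + Real.sqrt v * g))) :=
      (h.const_mul a).exp
    exact ((h2.stronglyMeasurable.integral_prod_right (ν := gaussianReal 0 1)).measurable.log).const_mul _

theorem recV_meas {f : ℝ → ℝ} (hm : Measurable f) (t m : ℕ → ℝ) (k j : ℕ) :
    Measurable (recV f t m k j) := by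
  induction j with
  | zero => exact hm
  | succ j ih => exact gaussOp_meas ih

theorem recV_bd {f : ℝ → ℝ} {K : ℝ} (hm : Measurable f) (hf : ∀ x, |f x| ≤ K) (t m : ℕ → ℝ)
    (h0 : ∀ i, 0 ≤ m i) (k j : ℕ) (z : ℝ) : |recV f t m k j z| ≤ K := by
  induction j generalizing z with
  | zero => exact hf z
  | succ j ih => exact gaussOp_bd (h0 _) (recV_meas hm t m k j) ih z

theorem BL.cont {K L : ℝ} {f : ℝ → ℝ} (h : BL K L f) : Continuous f := by
  have hL : 0 ≤ L := by
    have h1 := h.lip 1 0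
    have h2 := abs_nonneg (f 1 - f 0)
    simp at h1
    linarith
  refine (LipschitzWith.of_dist_le_mul (K := L.toNNReal) fun x y => ?_).continuous
  rw [Real.dist_eq, Real.dist_eq, Real.coe_toNNReal L hL]
  exact h.lip x y

theorem BL.meas {K L : ℝ} {f : ℝ → ℝ} (h : BL K L f) : Measurable f := (BL.cont h).measurable

theorem Th_abs_le {K : ℝ} {f : ℝ → ℝ} (hm : Measurable f) (hf : ∀ x, |f x| ≤ K) (J : ℕ)
    (P : ℕ → ℝ) : |Th J f P| ≤ K :=
  recV_bd hm hf _ _ (fun i => by positivity) _ _ _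

/-! ### tails -/

/-- tails of the refined path = tails of the coarse path. -/
theorem tail_ref (hwc : 0 < wc) (hnc : nc + 1 = (J + 1) * wc) {j0 : ℕ} (h0 : 0 < j0) (hj : j0 ≤ J) :
    1 / ((nc : ℝ) + 1) * ∑ l ∈ Ioc (j0 * wc - 1) nc, ref wc P l =
      1 / ((J : ℝ) + 1) * ∑ j ∈ Ico j0 (J + 1), P j := by
  have hpos : 0 < j0 * wc := Nat.mul_pos h0 hwc
  have h1 : Ioc (j0 * wc - 1) nc = Ico (j0 * wc) ((J + 1) * wc) := by
    ext l
    rw [mem_Ioc, mem_Ico, ← hnc]
    omega
  rw [h1, sum_blocks_Ico _ _ _ _ (by omega)]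
  have h2 : ∀ j ∈ Ico j0 (J + 1), ∑ r ∈ range wc, ref wc P (j * wc + r) = wc * P j := by
    intro j _
    have h3 : ∀ r ∈ range wc, ref wc P (j * wc + r) = P j := by
      intro r hr
      unfold ref
      rw [mul_comm j wc, Nat.mul_add_div hwc, Nat.div_eq_of_lt (mem_range.1 hr), add_zero]
    rw [sum_congr rfl h3]
    simp
  rw [sum_congr rfl h2, ← mul_sum, ← mul_assoc]
  congr 1
  have h7 : ((nc : ℝ) + 1) = ((J : ℝ) + 1) * wc := by exact_mod_cast hnc
  have h9 : (wc : ℝ) ≠ 0 := by exact_mod_cast hwc.ne'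
  have h10 : ((J : ℝ) + 1) ≠ 0 := by positivity
  rw [h7]
  field_simp

/-- tails of an arbitrary increasing path read at the skeleton. -/
theorem tail_skel (hwc : 0 < wc) (hnc : nc + 1 = (J + 1) * wc) {R : ℕ → ℝ} {ρ : ℕ → ℝ}
    (hR1 : ∀ l, R l ≤ 1) (hρ0 : ∀ j, 0 ≤ ρ j)
    (hRρ : ∀ j < J, ∀ l, l < (j + 1) * wc → R l ≤ ρ (j + 1)) {j0 : ℕ} (h0 : 0 < j0)
    (hj : j0 ≤ J) :
    1 / ((nc : ℝ) + 1) * ∑ l ∈ Ioc (j0 * wc - 1) nc, R l ≤
      1 / ((J : ℝ) + 1) * ∑ j ∈ Ico j0 (J + 1), ρ j + 1 / ((J : ℝ) + 1) := by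
  have hpos : 0 < j0 * wc := Nat.mul_pos h0 hwc
  have h1 : Ioc (j0 * wc - 1) nc = Ico (j0 * wc) ((J + 1) * wc) := by
    ext l
    rw [mem_Ioc, mem_Ico, ← hnc]
    omega
  rw [h1, sum_blocks_Ico _ _ _ _ (by omega)]
  have h2 : ∀ j ∈ Ico j0 (J + 1), ∑ r ∈ range wc, R (j * wc + r) ≤
      wc * (if j < J then ρ (j + 1) else 1) := by
    intro j _
    have h3 : ∀ r ∈ range wc, R (j * wc + r) ≤ (if j < J then ρ (j + 1) else 1) := by
      intro r hr
      have hr := mem_range.1 hr
      split_ifs with hjJ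
      · refine hRρ j hjJ _ ?_
        have : (j + 1) * wc = j * wc + wc := by ring
        omega
      · exact hR1 _
    refine (sum_le_sum h3).trans (le_of_eq ?_)
    simp
  have h4 : ∑ j ∈ Ico j0 (J + 1), (if j < J then ρ (j + 1) else 1) ≤
      ∑ j ∈ Ico j0 (J + 1), ρ j + 1 := by
    rw [sum_Ico_succ_top hj, if_neg (lt_irrefl J)]
    have h5 : ∑ j ∈ Ico j0 J, (if j < J then ρ (j + 1) else 1) = ∑ j ∈ Ico j0 J, ρ (j + 1) :=
      sum_congr rfl fun j hj' => by rw [mem_Ico] at hj'; rw [if_pos hj'.2]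
    rw [h5, sum_Ico_add' ρ j0 J 1]
    have h6 : ∑ j ∈ Ico (j0 + 1) (J + 1), ρ j ≤ ∑ j ∈ Ico j0 (J + 1), ρ j :=
      sum_le_sum_of_subset_of_nonneg (Ico_subset_Ico_left (by omega)) fun j _ _ => hρ0 j
    linarith
  have h7 : ((nc : ℝ) + 1) = ((J : ℝ) + 1) * wc := by exact_mod_cast hnc
  have h9 : (0 : ℝ) < wc := by exact_mod_cast hwc
  have h10 : (0 : ℝ) < (J : ℝ) + 1 := by positivity
  calc 1 / ((nc : ℝ) + 1) * ∑ j ∈ Ico j0 (J + 1), ∑ r ∈ range wc, R (j * wc + r)
      ≤ 1 / ((nc : ℝ) + 1) * ∑ j ∈ Ico j0 (J + 1), wc * (if j < J then ρ (j + 1) else 1) :=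
        mul_le_mul_of_nonneg_left (sum_le_sum h2) (by positivity)
    _ = 1 / ((J : ℝ) + 1) * ∑ j ∈ Ico j0 (J + 1), (if j < J then ρ (j + 1) else 1) := by
        rw [← mul_sum, ← mul_assoc]
        congr 1
        rw [h7]
        field_simp
    _ ≤ 1 / ((J : ℝ) + 1) * (∑ j ∈ Ico j0 (J + 1), ρ j + 1) :=
        mul_le_mul_of_nonneg_left h4 (by positivity)
    _ = _ := by ring

end

end Crest.Agent.R146.S6UBa_167
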