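import Crest.Agent.R146.MaxP_86

/-!
# Row 146: maximum principle with touching functions (kinks allowed) and the slope comparison
in x-space (helper86, task 48)

* `second_le_of_isLocalMax` : one-sided second order condition at a local maximum.
* `Touch`, `max_touch` : backward maximum principle; at every point where `u > 0` it is enough to
  have a smooth function touching `u` from below (in the time direction and in the space direction),
  with a ONE-SIDED second space derivative.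
* `touch_slope_le`, `touch_slope_ge`, `slope_le`, `slope_ge`: if
  `V_t + a V_xx + β V_x = f`, `P = V_x`, `P_t + a P_xx + β P_x = g P` and
  `S_t + f S_v + a S² S_vv - g S ≤ 0` (resp. `≥ 0`) then `P ≤ S(t,V)` (resp. `≥`).
-/

set_option autoImplicit false

noncomputable section

open Set Filter Topology

namespace Crest.Agent.R146.Slope_86

open Crest.Agent.R146.MaxP_86

theorem second_le_right {f f' : ℝ → ℝ} {x₀ f2 : ℝ} (hmax : IsLocalMax f x₀)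
    (hf : ∀ᶠ x in 𝓝 x₀, HasDerivAt f (f' x) x)
    (hf' : HasDerivWithinAt f' f2 (Ici x₀) x₀) : f2 ≤ 0 := by
  have h0 : f' x₀ = 0 := hmax.hasDerivAt_eq_zero hf.self_of_nhds
  by_contra hpos
  push Not at hpos
  have hslope := (hasDerivWithinAt_iff_tendsto_slope' (s := Ioi x₀) (by simp)).1
    (hf'.mono Ioi_subset_Ici_self)
  have h1 : ∀ᶠ x in 𝓝[>] x₀, 0 < f' x := by
    filter_upwards [hslope.eventually (lt_mem_nhds hpos), self_mem_nhdsWithin] with x hx1 hx2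
    have hx2' : (0 : ℝ) < x - x₀ := sub_pos.2 hx2
    rw [slope_def_field, h0, sub_zero] at hx1
    exact (div_pos_iff_of_pos_right hx2').1 hx1
  have h4 : ∀ᶠ x in 𝓝[>] x₀, HasDerivAt f (f' x) x ∧ f x ≤ f x₀ :=
    (hf.and hmax).filter_mono nhdsWithin_le_nhds
  obtain ⟨δ, hδ, hball⟩ : ∃ δ > x₀, Ioo x₀ δ ⊆
      {x | 0 < f' x ∧ (HasDerivAt f (f' x) x ∧ f x ≤ f x₀)} := by
    have := h1.and h4
    rw [eventually_iff] at this
    obtain ⟨δ, hδ, h⟩ := (mem_nhdsGT_iff_exists_Ioo_subset).1 this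
    exact ⟨δ, hδ, h⟩
  set y := (x₀ + δ) / 2 with hy
  have hδ' : x₀ < δ := hδ
  have hxy : x₀ < y := by rw [hy]; linarith
  have hyδ : y < δ := by rw [hy]; linarith
  have hmono : f x₀ < f y := by
    have hcont : ContinuousOn f (Icc x₀ y) := by
      intro x hx1
      rcases eq_or_lt_of_le hx1.1 with h | h
      · rw [← h]; exact (hf.self_of_nhds).continuousAt.continuousWithinAt
      · exact ((hball ⟨h, lt_of_le_of_lt hx1.2 hyδ⟩).2.1).continuousAt.continuousWithinAt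
    have hsm : StrictMonoOn f (Icc x₀ y) := by
      apply strictMonoOn_of_deriv_pos (convex_Icc _ _) hcont
      intro x hx1
      rw [interior_Icc] at hx1
      have hm := hball (show x ∈ Ioo x₀ δ from ⟨hx1.1, hx1.2.trans hyδ⟩)
      rw [(hm.2.1).deriv]
      exact hm.1
    exact hsm (left_mem_Icc.2 hxy.le) (right_mem_Icc.2 hxy.le) hxy
  have := (hball ⟨hxy, hyδ⟩).2.2
  linarith

theorem second_le_of_isLocalMax {f f' : ℝ → ℝ} {x₀ f2 : ℝ} (hmax : IsLocalMax f x₀)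
    (hf : ∀ᶠ x in 𝓝 x₀, HasDerivAt f (f' x) x)
    (hf' : HasDerivWithinAt f' f2 (Ici x₀) x₀ ∨ HasDerivWithinAt f' f2 (Iic x₀) x₀) :
    f' x₀ = 0 ∧ f2 ≤ 0 := by
  refine ⟨hmax.hasDerivAt_eq_zero hf.self_of_nhds, ?_⟩
  rcases hf' with h | h
  · exact second_le_right hmax hf h
  · -- reflect
    have hneg : Tendsto (fun x : ℝ => -x) (𝓝 (-x₀)) (𝓝 x₀) := by
      have := (continuous_neg.tendsto (-x₀) : Tendsto (fun x : ℝ => -x) (𝓝 (-x₀)) (𝓝 (- -x₀)))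
      rwa [neg_neg] at this
    have hmax' : IsLocalMax (fun x => f (-x)) (-x₀) := by
      have := hneg.eventually hmax
      show ∀ᶠ x in 𝓝 (-x₀), f (-x) ≤ f (- -x₀)
      rw [neg_neg]
      exact this
    have hf1 : ∀ᶠ x in 𝓝 (-x₀), HasDerivAt (fun x => f (-x)) ((fun x => -(f' (-x))) x) x := by
      filter_upwards [hneg.eventually hf] with x hx
      have h1 : HasDerivAt (fun x : ℝ => -x) (-1) x := hasDerivAt_neg x
      have h2 := HasDerivAt.comp x hx h1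
      have h3 : -(f' (-x)) = f' (-x) * -1 := by ring
      show HasDerivAt (fun x => f (-x)) (-(f' (-x))) x
      rw [h3]
      exact h2
    have hf2 : HasDerivWithinAt (fun x => -(f' (-x))) f2 (Ici (-x₀)) (-x₀) := by
      have h1 : HasDerivWithinAt (fun x : ℝ => -x) (-1) (Ici (-x₀)) (-x₀) :=
        (hasDerivAt_neg (-x₀)).hasDerivWithinAt
      have hm : MapsTo (fun x : ℝ => -x) (Ici (-x₀)) (Iic x₀) := by
        intro x hx
        simp only [mem_Ici] at hx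
        simp only [mem_Iic]
        linarith
      have h' : HasDerivWithinAt f' f2 (Iic x₀) ((fun x : ℝ => -x) (-x₀)) := by
        simpa using h
      have h2 := HasDerivWithinAt.comp (h₂ := f') (h := fun x : ℝ => -x) (-x₀) h' h1 hm
      have h3 := h2.neg
      have h4 : -(f2 * -1) = f2 := by ring
      rw [h4] at h3
      exact h3
    exact second_le_right hmax' hf1 hf2

/-- **Local data of a backward subsolution at `(t,x)`** (viscosity form): a function `g` of time and a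
function `h` of space touching `u` from below at `(t,x)`; numbers `a ≥ 0`, `b`, `c ≤ A` with
`0 ≤ g' + a h'' + b h' + c u`; the second derivative may be one-sided. -/
def Touch (u : ℝ → ℝ → ℝ) (A t x : ℝ) : Prop :=
  ∃ (g h h' : ℝ → ℝ) (gt hxx a b c : ℝ),
    (∀ᶠ s in 𝓝[>] t, g s ≤ u s x) ∧ g t = u t x ∧ HasDerivWithinAt g gt (Ici t) t ∧
    (∀ᶠ y in 𝓝 x, h y ≤ u t y) ∧ h x = u t x ∧ (∀ᶠ y in 𝓝 x, HasDerivAt h (h' y) y) ∧
    (HasDerivWithinAt h' hxx (Ici x) x ∨ HasDerivWithinAt h' hxx (Iic x) x) ∧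
    0 ≤ a ∧ c ≤ A ∧ 0 ≤ gt + a * hxx + b * h' x + c * u t x

/-- **Backward maximum principle with touching functions**, on `[t₀,t₁] × D`. -/
theorem max_touch {t₀ t₁ A : ℝ} {D : Set ℝ} (hD : IsOpen D) {u : ℝ → ℝ → ℝ}
    (hcont : ContinuousOn (fun p : ℝ × ℝ => u p.1 p.2) (Icc t₀ t₁ ×ˢ D))
    (hloc : ∀ t ∈ Ico t₀ t₁, ∀ x ∈ D, 0 < u t x → Touch u A t x)
    (hterm : ∀ x ∈ D, u t₁ x ≤ 0)
    (hbd : ∀ ε > 0, ∃ K : Set ℝ, IsCompact K ∧ K ⊆ D ∧
      ∀ t ∈ Icc t₀ t₁, ∀ x ∈ D, x ∉ K → u t x ≤ ε) :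
    ∀ t ∈ Icc t₀ t₁, ∀ x ∈ D, u t x ≤ 0 := by
  intro t₂ ht₂ x₂ hx₂
  by_contra hneg
  push Not at hneg
  set M : ℝ := |A| + 1 with hM
  have hMpos : 0 < M := by positivity
  have hAM : A < M := by rw [hM]; linarith [le_abs_self A]
  -- weight `exp (M (t - t₁)) ≤ 1`
  set φ : ℝ × ℝ → ℝ := fun p => Real.exp (M * (p.1 - t₁)) * u p.1 p.2 with hφ
  have hle1 : ∀ t ∈ Icc t₀ t₁, Real.exp (M * (t - t₁)) ≤ 1 := fun t ht =>
    Real.exp_le_one_iff.2 (by nlinarith [ht.2])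
  set η := φ (t₂, x₂) with hη
  have hηpos : 0 < η := mul_pos (Real.exp_pos _) hneg
  obtain ⟨K, hK, hKD, hKb⟩ := hbd (η / 2) (by positivity)
  have hout : ∀ t ∈ Icc t₀ t₁, ∀ x ∈ D, x ∉ K → φ (t, x) ≤ η / 2 := by
    intro t ht x hx hxK
    have h1 := hKb t ht x hx hxK
    have h2 := hle1 t ht
    have h4 := Real.exp_pos (M * (t - t₁))
    show Real.exp (M * (t - t₁)) * u t x ≤ η / 2
    rcases le_total 0 (u t x) with h | h
    · nlinarith
    · nlinarith [mul_nonneg h4.le (neg_nonneg.2 h)]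
  have hx₂K : x₂ ∈ K := by
    by_contra hx
    have h1 := hout t₂ ht₂ x₂ hx₂ hx
    rw [← hη] at h1
    linarith
  have hφc : ContinuousOn φ (Icc t₀ t₁ ×ˢ K) := by
    apply ContinuousOn.mul
    · exact (Real.continuous_exp.comp (continuous_const.mul
        (continuous_fst.sub continuous_const))).continuousOn
    · exact hcont.mono (prod_mono_right hKD)
  obtain ⟨⟨t₃, x₃⟩, hm, hmax⟩ := (isCompact_Icc.prod hK).exists_isMaxOn
    ⟨(t₂, x₂), ⟨ht₂, hx₂K⟩⟩ hφc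
  have ht₃ : t₃ ∈ Icc t₀ t₁ := hm.1
  have hx₃K : x₃ ∈ K := hm.2
  have hx₃ : x₃ ∈ D := hKD hx₃K
  have hmaxv : η ≤ φ (t₃, x₃) := hmax (show (t₂, x₂) ∈ Icc t₀ t₁ ×ˢ K from ⟨ht₂, hx₂K⟩)
  have hφ₃ : 0 < φ (t₃, x₃) := hηpos.trans_le hmaxv
  have hglob : ∀ t ∈ Icc t₀ t₁, ∀ x ∈ D, φ (t, x) ≤ φ (t₃, x₃) := by
    intro t ht x hx
    by_cases hxK : x ∈ K
    · exact hmax (show (t, x) ∈ Icc t₀ t₁ ×ˢ K from ⟨ht, hxK⟩)
    · have := hout t ht x hx hxK
      linarith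
  have hu₃ : 0 < u t₃ x₃ := (mul_pos_iff_of_pos_left (Real.exp_pos _)).1 hφ₃
  have ht₃lt : t₃ < t₁ := by
    rcases eq_or_lt_of_le ht₃.2 with h | h
    · rw [h] at hu₃
      exact absurd (hterm x₃ hx₃) (not_le.2 hu₃)
    · exact h
  have ht₃' : t₃ ∈ Ico t₀ t₁ := ⟨ht₃.1, ht₃lt⟩
  obtain ⟨g, h, h', gt, hxx, a, b, c, hg1, hg2, hg3, hh1, hh2, hh3, hh4, ha, hc, hineq⟩ :=
    hloc t₃ ht₃' x₃ hx₃ hu₃
  -- space
  have hlm : IsLocalMax h x₃ := by
    filter_upwards [hh1, hD.mem_nhds hx₃] with y hy1 hyD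
    have h1 : Real.exp (M * (t₃ - t₁)) * u t₃ y ≤ Real.exp (M * (t₃ - t₁)) * u t₃ x₃ :=
      hglob t₃ ht₃ y hyD
    have h2 : u t₃ y ≤ u t₃ x₃ := (mul_le_mul_iff_right₀ (Real.exp_pos _)).1 h1
    rw [hh2]
    exact hy1.trans h2
  have hsp := second_le_of_isLocalMax hlm hh3 hh4
  -- time
  have htd : HasDerivWithinAt (fun s => Real.exp (M * (s - t₁)) * g s)
      (Real.exp (M * (t₃ - t₁)) * (gt + M * u t₃ x₃)) (Ici t₃) t₃ := by
    have h1 : HasDerivWithinAt (fun s : ℝ => Real.exp (M * (s - t₁)))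
        (Real.exp (M * (t₃ - t₁)) * M) (Ici t₃) t₃ := by
      have := (((hasDerivAt_id t₃).sub_const t₁).const_mul M).exp
      simpa using this.hasDerivWithinAt
    have h2 := h1.mul hg3
    rw [hg2] at h2
    have h3 : Real.exp (M * (t₃ - t₁)) * (gt + M * u t₃ x₃)
        = Real.exp (M * (t₃ - t₁)) * M * u t₃ x₃ + Real.exp (M * (t₃ - t₁)) * gt := by ring
    rw [h3]
    exact h2
  have htn : Real.exp (M * (t₃ - t₁)) * (gt + M * u t₃ x₃) ≤ 0 := by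
    have hslope := (hasDerivWithinAt_iff_tendsto_slope' (s := Ioi t₃) (by simp)).1
      (htd.mono Ioi_subset_Ici_self)
    refine le_of_tendsto hslope ?_
    have h1 : ∀ᶠ s in 𝓝[>] t₃, s ∈ Ioo t₃ t₁ := Ioo_mem_nhdsGT ht₃lt
    filter_upwards [h1, hg1] with s hs hgs
    rw [slope_def_field]
    have h2 : Real.exp (M * (s - t₁)) * g s ≤ Real.exp (M * (s - t₁)) * u s x₃ :=
      mul_le_mul_of_nonneg_left hgs (Real.exp_pos _).le
    have h3 : Real.exp (M * (s - t₁)) * u s x₃ ≤ Real.exp (M * (t₃ - t₁)) * u t₃ x₃ :=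
      hglob s ⟨ht₃.1.trans hs.1.le, hs.2.le⟩ x₃ hx₃
    have h4 : 0 < s - t₃ := sub_pos.2 hs.1
    rw [hg2]
    exact div_nonpos_of_nonpos_of_nonneg (by linarith) h4.le
  have htn' : gt + M * u t₃ x₃ ≤ 0 := by
    have := Real.exp_pos (M * (t₃ - t₁))
    by_contra hcon
    push Not at hcon
    have := mul_pos this hcon
    linarith
  rw [hsp.1] at hineq
  have h6 : a * hxx ≤ 0 := mul_nonpos_of_nonneg_of_nonpos ha hsp.2
  have h7 : c * u t₃ x₃ ≤ A * u t₃ x₃ := mul_le_mul_of_nonneg_right hc hu₃.le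
  nlinarith

/-! ### the slope comparison -/

/-- composition of a one-sided differentiable function with a monotone one -/
theorem comp_side {V P : ℝ → ℝ} {x Svv : ℝ} {Sv : ℝ → ℝ} (hmono : Monotone V)
    (hV : HasDerivAt V (P x) x)
    (hS : HasDerivWithinAt Sv Svv (Ici (V x)) (V x) ∨ HasDerivWithinAt Sv Svv (Iic (V x)) (V x)) :
    HasDerivWithinAt (fun y => Sv (V y)) (Svv * P x) (Ici x) x ∨
      HasDerivWithinAt (fun y => Sv (V y)) (Svv * P x) (Iic x) x := by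
  rcases hS with h | h
  · left
    exact HasDerivWithinAt.comp (h₂ := Sv) (h := V) x h hV.hasDerivWithinAt
      (fun y hy => hmono hy)
  · right
    exact HasDerivWithinAt.comp (h₂ := Sv) (h := V) x h hV.hasDerivWithinAt
      (fun y hy => hmono hy)

/-- **local data for `P ≤ S(t,V)`.**  `S'` is a function touching `S` from above at
`(t, V t x)`. -/
theorem touch_slope_le {V P S S' : ℝ → ℝ → ℝ} {Px Sv : ℝ → ℝ}
    {A t x Vt Pt Pxx St Svv a β f g : ℝ}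
    (hVt : HasDerivWithinAt (fun s => V s x) Vt (Ici t) t)
    (hVx : ∀ᶠ y in 𝓝 x, HasDerivAt (V t) (P t y) y)
    (hmono : Monotone (V t))
    (hPt : HasDerivWithinAt (fun s => P s x) Pt (Ici t) t)
    (hPx : ∀ᶠ y in 𝓝 x, HasDerivAt (P t) (Px y) y)
    (hPxx : HasDerivAt Px Pxx x)
    (hVeq : Vt + a * Px x + β * P t x = f)
    (hPeq : Pt + a * Pxx + β * Px x = g * P t x)
    (hS1 : ∀ᶠ s in 𝓝[>] t, S s (V s x) ≤ S' s (V s x))
    (hS1' : ∀ᶠ v in 𝓝 (V t x), S t v ≤ S' t v)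
    (hS2 : S' t (V t x) = S t (V t x))
    (hS3 : HasFDerivWithinAt (fun p : ℝ × ℝ => S' p.1 p.2)
      (St • ContinuousLinearMap.fst ℝ ℝ ℝ + Sv (V t x) • ContinuousLinearMap.snd ℝ ℝ ℝ)
      (Ici t ×ˢ univ) (t, V t x))
    (hS4 : ∀ᶠ v in 𝓝 (V t x), HasDerivAt (S' t) (Sv v) v)
    (hS5 : HasDerivWithinAt Sv Svv (Ici (V t x)) (V t x) ∨
      HasDerivWithinAt Sv Svv (Iic (V t x)) (V t x))
    (hS6 : St + f * Sv (V t x) + a * S t (V t x) ^ 2 * Svv - g * S t (V t x) ≤ 0)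
    (ha : 0 ≤ a) (hA : a * Svv * (P t x + S t (V t x)) - g ≤ A) :
    Touch (fun t x => P t x - S t (V t x)) A t x := by
  have hVc : Tendsto (V t) (𝓝 x) (𝓝 (V t x)) := hVx.self_of_nhds.continuousAt
  refine ⟨fun s => P s x - S' s (V s x), fun y => P t y - S' t (V t y),
    fun y => Px y - Sv (V t y) * P t y, Pt - (St + Sv (V t x) * Vt),
    Pxx - ((Svv * P t x) * P t x + Sv (V t x) * Px x), a, β,
    a * Svv * (P t x + S t (V t x)) - g, ?_, ?_, ?_, ?_, ?_, ?_, ?_, ha, hA, ?_⟩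
  · filter_upwards [hS1] with s hs
    linarith
  · show P t x - S' t (V t x) = P t x - S t (V t x)
    rw [hS2]
  · -- time derivative
    refine hPt.sub ?_
    have h1 : HasDerivWithinAt (fun s : ℝ => ((s, V s x) : ℝ × ℝ)) ((1, Vt) : ℝ × ℝ) (Ici t) t :=
      (hasDerivWithinAt_id t (Ici t)).prodMk hVt
    have h2 := HasFDerivWithinAt.comp_hasDerivWithinAt (f := fun s : ℝ => ((s, V s x) : ℝ × ℝ))
      (l := fun p : ℝ × ℝ => S' p.1 p.2) t hS3 h1 (fun s hs => ⟨hs, mem_univ _⟩)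
    have h3 : (St • ContinuousLinearMap.fst ℝ ℝ ℝ + Sv (V t x) • ContinuousLinearMap.snd ℝ ℝ ℝ)
        ((1, Vt) : ℝ × ℝ) = St + Sv (V t x) * Vt := by simp
    rw [h3] at h2
    exact h2
  · filter_upwards [hVc.eventually hS1'] with y hy
    show P t y - S' t (V t y) ≤ P t y - S t (V t y)
    linarith
  · show P t x - S' t (V t x) = P t x - S t (V t x)
    rw [hS2]
  · filter_upwards [hVx, hPx, hVc.eventually hS4] with y hy1 hy2 hy3
    exact hy2.sub (HasDerivAt.comp y hy3 hy1)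
  · have hV0 : HasDerivAt (V t) (P t x) x := hVx.self_of_nhds
    have hP0 : HasDerivAt (P t) (Px x) x := hPx.self_of_nhds
    rcases comp_side hmono hV0 hS5 with h | h
    · left
      exact hPxx.hasDerivWithinAt.sub (h.mul hP0.hasDerivWithinAt)
    · right
      exact hPxx.hasDerivWithinAt.sub (h.mul hP0.hasDerivWithinAt)
  · show 0 ≤ Pt - (St + Sv (V t x) * Vt) + a * (Pxx - ((Svv * P t x) * P t x + Sv (V t x) * Px x))
      + β * (Px x - Sv (V t x) * P t x)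
      + (a * Svv * (P t x + S t (V t x)) - g) * (P t x - S t (V t x))
    have e : Pt - (St + Sv (V t x) * Vt) + a * (Pxx - ((Svv * P t x) * P t x + Sv (V t x) * Px x))
      + β * (Px x - Sv (V t x) * P t x)
      + (a * Svv * (P t x + S t (V t x)) - g) * (P t x - S t (V t x))
      = (Pt + a * Pxx + β * Px x - g * P t x)
        - Sv (V t x) * (Vt + a * Px x + β * P t x - f)
        - (St + f * Sv (V t x) + a * S t (V t x) ^ 2 * Svv - g * S t (V t x)) := by ring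
    rw [e, hVeq, hPeq]
    linarith

/-- **local data for `S(t,V) ≤ P`.**  `S'` is a function touching `S` from below at
`(t, V t x)`. -/
theorem touch_slope_ge {V P S S' : ℝ → ℝ → ℝ} {Px Sv : ℝ → ℝ}
    {A t x Vt Pt Pxx St Svv a β f g : ℝ}
    (hVt : HasDerivWithinAt (fun s => V s x) Vt (Ici t) t)
    (hVx : ∀ᶠ y in 𝓝 x, HasDerivAt (V t) (P t y) y)
    (hmono : Monotone (V t))
    (hPt : HasDerivWithinAt (fun s => P s x) Pt (Ici t) t)
    (hPx : ∀ᶠ y in 𝓝 x, HasDerivAt (P t) (Px y) y)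
    (hPxx : HasDerivAt Px Pxx x)
    (hVeq : Vt + a * Px x + β * P t x = f)
    (hPeq : Pt + a * Pxx + β * Px x = g * P t x)
    (hS1 : ∀ᶠ s in 𝓝[>] t, S' s (V s x) ≤ S s (V s x))
    (hS1' : ∀ᶠ v in 𝓝 (V t x), S' t v ≤ S t v)
    (hS2 : S' t (V t x) = S t (V t x))
    (hS3 : HasFDerivWithinAt (fun p : ℝ × ℝ => S' p.1 p.2)
      (St • ContinuousLinearMap.fst ℝ ℝ ℝ + Sv (V t x) • ContinuousLinearMap.snd ℝ ℝ ℝ)
      (Ici t ×ˢ univ) (t, V t x))
    (hS4 : ∀ᶠ v in 𝓝 (V t x), HasDerivAt (S' t) (Sv v) v)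
    (hS5 : HasDerivWithinAt Sv Svv (Ici (V t x)) (V t x) ∨
      HasDerivWithinAt Sv Svv (Iic (V t x)) (V t x))
    (hS6 : 0 ≤ St + f * Sv (V t x) + a * S t (V t x) ^ 2 * Svv - g * S t (V t x))
    (ha : 0 ≤ a) (hA : a * Svv * (P t x + S t (V t x)) - g ≤ A) :
    Touch (fun t x => S t (V t x) - P t x) A t x := by
  have hVc : Tendsto (V t) (𝓝 x) (𝓝 (V t x)) := hVx.self_of_nhds.continuousAt
  refine ⟨fun s => S' s (V s x) - P s x, fun y => S' t (V t y) - P t y,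
    fun y => Sv (V t y) * P t y - Px y, (St + Sv (V t x) * Vt) - Pt,
    ((Svv * P t x) * P t x + Sv (V t x) * Px x) - Pxx, a, β,
    a * Svv * (P t x + S t (V t x)) - g, ?_, ?_, ?_, ?_, ?_, ?_, ?_, ha, hA, ?_⟩
  · filter_upwards [hS1] with s hs
    linarith
  · show S' t (V t x) - P t x = S t (V t x) - P t x
    rw [hS2]
  · -- time derivative
    refine HasDerivWithinAt.sub ?_ hPt
    have h1 : HasDerivWithinAt (fun s : ℝ => ((s, V s x) : ℝ × ℝ)) ((1, Vt) : ℝ × ℝ) (Ici t) t :=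
      (hasDerivWithinAt_id t (Ici t)).prodMk hVt
    have h2 := HasFDerivWithinAt.comp_hasDerivWithinAt (f := fun s : ℝ => ((s, V s x) : ℝ × ℝ))
      (l := fun p : ℝ × ℝ => S' p.1 p.2) t hS3 h1 (fun s hs => ⟨hs, mem_univ _⟩)
    have h3 : (St • ContinuousLinearMap.fst ℝ ℝ ℝ + Sv (V t x) • ContinuousLinearMap.snd ℝ ℝ ℝ)
        ((1, Vt) : ℝ × ℝ) = St + Sv (V t x) * Vt := by simp
    rw [h3] at h2
    exact h2
  · filter_upwards [hVc.eventually hS1'] with y hy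
    show S' t (V t y) - P t y ≤ S t (V t y) - P t y
    linarith
  · show S' t (V t x) - P t x = S t (V t x) - P t x
    rw [hS2]
  · filter_upwards [hVx, hPx, hVc.eventually hS4] with y hy1 hy2 hy3
    exact (HasDerivAt.comp y hy3 hy1).sub hy2
  · have hV0 : HasDerivAt (V t) (P t x) x := hVx.self_of_nhds
    have hP0 : HasDerivAt (P t) (Px x) x := hPx.self_of_nhds
    rcases comp_side hmono hV0 hS5 with h | h
    · left
      exact (h.mul hP0.hasDerivWithinAt).sub hPxx.hasDerivWithinAt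
    · right
      exact (h.mul hP0.hasDerivWithinAt).sub hPxx.hasDerivWithinAt
  · show 0 ≤ (St + Sv (V t x) * Vt) - Pt + a * (((Svv * P t x) * P t x + Sv (V t x) * Px x) - Pxx)
      + β * (Sv (V t x) * P t x - Px x)
      + (a * Svv * (P t x + S t (V t x)) - g) * (S t (V t x) - P t x)
    have e : (St + Sv (V t x) * Vt) - Pt
      + a * (((Svv * P t x) * P t x + Sv (V t x) * Px x) - Pxx)
      + β * (Sv (V t x) * P t x - Px x)
      + (a * Svv * (P t x + S t (V t x)) - g) * (S t (V t x) - P t x)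
      = (St + f * Sv (V t x) + a * S t (V t x) ^ 2 * Svv - g * S t (V t x))
        + Sv (V t x) * (Vt + a * Px x + β * P t x - f)
        - (Pt + a * Pxx + β * Px x - g * P t x) := by ring
    rw [e, hVeq, hPeq]
    linarith


/-! ### the tip system: `V_t + V_xx/2 + b u V_x = b V (1-V)`, `P = V_x` -/

/-- The pair `(V, P = V_x)` of the tip system on `[t₀,t₁] × ℝ` (right time derivatives; `b` may be a
step function). -/
structure TipVP (t₀ t₁ : ℝ) (b : ℝ → ℝ) (u V P Px Pxx : ℝ → ℝ → ℝ) : Prop where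
  contV : ContinuousOn (fun p : ℝ × ℝ => V p.1 p.2) (Icc t₀ t₁ ×ˢ univ)
  contP : ContinuousOn (fun p : ℝ × ℝ => P p.1 p.2) (Icc t₀ t₁ ×ˢ univ)
  V01 : ∀ t ∈ Icc t₀ t₁, ∀ x, V t x ∈ Ioo (0 : ℝ) 1
  P0 : ∀ t ∈ Icc t₀ t₁, ∀ x, 0 ≤ P t x
  Vt : ∀ t ∈ Ico t₀ t₁, ∀ x, HasDerivWithinAt (fun s => V s x)
    (b t * (V t x * (1 - V t x)) - Px t x / 2 - b t * u t x * P t x) (Ici t) t
  Vx : ∀ t ∈ Ico t₀ t₁, ∀ x, HasDerivAt (V t) (P t x) x
  Pt : ∀ t ∈ Ico t₀ t₁, ∀ x, HasDerivWithinAt (fun s => P s x)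
    (b t * (2 - 3 * V t x) * P t x - Pxx t x / 2 - b t * u t x * Px t x) (Ici t) t
  Px_ : ∀ t ∈ Ico t₀ t₁, ∀ x, HasDerivAt (P t) (Px t x) x
  Pxx_ : ∀ t ∈ Ico t₀ t₁, ∀ x, HasDerivAt (Px t) (Pxx t x) x

/-- `K` has at `v` a touching function from above, with values `k1`, `k2` of the derivatives, for
which `S(t,v) = θ(t) K(v)` is a supersolution of the slope equation. -/
def SupK (K : ℝ → ℝ) (C2 θ θ1 b v : ℝ) : Prop :=
  ∃ (k k1 : ℝ → ℝ) (k2 : ℝ), (∀ᶠ w in 𝓝 v, K w ≤ k w) ∧ k v = K v ∧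
    (∀ᶠ w in 𝓝 v, HasDerivAt k (k1 w) w) ∧
    (HasDerivWithinAt k1 k2 (Ici v) v ∨ HasDerivWithinAt k1 k2 (Iic v) v) ∧ k2 ≤ C2 ∧
    θ1 * K v + θ * (b * (v * (1 - v))) * k1 v + θ ^ 3 * K v ^ 2 * k2 / 2
      - b * (2 - 3 * v) * (θ * K v) ≤ 0

/-- `K` has at `v` a touching function from below for which `S(t,v) = θ(t) K(v)` is a subsolution
of the slope equation. -/
def SubK (K : ℝ → ℝ) (C2 θ θ1 b v : ℝ) : Prop :=
  ∃ (k k1 : ℝ → ℝ) (k2 : ℝ), (∀ᶠ w in 𝓝 v, k w ≤ K w) ∧ k v = K v ∧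
    (∀ᶠ w in 𝓝 v, HasDerivAt k (k1 w) w) ∧
    (HasDerivWithinAt k1 k2 (Ici v) v ∨ HasDerivWithinAt k1 k2 (Iic v) v) ∧ k2 ≤ C2 ∧
    0 ≤ θ1 * K v + θ * (b * (v * (1 - v))) * k1 v + θ ^ 3 * K v ^ 2 * k2 / 2
      - b * (2 - 3 * v) * (θ * K v)

/-- smooth case of `SupK` -/
theorem SupK.of_smooth {K K1 : ℝ → ℝ} {K2 C2 θ θ1 b v : ℝ} (hv : v ∈ Ioo (0 : ℝ) 1)
    (h1 : ∀ w ∈ Ioo (0 : ℝ) 1, HasDerivAt K (K1 w) w)
    (h2 : HasDerivWithinAt K1 K2 (Ici v) v ∨ HasDerivWithinAt K1 K2 (Iic v) v) (h3 : K2 ≤ C2)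
    (h4 : θ1 * K v + θ * (b * (v * (1 - v))) * K1 v + θ ^ 3 * K v ^ 2 * K2 / 2
      - b * (2 - 3 * v) * (θ * K v) ≤ 0) : SupK K C2 θ θ1 b v :=
  ⟨K, K1, K2, Eventually.of_forall fun _ => le_rfl, rfl,
    by filter_upwards [isOpen_Ioo.mem_nhds hv] with w hw using h1 w hw, h2, h3, h4⟩

/-- smooth case of `SubK` -/
theorem SubK.of_smooth {K K1 : ℝ → ℝ} {K2 C2 θ θ1 b v : ℝ} (hv : v ∈ Ioo (0 : ℝ) 1)
    (h1 : ∀ w ∈ Ioo (0 : ℝ) 1, HasDerivAt K (K1 w) w)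
    (h2 : HasDerivWithinAt K1 K2 (Ici v) v ∨ HasDerivWithinAt K1 K2 (Iic v) v) (h3 : K2 ≤ C2)
    (h4 : 0 ≤ θ1 * K v + θ * (b * (v * (1 - v))) * K1 v + θ ^ 3 * K v ^ 2 * K2 / 2
      - b * (2 - 3 * v) * (θ * K v)) : SubK K C2 θ θ1 b v :=
  ⟨K, K1, K2, Eventually.of_forall fun _ => le_rfl, rfl,
    by filter_upwards [isOpen_Ioo.mem_nhds hv] with w hw using h1 w hw, h2, h3, h4⟩

/-- minimum of two supersolutions -/
theorem SupK.min {K L : ℝ → ℝ} {C2 θ θ1 b v : ℝ}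
    (hK : K v ≤ L v → SupK K C2 θ θ1 b v) (hL : L v ≤ K v → SupK L C2 θ θ1 b v) :
    SupK (fun w => min (K w) (L w)) C2 θ θ1 b v := by
  rcases le_total (K v) (L v) with h | h
  · obtain ⟨k, k1, k2, a1, a2, a3, a4, a5, a6⟩ := hK h
    refine ⟨k, k1, k2, ?_, ?_, a3, a4, a5, ?_⟩
    · filter_upwards [a1] with w hw using (min_le_left _ _).trans hw
    · simp [a2, min_eq_left h]
    · simpa [min_eq_left h] using a6
  · obtain ⟨k, k1, k2, a1, a2, a3, a4, a5, a6⟩ := hL h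
    refine ⟨k, k1, k2, ?_, ?_, a3, a4, a5, ?_⟩
    · filter_upwards [a1] with w hw using (min_le_right _ _).trans hw
    · simp [a2, min_eq_right h]
    · simpa [min_eq_right h] using a6

/-- maximum of two subsolutions -/
theorem SubK.max {K L : ℝ → ℝ} {C2 θ θ1 b v : ℝ}
    (hK : L v ≤ K v → SubK K C2 θ θ1 b v) (hL : K v ≤ L v → SubK L C2 θ θ1 b v) :
    SubK (fun w => max (K w) (L w)) C2 θ θ1 b v := by
  rcases le_total (L v) (K v) with h | h
  · obtain ⟨k, k1, k2, a1, a2, a3, a4, a5, a6⟩ := hK h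
    refine ⟨k, k1, k2, ?_, ?_, a3, a4, a5, ?_⟩
    · filter_upwards [a1] with w hw using hw.trans (le_max_left _ _)
    · simp [a2, max_eq_left h]
    · simpa [max_eq_left h] using a6
  · obtain ⟨k, k1, k2, a1, a2, a3, a4, a5, a6⟩ := hL h
    refine ⟨k, k1, k2, ?_, ?_, a3, a4, a5, ?_⟩
    · filter_upwards [a1] with w hw using hw.trans (le_max_right _ _)
    · simp [a2, max_eq_right h]
    · simpa [max_eq_right h] using a6

/-- the product `θ(s) k(v)` is differentiable within `{s ≥ t}` -/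
theorem hasFDeriv_prod {θ k : ℝ → ℝ} {t v θ1 k1 : ℝ} (hθ : HasDerivWithinAt θ θ1 (Ici t) t)
    (hk : HasDerivAt k k1 v) :
    HasFDerivWithinAt (fun p : ℝ × ℝ => θ p.1 * k p.2)
      ((θ1 * k v) • ContinuousLinearMap.fst ℝ ℝ ℝ + (θ t * k1) • ContinuousLinearMap.snd ℝ ℝ ℝ)
      (Ici t ×ˢ univ) (t, v) := by
  have h1 : HasFDerivWithinAt (fun p : ℝ × ℝ => θ p.1)
      (θ1 • ContinuousLinearMap.fst ℝ ℝ ℝ) (Ici t ×ˢ univ) (t, v) := by
    have := HasDerivWithinAt.comp_hasFDerivWithinAt (h₂ := θ) (f := fun p : ℝ × ℝ => p.1)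
      (s := Ici t ×ˢ (univ : Set ℝ)) (t := Ici t) (t, v) hθ
      ((hasFDerivAt_fst (𝕜 := ℝ) (p := ((t, v) : ℝ × ℝ))).hasFDerivWithinAt) (fun p hp => hp.1)
    exact this
  have h2 : HasFDerivWithinAt (fun p : ℝ × ℝ => k p.2)
      (k1 • ContinuousLinearMap.snd ℝ ℝ ℝ) (Ici t ×ˢ univ) (t, v) :=
    (HasDerivAt.comp_hasFDerivAt (h₂ := k) (f := fun p : ℝ × ℝ => p.2) (t, v) hk
      hasFDerivAt_snd).hasFDerivWithinAt
  have h3 := h1.mul h2
  refine h3.congr_fderiv ?_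
  ext <;> simp <;> ring

theorem TipVP.mono {t₀ t₁ : ℝ} {b : ℝ → ℝ} {u V P Px Pxx : ℝ → ℝ → ℝ}
    (H : TipVP t₀ t₁ b u V P Px Pxx) {t : ℝ} (ht : t ∈ Ico t₀ t₁) : Monotone (V t) :=
  monotone_of_hasDerivAt_nonneg (fun x => H.Vx t ht x) (fun x => H.P0 t ⟨ht.1, ht.2.le⟩ x)

theorem TipVP.cont_comp {t₀ t₁ : ℝ} {b : ℝ → ℝ} {u V P Px Pxx : ℝ → ℝ → ℝ}
    (H : TipVP t₀ t₁ b u V P Px Pxx) {θ K : ℝ → ℝ} (hθ : ContinuousOn θ (Icc t₀ t₁))
    (hK : ContinuousOn K (Ioo 0 1)) :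
    ContinuousOn (fun p : ℝ × ℝ => θ p.1 * K (V p.1 p.2)) (Icc t₀ t₁ ×ˢ univ) := by
  apply ContinuousOn.mul
  · exact hθ.comp continuousOn_fst (fun p hp => hp.1)
  · exact hK.comp H.contV (fun p hp => H.V01 p.1 hp.1 p.2)

/-- **Slope comparison, upper bound**, tip system: `P ≤ θ(t) K(V)`. -/
theorem TipVP.slope_le {t₀ t₁ Bm C2 Θ Pm : ℝ} {b : ℝ → ℝ} {u V P Px Pxx : ℝ → ℝ → ℝ}
    (H : TipVP t₀ t₁ b u V P Px Pxx) {θ θ1 K : ℝ → ℝ}
    (hb : ∀ t ∈ Ico t₀ t₁, 0 ≤ b t ∧ b t ≤ Bm)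
    (hθc : ContinuousOn θ (Icc t₀ t₁)) (hθ0 : ∀ t ∈ Icc t₀ t₁, 0 < θ t ∧ θ t ≤ Θ)
    (hθ1 : ∀ t ∈ Ico t₀ t₁, HasDerivWithinAt θ (θ1 t) (Ici t) t)
    (hKc : ContinuousOn K (Ioo 0 1)) (hK0 : ∀ v ∈ Ioo (0 : ℝ) 1, 0 ≤ K v)
    (hPm : ∀ t ∈ Ico t₀ t₁, ∀ x, P t x ≤ Pm) (hC2 : 0 ≤ C2)
    (hbar : ∀ t ∈ Ico t₀ t₁, ∀ v ∈ Ioo (0 : ℝ) 1, SupK K C2 (θ t) (θ1 t) (b t) v)
    (hterm : ∀ x, P t₁ x ≤ θ t₁ * K (V t₁ x))
    (hdec : ∀ ε > 0, ∃ r, ∀ t ∈ Icc t₀ t₁, ∀ x, r < |x| → P t x ≤ ε) :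
    ∀ t ∈ Icc t₀ t₁, ∀ x, P t x ≤ θ t * K (V t x) := by
  have key := max_touch (t₀ := t₀) (t₁ := t₁) (A := Bm + Θ * C2 * Pm) (D := univ) isOpen_univ
    (u := fun t x => P t x - (fun t v => θ t * K v) t (V t x))
    (H.contP.sub (H.cont_comp hθc hKc)) ?_ ?_ ?_
  · intro t ht x
    have := key t ht x (mem_univ _)
    simp only at this
    linarith
  · intro t ht x _ hpos
    have hv := H.V01 t ⟨ht.1, ht.2.le⟩ x
    have hP := H.P0 t ⟨ht.1, ht.2.le⟩ x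
    obtain ⟨k, k1, k2, a1, a2, a3, a4, a5, a6⟩ := hbar t ht (V t x) hv
    have hθt := hθ0 t ⟨ht.1, ht.2.le⟩
    have hb' := hb t ht
    have hKv := hK0 _ hv
    simp only at hpos
    have hVr : Tendsto (fun s => V s x) (𝓝[>] t) (𝓝 (V t x)) :=
      ((H.Vt t ht x).continuousWithinAt.mono Ioi_subset_Ici_self)
    refine touch_slope_le (S := fun t v => θ t * K v) (S' := fun t v => θ t * k v)
      (Px := Px t) (Sv := fun w => θ t * k1 w) (St := θ1 t * k (V t x)) (Svv := θ t * k2)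
      (a := 1 / 2) (β := b t * u t x) (f := b t * (V t x * (1 - V t x)))
      (g := b t * (2 - 3 * V t x)) (Pxx := Pxx t x)
      (H.Vt t ht x) (Eventually.of_forall (H.Vx t ht)) (H.mono ht) (H.Pt t ht x)
      (Eventually.of_forall (H.Px_ t ht)) (H.Pxx_ t ht x) (by ring) (by ring) ?_ ?_ ?_ ?_ ?_ ?_ ?_
      (by norm_num) ?_
    · have h1 : ∀ᶠ s in 𝓝[>] t, K (V s x) ≤ k (V s x) := hVr.eventually a1
      have h2 : ∀ᶠ s in 𝓝[>] t, s ∈ Ioo t t₁ := Ioo_mem_nhdsGT ht.2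
      filter_upwards [h1, h2] with s hs hs2
      exact mul_le_mul_of_nonneg_left hs (hθ0 s ⟨ht.1.trans hs2.1.le, hs2.2.le⟩).1.le
    · filter_upwards [a1] with w hw using mul_le_mul_of_nonneg_left hw hθt.1.le
    · simp only [a2]
    · exact hasFDeriv_prod (hθ1 t ht) a3.self_of_nhds
    · filter_upwards [a3] with w hw using hw.const_mul _
    · rcases a4 with h | h
      · left; exact h.const_mul _
      · right; exact h.const_mul _
    · simp only [a2]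
      nlinarith [a6]
    · have e1 : θ t * k2 ≤ Θ * C2 :=
        (mul_le_mul_of_nonneg_left a5 hθt.1.le).trans (mul_le_mul_of_nonneg_right hθt.2 hC2)
      have e2 : P t x + θ t * K (V t x) ≤ 2 * Pm := by
        have := hPm t ht x
        linarith
      have e3 : 0 ≤ P t x + θ t * K (V t x) := by
        have := mul_nonneg hθt.1.le hKv
        linarith
      have hΘ : 0 ≤ Θ := hθt.1.le.trans hθt.2
      have e4 : (θ t * k2) * (P t x + θ t * K (V t x)) ≤ (Θ * C2) * (2 * Pm) :=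
        (mul_le_mul_of_nonneg_right e1 e3).trans (mul_le_mul_of_nonneg_left e2 (mul_nonneg hΘ hC2))
      have e5 : -(b t * (2 - 3 * V t x)) ≤ Bm := by nlinarith [hv.1, hv.2, hb'.1, hb'.2]
      nlinarith
  · intro x _
    simp only
    linarith [hterm x]
  · intro ε hε
    obtain ⟨r, hr⟩ := hdec ε hε
    refine ⟨Icc (-r) r, isCompact_Icc, subset_univ _, ?_⟩
    intro t ht x _ hx
    have hx' : r < |x| := by
      by_contra h
      push Not at h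
      exact hx (abs_le.1 h)
    have h1 := hr t ht x hx'
    have h2 := mul_nonneg (hθ0 t ht).1.le (hK0 _ (H.V01 t ht x))
    simp only
    linarith

/-- **Slope comparison, lower bound**, tip system: `θ(t) K(V) ≤ P`. -/
theorem TipVP.slope_ge {t₀ t₁ Bm C2 Θ Sm : ℝ} {b : ℝ → ℝ} {u V P Px Pxx : ℝ → ℝ → ℝ}
    (H : TipVP t₀ t₁ b u V P Px Pxx) {θ θ1 K : ℝ → ℝ}
    (hb : ∀ t ∈ Ico t₀ t₁, 0 ≤ b t ∧ b t ≤ Bm)
    (hθc : ContinuousOn θ (Icc t₀ t₁)) (hθ0 : ∀ t ∈ Icc t₀ t₁, 0 < θ t ∧ θ t ≤ Θ)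
    (hθ1 : ∀ t ∈ Ico t₀ t₁, HasDerivWithinAt θ (θ1 t) (Ici t) t)
    (hKc : ContinuousOn K (Ioo 0 1)) (hK0 : ∀ v ∈ Ioo (0 : ℝ) 1, 0 ≤ K v)
    (hSm : ∀ t ∈ Ico t₀ t₁, ∀ v ∈ Ioo (0 : ℝ) 1, θ t * K v ≤ Sm) (hC2 : 0 ≤ C2)
    (hbar : ∀ t ∈ Ico t₀ t₁, ∀ v ∈ Ioo (0 : ℝ) 1, SubK K C2 (θ t) (θ1 t) (b t) v)
    (hterm : ∀ x, θ t₁ * K (V t₁ x) ≤ P t₁ x)
    (hdec : ∀ ε > 0, ∃ r, ∀ t ∈ Icc t₀ t₁, ∀ x, r < |x| → K (V t x) ≤ ε) :
    ∀ t ∈ Icc t₀ t₁, ∀ x, θ t * K (V t x) ≤ P t x := by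
  have key := max_touch (t₀ := t₀) (t₁ := t₁) (A := Bm + Θ * C2 * Sm) (D := univ) isOpen_univ
    (u := fun t x => (fun t v => θ t * K v) t (V t x) - P t x)
    ((H.cont_comp hθc hKc).sub H.contP) ?_ ?_ ?_
  · intro t ht x
    have := key t ht x (mem_univ _)
    simp only at this
    linarith
  · intro t ht x _ hpos
    have hv := H.V01 t ⟨ht.1, ht.2.le⟩ x
    have hP := H.P0 t ⟨ht.1, ht.2.le⟩ x
    obtain ⟨k, k1, k2, a1, a2, a3, a4, a5, a6⟩ := hbar t ht (V t x) hv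
    have hθt := hθ0 t ⟨ht.1, ht.2.le⟩
    have hb' := hb t ht
    have hKv := hK0 _ hv
    simp only at hpos
    have hVr : Tendsto (fun s => V s x) (𝓝[>] t) (𝓝 (V t x)) :=
      ((H.Vt t ht x).continuousWithinAt.mono Ioi_subset_Ici_self)
    refine touch_slope_ge (S := fun t v => θ t * K v) (S' := fun t v => θ t * k v)
      (Px := Px t) (Sv := fun w => θ t * k1 w) (St := θ1 t * k (V t x)) (Svv := θ t * k2)
      (a := 1 / 2) (β := b t * u t x) (f := b t * (V t x * (1 - V t x)))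
      (g := b t * (2 - 3 * V t x)) (Pxx := Pxx t x)
      (H.Vt t ht x) (Eventually.of_forall (H.Vx t ht)) (H.mono ht) (H.Pt t ht x)
      (Eventually.of_forall (H.Px_ t ht)) (H.Pxx_ t ht x) (by ring) (by ring) ?_ ?_ ?_ ?_ ?_ ?_ ?_
      (by norm_num) ?_
    · have h1 : ∀ᶠ s in 𝓝[>] t, k (V s x) ≤ K (V s x) := hVr.eventually a1
      have h2 : ∀ᶠ s in 𝓝[>] t, s ∈ Ioo t t₁ := Ioo_mem_nhdsGT ht.2
      filter_upwards [h1, h2] with s hs hs2
      exact mul_le_mul_of_nonneg_left hs (hθ0 s ⟨ht.1.trans hs2.1.le, hs2.2.le⟩).1.le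
    · filter_upwards [a1] with w hw using mul_le_mul_of_nonneg_left hw hθt.1.le
    · simp only [a2]
    · exact hasFDeriv_prod (hθ1 t ht) a3.self_of_nhds
    · filter_upwards [a3] with w hw using hw.const_mul _
    · rcases a4 with h | h
      · left; exact h.const_mul _
      · right; exact h.const_mul _
    · simp only [a2]
      nlinarith [a6]
    · have e1 : θ t * k2 ≤ Θ * C2 :=
        (mul_le_mul_of_nonneg_left a5 hθt.1.le).trans (mul_le_mul_of_nonneg_right hθt.2 hC2)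
      have e2 : P t x + θ t * K (V t x) ≤ 2 * Sm := by
        have := hSm t ht (V t x) hv
        linarith
      have e3 : 0 ≤ P t x + θ t * K (V t x) := by
        have := mul_nonneg hθt.1.le hKv
        linarith
      have hΘ : 0 ≤ Θ := hθt.1.le.trans hθt.2
      have e4 : (θ t * k2) * (P t x + θ t * K (V t x)) ≤ (Θ * C2) * (2 * Sm) :=
        (mul_le_mul_of_nonneg_right e1 e3).trans (mul_le_mul_of_nonneg_left e2 (mul_nonneg hΘ hC2))
      have e5 : -(b t * (2 - 3 * V t x)) ≤ Bm := by nlinarith [hv.1, hv.2, hb'.1, hb'.2]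
      nlinarith
  · intro x _
    simp only
    linarith [hterm x]
  · intro ε hε
    by_cases hI : (Icc t₀ t₁).Nonempty
    · obtain ⟨s, hs⟩ := hI
      have hΘ : 0 < Θ := (hθ0 s hs).1.trans_le (hθ0 s hs).2
      obtain ⟨r, hr⟩ := hdec (ε / Θ) (by positivity)
      refine ⟨Icc (-r) r, isCompact_Icc, subset_univ _, ?_⟩
      intro t ht x _ hx
      have hx' : r < |x| := by
        by_contra h
        push Not at h
        exact hx (abs_le.1 h)
      have h1 := hr t ht x hx'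
      have h2 := hK0 _ (H.V01 t ht x)
      have h3 := H.P0 t ht x
      have h4 : θ t * K (V t x) ≤ Θ * (ε / Θ) :=
        (mul_le_mul_of_nonneg_right (hθ0 t ht).2 h2).trans (mul_le_mul_of_nonneg_left h1 hΘ.le)
      have h5 : Θ * (ε / Θ) = ε := by field_simp
      simp only
      linarith
    · refine ⟨∅, isCompact_empty, empty_subset _, ?_⟩
      intro t ht
      exact absurd ⟨t, ht⟩ hI

end Crest.Agent.R146.Slope_86
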