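import Mathlib
import Crest.Prelude.Def_Perceptron
import Crest.Prelude.Def_SphericalPressure
import Crest.Agent.R166.GaussQ_286

/-!
# Row 146, SPHERE part 1 (helper409): the uniform law of the unit sphere

* `uS N` : the uniform probability law on `UnitSphere N` (normalised `sphereLaw N`);
* `integral_uS`, `spherePressure_eq_uS`;
* `uS_map_sphMap` : invariance under linear isometries;
* `stdGaussian_eq_withDensity` : density of the standard Gaussian law of `ℝ^N`;
* `radLaw N` : law of the norm of a standard Gaussian vector;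
* `lintegral_stdGaussian_polar`, `map_smul_prod`, `integral_stdGaussian_polar` : norm and
  direction of a standard Gaussian vector are independent, the direction has law `uS N`;
* `lintegral_normalize`, `map_normalize`.

The proofs of `lintegral_pi_prod`, `pi_withDensity` are those of `R148/BMBridge`, those of
`lintegral_volumeIoiPow`, `lintegral_polar` are those of `R202/TraSph` (helper362).
-/

set_option autoImplicit false

open MeasureTheory MeasureTheory.Measure ProbabilityTheory Set Filter Topology Metric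
open scoped ENNReal NNReal Real Pointwise

noncomputable section

namespace Crest.Agent.R146.Sph_409

open Crest.ProbabilityR.Perceptron

/-- Euclidean space of dimension `N`. -/
abbrev En (N : ℕ) : Type := EuclideanSpace ℝ (Fin N)

/-! ### the uniform law -/

/-- The uniform probability law on the unit sphere of `ℝ^N`. -/
def uS (N : ℕ) : Measure (UnitSphere N) := (sphereLaw N Set.univ)⁻¹ • sphereLaw N

instance instFiniteSphereLaw (N : ℕ) : IsFiniteMeasure (sphereLaw N) := by
  unfold sphereLaw; infer_instance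

theorem sphereLaw_univ (N : ℕ) :
    sphereLaw N Set.univ = N * volume (ball (0 : En N) 1) := by
  unfold sphereLaw
  rw [Measure.toSphere_apply_univ]
  simp

theorem sphereLaw_univ_ne_zero (N : ℕ) [NeZero N] : sphereLaw N Set.univ ≠ 0 := by
  rw [sphereLaw_univ]
  refine mul_ne_zero (by exact_mod_cast NeZero.ne N) ?_
  exact (measure_ball_pos volume (0 : En N) one_pos).ne'

theorem sphereLaw_univ_ne_top (N : ℕ) : sphereLaw N Set.univ ≠ ⊤ := measure_ne_top _ _

instance instProbUS (N : ℕ) [NeZero N] : IsProbabilityMeasure (uS N) := by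
  refine ⟨?_⟩
  unfold uS
  rw [Measure.smul_apply, smul_eq_mul]
  exact ENNReal.inv_mul_cancel (sphereLaw_univ_ne_zero N) (sphereLaw_univ_ne_top N)

theorem isEmpty_unitSphere_zero : IsEmpty (UnitSphere 0) := by
  refine ⟨fun y => ?_⟩
  have h := y.2
  rw [mem_sphere_iff_norm, sub_zero, Subsingleton.elim (y : En 0) 0, norm_zero] at h
  exact zero_ne_one h

instance instFiniteUS (N : ℕ) : IsFiniteMeasure (uS N) := by
  rcases Nat.eq_zero_or_pos N with rfl | h
  · have := isEmpty_unitSphere_zero
    refine ⟨?_⟩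
    rw [Set.univ_eq_empty_iff.2 isEmpty_unitSphere_zero]
    simp
  · have : NeZero N := ⟨h.ne'⟩
    infer_instance

theorem sphereLaw_eq_smul (N : ℕ) [NeZero N] : sphereLaw N = (sphereLaw N Set.univ) • uS N := by
  unfold uS
  rw [smul_smul, ENNReal.mul_inv_cancel (sphereLaw_univ_ne_zero N) (sphereLaw_univ_ne_top N),
    one_smul]

theorem uS_absolutelyContinuous (N : ℕ) : uS N ≪ sphereLaw N := by
  unfold uS
  exact Measure.smul_absolutelyContinuous

theorem sphereLaw_absolutelyContinuous (N : ℕ) [NeZero N] : sphereLaw N ≪ uS N := by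
  rw [sphereLaw_eq_smul N]
  exact Measure.smul_absolutelyContinuous

theorem lintegral_uS (N : ℕ) (F : UnitSphere N → ℝ≥0∞) :
    ∫⁻ y, F y ∂uS N = (sphereLaw N Set.univ)⁻¹ * ∫⁻ y, F y ∂sphereLaw N := by
  unfold uS
  rw [lintegral_smul_measure, smul_eq_mul]

/-- Integrals against the uniform law. -/
theorem integral_uS {G : Type*} [NormedAddCommGroup G] [NormedSpace ℝ G] (N : ℕ)
    (F : UnitSphere N → G) :
    ∫ y, F y ∂uS N = ((sphereLaw N).real Set.univ)⁻¹ • ∫ y, F y ∂sphereLaw N := by
  unfold uS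
  rw [integral_smul_measure, ENNReal.toReal_inv]
  rfl

theorem integral_uS' (N : ℕ) (F : UnitSphere N → ℝ) :
    ∫ y, F y ∂uS N = (∫ y, F y ∂sphereLaw N) / (sphereLaw N).real Set.univ := by
  rw [integral_uS, smul_eq_mul]; ring

/-- The pressure in terms of the uniform law. -/
theorem spherePressure_eq_uS (N : ℕ) (α β : ℝ) (φ : ℝ → ℝ) (g : Patterns N α) :
    spherePressure N α β φ g =
      Real.log (∫ y, Real.exp (β * potentialSum φ g y) ∂uS N) / N := by
  unfold spherePressure
  rw [integral_uS']

/-- The Gibbs average in terms of the uniform law. -/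
theorem gibbsAverage_eq_uS (N : ℕ) [NeZero N] (α β : ℝ) (A : Patterns N α)
    (O : UnitSphere N → ℝ) :
    gibbsAverage β A O =
      (∫ y, O y * Real.exp (-β * penaltyEnergy A y) ∂uS N) /
        ∫ y, Real.exp (-β * penaltyEnergy A y) ∂uS N := by
  unfold gibbsAverage
  rw [integral_uS', integral_uS']
  have h : (sphereLaw N).real Set.univ ≠ 0 := by
    rw [measureReal_def]
    exact (ENNReal.toReal_pos (sphereLaw_univ_ne_zero N) (sphereLaw_univ_ne_top N)).ne'
  rw [div_div_div_cancel_right₀ h]

/-! ### invariance under linear isometries -/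

/-- Action of a linear isometry equivalence on the unit sphere. -/
def sphMap {N : ℕ} (T : En N ≃ₗᵢ[ℝ] En N) (w : UnitSphere N) : UnitSphere N :=
  ⟨T w, by
    have := w.2
    simp only [mem_sphere_iff_norm, sub_zero] at this ⊢
    rw [T.norm_map, this]⟩

@[simp] theorem coe_sphMap {N : ℕ} (T : En N ≃ₗᵢ[ℝ] En N) (w : UnitSphere N) :
    ((sphMap T w : UnitSphere N) : En N) = T w := rfl

theorem continuous_sphMap {N : ℕ} (T : En N ≃ₗᵢ[ℝ] En N) : Continuous (sphMap T) :=
  Continuous.subtype_mk (T.continuous.comp continuous_subtype_val) _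

theorem image_preimage_sphMap {N : ℕ} (T : En N ≃ₗᵢ[ℝ] En N) (s : Set (UnitSphere N)) :
    Ioo (0 : ℝ) 1 • ((↑) '' (sphMap T ⁻¹' s) : Set (En N)) =
      T ⁻¹' (Ioo (0 : ℝ) 1 • ((↑) '' s : Set (En N))) := by
  ext x
  simp only [Set.mem_smul, mem_preimage]
  constructor
  · rintro ⟨r, hr, y, ⟨w, hw, rfl⟩, rfl⟩
    exact ⟨r, hr, T w, ⟨sphMap T w, hw, rfl⟩, by simp⟩
  · rintro ⟨r, hr, y, ⟨w, hw, rfl⟩, hxy⟩
    refine ⟨r, hr, T.symm w, ⟨sphMap T.symm w, ?_, rfl⟩, ?_⟩
    · have : sphMap T (sphMap T.symm w) = w := by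
        apply Subtype.ext
        simp
      simp only [mem_preimage, this, hw]
    · apply T.injective
      simp [hxy]

theorem measurePreserving_sphMap_sphereLaw {N : ℕ} (T : En N ≃ₗᵢ[ℝ] En N) :
    MeasurePreserving (sphMap T) (sphereLaw N) (sphereLaw N) := by
  refine ⟨(continuous_sphMap T).measurable, ?_⟩
  unfold sphereLaw
  ext s hs
  rw [Measure.map_apply (continuous_sphMap T).measurable hs,
    Measure.toSphere_apply' _ hs,
    Measure.toSphere_apply' _ ((continuous_sphMap T).measurable hs),
    image_preimage_sphMap]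
  congr 1
  have h1 : MeasurePreserving T.toHomeomorph.toMeasurableEquiv (volume : Measure (En N)) volume :=
    T.measurePreserving
  exact h1.measure_preimage_equiv _

/-- The uniform law is invariant under linear isometries. -/
theorem measurePreserving_sphMap {N : ℕ} (T : En N ≃ₗᵢ[ℝ] En N) :
    MeasurePreserving (sphMap T) (uS N) (uS N) := by
  refine ⟨(continuous_sphMap T).measurable, ?_⟩
  unfold uS
  rw [Measure.map_smul, (measurePreserving_sphMap_sphereLaw T).map_eq]

theorem lintegral_sphMap {N : ℕ} (T : En N ≃ₗᵢ[ℝ] En N) {F : UnitSphere N → ℝ≥0∞}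
    (hF : Measurable F) : ∫⁻ w, F (sphMap T w) ∂uS N = ∫⁻ w, F w ∂uS N :=
  (measurePreserving_sphMap T).lintegral_comp hF

/-- `sphMap T` as a homeomorphism. -/
def sphHomeo {N : ℕ} (T : En N ≃ₗᵢ[ℝ] En N) : UnitSphere N ≃ₜ UnitSphere N where
  toFun := sphMap T
  invFun := sphMap T.symm
  left_inv w := Subtype.ext (by simp)
  right_inv w := Subtype.ext (by simp)
  continuous_toFun := continuous_sphMap T
  continuous_invFun := continuous_sphMap T.symm

theorem integral_sphMap {G : Type*} [NormedAddCommGroup G] [NormedSpace ℝ G] {N : ℕ}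
    (T : En N ≃ₗᵢ[ℝ] En N) (F : UnitSphere N → G) :
    ∫ w, F (sphMap T w) ∂uS N = ∫ w, F w ∂uS N :=
  (measurePreserving_sphMap T).integral_comp (sphHomeo T).measurableEmbedding F

/-! ### density of the standard Gaussian law -/

/-- copied from `R148/BMBridge` -/
theorem lintegral_pi_prod : ∀ {n : ℕ} (μ : Fin n → Measure ℝ) [∀ i, SigmaFinite (μ i)]
    (f : Fin n → ℝ → ℝ≥0∞) (_ : ∀ i, Measurable (f i)),
    ∫⁻ x, ∏ i, f i (x i) ∂(Measure.pi μ) = ∏ i, ∫⁻ t, f i t ∂(μ i) := by
  intro n
  induction n with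
  | zero =>
    intro μ _ f _
    simp
  | succ n ih =>
    intro μ _ f hf
    have h := (measurePreserving_piFinSuccAbove μ 0)
    have hm : Measurable (fun y : Fin n → ℝ => ∏ i, f i.succ (y i)) := by
      refine Finset.measurable_prod _ fun i _ => ?_
      exact (hf _).comp (by fun_prop)
    have h2 := h.lintegral_comp (f := fun p : ℝ × (Fin n → ℝ) => f 0 p.1 * ∏ i, f i.succ (p.2 i)) (by
      apply Measurable.mul
      · exact (hf 0).comp (by fun_prop)
      · exact hm.comp (by fun_prop))
    rw [lintegral_prod_mul (f := f 0) (g := fun y : Fin n → ℝ => ∏ i, f i.succ (y i))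
      (hf 0).aemeasurable hm.aemeasurable] at h2
    rw [Fin.prod_univ_succ]
    have ih' := ih (fun j => μ (Fin.succ j)) (fun i => f i.succ) (fun i => hf _)
    simp only [Fin.succAbove_zero] at h2
    rw [← ih', ← h2]
    refine lintegral_congr fun x => ?_
    rw [Fin.prod_univ_succ]
    rfl

/-- copied from `R148/BMBridge` -/
theorem pi_withDensity {n : ℕ} (f : ℝ → ℝ≥0∞) (hf : Measurable f)
    [SigmaFinite ((volume : Measure ℝ).withDensity f)] :
    Measure.pi (fun _ : Fin n => (volume : Measure ℝ).withDensity f) =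
      (volume : Measure (Fin n → ℝ)).withDensity (fun x => ∏ i, f (x i)) := by
  refine Measure.pi_eq (μ' := (volume : Measure (Fin n → ℝ)).withDensity (fun x => ∏ i, f (x i))) (fun s hs => ?_)
  rw [withDensity_apply _ (MeasurableSet.univ_pi hs), ← lintegral_indicator (MeasurableSet.univ_pi hs)]
  have : (Set.univ.pi s).indicator (fun x => ∏ i, f (x i)) =
      fun x => ∏ i, (s i).indicator f (x i) := by
    funext x
    by_cases hx : x ∈ Set.univ.pi s
    · rw [Set.indicator_of_mem hx]
      refine Finset.prod_congr rfl fun i _ => ?_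
      rw [Set.indicator_of_mem (hx i trivial)]
    · rw [Set.indicator_of_notMem hx]
      simp only [Set.mem_pi, Set.mem_univ, forall_const, not_forall] at hx
      obtain ⟨i, hi⟩ := hx
      exact (Finset.prod_eq_zero (Finset.mem_univ i) (Set.indicator_of_notMem hi _)).symm
  rw [this, volume_pi, lintegral_pi_prod _ (fun i => (s i).indicator f) (fun i => hf.indicator (hs i))]
  refine Finset.prod_congr rfl fun i _ => ?_
  rw [lintegral_indicator (hs i), withDensity_apply _ (hs i)]

/-- The density of the standard Gaussian law of `ℝ^N` at distance `r` from the origin. -/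
def gDen (N : ℕ) (r : ℝ) : ℝ≥0∞ := ENNReal.ofReal ((√(2 * π))⁻¹ ^ N * Real.exp (-r ^ 2 / 2))

theorem measurable_gDen (N : ℕ) : Measurable (gDen N) := by
  unfold gDen; fun_prop

theorem prod_gaussianPDF (N : ℕ) (x : Fin N → ℝ) :
    ∏ i, gaussianPDF 0 1 (x i) = gDen N ‖(WithLp.toLp 2 x : En N)‖ := by
  unfold gDen gaussianPDF
  rw [← ENNReal.ofReal_prod_of_nonneg fun i _ => gaussianPDFReal_nonneg _ _ _]
  congr 1
  simp only [gaussianPDFReal, NNReal.coe_one, mul_one, sub_zero]
  rw [Finset.prod_mul_distrib, Finset.prod_const, Finset.card_univ, Fintype.card_fin,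
    ← Real.exp_sum]
  congr 2
  rw [EuclideanSpace.real_norm_sq_eq, ← Finset.sum_div, ← Finset.sum_neg_distrib]

/-- Density of the standard Gaussian law. -/
theorem stdGaussian_eq_withDensity (N : ℕ) :
    stdGaussian (En N) = (volume : Measure (En N)).withDensity fun x => gDen N ‖x‖ := by
  have h1 : (Measure.pi fun _ : Fin N => gaussianReal 0 1) =
      (volume : Measure (Fin N → ℝ)).withDensity fun x => ∏ i, gaussianPDF 0 1 (x i) := by
    have hg : gaussianReal 0 1 = (volume : Measure ℝ).withDensity (gaussianPDF 0 1) :=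
      gaussianReal_of_var_ne_zero 0 one_ne_zero
    have hs : SigmaFinite ((volume : Measure ℝ).withDensity (gaussianPDF 0 1)) := by
      rw [← hg]; infer_instance
    rw [← pi_withDensity _ (measurable_gaussianPDF _ _)]
    congr 1
    funext i
    exact hg
  rw [← map_pi_eq_stdGaussian, h1]
  have hp : MeasurePreserving (MeasurableEquiv.toLp 2 (Fin N → ℝ))
      (volume : Measure (Fin N → ℝ)) (volume : Measure (En N)) :=
    PiLp.volume_preserving_toLp (Fin N)
  refine Measure.ext fun s hs => ?_
  have hm : Measurable (WithLp.toLp 2 : (Fin N → ℝ) → En N) := WithLp.measurable_toLp 2 _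
  rw [Measure.map_apply hm hs, withDensity_apply _ (hm hs), withDensity_apply _ hs]
  have hg : Measurable fun x : En N => gDen N ‖x‖ := (measurable_gDen N).comp measurable_norm
  rw [← hp.setLIntegral_comp_preimage hs hg]
  refine setLIntegral_congr_fun (hm hs) fun x _ => ?_
  exact prod_gaussianPDF N x

/-! ### polar coordinates -/

/-- copied from `R202/TraSph` -/
theorem lintegral_volumeIoiPow (n : ℕ) {h : ℝ → ℝ≥0∞} (hh : Measurable h) :
    ∫⁻ r : Ioi (0 : ℝ), h r ∂(volumeIoiPow n)
      = ∫⁻ r in Ioi (0 : ℝ), ENNReal.ofReal (r ^ n) * h r := by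
  simp only [Measure.volumeIoiPow]
  have h1 : Measurable fun r : Ioi (0 : ℝ) => ENNReal.ofReal ((r : ℝ) ^ n) := by fun_prop
  have h2 : Measurable fun r : Ioi (0 : ℝ) => h r := hh.comp measurable_subtype_coe
  rw [lintegral_withDensity_eq_lintegral_mul _ h1 h2,
    ← lintegral_subtype_comap measurableSet_Ioi (fun r => ENNReal.ofReal (r ^ n) * h r)]
  rfl

/-- copied from `R202/TraSph`: polar coordinates for nonnegative functions -/
theorem lintegral_polar {D : ℕ} [NeZero D] {g : En D → ℝ≥0∞} (hg : Measurable g) :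
    ∫⁻ x, g x = ∫⁻ r in Ioi (0 : ℝ), ENNReal.ofReal (r ^ (D - 1)) *
      ∫⁻ ω : UnitSphere D, g (r • (ω : En D)) ∂(sphereLaw D) := by
  have hmp := (volume : Measure (En D)).measurePreserving_homeomorphUnitSphereProd
  rw [finrank_euclideanSpace_fin] at hmp
  have e1 : ∫⁻ x, g x = ∫⁻ p : UnitSphere D × Ioi (0 : ℝ), g (p.2.1 • p.1.1)
      ∂((sphereLaw D).prod (volumeIoiPow (D - 1))) := by
    calc ∫⁻ x, g x = ∫⁻ x : ({(0)}ᶜ : Set (En D)), g x.1 ∂(volume.comap
            ((↑) : ({(0)}ᶜ : Set (En D)) → En D)) := by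
          rw [lintegral_subtype_comap (measurableSet_singleton _).compl fun x ↦ g x,
            restrict_compl_singleton]
      _ = _ := by
          unfold sphereLaw
          rw [← hmp.lintegral_comp_emb (Homeomorph.measurableEmbedding _)]
          refine lintegral_congr_ae (Filter.Eventually.of_forall fun x => ?_)
          dsimp only
          congr 1
          have hx : ‖x.1‖ ≠ 0 := norm_ne_zero_iff.2 x.2
          simp [homeomorphUnitSphereProd, smul_smul, hx]
  have hm : Measurable fun p : UnitSphere D × Ioi (0 : ℝ) => g (p.2.1 • p.1.1) :=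
    hg.comp (by fun_prop)
  rw [e1, lintegral_prod_symm' _ hm]
  have hm2 : Measurable fun p : ℝ × UnitSphere D => g (p.1 • (p.2 : En D)) :=
    hg.comp (by fun_prop)
  exact lintegral_volumeIoiPow (D - 1)
    (h := fun r => ∫⁻ ω : UnitSphere D, g (r • (ω : En D)) ∂(sphereLaw D))
    hm2.lintegral_prod_right'

/-- The law of the norm of a standard Gaussian vector of `ℝ^N`. -/
def radLaw (N : ℕ) : Measure ℝ := (stdGaussian (En N)).map fun x => ‖x‖

instance instProbRadLaw (N : ℕ) : IsProbabilityMeasure (radLaw N) :=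
  Measure.isProbabilityMeasure_map measurable_norm.aemeasurable

theorem lintegral_radLaw' (N : ℕ) {G : ℝ → ℝ≥0∞} (hG : Measurable G) :
    ∫⁻ r, G r ∂radLaw N = ∫⁻ x, G ‖x‖ ∂stdGaussian (En N) := by
  unfold radLaw
  rw [lintegral_map hG measurable_norm]

theorem norm_coe_sphere {N : ℕ} (y : UnitSphere N) : ‖(y : En N)‖ = 1 := by
  have := y.2
  rwa [mem_sphere_iff_norm, sub_zero] at this

theorem norm_smul_coe {N : ℕ} {r : ℝ} (hr : 0 ≤ r) (y : UnitSphere N) :
    ‖r • (y : En N)‖ = r := by
  rw [norm_smul, norm_coe_sphere, mul_one, Real.norm_eq_abs, abs_of_nonneg hr]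

theorem lintegral_stdGaussian_aux (N : ℕ) [NeZero N] {F : En N → ℝ≥0∞} (hF : Measurable F) :
    ∫⁻ x, F x ∂stdGaussian (En N) =
      ∫⁻ r in Ioi (0 : ℝ), ENNReal.ofReal (r ^ (N - 1)) * gDen N r * sphereLaw N Set.univ *
        ∫⁻ y, F (r • (y : En N)) ∂uS N := by
  have hg : Measurable fun x : En N => gDen N ‖x‖ := (measurable_gDen N).comp measurable_norm
  rw [stdGaussian_eq_withDensity, lintegral_withDensity_eq_lintegral_mul _ hg hF,
    lintegral_polar (hg.mul hF)]
  refine setLIntegral_congr_fun measurableSet_Ioi fun r hr => ?_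
  have hr0 : (0 : ℝ) ≤ r := le_of_lt hr
  have hm : Measurable fun y : UnitSphere N => F (r • (y : En N)) :=
    hF.comp (by fun_prop)
  have e : ∫⁻ ω : UnitSphere N, ((fun x : En N => gDen N ‖x‖) * F) (r • (ω : En N)) ∂(sphereLaw N)
      = gDen N r * ∫⁻ ω : UnitSphere N, F (r • (ω : En N)) ∂(sphereLaw N) := by
    rw [← lintegral_const_mul _ hm]
    refine lintegral_congr fun ω => ?_
    rw [Pi.mul_apply, norm_smul_coe hr0]
  rw [e, lintegral_uS]
  have h1 := ENNReal.mul_inv_cancel (sphereLaw_univ_ne_zero N) (sphereLaw_univ_ne_top N)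
  calc ENNReal.ofReal (r ^ (N - 1)) * (gDen N r * ∫⁻ (ω : UnitSphere N), F (r • (ω : En N)) ∂sphereLaw N)
      = ENNReal.ofReal (r ^ (N - 1)) * gDen N r * (sphereLaw N Set.univ *
        (sphereLaw N Set.univ)⁻¹) * ∫⁻ (ω : UnitSphere N), F (r • (ω : En N)) ∂sphereLaw N := by
        rw [h1]; ring
    _ = _ := by ring

theorem lintegral_radLaw (N : ℕ) [NeZero N] {G : ℝ → ℝ≥0∞} (hG : Measurable G) :
    ∫⁻ r, G r ∂radLaw N = ∫⁻ r in Ioi (0 : ℝ),
      ENNReal.ofReal (r ^ (N - 1)) * gDen N r * sphereLaw N Set.univ * G r := by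
  rw [lintegral_radLaw' N hG, lintegral_stdGaussian_aux N (F := fun x => G ‖x‖)
    (hG.comp measurable_norm)]
  refine setLIntegral_congr_fun measurableSet_Ioi fun r hr => ?_
  have hr0 : (0 : ℝ) ≤ r := le_of_lt hr
  congr 1
  have : ∀ y : UnitSphere N, G ‖r • (y : En N)‖ = G r := fun y => by rw [norm_smul_coe hr0]
  simp only [this, lintegral_const, measure_univ, mul_one]

/-- **Gaussian representation of the uniform law, I**: norm and direction of a standard Gaussian
vector are independent and the direction is uniform. -/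
theorem lintegral_stdGaussian_polar (N : ℕ) [NeZero N] {F : En N → ℝ≥0∞} (hF : Measurable F) :
    ∫⁻ x, F x ∂stdGaussian (En N) = ∫⁻ r, ∫⁻ y, F (r • (y : En N)) ∂uS N ∂radLaw N := by
  have hm2 : Measurable fun p : ℝ × UnitSphere N => F (p.1 • (p.2 : En N)) :=
    hF.comp (by fun_prop)
  rw [lintegral_stdGaussian_aux N hF, lintegral_radLaw N hm2.lintegral_prod_right']

/-- **Gaussian representation of the uniform law, II.** -/
theorem map_smul_prod (N : ℕ) [NeZero N] :
    ((radLaw N).prod (uS N)).map (fun p => p.1 • (p.2 : En N)) = stdGaussian (En N) := by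
  have hm : Measurable fun p : ℝ × UnitSphere N => p.1 • (p.2 : En N) := by fun_prop
  refine Measure.ext_of_lintegral _ fun F hF => ?_
  rw [lintegral_map hF hm, lintegral_stdGaussian_polar N hF]
  exact lintegral_prod _ (hF.comp hm).aemeasurable

theorem ae_radLaw_pos (N : ℕ) [NeZero N] : ∀ᵐ r ∂radLaw N, 0 < r := by
  rw [ae_iff]
  have hs : MeasurableSet {r : ℝ | ¬ 0 < r} := by
    have : {r : ℝ | ¬ 0 < r} = Iic 0 := by ext r; simp
    rw [this]; exact measurableSet_Iic
  rw [← lintegral_indicator_one hs, lintegral_radLaw N (measurable_one.indicator hs)]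
  rw [setLIntegral_congr_fun (g := fun _ => 0) measurableSet_Ioi, lintegral_zero]
  intro r hr
  have h : r ∉ {r : ℝ | ¬ 0 < r} := by simpa using hr
  simp only
  rw [Set.indicator_of_notMem h, mul_zero]

/-- **Gaussian representation, Bochner form.** -/
theorem integral_stdGaussian_polar {G : Type*} [NormedAddCommGroup G] [NormedSpace ℝ G]
    (N : ℕ) [NeZero N] {F : En N → G} (hF : Integrable F (stdGaussian (En N))) :
    ∫ x, F x ∂stdGaussian (En N) = ∫ r, ∫ y, F (r • (y : En N)) ∂uS N ∂radLaw N := by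
  have hm : Measurable fun p : ℝ × UnitSphere N => p.1 • (p.2 : En N) := by fun_prop
  rw [← map_smul_prod N] at hF ⊢
  rw [integral_map hm.aemeasurable hF.aestronglyMeasurable]
  exact integral_prod _ (hF.comp_measurable hm)

theorem integrable_polar {G : Type*} [NormedAddCommGroup G] (N : ℕ) [NeZero N] {F : En N → G}
    (hF : Integrable F (stdGaussian (En N))) :
    Integrable (fun p : ℝ × UnitSphere N => F (p.1 • (p.2 : En N))) ((radLaw N).prod (uS N)) := by
  have hm : Measurable fun p : ℝ × UnitSphere N => p.1 • (p.2 : En N) := by fun_prop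
  rw [← map_smul_prod N] at hF
  exact hF.comp_measurable hm

/-- The direction of a standard Gaussian vector is uniform (integral form). -/
theorem lintegral_normalize (N : ℕ) [NeZero N] {F : En N → ℝ≥0∞} (hF : Measurable F) :
    ∫⁻ x, F (‖x‖⁻¹ • x) ∂stdGaussian (En N) = ∫⁻ y, F (y : En N) ∂uS N := by
  have hm : Measurable fun x : En N => ‖x‖⁻¹ • x := by fun_prop
  rw [lintegral_stdGaussian_polar N (F := fun x => F (‖x‖⁻¹ • x)) (hF.comp hm)]
  have : ∀ᵐ r ∂radLaw N, ∫⁻ y, F (‖r • (y : En N)‖⁻¹ • r • (y : En N)) ∂uS N =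
      ∫⁻ y, F (y : En N) ∂uS N := by
    filter_upwards [ae_radLaw_pos N] with r hr
    refine lintegral_congr fun y => ?_
    rw [norm_smul_coe hr.le, smul_smul, inv_mul_cancel₀ hr.ne', one_smul]
  rw [lintegral_congr_ae this]
  simp

/-- The direction of a standard Gaussian vector is uniform (law form). -/
theorem map_normalize (N : ℕ) [NeZero N] :
    (stdGaussian (En N)).map (fun x => ‖x‖⁻¹ • x) = (uS N).map (fun y : UnitSphere N => (y : En N)) := by
  have hm : Measurable fun x : En N => ‖x‖⁻¹ • x := by fun_prop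
  refine Measure.ext_of_lintegral _ fun F hF => ?_
  rw [lintegral_map hF hm, lintegral_map hF measurable_subtype_coe, lintegral_normalize N hF]

end Crest.Agent.R146.Sph_409
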