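import Mathlib
import Crest.Prelude.Def_SphericalPressure
import Crest.Agent.R151.V1

/-!
# Row 146, package SPH (helper857), part 1: log-partition functions over a general configuration space

* `fld y r w = ∑ i, r i * y w i`, `Zf μ y ψ g = ∫ exp (∑ a, ψ a (fld y (g a) w)) dμ(w)`,
  `logZ = log Zf`;
* bounds, measurability, one-row influence, variance (Efron-Stein), change of the potentials.
-/

set_option autoImplicit false
set_option linter.unusedSectionVars false

open MeasureTheory ProbabilityTheory Finset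
open scoped ENNReal

namespace Crest.Agent.R146.Sph857

variable {Y : Type*} [MeasurableSpace Y] {N M : ℕ}

/-- local field of the row `r` at the configuration `w` -/
def fld (y : Y → Fin N → ℝ) (r : Fin N → ℝ) (w : Y) : ℝ := ∑ i, r i * y w i

/-- the partition function -/
noncomputable def Zf (μ : Measure Y) (y : Y → Fin N → ℝ) (ψ : Fin M → ℝ → ℝ)
    (g : Fin M → Fin N → ℝ) : ℝ :=
  ∫ w, Real.exp (∑ a, ψ a (fld y (g a) w)) ∂μ

/-- the log-partition function -/
noncomputable def logZ (μ : Measure Y) (y : Y → Fin N → ℝ) (ψ : Fin M → ℝ → ℝ)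
    (g : Fin M → Fin N → ℝ) : ℝ := Real.log (Zf μ y ψ g)

theorem measurable_fld_uncurry {y : Y → Fin N → ℝ} (hy : Measurable y) :
    Measurable (fun p : (Fin N → ℝ) × Y => fld y p.1 p.2) := by
  unfold fld
  refine Finset.measurable_sum _ fun i _ => ?_
  exact ((measurable_pi_apply i).comp measurable_fst).mul
    ((measurable_pi_apply i).comp (hy.comp measurable_snd))

theorem measurable_fld {y : Y → Fin N → ℝ} (hy : Measurable y) (r : Fin N → ℝ) :
    Measurable (fld y r) :=
  (measurable_fld_uncurry hy).comp (measurable_const.prodMk measurable_id)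

theorem measurable_expo_uncurry {y : Y → Fin N → ℝ} (hy : Measurable y) {ψ : Fin M → ℝ → ℝ}
    (hψ : ∀ a, Measurable (ψ a)) :
    Measurable (fun p : (Fin M → Fin N → ℝ) × Y => ∑ a, ψ a (fld y (p.1 a) p.2)) := by
  refine Finset.measurable_sum _ fun a _ => (hψ a).comp ?_
  have h : Measurable (fun p : (Fin M → Fin N → ℝ) × Y => ((p.1 a, p.2) : (Fin N → ℝ) × Y)) :=
    ((measurable_pi_apply a).comp measurable_fst).prodMk measurable_snd
  exact (measurable_fld_uncurry hy).comp h

theorem measurable_expo {y : Y → Fin N → ℝ} (hy : Measurable y) {ψ : Fin M → ℝ → ℝ}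
    (hψ : ∀ a, Measurable (ψ a)) (g : Fin M → Fin N → ℝ) :
    Measurable (fun w : Y => ∑ a, ψ a (fld y (g a) w)) :=
  (measurable_expo_uncurry hy hψ).comp (measurable_const.prodMk measurable_id)

theorem abs_expo_le {y : Y → Fin N → ℝ} {ψ : Fin M → ℝ → ℝ} {K : Fin M → ℝ}
    (hK : ∀ a x, |ψ a x| ≤ K a) (g : Fin M → Fin N → ℝ) (w : Y) :
    |∑ a, ψ a (fld y (g a) w)| ≤ ∑ a, K a :=
  (Finset.abs_sum_le_sum_abs _ _).trans (Finset.sum_le_sum fun a _ => hK a _)

section basic

variable {μ : Measure Y} [IsProbabilityMeasure μ] {y : Y → Fin N → ℝ} {ψ : Fin M → ℝ → ℝ}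

theorem integrable_exp_expo (hy : Measurable y) (hψ : ∀ a, Measurable (ψ a)) {K : Fin M → ℝ}
    (hK : ∀ a x, |ψ a x| ≤ K a) (g : Fin M → Fin N → ℝ) :
    Integrable (fun w => Real.exp (∑ a, ψ a (fld y (g a) w))) μ := by
  refine Integrable.of_bound (C := Real.exp (∑ a, K a))
    (Real.measurable_exp.comp (measurable_expo hy hψ g)).aestronglyMeasurable
    (Filter.Eventually.of_forall fun w => ?_)
  rw [Real.norm_eq_abs, abs_of_pos (Real.exp_pos _)]
  exact Real.exp_le_exp.mpr ((le_abs_self _).trans (abs_expo_le hK g w))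

theorem Zf_le (hy : Measurable y) (hψ : ∀ a, Measurable (ψ a)) {K : Fin M → ℝ}
    (hK : ∀ a x, |ψ a x| ≤ K a) (g : Fin M → Fin N → ℝ) :
    Zf μ y ψ g ≤ Real.exp (∑ a, K a) := by
  have := integral_mono (μ := μ) (integrable_exp_expo hy hψ hK g)
    (integrable_const (Real.exp (∑ a, K a)))
    (fun w => Real.exp_le_exp.mpr ((le_abs_self _).trans (abs_expo_le hK g w)))
  simpa [Zf] using this

theorem le_Zf (hy : Measurable y) (hψ : ∀ a, Measurable (ψ a)) {K : Fin M → ℝ}
    (hK : ∀ a x, |ψ a x| ≤ K a) (g : Fin M → Fin N → ℝ) :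
    Real.exp (-∑ a, K a) ≤ Zf μ y ψ g := by
  have := integral_mono (μ := μ) (integrable_const (Real.exp (-∑ a, K a)))
    (integrable_exp_expo hy hψ hK g)
    (fun w => Real.exp_le_exp.mpr (neg_le_of_abs_le (abs_expo_le hK g w)))
  simpa [Zf] using this

theorem Zf_pos (hy : Measurable y) (hψ : ∀ a, Measurable (ψ a)) {K : Fin M → ℝ}
    (hK : ∀ a x, |ψ a x| ≤ K a) (g : Fin M → Fin N → ℝ) : 0 < Zf μ y ψ g :=
  (Real.exp_pos _).trans_le (le_Zf hy hψ hK g)

theorem abs_logZ_le (hy : Measurable y) (hψ : ∀ a, Measurable (ψ a)) {K : Fin M → ℝ}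
    (hK : ∀ a x, |ψ a x| ≤ K a) (g : Fin M → Fin N → ℝ) :
    |logZ μ y ψ g| ≤ ∑ a, K a := by
  rw [abs_le]
  constructor
  · have := Real.log_le_log (Real.exp_pos _) (le_Zf (μ := μ) hy hψ hK g)
    rwa [Real.log_exp] at this
  · have := Real.log_le_log (Zf_pos (μ := μ) hy hψ hK g) (Zf_le (μ := μ) hy hψ hK g)
    rwa [Real.log_exp] at this

theorem measurable_Zf (hy : Measurable y) (hψ : ∀ a, Measurable (ψ a)) :
    Measurable (Zf μ y ψ) := by
  unfold Zf
  exact (Measurable.stronglyMeasurable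
    (Real.measurable_exp.comp (measurable_expo_uncurry hy hψ))).integral_prod_right'.measurable

theorem measurable_logZ (hy : Measurable y) (hψ : ∀ a, Measurable (ψ a)) :
    Measurable (logZ μ y ψ) :=
  Real.measurable_log.comp (measurable_Zf hy hψ)

theorem integrable_logZ (hy : Measurable y) (hψ : ∀ a, Measurable (ψ a)) {K : Fin M → ℝ}
    (hK : ∀ a x, |ψ a x| ≤ K a) (ρ : Measure (Fin M → Fin N → ℝ)) [IsFiniteMeasure ρ] :
    Integrable (logZ μ y ψ) ρ :=
  Integrable.of_bound (C := ∑ a, K a) (measurable_logZ hy hψ).aestronglyMeasurable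
    (Filter.Eventually.of_forall fun g => by
      rw [Real.norm_eq_abs]; exact abs_logZ_le hy hψ hK g)

/-- comparison of two exponents -/
theorem logZ_sub_le_of_le (hy : Measurable y) (hψ : ∀ a, Measurable (ψ a)) {K : Fin M → ℝ}
    (hK : ∀ a x, |ψ a x| ≤ K a) {M' : ℕ} {ψ' : Fin M' → ℝ → ℝ} (hψ' : ∀ a, Measurable (ψ' a))
    {K' : Fin M' → ℝ} (hK' : ∀ a x, |ψ' a x| ≤ K' a)
    (g : Fin M → Fin N → ℝ) (g' : Fin M' → Fin N → ℝ) (c : ℝ)
    (hc : ∀ w, ∑ a, ψ a (fld y (g a) w) ≤ c + ∑ a, ψ' a (fld y (g' a) w)) :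
    logZ μ y ψ g ≤ c + logZ μ y ψ' g' := by
  have h1 : Zf μ y ψ g ≤ Real.exp c * Zf μ y ψ' g' := by
    unfold Zf
    rw [← integral_const_mul]
    refine integral_mono (integrable_exp_expo hy hψ hK g)
      ((integrable_exp_expo hy hψ' hK' g').const_mul _) fun w => ?_
    simp only [← Real.exp_add]
    exact Real.exp_le_exp.mpr (hc w)
  have h2 := Real.log_le_log (Zf_pos (μ := μ) hy hψ hK g) h1
  rwa [Real.log_mul (Real.exp_pos _).ne' (Zf_pos (μ := μ) hy hψ' hK' g').ne', Real.log_exp] at h2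

/-- influence of one row -/
theorem abs_logZ_update_le (hy : Measurable y) (hψ : ∀ a, Measurable (ψ a)) {K : Fin M → ℝ}
    (hK : ∀ a x, |ψ a x| ≤ K a) (g : Fin M → Fin N → ℝ) (b : Fin M) (r : Fin N → ℝ) :
    |logZ μ y ψ g - logZ μ y ψ (Function.update g b r)| ≤ 2 * K b := by
  have key : ∀ (g : Fin M → Fin N → ℝ) (r : Fin N → ℝ) (w : Y), 
      |∑ a, ψ a (fld y (g a) w) - ∑ a, ψ a (fld y (Function.update g b r a) w)| ≤ 2 * K b := by
    intro g r w
    rw [← Finset.sum_sub_distrib, Finset.sum_eq_single b]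
    · rw [Function.update_self]
      calc |ψ b (fld y (g b) w) - ψ b (fld y r w)|
          ≤ |ψ b (fld y (g b) w)| + |ψ b (fld y r w)| := abs_sub _ _
        _ ≤ 2 * K b := by linarith [hK b (fld y (g b) w), hK b (fld y r w)]
    · intro a _ hab
      rw [Function.update_of_ne hab, sub_self]
    · intro h; exact absurd (Finset.mem_univ b) h
  rw [abs_le]
  constructor
  · have := logZ_sub_le_of_le (μ := μ) hy hψ hK hψ hK (Function.update g b r) g (2 * K b)
      (fun w => by have := (abs_le.mp (key g r w)).1; linarith)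
    linarith
  · have := logZ_sub_le_of_le (μ := μ) hy hψ hK hψ hK g (Function.update g b r) (2 * K b)
      (fun w => by have := (abs_le.mp (key g r w)).2; linarith)
    linarith

/-- **Efron-Stein** for `logZ`: the variance over i.i.d. rows is at most `2 * ∑ K_a ^ 2`. -/
theorem variance_logZ_le (hy : Measurable y) (hψ : ∀ a, Measurable (ψ a)) {K : Fin M → ℝ}
    (hK : ∀ a x, |ψ a x| ≤ K a) (G : Measure (Fin N → ℝ)) [IsProbabilityMeasure G] :
    variance (logZ μ y ψ) (Measure.pi fun _ : Fin M => G) ≤ 2 * ∑ a, K a ^ 2 := by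
  have hK0 : ∀ a, 0 ≤ K a := fun a => (abs_nonneg _).trans (hK a 0)
  have hmem : MemLp (logZ μ y ψ) 2 (Measure.pi fun _ : Fin M => G) :=
    MemLp.of_bound (measurable_logZ hy hψ).aestronglyMeasurable (∑ a, K a)
      (Filter.Eventually.of_forall fun g => by
        rw [Real.norm_eq_abs]; exact abs_logZ_le hy hψ hK g)
  have h1 := R151.V.dvar_pi_le (ι := Fin M) G (measurable_logZ (μ := μ) (y := y) (ψ := ψ) hy hψ)
  rw [R151.V.dvar_eq hmem] at h1
  have h2 : ∑ i, R151.V.infl (Measure.pi fun _ : Fin M => G) G (logZ μ y ψ) i ≤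
      ENNReal.ofReal (∑ a, (2 * K a) ^ 2) := by
    rw [ENNReal.ofReal_sum_of_nonneg (fun a _ => sq_nonneg _)]
    refine Finset.sum_le_sum fun a _ => ?_
    unfold R151.V.infl
    calc ∫⁻ x, ∫⁻ t, ENNReal.ofReal ((logZ μ y ψ x - logZ μ y ψ (Function.update x a t)) ^ 2) ∂G
          ∂(Measure.pi fun _ : Fin M => G)
        ≤ ∫⁻ _x, ∫⁻ _t, ENNReal.ofReal ((2 * K a) ^ 2) ∂G ∂(Measure.pi fun _ : Fin M => G) := by
          refine lintegral_mono fun x => lintegral_mono fun t => ?_
          refine ENNReal.ofReal_le_ofReal ?_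
          rw [← sq_abs]
          exact pow_le_pow_left₀ (abs_nonneg _) (abs_logZ_update_le hy hψ hK x a t) 2
      _ = ENNReal.ofReal ((2 * K a) ^ 2) := by simp
  have h3 := h1.trans h2
  rw [ENNReal.ofReal_le_ofReal_iff (Finset.sum_nonneg fun a _ => sq_nonneg _)] at h3
  have h4 : ∑ a, (2 * K a) ^ 2 = 4 * ∑ a, K a ^ 2 := by
    rw [Finset.mul_sum]; exact Finset.sum_congr rfl fun a _ => by ring
  rw [h4] at h3
  linarith

end basic

end Crest.Agent.R146.Sph857
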