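import Crest.Agent.R146.Sph1_857
import Crest.Agent.R143.ES_831

/-!
# Row 146, package SPH (helper857), part 2: change of the potentials

`∫ |logZ ψ - logZ ψ'| ≤ ∑ a, exp (2 K_a) D_a` when `∫ |ψ_a - ψ'_a| (fld y r w) dG(r) ≤ D_a`
for every configuration `w`.
-/

set_option autoImplicit false
set_option linter.unusedSectionVars false

open MeasureTheory ProbabilityTheory Finset
open scoped ENNReal

namespace Crest.Agent.R146.Sph857

variable {Y : Type*} [MeasurableSpace Y] {N M : ℕ}
variable {μ : Measure Y} [IsProbabilityMeasure μ] {y : Y → Fin N → ℝ}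

theorem abs_log_sub_log_le {a b m : ℝ} (hm : 0 < m) (ha : m ≤ a) (hb : m ≤ b) :
    |Real.log a - Real.log b| ≤ |a - b| / m := by
  have ha0 : 0 < a := hm.trans_le ha
  have hb0 : 0 < b := hm.trans_le hb
  rw [abs_le]
  have key : ∀ {u v : ℝ}, m ≤ u → m ≤ v → Real.log u - Real.log v ≤ |u - v| / m := by
    intro u v hu hv
    have hu0 : 0 < u := hm.trans_le hu
    have hv0 : 0 < v := hm.trans_le hv
    rw [← Real.log_div hu0.ne' hv0.ne']
    calc Real.log (u / v) ≤ u / v - 1 := Real.log_le_sub_one_of_pos (by positivity)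
      _ = (u - v) / v := by field_simp
      _ ≤ |u - v| / v := by gcongr; exact le_abs_self _
      _ ≤ |u - v| / m := by gcongr
  refine ⟨?_, key ha hb⟩
  have := key hb ha
  rw [abs_sub_comm] at this
  linarith

theorem abs_exp_sub_exp_le {u v K : ℝ} (hu : |u| ≤ K) (hv : |v| ≤ K) :
    |Real.exp u - Real.exp v| ≤ Real.exp K * |u - v| := by
  have key : ∀ {u v : ℝ}, |u| ≤ K → |v| ≤ K →
      Real.exp u - Real.exp v ≤ Real.exp K * |u - v| := by
    intro u v hu hv
    have h1 : Real.exp v = Real.exp u * Real.exp (v - u) := by rw [← Real.exp_add]; ring_nf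
    have h2 : 1 + (v - u) ≤ Real.exp (v - u) := by linarith [Real.add_one_le_exp (v - u)]
    calc Real.exp u - Real.exp v = Real.exp u * (1 - Real.exp (v - u)) := by rw [h1]; ring
      _ ≤ Real.exp u * (u - v) := by
          apply mul_le_mul_of_nonneg_left _ (Real.exp_pos _).le; linarith
      _ ≤ Real.exp u * |u - v| := by gcongr; exact le_abs_self _
      _ ≤ Real.exp K * |u - v| := by gcongr; exact (le_abs_self _).trans hu
  rw [abs_le]
  refine ⟨?_, key hu hv⟩
  have := key hv hu
  rw [abs_sub_comm] at this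
  linarith

/-- one row changed, the other rows frozen -/
theorem onerow (hy : Measurable y) {ψ : Fin M → ℝ → ℝ} (hψ : ∀ a, Measurable (ψ a))
    {K : Fin M → ℝ} (hK : ∀ a x, |ψ a x| ≤ K a) (b : Fin M) {φ : ℝ → ℝ} (hφ : Measurable φ)
    (hφK : ∀ x, |φ x| ≤ K b) (G : Measure (Fin N → ℝ)) [IsProbabilityMeasure G]
    {D : ℝ} (hD : ∀ w, ∫ r, |ψ b (fld y r w) - φ (fld y r w)| ∂G ≤ D)
    (x : Fin M → Fin N → ℝ) :
    ∫ t, |logZ μ y ψ (Function.update x b t) -
      logZ μ y (Function.update ψ b φ) (Function.update x b t)| ∂G ≤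
      Real.exp (2 * K b) * D := by
  classical
  set E : Y → ℝ := fun w => Real.exp (∑ a ∈ univ.erase b, ψ a (fld y (x a) w)) with hE
  have hEm : Measurable E := by
    refine Real.measurable_exp.comp (Finset.measurable_sum _ fun a _ => (hψ a).comp ?_)
    exact measurable_fld hy _
  have hEb : ∀ w, E w ≤ Real.exp (∑ a ∈ univ.erase b, K a) := fun w =>
    Real.exp_le_exp.mpr (Finset.sum_le_sum fun a _ => (le_abs_self _).trans (hK a _))
  have hEb' : ∀ w, Real.exp (-∑ a ∈ univ.erase b, K a) ≤ E w := fun w =>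
    Real.exp_le_exp.mpr (by
      rw [← Finset.sum_neg_distrib]
      exact Finset.sum_le_sum fun a _ => neg_le_of_abs_le (hK a _))
  have hEpos : ∀ w, 0 < E w := fun w => Real.exp_pos _
  have hEi : Integrable E μ := Integrable.of_bound (C := Real.exp (∑ a ∈ univ.erase b, K a))
    hEm.aestronglyMeasurable (Filter.Eventually.of_forall fun w => by
      rw [Real.norm_eq_abs, abs_of_pos (hEpos w)]; exact hEb w)
  have hS : 0 < ∫ w, E w ∂μ := by
    have := integral_mono (μ := μ) (integrable_const _) hEi hEb'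
    simp only [integral_const, smul_eq_mul, probReal_univ, one_mul] at this
    exact (Real.exp_pos _).trans_le this
  set S := ∫ w, E w ∂μ with hSdef
  -- the two partition functions
  have hZ : ∀ (θ : ℝ → ℝ) (t : Fin N → ℝ), Zf μ y (Function.update ψ b θ) (Function.update x b t) =
      ∫ w, E w * Real.exp (θ (fld y t w)) ∂μ := by
    intro θ t
    unfold Zf
    refine integral_congr_ae (Filter.Eventually.of_forall fun w => ?_)
    simp only [hE, ← Real.exp_add]
    congr 1
    rw [← Finset.add_sum_erase _ _ (Finset.mem_univ b), Function.update_self, Function.update_self,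
      add_comm]
    congr 1
    refine Finset.sum_congr rfl fun a ha => ?_
    rw [Function.update_of_ne (Finset.ne_of_mem_erase ha),
      Function.update_of_ne (Finset.ne_of_mem_erase ha)]
  have hZ1 : ∀ t, Zf μ y ψ (Function.update x b t) = ∫ w, E w * Real.exp (ψ b (fld y t w)) ∂μ := by
    intro t
    have := hZ (ψ b) t
    rwa [Function.update_eq_self] at this
  have hexpi : ∀ (θ : ℝ → ℝ), Measurable θ → (∀ x, |θ x| ≤ K b) → ∀ t,
      Integrable (fun w => E w * Real.exp (θ (fld y t w))) μ := by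
    intro θ hθ hθK t
    refine Integrable.of_bound (C := Real.exp (∑ a ∈ univ.erase b, K a) * Real.exp (K b))
      (hEm.mul (Real.measurable_exp.comp (hθ.comp (measurable_fld hy t)))).aestronglyMeasurable
      (Filter.Eventually.of_forall fun w => ?_)
    rw [Real.norm_eq_abs, abs_of_pos (mul_pos (hEpos w) (Real.exp_pos _))]
    gcongr
    · exact hEb w
    · exact (le_abs_self _).trans (hθK _)
  have hlow : ∀ (θ : ℝ → ℝ), Measurable θ → (∀ x, |θ x| ≤ K b) → ∀ t,
      Real.exp (-K b) * S ≤ ∫ w, E w * Real.exp (θ (fld y t w)) ∂μ := by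
    intro θ hθ hθK t
    rw [hSdef, mul_comm, ← integral_mul_const]
    refine integral_mono (hEi.mul_const _) (hexpi θ hθ hθK t) fun w => ?_
    exact mul_le_mul_of_nonneg_left (Real.exp_le_exp.mpr (neg_le_of_abs_le (hθK _))) (hEpos w).le
  -- pointwise bound in t
  have hpt : ∀ t, |logZ μ y ψ (Function.update x b t) -
      logZ μ y (Function.update ψ b φ) (Function.update x b t)| ≤
      Real.exp (2 * K b) / S * ∫ w, E w * |ψ b (fld y t w) - φ (fld y t w)| ∂μ := by
    intro t
    unfold logZ
    rw [hZ1, hZ]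
    have hm : 0 < Real.exp (-K b) * S := by positivity
    refine (abs_log_sub_log_le hm (hlow _ (hψ b) (hK b) t) (hlow _ hφ hφK t)).trans ?_
    rw [← integral_sub (hexpi _ (hψ b) (hK b) t) (hexpi _ hφ hφK t)]
    have h1 : |∫ w, (E w * Real.exp (ψ b (fld y t w)) - E w * Real.exp (φ (fld y t w))) ∂μ| ≤
        Real.exp (K b) * ∫ w, E w * |ψ b (fld y t w) - φ (fld y t w)| ∂μ := by
      refine (abs_integral_le_integral_abs).trans ?_
      rw [← integral_const_mul]
      refine integral_mono_of_nonneg (Filter.Eventually.of_forall fun w => abs_nonneg _) ?_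
        (Filter.Eventually.of_forall fun w => ?_)
      · refine Integrable.const_mul ?_ _
        refine Integrable.of_bound (C := Real.exp (∑ a ∈ univ.erase b, K a) * (2 * K b))
          (hEm.mul (((hψ b).comp (measurable_fld hy t)).sub
            (hφ.comp (measurable_fld hy t))).norm).aestronglyMeasurable
          (Filter.Eventually.of_forall fun w => ?_)
        rw [Real.norm_eq_abs, abs_mul, abs_of_pos (hEpos w), abs_abs]
        gcongr
        · exact hEb w
        · calc |ψ b (fld y t w) - φ (fld y t w)| ≤ |ψ b (fld y t w)| + |φ (fld y t w)| := abs_sub _ _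
            _ ≤ 2 * K b := by linarith [hK b (fld y t w), hφK (fld y t w)]
      · simp only
        rw [← mul_sub, abs_mul, abs_of_pos (hEpos w)]
        calc E w * |Real.exp (ψ b (fld y t w)) - Real.exp (φ (fld y t w))|
            ≤ E w * (Real.exp (K b) * |ψ b (fld y t w) - φ (fld y t w)|) :=
              mul_le_mul_of_nonneg_left (abs_exp_sub_exp_le (hK b _) (hφK _)) (hEpos w).le
          _ = Real.exp (K b) * (E w * |ψ b (fld y t w) - φ (fld y t w)|) := by ring
    calc |∫ w, (E w * Real.exp (ψ b (fld y t w)) - E w * Real.exp (φ (fld y t w))) ∂μ| /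
          (Real.exp (-K b) * S)
        ≤ (Real.exp (K b) * ∫ w, E w * |ψ b (fld y t w) - φ (fld y t w)| ∂μ) /
          (Real.exp (-K b) * S) := by gcongr
      _ = _ := by
          have : Real.exp (2 * K b) = Real.exp (K b) * Real.exp (K b) := by
            rw [← Real.exp_add]; ring_nf
          rw [this, Real.exp_neg]
          field_simp
  -- Fubini
  have hmeas2 : Measurable (fun p : (Fin N → ℝ) × Y =>
      E p.2 * |ψ b (fld y p.1 p.2) - φ (fld y p.1 p.2)|) :=
    (hEm.comp measurable_snd).mul (((hψ b).comp (measurable_fld_uncurry hy)).sub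
      (hφ.comp (measurable_fld_uncurry hy))).norm
  have hint2 : Integrable (fun p : (Fin N → ℝ) × Y =>
      E p.2 * |ψ b (fld y p.1 p.2) - φ (fld y p.1 p.2)|) (G.prod μ) := by
    refine Integrable.of_bound (C := Real.exp (∑ a ∈ univ.erase b, K a) * (2 * K b))
      hmeas2.aestronglyMeasurable (Filter.Eventually.of_forall fun p => ?_)
    rw [Real.norm_eq_abs, abs_mul, abs_of_pos (hEpos p.2), abs_abs]
    gcongr
    · exact hEb p.2
    · calc |ψ b (fld y p.1 p.2) - φ (fld y p.1 p.2)| ≤ |ψ b (fld y p.1 p.2)| + |φ (fld y p.1 p.2)| :=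
            abs_sub _ _
        _ ≤ 2 * K b := by linarith [hK b (fld y p.1 p.2), hφK (fld y p.1 p.2)]
  have hfub : ∫ t, ∫ w, E w * |ψ b (fld y t w) - φ (fld y t w)| ∂μ ∂G ≤ S * D := by
    rw [integral_integral_swap (f := fun t w => E w * |ψ b (fld y t w) - φ (fld y t w)|) hint2]
    rw [hSdef, ← integral_mul_const]
    refine integral_mono hint2.integral_prod_right (hEi.mul_const _) fun w => ?_
    simp only
    rw [integral_const_mul]
    exact mul_le_mul_of_nonneg_left (hD w) (hEpos w).le
  calc ∫ t, |logZ μ y ψ (Function.update x b t) -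
      logZ μ y (Function.update ψ b φ) (Function.update x b t)| ∂G
      ≤ ∫ t, Real.exp (2 * K b) / S * ∫ w, E w * |ψ b (fld y t w) - φ (fld y t w)| ∂μ ∂G := by
        refine integral_mono_of_nonneg (Filter.Eventually.of_forall fun t => abs_nonneg _) ?_
          (Filter.Eventually.of_forall hpt)
        exact hint2.integral_prod_left.const_mul _
    _ = Real.exp (2 * K b) / S * ∫ t, ∫ w, E w * |ψ b (fld y t w) - φ (fld y t w)| ∂μ ∂G := by
        rw [integral_const_mul]
    _ ≤ Real.exp (2 * K b) / S * (S * D) := by gcongr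
    _ = Real.exp (2 * K b) * D := by field_simp

/-- one row changed, mean over all rows -/
theorem integral_onerow (hy : Measurable y) {ψ : Fin M → ℝ → ℝ} (hψ : ∀ a, Measurable (ψ a))
    {K : Fin M → ℝ} (hK : ∀ a x, |ψ a x| ≤ K a) (b : Fin M) {φ : ℝ → ℝ} (hφ : Measurable φ)
    (hφK : ∀ x, |φ x| ≤ K b) (G : Measure (Fin N → ℝ)) [IsProbabilityMeasure G]
    {D : ℝ} (hD : ∀ w, ∫ r, |ψ b (fld y r w) - φ (fld y r w)| ∂G ≤ D) :
    ∫ g, |logZ μ y ψ g - logZ μ y (Function.update ψ b φ) g| ∂(Measure.pi fun _ : Fin M => G) ≤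
      Real.exp (2 * K b) * D := by
  have hψ' : ∀ a, Measurable (Function.update ψ b φ a) := by
    intro a
    by_cases h : a = b
    · subst h; simpa using hφ
    · rw [Function.update_of_ne h]; exact hψ a
  have hK' : ∀ a x, |Function.update ψ b φ a x| ≤ K a := by
    intro a x
    by_cases h : a = b
    · subst h; simpa using hφK x
    · rw [Function.update_of_ne h]; exact hK a x
  set F : (Fin M → Fin N → ℝ) → ℝ := fun g =>
    |logZ μ y ψ g - logZ μ y (Function.update ψ b φ) g| with hF
  have hFm : Measurable F := ((measurable_logZ hy hψ).sub (measurable_logZ hy hψ')).norm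
  have hFb : ∀ g, |F g| ≤ 2 * ∑ a, K a := by
    intro g
    rw [hF]
    simp only [abs_abs]
    calc |logZ μ y ψ g - logZ μ y (Function.update ψ b φ) g|
        ≤ |logZ μ y ψ g| + |logZ μ y (Function.update ψ b φ) g| := abs_sub _ _
      _ ≤ 2 * ∑ a, K a := by
          linarith [abs_logZ_le (μ := μ) hy hψ hK g, abs_logZ_le (μ := μ) hy hψ' hK' g]
  have hmp : MeasurePreserving (fun p : (Fin M → Fin N → ℝ) × (Fin N → ℝ) =>
      Function.update p.1 b p.2) ((Measure.pi fun _ : Fin M => G).prod G)
      (Measure.pi fun _ : Fin M => G) := by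
    have := R143.ESx831.mp_update (X := fun _ : Fin M => Fin N → ℝ) (fun _ => G) b
    rwa [Measure.infinitePi_eq_pi] at this
  have h1 : ∫ g, F g ∂(Measure.pi fun _ : Fin M => G) =
      ∫ p, F (Function.update p.1 b p.2) ∂((Measure.pi fun _ : Fin M => G).prod G) := by
    rw [← hmp.map_eq, integral_map hmp.measurable.aemeasurable]
    rw [hmp.map_eq]
    exact hFm.aestronglyMeasurable
  have hint : Integrable (fun p : (Fin M → Fin N → ℝ) × (Fin N → ℝ) =>
      F (Function.update p.1 b p.2)) ((Measure.pi fun _ : Fin M => G).prod G) :=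
    Integrable.of_bound (C := 2 * ∑ a, K a) (hFm.comp hmp.measurable).aestronglyMeasurable
      (Filter.Eventually.of_forall fun p => hFb _)
  change ∫ g, F g ∂(Measure.pi fun _ : Fin M => G) ≤ _
  rw [h1, integral_prod _ hint]
  calc ∫ x, ∫ t, F (Function.update x b t) ∂G ∂(Measure.pi fun _ : Fin M => G)
      ≤ ∫ _x, Real.exp (2 * K b) * D ∂(Measure.pi fun _ : Fin M => G) := by
        refine integral_mono hint.integral_prod_left (integrable_const _) fun x => ?_
        exact onerow hy hψ hK b hφ hφK G hD x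
    _ = Real.exp (2 * K b) * D := by simp

/-- **Change of potentials**, mean over the rows. -/
theorem integral_abs_logZ_sub_le (hy : Measurable y) {ψ ψ' : Fin M → ℝ → ℝ}
    (hψ : ∀ a, Measurable (ψ a)) (hψ' : ∀ a, Measurable (ψ' a))
    {K : Fin M → ℝ} (hK : ∀ a x, |ψ a x| ≤ K a) (hK' : ∀ a x, |ψ' a x| ≤ K a)
    (G : Measure (Fin N → ℝ)) [IsProbabilityMeasure G]
    {D : Fin M → ℝ} (hD : ∀ a w, ∫ r, |ψ a (fld y r w) - ψ' a (fld y r w)| ∂G ≤ D a) :
    ∫ g, |logZ μ y ψ g - logZ μ y ψ' g| ∂(Measure.pi fun _ : Fin M => G) ≤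
      ∑ a, Real.exp (2 * K a) * D a := by
  classical
  set P := Measure.pi fun _ : Fin M => G with hP
  -- interpolating potentials
  set Ψ : Finset (Fin M) → Fin M → ℝ → ℝ := fun s a => if a ∈ s then ψ' a else ψ a with hΨ
  have hΨm : ∀ s a, Measurable (Ψ s a) := by
    intro s a
    simp only [hΨ]
    split_ifs
    · exact hψ' a
    · exact hψ a
  have hΨK : ∀ s a x, |Ψ s a x| ≤ K a := by
    intro s a x
    simp only [hΨ]
    split_ifs
    · exact hK' a x
    · exact hK a x
  have hΨi : ∀ s, Integrable (logZ μ y (Ψ s)) P := fun s => integrable_logZ hy (hΨm s) (hΨK s) P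
  have main : ∀ s : Finset (Fin M), ∫ g, |logZ μ y ψ g - logZ μ y (Ψ s) g| ∂P ≤
      ∑ a ∈ s, Real.exp (2 * K a) * D a := by
    intro s
    induction s using Finset.induction_on with
    | empty =>
      have : Ψ ∅ = ψ := by funext a; simp [hΨ]
      simp [this]
    | insert b s hb ih =>
      rw [Finset.sum_insert hb]
      have hup : Ψ (insert b s) = Function.update (Ψ s) b (ψ' b) := by
        funext a
        by_cases h : a = b
        · subst h; simp [hΨ]
        · rw [Function.update_of_ne h]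
          simp [hΨ, h]
      have hΨb : Ψ s b = ψ b := by simp [hΨ, hb]
      have h1 : ∫ g, |logZ μ y (Ψ s) g - logZ μ y (Ψ (insert b s)) g| ∂P ≤
          Real.exp (2 * K b) * D b := by
        rw [hup]
        refine integral_onerow hy (hΨm s) (hΨK s) b (hψ' b) (hK' b) G ?_
        intro w
        rw [hΨb]
        exact hD b w
      have hi0 := hΨi ∅
      have h00 : Ψ ∅ = ψ := by funext a; simp [hΨ]
      rw [h00] at hi0
      calc ∫ g, |logZ μ y ψ g - logZ μ y (Ψ (insert b s)) g| ∂P
          ≤ ∫ g, (|logZ μ y ψ g - logZ μ y (Ψ s) g| +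
              |logZ μ y (Ψ s) g - logZ μ y (Ψ (insert b s)) g|) ∂P := by
            refine integral_mono (hi0.sub (hΨi _)).abs
              ((hi0.sub (hΨi _)).abs.add ((hΨi _).sub (hΨi _)).abs) fun g => ?_
            exact abs_sub_le _ _ _
        _ = ∫ g, |logZ μ y ψ g - logZ μ y (Ψ s) g| ∂P +
              ∫ g, |logZ μ y (Ψ s) g - logZ μ y (Ψ (insert b s)) g| ∂P :=
            integral_add (hi0.sub (hΨi _)).abs ((hΨi _).sub (hΨi _)).abs
        _ ≤ _ := by linarith
  have huniv : Ψ univ = ψ' := by funext a; simp [hΨ]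
  have := main univ
  rwa [huniv] at this

/-- **Change of potentials** for the mean log-partition function. -/
theorem abs_integral_logZ_sub_le (hy : Measurable y) {ψ ψ' : Fin M → ℝ → ℝ}
    (hψ : ∀ a, Measurable (ψ a)) (hψ' : ∀ a, Measurable (ψ' a))
    {K : Fin M → ℝ} (hK : ∀ a x, |ψ a x| ≤ K a) (hK' : ∀ a x, |ψ' a x| ≤ K a)
    (G : Measure (Fin N → ℝ)) [IsProbabilityMeasure G]
    {D : Fin M → ℝ} (hD : ∀ a w, ∫ r, |ψ a (fld y r w) - ψ' a (fld y r w)| ∂G ≤ D a) :
    |∫ g, logZ μ y ψ g ∂(Measure.pi fun _ : Fin M => G) -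
      ∫ g, logZ μ y ψ' g ∂(Measure.pi fun _ : Fin M => G)| ≤
      ∑ a, Real.exp (2 * K a) * D a := by
  rw [← integral_sub (integrable_logZ hy hψ hK _) (integrable_logZ hy hψ' hK' _)]
  exact abs_integral_le_integral_abs.trans (integral_abs_logZ_sub_le hy hψ hψ' hK hK' G hD)

end Crest.Agent.R146.Sph857
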