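import Crest.Agent.R146.Sph3_409
import Crest.Agent.R146.S6Def_988

/-!
# Row 146, SPHERE part 4 (helper409): the new coordinate for exponential integrals

* `new_coordinate_integral` : Bochner form of `new_coordinate` for continuous `F ≥ 0`;
* `new_coordinate_exp` : `F = exp U`;
* `new_coordinate_rows` : rows, with the literal probability law `S6Def_988.sph`, coordinate at an
  arbitrary place `i`.
-/

set_option autoImplicit false

open MeasureTheory MeasureTheory.Measure ProbabilityTheory Set Filter Topology Metric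
open scoped ENNReal NNReal Real Pointwise

noncomputable section

namespace Crest.Agent.R146.Sph_409

open Crest.ProbabilityR.Perceptron
open Crest.Agent.R146.S6Def_988 (sph)

theorem sph_eq_uS (N : ℕ) : sph N = uS N := rfl

instance compactUnitSphere (N : ℕ) : CompactSpace (UnitSphere N) :=
  isCompact_iff_compactSpace.1 (isCompact_sphere (0 : En N) 1)

theorem integrable_uS {N : ℕ} {F : UnitSphere N → ℝ} (hF : Continuous F) :
    Integrable F (uS N) :=
  hF.integrable_of_hasCompactSupport (HasCompactSupport.of_compactSpace F)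

/-- the slice point -/
def slp {N : ℕ} (i : Fin (N + 1)) (s : ℝ) (y : En N) : En (N + 1) :=
  ins i (s / √(N + 1)) (√(1 - (s / √(N + 1)) ^ 2) • y)

theorem continuous_slp {N : ℕ} (i : Fin (N + 1)) :
    Continuous fun p : ℝ × UnitSphere N => slp i p.1 (p.2 : En N) := by
  unfold slp
  refine (continuous_ins i).comp (Continuous.prodMk (by fun_prop) ?_)
  fun_prop

theorem norm_slp {N : ℕ} (i : Fin (N + 1)) {s : ℝ} (hs : s ^ 2 ≤ N + 1) (y : UnitSphere N) :
    ‖slp i s (y : En N)‖ = 1 := by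
  have hn : (0 : ℝ) < N + 1 := by positivity
  have h : (s / √((N : ℝ) + 1)) ^ 2 = s ^ 2 / (N + 1) := by
    rw [div_pow, Real.sq_sqrt hn.le]
  have h1 : s ^ 2 / ((N : ℝ) + 1) ≤ 1 := (div_le_one hn).2 hs
  have e : ‖slp i s (y : En N)‖ ^ 2 = 1 := by
    unfold slp
    rw [norm_ins_sq, norm_smul, norm_coe_sphere, mul_one, Real.norm_eq_abs, sq_abs,
      Real.sq_sqrt (by rw [h]; linarith), h]
    ring
  have h2 := norm_nonneg (slp i s (y : En N))
  nlinarith

/-- **New coordinate**, Bochner form. -/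
theorem new_coordinate_integral (K ε : ℝ) (hε : 0 < ε) : ∃ N0 : ℕ, ∀ N : ℕ, N0 ≤ N → 0 < N ∧
    ∀ (i : Fin (N + 1)) (F : En (N + 1) → ℝ), Continuous F → (∀ x, 0 ≤ F x) →
    (1 - ε) * ∫ s in Icc (-K) K, ∫ y : UnitSphere N, F (slp i s (y : En N)) ∂uS N
      ∂gaussianReal 0 1 ≤
      ∫ y : UnitSphere (N + 1), F (y : En (N + 1)) ∂uS (N + 1) := by
  obtain ⟨N0, hN0⟩ := new_coordinate K ε hε
  refine ⟨N0, fun N hN => ⟨(hN0 N hN).1, fun i F hF hF0 => ?_⟩⟩
  obtain ⟨hNpos, h⟩ := hN0 N hN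
  have : NeZero N := ⟨hNpos.ne'⟩
  have hm : Measurable fun x => ENNReal.ofReal (F x) := hF.measurable.ennreal_ofReal
  have h1 := h i (fun x => ENNReal.ofReal (F x)) hm
  -- bound of F on the compact range
  have hcomp : IsCompact ((fun p : ℝ × UnitSphere N => slp i p.1 (p.2 : En N)) ''
      (Icc (-K) K ×ˢ (univ : Set (UnitSphere N)))) :=
    (isCompact_Icc.prod isCompact_univ).image (continuous_slp i)
  obtain ⟨B, hB⟩ := (hcomp.image hF).isBounded.exists_norm_le
  have hBd : ∀ s ∈ Icc (-K) K, ∀ y : UnitSphere N, ‖F (slp i s (y : En N))‖ ≤ B := fun s hs y =>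
    hB _ ⟨_, ⟨(s, y), ⟨hs, mem_univ _⟩, rfl⟩, rfl⟩
  have hc2 : Continuous fun p : ℝ × UnitSphere N => F (slp i p.1 (p.2 : En N)) :=
    hF.comp (continuous_slp i)
  have hyi : ∀ s, Integrable (fun y : UnitSphere N => F (slp i s (y : En N))) (uS N) := fun s =>
    integrable_uS (hc2.comp (Continuous.prodMk continuous_const continuous_id))
  have hsm : Measurable fun s => ∫ y : UnitSphere N, F (slp i s (y : En N)) ∂uS N :=
    (hc2.measurable.stronglyMeasurable.integral_prod_right').measurable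
  have hsi : Integrable (fun s => ∫ y : UnitSphere N, F (slp i s (y : En N)) ∂uS N)
      ((gaussianReal 0 1).restrict (Icc (-K) K)) := by
    refine Integrable.of_bound hsm.aestronglyMeasurable B ?_
    refine (ae_restrict_iff' measurableSet_Icc).2 (Filter.Eventually.of_forall fun s hs => ?_)
    refine (norm_integral_le_of_norm_le_const
      (Filter.Eventually.of_forall fun y => hBd s hs y)).trans ?_
    simp
  have e1 : ∫⁻ s in Icc (-K) K, ∫⁻ y, ENNReal.ofReal (F (slp i s (y : En N))) ∂uS N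
      ∂gaussianReal 0 1 = ENNReal.ofReal (∫ s in Icc (-K) K,
        ∫ y : UnitSphere N, F (slp i s (y : En N)) ∂uS N ∂gaussianReal 0 1) := by
    rw [ofReal_integral_eq_lintegral_ofReal hsi
      (Filter.Eventually.of_forall fun s => integral_nonneg fun y => hF0 _)]
    refine lintegral_congr fun s => ?_
    rw [ofReal_integral_eq_lintegral_ofReal (hyi s)
      (Filter.Eventually.of_forall fun y => hF0 _)]
  have hFi : Integrable (fun y : UnitSphere (N + 1) => F (y : En (N + 1))) (uS (N + 1)) :=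
    integrable_uS (hF.comp continuous_subtype_val)
  rw [← ofReal_integral_eq_lintegral_ofReal hFi (Filter.Eventually.of_forall fun y => hF0 _)] at h1
  have h2 : ENNReal.ofReal (1 - ε) * ENNReal.ofReal (∫ s in Icc (-K) K,
      ∫ y : UnitSphere N, F (slp i s (y : En N)) ∂uS N ∂gaussianReal 0 1) ≤
      ENNReal.ofReal (∫ y : UnitSphere (N + 1), F (y : En (N + 1)) ∂uS (N + 1)) := by
    rw [← e1]; exact h1
  have hI0 : 0 ≤ ∫ s in Icc (-K) K, ∫ y : UnitSphere N, F (slp i s (y : En N)) ∂uS N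
      ∂gaussianReal 0 1 := integral_nonneg fun s => integral_nonneg fun y => hF0 _
  have hJ0 : 0 ≤ ∫ y : UnitSphere (N + 1), F (y : En (N + 1)) ∂uS (N + 1) :=
    integral_nonneg fun y => hF0 _
  rcases le_or_gt 0 (1 - ε) with hc | hc
  · rw [← ENNReal.ofReal_mul hc] at h2
    exact (ENNReal.ofReal_le_ofReal_iff hJ0).1 h2
  · nlinarith

/-- **New coordinate for exponential integrals**: `U` continuous. -/
theorem new_coordinate_exp (K ε : ℝ) (hε : 0 < ε) : ∃ N0 : ℕ, ∀ N : ℕ, N0 ≤ N → 0 < N ∧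
    ∀ (i : Fin (N + 1)) (U : En (N + 1) → ℝ), Continuous U →
    (1 - ε) * ∫ s in Icc (-K) K, ∫ y : UnitSphere N, Real.exp (U (slp i s (y : En N))) ∂uS N
      ∂gaussianReal 0 1 ≤
      ∫ y : UnitSphere (N + 1), Real.exp (U (y : En (N + 1))) ∂uS (N + 1) := by
  obtain ⟨N0, hN0⟩ := new_coordinate_integral K ε hε
  exact ⟨N0, fun N hN => ⟨(hN0 N hN).1, fun i U hU =>
    (hN0 N hN).2 i (fun x => Real.exp (U x)) (Real.continuous_exp.comp hU)
      fun x => (Real.exp_pos _).le⟩⟩

theorem row_slp {N : ℕ} (i : Fin (N + 1)) (g : Fin (N + 1) → ℝ) (s : ℝ) (y : En N) :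
    ∑ j, g j * slp i s y j =
      g i * (s / √(N + 1)) + √(1 - (s / √(N + 1)) ^ 2) * ∑ j, g (i.succAbove j) * y j := by
  rw [Fin.sum_univ_succAbove _ i]
  unfold slp
  simp only [ins_same, ins_succAbove, PiLp.smul_apply, smul_eq_mul, Finset.mul_sum]
  congr 1
  exact Finset.sum_congr rfl fun j _ => by ring

/-- **New coordinate, rows**: rows `G a : Fin (N+1) → ℝ`, continuous row functions. -/
theorem new_coordinate_rows (K ε : ℝ) (hε : 0 < ε) : ∃ N0 : ℕ, ∀ N : ℕ, N0 ≤ N → 0 < N ∧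
    ∀ (i : Fin (N + 1)) (M : ℕ) (f : ℕ → ℝ → ℝ), (∀ a, Continuous (f a)) →
    ∀ G : Fin M → Fin (N + 1) → ℝ,
    (1 - ε) * ∫ s in Icc (-K) K, ∫ y : UnitSphere N, Real.exp (∑ a : Fin M,
        f a (G a i * (s / √(N + 1)) + √(1 - (s / √(N + 1)) ^ 2) *
          ∑ j, G a (i.succAbove j) * (y : EuclideanSpace ℝ (Fin N)) j)) ∂sph N
      ∂gaussianReal 0 1 ≤
      ∫ y : UnitSphere (N + 1), Real.exp (∑ a : Fin M, f a (∑ j, G a j *
        (y : EuclideanSpace ℝ (Fin (N + 1))) j)) ∂sph (N + 1) := by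
  obtain ⟨N0, hN0⟩ := new_coordinate_exp K ε hε
  refine ⟨N0, fun N hN => ⟨(hN0 N hN).1, fun i M f hf G => ?_⟩⟩
  have hU : Continuous fun x : En (N + 1) => ∑ a : Fin M, f a (∑ j, G a j * x j) := by
    refine continuous_finsetSum _ fun a _ => (hf a).comp ?_
    fun_prop
  have h := (hN0 N hN).2 i _ hU
  simp only [row_slp] at h
  exact h

end Crest.Agent.R146.Sph_409
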