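import Crest.Agent.R146.Sph4_409

/-!
# Row 146, SPHERE part 5 (helper409): `r` new coordinates at once

* `app y t` : the point of `ℝ^(N+r)` with first `N` coordinates `y`, last `r` coordinates `t`;
* `map_app` : the standard Gaussian law of `ℝ^(N+r)` is a product;
* `lintegral_uS_add_aux` : exact formula through the Gaussian representation;
* `newcoords` : for `F ≥ 0` on the sphere of `ℝ^(N+r)`, `n = N + r`, the average of `F` is at least
  `(1 - ε)` times the average of `F (√(1-|s|²/n) y, s/√n)`, `y` uniform on the sphere of `ℝ^N`,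
  `s` standard Gaussian in `ℝ^r` restricted to `|s| ≤ K`;
* `newcoords_integral` : Bochner form.
-/

set_option autoImplicit false

open MeasureTheory MeasureTheory.Measure ProbabilityTheory Set Filter Topology Metric
open scoped ENNReal NNReal Real Pointwise

noncomputable section

namespace Crest.Agent.R146.Sph_409

open Crest.ProbabilityR.Perceptron
open Crest.Agent.R166.Gauss286 (gv)

/-! ### appending coordinates -/

/-- First `N` coordinates `y`, last `r` coordinates `t`. -/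
def app {N r : ℕ} (y : En N) (t : En r) : En (N + r) :=
  WithLp.toLp 2 (Fin.append (WithLp.ofLp y) (WithLp.ofLp t))

@[simp] theorem app_castAdd {N r : ℕ} (y : En N) (t : En r) (i : Fin N) :
    app y t (Fin.castAdd r i) = y i := by
  simp [app]

@[simp] theorem app_natAdd {N r : ℕ} (y : En N) (t : En r) (j : Fin r) :
    app y t (Fin.natAdd N j) = t j := by
  simp [app]

theorem norm_app_sq {N r : ℕ} (y : En N) (t : En r) :
    ‖app y t‖ ^ 2 = ‖t‖ ^ 2 + ‖y‖ ^ 2 := by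
  rw [EuclideanSpace.real_norm_sq_eq, EuclideanSpace.real_norm_sq_eq,
    EuclideanSpace.real_norm_sq_eq, Fin.sum_univ_add]
  simp only [app_castAdd, app_natAdd]
  ring

theorem smul_app {N r : ℕ} (c : ℝ) (y : En N) (t : En r) :
    c • app y t = app (c • y) (c • t) := by
  ext j
  refine Fin.addCases (fun i => ?_) (fun k => ?_) j
  · simp
  · simp

theorem continuous_app {N r : ℕ} : Continuous fun p : En N × En r => app p.1 p.2 := by
  unfold app
  refine (PiLp.continuous_toLp 2 _).comp ?_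
  refine continuous_pi fun j => ?_
  refine Fin.addCases (fun i => ?_) (fun k => ?_) j
  · simp only [Fin.append_left]
    exact (PiLp.continuous_apply 2 _ i).comp continuous_fst
  · simp only [Fin.append_right]
    exact (PiLp.continuous_apply 2 _ k).comp continuous_snd

theorem measurable_app {N r : ℕ} : Measurable fun p : En N × En r => app p.1 p.2 :=
  continuous_app.measurable

theorem measurable_append {N r : ℕ} :
    Measurable fun p : (Fin N → ℝ) × (Fin r → ℝ) => (Fin.append p.1 p.2 : Fin (N + r) → ℝ) := by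
  refine measurable_pi_lambda _ fun j => ?_
  refine Fin.addCases (fun i => ?_) (fun k => ?_) j
  · simp only [Fin.append_left]
    exact (measurable_pi_apply i).comp measurable_fst
  · simp only [Fin.append_right]
    exact (measurable_pi_apply k).comp measurable_snd

theorem map_append (N r : ℕ) :
    ((gv (Fin N)).prod (gv (Fin r))).map (fun p => (Fin.append p.1 p.2 : Fin (N + r) → ℝ)) =
      gv (Fin (N + r)) := by
  symm
  refine Measure.pi_eq fun s hs => ?_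
  rw [Measure.map_apply measurable_append (MeasurableSet.univ_pi hs)]
  have e : (fun p : (Fin N → ℝ) × (Fin r → ℝ) => (Fin.append p.1 p.2 : Fin (N + r) → ℝ)) ⁻¹'
      (Set.univ.pi s) = (Set.univ.pi fun i => s (Fin.castAdd r i)) ×ˢ
        (Set.univ.pi fun j => s (Fin.natAdd N j)) := by
    ext p
    simp only [mem_preimage, Set.mem_pi, mem_univ, forall_const, Set.mem_prod]
    constructor
    · intro h
      refine ⟨fun i => ?_, fun j => ?_⟩
      · have := h (Fin.castAdd r i)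
        rwa [Fin.append_left] at this
      · have := h (Fin.natAdd N j)
        rwa [Fin.append_right] at this
    · rintro ⟨h1, h2⟩ j
      refine Fin.addCases (fun i => ?_) (fun k => ?_) j
      · rw [Fin.append_left]; exact h1 i
      · rw [Fin.append_right]; exact h2 k
  rw [e, Measure.prod_prod, Measure.pi_pi, Measure.pi_pi, Fin.prod_univ_add]

theorem map_app (N r : ℕ) :
    ((stdGaussian (En N)).prod (stdGaussian (En r))).map (fun p => app p.1 p.2) =
      stdGaussian (En (N + r)) := by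
  rw [stdGaussian_eq_map (N + r), stdGaussian_eq_map N, stdGaussian_eq_map r, ← map_append,
    Measure.map_prod_map _ _ (measurable_toLp' N) (measurable_toLp' r),
    Measure.map_map measurable_app ((measurable_toLp' N).prodMap (measurable_toLp' r)),
    Measure.map_map (measurable_toLp' (N + r)) measurable_append]
  rfl

theorem lintegral_stdGaussian_add {N r : ℕ} {F : En (N + r) → ℝ≥0∞} (hF : Measurable F) :
    ∫⁻ x, F x ∂stdGaussian (En (N + r)) =
      ∫⁻ x, ∫⁻ t, F (app x t) ∂stdGaussian (En r) ∂stdGaussian (En N) := by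
  have hm : Measurable fun p : En N × En r => F (app p.1 p.2) := hF.comp measurable_app
  rw [← map_app N r, lintegral_map hF measurable_app, lintegral_prod _ hm.aemeasurable]

/-! ### exact formula -/

/-- The average of `F` over the slice with last coordinates `u`. -/
def sliceR {N r : ℕ} (F : En (N + r) → ℝ≥0∞) (u : En r) : ℝ≥0∞ :=
  ∫⁻ y, F (app (√(1 - ‖u‖ ^ 2) • (y : En N)) u) ∂uS N

theorem measurable_sliceR {N r : ℕ} [NeZero N] {F : En (N + r) → ℝ≥0∞} (hF : Measurable F) :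
    Measurable (sliceR F) := by
  unfold sliceR
  have h : Measurable fun p : En r × UnitSphere N =>
      app (√(1 - ‖p.1‖ ^ 2) • (p.2 : En N)) p.1 := by
    refine measurable_app.comp (Measurable.prodMk ?_ measurable_fst)
    fun_prop
  exact (hF.comp h).lintegral_prod_right'

theorem sliceR_ratio {N r : ℕ} (F : En (N + r) → ℝ≥0∞) {ρ : ℝ} (hρ : 0 < ρ) (t : En r) :
    ∫⁻ y : UnitSphere N, F (‖app (ρ • (y : En N)) t‖⁻¹ • app (ρ • (y : En N)) t) ∂uS N =
      sliceR F ((√(‖t‖ ^ 2 + ρ ^ 2))⁻¹ • t) := by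
  unfold sliceR
  refine lintegral_congr fun y => ?_
  have e1 : ‖app (ρ • (y : En N)) t‖ = √(‖t‖ ^ 2 + ρ ^ 2) := by
    rw [← Real.sqrt_sq (norm_nonneg (app (ρ • (y : En N)) t)), norm_app_sq, norm_smul_coe hρ.le]
  have e2 : ‖(√(‖t‖ ^ 2 + ρ ^ 2))⁻¹ • t‖ ^ 2 = (‖t‖ / √(‖t‖ ^ 2 + ρ ^ 2)) ^ 2 := by
    rw [norm_smul, norm_inv, Real.norm_eq_abs, abs_of_nonneg (Real.sqrt_nonneg _), inv_mul_eq_div]
  rw [e1, smul_app, e2, sqrt_ratio hρ, smul_smul]

/-- Average over the new Gaussian coordinates of the homogeneous extension of `F`. -/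
def gAvR {N r : ℕ} (F : En (N + r) → ℝ≥0∞) (x : En N) : ℝ≥0∞ :=
  ∫⁻ t, F (‖app x t‖⁻¹ • app x t) ∂stdGaussian (En r)

theorem measurable_gAvR_arg {N r : ℕ} {F : En (N + r) → ℝ≥0∞} (hF : Measurable F) :
    Measurable fun p : En N × En r => F (‖app p.1 p.2‖⁻¹ • app p.1 p.2) := by
  have hn : Measurable fun x : En (N + r) => ‖x‖⁻¹ • x := by fun_prop
  exact (hF.comp hn).comp measurable_app

theorem lintegral_gAvR {N r : ℕ} [NeZero N] {F : En (N + r) → ℝ≥0∞}
    (hF : Measurable F) {ρ : ℝ} (hρ : 0 < ρ) :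
    ∫⁻ y : UnitSphere N, gAvR F (ρ • (y : En N)) ∂uS N =
      ∫⁻ t, sliceR F ((√(‖t‖ ^ 2 + ρ ^ 2))⁻¹ • t) ∂stdGaussian (En r) := by
  have hm3 : Measurable fun p : UnitSphere N × En r => (ρ • (p.1 : En N), p.2) := by fun_prop
  have hm2 := (measurable_gAvR_arg hF).comp hm3
  unfold gAvR
  rw [lintegral_lintegral_swap (f := fun (y : UnitSphere N) (t : En r) =>
    F (‖app (ρ • (y : En N)) t‖⁻¹ • app (ρ • (y : En N)) t)) hm2.aemeasurable]
  exact lintegral_congr fun t => sliceR_ratio F hρ t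

theorem lintegral_uS_add_aux {N r : ℕ} [NeZero N] {F : En (N + r) → ℝ≥0∞}
    (hF : Measurable F) :
    ∫⁻ y, F (y : En (N + r)) ∂uS (N + r) =
      ∫⁻ ρ, ∫⁻ t, sliceR F ((√(‖t‖ ^ 2 + ρ ^ 2))⁻¹ • t) ∂stdGaussian (En r) ∂radLaw N := by
  have hne : NeZero (N + r) := ⟨by have := NeZero.ne N; omega⟩
  have hn : Measurable fun x : En (N + r) => ‖x‖⁻¹ • x := by fun_prop
  have hFn : Measurable fun x : En (N + r) => F (‖x‖⁻¹ • x) := hF.comp hn
  have hG : Measurable (gAvR F) := (measurable_gAvR_arg hF).lintegral_prod_right'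
  rw [← lintegral_normalize (N + r) hF, lintegral_stdGaussian_add hFn]
  change ∫⁻ x, gAvR F x ∂stdGaussian (En N) = _
  rw [lintegral_stdGaussian_polar N hG]
  refine lintegral_congr_ae ?_
  filter_upwards [ae_radLaw_pos N] with ρ hρ
  exact lintegral_gAvR hF hρ

/-! ### the Gaussian lower bound -/

theorem tc_pow {n ρ s K δ : ℝ} (hn : 0 < n) (hρ : 0 < ρ) (hs0 : 0 ≤ s) (hK : s ≤ K) (hδ0 : 0 ≤ δ)
    (hδ : δ ≤ 1 / 2) (hKn : K ^ 2 ≤ δ * n) (h1 : n * (1 - δ) ≤ ρ ^ 2) (k : ℕ) :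
    (1 - δ) ^ k * s ^ k ≤ tc n ρ s ^ k := by
  have hsK : s ^ 2 ≤ K ^ 2 := pow_le_pow_left₀ hs0 hK 2
  have h0 : 0 < n - s ^ 2 := by nlinarith
  have hsq : 0 < √(n - s ^ 2) := Real.sqrt_pos.2 h0
  have a1 : √(n - s ^ 2) ≤ √n := Real.sqrt_le_sqrt (by nlinarith [sq_nonneg s])
  have a3 : 0 < √n := Real.sqrt_pos.2 hn
  have a4 : (1 - δ) * √n ≤ ρ := by
    refine (sq_le_sq₀ (mul_nonneg (by linarith) a3.le) hρ.le).1 ?_
    rw [mul_pow, Real.sq_sqrt hn.le]
    nlinarith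
  rw [← mul_pow]
  refine pow_le_pow_left₀ (mul_nonneg (by linarith) hs0) ?_ k
  unfold tc
  rw [le_div_iff₀ hsq]
  calc (1 - δ) * s * √(n - s ^ 2) ≤ (1 - δ) * s * √n :=
        mul_le_mul_of_nonneg_left a1 (mul_nonneg (by linarith) hs0)
    _ = (1 - δ) * √n * s := by ring
    _ ≤ ρ * s := by gcongr

/-- radial density comparison -/
theorem radial_le {n ρ s K δ : ℝ} (hn : 0 < n) (hρ : 0 < ρ) (hs0 : 0 ≤ s) (hK : s ≤ K)
    (hδ0 : 0 ≤ δ) (hδ : δ ≤ 1 / 2) (hKn : K ^ 2 ≤ δ * n) (h1 : n * (1 - δ) ≤ ρ ^ 2)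
    (h2 : ρ ^ 2 ≤ n * (1 + δ)) (r : ℕ) :
    ENNReal.ofReal ((1 - δ) ^ (r - 1) * (1 - δ * (1 + 2 * K ^ 2))) *
        (ENNReal.ofReal (s ^ (r - 1)) * gDen r s) ≤
      ENNReal.ofReal (ρ * n / ((n - s ^ 2) * √(n - s ^ 2))) *
        (ENNReal.ofReal (tc n ρ s ^ (r - 1)) * gDen r (tc n ρ s)) := by
  have hsK : s ^ 2 ≤ K ^ 2 := pow_le_pow_left₀ hs0 hK 2
  have h0 : 0 < n - s ^ 2 := by nlinarith
  have hpos : 0 ≤ ρ * n / ((n - s ^ 2) * √(n - s ^ 2)) := by positivity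
  have htc : 0 ≤ tc n ρ s := by unfold tc; positivity
  have hd := tc_density (s := s) hn hρ (by rw [abs_of_nonneg hs0]; exact hK) hδ0 hδ hKn h1 h2
  have hp := tc_pow hn hρ hs0 hK hδ0 hδ hKn h1 (r - 1)
  have hq : (0 : ℝ) ≤ (√(2 * π))⁻¹ ^ r := by positivity
  unfold gDen
  rcases le_or_gt 0 (1 - δ * (1 + 2 * K ^ 2)) with hc | hc
  · have hc1 : 0 ≤ (1 - δ) ^ (r - 1) := pow_nonneg (by linarith) _
    rw [← ENNReal.ofReal_mul (by positivity), ← ENNReal.ofReal_mul (by positivity),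
      ← ENNReal.ofReal_mul (by positivity), ← ENNReal.ofReal_mul hpos]
    refine ENNReal.ofReal_le_ofReal ?_
    calc (1 - δ) ^ (r - 1) * (1 - δ * (1 + 2 * K ^ 2)) *
          (s ^ (r - 1) * ((√(2 * π))⁻¹ ^ r * Real.exp (-s ^ 2 / 2)))
        = (√(2 * π))⁻¹ ^ r * (((1 - δ) ^ (r - 1) * s ^ (r - 1)) *
          ((1 - δ * (1 + 2 * K ^ 2)) * Real.exp (-s ^ 2 / 2))) := by ring
      _ ≤ (√(2 * π))⁻¹ ^ r * ((tc n ρ s ^ (r - 1)) *
          (ρ * n / ((n - s ^ 2) * √(n - s ^ 2)) * Real.exp (-(tc n ρ s) ^ 2 / 2))) := by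
          refine mul_le_mul_of_nonneg_left ?_ hq
          refine mul_le_mul hp hd (mul_nonneg hc (Real.exp_pos _).le) (pow_nonneg htc _)
      _ = _ := by ring
  · rw [ENNReal.ofReal_of_nonpos (mul_nonpos_of_nonneg_of_nonpos (pow_nonneg (by linarith) _) hc.le),
      zero_mul]
    exact zero_le

/-- The estimate in `ℝ^r` for fixed `ρ` close to `√n`. -/
theorem coordinates_le {n ρ K δ : ℝ} {r : ℕ} [NeZero r] (hn : 0 < n) (hρ : 0 < ρ) (hδ0 : 0 ≤ δ)
    (hδ : δ ≤ 1 / 2) (hKn : K ^ 2 ≤ δ * n) (h1 : n * (1 - δ) ≤ ρ ^ 2) (h2 : ρ ^ 2 ≤ n * (1 + δ))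
    {H : En r → ℝ≥0∞} (hH : Measurable H) :
    ENNReal.ofReal ((1 - δ) ^ (r - 1) * (1 - δ * (1 + 2 * K ^ 2))) *
        ∫⁻ s in {s : En r | ‖s‖ ≤ K}, H ((√n)⁻¹ • s) ∂stdGaussian (En r) ≤
      ∫⁻ t, H ((√(‖t‖ ^ 2 + ρ ^ 2))⁻¹ • t) ∂stdGaussian (En r) := by
  -- radial average
  set h : ℝ → ℝ≥0∞ := fun u => ∫⁻ ω : UnitSphere r, H (u • (ω : En r)) ∂uS r with hh
  have hhm : Measurable h := by
    have : Measurable fun p : ℝ × UnitSphere r => H (p.1 • (p.2 : En r)) := hH.comp (by fun_prop)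
    exact this.lintegral_prod_right'
  have hball : MeasurableSet {s : En r | ‖s‖ ≤ K} := measurableSet_le measurable_norm measurable_const
  -- right-hand side in polar coordinates
  have hR : ∫⁻ t, H ((√(‖t‖ ^ 2 + ρ ^ 2))⁻¹ • t) ∂stdGaussian (En r) =
      ∫⁻ τ in Ioi (0 : ℝ), ENNReal.ofReal (τ ^ (r - 1)) * gDen r τ * sphereLaw r Set.univ *
        h (τ / √(τ ^ 2 + ρ ^ 2)) := by
    have hm : Measurable fun t : En r => H ((√(‖t‖ ^ 2 + ρ ^ 2))⁻¹ • t) := hH.comp (by fun_prop)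
    rw [lintegral_stdGaussian_aux r hm]
    refine setLIntegral_congr_fun measurableSet_Ioi fun τ hτ => ?_
    have hτ0 : (0 : ℝ) ≤ τ := le_of_lt hτ
    simp only [hh]
    congr 1
    refine lintegral_congr fun ω => ?_
    rw [norm_smul_coe hτ0, smul_smul, inv_mul_eq_div]
  -- left-hand side in polar coordinates
  have hL : ∫⁻ s in {s : En r | ‖s‖ ≤ K}, H ((√n)⁻¹ • s) ∂stdGaussian (En r) =
      ∫⁻ s in Ioc (0 : ℝ) K, ENNReal.ofReal (s ^ (r - 1)) * gDen r s * sphereLaw r Set.univ *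
        h (s / √n) := by
    have hm : Measurable fun s : En r => H ((√n)⁻¹ • s) := hH.comp (by fun_prop)
    rw [← lintegral_indicator hball, lintegral_stdGaussian_aux r (hm.indicator hball)]
    have e : Ioc (0 : ℝ) K = Iic K ∩ Ioi 0 := by ext x; simp [and_comm]
    rw [e, ← Measure.restrict_restrict measurableSet_Iic, ← lintegral_indicator measurableSet_Iic]
    refine setLIntegral_congr_fun measurableSet_Ioi fun τ hτ => ?_
    have hτ0 : (0 : ℝ) ≤ τ := le_of_lt hτ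
    by_cases hτK : τ ≤ K
    · rw [Set.indicator_of_mem (show τ ∈ Iic K from hτK)]
      simp only [hh]
      congr 1
      refine lintegral_congr fun ω => ?_
      rw [Set.indicator_of_mem (by
        change ‖τ • (ω : En r)‖ ≤ K
        rw [norm_smul_coe hτ0]; exact hτK), smul_smul, inv_mul_eq_div]
    · rw [Set.indicator_of_notMem (show τ ∉ Iic K from hτK)]
      have : ∀ ω : UnitSphere r, ({s : En r | ‖s‖ ≤ K}.indicator (fun s => H ((√n)⁻¹ • s)))
          (τ • (ω : En r)) = 0 := fun ω => by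
        rw [Set.indicator_of_notMem]
        change ¬ ‖τ • (ω : En r)‖ ≤ K
        rw [norm_smul_coe hτ0]; exact hτK
      simp only [this, lintegral_const, zero_mul, mul_zero]
  rw [hR, hL]
  have hlt : ∀ s ∈ Ioc (0 : ℝ) K, s ^ 2 < n := fun s hs => by
    have hsK : s ^ 2 ≤ K ^ 2 := pow_le_pow_left₀ hs.1.le hs.2 2
    nlinarith
  have hinj : InjOn (tc n ρ) (Ioc (0 : ℝ) K) := fun s hs s' hs' hss => by
    have e1 := tc_inv hn hρ (hlt s hs)
    have e2 := tc_inv hn hρ (hlt s' hs')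
    rw [hss, e2] at e1
    have : √n ≠ 0 := (Real.sqrt_pos.2 hn).ne'
    field_simp at e1
    exact e1.symm
  have hcv := lintegral_image_eq_lintegral_abs_deriv_mul (s := Ioc (0 : ℝ) K) (f := tc n ρ)
    (f' := fun s => ρ * n / ((n - s ^ 2) * √(n - s ^ 2))) measurableSet_Ioc
    (fun s hs => (hasDerivAt_tc (hlt s hs)).hasDerivWithinAt) hinj
    (fun τ => ENNReal.ofReal (τ ^ (r - 1)) * gDen r τ * sphereLaw r Set.univ *
      h (τ / √(τ ^ 2 + ρ ^ 2)))
  have hsub : tc n ρ '' Ioc (0 : ℝ) K ⊆ Ioi (0 : ℝ) := by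
    rintro _ ⟨s, hs, rfl⟩
    have h0 : 0 < n - s ^ 2 := by linarith [hlt s hs]
    have hs0 : 0 < s := hs.1
    change 0 < tc n ρ s
    unfold tc
    positivity
  refine le_trans ?_ (lintegral_mono_set hsub)
  rw [hcv]
  have hgm : Measurable fun s : ℝ => ENNReal.ofReal (s ^ (r - 1)) * gDen r s *
      sphereLaw r Set.univ * h (s / √n) := by
    have h1 : Measurable fun s : ℝ => ENNReal.ofReal (s ^ (r - 1)) := by fun_prop
    exact ((h1.mul (measurable_gDen r)).mul_const _).mul (hhm.comp (by fun_prop))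
  rw [← lintegral_const_mul _ hgm]
  refine setLIntegral_mono' measurableSet_Ioc fun s hs => ?_
  have hsn := hlt s hs
  have h0 : 0 < n - s ^ 2 := by linarith
  have hpos : 0 ≤ ρ * n / ((n - s ^ 2) * √(n - s ^ 2)) := by positivity
  rw [tc_inv hn hρ hsn, abs_of_nonneg hpos]
  have hr := radial_le hn hρ hs.1.le hs.2 hδ0 hδ hKn h1 h2 r
  calc ENNReal.ofReal ((1 - δ) ^ (r - 1) * (1 - δ * (1 + 2 * K ^ 2))) *
        (ENNReal.ofReal (s ^ (r - 1)) * gDen r s * sphereLaw r Set.univ * h (s / √n))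
      = ENNReal.ofReal ((1 - δ) ^ (r - 1) * (1 - δ * (1 + 2 * K ^ 2))) *
        (ENNReal.ofReal (s ^ (r - 1)) * gDen r s) * (sphereLaw r Set.univ * h (s / √n)) := by ring
    _ ≤ ENNReal.ofReal (ρ * n / ((n - s ^ 2) * √(n - s ^ 2))) *
        (ENNReal.ofReal (tc n ρ s ^ (r - 1)) * gDen r (tc n ρ s)) *
          (sphereLaw r Set.univ * h (s / √n)) := mul_le_mul' hr le_rfl
    _ = _ := by ring

/-- **`r` new coordinates**, quantitative form. -/
theorem newcoords_explicit {N r : ℕ} [NeZero N] [NeZero r] {K δ : ℝ} (hδ0 : 0 < δ)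
    (hδ : δ ≤ 1 / 2) (hKn : K ^ 2 ≤ δ * ((N : ℝ) + r)) (hN : 2 * (r : ℝ) ≤ δ * ((N : ℝ) + r))
    {F : En (N + r) → ℝ≥0∞} (hF : Measurable F) :
    ENNReal.ofReal (1 - 8 / (δ ^ 2 * ((N : ℝ) + r))) *
      (ENNReal.ofReal ((1 - δ) ^ (r - 1) * (1 - δ * (1 + 2 * K ^ 2))) *
      ∫⁻ s in {s : En r | ‖s‖ ≤ K}, sliceR F ((√((N : ℝ) + r))⁻¹ • s) ∂stdGaussian (En r)) ≤
      ∫⁻ y, F (y : En (N + r)) ∂uS (N + r) := by
  set n : ℝ := (N : ℝ) + r with hn_def
  have hNpos : (0 : ℝ) < N := by exact_mod_cast Nat.pos_of_ne_zero (NeZero.ne N)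
  have hrpos : (0 : ℝ) < r := by exact_mod_cast Nat.pos_of_ne_zero (NeZero.ne r)
  have hn : 0 < n := by positivity
  have hs := measurable_sliceR hF
  set A : ℝ≥0∞ := ENNReal.ofReal ((1 - δ) ^ (r - 1) * (1 - δ * (1 + 2 * K ^ 2))) *
    ∫⁻ s in {s : En r | ‖s‖ ≤ K}, sliceR F ((√n)⁻¹ • s) ∂stdGaussian (En r) with hA
  rw [lintegral_uS_add_aux hF]
  set c : ℝ := δ * n - r with hc_def
  have hc : 0 < c := by linarith
  set S : Set ℝ := {ρ | c ≤ |ρ ^ 2 - N|} with hS_def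
  have hSm : MeasurableSet S := measurableSet_le measurable_const (by fun_prop)
  have hwin := radLaw_window N hc
  have key : ∀ᵐ ρ ∂radLaw N, Sᶜ.indicator (fun _ => A) ρ ≤
      ∫⁻ t, sliceR F ((√(‖t‖ ^ 2 + ρ ^ 2))⁻¹ • t) ∂stdGaussian (En r) := by
    filter_upwards [ae_radLaw_pos N] with ρ hρ
    by_cases hρS : ρ ∈ S
    · rw [Set.indicator_of_notMem (by simpa using hρS)]
      exact zero_le
    · rw [Set.indicator_of_mem hρS]
      have h3 : |ρ ^ 2 - N| < c := not_le.1 hρS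
      rw [abs_lt] at h3
      exact coordinates_le hn hρ hδ0.le hδ hKn (by rw [hc_def] at h3; nlinarith [h3.1])
        (by rw [hc_def] at h3; nlinarith [h3.2]) hs
  refine le_trans ?_ (lintegral_mono_ae key)
  rw [lintegral_indicator_const hSm.compl, mul_comm]
  refine mul_le_mul' le_rfl ?_
  rw [← ofReal_measureReal (measure_ne_top _ _)]
  refine ENNReal.ofReal_le_ofReal ?_
  rw [probReal_compl_eq_one_sub hSm]
  have h4 : 2 * (N : ℝ) / c ^ 2 ≤ 8 / (δ ^ 2 * n) := by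
    have h5 : δ * n / 2 ≤ c := by rw [hc_def]; linarith
    have h6 : 0 < δ * n / 2 := by positivity
    have h7 : (δ * n / 2) ^ 2 ≤ c ^ 2 := pow_le_pow_left₀ h6.le h5 2
    calc 2 * (N : ℝ) / c ^ 2 ≤ 2 * n / (δ * n / 2) ^ 2 := by
          apply div_le_div₀ (by positivity) _ (by positivity) h7
          rw [hn_def]; linarith
      _ = 8 / (δ ^ 2 * n) := by field_simp; ring
  linarith

/-- **`r` new coordinates.** -/
theorem newcoords (r : ℕ) (hr : 0 < r) (K ε : ℝ) (hε : 0 < ε) : ∃ N0 : ℕ, ∀ N : ℕ, N0 ≤ N →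
    0 < N ∧ ∀ (F : En (N + r) → ℝ≥0∞), Measurable F →
    ENNReal.ofReal (1 - ε) * ∫⁻ s in {s : En r | ‖s‖ ≤ K},
      ∫⁻ y, F (app (√(1 - ‖(√((N : ℝ) + r))⁻¹ • s‖ ^ 2) • (y : En N)) ((√((N : ℝ) + r))⁻¹ • s))
        ∂uS N ∂stdGaussian (En r) ≤
      ∫⁻ y, F (y : En (N + r)) ∂uS (N + r) := by
  have hrne : NeZero r := ⟨hr.ne'⟩
  rcases le_or_gt 1 ε with h1 | h1
  · refine ⟨1, fun N hN => ⟨hN, fun F _ => ?_⟩⟩
    rw [ENNReal.ofReal_of_nonpos (by linarith), zero_mul]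
    exact zero_le
  -- choice of δ by continuity
  have hcont : Tendsto (fun δ : ℝ => (1 - δ) ^ (r - 1) * (1 - δ * (1 + 2 * K ^ 2))) (𝓝 0)
      (𝓝 ((1 - (0 : ℝ)) ^ (r - 1) * (1 - 0 * (1 + 2 * K ^ 2)))) :=
    (Continuous.tendsto (by fun_prop) 0)
  have hval : (1 - (0 : ℝ)) ^ (r - 1) * (1 - 0 * (1 + 2 * K ^ 2)) = 1 := by simp
  rw [hval] at hcont
  have hev : ∀ᶠ δ : ℝ in 𝓝 0, 1 - ε / 2 < (1 - δ) ^ (r - 1) * (1 - δ * (1 + 2 * K ^ 2)) :=
    hcont.eventually (lt_mem_nhds (by linarith))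
  obtain ⟨d, hd, hdd⟩ := Metric.eventually_nhds_iff.1 hev
  set δ : ℝ := min (d / 2) (1 / 2) with hδ_def
  have hδ0 : 0 < δ := lt_min (by linarith) (by norm_num)
  have hδ : δ ≤ 1 / 2 := min_le_right _ _
  have hδd : 1 - ε / 2 < (1 - δ) ^ (r - 1) * (1 - δ * (1 + 2 * K ^ 2)) := by
    apply hdd
    rw [Real.dist_eq, sub_zero, abs_of_pos hδ0]
    exact (min_le_left _ _).trans_lt (by linarith)
  obtain ⟨N0, hN0⟩ := exists_nat_gt (max (K ^ 2 / δ) (max (2 * r / δ) (16 / (δ ^ 2 * ε))))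
  refine ⟨max N0 1, fun N hN => ⟨lt_of_lt_of_le one_pos ((le_max_right _ _).trans hN), ?_⟩⟩
  have hNpos : 0 < N := lt_of_lt_of_le one_pos ((le_max_right _ _).trans hN)
  have : NeZero N := ⟨hNpos.ne'⟩
  have hNN : (N0 : ℝ) ≤ N := by exact_mod_cast (le_max_left _ _).trans hN
  have hr0 : (0 : ℝ) ≤ r := by positivity
  have g1 : K ^ 2 / δ < (N : ℝ) + r := by
    have := (le_max_left (K ^ 2 / δ) (max (2 * r / δ) (16 / (δ ^ 2 * ε)))).trans_lt hN0
    linarith
  have g2 : 2 * r / δ < (N : ℝ) + r := by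
    have := ((le_max_left (2 * r / δ) (16 / (δ ^ 2 * ε))).trans
      (le_max_right (K ^ 2 / δ) _)).trans_lt hN0
    linarith
  have g3 : 16 / (δ ^ 2 * ε) < (N : ℝ) + r := by
    have := ((le_max_right (2 * r / δ) (16 / (δ ^ 2 * ε))).trans
      (le_max_right (K ^ 2 / δ) _)).trans_lt hN0
    linarith
  rw [div_lt_iff₀ hδ0] at g1 g2
  rw [div_lt_iff₀ (by positivity)] at g3
  intro F hF
  refine le_trans ?_ (newcoords_explicit (K := K) hδ0 hδ (by linarith) (by linarith) hF)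
  rw [← mul_assoc]
  refine mul_le_mul' ?_ le_rfl
  have h8 : 8 / (δ ^ 2 * ((N : ℝ) + r)) ≤ ε / 2 := by
    rw [div_le_div_iff₀ (by positivity) (by norm_num)]
    nlinarith
  rw [← ENNReal.ofReal_mul (by linarith)]
  refine ENNReal.ofReal_le_ofReal ?_
  nlinarith

end Crest.Agent.R146.Sph_409
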