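import Crest.Agent.R167.Sph
import Crest.Prelude.Def_SphericalPressure

/-!
Row 146, node SD1/SD2 (helper290): divergence theorem on the unit sphere for the tangential
projection of a constant vector field, and the Schwinger-Dyson identity for Gibbs measures on the
sphere.
-/

set_option autoImplicit false
open MeasureTheory

namespace Crest.Agent.R146.SphDiv_290

open Crest.Agent.R167 Crest.ProbabilityR.Perceptron

variable {n : ℕ}

/-- generator of the rotation in the plane `(k,l)`. -/
noncomputable def gen (k l : Fin n) (x : EuclideanSpace ℝ (Fin n)) : EuclideanSpace ℝ (Fin n) :=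
  WithLp.toLp 2 fun i => if i = k then - x l else if i = l then x k else 0

theorem hasDerivAt_rotV {k l : Fin n} (h : k ≠ l) (θ : ℝ) (x : EuclideanSpace ℝ (Fin n)) :
    HasDerivAt (fun θ => rotV k l θ x) (gen k l (rotV k l θ x)) θ := by
  rw [hasDerivAt_iff_hasFDerivAt, ← hasFDerivWithinAt_univ, hasFDerivWithinAt_euclidean]
  intro i
  rw [hasFDerivWithinAt_univ]
  have key : HasDerivAt (fun θ => rotV k l θ x i) (gen k l (rotV k l θ x) i) θ := by
    by_cases h1 : i = k
    · subst h1
      have e : (fun θ => rotV i l θ x i) = fun θ => Real.cos θ * x i - Real.sin θ * x l := by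
        funext θ; rw [rotV_apply_k]
      rw [e]
      have e2 : gen i l (rotV i l θ x) i = (-Real.sin θ) * x i - Real.cos θ * x l := by
        simp only [gen, if_true]
        rw [rotV_apply_l h]; ring
      rw [e2]
      exact ((Real.hasDerivAt_cos θ).mul_const _).sub ((Real.hasDerivAt_sin θ).mul_const _)
    · by_cases h2 : i = l
      · subst h2
        have e : (fun θ => rotV k i θ x i) = fun θ => Real.sin θ * x k + Real.cos θ * x i := by
          funext θ; rw [rotV_apply_l h]
        rw [e]
        have e2 : gen k i (rotV k i θ x) i = Real.cos θ * x k + (-Real.sin θ) * x i := by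
          simp only [gen, if_neg h1, if_true]
          rw [rotV_apply_k]; ring
        rw [e2]
        exact ((Real.hasDerivAt_sin θ).mul_const _).add ((Real.hasDerivAt_cos θ).mul_const _)
      · have e : (fun θ => rotV k l θ x i) = fun _ => x i := by
          funext θ; rw [rotV_apply_of_ne h1 h2]
        rw [e]
        have e2 : gen k l (rotV k l θ x) i = 0 := by
          simp only [gen, if_neg h1, if_neg h2]
        rw [e2]
        exact hasDerivAt_const _ _
  have h3 := key.hasFDerivAt
  refine h3.congr_fderiv ?_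
  ext
  simp

theorem continuous_gen (k l : Fin n) : Continuous (gen k l) := by
  unfold gen
  refine (PiLp.continuous_toLp 2 _).comp (continuous_pi fun i => ?_)
  split_ifs <;> fun_prop

instance isFinite_sphereLaw : IsFiniteMeasure (sphereLaw n) := by
  unfold sphereLaw; infer_instance

theorem integrable_sphere {F : UnitSphere n → ℝ} (hF : Continuous F) :
    Integrable F (sphereLaw n) := by
  obtain ⟨C, hC⟩ := (isCompact_univ.image hF.norm).bddAbove
  exact Integrable.of_bound hF.aestronglyMeasurable C
    (Filter.Eventually.of_forall fun y => hC ⟨y, Set.mem_univ _, rfl⟩)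

theorem integral_rotS [NeZero n] {k l : Fin n} (h : k ≠ l) (θ : ℝ) {F : UnitSphere n → ℝ}
    (hF : Continuous F) :
    ∫ y, F (rotS h θ y) ∂sphereLaw n = ∫ y, F y ∂sphereLaw n := by
  have hmp : MeasurePreserving (rotS h θ) (sphereLaw n) (sphereLaw n) := by
    rw [rotS_eq_isoS]; exact mp_isoS_toSphere _
  have e1 : ∫ y, F (rotS h θ y) ∂sphereLaw n
      = ∫ y : UnitSphere n, F y ∂(Measure.map (rotS h θ) (sphereLaw n)) :=
    (integral_map hmp.measurable.aemeasurable hF.aestronglyMeasurable).symm
  rw [e1, hmp.map_eq]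

theorem continuous_rotS' {k l : Fin n} (h : k ≠ l) (θ : ℝ) :
    Continuous fun y : UnitSphere n => rotS h θ y := by
  have h1 : (fun y : UnitSphere n => rotS h θ y) = isoS (rotE h θ) := rotS_eq_isoS h θ
  rw [h1]
  exact continuous_isoS _

/-- rotation invariance differentiated -/
theorem integral_gen {k l : Fin n} (h : k ≠ l) (F : EuclideanSpace ℝ (Fin n) → ℝ)
    (F' : EuclideanSpace ℝ (Fin n) → EuclideanSpace ℝ (Fin n) →L[ℝ] ℝ)
    (hF : ∀ y ∈ Metric.sphere (0 : EuclideanSpace ℝ (Fin n)) 1, HasFDerivAt F (F' y) y)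
    (hF' : ContinuousOn F' (Metric.sphere (0 : EuclideanSpace ℝ (Fin n)) 1)) :
    ∫ y : UnitSphere n, F' y (gen k l y) ∂sphereLaw n = 0 := by
  have hn : 0 < n := lt_of_le_of_lt (Nat.zero_le _) k.2
  have : NeZero n := ⟨hn.ne'⟩
  have hcF : ContinuousOn F (Metric.sphere (0 : EuclideanSpace ℝ (Fin n)) 1) :=
    fun y hy => (hF y hy).continuousAt.continuousWithinAt
  have hcFS : Continuous fun y : UnitSphere n => F y :=
    continuousOn_iff_continuous_domRestrict.1 hcF
  have hcF'S : Continuous fun y : UnitSphere n => F' y :=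
    continuousOn_iff_continuous_domRestrict.1 hF'
  have hcG : Continuous fun y : UnitSphere n => F' y (gen k l y) :=
    hcF'S.clm_apply ((continuous_gen k l).comp continuous_subtype_val)
  -- bounds
  obtain ⟨C, hC⟩ : ∃ C : ℝ, ∀ y : UnitSphere n, ‖F' y (gen k l y)‖ ≤ C := by
    obtain ⟨C, hC⟩ := (isCompact_univ.image hcG.norm).bddAbove
    exact ⟨C, fun y => hC ⟨y, Set.mem_univ _, rfl⟩⟩
  have m1 : ∀ᶠ θ in nhds (0:ℝ), AEStronglyMeasurable (fun y : UnitSphere n => F (rotS h θ y))
      (sphereLaw n) :=
    Filter.Eventually.of_forall fun θ => (hcFS.comp (continuous_rotS' h θ)).aestronglyMeasurable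
  have m2 : Integrable (fun y : UnitSphere n => F (rotS h 0 y)) (sphereLaw n) :=
    integrable_sphere (hcFS.comp (continuous_rotS' h 0))
  have m3 : AEStronglyMeasurable (fun y : UnitSphere n => F' (rotS h 0 y) (gen k l (rotS h 0 y)))
      (sphereLaw n) :=
    (hcG.comp (continuous_rotS' h 0)).aestronglyMeasurable
  have m4 : ∀ᵐ (y : UnitSphere n) ∂sphereLaw n, ∀ θ ∈ (Set.univ : Set ℝ),
      ‖F' (rotS h θ y) (gen k l (rotS h θ y))‖ ≤ C :=
    Filter.Eventually.of_forall fun y θ _ => hC (rotS h θ y)
  have m5 : ∀ᵐ (y : UnitSphere n) ∂sphereLaw n, ∀ θ ∈ (Set.univ : Set ℝ),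
      HasDerivAt (fun θ => F (rotS h θ y)) (F' (rotS h θ y) (gen k l (rotS h θ y))) θ := by
    refine Filter.Eventually.of_forall fun y θ _ => ?_
    have h1 := hasDerivAt_rotV h θ (y : EuclideanSpace ℝ (Fin n))
    have h2 := hF (rotV k l θ y) (by
      have := (rotS h θ y).2
      rwa [coe_rotS] at this)
    exact h2.comp_hasDerivAt θ h1
  have key := hasDerivAt_integral_of_dominated_loc_of_deriv_le
    (μ := sphereLaw n) (F := fun θ (y : UnitSphere n) => F (rotS h θ y))
    (F' := fun θ (y : UnitSphere n) => F' (rotS h θ y) (gen k l (rotS h θ y)))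
    (x₀ := (0 : ℝ)) (s := Set.univ) (bound := fun _ => C) Filter.univ_mem
    m1 m2 m3 m4 (integrable_const _) m5
  have h2 := key.2
  have hconst : (fun θ => ∫ y, F (rotS h θ y) ∂sphereLaw n)
      = fun _ => ∫ y : UnitSphere n, F y ∂sphereLaw n := by
    funext θ
    exact integral_rotS h θ (F := fun y => F y) hcFS
  rw [hconst] at h2
  have h3 := h2.unique (hasDerivAt_const (0:ℝ) (∫ y : UnitSphere n, F y ∂sphereLaw n))
  rw [← h3]
  refine integral_congr_ae (Filter.Eventually.of_forall fun y => ?_)
  show F' y (gen k l y) = F' (rotS h 0 y) (gen k l (rotS h 0 y))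
  rw [rotS_zero]

theorem sum_sq_eq_one {y : EuclideanSpace ℝ (Fin n)}
    (hy : y ∈ Metric.sphere (0 : EuclideanSpace ℝ (Fin n)) 1) : ∑ i, y i ^ 2 = 1 := by
  have h1 : ‖y‖ = 1 := by simpa using hy
  have h2 := EuclideanSpace.real_norm_sq_eq y
  rw [h1] at h2
  linarith

theorem single_sub_eq {y : EuclideanSpace ℝ (Fin n)}
    (hy : y ∈ Metric.sphere (0 : EuclideanSpace ℝ (Fin n)) 1) (k : Fin n) :
    EuclideanSpace.single k (1 : ℝ) - y k • y
      = ∑ l ∈ Finset.univ.erase k, (- y l) • gen k l y := by
  ext i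
  have hs : (∑ l ∈ Finset.univ.erase k, (- y l) • gen k l y) i
      = ∑ l ∈ Finset.univ.erase k, (- y l) * (gen k l y i) := by
    simp
  rw [hs]
  by_cases hi : i = k
  · subst hi
    have h1 : ∑ l ∈ Finset.univ.erase i, (- y l) * (gen i l y i)
        = ∑ l ∈ Finset.univ.erase i, y l ^ 2 := by
      refine Finset.sum_congr rfl fun l _ => ?_
      simp only [gen, if_true]; ring
    rw [h1]
    have h2 := Finset.add_sum_erase Finset.univ (fun l => y l ^ 2) (Finset.mem_univ i)
    rw [sum_sq_eq_one hy] at h2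
    have h3 : (EuclideanSpace.single i (1 : ℝ) - y i • y) i = 1 - y i * y i := by
      simp
    rw [h3]
    dsimp only at h2
    linarith [sq (y i)]
  · have h1 : ∑ l ∈ Finset.univ.erase k, (- y l) * (gen k l y i)
        = ∑ l ∈ Finset.univ.erase k, if i = l then - y l * y k else 0 := by
      refine Finset.sum_congr rfl fun l _ => ?_
      simp only [gen, if_neg hi]
      split_ifs <;> ring
    rw [h1, Finset.sum_ite_eq]
    simp [hi]
    ring

/-- **Divergence theorem** on the sphere for the tangential projection of a constant field. -/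
theorem sphere_div_single (F : EuclideanSpace ℝ (Fin n) → ℝ)
    (F' : EuclideanSpace ℝ (Fin n) → EuclideanSpace ℝ (Fin n) →L[ℝ] ℝ)
    (hF : ∀ y ∈ Metric.sphere (0 : EuclideanSpace ℝ (Fin n)) 1, HasFDerivAt F (F' y) y)
    (hF' : ContinuousOn F' (Metric.sphere (0 : EuclideanSpace ℝ (Fin n)) 1)) (k : Fin n) :
    ∫ y : UnitSphere n, F' y (EuclideanSpace.single k (1 : ℝ)
        - (y : EuclideanSpace ℝ (Fin n)) k • (y : EuclideanSpace ℝ (Fin n))) ∂sphereLaw n
      = ((n : ℝ) - 1) * ∫ y : UnitSphere n, (y : EuclideanSpace ℝ (Fin n)) k * F y ∂sphereLaw n := by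
  have hcF : ContinuousOn F (Metric.sphere (0 : EuclideanSpace ℝ (Fin n)) 1) :=
    fun y hy => (hF y hy).continuousAt.continuousWithinAt
  have hcFS : Continuous fun y : UnitSphere n => F y :=
    continuousOn_iff_continuous_domRestrict.1 hcF
  have hcF'S : Continuous fun y : UnitSphere n => F' y :=
    continuousOn_iff_continuous_domRestrict.1 hF'
  have hco : ∀ l : Fin n, Continuous fun y : UnitSphere n => (y : EuclideanSpace ℝ (Fin n)) l :=
    fun l => by fun_prop
  have hstep : ∀ l ∈ Finset.univ.erase k, ∫ y : UnitSphere n,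
      (- (y : EuclideanSpace ℝ (Fin n)) l) * F' y (gen k l y) ∂sphereLaw n
      = ∫ y : UnitSphere n, (y : EuclideanSpace ℝ (Fin n)) k * F y ∂sphereLaw n := by
    intro l hl
    have hkl : k ≠ l := (Finset.ne_of_mem_erase hl).symm
    have hG := integral_gen hkl (fun y => y l * F y)
      (fun y => y l • F' y + F y • (EuclideanSpace.proj l : EuclideanSpace ℝ (Fin n) →L[ℝ] ℝ))
      (fun y hy => by
        have h1 : HasFDerivAt (fun y : EuclideanSpace ℝ (Fin n) => y l)
            (EuclideanSpace.proj l : EuclideanSpace ℝ (Fin n) →L[ℝ] ℝ) y :=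
          (EuclideanSpace.proj l : EuclideanSpace ℝ (Fin n) →L[ℝ] ℝ).hasFDerivAt
        exact h1.mul (hF y hy))
      (by
        have hc1 : ContinuousOn (fun y : EuclideanSpace ℝ (Fin n) => y l)
            (Metric.sphere (0 : EuclideanSpace ℝ (Fin n)) 1) :=
          (by fun_prop : Continuous fun y : EuclideanSpace ℝ (Fin n) => y l).continuousOn
        exact ContinuousOn.add (ContinuousOn.fun_smul hc1 hF')
          (ContinuousOn.fun_smul hcF continuousOn_const))
    have e1 : ∀ y : UnitSphere n, ((y : EuclideanSpace ℝ (Fin n)) l • F' y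
        + F y • (EuclideanSpace.proj l : EuclideanSpace ℝ (Fin n) →L[ℝ] ℝ)) (gen k l y)
        = (y : EuclideanSpace ℝ (Fin n)) l * F' y (gen k l y)
          + (y : EuclideanSpace ℝ (Fin n)) k * F y := by
      intro y
      have : gen k l (y : EuclideanSpace ℝ (Fin n)) l = (y : EuclideanSpace ℝ (Fin n)) k := by
        simp [gen, hkl.symm]
      simp [this]
      ring
    simp only [e1] at hG
    have i1 : Integrable (fun y : UnitSphere n =>
        (y : EuclideanSpace ℝ (Fin n)) l * F' y (gen k l y)) (sphereLaw n) :=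
      integrable_sphere ((hco l).mul
        (hcF'S.clm_apply ((continuous_gen k l).comp continuous_subtype_val)))
    have i2 : Integrable (fun y : UnitSphere n =>
        (y : EuclideanSpace ℝ (Fin n)) k * F y) (sphereLaw n) :=
      integrable_sphere ((hco k).mul hcFS)
    rw [integral_add i1 i2] at hG
    have e2 : ∫ y : UnitSphere n, (- (y : EuclideanSpace ℝ (Fin n)) l) * F' y (gen k l y)
        ∂sphereLaw n = - ∫ y : UnitSphere n, (y : EuclideanSpace ℝ (Fin n)) l * F' y (gen k l y)
        ∂sphereLaw n := by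
      rw [← integral_neg]
      refine integral_congr_ae (Filter.Eventually.of_forall fun y => ?_)
      dsimp only; ring
    rw [e2]; linarith
  have e3 : ∀ y : UnitSphere n, F' y (EuclideanSpace.single k (1 : ℝ)
        - (y : EuclideanSpace ℝ (Fin n)) k • (y : EuclideanSpace ℝ (Fin n)))
      = ∑ l ∈ Finset.univ.erase k,
        (- (y : EuclideanSpace ℝ (Fin n)) l) * F' y (gen k l y) := by
    intro y
    rw [single_sub_eq y.2 k, map_sum]
    refine Finset.sum_congr rfl fun l _ => ?_
    rw [map_smul]; rfl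
  simp only [e3]
  rw [integral_finsetSum]
  · rw [Finset.sum_congr rfl hstep, Finset.sum_const, nsmul_eq_mul]
    congr 1
    rw [Finset.card_erase_of_mem (Finset.mem_univ k), Finset.card_univ, Fintype.card_fin]
    have hn : 1 ≤ n := lt_of_le_of_lt (Nat.zero_le _) k.2
    push_cast [Nat.cast_sub hn]
    ring
  · intro l _
    exact integrable_sphere ((hco l).neg.mul
        (hcF'S.clm_apply ((continuous_gen k l).comp continuous_subtype_val)))

/-- **Divergence theorem** on the sphere for the tangential projection of a constant field `w`. -/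
theorem sphere_div (F : EuclideanSpace ℝ (Fin n) → ℝ)
    (F' : EuclideanSpace ℝ (Fin n) → EuclideanSpace ℝ (Fin n) →L[ℝ] ℝ)
    (hF : ∀ y ∈ Metric.sphere (0 : EuclideanSpace ℝ (Fin n)) 1, HasFDerivAt F (F' y) y)
    (hF' : ContinuousOn F' (Metric.sphere (0 : EuclideanSpace ℝ (Fin n)) 1))
    (w : EuclideanSpace ℝ (Fin n)) :
    ∫ y : UnitSphere n, F' y (w - (∑ i, w i * (y : EuclideanSpace ℝ (Fin n)) i)
        • (y : EuclideanSpace ℝ (Fin n))) ∂sphereLaw n
      = ((n : ℝ) - 1) * ∫ y : UnitSphere n,
          (∑ i, w i * (y : EuclideanSpace ℝ (Fin n)) i) * F y ∂sphereLaw n := by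
  have hcF : ContinuousOn F (Metric.sphere (0 : EuclideanSpace ℝ (Fin n)) 1) :=
    fun y hy => (hF y hy).continuousAt.continuousWithinAt
  have hcFS : Continuous fun y : UnitSphere n => F y :=
    continuousOn_iff_continuous_domRestrict.1 hcF
  have hcF'S : Continuous fun y : UnitSphere n => F' y :=
    continuousOn_iff_continuous_domRestrict.1 hF'
  have hco : ∀ l : Fin n, Continuous fun y : UnitSphere n => (y : EuclideanSpace ℝ (Fin n)) l :=
    fun l => by fun_prop
  have e1 : ∀ y : UnitSphere n, F' y (w - (∑ i, w i * (y : EuclideanSpace ℝ (Fin n)) i)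
        • (y : EuclideanSpace ℝ (Fin n)))
      = ∑ k, w k * F' y (EuclideanSpace.single k (1 : ℝ)
        - (y : EuclideanSpace ℝ (Fin n)) k • (y : EuclideanSpace ℝ (Fin n))) := by
    intro y
    have hw : w = ∑ k, w k • EuclideanSpace.single k (1 : ℝ) := by
      ext i
      simp [Finset.sum_apply, Pi.single_apply]
    have h2 : w - (∑ i, w i * (y : EuclideanSpace ℝ (Fin n)) i)
        • (y : EuclideanSpace ℝ (Fin n)) = ∑ k, w k • (EuclideanSpace.single k (1 : ℝ)
        - (y : EuclideanSpace ℝ (Fin n)) k • (y : EuclideanSpace ℝ (Fin n))) := by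
      simp only [smul_sub, Finset.sum_sub_distrib, smul_smul, ← Finset.sum_smul]
      congr 1
    rw [h2, map_sum]
    refine Finset.sum_congr rfl fun l _ => ?_
    rw [map_smul]; rfl
  simp only [e1]
  rw [integral_finsetSum]
  · have e2 : ∀ k : Fin n, ∫ y : UnitSphere n, w k * F' y (EuclideanSpace.single k (1 : ℝ)
        - (y : EuclideanSpace ℝ (Fin n)) k • (y : EuclideanSpace ℝ (Fin n))) ∂sphereLaw n
        = ((n : ℝ) - 1) * ∫ y : UnitSphere n,
          w k * (y : EuclideanSpace ℝ (Fin n)) k * F y ∂sphereLaw n := by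
      intro k
      rw [integral_const_mul, sphere_div_single F F' hF hF' k]
      simp only [mul_assoc]
      rw [integral_const_mul]
      ring
    simp only [e2]
    rw [← Finset.mul_sum, ← integral_finsetSum]
    · simp only [Finset.sum_mul]
    · intro k _
      exact integrable_sphere ((continuous_const.mul (hco k)).mul hcFS)
  · intro k _
    refine integrable_sphere (continuous_const.mul (hcF'S.clm_apply ?_))
    exact continuous_const.sub ((hco k).smul continuous_subtype_val)

end Crest.Agent.R146.SphDiv_290
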