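import Crest.Agent.R146.Stat1_307

/-!
# Row 146, stationary family, part 2: the profile `W`

For `0 < ν < 1/2` the equation `W'' + (z + 2ν(W - z)) W' - W = 0` has a solution on the whole line
with `max 0 z ≤ W ≤ (z + sqrt(z²+1/(1-ν)))/2` and `0 ≤ W' ≤ 1`.
-/

namespace Crest.Agent.R146.Stat2_307

open Set Filter Topology Metric Stat1_307
open scoped NNReal

/-- truncation to `[lo, hi]` -/
noncomputable def clip (lo hi x : ℝ) : ℝ := max lo (min x hi)

lemma clip_of_mem {lo hi x : ℝ} (h : x ∈ Icc lo hi) : clip lo hi x = x := by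
  rw [clip, min_eq_left h.2, max_eq_right h.1]

lemma clip_of_le {lo hi x : ℝ} (hlh : lo ≤ hi) (h : x ≤ lo) : clip lo hi x = lo := by
  rw [clip, min_eq_left (h.trans hlh), max_eq_left h]

lemma clip_of_ge {lo hi x : ℝ} (hlh : lo ≤ hi) (h : hi ≤ x) : clip lo hi x = hi := by
  rw [clip, min_eq_right h, max_eq_right hlh]

lemma clip_mem {lo hi : ℝ} (hlh : lo ≤ hi) (x : ℝ) : clip lo hi x ∈ Icc lo hi :=
  ⟨le_max_left _ _, max_le hlh (min_le_right _ _)⟩

lemma abs_clip_sub_le (lo hi x y : ℝ) : |clip lo hi x - clip lo hi y| ≤ |x - y| := by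
  unfold clip
  refine (abs_max_sub_max_le_max _ _ _ _).trans ?_
  refine max_le (by simp) ?_
  refine (abs_min_sub_min_le_max _ _ _ _).trans ?_
  exact max_le le_rfl (by simp)

lemma continuous_clip (lo hi : ℝ) : Continuous (clip lo hi) := by
  unfold clip; fun_prop

/-! ## the upper barrier -/

/-- `r = sqrt (z² + 1/(1-ν))` -/
noncomputable def rr (ν z : ℝ) : ℝ := Real.sqrt (z ^ 2 + 1 / (1 - ν))

/-- upper barrier -/
noncomputable def Wp (ν z : ℝ) : ℝ := (z + rr ν z) / 2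

variable {ν : ℝ}

lemma kap_pos (hν : ν < 1 / 2) : 0 < 1 / (1 - ν) := by
  apply one_div_pos.2; linarith

lemma kap_le (hν : ν < 1 / 2) : 1 / (1 - ν) ≤ 2 := by
  rw [div_le_iff₀ (by linarith)]; linarith

lemma rr_sq (hν : ν < 1 / 2) (z : ℝ) : rr ν z ^ 2 = z ^ 2 + 1 / (1 - ν) :=
  Real.sq_sqrt (by have := kap_pos hν; positivity)

lemma rr_pos (hν : ν < 1 / 2) (z : ℝ) : 0 < rr ν z :=
  Real.sqrt_pos.2 (by have := kap_pos hν; positivity)

lemma abs_lt_rr (hν : ν < 1 / 2) (z : ℝ) : |z| < rr ν z := by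
  have h1 := rr_sq hν z
  have h2 := kap_pos hν
  refine abs_lt_of_sq_lt_sq ?_ (rr_pos hν z).le
  rw [h1]; linarith

lemma rr_le (hν : ν < 1 / 2) {z T : ℝ} (h : |z| ≤ T) : rr ν z ≤ T + 2 := by
  have hT : 0 ≤ T := (abs_nonneg z).trans h
  have h1 := rr_sq hν z
  have h2 := kap_le hν
  have h3 : z ^ 2 ≤ T ^ 2 := sq_le_sq.2 (by rwa [abs_of_nonneg hT])
  nlinarith [rr_pos hν z]

lemma hasDerivAt_rr (hν : ν < 1 / 2) (z : ℝ) : HasDerivAt (rr ν) (z / rr ν z) z := by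
  have h1 : HasDerivAt (fun z : ℝ => z ^ 2 + 1 / (1 - ν)) (2 * z) z := by
    have h := (hasDerivAt_pow 2 z).add_const (1 / (1 - ν))
    simpa using h
  have h2 := h1.sqrt (by have := kap_pos hν; positivity)
  have h3 : 2 * z / (2 * Real.sqrt (z ^ 2 + 1 / (1 - ν))) = z / rr ν z := by
    rw [rr, mul_div_mul_left _ _ (by norm_num)]
  rw [h3] at h2
  exact h2

/-- first derivative of the barrier -/
noncomputable def Wp1 (ν z : ℝ) : ℝ := (1 + z / rr ν z) / 2

/-- second derivative of the barrier -/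
noncomputable def Wp2 (ν z : ℝ) : ℝ := 1 / (1 - ν) / (2 * rr ν z ^ 3)

lemma hasDerivAt_Wp (hν : ν < 1 / 2) (z : ℝ) : HasDerivAt (Wp ν) (Wp1 ν z) z := by
  have h := ((hasDerivAt_id z).add (hasDerivAt_rr hν z)).div_const 2
  exact h

lemma hasDerivAt_Wp1 (hν : ν < 1 / 2) (z : ℝ) : HasDerivAt (Wp1 ν) (Wp2 ν z) z := by
  have hr := rr_pos hν z
  have h := (((hasDerivAt_id z).div (hasDerivAt_rr hν z) hr.ne').const_add 1).div_const 2
  refine HasDerivAt.congr_deriv h ?_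
  have h1 := rr_sq hν z
  have h2 : 1 / (1 - ν) = rr ν z ^ 2 - z ^ 2 := by rw [h1]; ring
  simp only [Wp2, id]
  rw [h2]
  field_simp

lemma Wp_pos (hν : ν < 1 / 2) (z : ℝ) : 0 < Wp ν z := by
  have h := abs_lt_rr hν z
  unfold Wp
  linarith [neg_abs_le z]

lemma lt_Wp (hν : ν < 1 / 2) (z : ℝ) : z < Wp ν z := by
  have h := abs_lt_rr hν z
  unfold Wp
  linarith [le_abs_self z]

lemma Wp_lt (hν : ν < 1 / 2) {z T : ℝ} (h : |z| ≤ T) : Wp ν z < T + 2 := by
  have h1 := rr_le hν h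
  unfold Wp
  linarith [le_abs_self z]

lemma Wp1_pos (hν : ν < 1 / 2) (z : ℝ) : 0 < Wp1 ν z := by
  have h := abs_lt_rr hν z
  have hr := rr_pos hν z
  unfold Wp1
  have h1 : -1 < z / rr ν z := by
    rw [lt_div_iff₀ hr]; linarith [neg_abs_le z]
  linarith

lemma Wp1_lt (hν : ν < 1 / 2) (z : ℝ) : Wp1 ν z < 1 := by
  have h := abs_lt_rr hν z
  have hr := rr_pos hν z
  unfold Wp1
  have h1 : z / rr ν z < 1 := by
    rw [div_lt_iff₀ hr]; linarith [le_abs_self z]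
  linarith

/-- supersolution property -/
lemma Wp_super (hν : ν < 1 / 2) (z : ℝ) :
    Wp2 ν z + (z + 2 * ν * (Wp ν z - z)) * Wp1 ν z - Wp ν z ≤ 0 := by
  have hr := rr_pos hν z
  have h1 := rr_sq hν z
  have hk := kap_pos hν
  have hν1 : (1 - ν) ≠ 0 := by linarith
  have e1 : (z + 2 * ν * (Wp ν z - z)) * Wp1 ν z - Wp ν z = - (1 / (2 * rr ν z)) := by
    have h2 : (1 - ν) * (rr ν z ^ 2 - z ^ 2) = 1 := by rw [h1]; field_simp; ring
    unfold Wp Wp1
    field_simp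
    linear_combination (-1) * h2
  have e2 : Wp2 ν z ≤ 1 / (2 * rr ν z) := by
    unfold Wp2
    rw [div_le_div_iff₀ (by positivity) (by positivity)]
    have h3 : 1 / (1 - ν) ≤ rr ν z ^ 2 := by rw [h1]; nlinarith [sq_nonneg z]
    nlinarith
  linarith

end Crest.Agent.R146.Stat2_307
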