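import Crest.Agent.R146.Stat2_307

/-!
# Row 146, stationary family, part 3: boundary value problem for the profile

For every `n` a solution of `W'' + (z + 2ν(W - z)) W' - W = 0` on `[-n, n]` with
`max 0 z ≤ W ≤ Wp` and `0 ≤ W' ≤ 1`.
-/

namespace Crest.Agent.R146.Stat3_307

open Set Filter Topology Metric Stat1_307 Stat2_307
open scoped NNReal

/-- second component of the clipped field -/
noncomputable def gg (ν M t y p : ℝ) : ℝ :=
  -(t + 2 * ν * (clip (-1) M y - t)) * clip 0 1 p + clip (-1) M y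

/-- the clipped field -/
noncomputable def FF (ν M R : ℝ) (t : ℝ) (x : ℝ × ℝ) : ℝ × ℝ :=
  (clip (-R) R x.2, gg ν M t x.1 x.2)

variable {ν M R T : ℝ}

lemma gg_abs (hν0 : 0 < ν) (hν : ν < 1 / 2) (hM : 0 ≤ M) {t : ℝ} (ht : |t| ≤ T) (y p : ℝ) :
    |gg ν M t y p| ≤ 2 * (T + M + 1) := by
  have h1 := clip_mem (lo := -1) (hi := M) (by linarith) y
  have h2 := clip_mem (lo := 0) (hi := 1) (by norm_num) p
  set c := clip (-1) M y
  set q := clip 0 1 p
  have hc : |c| ≤ M + 1 := abs_le.2 ⟨by linarith [h1.1], by linarith [h1.2]⟩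
  have hA : |t + 2 * ν * (c - t)| ≤ T + (M + 1) := by
    have e : t + 2 * ν * (c - t) = (1 - 2 * ν) * t + 2 * ν * c := by ring
    rw [e]
    refine (abs_add_le _ _).trans ?_
    rw [abs_mul, abs_mul, abs_of_pos (by linarith : 0 < 1 - 2 * ν),
      abs_of_pos (by linarith : 0 < 2 * ν)]
    have h3 := abs_nonneg t
    have h4 := abs_nonneg c
    nlinarith
  have hq : |q| ≤ 1 := abs_le.2 ⟨by linarith [h2.1], h2.2⟩
  have : |gg ν M t y p| ≤ |t + 2 * ν * (c - t)| * |q| + |c| := by
    show |-(t + 2 * ν * (c - t)) * q + c| ≤ _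
    refine (abs_add_le _ _).trans ?_
    rw [abs_mul, abs_neg]
  have h5 := abs_nonneg (t + 2 * ν * (c - t))
  have h6 : |t + 2 * ν * (c - t)| * |q| ≤ |t + 2 * ν * (c - t)| * 1 :=
    mul_le_mul_of_nonneg_left hq h5
  have h7 := abs_nonneg t
  linarith

lemma gg_lip (hν0 : 0 < ν) (hν : ν < 1 / 2) (hM : 0 ≤ M) {t : ℝ} (ht : |t| ≤ T)
    (y p y' p' : ℝ) :
    |gg ν M t y p - gg ν M t y' p'| ≤ (T + M + 1) * |p - p'| + 2 * |y - y'| := by
  have h1 := clip_mem (lo := -1) (hi := M) (by linarith) y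
  have h2' := clip_mem (lo := 0) (hi := 1) (by norm_num) p'
  have h3 := abs_clip_sub_le (-1) M y y'
  have h4 := abs_clip_sub_le 0 1 p p'
  unfold gg
  set c := clip (-1) M y
  set q := clip 0 1 p
  set c' := clip (-1) M y'
  set q' := clip 0 1 p'
  have hc : |c| ≤ M + 1 := abs_le.2 ⟨by linarith [h1.1], by linarith [h1.2]⟩
  have hA : |t + 2 * ν * (c - t)| ≤ T + (M + 1) := by
    have e : t + 2 * ν * (c - t) = (1 - 2 * ν) * t + 2 * ν * c := by ring
    rw [e]
    refine (abs_add_le _ _).trans ?_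
    rw [abs_mul, abs_mul, abs_of_pos (by linarith : 0 < 1 - 2 * ν),
      abs_of_pos (by linarith : 0 < 2 * ν)]
    have h3 := abs_nonneg t
    have h4 := abs_nonneg c
    nlinarith
  have e : -(t + 2 * ν * (c - t)) * q + c - (-(t + 2 * ν * (c' - t)) * q' + c')
      = -((t + 2 * ν * (c - t)) * (q - q')) + (c - c') * (1 - 2 * ν * q') := by ring
  rw [e]
  refine (abs_add_le _ _).trans ?_
  rw [abs_neg, abs_mul, abs_mul]
  have h5 : |1 - 2 * ν * q'| ≤ 1 := by
    rw [abs_le]; constructor <;> nlinarith [h2'.1, h2'.2]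
  have h6 : |t + 2 * ν * (c - t)| * |q - q'| ≤ (T + M + 1) * |p - p'| := by
    apply mul_le_mul (by linarith) h4 (abs_nonneg _)
    linarith [abs_nonneg t]
  have h7 : |c - c'| * |1 - 2 * ν * q'| ≤ |y - y'| * 1 :=
    mul_le_mul h3 h5 (abs_nonneg _) (abs_nonneg _)
  linarith [abs_nonneg (y - y')]

lemma FF_norm (hν0 : 0 < ν) (hν : ν < 1 / 2) (hM : 0 ≤ M) (hR : 0 ≤ R) {t : ℝ} (ht : |t| ≤ T)
    (x : ℝ × ℝ) : ‖FF ν M R t x‖ ≤ max R (2 * (T + M + 1)) := by
  unfold FF
  rw [Prod.norm_def]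
  apply max_le_max
  · have h := clip_mem (lo := -R) (hi := R) (by linarith) x.2
    rw [Real.norm_eq_abs, abs_le]
    exact ⟨h.1, h.2⟩
  · exact gg_abs hν0 hν hM ht _ _

lemma FF_lip (hν0 : 0 < ν) (hν : ν < 1 / 2) (hM : 0 ≤ M) {t : ℝ} (ht : |t| ≤ T) :
    LipschitzWith (Real.toNNReal (T + M + 3)) (FF ν M R t) := by
  refine LipschitzWith.of_dist_le_mul fun x y => ?_
  have hT : 0 ≤ T := (abs_nonneg t).trans ht
  rw [Real.coe_toNNReal _ (by linarith), Prod.dist_eq, Prod.dist_eq]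
  have h1 : dist x.2 y.2 ≤ max (dist x.1 y.1) (dist x.2 y.2) := le_max_right _ _
  have h2 : dist x.1 y.1 ≤ max (dist x.1 y.1) (dist x.2 y.2) := le_max_left _ _
  set m := max (dist x.1 y.1) (dist x.2 y.2)
  have h0 : 0 ≤ m := dist_nonneg.trans h1
  apply max_le
  · have h3 := abs_clip_sub_le (-R) R x.2 y.2
    rw [Real.dist_eq] at h1 ⊢
    show |clip (-R) R x.2 - clip (-R) R y.2| ≤ _
    nlinarith
  · have h3 := gg_lip (T := T) hν0 hν hM ht x.1 x.2 y.1 y.2
    rw [Real.dist_eq] at h1 h2 ⊢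
    show |gg ν M t x.1 x.2 - gg ν M t y.1 y.2| ≤ _
    nlinarith

lemma FF_cont (x : ℝ × ℝ) : Continuous (fun t => FF ν M R t x) := by
  unfold FF gg
  fun_prop

/-- **BVP for the clipped system** -/
theorem exists_clipped (hν0 : 0 < ν) (hν : ν < 1 / 2) {n : ℝ} (hn : 1 ≤ n) {M : ℝ} (hM : 0 ≤ M) :
    ∃ y p : ℝ → ℝ, y (-n) = 0 ∧ y n = n ∧
      (∀ t ∈ Icc (-n) n, HasDerivAt y (p t) t) ∧
      (∀ t ∈ Icc (-n) n, HasDerivAt p (gg ν M t (y t) (p t)) t) := by
  set T := n + 1 with hT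
  set B := 2 * (T + M + 1) with hB
  have hB0 : 0 ≤ B := by positivity
  set S := 2 * n * B + 1 with hS
  set R := S + 2 * n * B + 1 with hR
  have hR0 : 0 ≤ R := by positivity
  have hTabs : ∀ t ∈ Icc (-T) T, |t| ≤ T := fun t ht => abs_le.2 ⟨ht.1, ht.2⟩
  have hnT : -n ∈ Icc (-T) T := ⟨by linarith, by linarith⟩
  have hex : ∀ s : ℝ, ∃ x : ℝ → ℝ × ℝ, x (-n) = (0, s) ∧
      ∀ t ∈ Ioo (-T) T, HasDerivAt x (FF ν M R t (x t)) t := fun s =>
    exists_sol hnT (fun t ht => FF_lip hν0 hν hM (hTabs t ht))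
      (fun x => (FF_cont x).continuousOn)
      (fun t ht x => FF_norm hν0 hν hM hR0 (hTabs t ht) x) (0, s)
  choose X hX0 hX using hex
  have hsub : Icc (-n) n ⊆ Ioo (-T) T := fun t ht => ⟨by linarith [ht.1], by linarith [ht.2]⟩
  have hnn : n ∈ Icc (-n) n := ⟨by linarith, le_rfl⟩
  -- continuity in the slope
  have hcont : Continuous fun s => (X s n).1 := by
    have hl : LipschitzWith (Real.toNNReal (Real.exp ((Real.toNNReal (T + M + 3) : ℝ) * (n - -n))))
        (fun s => (X s n).1) := by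
      refine LipschitzWith.of_dist_le_mul fun s s' => ?_
      have h := dist_le_right (f := FF ν M R) (s := fun _ => univ) (a := -n) (b := n)
        (K := Real.toNNReal (T + M + 3)) (y := X s) (z := X s')
        (fun t ht => (FF_lip hν0 hν hM (hTabs t (Ioo_subset_Icc_self (hsub ht)))).lipschitzOnWith)
        (fun t ht => ⟨hX s t (hsub ht), trivial⟩) (fun t ht => ⟨hX s' t (hsub ht), trivial⟩) n hnn
      rw [hX0, hX0] at h
      have h1 : dist ((0 : ℝ), s) ((0 : ℝ), s') = dist s s' := by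
        rw [Prod.dist_eq]; simp
      rw [h1] at h
      rw [Real.coe_toNNReal _ (Real.exp_nonneg _), mul_comm]
      refine le_trans ?_ h
      rw [Prod.dist_eq]
      exact le_max_left _ _
    exact hl.continuous
  -- bound on the slope
  have hd1 : ∀ s, ∀ t ∈ Icc (-n) n, HasDerivAt (fun t => (X s t).1) (clip (-R) R (X s t).2) t :=
    fun s t ht => (hX s t (hsub ht)).fst
  have hd2 : ∀ s, ∀ t ∈ Icc (-n) n, HasDerivAt (fun t => (X s t).2)
      (gg ν M t (X s t).1 (X s t).2) t :=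
    fun s t ht => (hX s t (hsub ht)).snd
  have hslope : ∀ s, ∀ t ∈ Icc (-n) n, |(X s t).2 - s| ≤ 2 * n * B := by
    intro s t ht
    have h1 := (convex_Icc (-n) n).norm_image_sub_le_of_norm_hasDerivWithin_le
      (f := fun t => (X s t).2) (C := B)
      (fun t ht => (hd2 s t ht).hasDerivWithinAt)
      (fun t ht => gg_abs hν0 hν hM (hTabs t (Ioo_subset_Icc_self (hsub ht))) _ _)
      (⟨le_rfl, by linarith⟩ : -n ∈ Icc (-n) n) ht
    rw [hX0, Real.norm_eq_abs, Real.norm_eq_abs] at h1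
    have h2 : |t - -n| ≤ 2 * n := by
      rw [abs_of_nonneg (by linarith [ht.1])]; linarith [ht.2]
    nlinarith
  have hclip : ∀ s ∈ Icc (-S) S, ∀ t ∈ Icc (-n) n, clip (-R) R (X s t).2 = (X s t).2 := by
    intro s hs t ht
    have h1 := abs_le.1 (hslope s t ht)
    exact clip_of_mem ⟨by linarith [hs.1, h1.1], by linarith [hs.2, h1.2]⟩
  have hIn : Icc (-n) n ∈ 𝓝[>] (-n) := Icc_mem_nhdsGT (by linarith)
  -- value at the two ends of the slope interval
  have hSS : -S ≤ S := by have : 0 ≤ S := by positivity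
                          linarith
  have hhigh : n ≤ (X S n).1 := by
    have hm : MonotoneOn (fun t => (X S t).1 - t) (Icc (-n) n) := by
      apply monotoneOn_of_deriv_nonneg (convex_Icc _ _)
      · exact fun t ht => ((hd1 S t ht).sub (hasDerivAt_id t)).continuousAt.continuousWithinAt
      · intro t ht
        rw [interior_Icc] at ht
        exact ((hd1 S t ⟨ht.1.le, ht.2.le⟩).sub
          (hasDerivAt_id t)).differentiableAt.differentiableWithinAt
      · intro t ht
        rw [interior_Icc] at ht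
        have ht' : t ∈ Icc (-n) n := ⟨ht.1.le, ht.2.le⟩
        have h := (hd1 S t ht').sub (hasDerivAt_id t)
        have e : deriv (fun t => (X S t).1 - t) t = clip (-R) R (X S t).2 - 1 := h.deriv
        rw [e, hclip S ⟨hSS, le_rfl⟩ t ht']
        have h1 := abs_le.1 (hslope S t ht')
        linarith
    have h := hm ⟨le_rfl, by linarith⟩ hnn (by linarith : -n ≤ n)
    have h' : (X S (-n)).1 - (-n) ≤ (X S n).1 - n := h
    rw [hX0] at h'
    simp only at h'
    linarith
  have hlow : (X (-S) n).1 ≤ n := by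
    have hm : AntitoneOn (fun t => (X (-S) t).1) (Icc (-n) n) := by
      apply antitoneOn_of_deriv_nonpos (convex_Icc _ _)
      · exact fun t ht => (hd1 (-S) t ht).continuousAt.continuousWithinAt
      · intro t ht
        rw [interior_Icc] at ht
        exact (hd1 (-S) t ⟨ht.1.le, ht.2.le⟩).differentiableAt.differentiableWithinAt
      · intro t ht
        rw [interior_Icc] at ht
        have ht' : t ∈ Icc (-n) n := ⟨ht.1.le, ht.2.le⟩
        rw [(hd1 (-S) t ht').deriv, hclip (-S) ⟨le_rfl, hSS⟩ t ht']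
        have h1 := abs_le.1 (hslope (-S) t ht')
        linarith
    have h := hm ⟨le_rfl, by linarith⟩ hnn (by linarith : -n ≤ n)
    have h' : (X (-S) n).1 ≤ (X (-S) (-n)).1 := h
    rw [hX0] at h'
    simp only at h'
    linarith
  obtain ⟨s, hs, hsn⟩ := intermediate_value_Icc hSS hcont.continuousOn ⟨hlow, hhigh⟩
  refine ⟨fun t => (X s t).1, fun t => (X s t).2, ?_, hsn, fun t ht => ?_, fun t ht => ?_⟩
  · show (X s (-n)).1 = 0
    rw [hX0]
  · have h := hd1 s t ht
    rw [hclip s hs t ht] at h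
    exact h
  · exact hd2 s t ht

/-- value of the clipped field when no clip is active -/
lemma gg_eq {t y p : ℝ} (hy : y ∈ Icc (-1) M) (hp : p ∈ Icc (0 : ℝ) 1) :
    gg ν M t y p = -(t + 2 * ν * (y - t)) * p + y := by
  rw [gg, clip_of_mem hy, clip_of_mem hp]

/-- **BVP for the profile** -/
theorem exists_bvp (hν0 : 0 < ν) (hν : ν < 1 / 2) {n : ℝ} (hn : 1 ≤ n) :
    ∃ y p : ℝ → ℝ, ∀ t ∈ Icc (-n) n, HasDerivAt y (p t) t ∧
      HasDerivAt p (-(t + 2 * ν * (y t - t)) * p t + y t) t ∧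
      0 ≤ y t ∧ t ≤ y t ∧ y t ≤ Wp ν t ∧ 0 ≤ p t ∧ p t ≤ 1 := by
  obtain ⟨y, p, hyl, hyr, hy, hp⟩ := exists_clipped hν0 hν hn (M := n + 2) (by linarith)
  set M := n + 2 with hM
  have hcy : ContinuousOn y (Icc (-n) n) := fun t ht => (hy t ht).continuousAt.continuousWithinAt
  have hcp : ContinuousOn p (Icc (-n) n) := fun t ht => (hp t ht).continuousAt.continuousWithinAt
  have hne : (Icc (-n) n).Nonempty := ⟨0, by linarith, by linarith⟩
  have hln : -n ∈ Icc (-n) n := ⟨le_rfl, by linarith⟩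
  have hrn : n ∈ Icc (-n) n := ⟨by linarith, le_rfl⟩
  -- (a) `0 ≤ y`
  have ha : ∀ t ∈ Icc (-n) n, 0 ≤ y t := by
    obtain ⟨x, hx, hmin⟩ := isCompact_Icc.exists_isMinOn hne hcy
    have hx0 : 0 ≤ y x := by
      by_contra hcon
      push Not at hcon
      have h1 : x ≠ -n := by rintro rfl; linarith
      have h2 : x ≠ n := by rintro rfl; linarith
      have hx' : x ∈ Ioo (-n) n := ⟨lt_of_le_of_ne hx.1 (Ne.symm h1), lt_of_le_of_ne hx.2 h2⟩
      obtain ⟨h3, h4⟩ := second_deriv_nonneg hx' (fun t ht => hy t (Ioo_subset_Icc_self ht))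
        (hp x hx) (fun t ht => hmin (Ioo_subset_Icc_self ht))
      rw [gg, h3, clip_of_le (by norm_num) le_rfl] at h4
      have h5 : clip (-1) M (y x) < 0 := by
        unfold clip
        exact max_lt (by norm_num) ((min_le_left _ _).trans_lt hcon)
      linarith
    exact fun t ht => hx0.trans (hmin ht)
  -- (b) `z ≤ y`
  have hb : ∀ t ∈ Icc (-n) n, t ≤ y t := by
    obtain ⟨x, hx, hmin⟩ := isCompact_Icc.exists_isMinOn hne (hcy.sub continuousOn_id)
    have hmin' : ∀ t ∈ Icc (-n) n, y x - x ≤ y t - t := fun t ht => hmin ht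
    have hx0 : 0 ≤ y x - x := by
      by_contra hcon
      push Not at hcon
      have h1 : x ≠ -n := by rintro rfl; linarith
      have h2 : x ≠ n := by rintro rfl; linarith
      have hx' : x ∈ Ioo (-n) n := ⟨lt_of_le_of_ne hx.1 (Ne.symm h1), lt_of_le_of_ne hx.2 h2⟩
      obtain ⟨h3, h4⟩ := second_deriv_nonneg (g := fun t => y t - t) (g1 := fun t => p t - 1) hx'
        (fun t ht => (hy t (Ioo_subset_Icc_self ht)).sub (hasDerivAt_id t))
        ((hp x hx).sub_const 1) (fun t ht => hmin' t (Ioo_subset_Icc_self ht))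
      have h3' : p x = 1 := by linarith
      have hyx := ha x hx
      rw [gg_eq (by constructor <;> linarith [hx.2]) (by rw [h3']; constructor <;> norm_num),
        h3'] at h4
      nlinarith
    intro t ht
    have := hmin' t ht
    linarith
  -- (c) `y ≤ Wp`
  have hcW : ContinuousOn (fun t => y t - Wp ν t) (Icc (-n) n) :=
    hcy.sub (fun t _ => (hasDerivAt_Wp hν t).continuousAt.continuousWithinAt)
  have hWM : ∀ t ∈ Icc (-n) n, Wp ν t < M := fun t ht => Wp_lt hν (abs_le.2 ⟨ht.1, ht.2⟩)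
  have hc : ∀ t ∈ Icc (-n) n, y t ≤ Wp ν t := by
    obtain ⟨x, hx, hmax⟩ := isCompact_Icc.exists_isMaxOn hne hcW
    have hmax' : ∀ t ∈ Icc (-n) n, y t - Wp ν t ≤ y x - Wp ν x := fun t ht => hmax ht
    have hx0 : y x - Wp ν x ≤ 0 := by
      by_contra hcon
      push Not at hcon
      have h1 : x ≠ -n := by
        rintro rfl
        have := Wp_pos hν (-n)
        linarith
      have h2 : x ≠ n := by
        rintro rfl
        have := lt_Wp hν x
        linarith
      have hx' : x ∈ Ioo (-n) n := ⟨lt_of_le_of_ne hx.1 (Ne.symm h1), lt_of_le_of_ne hx.2 h2⟩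
      obtain ⟨h3, h4⟩ := second_deriv_nonpos (g := fun t => y t - Wp ν t)
        (g1 := fun t => p t - Wp1 ν t) hx'
        (fun t ht => (hy t (Ioo_subset_Icc_self ht)).sub (hasDerivAt_Wp hν t))
        ((hp x hx).sub (hasDerivAt_Wp1 hν x)) (fun t ht => hmax' t (Ioo_subset_Icc_self ht))
      have h3' : p x = Wp1 ν x := by linarith
      have hq0 := Wp1_pos hν x
      have hq1 := Wp1_lt hν x
      rw [gg, h3', clip_of_mem ⟨hq0.le, hq1.le⟩] at h4
      have hsup := Wp_super hν x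
      have hcl : Wp ν x < clip (-1) M (y x) := by
        unfold clip
        exact lt_max_of_lt_right (lt_min (by linarith) (hWM x hx))
      set c := clip (-1) M (y x)
      have : (c - Wp ν x) * (1 - 2 * ν * Wp1 ν x) ≤ 0 := by
        have e : (c - Wp ν x) * (1 - 2 * ν * Wp1 ν x) =
          (-(x + 2 * ν * (c - x)) * Wp1 ν x + c - Wp2 ν x) +
          (Wp2 ν x + (x + 2 * ν * (Wp ν x - x)) * Wp1 ν x - Wp ν x) := by ring
        rw [e]; linarith
      have h6 : 0 < (c - Wp ν x) * (1 - 2 * ν * Wp1 ν x) :=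
        mul_pos (by linarith) (by nlinarith)
      linarith
    intro t ht
    have := hmax' t ht
    linarith
  have hmem : ∀ t ∈ Icc (-n) n, y t ∈ Icc (-1) M := fun t ht =>
    ⟨by linarith [ha t ht], by linarith [hc t ht, hWM t ht]⟩
  have hlt : -n < n := by linarith
  -- (d) `p ≤ 1`
  have hd : ∀ t ∈ Icc (-n) n, p t ≤ 1 := by
    have hpn : p n ≤ 1 := by
      have h := deriv_nonneg_left (g := fun t => -(y t - t)) (x := n) (a := -n) hlt
        ((hy n hrn).sub (hasDerivAt_id n)).neg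
        (fun t ht => by have := hb t ht; rw [hyr]; linarith)
      linarith
    have key : ∀ ε > 0, ∀ t ∈ Icc (-n) n, p t ≤ 1 + ε * (n - t) := by
      intro ε hε
      have hcP : ContinuousOn (fun t => p t + ε * (t - n)) (Icc (-n) n) := by fun_prop
      obtain ⟨x, hx, hmax⟩ := isCompact_Icc.exists_isMaxOn hne hcP
      have hmax' : ∀ t ∈ Icc (-n) n, p t + ε * (t - n) ≤ p x + ε * (x - n) :=
        fun t ht => hmax ht
      have hx1 : p x + ε * (x - n) ≤ 1 := by
        rcases eq_or_lt_of_le hx.2 with h | h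
        · rw [h]; linarith
        · by_contra hcon
          push Not at hcon
          have hpx : 1 < p x := by nlinarith
          have hder : HasDerivAt (fun t => p t + ε * (t - n)) (gg ν M x (y x) (p x) + ε * 1) x :=
            (hp x hx).add (((hasDerivAt_id x).sub_const n).const_mul ε)
          have h1 := deriv_nonpos_right h hder
            (fun t ht => hmax' t ⟨by linarith [hx.1, ht.1], ht.2⟩)
          rw [gg, clip_of_ge (by norm_num) hpx.le, clip_of_mem (hmem x hx)] at h1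
          have h2 := hb x hx
          nlinarith
      intro t ht
      have := hmax' t ht
      linarith
    intro t ht
    apply le_of_forall_pos_le_add
    intro ε hε
    have h1 := key (ε / (2 * n)) (by positivity) t ht
    have h2 : ε / (2 * n) * (n - t) ≤ ε := by
      rw [div_mul_eq_mul_div, div_le_iff₀ (by linarith)]
      nlinarith [ht.1]
    linarith
  -- (e) `0 ≤ p`
  have he : ∀ t ∈ Icc (-n) n, 0 ≤ p t := by
    have hpn : 0 ≤ p (-n) := by
      have h := deriv_nonpos_right (g := fun t => -(y t)) (x := -n) (b := n) hlt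
        (hy (-n) hln).neg
        (fun t ht => by have := ha t ht; rw [hyl]; linarith)
      linarith
    have key : ∀ ε > 0, ∀ t ∈ Icc (-n) n, -p t ≤ ε * (t + n) := by
      intro ε hε
      have hcP : ContinuousOn (fun t => -p t - ε * (t + n)) (Icc (-n) n) := by fun_prop
      obtain ⟨x, hx, hmax⟩ := isCompact_Icc.exists_isMaxOn hne hcP
      have hmax' : ∀ t ∈ Icc (-n) n, -p t - ε * (t + n) ≤ -p x - ε * (x + n) :=
        fun t ht => hmax ht
      have hx1 : -p x - ε * (x + n) ≤ 0 := by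
        rcases eq_or_lt_of_le hx.1 with h | h
        · rw [← h]; linarith
        · by_contra hcon
          push Not at hcon
          have hpx : p x < 0 := by nlinarith
          have hder : HasDerivAt (fun t => -p t - ε * (t + n))
              (-gg ν M x (y x) (p x) - ε * 1) x :=
            (hp x hx).neg.sub (((hasDerivAt_id x).add_const n).const_mul ε)
          have h1 := deriv_nonneg_left h hder
            (fun t ht => hmax' t ⟨ht.1, by linarith [hx.2, ht.2]⟩)
          rw [gg, clip_of_le (by norm_num) hpx.le, clip_of_mem (hmem x hx)] at h1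
          have h2 := ha x hx
          nlinarith
      intro t ht
      have := hmax' t ht
      linarith
    intro t ht
    have h3 : -p t ≤ 0 := by
      apply le_of_forall_pos_le_add
      intro ε hε
      have h1 := key (ε / (2 * n)) (by positivity) t ht
      have h2 : ε / (2 * n) * (t + n) ≤ ε := by
        rw [div_mul_eq_mul_div, div_le_iff₀ (by linarith)]
        nlinarith [ht.2]
      linarith
    linarith
  refine ⟨y, p, fun t ht => ⟨hy t ht, ?_, ha t ht, hb t ht, hc t ht, he t ht, hd t ht⟩⟩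
  have h := hp t ht
  rw [gg_eq (hmem t ht) ⟨he t ht, hd t ht⟩] at h
  exact h

/-! ## the profile on the whole line -/

/-- the true field -/
noncomputable def GG (ν : ℝ) (t : ℝ) (x : ℝ × ℝ) : ℝ × ℝ :=
  (x.2, -(t + 2 * ν * (x.1 - t)) * x.2 + x.1)

/-- **Existence of the profile** for every constant `0 < ν < 1/2`. -/
theorem exists_profile (hν0 : 0 < ν) (hν : ν < 1 / 2) :
    ∃ W W1 : ℝ → ℝ, ∀ t, HasDerivAt W (W1 t) t ∧
      HasDerivAt W1 (-(t + 2 * ν * (W t - t)) * W1 t + W t) t ∧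
      0 ≤ W t ∧ t ≤ W t ∧ W t ≤ Wp ν t ∧ 0 ≤ W1 t ∧ W1 t ≤ 1 := by
  have hex : ∀ n : ℕ, ∃ y p : ℝ → ℝ, ∀ t ∈ Icc (-((n : ℝ) + 1)) (n + 1), HasDerivAt y (p t) t ∧
      HasDerivAt p (-(t + 2 * ν * (y t - t)) * p t + y t) t ∧
      0 ≤ y t ∧ t ≤ y t ∧ y t ≤ Wp ν t ∧ 0 ≤ p t ∧ p t ≤ 1 := fun n =>
    exists_bvp hν0 hν (by linarith [(Nat.cast_nonneg n : (0 : ℝ) ≤ n)])
  choose y p hyp using hex
  set s : ℝ → Set (ℝ × ℝ) := fun t => Icc (max 0 t) (Wp ν t) ×ˢ Icc 0 1 with hs
  have hlim := exists_limit (f := GG ν) (s := s) (y := fun n t => (y n t, p n t))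
    (fun t => isClosed_Icc.prod isClosed_Icc) (isCompact_Icc.prod isCompact_Icc) ?_ ?_
  · obtain ⟨w, hw, -⟩ := hlim
    refine ⟨fun t => (w t).1, fun t => (w t).2, fun t => ?_⟩
    obtain ⟨h1, h2⟩ := hw t
    have h3 := (mem_prod.1 h2).1
    have h4 := (mem_prod.1 h2).2
    exact ⟨h1.fst, h1.snd, (le_max_left _ _).trans h3.1, (le_max_right _ _).trans h3.1,
      h3.2, h4.1, h4.2⟩
  · intro N
    refine ⟨Real.toNNReal (2 * N + 4), fun t ht => ?_⟩
    refine LipschitzOnWith.of_dist_le_mul fun x hx x' hx' => ?_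
    rw [Real.coe_toNNReal _ (by positivity), Prod.dist_eq, Prod.dist_eq]
    have h1 : dist x.2 x'.2 ≤ max (dist x.1 x'.1) (dist x.2 x'.2) := le_max_right _ _
    have h2 : dist x.1 x'.1 ≤ max (dist x.1 x'.1) (dist x.2 x'.2) := le_max_left _ _
    set m := max (dist x.1 x'.1) (dist x.2 x'.2)
    have h0 : 0 ≤ m := dist_nonneg.trans h1
    have htN : |t| ≤ N := abs_le.2 ⟨ht.1.le, ht.2.le⟩
    have hx1 := (mem_prod.1 hx).1
    have hx2 := (mem_prod.1 hx').2
    have hWN := Wp_lt hν htN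
    have hN : (0 : ℝ) ≤ N := Nat.cast_nonneg N
    rw [Real.dist_eq] at h1 h2
    apply max_le
    · show dist x.2 x'.2 ≤ _
      rw [Real.dist_eq]
      nlinarith
    · show dist (-(t + 2 * ν * (x.1 - t)) * x.2 + x.1) (-(t + 2 * ν * (x'.1 - t)) * x'.2 + x'.1) ≤ _
      rw [Real.dist_eq]
      have e : -(t + 2 * ν * (x.1 - t)) * x.2 + x.1 - (-(t + 2 * ν * (x'.1 - t)) * x'.2 + x'.1)
        = -((t + 2 * ν * (x.1 - t)) * (x.2 - x'.2)) + (x.1 - x'.1) * (1 - 2 * ν * x'.2) := by
        ring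
      rw [e]
      refine (abs_add_le _ _).trans ?_
      rw [abs_neg, abs_mul, abs_mul]
      have h5 : |1 - 2 * ν * x'.2| ≤ 1 := by
        rw [abs_le]; constructor <;> nlinarith [hx2.1, hx2.2]
      have hA : |t + 2 * ν * (x.1 - t)| ≤ 2 * N + 2 := by
        have e : t + 2 * ν * (x.1 - t) = (1 - 2 * ν) * t + 2 * ν * x.1 := by ring
        have hx0 : 0 ≤ x.1 := (le_max_left _ _).trans hx1.1
        have hxx : x.1 ≤ N + 2 := by linarith [hx1.2]
        rw [e]
        refine (abs_add_le _ _).trans ?_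
        rw [abs_mul, abs_mul, abs_of_pos (by linarith : 0 < 1 - 2 * ν),
          abs_of_pos (by linarith : 0 < 2 * ν), abs_of_nonneg hx0]
        have h3 := abs_nonneg t
        nlinarith
      have h6 : |t + 2 * ν * (x.1 - t)| * |x.2 - x'.2| ≤ (2 * N + 2) * m :=
        mul_le_mul hA h1 (abs_nonneg _) (by positivity)
      have h7 : |x.1 - x'.1| * |1 - 2 * ν * x'.2| ≤ m * 1 :=
        mul_le_mul h2 h5 (abs_nonneg _) h0
      nlinarith
  · intro n t ht
    obtain ⟨h1, h2, h3, h4, h5, h6, h7⟩ := hyp n t ⟨by linarith [ht.1], by linarith [ht.2]⟩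
    exact ⟨h1.prodMk h2, mem_prod.2 ⟨⟨max_le h3 h4, h5⟩, h6, h7⟩⟩

end Crest.Agent.R146.Stat3_307
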