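import Crest.Agent.R146.Stat3_307

/-!
# Row 146, stationary family, part 4: properties of the profile

Strict inequalities `0 < W' < 1`, `W'' > 0`, a bound for `W''`, tails.
-/

namespace Crest.Agent.R146.Stat4_307

open Set Filter Topology Metric Stat1_307 Stat2_307 Stat3_307
open scoped NNReal

/-- A profile: global solution of `W'' + (z+2ν(W-z)) W' - W = 0` between the barriers. -/
structure IsProf (ν : ℝ) (W W1 : ℝ → ℝ) : Prop where
  d0 : ∀ t, HasDerivAt W (W1 t) t
  d1 : ∀ t, HasDerivAt W1 (-(t + 2 * ν * (W t - t)) * W1 t + W t) t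
  nonneg : ∀ t, 0 ≤ W t
  le_W : ∀ t, t ≤ W t
  W_le : ∀ t, W t ≤ Wp ν t
  p_nonneg : ∀ t, 0 ≤ W1 t
  p_le : ∀ t, W1 t ≤ 1

theorem exists_isProf {ν : ℝ} (hν0 : 0 < ν) (hν : ν < 1 / 2) : ∃ W W1, IsProf ν W W1 := by
  obtain ⟨W, W1, h⟩ := exists_profile hν0 hν
  exact ⟨W, W1, fun t => (h t).1, fun t => (h t).2.1, fun t => (h t).2.2.1,
    fun t => (h t).2.2.2.1, fun t => (h t).2.2.2.2.1, fun t => (h t).2.2.2.2.2.1,
    fun t => (h t).2.2.2.2.2.2⟩

/-- drift -/
noncomputable def Af (ν : ℝ) (W : ℝ → ℝ) (t : ℝ) : ℝ := t + 2 * ν * (W t - t)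

/-- derivative of the drift -/
noncomputable def A1f (ν : ℝ) (W1 : ℝ → ℝ) (t : ℝ) : ℝ := 1 + 2 * ν * (W1 t - 1)

/-- second derivative of the profile -/
noncomputable def W2f (ν : ℝ) (W W1 : ℝ → ℝ) (t : ℝ) : ℝ := -(Af ν W t) * W1 t + W t

/-- third derivative of the profile -/
noncomputable def W3f (ν : ℝ) (W W1 : ℝ → ℝ) (t : ℝ) : ℝ :=
  -(Af ν W t) * W2f ν W W1 t + 2 * ν * (1 - W1 t) * W1 t

namespace IsProf

variable {ν : ℝ} {W W1 : ℝ → ℝ}

lemma hA (h : IsProf ν W W1) (t : ℝ) : HasDerivAt (Af ν W) (A1f ν W1 t) t := by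
  have h1 := (hasDerivAt_id t).add (((h.d0 t).sub (hasDerivAt_id t)).const_mul (2 * ν))
  exact h1

lemma hW1 (h : IsProf ν W W1) (t : ℝ) : HasDerivAt W1 (W2f ν W W1 t) t := h.d1 t

lemma hA1 (h : IsProf ν W W1) (t : ℝ) : HasDerivAt (A1f ν W1) (2 * ν * W2f ν W W1 t) t := by
  have h1 := (((h.hW1 t).sub_const 1).const_mul (2 * ν)).const_add 1
  exact h1

lemma hW2 (h : IsProf ν W W1) (t : ℝ) : HasDerivAt (W2f ν W W1) (W3f ν W W1 t) t := by
  have h1 := ((h.hA t).neg.mul (h.hW1 t)).add (h.d0 t)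
  refine h1.congr_deriv ?_
  simp only [W3f, A1f, Pi.neg_apply]
  ring

lemma cW (h : IsProf ν W W1) : Continuous W :=
  continuous_iff_continuousAt.2 fun t => (h.d0 t).continuousAt

lemma cW1 (h : IsProf ν W W1) : Continuous W1 :=
  continuous_iff_continuousAt.2 fun t => (h.d1 t).continuousAt

lemma cA (h : IsProf ν W W1) : Continuous (Af ν W) :=
  continuous_iff_continuousAt.2 fun t => (h.hA t).continuousAt

lemma cA1 (h : IsProf ν W W1) : Continuous (A1f ν W1) :=
  continuous_iff_continuousAt.2 fun t => (h.hA1 t).continuousAt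

lemma cW2 (h : IsProf ν W W1) : Continuous (W2f ν W W1) :=
  continuous_iff_continuousAt.2 fun t => (h.hW2 t).continuousAt

/-- Uniqueness of the Cauchy problem. -/
theorem eq_of_eq {V V1 : ℝ → ℝ} (hν0 : 0 < ν) (hν : ν < 1 / 2) (h : IsProf ν W W1)
    (hV : ∀ t, HasDerivAt V (V1 t) t)
    (hV1 : ∀ t, HasDerivAt V1 (-(t + 2 * ν * (V t - t)) * V1 t + V t) t)
    (hVb : ∀ t, |V t| ≤ |t| + 2) (hV1b : ∀ t, V1 t ∈ Icc (0 : ℝ) 1)
    {x : ℝ} (h0 : W x = V x) (h1 : W1 x = V1 x) (t : ℝ) : W t = V t := by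
  obtain ⟨N, hN⟩ := exists_nat_gt (max |x| |t|)
  have hNx : |x| < N := (le_max_left _ _).trans_lt hN
  have hNt : |t| < N := (le_max_right _ _).trans_lt hN
  have hN0 : (0 : ℝ) ≤ N := Nat.cast_nonneg N
  set s : ℝ → Set (ℝ × ℝ) := fun _ => Icc (-((N : ℝ) + 2)) (N + 2) ×ˢ Icc 0 1
  have hL : ∀ r : ℝ, |r| ≤ N → LipschitzOnWith (Real.toNNReal (2 * N + 4)) (GG ν r) (s r) := by
    intro r hr
    refine LipschitzOnWith.of_dist_le_mul fun y hy y' hy' => ?_
    rw [Real.coe_toNNReal _ (by positivity), Prod.dist_eq, Prod.dist_eq]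
    have h1 : dist y.2 y'.2 ≤ max (dist y.1 y'.1) (dist y.2 y'.2) := le_max_right _ _
    have h2 : dist y.1 y'.1 ≤ max (dist y.1 y'.1) (dist y.2 y'.2) := le_max_left _ _
    set m := max (dist y.1 y'.1) (dist y.2 y'.2)
    have h0 : 0 ≤ m := dist_nonneg.trans h1
    have hx1 := (mem_prod.1 hy).1
    have hx2 := (mem_prod.1 hy').2
    rw [Real.dist_eq] at h1 h2
    apply max_le
    · show dist y.2 y'.2 ≤ _
      rw [Real.dist_eq]
      nlinarith
    · show dist (-(r + 2 * ν * (y.1 - r)) * y.2 + y.1) (-(r + 2 * ν * (y'.1 - r)) * y'.2 + y'.1) ≤ _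
      rw [Real.dist_eq]
      have e : -(r + 2 * ν * (y.1 - r)) * y.2 + y.1 - (-(r + 2 * ν * (y'.1 - r)) * y'.2 + y'.1)
        = -((r + 2 * ν * (y.1 - r)) * (y.2 - y'.2)) + (y.1 - y'.1) * (1 - 2 * ν * y'.2) := by
        ring
      rw [e]
      refine (abs_add_le _ _).trans ?_
      rw [abs_neg, abs_mul, abs_mul]
      have h5 : |1 - 2 * ν * y'.2| ≤ 1 := by
        rw [abs_le]; constructor <;> nlinarith [hx2.1, hx2.2]
      have hA : |r + 2 * ν * (y.1 - r)| ≤ 2 * N + 2 := by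
        have e : r + 2 * ν * (y.1 - r) = (1 - 2 * ν) * r + 2 * ν * y.1 := by ring
        have hyb : |y.1| ≤ N + 2 := abs_le.2 ⟨hx1.1, hx1.2⟩
        rw [e]
        refine (abs_add_le _ _).trans ?_
        rw [abs_mul, abs_mul, abs_of_pos (by linarith : 0 < 1 - 2 * ν),
          abs_of_pos (by linarith : 0 < 2 * ν)]
        have h3 := abs_nonneg r
        have h4 := abs_nonneg y.1
        nlinarith
      have h6 : |r + 2 * ν * (y.1 - r)| * |y.2 - y'.2| ≤ (2 * N + 2) * m :=
        mul_le_mul hA h1 (abs_nonneg _) (by positivity)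
      have h7 : |y.1 - y'.1| * |1 - 2 * ν * y'.2| ≤ m * 1 :=
        mul_le_mul h2 h5 (abs_nonneg _) h0
      nlinarith
  have hsol1 : ∀ r : ℝ, |r| ≤ N → HasDerivAt (fun r => (W r, W1 r)) (GG ν r (W r, W1 r)) r ∧
      (W r, W1 r) ∈ s r := by
    intro r hr
    refine ⟨(h.d0 r).prodMk (h.d1 r), mem_prod.2 ⟨⟨?_, ?_⟩, h.p_nonneg r, h.p_le r⟩⟩
    · have := h.nonneg r
      show -((N : ℝ) + 2) ≤ W r
      linarith
    · have := h.W_le r
      have h2 := Wp_lt hν hr
      show W r ≤ N + 2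
      linarith
  have hsol2 : ∀ r : ℝ, |r| ≤ N → HasDerivAt (fun r => (V r, V1 r)) (GG ν r (V r, V1 r)) r ∧
      (V r, V1 r) ∈ s r := by
    intro r hr
    have h1 := abs_le.1 (hVb r)
    refine ⟨(hV r).prodMk (hV1 r), mem_prod.2 ⟨⟨?_, ?_⟩, (hV1b r).1, (hV1b r).2⟩⟩
    · show -((N : ℝ) + 2) ≤ V r
      linarith
    · show V r ≤ N + 2
      linarith
  have hd : dist ((fun r => (W r, W1 r)) x) ((fun r => (V r, V1 r)) x) = 0 := by
    simp only [h0, h1, dist_self]
  have hfin : dist (W t, W1 t) (V t, V1 t) ≤ 0 := by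
    rcases le_total x t with hxt | hxt
    · have h3 := dist_le_right (f := GG ν) (s := s) (a := x) (b := t)
        (y := fun r => (W r, W1 r)) (z := fun r => (V r, V1 r))
        (fun r hr => hL r (abs_le.2 ⟨by linarith [hr.1, (abs_lt.1 hNx).1],
          by linarith [hr.2, (abs_lt.1 hNt).2]⟩))
        (fun r hr => hsol1 r (abs_le.2 ⟨by linarith [hr.1, (abs_lt.1 hNx).1],
          by linarith [hr.2, (abs_lt.1 hNt).2]⟩))
        (fun r hr => hsol2 r (abs_le.2 ⟨by linarith [hr.1, (abs_lt.1 hNx).1],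
          by linarith [hr.2, (abs_lt.1 hNt).2]⟩)) t ⟨hxt, le_rfl⟩
      rw [hd, zero_mul] at h3
      exact h3
    · have h3 := dist_le_left (f := GG ν) (s := s) (a := t) (b := x)
        (y := fun r => (W r, W1 r)) (z := fun r => (V r, V1 r))
        (fun r hr => hL r (abs_le.2 ⟨by linarith [hr.1, (abs_lt.1 hNt).1],
          by linarith [hr.2, (abs_lt.1 hNx).2]⟩))
        (fun r hr => hsol1 r (abs_le.2 ⟨by linarith [hr.1, (abs_lt.1 hNt).1],
          by linarith [hr.2, (abs_lt.1 hNx).2]⟩))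
        (fun r hr => hsol2 r (abs_le.2 ⟨by linarith [hr.1, (abs_lt.1 hNt).1],
          by linarith [hr.2, (abs_lt.1 hNx).2]⟩)) t ⟨le_rfl, hxt⟩
      rw [hd, zero_mul] at h3
      exact h3
  have h4 := dist_le_zero.1 hfin
  exact (Prod.mk.injEq _ _ _ _ ▸ h4).1

/-- `W' > 0`. -/
theorem p_pos (hν0 : 0 < ν) (hν : ν < 1 / 2) (h : IsProf ν W W1) (x : ℝ) : 0 < W1 x := by
  rcases eq_or_lt_of_le (h.p_nonneg x) with h0 | h0
  swap
  · exact h0
  exfalso
  have hmin : IsLocalMin W1 x := Eventually.of_forall fun t => by rw [← h0]; exact h.p_nonneg t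
  have h2 : -(x + 2 * ν * (W x - x)) * W1 x + W x = 0 := hmin.hasDerivAt_eq_zero (h.d1 x)
  rw [← h0, mul_zero, zero_add] at h2
  have h3 := h.eq_of_eq (V := fun _ => 0) (V1 := fun _ => 0) hν0 hν
    (fun t => hasDerivAt_const t 0) (fun t => by simpa using hasDerivAt_const t (0 : ℝ))
    (fun t => by simp; positivity) (fun t => ⟨le_rfl, by norm_num⟩) h2 h0.symm 1
  have h4 := h.le_W 1
  rw [h3] at h4
  norm_num at h4

/-- `W' < 1`. -/
theorem p_lt (hν0 : 0 < ν) (hν : ν < 1 / 2) (h : IsProf ν W W1) (x : ℝ) : W1 x < 1 := by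
  rcases eq_or_lt_of_le (h.p_le x) with h0 | h0
  swap
  · exact h0
  exfalso
  have hmax : IsLocalMax W1 x := Eventually.of_forall fun t => by rw [h0]; exact h.p_le t
  have h2 : -(x + 2 * ν * (W x - x)) * W1 x + W x = 0 := hmax.hasDerivAt_eq_zero (h.d1 x)
  rw [h0] at h2
  have h2' : W x = x := by
    have : (1 - 2 * ν) * (W x - x) = 0 := by linarith
    rcases mul_eq_zero.1 this with h5 | h5 <;> linarith
  have h3 := h.eq_of_eq (V := fun t => t) (V1 := fun _ => 1) hν0 hν
    (fun t => hasDerivAt_id t) (fun t => by simpa using hasDerivAt_const t (1 : ℝ))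
    (fun t => by linarith) (fun t => ⟨by norm_num, le_rfl⟩) h2' h0 (-1)
  have h4 := h.nonneg (-1)
  rw [h3] at h4
  norm_num at h4

/-- integrating factor -/
lemma exists_factor (h : IsProf ν W W1) : ∃ m : ℝ → ℝ, (∀ t, 0 < m t) ∧
    ∀ t, HasDerivAt m (m t * Af ν W t) t := by
  refine ⟨fun t => Real.exp (∫ r in (0 : ℝ)..t, Af ν W r), fun t => Real.exp_pos _, fun t => ?_⟩
  have h1 := (h.cA.integral_hasStrictDerivAt 0 t).hasDerivAt
  exact h1.exp

/-- `W'' > 0`: the profile is strictly convex. -/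
theorem W2_pos (hν0 : 0 < ν) (hν : ν < 1 / 2) (h : IsProf ν W W1) (x : ℝ) :
    0 < W2f ν W W1 x := by
  obtain ⟨m, hm0, hm⟩ := h.exists_factor
  have hmono : StrictMono fun t => m t * W2f ν W W1 t := by
    apply strictMono_of_deriv_pos
    intro t
    have hdd : deriv (fun t => m t * W2f ν W W1 t) t =
      m t * Af ν W t * W2f ν W W1 t + m t * W3f ν W W1 t := ((hm t).mul (h.hW2 t)).deriv
    rw [hdd]
    have e : m t * Af ν W t * W2f ν W W1 t + m t * W3f ν W W1 t =
        m t * (2 * ν * (1 - W1 t) * W1 t) := by unfold W3f; ring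
    rw [e]
    have h1 := h.p_pos hν0 hν t
    have h2 := h.p_lt hν0 hν t
    have h3 := hm0 t
    have h4 : 0 < 1 - W1 t := by linarith
    positivity
  by_contra hcon
  push Not at hcon
  -- `W2 < 0` on `(-∞, x)`
  have hneg : ∀ t < x, W2f ν W W1 t < 0 := by
    intro t ht
    have h1 := hmono ht
    have h2 : m x * W2f ν W W1 x ≤ 0 := mul_nonpos_of_nonneg_of_nonpos (hm0 x).le hcon
    have h3 : m t * W2f ν W W1 t < 0 := lt_of_lt_of_le h1 h2
    by_contra h4
    push Not at h4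
    have h5 := mul_nonneg (hm0 t).le h4
    linarith
  -- `W1` is antitone there
  have hanti : AntitoneOn W1 (Iic x) := by
    apply antitoneOn_of_deriv_nonpos (convex_Iic x) h.cW1.continuousOn
    · exact fun t _ => (h.hW1 t).differentiableAt.differentiableWithinAt
    · intro t ht
      rw [interior_Iic] at ht
      rw [(h.hW1 t).deriv]
      exact (hneg t ht).le
  set δ := W1 x with hδ
  have hδ0 : 0 < δ := h.p_pos hν0 hν x
  have hge : ∀ t ≤ x, δ ≤ W1 t := fun t ht => hanti ht (le_refl x) ht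
  have hmW : MonotoneOn (fun t => W t - δ * t) (Iic x) := by
    apply monotoneOn_of_deriv_nonneg (convex_Iic x)
    · exact (h.cW.sub (continuous_const.mul continuous_id)).continuousOn
    · exact fun t _ => ((h.d0 t).sub ((hasDerivAt_id t).const_mul δ)).differentiableAt.differentiableWithinAt
    · intro t ht
      rw [interior_Iic] at ht
      have e : deriv (fun t => W t - δ * t) t = W1 t - δ * 1 :=
        ((h.d0 t).sub ((hasDerivAt_id t).const_mul δ)).deriv
      rw [e]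
      linarith [hge t (le_of_lt ht)]
  set t := min x (x - (W x + 1) / δ) with ht
  have htx : t ≤ x := min_le_left _ _
  have ht2 : t ≤ x - (W x + 1) / δ := min_le_right _ _
  have h5 := hmW (show t ∈ Iic x from htx) (show x ∈ Iic x from le_refl x) htx
  have h6 : W t ≤ W x - δ * (x - t) := by
    have h5' : W t - δ * t ≤ W x - δ * x := h5
    linarith
  have h7 : W x + 1 ≤ δ * (x - t) := by
    have h8 : (W x + 1) / δ ≤ x - t := by linarith
    rw [div_le_iff₀ hδ0] at h8
    linarith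
  have h9 := h.nonneg t
  linarith

/-- monotonicity of `W'` -/
theorem p_strictMono (hν0 : 0 < ν) (hν : ν < 1 / 2) (h : IsProf ν W W1) : StrictMono W1 :=
  strictMono_of_deriv_pos fun t => by rw [(h.hW1 t).deriv]; exact h.W2_pos hν0 hν t

/-- `W(0) < 1`. -/
lemma W_zero_lt (hν : ν < 1 / 2) (h : IsProf ν W W1) : W 0 < 1 := by
  have h1 := h.W_le 0
  have h2 := Wp_lt hν (z := 0) (T := 0) (by simp)
  have h3 : Wp ν 0 < 1 := by
    have h4 := rr_sq hν 0
    have h5 := kap_le hν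
    have h6 := rr_pos hν 0
    unfold Wp
    nlinarith
  linarith

/-- tangent line inequality -/
lemma tangent (hν0 : 0 < ν) (hν : ν < 1 / 2) (h : IsProf ν W W1) (t r : ℝ) :
    W t + W1 t * (r - t) ≤ W r := by
  have hm := (h.p_strictMono hν0 hν).monotone
  have hc : Continuous fun s => W s - W1 t * s := h.cW.sub (continuous_const.mul continuous_id)
  have hd : ∀ s, HasDerivAt (fun s => W s - W1 t * s) (W1 s - W1 t * 1) s := fun s =>
    (h.d0 s).sub ((hasDerivAt_id s).const_mul (W1 t))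
  have key : W t - W1 t * t ≤ W r - W1 t * r := by
    rcases le_total t r with htr | htr
    · have h1 : MonotoneOn (fun s => W s - W1 t * s) (Ici t) := by
        apply monotoneOn_of_deriv_nonneg (convex_Ici t) hc.continuousOn
        · exact fun s _ => (hd s).differentiableAt.differentiableWithinAt
        · intro s hs
          rw [interior_Ici] at hs
          rw [(hd s).deriv]
          linarith [hm (le_of_lt hs)]
      exact h1 (show t ∈ Ici t from le_refl t) (show r ∈ Ici t from htr) htr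
    · have h1 : AntitoneOn (fun s => W s - W1 t * s) (Iic t) := by
        apply antitoneOn_of_deriv_nonpos (convex_Iic t) hc.continuousOn
        · exact fun s _ => (hd s).differentiableAt.differentiableWithinAt
        · intro s hs
          rw [interior_Iic] at hs
          rw [(hd s).deriv]
          linarith [hm (le_of_lt hs)]
      exact h1 (show r ∈ Iic t from htr) (show t ∈ Iic t from le_refl t) htr
  linarith

/-- `A ≥ z`. -/
lemma le_A (hν0 : 0 < ν) (h : IsProf ν W W1) (t : ℝ) : t ≤ Af ν W t := by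
  have h1 := h.le_W t
  unfold Af
  nlinarith

/-- `W'' ≤ W(0)`. -/
theorem W2_le (hν0 : 0 < ν) (hν : ν < 1 / 2) (h : IsProf ν W W1) (t : ℝ) :
    W2f ν W W1 t ≤ W 0 := by
  have h1 := h.tangent hν0 hν t 0
  have h2 := h.le_A hν0 t
  have h3 := h.p_nonneg t
  unfold W2f
  nlinarith

theorem W2_lt_one (hν0 : 0 < ν) (hν : ν < 1 / 2) (h : IsProf ν W W1) (t : ℝ) :
    W2f ν W W1 t < 1 := (h.W2_le hν0 hν t).trans_lt (h.W_zero_lt hν)

/-! ### strict barriers and tails -/

lemma Wp_neg_le (hν : ν < 1 / 2) {t : ℝ} (ht : t < 0) : Wp ν t ≤ 1 / (2 * (-t)) := by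
  have h1 := rr_sq hν t
  have h2 := kap_le hν
  have h3 := rr_pos hν t
  have h4 := abs_lt_rr hν t
  rw [abs_of_neg ht] at h4
  unfold Wp
  rw [le_div_iff₀ (by linarith)]
  nlinarith

lemma Wp_pos_le (hν : ν < 1 / 2) {t : ℝ} (ht : 0 < t) : Wp ν t - t ≤ 1 / (2 * t) := by
  have h1 := rr_sq hν t
  have h2 := kap_le hν
  have h3 := rr_pos hν t
  have h4 := abs_lt_rr hν t
  rw [abs_of_pos ht] at h4
  unfold Wp
  rw [le_div_iff₀ (by linarith)]
  nlinarith

theorem tendsto_atBot (hν : ν < 1 / 2) (h : IsProf ν W W1) : Tendsto W atBot (𝓝 0) := by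
  have h1 : Tendsto (fun t : ℝ => 1 / (2 * (-t))) atBot (𝓝 0) := by
    have h2 : Tendsto (fun t : ℝ => 2 * (-t)) atBot atTop :=
      tendsto_neg_atBot_atTop.const_mul_atTop (by norm_num)
    exact h2.inv_tendsto_atTop.congr fun t => (one_div _).symm
  refine tendsto_of_tendsto_of_tendsto_of_le_of_le' tendsto_const_nhds h1
    (Eventually.of_forall h.nonneg) ?_
  filter_upwards [eventually_lt_atBot 0] with t ht
  exact (h.W_le t).trans (Wp_neg_le hν ht)

theorem tendsto_atTop (hν : ν < 1 / 2) (h : IsProf ν W W1) :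
    Tendsto (fun t => W t - t) atTop (𝓝 0) := by
  have h1 : Tendsto (fun t : ℝ => 1 / (2 * t)) atTop (𝓝 0) := by
    have h2 : Tendsto (fun t : ℝ => 2 * t) atTop atTop :=
      tendsto_id.const_mul_atTop (by norm_num)
    exact h2.inv_tendsto_atTop.congr fun t => (one_div _).symm
  refine tendsto_of_tendsto_of_tendsto_of_le_of_le' tendsto_const_nhds h1
    (Eventually.of_forall fun t => sub_nonneg.2 (h.le_W t)) ?_
  filter_upwards [eventually_gt_atTop 0] with t ht
  exact (sub_le_sub_right (h.W_le t) t).trans (Wp_pos_le hν ht)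

end IsProf

end Crest.Agent.R146.Stat4_307
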