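import Crest.Agent.R146.Stat4_307

/-!
# Row 146, stationary family, part 5: the Riccati equation of the stationary law

For a drift `A` with `a < A' < 1`, `0 < A'' < M A'` there are `λ ∈ [a, 1]` and a bounded positive
global solution of `Y' = Y² + A Y - A' + λ`; it decays like `1/|z|` at both ends.
-/

namespace Crest.Agent.R146.Stat5_307

open Set Filter Topology Metric Stat1_307 Stat2_307
open scoped NNReal

/-- Hypotheses on the drift. -/
structure Drift (A A1 A2 : ℝ → ℝ) (a M Z : ℝ) : Prop where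
  hA : ∀ t, HasDerivAt A (A1 t) t
  hA1 : ∀ t, HasDerivAt A1 (A2 t) t
  a_pos : 0 < a
  M_pos : 0 < M
  Z_pos : 1 ≤ Z
  lt_A1 : ∀ t, a < A1 t
  A1_lt : ∀ t, A1 t < 1
  A2_pos : ∀ t, 0 < A2 t
  A2_lt : ∀ t, A2 t < M * A1 t
  right : ∀ t, 0 < t → t ≤ A t
  left : ∀ t, t ≤ -Z → A t + M ≤ a / 2 * t

variable {A A1 A2 : ℝ → ℝ} {a M Z : ℝ}

lemma Drift.cA (h : Drift A A1 A2 a M Z) : Continuous A :=
  continuous_iff_continuousAt.2 fun t => (h.hA t).continuousAt

lemma Drift.cA1 (h : Drift A A1 A2 a M Z) : Continuous A1 :=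
  continuous_iff_continuousAt.2 fun t => (h.hA1 t).continuousAt

/-- first component of the clipped Riccati field -/
noncomputable def gR (A A1 : ℝ → ℝ) (M t x l : ℝ) : ℝ :=
  clip 0 M x ^ 2 + A t * clip 0 M x - A1 t + clip 0 1 l

/-- clipped Riccati field -/
noncomputable def FR (A A1 : ℝ → ℝ) (M t : ℝ) (x : ℝ × ℝ) : ℝ × ℝ := (gR A A1 M t x.1 x.2, 0)

lemma FR_norm (h : Drift A A1 A2 a M Z) {C t : ℝ} (hC : |A t| ≤ C) (x : ℝ × ℝ) :
    ‖FR A A1 M t x‖ ≤ M ^ 2 + C * M + 2 := by
  have h1 := clip_mem (lo := 0) (hi := M) h.M_pos.le x.1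
  have h2 := clip_mem (lo := 0) (hi := 1) (by norm_num) x.2
  have hC0 : 0 ≤ C := (abs_nonneg _).trans hC
  have hM := h.M_pos
  unfold FR
  rw [Prod.norm_def]
  apply max_le
  · rw [Real.norm_eq_abs]
    show |clip 0 M x.1 ^ 2 + A t * clip 0 M x.1 - A1 t + clip 0 1 x.2| ≤ _
    set c := clip 0 M x.1
    set q := clip 0 1 x.2
    have h3 := abs_le.1 hC
    have h4 := h.lt_A1 t
    have h5 := h.A1_lt t
    have h6 := h.a_pos
    have e1 : A t * c ≤ C * M := mul_le_mul h3.2 h1.2 h1.1 hC0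
    have e2 : -(C * M) ≤ A t * c := by
      have : -C * M ≤ -C * c := by nlinarith [h1.1, h1.2]
      have : -C * c ≤ A t * c := mul_le_mul_of_nonneg_right h3.1 h1.1
      linarith
    have e3 : c ^ 2 ≤ M ^ 2 := pow_le_pow_left₀ h1.1 h1.2 2
    rw [abs_le]
    constructor <;> nlinarith [h2.1, h2.2, sq_nonneg c, sq_nonneg M]
  · simp only [norm_zero]
    positivity

lemma gR_lip (h : Drift A A1 A2 a M Z) {C t : ℝ} (hC : |A t| ≤ C) (x l x' l' : ℝ) :
    |gR A A1 M t x l - gR A A1 M t x' l'| ≤ (2 * M + C) * |x - x'| + |l - l'| := by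
  have h1 := clip_mem (lo := 0) (hi := M) h.M_pos.le x
  have h1' := clip_mem (lo := 0) (hi := M) h.M_pos.le x'
  have h3 := abs_clip_sub_le 0 M x x'
  have h4 := abs_clip_sub_le 0 1 l l'
  unfold gR
  set c := clip 0 M x
  set c' := clip 0 M x'
  have e : c ^ 2 + A t * c - A1 t + clip 0 1 l - (c' ^ 2 + A t * c' - A1 t + clip 0 1 l')
      = (c + c' + A t) * (c - c') + (clip 0 1 l - clip 0 1 l') := by ring
  rw [e]
  refine (abs_add_le _ _).trans ?_
  rw [abs_mul]
  have h5 : |c + c' + A t| ≤ 2 * M + C := by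
    have := abs_le.1 hC
    rw [abs_le]; constructor <;> linarith [h1.1, h1.2, h1'.1, h1'.2]
  have h6 : |c + c' + A t| * |c - c'| ≤ (2 * M + C) * |x - x'| :=
    mul_le_mul h5 h3 (abs_nonneg _) (by linarith [h.M_pos, abs_nonneg (A t)])
  linarith

lemma FR_lip (h : Drift A A1 A2 a M Z) {C t : ℝ} (hC : |A t| ≤ C) :
    LipschitzWith (Real.toNNReal (2 * M + C + 1)) (FR A A1 M t) := by
  have hM := h.M_pos
  have hC0 : 0 ≤ C := (abs_nonneg _).trans hC
  refine LipschitzWith.of_dist_le_mul fun x y => ?_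
  rw [Real.coe_toNNReal _ (by linarith), Prod.dist_eq, Prod.dist_eq]
  have h1 : dist x.2 y.2 ≤ max (dist x.1 y.1) (dist x.2 y.2) := le_max_right _ _
  have h2 : dist x.1 y.1 ≤ max (dist x.1 y.1) (dist x.2 y.2) := le_max_left _ _
  set m := max (dist x.1 y.1) (dist x.2 y.2)
  have h0 : 0 ≤ m := dist_nonneg.trans h1
  rw [Real.dist_eq] at h1 h2
  apply max_le
  · have h3 := gR_lip h hC x.1 x.2 y.1 y.2
    show dist (gR A A1 M t x.1 x.2) (gR A A1 M t y.1 y.2) ≤ _
    rw [Real.dist_eq]
    nlinarith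
  · show dist (0 : ℝ) 0 ≤ _
    rw [dist_self]
    positivity

lemma FR_cont (h : Drift A A1 A2 a M Z) (x : ℝ × ℝ) : Continuous (fun t => FR A A1 M t x) := by
  have h1 := h.cA
  have h2 := h.cA1
  unfold FR gR
  fun_prop

/-- **Shooting for the eigenvalue.** -/
theorem exists_ric_clipped (h : Drift A A1 A2 a M Z) {n : ℝ} (hn : 1 ≤ n) :
    ∃ l ∈ Icc a 1, ∃ Y : ℝ → ℝ, Y (-n) = 0 ∧ Y n = 0 ∧
      ∀ t ∈ Icc (-n) n, HasDerivAt Y (gR A A1 M t (Y t) l) t := by
  have ha := h.a_pos
  have ha1 : a ≤ 1 := (h.lt_A1 0).le.trans (h.A1_lt 0).le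
  have hM := h.M_pos
  set T := n + 1 with hT
  obtain ⟨C, hC⟩ := isCompact_Icc.exists_bound_of_continuousOn (s := Icc (-T) T)
    (f := A) h.cA.continuousOn
  have hC' : ∀ t ∈ Icc (-T) T, |A t| ≤ C := fun t ht => hC t ht
  have hnT : -n ∈ Icc (-T) T := ⟨by linarith, by linarith⟩
  have hC0 : 0 ≤ C := (abs_nonneg _).trans (hC' _ hnT)
  have hex : ∀ l : ℝ, ∃ x : ℝ → ℝ × ℝ, x (-n) = (0, l) ∧
      ∀ t ∈ Ioo (-T) T, HasDerivAt x (FR A A1 M t (x t)) t := fun l =>
    exists_sol hnT (fun t ht => FR_lip h (hC' t ht)) (fun x => (FR_cont h x).continuousOn)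
      (fun t ht x => FR_norm h (hC' t ht) x) (0, l)
  choose X hX0 hX using hex
  have hsub : Icc (-n) n ⊆ Ioo (-T) T := fun t ht => ⟨by linarith [ht.1], by linarith [ht.2]⟩
  have hnn : n ∈ Icc (-n) n := ⟨by linarith, le_rfl⟩
  have hln : -n ∈ Icc (-n) n := ⟨le_rfl, by linarith⟩
  have hne : (Icc (-n) n).Nonempty := ⟨0, by linarith, by linarith⟩
  have hcont : Continuous fun l => (X l n).1 := by
    have hl : LipschitzWith (Real.toNNReal (Real.exp ((Real.toNNReal (2 * M + C + 1) : ℝ)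
        * (n - -n)))) (fun s => (X s n).1) := by
      refine LipschitzWith.of_dist_le_mul fun s s' => ?_
      have h := dist_le_right (f := FR A A1 M) (s := fun _ => univ) (a := -n) (b := n)
        (K := Real.toNNReal (2 * M + C + 1)) (y := X s) (z := X s')
        (fun t ht => (FR_lip h (hC' t (Ioo_subset_Icc_self (hsub ht)))).lipschitzOnWith)
        (fun t ht => ⟨hX s t (hsub ht), trivial⟩) (fun t ht => ⟨hX s' t (hsub ht), trivial⟩) n hnn
      rw [hX0, hX0] at h
      have h1 : dist ((0 : ℝ), s) ((0 : ℝ), s') = dist s s' := by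
        rw [Prod.dist_eq]; simp
      rw [h1] at h
      rw [Real.coe_toNNReal _ (Real.exp_nonneg _), mul_comm]
      refine le_trans ?_ h
      rw [Prod.dist_eq]
      exact le_max_left _ _
    exact hl.continuous
  -- second component is constant
  have hsnd : ∀ l, ∀ t ∈ Icc (-n) n, (X l t).2 = l := by
    intro l t ht
    have hsd : ∀ t ∈ Icc (-n) n, HasDerivAt (fun t => (X l t).2) 0 t := fun t ht =>
      (hX l t (hsub ht)).snd
    have h1 := (convex_Icc (-n) n).norm_image_sub_le_of_norm_hasDerivWithin_le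
      (f := fun t => (X l t).2) (f' := fun _ => 0) (C := 0)
      (fun t ht => (hsd t ht).hasDerivWithinAt)
      (fun t ht => by simp) hln ht
    rw [zero_mul, norm_le_zero_iff, sub_eq_zero, hX0] at h1
    exact h1
  have hd : ∀ l, ∀ t ∈ Icc (-n) n, HasDerivAt (fun t => (X l t).1)
      (gR A A1 M t (X l t).1 l) t := by
    intro l t ht
    have h1 := (hX l t (hsub ht)).fst
    have h2 : (FR A A1 M t (X l t)).1 = gR A A1 M t (X l t).1 l := by
      show gR A A1 M t (X l t).1 (X l t).2 = _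
      rw [hsnd l t ht]
    rw [← h2]
    exact h1
  have hc : ∀ l, ContinuousOn (fun t => (X l t).1) (Icc (-n) n) := fun l t ht =>
    (hd l t ht).continuousAt.continuousWithinAt
  have hend : ∀ l, (X l (-n)).1 = 0 := fun l => by rw [hX0]
  -- upper end
  have hhigh : 0 ≤ (X 1 n).1 := by
    have key : ∀ ε > 0, -(X 1 n).1 ≤ ε * (n + n) := by
      intro ε hε
      have hcP : ContinuousOn (fun t => -(X 1 t).1 - ε * (t + n)) (Icc (-n) n) :=
        (hc 1).neg.sub (by fun_prop)
      obtain ⟨x, hx, hmax⟩ := isCompact_Icc.exists_isMaxOn hne hcP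
      have hmax' : ∀ t ∈ Icc (-n) n, -(X 1 t).1 - ε * (t + n) ≤ -(X 1 x).1 - ε * (x + n) :=
        fun t ht => hmax ht
      have hx1 : -(X 1 x).1 - ε * (x + n) ≤ 0 := by
        rcases eq_or_lt_of_le hx.1 with h' | h'
        · rw [← h', hend]; linarith
        · by_contra hcon
          push Not at hcon
          have hpx : (X 1 x).1 < 0 := by nlinarith
          have hder : HasDerivAt (fun t => -(X 1 t).1 - ε * (t + n))
              (-gR A A1 M x (X 1 x).1 1 - ε * 1) x :=
            (hd 1 x hx).neg.sub (((hasDerivAt_id x).add_const n).const_mul ε)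
          have h1 := deriv_nonneg_left h' hder
            (fun t ht => hmax' t ⟨ht.1, by linarith [hx.2, ht.2]⟩)
          rw [gR, clip_of_le hM.le hpx.le, clip_of_mem ⟨by norm_num, le_rfl⟩] at h1
          have h2 := h.A1_lt x
          nlinarith
      have := hmax' n hnn
      linarith
    have h3 : -(X 1 n).1 ≤ 0 := by
      apply le_of_forall_pos_le_add
      intro ε hε
      have h1 := key (ε / (2 * n)) (by positivity)
      have h2 : ε / (2 * n) * (n + n) = ε := by field_simp; ring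
      linarith
    linarith
  -- lower end
  have hlow : (X a n).1 ≤ 0 := by
    set k := M + C + 1 with hk
    have hcP : ContinuousOn (fun t => (X a t).1 * Real.exp (-k * t)) (Icc (-n) n) :=
      (hc a).mul (by fun_prop)
    obtain ⟨x, hx, hmax⟩ := isCompact_Icc.exists_isMaxOn hne hcP
    have hmax' : ∀ t ∈ Icc (-n) n, (X a t).1 * Real.exp (-k * t) ≤
        (X a x).1 * Real.exp (-k * x) := fun t ht => hmax ht
    have hx1 : (X a x).1 ≤ 0 := by
      rcases eq_or_lt_of_le hx.1 with h' | h'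
      · rw [← h', hend]
      · by_contra hcon
        push Not at hcon
        have hder : HasDerivAt (fun t => (X a t).1 * Real.exp (-k * t))
            (gR A A1 M x (X a x).1 a * Real.exp (-k * x) +
              (X a x).1 * (Real.exp (-k * x) * (-k * 1))) x :=
          (hd a x hx).mul (((hasDerivAt_id x).const_mul (-k)).exp)
        have h1 := deriv_nonneg_left h' hder
          (fun t ht => hmax' t ⟨ht.1, by linarith [hx.2, ht.2]⟩)
        have h2 : gR A A1 M x (X a x).1 a * Real.exp (-k * x) +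
              (X a x).1 * (Real.exp (-k * x) * (-k * 1)) =
            (gR A A1 M x (X a x).1 a - k * (X a x).1) * Real.exp (-k * x) := by ring
        rw [h2] at h1
        have h3 : 0 ≤ gR A A1 M x (X a x).1 a - k * (X a x).1 := by
          by_contra h4
          push Not at h4
          have := mul_neg_of_neg_of_pos h4 (Real.exp_pos (-k * x))
          linarith
        rw [gR, clip_of_mem ⟨ha.le, ha1⟩] at h3
        have h5 := clip_mem (lo := 0) (hi := M) hM.le (X a x).1
        have h6 : clip 0 M (X a x).1 ≤ (X a x).1 := by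
          unfold clip; exact max_le hcon.le (min_le_left _ _)
        have h7 := abs_le.1 (hC' x (Ioo_subset_Icc_self (hsub hx)))
        have h8 := h.lt_A1 x
        set c := clip 0 M (X a x).1
        have h9 : c ^ 2 + A x * c ≤ (M + C) * c := by nlinarith [h5.1, h5.2]
        have h10 : (M + C) * c ≤ (M + C) * (X a x).1 :=
          mul_le_mul_of_nonneg_left h6 (by linarith)
        nlinarith
    have h1 := hmax' n hnn
    have h2 : (X a n).1 * Real.exp (-k * n) ≤ 0 :=
      h1.trans (mul_nonpos_of_nonpos_of_nonneg hx1 (Real.exp_nonneg _))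
    by_contra h3
    push Not at h3
    have := mul_pos h3 (Real.exp_pos (-k * n))
    linarith
  obtain ⟨l, hl, hln0⟩ := intermediate_value_Icc ha1 hcont.continuousOn ⟨hlow, hhigh⟩
  exact ⟨l, hl, fun t => (X l t).1, hend l, hln0, fun t ht => hd l t ht⟩

/-- upper bound function for `Y` -/
noncomputable def bd (a M Z : ℝ) (t : ℝ) : ℝ :=
  if t ≤ -Z then min M ((2 / a + 1) / (-t)) else if 0 < t then min M ((M + 1) / t) else M

lemma bd_le (a M Z t : ℝ) : bd a M Z t ≤ M := by
  unfold bd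
  split_ifs
  · exact min_le_left _ _
  · exact min_le_left _ _
  · exact le_rfl

/-- **Riccati boundary value problem** -/
theorem exists_ric (h : Drift A A1 A2 a M Z) {n : ℝ} (hn : 1 ≤ n) :
    ∃ l ∈ Icc a 1, ∃ Y : ℝ → ℝ, ∀ t ∈ Icc (-n) n,
      HasDerivAt Y (Y t ^ 2 + A t * Y t - A1 t + l) t ∧ 0 ≤ Y t ∧ Y t ≤ bd a M Z t := by
  obtain ⟨l, hl, Y, hYl, hYr, hY⟩ := exists_ric_clipped h hn
  have ha := h.a_pos
  have hM := h.M_pos
  have hZ := h.Z_pos
  have hcY : ContinuousOn Y (Icc (-n) n) := fun t ht => (hY t ht).continuousAt.continuousWithinAt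
  have hne : (Icc (-n) n).Nonempty := ⟨0, by linarith, by linarith⟩
  have hln : -n ∈ Icc (-n) n := ⟨le_rfl, by linarith⟩
  have hrn : n ∈ Icc (-n) n := ⟨by linarith, le_rfl⟩
  have hl01 : clip 0 1 l = l := clip_of_mem ⟨by linarith [hl.1], hl.2⟩
  -- `0 ≤ Y`
  have h0 : ∀ t ∈ Icc (-n) n, 0 ≤ Y t := by
    obtain ⟨x, hx, hmin⟩ := isCompact_Icc.exists_isMinOn hne hcY
    have hx0 : 0 ≤ Y x := by
      by_contra hcon
      push Not at hcon
      have h1 : x ≠ -n := by rintro rfl; linarith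
      have h2 : x ≠ n := by rintro rfl; linarith
      have hx' : x ∈ Ioo (-n) n := ⟨lt_of_le_of_ne hx.1 (Ne.symm h1), lt_of_le_of_ne hx.2 h2⟩
      -- neighbourhood on which `Y < 0`
      have hcx : ContinuousAt Y x := (hY x hx).continuousAt
      have hev : ∀ᶠ t in 𝓝 x, Y t < 0 ∧ t ∈ Ioo (-n) n :=
        (hcx.eventually_lt_const hcon).and (Ioo_mem_nhds hx'.1 hx'.2)
      obtain ⟨δ, hδ, hball⟩ := Metric.eventually_nhds_iff.1 hev
      have hB : ∀ t ∈ Ioo (x - δ) (x + δ), Y t < 0 ∧ t ∈ Ioo (-n) n := fun t ht =>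
        hball (by rw [Real.dist_eq, abs_lt]; constructor <;> linarith [ht.1, ht.2])
      obtain ⟨h3, h4⟩ := second_deriv_nonneg (g := Y) (g1 := fun t => l - A1 t) (g2 := 0 - A2 x)
        (a := x - δ) (b := x + δ) ⟨by linarith, by linarith⟩
        (fun t ht => by
          obtain ⟨h5, h6⟩ := hB t ht
          have h7 := hY t (Ioo_subset_Icc_self h6)
          rw [gR, clip_of_le hM.le h5.le, hl01] at h7
          refine h7.congr_deriv ?_
          ring)
        ((hasDerivAt_const x l).sub (h.hA1 x))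
        (fun t ht => hmin (Ioo_subset_Icc_self (hB t ht).2))
      have := h.A2_pos x
      linarith
    exact fun t ht => hx0.trans (hmin ht)
  -- `Y ≤ M`
  have h1 : ∀ t ∈ Icc (-n) n, Y t ≤ M := by
    obtain ⟨x, hx, hmax⟩ := isCompact_Icc.exists_isMaxOn hne hcY
    have hx0 : Y x ≤ M := by
      by_contra hcon
      push Not at hcon
      have h1 : x ≠ -n := by rintro rfl; linarith
      have h2 : x ≠ n := by rintro rfl; linarith
      have hx' : x ∈ Ioo (-n) n := ⟨lt_of_le_of_ne hx.1 (Ne.symm h1), lt_of_le_of_ne hx.2 h2⟩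
      have hcx : ContinuousAt Y x := (hY x hx).continuousAt
      have hev : ∀ᶠ t in 𝓝 x, M < Y t ∧ t ∈ Ioo (-n) n :=
        (hcx.eventually_const_lt hcon).and (Ioo_mem_nhds hx'.1 hx'.2)
      obtain ⟨δ, hδ, hball⟩ := Metric.eventually_nhds_iff.1 hev
      have hB : ∀ t ∈ Ioo (x - δ) (x + δ), M < Y t ∧ t ∈ Ioo (-n) n := fun t ht =>
        hball (by rw [Real.dist_eq, abs_lt]; constructor <;> linarith [ht.1, ht.2])
      obtain ⟨h3, h4⟩ := second_deriv_nonpos (g := Y)
        (g1 := fun t => M ^ 2 + A t * M - A1 t + l) (g2 := A1 x * M - A2 x)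
        (a := x - δ) (b := x + δ) ⟨by linarith, by linarith⟩
        (fun t ht => by
          obtain ⟨h5, h6⟩ := hB t ht
          have h7 := hY t (Ioo_subset_Icc_self h6)
          rw [gR, clip_of_ge hM.le h5.le, hl01] at h7
          exact h7)
        ((((h.hA x).mul_const M).const_add (M ^ 2)).sub (h.hA1 x) |>.add_const l)
        (fun t ht => hmax (Ioo_subset_Icc_self (hB t ht).2))
      have := h.A2_lt x
      linarith
    exact fun t ht => (hmax ht).trans hx0
  have hYeq : ∀ t ∈ Icc (-n) n, HasDerivAt Y (Y t ^ 2 + A t * Y t - A1 t + l) t := by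
    intro t ht
    have h2 := hY t ht
    rw [gR, clip_of_mem ⟨h0 t ht, h1 t ht⟩, hl01] at h2
    exact h2
  -- right tail
  have hR : ∀ t ∈ Icc (-n) n, 0 < t → Y t ≤ (M + 1) / t := by
    intro t ht htpos
    rcases le_or_gt t 1 with ht1 | ht1
    · have := h1 t ht
      rw [le_div_iff₀ htpos]
      nlinarith [h0 t ht]
    have hcD : ContinuousOn (fun t => Y t - (M + 1) / t) (Icc 1 n) := by
      apply ContinuousOn.sub
      · exact hcY.mono fun s hs => ⟨by linarith [hs.1], hs.2⟩
      · apply ContinuousOn.div continuousOn_const continuousOn_id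
        intro s hs
        have := hs.1
        show s ≠ 0
        linarith
    obtain ⟨x, hx, hmax⟩ := isCompact_Icc.exists_isMaxOn ⟨1, le_rfl, hn⟩ hcD
    have hmax' : ∀ s ∈ Icc 1 n, Y s - (M + 1) / s ≤ Y x - (M + 1) / x := fun s hs => hmax hs
    have hxI : x ∈ Icc (-n) n := ⟨by linarith [hx.1], hx.2⟩
    have hx0 : (0 : ℝ) < x := by linarith [hx.1]
    have hx1 : Y x - (M + 1) / x ≤ 0 := by
      rcases eq_or_lt_of_le hx.2 with h' | h'
      · rw [h', hYr]
        have : 0 < (M + 1) / n := by positivity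
        linarith
      · by_contra hcon
        push Not at hcon
        have hder : HasDerivAt (fun t => Y t - (M + 1) / t)
            (Y x ^ 2 + A x * Y x - A1 x + l - (M + 1) * (-(x ^ 2)⁻¹)) x := by
          have h2 : HasDerivAt (fun t : ℝ => (M + 1) / t) ((M + 1) * (-(x ^ 2)⁻¹)) x :=
            (hasDerivAt_inv hx0.ne').const_mul (M + 1)
          exact (hYeq x hxI).sub h2
        have h2 := deriv_nonpos_right h' hder
          (fun s hs => hmax' s ⟨by linarith [hx.1, hs.1], hs.2⟩)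
        have h3 : (M + 1) / x < Y x := by linarith
        rw [div_lt_iff₀ hx0] at h3
        have h4 := h.right x hx0
        have h5 := h.A1_lt x
        have h6 := h0 x hxI
        have h7 : 0 < (M + 1) * (x ^ 2)⁻¹ := by positivity
        have h8 : x * Y x ≤ A x * Y x := mul_le_mul_of_nonneg_right h4 h6
        nlinarith [hl.1, sq_nonneg (Y x)]
    have h2 := hmax' t ⟨ht1.le, ht.2⟩
    linarith
  -- left tail
  have hL : ∀ t ∈ Icc (-n) n, t ≤ -Z → Y t ≤ (2 / a + 1) / (-t) := by
    intro t ht htZ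
    set k := 2 / a + 1 with hk
    have hk0 : 0 < k := by positivity
    have hcD : ContinuousOn (fun t => Y t - k / (-t)) (Icc (-n) (-Z)) := by
      apply ContinuousOn.sub
      · exact hcY.mono fun s hs => ⟨hs.1, by linarith [hs.2]⟩
      · apply ContinuousOn.div continuousOn_const continuousOn_id.neg
        intro s hs
        have := hs.2
        show -s ≠ 0
        linarith
    obtain ⟨x, hx, hmax⟩ := isCompact_Icc.exists_isMaxOn ⟨t, ht.1, htZ⟩ hcD
    have hmax' : ∀ s ∈ Icc (-n) (-Z), Y s - k / (-s) ≤ Y x - k / (-x) := fun s hs => hmax hs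
    have hxI : x ∈ Icc (-n) n := ⟨hx.1, by linarith [hx.2]⟩
    have hx0 : x < 0 := by linarith [hx.2]
    have hx1 : Y x - k / (-x) ≤ 0 := by
      rcases eq_or_lt_of_le hx.1 with h' | h'
      · rw [← h', hYl]
        have : 0 < k / (- -n) := by rw [neg_neg]; positivity
        linarith
      · by_contra hcon
        push Not at hcon
        have hder : HasDerivAt (fun t => Y t - k / (-t))
            (Y x ^ 2 + A x * Y x - A1 x + l - k / x ^ 2) x := by
          have h2 : HasDerivAt (fun t : ℝ => k / (-t)) (k / x ^ 2) x := by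
            have h3 := ((hasDerivAt_id x).neg.inv (by simpa using hx0.ne)).const_mul k
            refine h3.congr_deriv ?_
            simp only [Pi.neg_apply, id]
            field_simp
          exact (hYeq x hxI).sub h2
        have h2 := deriv_nonneg_left h' hder
          (fun s hs => hmax' s ⟨hs.1, by linarith [hx.2, hs.2]⟩)
        have hxn : 0 < -x := by linarith
        have h3 : k / (-x) < Y x := by linarith
        rw [div_lt_iff₀ hxn] at h3
        have h4 := h.left x hx.2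
        have h5 := h.lt_A1 x
        have h6 := h0 x hxI
        have h6' := h1 x hxI
        have h7 : 0 < k / x ^ 2 := div_pos hk0 (sq_pos_of_neg hx0)
        have h8 : Y x ^ 2 + A x * Y x ≤ a / 2 * x * Y x := by nlinarith
        have h9 : a / 2 * k = 1 + a / 2 := by rw [hk]; field_simp
        have h10 : a / 2 * x * Y x ≤ -(a / 2 * k) := by nlinarith
        nlinarith [hl.2]
    have h2 := hmax' t ⟨ht.1, htZ⟩
    linarith
  refine ⟨l, hl, Y, fun t ht => ⟨hYeq t ht, h0 t ht, ?_⟩⟩
  unfold bd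
  split_ifs with h2 h3
  · exact le_min (h1 t ht) (hL t ht h2)
  · exact le_min (h1 t ht) (hR t ht h3)
  · exact h1 t ht

/-- **Global Riccati solution** -/
theorem exists_riccati (h : Drift A A1 A2 a M Z) :
    ∃ l ∈ Icc a 1, ∃ Y : ℝ → ℝ, ∀ t,
      HasDerivAt Y (Y t ^ 2 + A t * Y t - A1 t + l) t ∧ 0 ≤ Y t ∧ Y t ≤ bd a M Z t := by
  have hM := h.M_pos
  have hex : ∀ n : ℕ, ∃ l ∈ Icc a 1, ∃ Y : ℝ → ℝ, ∀ t ∈ Icc (-((n : ℝ) + 1)) (n + 1),
      HasDerivAt Y (Y t ^ 2 + A t * Y t - A1 t + l) t ∧ 0 ≤ Y t ∧ Y t ≤ bd a M Z t := fun n =>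
    exists_ric h (by linarith [(Nat.cast_nonneg n : (0 : ℝ) ≤ n)])
  choose l hl Y hY using hex
  set f : ℝ → ℝ × ℝ → ℝ × ℝ := fun t x => (x.1 ^ 2 + A t * x.1 - A1 t + x.2, 0) with hf
  set s : ℝ → Set (ℝ × ℝ) := fun t => Icc 0 (bd a M Z t) ×ˢ Icc a 1 with hs
  have hlim := exists_limit (f := f) (s := s) (y := fun n t => (Y n t, l n))
    (fun t => isClosed_Icc.prod isClosed_Icc) (isCompact_Icc.prod isCompact_Icc) ?_ ?_
  · obtain ⟨w, hw, -⟩ := hlim
    -- the second component is constant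
    have hsd : ∀ t, HasDerivAt (fun t => (w t).2) 0 t := fun t => (hw t).1.snd
    have hconst : ∀ t, (w t).2 = (w 0).2 := by
      intro t
      have hdiff : Differentiable ℝ (fun t => (w t).2) := fun t => (hsd t).differentiableAt
      exact is_const_of_deriv_eq_zero hdiff (fun t => (hsd t).deriv) t 0
    refine ⟨(w 0).2, (mem_prod.1 (hw 0).2).2, fun t => (w t).1, fun t => ?_⟩
    obtain ⟨h1, h2⟩ := hw t
    have h3 := (mem_prod.1 h2).1
    refine ⟨?_, h3.1, h3.2⟩
    have h4 := h1.fst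
    rw [← hconst t]
    exact h4
  · intro N
    obtain ⟨C, hC⟩ := isCompact_Icc.exists_bound_of_continuousOn (s := Icc (-(N : ℝ)) N)
      (f := A) h.cA.continuousOn
    have hC0 : 0 ≤ C := (norm_nonneg _).trans (hC 0 ⟨by simp, by simp⟩)
    refine ⟨Real.toNNReal (2 * M + C + 1), fun t ht => ?_⟩
    have htC : |A t| ≤ C := hC t ⟨ht.1.le, ht.2.le⟩
    refine LipschitzOnWith.of_dist_le_mul fun x hx x' hx' => ?_
    rw [Real.coe_toNNReal _ (by positivity), Prod.dist_eq, Prod.dist_eq]
    have h1 : dist x.2 x'.2 ≤ max (dist x.1 x'.1) (dist x.2 x'.2) := le_max_right _ _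
    have h2 : dist x.1 x'.1 ≤ max (dist x.1 x'.1) (dist x.2 x'.2) := le_max_left _ _
    set m := max (dist x.1 x'.1) (dist x.2 x'.2)
    have h0 : 0 ≤ m := dist_nonneg.trans h1
    have hx1 := (mem_prod.1 hx).1
    have hx2 := (mem_prod.1 hx').1
    have hb := bd_le a M Z t
    rw [Real.dist_eq] at h1 h2
    apply max_le
    · show dist (x.1 ^ 2 + A t * x.1 - A1 t + x.2) (x'.1 ^ 2 + A t * x'.1 - A1 t + x'.2) ≤ _
      rw [Real.dist_eq]
      have e : x.1 ^ 2 + A t * x.1 - A1 t + x.2 - (x'.1 ^ 2 + A t * x'.1 - A1 t + x'.2)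
        = (x.1 + x'.1 + A t) * (x.1 - x'.1) + (x.2 - x'.2) := by ring
      rw [e]
      refine (abs_add_le _ _).trans ?_
      rw [abs_mul]
      have h5 : |x.1 + x'.1 + A t| ≤ 2 * M + C := by
        have := abs_le.1 htC
        rw [abs_le]; constructor <;> linarith [hx1.1, hx1.2, hx2.1, hx2.2]
      have h6 : |x.1 + x'.1 + A t| * |x.1 - x'.1| ≤ (2 * M + C) * m :=
        mul_le_mul h5 h2 (abs_nonneg _) (by linarith)
      linarith
    · show dist (0 : ℝ) 0 ≤ _
      rw [dist_self]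
      positivity
  · intro n t ht
    obtain ⟨h1, h2, h3⟩ := hY n t ⟨by linarith [ht.1], by linarith [ht.2]⟩
    exact ⟨h1.prodMk (hasDerivAt_const t (l n)), mem_prod.2 ⟨⟨h2, h3⟩, hl n⟩⟩

end Crest.Agent.R146.Stat5_307
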