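import Crest.Agent.R146.Stat5_307
import Crest.Agent.R146.Cert_109

/-!
# Row 146, stationary family, part 6: the stationary pair `(W_ν, q_ν)` for every constant `ν`

Output in the literal form of `Cert_109.Profile` and `Cert_109.Charge`.
-/

namespace Crest.Agent.R146.Stat6_307

open Set Filter Topology Metric Stat1_307 Stat2_307 Stat3_307 Stat4_307 Stat5_307
open Crest.Agent.R146.Cert_109
open scoped NNReal

theorem contDiff_two {f f1 f2 : ℝ → ℝ} (h1 : ∀ x, HasDerivAt f (f1 x) x)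
    (h2 : ∀ x, HasDerivAt f1 (f2 x) x) (hc : Continuous f2) : ContDiff ℝ 2 f := by
  have hd : deriv f = f1 := funext fun x => (h1 x).deriv
  have hd1 : deriv f1 = f2 := funext fun x => (h2 x).deriv
  have h3 : ContDiff ℝ 1 f1 := contDiff_one_iff_deriv.2
    ⟨fun x => (h2 x).differentiableAt, by rw [hd1]; exact hc⟩
  have h4 : ContDiff ℝ (1 + 1) f := contDiff_succ_iff_deriv.2
    ⟨fun x => (h1 x).differentiableAt, by simp, by rw [hd]; exact h3⟩
  norm_num at h4
  exact h4

variable {ν : ℝ} {W W1 : ℝ → ℝ}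

/-- The constants of the drift. -/
noncomputable def aC (ν : ℝ) : ℝ := 1 - 2 * ν
noncomputable def MC (ν : ℝ) : ℝ := 1 / (1 - 2 * ν)
noncomputable def ZC (ν : ℝ) : ℝ := (2 * MC ν + 1) / (1 - 2 * ν)

theorem drift (hν0 : 0 < ν) (hν : ν < 1 / 2) (h : IsProf ν W W1) :
    Drift (Af ν W) (A1f ν W1) (fun t => 2 * ν * W2f ν W W1 t) (aC ν) (MC ν) (ZC ν) where
  hA := h.hA
  hA1 := h.hA1
  a_pos := by unfold aC; linarith
  M_pos := by unfold MC; apply one_div_pos.2; linarith
  Z_pos := by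
    have h1 : 0 < 1 - 2 * ν := by linarith
    have h2 : 0 < MC ν := by unfold MC; positivity
    unfold ZC
    rw [le_div_iff₀ h1]
    linarith
  lt_A1 t := by
    have := h.p_pos hν0 hν t
    unfold aC A1f
    nlinarith
  A1_lt t := by
    have := h.p_lt hν0 hν t
    unfold A1f
    nlinarith
  A2_pos t := by
    have := h.W2_pos hν0 hν t
    positivity
  A2_lt t := by
    have h0 : 0 < 1 - 2 * ν := by linarith
    have h1 := h.W2_lt_one hν0 hν t
    have h2 := h.p_pos hν0 hν t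
    have h3 : MC ν * (1 - 2 * ν) = 1 := by unfold MC; field_simp
    have h4 : 0 < MC ν := by unfold MC; positivity
    have h5 : MC ν * A1f ν W1 t = 1 + MC ν * (2 * ν * W1 t) := by
      unfold A1f; linear_combination h3
    have h6 : 0 < MC ν * (2 * ν * W1 t) := by positivity
    show 2 * ν * W2f ν W W1 t < MC ν * A1f ν W1 t
    rw [h5]
    nlinarith
  right t _ := h.le_A hν0 t
  left t ht := by
    have h0 : 0 < 1 - 2 * ν := by linarith
    have h4 : 0 < MC ν := by unfold MC; positivity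
    have h5 : ZC ν * (1 - 2 * ν) = 2 * MC ν + 1 := by unfold ZC; field_simp
    have h6 : 1 ≤ ZC ν := by
      unfold ZC
      rw [le_div_iff₀ h0]
      linarith
    have ht0 : t < 0 := by linarith
    have h7 : W t ≤ 1 / 2 := by
      refine (h.W_le t).trans ((IsProf.Wp_neg_le hν ht0).trans ?_)
      apply one_div_le_one_div_of_le (by norm_num)
      linarith
    have h8 := h.nonneg t
    unfold Af aC
    nlinarith

/-- The stationary pair: profile, eigenvalue, Riccati variable. -/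
structure IsStat (ν : ℝ) (W W1 : ℝ → ℝ) (lam : ℝ) (Y : ℝ → ℝ) : Prop where
  pos : 0 < ν
  lt : ν < 1 / 2
  prof : IsProf ν W W1
  dY : ∀ t, HasDerivAt Y (Y t ^ 2 + Af ν W t * Y t - A1f ν W1 t + lam) t
  Y_nonneg : ∀ t, 0 ≤ Y t
  Y_le : ∀ t, Y t ≤ bd (aC ν) (MC ν) (ZC ν) t
  lam_ge : 1 - 2 * ν ≤ lam
  lam_le : lam ≤ 1

/-- **Existence of the stationary pair for every constant `0 < ν < 1/2`.** -/
theorem exists_isStat (hν0 : 0 < ν) (hν : ν < 1 / 2) :
    ∃ W W1 : ℝ → ℝ, ∃ lam : ℝ, ∃ Y : ℝ → ℝ, IsStat ν W W1 lam Y := by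
  obtain ⟨W, W1, h⟩ := exists_isProf hν0 hν
  obtain ⟨l, hl, Y, hY⟩ := exists_riccati (drift hν0 hν h)
  exact ⟨W, W1, l, Y, hν0, hν, h, fun t => (hY t).1, fun t => (hY t).2.1, fun t => (hY t).2.2,
    hl.1, hl.2⟩

namespace IsStat

variable {lam : ℝ} {Y : ℝ → ℝ}

lemma cY (h : IsStat ν W W1 lam Y) : Continuous Y :=
  continuous_iff_continuousAt.2 fun t => (h.dY t).continuousAt

lemma Y_le_M (h : IsStat ν W W1 lam Y) (t : ℝ) : Y t ≤ MC ν := (h.Y_le t).trans (bd_le _ _ _ _)

lemma MC_pos (h : IsStat ν W W1 lam Y) : 0 < MC ν := by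
  have := h.lt
  unfold MC; apply one_div_pos.2; linarith

/-- first derivative of `Y` -/
noncomputable def Y1 (ν : ℝ) (W W1 : ℝ → ℝ) (lam : ℝ) (Y : ℝ → ℝ) (t : ℝ) : ℝ :=
  Y t ^ 2 + Af ν W t * Y t - A1f ν W1 t + lam

lemma hY1 (h : IsStat ν W W1 lam Y) (t : ℝ) : HasDerivAt (Y1 ν W W1 lam Y)
    ((2 * Y t + Af ν W t) * Y1 ν W W1 lam Y t + A1f ν W1 t * Y t - 2 * ν * W2f ν W W1 t) t := by
  have h1 := ((((h.dY t).pow 2).add ((h.prof.hA t).mul (h.dY t))).sub (h.prof.hA1 t)).add_const lam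
  refine h1.congr_deriv ?_
  simp only [Y1]
  push_cast
  ring

/-- `Y > 0`. -/
theorem Y_pos (h : IsStat ν W W1 lam Y) (x : ℝ) : 0 < Y x := by
  rcases eq_or_lt_of_le (h.Y_nonneg x) with h0 | h0
  swap
  · exact h0
  exfalso
  obtain ⟨h1, h2⟩ := second_deriv_nonneg (g := Y) (g1 := Y1 ν W W1 lam Y) (a := x - 1)
    (b := x + 1) ⟨by linarith, by linarith⟩ (fun t _ => h.dY t) (h.hY1 x)
    (fun t _ => by rw [← h0]; exact h.Y_nonneg t)
  rw [h1, ← h0] at h2
  have h3 := h.prof.W2_pos h.pos h.lt x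
  have h4 := h.pos
  nlinarith [mul_pos h4 h3]

lemma tendsto_Y_atTop (h : IsStat ν W W1 lam Y) : Tendsto Y atTop (𝓝 0) := by
  have h1 : Tendsto (fun t : ℝ => (MC ν + 1) / t) atTop (𝓝 0) :=
    tendsto_const_nhds.div_atTop tendsto_id
  refine tendsto_of_tendsto_of_tendsto_of_le_of_le' tendsto_const_nhds h1
    (Eventually.of_forall h.Y_nonneg) ?_
  filter_upwards [eventually_gt_atTop 0] with t ht
  refine (h.Y_le t).trans ?_
  have hZ := (drift h.pos h.lt h.prof).Z_pos
  unfold bd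
  rw [if_neg (by linarith), if_pos ht]
  exact min_le_right _ _

lemma tendsto_Y_atBot (h : IsStat ν W W1 lam Y) : Tendsto Y atBot (𝓝 0) := by
  have h1 : Tendsto (fun t : ℝ => (2 / aC ν + 1) / (-t)) atBot (𝓝 0) :=
    tendsto_const_nhds.div_atTop tendsto_neg_atBot_atTop
  refine tendsto_of_tendsto_of_tendsto_of_le_of_le' tendsto_const_nhds h1
    (Eventually.of_forall h.Y_nonneg) ?_
  filter_upwards [eventually_le_atBot (-ZC ν)] with t ht
  refine (h.Y_le t).trans ?_
  unfold bd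
  rw [if_pos ht]
  exact min_le_right _ _

/-- `λ < 1`. -/
theorem lam_lt (h : IsStat ν W W1 lam Y) : lam < 1 := by
  rcases eq_or_lt_of_le h.lam_le with h0 | h0
  swap
  · exact h0
  exfalso
  have hmono : MonotoneOn Y (Ici 0) := by
    apply monotoneOn_of_deriv_nonneg (convex_Ici 0) h.cY.continuousOn
    · exact fun t _ => (h.dY t).differentiableAt.differentiableWithinAt
    · intro t ht
      rw [interior_Ici] at ht
      have ht' : 0 < t := ht
      rw [(h.dY t).deriv, h0]
      have h1 := h.prof.le_A h.pos t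
      have h2 := h.Y_nonneg t
      have h3 := (drift h.pos h.lt h.prof).A1_lt t
      nlinarith [sq_nonneg (Y t)]
  have h1 : Y 0 ≤ 0 := by
    refine ge_of_tendsto h.tendsto_Y_atTop ?_
    filter_upwards [eventually_ge_atTop 0] with t ht
    exact hmono (mem_Ici.2 (le_refl (0 : ℝ))) (show t ∈ Ici 0 from ht) ht
  have := h.Y_pos 0
  linarith

/-- `λ > 1 - 2ν`. -/
theorem lt_lam (h : IsStat ν W W1 lam Y) : 1 - 2 * ν < lam := by
  rcases eq_or_lt_of_le h.lam_ge with h0 | h0
  swap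
  · exact h0
  exfalso
  have hD := drift h.pos h.lt h.prof
  have hanti : AntitoneOn Y (Iic (-ZC ν)) := by
    apply antitoneOn_of_deriv_nonpos (convex_Iic _) h.cY.continuousOn
    · exact fun t _ => (h.dY t).differentiableAt.differentiableWithinAt
    · intro t ht
      rw [interior_Iic] at ht
      have ht' : t < -ZC ν := ht
      rw [(h.dY t).deriv, ← h0]
      have h1 := hD.left t ht'.le
      have h2 := h.Y_nonneg t
      have h3 := h.Y_le_M t
      have h4 := hD.lt_A1 t
      have h5 := hD.Z_pos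
      have h6 := hD.a_pos
      unfold aC at h1 h4 h6
      have h7 : Af ν W t + Y t ≤ 0 := by nlinarith
      nlinarith
  have h1 : Y (-ZC ν) ≤ 0 := by
    refine ge_of_tendsto h.tendsto_Y_atBot ?_
    filter_upwards [eventually_le_atBot (-ZC ν)] with t ht
    exact hanti (show t ∈ Iic (-ZC ν) from ht) (mem_Iic.2 (le_refl (-ZC ν))) ht
  have := h.Y_pos (-ZC ν)
  linarith

/-- the stationary density -/
noncomputable def q (Y : ℝ → ℝ) (t : ℝ) : ℝ := Real.exp (-∫ r in (0 : ℝ)..t, Y r)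

lemma q_pos (Y : ℝ → ℝ) (t : ℝ) : 0 < q Y t := Real.exp_pos _

lemma dq (h : IsStat ν W W1 lam Y) (t : ℝ) : HasDerivAt (q Y) (-(Y t) * q Y t) t := by
  have h1 := (h.cY.integral_hasStrictDerivAt 0 t).hasDerivAt
  have h2 := h1.neg.exp
  refine h2.congr_deriv ?_
  show Real.exp (-∫ r in (0 : ℝ)..t, Y r) * -(Y t) = -(Y t) * Real.exp (-∫ r in (0 : ℝ)..t, Y r)
  ring

lemma dq1 (h : IsStat ν W W1 lam Y) (t : ℝ) : HasDerivAt (fun t => -(Y t) * q Y t)
    ((Y t ^ 2 - Y1 ν W W1 lam Y t) * q Y t) t := by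
  have h1 := (h.dY t).neg.mul (h.dq t)
  refine h1.congr_deriv ?_
  simp only [Y1, Pi.neg_apply]
  ring

/-- `Profile` of the certificate. -/
theorem profile (h : IsStat ν W W1 lam Y) : Profile ν W where
  smooth := contDiff_two h.prof.d0 h.prof.hW1 h.prof.cW2
  ode z := by
    have hd : deriv W = W1 := funext fun x => (h.prof.d0 x).deriv
    rw [hd, (h.prof.hW1 z).deriv]
    unfold W2f Af
    ring
  left := h.prof.tendsto_atBot h.lt
  right := h.prof.tendsto_atTop h.lt

/-- `Charge` of the certificate. -/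
theorem charge (h : IsStat ν W W1 lam Y) : Charge ν lam W (q Y) where
  smooth := by
    refine contDiff_two h.dq h.dq1 ?_
    have h1 : Continuous (Y1 ν W W1 lam Y) :=
      continuous_iff_continuousAt.2 fun t => (h.hY1 t).continuousAt
    have h2 : Continuous (q Y) := continuous_iff_continuousAt.2 fun t => (h.dq t).continuousAt
    exact ((h.cY.pow 2).sub h1).mul h2
  pos := q_pos Y
  ode z := by
    have hd : deriv (q Y) = fun t => -(Y t) * q Y t := funext fun x => (h.dq x).deriv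
    rw [hd, (h.dq1 z).deriv]
    have h1 : HasDerivAt (fun z => (z + 2 * ν * (W z - z)) * q Y z)
        (A1f ν W1 z * q Y z + Af ν W z * (-(Y z) * q Y z)) z := (h.prof.hA z).mul (h.dq z)
    rw [h1.deriv]
    unfold Y1
    ring
  growth := by
    refine ⟨1, MC ν, fun z => ?_⟩
    rw [one_mul, q]
    apply Real.exp_le_exp.2
    have h1 : ‖∫ r in (0 : ℝ)..z, Y r‖ ≤ MC ν * |z - 0| :=
      intervalIntegral.norm_integral_le_of_norm_le_const fun r _ => by
        rw [Real.norm_eq_abs, abs_of_nonneg (h.Y_nonneg r)]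
        exact h.Y_le_M r
    rw [sub_zero, Real.norm_eq_abs] at h1
    have h2 := abs_le.1 h1
    linarith

/-- `q` is nonincreasing. -/
theorem q_anti (h : IsStat ν W W1 lam Y) : Antitone (q Y) := by
  apply antitone_of_deriv_nonpos
  · exact fun t => (h.dq t).differentiableAt
  · intro t
    rw [(h.dq t).deriv]
    have h1 := h.Y_nonneg t
    have h2 := q_pos Y t
    nlinarith [mul_nonneg h1 h2.le]

end IsStat

end Crest.Agent.R146.Stat6_307
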