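import Crest.Agent.R146.StepDef_791
import Crest.Prelude.Def_SphericalPressure

/-!
Row 146, package PT-STEP, INTERFACES of the Euler form of the bridge R3 (helper791): Props only.

* `ZD`        : functions with zero drift on a slab; `E1` = consistency of the Euler step;
* `Ch`        : the Euler chain along a grid; `E2` = martingale property up to a small error;
* `BK`        : backward solutions of the step system as functions with zero drift;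
-/

set_option autoImplicit false

namespace Crest.Agent.R146.StepIf_791

open MeasureTheory ProbabilityTheory Set Filter Topology
open Crest.ProbabilityR.Perceptron
open Crest.Agent.R146.Hg_534 Crest.Agent.R146.PB_534 Crest.Agent.R146.StepDef_791
open scoped RealInnerProductSpace NNReal

noncomputable section

/-! ### E1: consistency of the Euler step (pure analysis) -/

/-- `F` has zero drift on `[s,s']` for the drift field `β`: `F_t + F_xx/2 + β F_x = 0` -/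
structure ZD (s s' : ℝ) (β F Fx Fxx : ℝ → ℝ → ℝ) : Prop where
  cF : ContinuousOn (fun q : ℝ × ℝ => F q.1 q.2) (Icc s s' ×ˢ univ)
  cx : ContinuousOn (fun q : ℝ × ℝ => Fx q.1 q.2) (Icc s s' ×ˢ univ)
  cxx : ContinuousOn (fun q : ℝ × ℝ => Fxx q.1 q.2) (Icc s s' ×ˢ univ)
  hx : ∀ t ∈ Icc s s', ∀ x, HasDerivAt (F t) (Fx t x) x
  hxx : ∀ t ∈ Icc s s', ∀ x, HasDerivAt (Fx t) (Fxx t x) x
  ht : ∀ t ∈ Ico s s', ∀ x,
    HasDerivWithinAt (fun r => F r x) (-(Fxx t x / 2 + β t x * Fx t x)) (Ici t) t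
  gr : ∃ C : ℝ, ∃ n : ℕ, 0 ≤ C ∧ ∀ t ∈ Icc s s', ∀ x, |F t x| ≤ C * (1 + |x|) ^ n ∧
    |Fx t x| ≤ C * (1 + |x|) ^ n ∧ |Fxx t x| ≤ C * (1 + |x|) ^ n

/-- admissible drift fields on a slab -/
structure Drift (s s' M : ℝ) (β : ℝ → ℝ → ℝ) : Prop where
  cont : ContinuousOn (fun q : ℝ × ℝ => β q.1 q.2) (Icc s s' ×ˢ univ)
  le : ∀ t ∈ Icc s s', ∀ x, |β t x| ≤ M * (1 + |x|)

/-- the Euler error at `(t,x)` with step `h` -/
def err (β F : ℝ → ℝ → ℝ) (t h x : ℝ) : ℝ := H (Real.sqrt h) (F (t + h)) (x + h * β t x) - F t x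

/-- **E1** -/
def E1 : Prop := ∀ (s s' M : ℝ) (β F Fx Fxx : ℝ → ℝ → ℝ), s < s' → s' ≤ s + 1 → 0 ≤ M →
  Drift s s' M β → ZD s s' β F Fx Fxx →
  (∃ C : ℝ, ∃ n : ℕ, 0 ≤ C ∧ ∀ t h x, s ≤ t → 0 ≤ h → t + h ≤ s' →
    |err β F t h x| ≤ h * (C * (1 + |x|) ^ n)) ∧
  (∀ K ε : ℝ, 0 < ε → ∃ h0 : ℝ, 0 < h0 ∧ ∀ t h x, s ≤ t → 0 ≤ h → h ≤ h0 → t + h ≤ s' → |x| ≤ K →
    |err β F t h x| ≤ ε * h)

/-! ### E2: the Euler chain -/

/-- the Euler chain: `X 0 = x0`, `X (k+1) = X k + (t (k+1) - t k) β(t k, X k) + B_{t(k+1)} - B_{t k}` -/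
def Ch {Ω : Type*} (B : ℝ≥0 → Ω → ℝ) (β : ℝ → ℝ → ℝ) (t : ℕ → ℝ) (x0 : ℝ) : ℕ → Ω → ℝ
  | 0, _ => x0
  | k + 1, ω => Ch B β t x0 k ω + (t (k + 1) - t k) * β (t k) (Ch B β t x0 k ω) +
      (B (t (k + 1)).toNNReal ω - B (t k).toNNReal ω)

/-- **E2m**: moments of the chain, uniform in the grid -/
def E2m : Prop := ∀ (Ω : Type) (_ : MeasurableSpace Ω) (P : Measure Ω) (_ : IsProbabilityMeasure P)
  (B : ℝ≥0 → Ω → ℝ) (hBm : ∀ t, Measurable (B t)) (_ : IsBrownianReal B P) (M x0 : ℝ) (n : ℕ),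
  ∃ C : ℝ, 0 ≤ C ∧ ∀ (β : ℝ → ℝ → ℝ) (t : ℕ → ℝ) (N : ℕ), (∀ r, Measurable (β r)) →
    (∀ r x, |β r x| ≤ M * (1 + |x|)) → t 0 = 0 → (∀ k < N, t k ≤ t (k + 1)) → t N ≤ 1 →
    ∀ k ≤ N, Measurable[brownianFiltration B hBm (t k).toNNReal] (Ch B β t x0 k) ∧
      Integrable (fun ω => (1 + |Ch B β t x0 k ω|) ^ n) P ∧
      ∫ ω, (1 + |Ch B β t x0 k ω|) ^ n ∂P ≤ C

/-- **E2**: if the Euler errors of `F` along the grid are `≤ ε h` for `|x| ≤ K` and `≤ h C(1+|x|)^n`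
always, then `E|E[F(t_N, X_N) | F_{t_k}] - F(t_k, X_k)|² ≤ 2 (ε² + C' / K²)`. -/
def E2 : Prop := ∀ (Ω : Type) (_ : MeasurableSpace Ω) (P : Measure Ω) (_ : IsProbabilityMeasure P)
  (B : ℝ≥0 → Ω → ℝ) (hBm : ∀ t, Measurable (B t)) (_ : IsBrownianReal B P) (M x0 C : ℝ) (n : ℕ),
  ∃ C' : ℝ, 0 ≤ C' ∧ ∀ (β F : ℝ → ℝ → ℝ) (t : ℕ → ℝ) (N : ℕ) (K ε : ℝ), 0 < K → 0 ≤ ε →
    (∀ r, Measurable (β r)) → (∀ r x, |β r x| ≤ M * (1 + |x|)) → t 0 = 0 →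
    (∀ k < N, t k ≤ t (k + 1)) → t N ≤ 1 → (∀ k ≤ N, Continuous (F (t k))) →
    (∀ k ≤ N, ∀ x, |F (t k) x| ≤ C * (1 + |x|) ^ n) →
    (∀ k < N, ∀ x, |x| ≤ K → |err β F (t k) (t (k + 1) - t k) x| ≤ ε * (t (k + 1) - t k)) →
    (∀ k < N, ∀ x, |err β F (t k) (t (k + 1) - t k) x| ≤
      (t (k + 1) - t k) * (C * (1 + |x|) ^ n)) →
    ∀ k ≤ N, MemLp (fun ω => F (t N) (Ch B β t x0 N ω)) 2 P ∧
      ∫ ω, ((P[fun ω => F (t N) (Ch B β t x0 N ω) | brownianFiltration B hBm (t k).toNNReal]) ω -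
        F (t k) (Ch B β t x0 k ω)) ^ 2 ∂P ≤ 2 * (ε ^ 2 + C' / K ^ 2)

/-! ### BK: backward solutions for the step system -/

/-- **BK**: for `f ∈ Sm` and `t' ∈ (0,T]` there is a function with zero drift on every cell of `[0,t']`
(`β = b u`, right limits) with final value `f`, and its value at `(0,x0)` is the mean of `f` under the
law. `G` is the value at time `0` of a NONNEGATIVE kernel: monotone in `f`. -/
def BK (A : SD) (x0 : ℝ) (p : ℝ → ℝ → ℝ) : Prop := ∀ t' ∈ Ioc 0 A.T, ∀ f : ℝ → ℝ, Sm f →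
  ∃ F Fx Fxx : ℝ → ℝ → ℝ,
    ContinuousOn (fun q : ℝ × ℝ => F q.1 q.2) (Icc 0 t' ×ˢ univ) ∧
    ContinuousOn (fun q : ℝ × ℝ => Fx q.1 q.2) (Icc 0 t' ×ˢ univ) ∧
    ContinuousOn (fun q : ℝ × ℝ => Fxx q.1 q.2) (Icc 0 t' ×ˢ univ) ∧
    (∀ t ∈ Icc 0 t', ∀ x, HasDerivAt (F t) (Fx t x) x) ∧
    (∀ t ∈ Icc 0 t', ∀ x, HasDerivAt (Fx t) (Fxx t x) x) ∧
    (∀ t ∈ Ico 0 t', ∀ x, HasDerivWithinAt (fun r => F r x)
      (-(Fxx t x / 2 + A.b t * A.u t x * Fx t x)) (Ici t) t) ∧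
    (∀ t ∈ Ioc 0 t', ∀ x, HasDerivWithinAt (fun r => F r x)
      (-(Fxx t x / 2 + A.bl t * A.u t x * Fx t x)) (Iic t) t) ∧
    (∃ C : ℝ, ∃ n : ℕ, 0 ≤ C ∧ ∀ t ∈ Icc 0 t', ∀ x, |F t x| ≤ C * (1 + |x|) ^ n ∧
      |Fx t x| ≤ C * (1 + |x|) ^ n ∧ |Fxx t x| ≤ C * (1 + |x|) ^ n) ∧
    (∀ x, F t' x = f x) ∧ F 0 x0 = ex x0 p t' f

end

end Crest.Agent.R146.StepIf_791
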