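import Crest.Agent.R146.MaxPCmp2_371
import Crest.Agent.R146.MaxP_86

/-!
# Row 146, task STEP-PPOS (helper172): strict positivity of `P = V_x` from the maximum principle

* `lin_lower`: a function `w` of polynomial growth (from below) with
  `w_t + w_xx/2 + β w_x + γ w ≤ 0` (right time derivative) and `w(T,x) ≥ e^{-α(1+x²)}` satisfies
  `w(t,x) ≥ exp (-α e^{(4A+1)(T-t)} (1+x²) - G (T-t)) > 0`; no sign of `w` is assumed.
* `P_lower`, `P_pos`: the statement for the backward tip system `BSys`.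
* `P_lower_lin`: the same without `BSys` (only the linear equation of `P`, signs of `P` unknown).
-/

set_option autoImplicit false

open Set Filter Topology

namespace Crest.Agent.R146.StepPpos_172

open Crest.Agent.R146.MaxP_86 (mp_growth_back)
open Crest.Agent.R146.MaxPCmp_371 (BSys strip)

/-- the Gaussian barrier `exp (-α e^{K(T-t)} (1+x²) - L (T-t))` -/
noncomputable def gb (α K L T t x : ℝ) : ℝ :=
  Real.exp (-(α * Real.exp (K * (T - t))) * (1 + x ^ 2) - L * (T - t))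

lemma gb_pos (α K L T t x : ℝ) : 0 < gb α K L T t x := Real.exp_pos _

lemma gb_T (α K L T x : ℝ) : gb α K L T T x = Real.exp (-α * (1 + x ^ 2)) := by
  simp [gb]

lemma gb_le_one {α K L T t : ℝ} (hα : 0 ≤ α) (hL : 0 ≤ L) (ht : t ≤ T) (x : ℝ) :
    gb α K L T t x ≤ 1 := by
  unfold gb
  rw [Real.exp_le_one_iff]
  have h1 : 0 ≤ α * Real.exp (K * (T - t)) := mul_nonneg hα (Real.exp_pos _).le
  have h2 : 0 ≤ L * (T - t) := mul_nonneg hL (by linarith)
  have h3 : 0 ≤ α * Real.exp (K * (T - t)) * (1 + x ^ 2) := mul_nonneg h1 (by positivity)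
  nlinarith

lemma gb_cont (α K L T : ℝ) : Continuous (fun p : ℝ × ℝ => gb α K L T p.1 p.2) := by
  unfold gb; fun_prop

lemma gb_t (α K L T t x : ℝ) : HasDerivAt (fun s => gb α K L T s x)
    (gb α K L T t x * (α * Real.exp (K * (T - t)) * K * (1 + x ^ 2) + L)) t := by
  have h1 : HasDerivAt (fun s : ℝ => T - s) (-1) t := by
    simpa using (hasDerivAt_id t).const_sub T
  have h2 : HasDerivAt (fun s : ℝ => Real.exp (K * (T - s)))
      (Real.exp (K * (T - t)) * (K * (-1))) t := (h1.const_mul K).exp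
  have h3 : HasDerivAt (fun s : ℝ => -(α * Real.exp (K * (T - s))) * (1 + x ^ 2) - L * (T - s))
      (-(α * (Real.exp (K * (T - t)) * (K * (-1)))) * (1 + x ^ 2) - L * (-1)) t :=
    ((h2.const_mul α).neg.mul_const (1 + x ^ 2)).sub (h1.const_mul L)
  have h4 := h3.exp
  unfold gb
  refine h4.congr_deriv ?_
  ring

lemma gb_x (α K L T t x : ℝ) : HasDerivAt (fun y => gb α K L T t y)
    (gb α K L T t x * (-(α * Real.exp (K * (T - t))) * (2 * x))) x := by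
  have h1 : HasDerivAt (fun y : ℝ => 1 + y ^ 2) (2 * x) x := by
    simpa using (hasDerivAt_pow 2 x).const_add 1
  have h3 := ((h1.const_mul (-(α * Real.exp (K * (T - t))))).sub_const (L * (T - t))).exp
  unfold gb
  exact h3

lemma gb_xx (α K L T t x : ℝ) :
    HasDerivAt (fun y => gb α K L T t y * (-(α * Real.exp (K * (T - t))) * (2 * y)))
      (gb α K L T t x * ((α * Real.exp (K * (T - t)) * (2 * x)) ^ 2
        - 2 * (α * Real.exp (K * (T - t))))) x := by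
  have h1 : HasDerivAt (fun y : ℝ => -(α * Real.exp (K * (T - t))) * (2 * y))
      (-(α * Real.exp (K * (T - t))) * (2 * 1)) x :=
    ((hasDerivAt_id x).const_mul 2).const_mul _
  refine ((gb_x α K L T t x).mul h1).congr_deriv ?_
  ring

/-- **Gaussian lower bound for supersolutions of a linear backward equation**, no sign assumed. -/
theorem lin_lower {t0 T A G α C : ℝ} {k : ℕ} {w wt wx wxx β γ : ℝ → ℝ → ℝ}
    (hA : 0 ≤ A) (hG : 0 ≤ G) (hα : 0 ≤ α)
    (hcont : ContinuousOn (fun p : ℝ × ℝ => w p.1 p.2) (Icc t0 T ×ˢ univ))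
    (hwt : ∀ t ∈ Ico t0 T, ∀ x, HasDerivWithinAt (fun s => w s x) (wt t x) (Ici t) t)
    (hwx : ∀ t ∈ Ico t0 T, ∀ x, HasDerivAt (w t) (wx t x) x)
    (hwxx : ∀ t ∈ Ico t0 T, ∀ x, HasDerivAt (wx t) (wxx t x) x)
    (hβ : ∀ t ∈ Ico t0 T, ∀ x, |β t x| ≤ A * (1 + |x|))
    (hγ : ∀ t ∈ Ico t0 T, ∀ x, |γ t x| ≤ G)
    (heq : ∀ t ∈ Ico t0 T, ∀ x, wt t x + wxx t x / 2 + β t x * wx t x + γ t x * w t x ≤ 0)
    (hgrow : ∀ t ∈ Icc t0 T, ∀ x, -(C * (1 + x ^ 2) ^ k) ≤ w t x)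
    (hterm : ∀ x, Real.exp (-α * (1 + x ^ 2)) ≤ w T x) :
    ∀ t ∈ Icc t0 T, ∀ x, gb α (4 * A + 1) G T t x ≤ w t x := by
  set K := 4 * A + 1 with hK
  set B : ℝ := A + G + 1 with hB
  have hB0 : 0 ≤ B := by positivity
  have key := mp_growth_back (t₀ := t0) (t₁ := T) (A := B) (C := |C| + 1) (k := k)
    (u := fun t x => gb α K G T t x - w t x)
    (ut := fun t x => gb α K G T t x * (α * Real.exp (K * (T - t)) * K * (1 + x ^ 2) + G) - wt t x)
    (ux := fun t x => gb α K G T t x * (-(α * Real.exp (K * (T - t))) * (2 * x)) - wx t x)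
    (uxx := fun t x => gb α K G T t x * ((α * Real.exp (K * (T - t)) * (2 * x)) ^ 2
        - 2 * (α * Real.exp (K * (T - t)))) - wxx t x)
    (a := fun _ _ => 1 / 2) (B := β) (c := γ) ?_ ?_ ?_ ?_ hB0 ?_ ?_ ?_ ?_ ?_ ?_ ?_
  · intro t ht x
    have := key t ht x
    linarith
  · exact (gb_cont α K G T).continuousOn.sub hcont
  · intro t ht x
    exact (gb_t α K G T t x).hasDerivWithinAt.sub (hwt t ht x)
  · intro t ht x
    exact (gb_x α K G T t x).sub (hwx t ht x)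
  · intro t ht x
    exact (gb_xx α K G T t x).sub (hwxx t ht x)
  · intro t ht x _; norm_num
  · intro t ht x _
    have : 0 ≤ x ^ 2 := sq_nonneg x
    have h1 : (1:ℝ) ≤ B := by rw [hB]; linarith
    nlinarith
  · intro t ht x _
    refine (hβ t ht x).trans ?_
    have h0 : 0 ≤ |x| := abs_nonneg x
    exact mul_le_mul_of_nonneg_right (by rw [hB]; linarith) (by positivity)
  · intro t ht x _
    have := (abs_le.1 (hγ t ht x)).2
    rw [hB]; linarith
  · intro t ht x _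
    have h1 := heq t ht x
    have hS := gb_pos α K G T t x
    set S := gb α K G T t x with hSd
    set q := α * Real.exp (K * (T - t)) with hq
    have hq0 : 0 ≤ q := mul_nonneg hα (Real.exp_pos _).le
    -- the bracket is nonnegative
    have hbr : 0 ≤ q * K * (1 + x ^ 2) + G + ((q * (2 * x)) ^ 2 - 2 * q) / 2
        + β t x * (-q * (2 * x)) + γ t x := by
      have hb := hβ t ht x
      have hg := (abs_le.1 (hγ t ht x)).1
      have h2 : β t x * x ≤ A * (2 * (1 + x ^ 2)) := by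
        have h3 : β t x * x ≤ |β t x| * |x| := by
          rw [← abs_mul]; exact le_abs_self _
        have h4 : |β t x| * |x| ≤ A * (1 + |x|) * |x| :=
          mul_le_mul_of_nonneg_right hb (abs_nonneg x)
        have h5 : (1 + |x|) * |x| ≤ 2 * (1 + x ^ 2) := by
          have h6 : |x| ^ 2 = x ^ 2 := sq_abs x
          nlinarith [sq_nonneg (|x| - 1)]
        have h7 : A * (1 + |x|) * |x| ≤ A * (2 * (1 + x ^ 2)) := by
          rw [mul_assoc]; exact mul_le_mul_of_nonneg_left h5 hA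
        linarith
      have h8 : q * (β t x * x) ≤ q * (A * (2 * (1 + x ^ 2))) :=
        mul_le_mul_of_nonneg_left h2 hq0
      have h9 : 0 ≤ (q * (2 * x)) ^ 2 := sq_nonneg _
      have h10 : 0 ≤ q * x ^ 2 := mul_nonneg hq0 (sq_nonneg x)
      have h11 : q * K * (1 + x ^ 2) = 2 * (q * (A * (2 * (1 + x ^ 2)))) + q * (1 + x ^ 2) := by
        rw [hK]; ring
      have h12 : β t x * (-q * (2 * x)) = -(2 * (q * (β t x * x))) := by ring
      rw [h11, h12]
      nlinarith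
    have h13 := mul_nonneg hS.le hbr
    have h14 : S * (q * K * (1 + x ^ 2) + G + ((q * (2 * x)) ^ 2 - 2 * q) / 2
        + β t x * (-q * (2 * x)) + γ t x) =
      S * (q * K * (1 + x ^ 2) + G) + S * ((q * (2 * x)) ^ 2 - 2 * q) / 2
        + β t x * (S * (-q * (2 * x))) + γ t x * S := by ring
    rw [h14] at h13
    linarith
  · intro x
    have h1 := hterm x
    show gb α K G T T x - w T x ≤ 0
    rw [gb_T]; linarith
  · intro t ht x
    have h1 := gb_le_one (K := K) (x := x) hα hG ht.2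
    have h2 := hgrow t ht x
    have h3 : (1:ℝ) ≤ (1 + x ^ 2) ^ k := one_le_pow₀ (by nlinarith [sq_nonneg x])
    have h4 : C * (1 + x ^ 2) ^ k ≤ |C| * (1 + x ^ 2) ^ k :=
      mul_le_mul_of_nonneg_right (le_abs_self C) (by positivity)
    show gb α K G T t x - w t x ≤ (|C| + 1) * (1 + x ^ 2) ^ k
    nlinarith

/-- strict positivity from `lin_lower` -/
theorem lin_pos {t0 T A G α C : ℝ} {k : ℕ} {w wt wx wxx β γ : ℝ → ℝ → ℝ}
    (hA : 0 ≤ A) (hG : 0 ≤ G) (hα : 0 ≤ α)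
    (hcont : ContinuousOn (fun p : ℝ × ℝ => w p.1 p.2) (Icc t0 T ×ˢ univ))
    (hwt : ∀ t ∈ Ico t0 T, ∀ x, HasDerivWithinAt (fun s => w s x) (wt t x) (Ici t) t)
    (hwx : ∀ t ∈ Ico t0 T, ∀ x, HasDerivAt (w t) (wx t x) x)
    (hwxx : ∀ t ∈ Ico t0 T, ∀ x, HasDerivAt (wx t) (wxx t x) x)
    (hβ : ∀ t ∈ Ico t0 T, ∀ x, |β t x| ≤ A * (1 + |x|))
    (hγ : ∀ t ∈ Ico t0 T, ∀ x, |γ t x| ≤ G)
    (heq : ∀ t ∈ Ico t0 T, ∀ x, wt t x + wxx t x / 2 + β t x * wx t x + γ t x * w t x ≤ 0)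
    (hgrow : ∀ t ∈ Icc t0 T, ∀ x, -(C * (1 + x ^ 2) ^ k) ≤ w t x)
    (hterm : ∀ x, Real.exp (-α * (1 + x ^ 2)) ≤ w T x) :
    ∀ t ∈ Icc t0 T, ∀ x, 0 < w t x := fun t ht x =>
  (gb_pos _ _ _ _ _ _).trans_le (lin_lower hA hG hα hcont hwt hwx hwxx hβ hγ heq hgrow hterm t ht x)

/-- **`P` without any sign hypothesis** (for the construction of the step system, helper847): the linear
equation `P_t + P_xx/2 + b u P_x - b (2-3V) P = 0`, `|u| ≤ M (1+|x|)`, `0 ≤ b ≤ M`, `0 ≤ V ≤ 1` and a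
polynomial bound of `P`. -/
theorem P_lower_lin {t0 T M α C : ℝ} {k : ℕ} {b : ℝ → ℝ} {u V P Px Pxx : ℝ → ℝ → ℝ}
    (hα : 0 ≤ α)
    (hcont : ContinuousOn (fun p : ℝ × ℝ => P p.1 p.2) (Icc t0 T ×ˢ univ))
    (hPx : ∀ t ∈ Ico t0 T, ∀ x, HasDerivAt (P t) (Px t x) x)
    (hPxx : ∀ t ∈ Ico t0 T, ∀ x, HasDerivAt (Px t) (Pxx t x) x)
    (hPt : ∀ t ∈ Ico t0 T, ∀ x, HasDerivWithinAt (fun s => P s x)
      (-(Pxx t x / 2 + b t * u t x * Px t x) + b t * (2 - 3 * V t x) * P t x) (Ici t) t)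
    (hb : ∀ t ∈ Ico t0 T, 0 ≤ b t ∧ b t ≤ M)
    (hu : ∀ t ∈ Ico t0 T, ∀ x, |u t x| ≤ M * (1 + |x|))
    (hV : ∀ t ∈ Ico t0 T, ∀ x, 0 ≤ V t x ∧ V t x ≤ 1)
    (hgrow : ∀ t ∈ Icc t0 T, ∀ x, |P t x| ≤ C * (1 + |x|) ^ k)
    (hterm : ∀ x, Real.exp (-α * (1 + x ^ 2)) ≤ P T x) :
    ∀ t ∈ Icc t0 T, ∀ x, gb α (4 * (M * M) + 1) (2 * |M|) T t x ≤ P t x := by
  refine lin_lower (A := M * M) (G := 2 * |M|) (C := C * 2 ^ k) (k := k) (wt := fun t x =>
      (-(Pxx t x / 2 + b t * u t x * Px t x) + b t * (2 - 3 * V t x) * P t x)) (wx := Px) (wxx := Pxx)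
      (β := fun t x => b t * u t x) (γ := fun t x => -(b t * (2 - 3 * V t x)))
      (mul_self_nonneg M) (by positivity) hα hcont hPt hPx hPxx ?_ ?_ ?_ ?_ hterm
  · intro t ht x
    obtain ⟨h0, h1⟩ := hb t ht
    rw [abs_mul, abs_of_nonneg h0, mul_assoc]
    exact mul_le_mul h1 (hu t ht x) (abs_nonneg _) (h0.trans h1)
  · intro t ht x
    obtain ⟨h0, h1⟩ := hb t ht
    obtain ⟨h2, h3⟩ := hV t ht x
    have hM : 0 ≤ M := h0.trans h1
    rw [abs_neg, abs_mul, abs_of_nonneg h0, abs_of_nonneg hM]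
    have h4 : |2 - 3 * V t x| ≤ 2 := by
      rw [abs_le]; constructor <;> linarith
    calc b t * |2 - 3 * V t x| ≤ M * 2 := mul_le_mul h1 h4 (abs_nonneg _) hM
      _ = 2 * M := by ring
  · intro t ht x
    have : -(Pxx t x / 2 + b t * u t x * Px t x) + b t * (2 - 3 * V t x) * P t x + Pxx t x / 2
        + b t * u t x * Px t x + -(b t * (2 - 3 * V t x)) * P t x = 0 := by ring
    exact this.le
  · intro t ht x
    have h1 := (abs_le.1 (hgrow t ht x)).1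
    have h2 : (1 + |x|) ^ k ≤ (2 * (1 + x ^ 2)) ^ k := by
      apply pow_le_pow_left₀ (by positivity)
      have h6 : |x| ^ 2 = x ^ 2 := sq_abs x
      nlinarith [sq_nonneg (|x| - 1), abs_nonneg x]
    have hC : 0 ≤ C := by
      by_contra hneg
      push Not at hneg
      have h3 := hgrow t ht x
      have h4 : C * (1 + |x|) ^ k < 0 := mul_neg_of_neg_of_pos hneg (by positivity)
      have h5 := abs_nonneg (P t x)
      linarith
    have h7 : C * (1 + |x|) ^ k ≤ C * 2 ^ k * (1 + x ^ 2) ^ k := by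
      calc C * (1 + |x|) ^ k ≤ C * (2 * (1 + x ^ 2)) ^ k := mul_le_mul_of_nonneg_left h2 hC
        _ = C * 2 ^ k * (1 + x ^ 2) ^ k := by rw [mul_pow]; ring
    linarith

/-- **Gaussian lower bound of `P = V_x`** for the backward tip system. -/
theorem P_lower {t0 T M α : ℝ} {b : ℝ → ℝ} {u V P Px Pxx : ℝ → ℝ → ℝ}
    (h : BSys t0 T b u V P Px Pxx M) (hα : 0 ≤ α)
    (hT : ∀ x, Real.exp (-α * (1 + x ^ 2)) ≤ P T x) :
    ∀ t ∈ Icc t0 T, ∀ x, gb α (4 * (M * M) + 1) (2 * |M|) T t x ≤ P t x := by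
  refine P_lower_lin (C := |M|) (k := 0) hα h.cP h.hPx h.hPxx h.hPt
    (fun t ht => ⟨h.b_nonneg t ⟨ht.1, ht.2.le⟩, h.b_le t ⟨ht.1, ht.2.le⟩⟩) ?_
    (fun t ht x => ⟨(h.V_pos t ⟨ht.1, ht.2.le⟩ x).le, (h.V_lt t ⟨ht.1, ht.2.le⟩ x).le⟩) ?_ hT
  · intro t ht x
    rw [abs_of_nonneg (h.u_nonneg t ⟨ht.1, ht.2.le⟩ x)]
    exact h.u_le t ⟨ht.1, ht.2.le⟩ x
  · intro t ht x
    rw [abs_of_nonneg (h.P_nonneg t ht x), pow_zero, mul_one]
    exact (h.P_le t ht x).trans (le_abs_self M)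

/-- explicit form of `P_lower` -/
theorem P_lower' {T M α : ℝ} {b : ℝ → ℝ} {u V P Px Pxx : ℝ → ℝ → ℝ}
    (h : BSys 0 T b u V P Px Pxx M) (hα : 0 ≤ α)
    (hT : ∀ x, Real.exp (-α * (1 + x ^ 2)) ≤ P T x) :
    ∀ t ∈ Icc 0 T, ∀ x,
      Real.exp (-(α * Real.exp ((4 * (M * M) + 1) * (T - t))) * (1 + x ^ 2) - 2 * |M| * (T - t))
        ≤ P t x :=
  P_lower h hα hT

/-- **Strict positivity of `P = V_x`.** -/
theorem P_pos {T M α : ℝ} {b : ℝ → ℝ} {u V P Px Pxx : ℝ → ℝ → ℝ}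
    (h : BSys 0 T b u V P Px Pxx M) (hα : 0 < α)
    (hT : ∀ x, Real.exp (-α * (1 + x ^ 2)) ≤ P T x) :
    ∀ t ∈ Icc 0 T, ∀ x, 0 < P t x := fun t ht x =>
  (gb_pos _ _ _ _ _ _).trans_le (P_lower h hα.le hT t ht x)

end Crest.Agent.R146.StepPpos_172
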