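import Crest.Agent.R146.SPair_307

/-!
# Row 146, helper34: static tails of the exact stationary pair

One-sided comparison (no integrals): if `d' ≤ 0` wherever `d > 0` on `(-∞, X]` and `d → 0` (or merely
`limsup d ≤ 0`) at `-∞`, then `d ≤ 0`.  Consequences for the ratios `W/V` (left), `U/R` (right) and for `k`.
-/

set_option autoImplicit false

namespace Crest.Agent.R146.Tail_34

open Set Filter Topology SPair_307

/-! ### comparison lemmas -/

/-- if `d > 0` at `x0` and `d' ≤ 0` where `d > 0`, then `d` stays above `d x0 / 2` to the left. -/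
lemma back_half {d d' : ℝ → ℝ} {x0 : ℝ} (hd : ∀ x ≤ x0, HasDerivAt d (d' x) x)
    (hle : ∀ x ≤ x0, 0 < d x → d' x ≤ 0) (h0 : 0 < d x0) : ∀ x ≤ x0, d x0 / 2 < d x := by
  intro x1 hx1
  by_contra hcon
  push Not at hcon
  have hcont : ContinuousOn d (Icc x1 x0) := fun x hx =>
    (hd x hx.2).continuousAt.continuousWithinAt
  set S := Icc x1 x0 ∩ d ⁻¹' Iic (d x0 / 2) with hS
  have hScl : IsClosed S := hcont.preimage_isClosed_of_isClosed isClosed_Icc isClosed_Iic
  have hSne : S.Nonempty := ⟨x1, ⟨le_rfl, hx1⟩, hcon⟩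
  have hSbd : BddAbove S := ⟨x0, fun y hy => hy.1.2⟩
  have hzS : sSup S ∈ S := hScl.csSup_mem hSne hSbd
  set z := sSup S with hz
  have hzx0 : z ≤ x0 := hzS.1.2
  have hpos : ∀ y ∈ Ioc z x0, 0 < d y := by
    intro y hy
    by_contra hneg
    push Not at hneg
    have : y ∈ S := ⟨⟨hzS.1.1.trans hy.1.le, hy.2⟩, by
      show d y ≤ d x0 / 2
      linarith⟩
    exact absurd (le_csSup hSbd this) (not_le.2 hy.1)
  have hanti : AntitoneOn d (Icc z x0) := by
    apply antitoneOn_of_deriv_nonpos (convex_Icc z x0)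
    · exact hcont.mono (Icc_subset_Icc_left hzS.1.1)
    · intro y hy
      rw [interior_Icc] at hy
      exact (hd y hy.2.le).differentiableAt.differentiableWithinAt
    · intro y hy
      rw [interior_Icc] at hy
      rw [(hd y hy.2.le).deriv]
      exact hle y hy.2.le (hpos y ⟨hy.1, hy.2.le⟩)
  have h1 := hanti (left_mem_Icc.2 hzx0) (right_mem_Icc.2 hzx0) hzx0
  have h2 : d z ≤ d x0 / 2 := hzS.2
  linarith

/-- backward comparison on `(-∞, X]`. -/
lemma back_nonpos {d d' : ℝ → ℝ} {X : ℝ} (hd : ∀ x ≤ X, HasDerivAt d (d' x) x)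
    (hle : ∀ x ≤ X, 0 < d x → d' x ≤ 0)
    (hlim : ∀ ε > 0, ∀ x0 ≤ X, ∃ x ≤ x0, d x < ε) : ∀ x ≤ X, d x ≤ 0 := by
  intro x0 hx0
  by_contra hcon
  push Not at hcon
  obtain ⟨x, hx, hlt⟩ := hlim (d x0 / 2) (by linarith) x0 hx0
  have := back_half (fun x hx => hd x (hx.trans hx0)) (fun x hx => hle x (hx.trans hx0)) hcon x hx
  linarith

/-- forward comparison on `[X, ∞)`. -/
lemma fwd_nonpos {d d' : ℝ → ℝ} {X : ℝ} (hd : ∀ x, X ≤ x → HasDerivAt d (d' x) x)
    (hle : ∀ x, X ≤ x → 0 < d x → 0 ≤ d' x)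
    (hlim : ∀ ε > 0, ∀ x0, X ≤ x0 → ∃ x, x0 ≤ x ∧ d x < ε) : ∀ x, X ≤ x → d x ≤ 0 := by
  have key : ∀ y ≤ -X, d (-y) ≤ 0 := by
    apply back_nonpos (d := fun y => d (-y)) (d' := fun y => -d' (-y))
    · intro y hy
      have := (hd (-y) (by linarith)).comp y (hasDerivAt_neg y)
      refine HasDerivAt.congr_deriv this ?_
      ring
    · intro y hy hpos
      have := hle (-y) (by linarith) hpos
      linarith
    · intro ε hε x0 hx0
      obtain ⟨x, hx, hlt⟩ := hlim ε hε (-x0) (by linarith)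
      exact ⟨-x, by linarith, by simpa using hlt⟩
  intro x hx
  have := key (-x) (by linarith)
  simpa using this

/-- weighted backward comparison: `ω' d + ω d' ≤ 0` where `d > 0`, `ω d` small at `-∞`. -/
lemma back_nonpos_w {d d' ω ω' : ℝ → ℝ} {X : ℝ} (hd : ∀ x ≤ X, HasDerivAt d (d' x) x)
    (hω : ∀ x ≤ X, HasDerivAt ω (ω' x) x) (hpos : ∀ x ≤ X, 0 < ω x)
    (hle : ∀ x ≤ X, 0 < d x → ω' x * d x + ω x * d' x ≤ 0)
    (hlim : ∀ ε > 0, ∀ x0 ≤ X, ∃ x ≤ x0, ω x * d x < ε) : ∀ x ≤ X, d x ≤ 0 := by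
  have key := back_nonpos (d := fun x => ω x * d x) (d' := fun x => ω' x * d x + ω x * d' x)
    (fun x hx => (hω x hx).mul (hd x hx))
    (fun x hx h => hle x hx ((mul_pos_iff_of_pos_left (hpos x hx)).1 h)) hlim
  intro x hx
  have h1 := key x hx
  have h2 := hpos x hx
  by_contra hcon
  push Not at hcon
  exact absurd (mul_pos h2 hcon) (not_lt.2 h1)

/-- weighted forward comparison. -/
lemma fwd_nonpos_w {d d' ω ω' : ℝ → ℝ} {X : ℝ} (hd : ∀ x, X ≤ x → HasDerivAt d (d' x) x)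
    (hω : ∀ x, X ≤ x → HasDerivAt ω (ω' x) x) (hpos : ∀ x, X ≤ x → 0 < ω x)
    (hle : ∀ x, X ≤ x → 0 < d x → 0 ≤ ω' x * d x + ω x * d' x)
    (hlim : ∀ ε > 0, ∀ x0, X ≤ x0 → ∃ x, x0 ≤ x ∧ ω x * d x < ε) : ∀ x, X ≤ x → d x ≤ 0 := by
  have key := fwd_nonpos (d := fun x => ω x * d x) (d' := fun x => ω' x * d x + ω x * d' x)
    (fun x hx => (hω x hx).mul (hd x hx))
    (fun x hx h => hle x hx ((mul_pos_iff_of_pos_left (hpos x hx)).1 h)) hlim
  intro x hx
  have h1 := key x hx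
  have h2 := hpos x hx
  by_contra hcon
  push Not at hcon
  exact absurd (mul_pos h2 hcon) (not_lt.2 h1)

/-! ### decay at infinity -/

section pair

variable {c : ℝ} {W V I k : ℝ → ℝ} {lam : ℝ}

lemma sqrt_bound {t : ℝ} (ht : 0 < t) : Real.sqrt (t ^ 2 + 1) ≤ t + 1 / (2 * t) := by
  rw [Real.sqrt_le_left (by positivity)]
  have : (t + 1 / (2 * t)) ^ 2 = t ^ 2 + 1 + 1 / (4 * t ^ 2) := by field_simp; ring
  rw [this]
  have : 0 < 1 / (4 * t ^ 2) := by positivity
  linarith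

lemma W_left (h : SPair c W V I k lam) {x : ℝ} (hx : x < 0) : W x * (4 * (-x)) ≤ 1 := by
  have h1 := h.W_le x
  have ht : 0 < -x := by linarith
  have h2 := sqrt_bound ht
  have h3 : (-x) ^ 2 = x ^ 2 := by ring
  rw [h3] at h2
  have h4 : W x ≤ 1 / (4 * (-x)) := by
    have : 1 / (4 * (-x)) = (x + (-x + 1 / (2 * (-x)))) / 2 := by field_simp; ring
    rw [this]
    linarith
  calc W x * (4 * (-x)) ≤ 1 / (4 * (-x)) * (4 * (-x)) := by gcongr
    _ = 1 := by
      have : (4 * (-x)) ≠ 0 := by nlinarith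
      rw [one_div_mul_cancel this]

lemma U_right (h : SPair c W V I k lam) {x : ℝ} (hx : 0 < x) : (W x - x) * (4 * x) ≤ 1 := by
  have h1 := h.W_le x
  have h2 := sqrt_bound hx
  have h4 : W x - x ≤ 1 / (4 * x) := by
    have : 1 / (4 * x) = (x + (x + 1 / (2 * x))) / 2 - x := by field_simp; ring
    rw [this]
    linarith
  calc (W x - x) * (4 * x) ≤ 1 / (4 * x) * (4 * x) := by gcongr
    _ = 1 := by field_simp

lemma V_le_W (h : SPair c W V I k lam) (x : ℝ) : V x ≤ W (x + 1) := by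
  obtain ⟨z, hz, hzz⟩ := exists_hasDerivAt_eq_slope W V (show x < x + 1 by linarith)
    h.cW.continuousOn (fun y _ => h.dW y)
  have h1 := h.V_strictMono hz.1
  have h2 := h.W_pos x
  have h3 : V z = W (x + 1) - W x := by rw [hzz]; ring
  linarith

lemma R_le_U (h : SPair c W V I k lam) (x : ℝ) : 1 - V (x + 1) ≤ W x - x := by
  obtain ⟨z, hz, hzz⟩ := exists_hasDerivAt_eq_slope W V (show x < x + 1 by linarith)
    h.cW.continuousOn (fun y _ => h.dW y)
  have h1 := h.V_strictMono hz.2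
  have h2 := h.U_pos (x + 1)
  have h3 : V z = W (x + 1) - W x := by rw [hzz]; ring
  linarith

lemma W_small (h : SPair c W V I k lam) {ε : ℝ} (hε : 0 < ε) (x0 : ℝ) :
    ∃ x ≤ x0, W x < ε ∧ V x < ε := by
  obtain ⟨x, h1, h2⟩ : ∃ x : ℝ, x ≤ x0 ∧ x < -2 - 1 / ε :=
    ⟨min x0 (-3 - 1 / ε), min_le_left _ _, lt_of_le_of_lt (min_le_right _ _) (by linarith)⟩
  have hpos : 0 < 1 / ε := by positivity
  have key : ∀ y : ℝ, y < -1 - 1 / ε → W y < ε := by
    intro y hy
    have h3 := W_left h (x := y) (by linarith)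
    by_contra hcon
    push Not at hcon
    have h4 : ε * (4 * (-y)) ≤ 1 := le_trans (by gcongr; linarith) h3
    have h5 : 1 / ε < -y := by linarith
    rw [div_lt_iff₀ hε] at h5
    nlinarith
  exact ⟨x, h1, key x (by linarith), lt_of_le_of_lt (V_le_W h x) (key (x + 1) (by linarith))⟩

lemma U_small (h : SPair c W V I k lam) {ε : ℝ} (hε : 0 < ε) (x0 : ℝ) :
    ∃ x, x0 ≤ x ∧ W x - x < ε ∧ 1 - V x < ε := by
  obtain ⟨x, h1, h2⟩ : ∃ x : ℝ, x0 ≤ x ∧ 2 + 1 / ε < x :=
    ⟨max x0 (3 + 1 / ε), le_max_left _ _, lt_of_lt_of_le (by linarith) (le_max_right _ _)⟩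
  have hpos : 0 < 1 / ε := by positivity
  have key : ∀ y : ℝ, 1 + 1 / ε < y → W y - y < ε := by
    intro y hy
    have h3 := U_right h (x := y) (by linarith)
    by_contra hcon
    push Not at hcon
    have h4 : ε * (4 * y) ≤ 1 := le_trans (by gcongr; linarith) h3
    have h5 : 1 / ε < y := by linarith
    rw [div_lt_iff₀ hε] at h5
    nlinarith
  refine ⟨x, h1, key x (by linarith), lt_of_le_of_lt ?_ (key (x - 1) (by linarith))⟩
  have := R_le_U h (x - 1)
  simpa using this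

/-- `I = (1 - c) U + 2 A R`. -/
lemma eqI' (h : SPair c W V I k lam) (x : ℝ) :
    I x = (1 - c) * (W x - x) + 2 * Ad c W x * (1 - V x) := by
  rw [h.eqI x]
  unfold Ad
  ring

/-! ### ratios -/

/-- supersolution for `W / V` on the left. -/
theorem W_le_mul_V (h : SPair c W V I k lam) {φ φ' : ℝ → ℝ} {X : ℝ}
    (hφ : ∀ x ≤ X, HasDerivAt φ (φ' x) x) (hφ0 : ∀ x ≤ X, 0 ≤ φ x)
    (hsup : ∀ x ≤ X, 1 + 2 * Ad c W x * φ x - (1 + c) * φ x ^ 2 ≤ φ' x) :
    ∀ x ≤ X, W x ≤ φ x * V x := by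
  have key : ∀ x ≤ X, W x - φ x * V x ≤ 0 := by
    apply back_nonpos (d := fun x => W x - φ x * V x)
      (d' := fun x => V x - (φ' x * V x + φ x * I x))
    · intro x hx
      exact (h.dW x).sub ((hφ x hx).mul (h.dV x))
    · intro x hx hpos
      have e : V x - (φ' x * V x + φ x * I x)
          = V x * (1 + 2 * Ad c W x * φ x - (1 + c) * φ x ^ 2 - φ' x)
            - (1 + c) * φ x * (W x - φ x * V x) := by
        rw [h.eqI x]; ring
      simp only [e]
      have h1 := hsup x hx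
      have h2 := h.V_pos x
      have h3 := hφ0 x hx
      have h4 := h.c_pos
      have h5 : V x * (1 + 2 * Ad c W x * φ x - (1 + c) * φ x ^ 2 - φ' x) ≤ 0 :=
        mul_nonpos_of_nonneg_of_nonpos h2.le (by linarith)
      have h6 : 0 ≤ (1 + c) * φ x * (W x - φ x * V x) := by positivity
      linarith
    · intro ε hε x0 hx0
      obtain ⟨x, hx, h1, h2⟩ := W_small h hε x0
      refine ⟨x, hx, ?_⟩
      have := mul_nonneg (hφ0 x (hx.trans hx0)) (h.V_pos x).le
      linarith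
  intro x hx
  have := key x hx
  linarith

/-- subsolution for `W / V` on the left. -/
theorem mul_V_le_W (h : SPair c W V I k lam) {φ φ' : ℝ → ℝ} {X B : ℝ}
    (hφ : ∀ x ≤ X, HasDerivAt φ (φ' x) x) (hφ0 : ∀ x ≤ X, 0 ≤ φ x) (hφB : ∀ x ≤ X, φ x ≤ B)
    (hsub : ∀ x ≤ X, φ' x ≤ 1 + 2 * Ad c W x * φ x - (1 + c) * φ x ^ 2) :
    ∀ x ≤ X, φ x * V x ≤ W x := by
  have key : ∀ x ≤ X, φ x * V x - W x ≤ 0 := by
    apply back_nonpos (d := fun x => φ x * V x - W x)
      (d' := fun x => (φ' x * V x + φ x * I x) - V x)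
    · intro x hx
      exact ((hφ x hx).mul (h.dV x)).sub (h.dW x)
    · intro x hx hpos
      have e : (φ' x * V x + φ x * I x) - V x
          = -(V x * (1 + 2 * Ad c W x * φ x - (1 + c) * φ x ^ 2 - φ' x))
            - (1 + c) * φ x * (φ x * V x - W x) := by
        rw [h.eqI x]; ring
      simp only [e]
      have h1 := hsub x hx
      have h2 := h.V_pos x
      have h3 := hφ0 x hx
      have h4 := h.c_pos
      have h5 : 0 ≤ V x * (1 + 2 * Ad c W x * φ x - (1 + c) * φ x ^ 2 - φ' x) :=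
        mul_nonneg h2.le (by linarith)
      have h6 : 0 ≤ (1 + c) * φ x * (φ x * V x - W x) := by positivity
      linarith
    · intro ε hε x0 hx0
      have hB : 0 ≤ B := (hφ0 X le_rfl).trans (hφB X le_rfl)
      obtain ⟨x, hx, h1, h2⟩ := W_small h (ε := ε / (B + 1)) (by positivity) x0
      refine ⟨x, hx, ?_⟩
      have h3 := hφB x (hx.trans hx0)
      have h4 := h.W_pos x
      have h5 := h.V_pos x
      have h6 : φ x * V x ≤ (B + 1) * V x := by
        have : φ x ≤ B + 1 := by linarith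
        gcongr
      rw [lt_div_iff₀ (by positivity)] at h2
      nlinarith
  intro x hx
  have := key x hx
  linarith

/-- supersolution for `U / R` on the right. -/
theorem U_le_mul_R (h : SPair c W V I k lam) {φ φ' : ℝ → ℝ} {X : ℝ}
    (hφ : ∀ x, X ≤ x → HasDerivAt φ (φ' x) x) (hφ0 : ∀ x, X ≤ x → 0 ≤ φ x)
    (hsup : ∀ x, X ≤ x → φ' x ≤ -1 + 2 * Ad c W x * φ x + (1 - c) * φ x ^ 2) :
    ∀ x, X ≤ x → W x - x ≤ φ x * (1 - V x) := by
  have key : ∀ x, X ≤ x → (W x - x) - φ x * (1 - V x) ≤ 0 := by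
    apply fwd_nonpos (d := fun x => (W x - x) - φ x * (1 - V x))
      (d' := fun x => (V x - 1) - (φ' x * (1 - V x) + φ x * (0 - I x)))
    · intro x hx
      exact ((h.dW x).sub (hasDerivAt_id x)).sub
        ((hφ x hx).mul ((hasDerivAt_const x (1 : ℝ)).sub (h.dV x)))
    · intro x hx hpos
      have e : (V x - 1) - (φ' x * (1 - V x) + φ x * (0 - I x))
          = (1 - V x) * (-1 + 2 * Ad c W x * φ x + (1 - c) * φ x ^ 2 - φ' x)
            + (1 - c) * φ x * ((W x - x) - φ x * (1 - V x)) := by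
        rw [eqI' h x]; ring
      simp only [e]
      have h1 := hsup x hx
      have h2 := h.V_lt x
      have h3 := hφ0 x hx
      have h4 := h.c_lt
      have h5 : 0 ≤ (1 - V x) * (-1 + 2 * Ad c W x * φ x + (1 - c) * φ x ^ 2 - φ' x) :=
        mul_nonneg (by linarith) (by linarith)
      have h6 : 0 ≤ (1 - c) * φ x * ((W x - x) - φ x * (1 - V x)) :=
        mul_nonneg (mul_nonneg (by linarith) h3) hpos.le
      linarith
    · intro ε hε x0 hx0
      obtain ⟨x, hx, h1, h2⟩ := U_small h hε x0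
      refine ⟨x, hx, ?_⟩
      have := mul_nonneg (hφ0 x (hx0.trans hx)) (sub_nonneg.2 (h.V_lt x).le)
      linarith
  intro x hx
  have := key x hx
  linarith

/-- subsolution for `U / R` on the right. -/
theorem mul_R_le_U (h : SPair c W V I k lam) {φ φ' : ℝ → ℝ} {X B : ℝ}
    (hφ : ∀ x, X ≤ x → HasDerivAt φ (φ' x) x) (hφ0 : ∀ x, X ≤ x → 0 ≤ φ x)
    (hφB : ∀ x, X ≤ x → φ x ≤ B)
    (hsub : ∀ x, X ≤ x → -1 + 2 * Ad c W x * φ x + (1 - c) * φ x ^ 2 ≤ φ' x) :
    ∀ x, X ≤ x → φ x * (1 - V x) ≤ W x - x := by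
  have key : ∀ x, X ≤ x → φ x * (1 - V x) - (W x - x) ≤ 0 := by
    apply fwd_nonpos (d := fun x => φ x * (1 - V x) - (W x - x))
      (d' := fun x => (φ' x * (1 - V x) + φ x * (0 - I x)) - (V x - 1))
    · intro x hx
      exact ((hφ x hx).mul ((hasDerivAt_const x (1 : ℝ)).sub (h.dV x))).sub
        ((h.dW x).sub (hasDerivAt_id x))
    · intro x hx hpos
      have e : (φ' x * (1 - V x) + φ x * (0 - I x)) - (V x - 1)
          = -((1 - V x) * (-1 + 2 * Ad c W x * φ x + (1 - c) * φ x ^ 2 - φ' x))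
            + (1 - c) * φ x * (φ x * (1 - V x) - (W x - x)) := by
        rw [eqI' h x]; ring
      simp only [e]
      have h1 := hsub x hx
      have h2 := h.V_lt x
      have h3 := hφ0 x hx
      have h4 := h.c_lt
      have h5 : (1 - V x) * (-1 + 2 * Ad c W x * φ x + (1 - c) * φ x ^ 2 - φ' x) ≤ 0 :=
        mul_nonpos_of_nonneg_of_nonpos (by linarith) (by linarith)
      have h6 : 0 ≤ (1 - c) * φ x * (φ x * (1 - V x) - (W x - x)) :=
        mul_nonneg (mul_nonneg (by linarith) h3) hpos.le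
      linarith
    · intro ε hε x0 hx0
      have hB : 0 ≤ B := (hφ0 X le_rfl).trans (hφB X le_rfl)
      obtain ⟨x, hx, h1, h2⟩ := U_small h (ε := ε / (B + 1)) (by positivity) x0
      refine ⟨x, hx, ?_⟩
      have h3 := hφB x (hx0.trans hx)
      have h4 := h.U_pos x
      have h5 : 0 < 1 - V x := sub_pos.2 (h.V_lt x)
      have h6 : φ x * (1 - V x) ≤ (B + 1) * (1 - V x) := by
        have : φ x ≤ B + 1 := by linarith
        gcongr
      rw [lt_div_iff₀ (by positivity)] at h2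
      nlinarith
  intro x hx
  have := key x hx
  linarith

/-! ### explicit ratios -/

lemma alg1 (A c x : ℝ) {D : ℝ} (hD : D ≠ 0) :
    (1 + 2 * A * (-x / D) - (1 + c) * (-x / D) ^ 2) * D ^ 2
      = D ^ 2 - 2 * A * x * D - (1 + c) * x ^ 2 := by
  field_simp
  ring

lemma alg2 (A c x : ℝ) {D : ℝ} (hD : D ≠ 0) :
    (-1 + 2 * A * (x / D) + (1 - c) * (x / D) ^ 2) * D ^ 2
      = -D ^ 2 + 2 * A * x * D + (1 - c) * x ^ 2 := by
  field_simp

/-- `W/V ≤ t / ((1-c) t² + β)`, `t = -x`, for `x ≤ X < 0`. -/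
theorem W_le_left (h : SPair c W V I k lam) {β X : ℝ} (hX : X < 0) (hβ : 0 ≤ β)
    (hcond : X ^ 2 * ((1 - c) * β - 2 + c * (1 - c) / 2) + β ^ 2 + β + c * β / 2 ≤ 0) :
    ∀ x ≤ X, W x * ((1 - c) * x ^ 2 + β) ≤ (-x) * V x := by
  have hc1 : 0 < 1 - c := sub_pos.2 h.c_lt
  have hD : ∀ x ≤ X, 0 < (1 - c) * x ^ 2 + β := by
    intro x hx
    have : 0 < x ^ 2 := by have : x ≠ 0 := by linarith
                           positivity
    positivity
  have key := W_le_mul_V h (φ := fun x => (-x) / ((1 - c) * x ^ 2 + β))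
    (φ' := fun x => ((1 - c) * x ^ 2 - β) / ((1 - c) * x ^ 2 + β) ^ 2) (X := X) ?_ ?_ ?_
  · intro x hx
    have h1 := key x hx
    have h2 := hD x hx
    rw [div_mul_eq_mul_div, le_div_iff₀ h2] at h1
    exact h1
  · intro x hx
    have h2 := hD x hx
    have h3 : HasDerivAt (fun x : ℝ => (1 - c) * x ^ 2 + β) ((1 - c) * (2 * x)) x := by
      have := ((hasDerivAt_pow 2 x).const_mul (1 - c)).add_const β
      simpa using this
    have h4 := (hasDerivAt_neg x).div h3 h2.ne'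
    refine h4.congr_deriv ?_
    congr 1
    ring
  · intro x hx
    exact div_nonneg (by linarith) (hD x hx).le
  · intro x hx
    have h2 := hD x hx
    have hx0 : x < 0 := by linarith
    have hW := W_left h hx0
    have hWp := h.W_pos x
    have hcp := h.c_pos
    rw [le_div_iff₀ (by positivity)]
    have e : (1 + 2 * Ad c W x * (-x / ((1 - c) * x ^ 2 + β))
        - (1 + c) * (-x / ((1 - c) * x ^ 2 + β)) ^ 2) * ((1 - c) * x ^ 2 + β) ^ 2
        = ((1 - c) * x ^ 2 + β) ^ 2 - 2 * Ad c W x * x * ((1 - c) * x ^ 2 + β)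
          - (1 + c) * x ^ 2 := alg1 _ _ _ h2.ne'
    rw [e]
    have e2 : ((1 - c) * x ^ 2 + β) ^ 2 - 2 * Ad c W x * x * ((1 - c) * x ^ 2 + β)
          - (1 + c) * x ^ 2 - ((1 - c) * x ^ 2 - β)
        = x ^ 2 * ((1 - c) * β - 2) + β ^ 2 + β
          + c / 2 * ((W x * (4 * -x)) * ((1 - c) * x ^ 2 + β)) := by
      unfold Ad; ring
    have h5 : (W x * (4 * -x)) * ((1 - c) * x ^ 2 + β) ≤ 1 * ((1 - c) * x ^ 2 + β) := by gcongr
    have h6 : X ^ 2 ≤ x ^ 2 := by nlinarith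
    have h7 : (1 - c) * β - 2 + c * (1 - c) / 2 ≤ 0 := by
      by_contra hcon
      push Not at hcon
      have : 0 < X ^ 2 := by have : X ≠ 0 := by linarith
                             positivity
      nlinarith [mul_pos this hcon, mul_nonneg hcp.le hβ]
    have h8 : x ^ 2 * ((1 - c) * β - 2 + c * (1 - c) / 2)
        ≤ X ^ 2 * ((1 - c) * β - 2 + c * (1 - c) / 2) := by nlinarith
    have h9 : c / 2 * ((W x * (4 * -x)) * ((1 - c) * x ^ 2 + β))
        ≤ c / 2 * (1 * ((1 - c) * x ^ 2 + β)) := by gcongr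
    nlinarith

/-- `W/V ≥ t / ((1-c) t² + β)`, `t = -x ≥ 0`, if `(1-c) β ≥ 2`. -/
theorem le_W_left (h : SPair c W V I k lam) {β : ℝ} (hβ : 2 ≤ (1 - c) * β) :
    ∀ x ≤ 0, (-x) * V x ≤ W x * ((1 - c) * x ^ 2 + β) := by
  have hc1 : 0 < 1 - c := sub_pos.2 h.c_lt
  have hβ0 : 0 < β := by
    by_contra hcon
    push Not at hcon
    nlinarith
  have hD : ∀ x : ℝ, 0 < (1 - c) * x ^ 2 + β := fun x => by positivity
  have key := mul_V_le_W h (φ := fun x => (-x) / ((1 - c) * x ^ 2 + β))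
    (φ' := fun x => ((1 - c) * x ^ 2 - β) / ((1 - c) * x ^ 2 + β) ^ 2) (X := 0)
    (B := 1 / β + 1 / (1 - c)) ?_ ?_ ?_ ?_
  · intro x hx
    have h1 := key x hx
    have h2 := hD x
    rw [div_mul_eq_mul_div, div_le_iff₀ h2] at h1
    exact h1
  · intro x hx
    have h2 := hD x
    have h3 : HasDerivAt (fun x : ℝ => (1 - c) * x ^ 2 + β) ((1 - c) * (2 * x)) x := by
      have := ((hasDerivAt_pow 2 x).const_mul (1 - c)).add_const β
      simpa using this
    have h4 := (hasDerivAt_neg x).div h3 h2.ne'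
    refine h4.congr_deriv ?_
    congr 1
    ring
  · intro x hx
    exact div_nonneg (by linarith) (hD x).le
  · intro x hx
    rw [div_le_iff₀ (hD x)]
    have e : (1 / β + 1 / (1 - c)) * ((1 - c) * x ^ 2 + β)
        = 1 + x ^ 2 + ((1 - c) * x ^ 2 / β + β / (1 - c)) := by field_simp; ring
    rw [e]
    have : 0 ≤ (1 - c) * x ^ 2 / β + β / (1 - c) := by positivity
    nlinarith [sq_nonneg (x + 1)]
  · intro x hx
    have h2 := hD x
    have hWp := h.W_pos x
    have hcp := h.c_pos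
    rw [div_le_iff₀ (by positivity)]
    have e : (1 + 2 * Ad c W x * (-x / ((1 - c) * x ^ 2 + β))
        - (1 + c) * (-x / ((1 - c) * x ^ 2 + β)) ^ 2) * ((1 - c) * x ^ 2 + β) ^ 2
        = ((1 - c) * x ^ 2 + β) ^ 2 - 2 * Ad c W x * x * ((1 - c) * x ^ 2 + β)
          - (1 + c) * x ^ 2 := alg1 _ _ _ h2.ne'
    rw [e]
    have e2 : ((1 - c) * x ^ 2 + β) ^ 2 - 2 * Ad c W x * x * ((1 - c) * x ^ 2 + β)
          - (1 + c) * x ^ 2 - ((1 - c) * x ^ 2 - β)
        = x ^ 2 * ((1 - c) * β - 2) + β ^ 2 + β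
          + 2 * c * W x * (-x) * ((1 - c) * x ^ 2 + β) := by
      unfold Ad; ring
    have h5 : 0 ≤ 2 * c * W x * (-x) * ((1 - c) * x ^ 2 + β) := by
      have : 0 ≤ -x := by linarith
      positivity
    have h6 : 0 ≤ x ^ 2 * ((1 - c) * β - 2) := mul_nonneg (sq_nonneg x) (by linarith)
    nlinarith

/-- `U/R ≤ t / ((1+c) t² + β)` for `t = x ≥ X > 0`. -/
theorem U_le_right (h : SPair c W V I k lam) {β X : ℝ} (hX : 0 < X) (hβ : 0 ≤ β)
    (hcond : β ^ 2 + β ≤ X ^ 2 * (2 - (1 + c) * β)) :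
    ∀ x, X ≤ x → (W x - x) * ((1 + c) * x ^ 2 + β) ≤ x * (1 - V x) := by
  have hc1 : 0 < 1 + c := by linarith [h.c_pos]
  have hD : ∀ x, X ≤ x → 0 < (1 + c) * x ^ 2 + β := by
    intro x hx
    have : 0 < x ^ 2 := by have : x ≠ 0 := by linarith
                           positivity
    positivity
  have key := U_le_mul_R h (φ := fun x => x / ((1 + c) * x ^ 2 + β))
    (φ' := fun x => (β - (1 + c) * x ^ 2) / ((1 + c) * x ^ 2 + β) ^ 2) (X := X) ?_ ?_ ?_
  · intro x hx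
    have h1 := key x hx
    have h2 := hD x hx
    rw [div_mul_eq_mul_div, le_div_iff₀ h2] at h1
    exact h1
  · intro x hx
    have h2 := hD x hx
    have h3 : HasDerivAt (fun x : ℝ => (1 + c) * x ^ 2 + β) ((1 + c) * (2 * x)) x := by
      have := ((hasDerivAt_pow 2 x).const_mul (1 + c)).add_const β
      simpa using this
    have h4 := (hasDerivAt_id x).div h3 h2.ne'
    refine h4.congr_deriv ?_
    congr 1
    simp only [id]
    ring
  · intro x hx
    exact div_nonneg (by linarith) (hD x hx).le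
  · intro x hx
    have h2 := hD x hx
    have hx0 : 0 < x := by linarith
    have hUp : 0 < W x - x := sub_pos.2 (h.U_pos x)
    have hcp := h.c_pos
    rw [div_le_iff₀ (by positivity)]
    have e : (-1 + 2 * Ad c W x * (x / ((1 + c) * x ^ 2 + β))
        + (1 - c) * (x / ((1 + c) * x ^ 2 + β)) ^ 2) * ((1 + c) * x ^ 2 + β) ^ 2
        = -((1 + c) * x ^ 2 + β) ^ 2 + 2 * Ad c W x * x * ((1 + c) * x ^ 2 + β)
          + (1 - c) * x ^ 2 := alg2 _ _ _ h2.ne'
    rw [e]
    have e2 : -((1 + c) * x ^ 2 + β) ^ 2 + 2 * Ad c W x * x * ((1 + c) * x ^ 2 + β)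
          + (1 - c) * x ^ 2 - (β - (1 + c) * x ^ 2)
        = x ^ 2 * (2 - (1 + c) * β) - (β ^ 2 + β)
          + 2 * c * (W x - x) * x * ((1 + c) * x ^ 2 + β) := by
      unfold Ad; ring
    have h5 : 0 ≤ 2 * c * (W x - x) * x * ((1 + c) * x ^ 2 + β) := by positivity
    have h6 : X ^ 2 ≤ x ^ 2 := by nlinarith
    have h7 : 0 ≤ 2 - (1 + c) * β := by
      by_contra hcon
      push Not at hcon
      have : 0 < X ^ 2 := by positivity
      nlinarith [mul_pos this (neg_pos.2 hcon)]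
    have h8 : X ^ 2 * (2 - (1 + c) * β) ≤ x ^ 2 * (2 - (1 + c) * β) := by gcongr
    nlinarith

/-- `U/R ≥ t / ((1+c) t² + β)` for `t = x ≥ X > 0`, if `(1+c) β ≥ 2 + c(1+c)/2` and `β ≥ c/2 - 1`
(automatic). -/
theorem le_U_right (h : SPair c W V I k lam) {β : ℝ} (hβ : 2 + c * (1 + c) / 2 ≤ (1 + c) * β) :
    ∀ x, 0 < x → x * (1 - V x) ≤ (W x - x) * ((1 + c) * x ^ 2 + β) := by
  intro X hX
  have hcp := h.c_pos
  have hcl := h.c_lt
  have hc1 : 0 < 1 + c := by linarith [h.c_pos]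
  have hβ0 : 0 < β := by
    by_contra hcon
    push Not at hcon
    nlinarith
  have hβ1 : 1 ≤ β := by
    by_contra hcon
    push Not at hcon
    nlinarith
  have hD : ∀ x : ℝ, 0 < (1 + c) * x ^ 2 + β := fun x => by positivity
  have key := mul_R_le_U h (φ := fun x => x / ((1 + c) * x ^ 2 + β))
    (φ' := fun x => (β - (1 + c) * x ^ 2) / ((1 + c) * x ^ 2 + β) ^ 2) (X := X)
    (B := 1) ?_ ?_ ?_ ?_
  · have h1 := key X le_rfl
    have h2 := hD X
    rw [div_mul_eq_mul_div, div_le_iff₀ h2] at h1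
    exact h1
  · intro x hx
    have h2 := hD x
    have h3 : HasDerivAt (fun x : ℝ => (1 + c) * x ^ 2 + β) ((1 + c) * (2 * x)) x := by
      have := ((hasDerivAt_pow 2 x).const_mul (1 + c)).add_const β
      simpa using this
    have h4 := (hasDerivAt_id x).div h3 h2.ne'
    refine h4.congr_deriv ?_
    congr 1
    simp only [id]
    ring
  · intro x hx
    exact div_nonneg (by linarith) (hD x).le
  · intro x hx
    rw [div_le_iff₀ (hD x)]
    nlinarith [sq_nonneg (x - 1)]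
  · intro x hx
    have h2 := hD x
    have hx0 : 0 < x := by linarith
    have hU := U_right h hx0
    rw [le_div_iff₀ (by positivity)]
    have e : (-1 + 2 * Ad c W x * (x / ((1 + c) * x ^ 2 + β))
        + (1 - c) * (x / ((1 + c) * x ^ 2 + β)) ^ 2) * ((1 + c) * x ^ 2 + β) ^ 2
        = -((1 + c) * x ^ 2 + β) ^ 2 + 2 * Ad c W x * x * ((1 + c) * x ^ 2 + β)
          + (1 - c) * x ^ 2 := alg2 _ _ _ h2.ne'
    rw [e]
    have e2 : -((1 + c) * x ^ 2 + β) ^ 2 + 2 * Ad c W x * x * ((1 + c) * x ^ 2 + β)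
          + (1 - c) * x ^ 2 - (β - (1 + c) * x ^ 2)
        = x ^ 2 * (2 - (1 + c) * β) - (β ^ 2 + β)
          + c / 2 * (((W x - x) * (4 * x)) * ((1 + c) * x ^ 2 + β)) := by
      unfold Ad; ring
    have h5 : ((W x - x) * (4 * x)) * ((1 + c) * x ^ 2 + β) ≤ 1 * ((1 + c) * x ^ 2 + β) := by
      gcongr
    have h9 : c / 2 * (((W x - x) * (4 * x)) * ((1 + c) * x ^ 2 + β))
        ≤ c / 2 * (1 * ((1 + c) * x ^ 2 + β)) := by gcongr
    have h10 : 0 ≤ x ^ 2 * ((1 + c) * β - (2 + c * (1 + c) / 2)) :=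
      mul_nonneg (sq_nonneg x) (by linarith)
    nlinarith

end pair

end Crest.Agent.R146.Tail_34
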