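import Crest.Agent.R146.Cell_534
import Crest.Agent.R146.TiltA_534

/-!
Row 146 (PT-STEP, helper534): tilted averages on a cell of a step datum:
`tv A z a s φ x = H_{√(s-a)} (φ e^{zψ(s,·)}) (x) / e^{zψ(a,x)}`; bounds, continuity, time derivative.
-/

set_option autoImplicit false

namespace Crest.Agent.R146.TiltB_534

open MeasureTheory ProbabilityTheory Filter Topology Set
open Crest.ProbabilityR.InvariantGlass
open Crest.Agent.R146.Hg_534 Crest.Agent.R146.PB_534 Crest.Agent.R146.GG_534 Crest.Agent.R146.SG_534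
open Crest.Agent.R146.StepDef_791 Crest.Agent.R146.Cell_534 Crest.Agent.R146.TiltA_534

noncomputable section

/-- heat extension of the terminal exponential and its derivatives -/
def hk (k : ℝ → ℝ) (b s y : ℝ) : ℝ := H (Real.sqrt (b - s)) k y

theorem hk_cont {k : ℝ → ℝ} (hk' : PG k) (b : ℝ) :
    Continuous (fun q : ℝ × ℝ => hk k b q.1 q.2) := by
  unfold hk
  exact (H_continuous hk'.eg).comp (by fun_prop :
    Continuous fun q : ℝ × ℝ => ((Real.sqrt (b - q.1), q.2) : ℝ × ℝ))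

theorem hk_x {k : ℝ → ℝ} (h : Sm k) (b s y : ℝ) :
    HasDerivAt (hk k b s) (hk (deriv k) b s y) y :=
  Hg_534.H_deriv_x h.pg.eg h.deriv.pg.eg h.hd _ y

theorem hk_t {k : ℝ → ℝ} (h : Sm k) {b s : ℝ} (hs : s < b) (y : ℝ) :
    HasDerivAt (fun s => hk k b s y) (-(1 / 2) * hk (deriv (deriv k)) b s y) s := by
  have h1 := Hg_534.H_deriv_v h.pg.eg h.deriv.pg.eg h.deriv.deriv.pg.eg h.hd h.deriv.hd
    (v := b - s) (by linarith) y
  have h2 : HasDerivAt (fun s : ℝ => b - s) (-1) s := by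
    simpa using (hasDerivAt_id s).const_sub b
  have h3 := h1.comp s h2
  refine h3.congr_deriv ?_
  unfold hk
  ring

theorem hk_bd {k : ℝ → ℝ} (h : PG k) : ∃ (C : ℝ) (n : ℕ), 0 ≤ C ∧
    ∀ b s, b - s ≤ 1 → ∀ y, |hk k b s y| ≤ C * (1 + |y|) ^ n := by
  obtain ⟨C, n, hC, hb⟩ := h.bd
  refine ⟨C * mc n 1, n, mul_nonneg hC (mc_nonneg _ _), fun b s hbs y => ?_⟩
  refine H_poly hC hb ?_ y
  rw [abs_of_nonneg (Real.sqrt_nonneg _), abs_one, ← Real.sqrt_one]
  exact Real.sqrt_le_sqrt hbs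

/-- tilted average over the time interval `[a,s]` of a cell of weight `z` -/
def tv (A : SD) (z a s : ℝ) (φ : ℝ → ℝ) (x : ℝ) : ℝ :=
  H (Real.sqrt (s - a)) (fun y => φ y * Gz A z s y) x / Gz A z a x

section cell

variable {A : SD} {a b z : ℝ}

theorem IsCell.len (hc : IsCell A a b z) {s t : ℝ} (hs : s ∈ Icc a b) (ht : t ∈ Icc a b) :
    t - s ≤ 1 := by
  have h1 := hc.a0
  have h2 := hc.bT
  have h3 := A.hT1
  linarith [hs.1, ht.2]

theorem Gz_hk (hB : Back A) (hc : IsCell A a b z) {s : ℝ} (hs : s ∈ Icc a b) :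
    Gz A z s = hk (Gz A z b) b s := Gz_cell hB hc hs

theorem hk1 (hB : Back A) (hc : IsCell A a b z) {s : ℝ} (hs : s ∈ Icc a b) (y : ℝ) :
    hk (deriv (Gz A z b)) b s y = z / A.D s * A.u s y * Gz A z s y := by
  have h1 := hk_x (Gz_sm hB hc.z0.le (hc.mem hc.bI)) b s y
  rw [← Gz_hk hB hc hs] at h1
  exact h1.unique (Gz_x hB z (hc.mem hs) y)

/-- `D ≥ d` gives an upper bound of the tilt -/
theorem exists_M (hB : Back A) : ∃ M, 0 ≤ M ∧ ∀ t ∈ Icc 0 A.T, ∀ x, A.u t x ≤ M * (1 + |x|) := by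
  obtain ⟨M, h⟩ := hB.bsys
  refine ⟨M, ?_, fun t ht x => h.u_le t ht x⟩
  have h1 := h.u_le 0 ⟨le_rfl, A.hT0.le⟩ 0
  have h2 := h.u_nonneg 0 ⟨le_rfl, A.hT0.le⟩ 0
  simp at h1
  linarith

theorem u_anti (hB : Back A) {t : ℝ} (ht : t ∈ Icc 0 A.T) : Antitone (A.u t) := by
  obtain ⟨M, h⟩ := hB.bsys
  refine antitone_of_deriv_nonpos (fun x => (hB.u_x t ht x).differentiableAt) fun x => ?_
  rw [(hB.u_x t ht x).deriv]
  linarith [h.V_lt t ht x]

theorem ratio_le (hc : IsCell A a b z) (s : ℝ) : z / A.D s ≤ z / A.d :=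
  div_le_div_of_nonneg_left hc.z0.le A.hd (A.d_le_D s)

/-- **polynomial bound**, uniform on the cell -/
theorem tv_abs (hB : Back A) (hc : IsCell A a b z) (n : ℕ) : ∃ K, 0 ≤ K ∧ ∀ (C : ℝ), 0 ≤ C →
    ∀ φ : ℝ → ℝ, Continuous φ → (∀ y, |φ y| ≤ C * (1 + |y|) ^ n) → ∀ s ∈ Icc a b, ∀ x,
      H (Real.sqrt (s - a)) (fun y => |φ y * Gz A z s y|) x ≤
        C * K * (1 + |x|) ^ (3 * n) * Gz A z a x := by
  obtain ⟨M, hM, hu⟩ := exists_M hB
  set M' := z / A.d * M with hM'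
  have hM0 : 0 ≤ M' := mul_nonneg (div_nonneg hc.z0.le A.hd.le) hM
  refine ⟨2 ^ n * (1 + ce n * (1 + M') ^ (2 * n)), ?_, fun C hC φ hφ hb s hs x => ?_⟩
  · have := ce_nonneg n
    positivity
  have hm := hc.mem hs
  have hr0 : 0 ≤ z / A.D s := div_nonneg hc.z0.le (A.D_pos s).le
  obtain ⟨M2, h⟩ := hB.bsys
  have h1 := tilt_poly (Gz_sm hB hc.z0.le hm) (fun y => Gz_pos A z s y)
    (L := fun y => z / A.D s * A.u s y) (fun y => Gz_x hB z hm y)
    (fun y y' hy => mul_le_mul_of_nonneg_left (u_anti hB hm hy) hr0)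
    (fun y => mul_nonneg hr0 (h.u_nonneg s hm y)) (M := M')
    (fun y => by
      have h2 := mul_le_mul (ratio_le hc s) (hu s hm y) (h.u_nonneg s hm y)
        (div_nonneg hc.z0.le A.hd.le)
      rw [hM', mul_assoc]
      exact h2)
    (τ := Real.sqrt (s - a)) (by
      rw [Real.sq_sqrt (by linarith [hs.1])]
      exact IsCell.len hc hc.aI hs) hφ hC hb x
  rw [Gz_semi hB hc hc.aI hs hs.1] at h1
  exact h1

theorem tv_bd (hB : Back A) (hc : IsCell A a b z) (n : ℕ) : ∃ K, 0 ≤ K ∧ ∀ (C : ℝ), 0 ≤ C →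
    ∀ φ : ℝ → ℝ, Continuous φ → (∀ y, |φ y| ≤ C * (1 + |y|) ^ n) → ∀ s ∈ Icc a b, ∀ x,
      |tv A z a s φ x| ≤ C * K * (1 + |x|) ^ (3 * n) := by
  obtain ⟨K, hK, h⟩ := tv_abs hB hc n
  refine ⟨K, hK, fun C hC φ hφ hb s hs x => ?_⟩
  have h1 := h C hC φ hφ hb s hs x
  unfold tv
  rw [abs_div, abs_of_pos (Gz_pos A z a x), div_le_iff₀ (Gz_pos A z a x)]
  refine le_trans ?_ h1
  unfold H
  exact abs_integral_le_integral_abs

/-- joint continuity in time and position -/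
theorem tv_cont (hB : Back A) (hc : IsCell A a b z) {S : Set ℝ} (hS : S ⊆ Icc a b)
    {Φ : ℝ → ℝ → ℝ} {C : ℝ} {n : ℕ} {s0 : ℝ} (hs0 : s0 ∈ Icc a b) (hC : 0 ≤ C)
    (hcΦ : ∀ s ∈ S, Continuous (Φ s))
    (hj : ∀ y, ContinuousWithinAt (fun q : ℝ × ℝ => Φ q.1 q.2) (S ×ˢ univ) (s0, y))
    (hb : ∀ s ∈ S, ∀ y, |Φ s y| ≤ C * (1 + |y|) ^ n) (x : ℝ) :
    ContinuousWithinAt (fun s => tv A z a s (Φ s) x) S s0 := by
  unfold tv
  refine ContinuousWithinAt.div_const ?_ _
  have hG : Continuous (fun q : ℝ × ℝ => hk (Gz A z b) b q.1 q.2) :=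
    hk_cont (Gz_sm hB hc.z0.le (hc.mem hc.bI)).pg b
  have h1 := H_cont_param (S := S) (Φ := fun s y => Φ s y * hk (Gz A z b) b s y) (C := C) (n := n)
    (s0 := s0) (x0 := x) (τ0 := Real.sqrt (s0 - a)) hC
    (fun s hs => (hcΦ s hs).mul (hG.comp (by fun_prop : Continuous fun y : ℝ => ((s, y) : ℝ × ℝ))))
    (fun y => (hj y).mul hG.continuousWithinAt) ?_
  · have hm : ContinuousWithinAt (fun s : ℝ => ((Real.sqrt (s - a), s, x) : ℝ × ℝ × ℝ)) S s0 := by
      fun_prop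
    have hmt : MapsTo (fun s : ℝ => ((Real.sqrt (s - a), s, x) : ℝ × ℝ × ℝ)) S
        (univ ×ˢ S ×ˢ univ) := fun s hs => ⟨mem_univ _, hs, mem_univ _⟩
    have h2 := ContinuousWithinAt.comp (x := s0)
      (f := fun s : ℝ => ((Real.sqrt (s - a), s, x) : ℝ × ℝ × ℝ))
      (g := fun q : ℝ × ℝ × ℝ => H q.1 (fun y => Φ q.2.1 y * hk (Gz A z b) b q.2.1 y) q.2.2)
      h1 hm hmt
    refine h2.congr (fun s hs => ?_) ?_
    · simp only [Function.comp]
      rw [Gz_hk hB hc (hS hs)]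
    · simp only [Function.comp]
      rw [Gz_hk hB hc hs0]
  · intro s hs y
    rw [abs_mul, ← Gz_hk hB hc (hS hs), abs_of_pos (Gz_pos A z s y)]
    have h3 := Gz_le_one hB hc.z0.le (hc.mem (hS hs)) y
    have h4 := hb s hs y
    have h5 := abs_nonneg (Φ s y)
    calc |Φ s y| * Gz A z s y ≤ |Φ s y| * 1 := mul_le_mul_of_nonneg_left h3 h5
      _ ≤ _ := by rw [mul_one]; exact h4

/-- **time derivative of the tilted average of a fixed function** -/
theorem tv_deriv (hB : Back A) (hc : IsCell A a b z) {φ φ1 φ2 : ℝ → ℝ} (hφ : PG φ) (hφ1 : PG φ1)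
    (hφ2 : PG φ2) (hd : ∀ y, HasDerivAt φ (φ1 y) y) (hd1 : ∀ y, HasDerivAt φ1 (φ2 y) y)
    {s0 : ℝ} (hs0 : s0 ∈ Ioo a b) (x : ℝ) :
    HasDerivAt (fun s => tv A z a s φ x)
      (tv A z a s0 (fun y => φ2 y / 2 + z / A.D s0 * A.u s0 y * φ1 y) x) s0 := by
  have hsm := Gz_sm hB hc.z0.le (hc.mem hc.bI)
  set k := Gz A z b with hk0
  have hI0 : s0 ∈ Icc a b := ⟨hs0.1.le, hs0.2.le⟩
  have hr0 : 0 < s0 - a := by linarith [hs0.1]
  -- bounds
  obtain ⟨C0, n0, hC0, hb0⟩ := hk_bd hsm.pg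
  obtain ⟨C2, n2, hC2, hb2⟩ := hk_bd hsm.deriv.deriv.pg
  -- the two partial derivatives
  have hpr : ∀ r s : ℝ, 0 < r → HasDerivAt
      (fun r => H (Real.sqrt r) (fun y => φ y * hk k b s y) x)
      (1 / 2 * H (Real.sqrt r) (fun y => φ2 y * hk k b s y + 2 * (φ1 y * hk (deriv k) b s y) +
        φ y * hk (deriv (deriv k)) b s y) x) r := by
    intro r s hr
    have s0' : Sm (hk k b s) := Sm.H hsm _
    have s1' : Sm (hk (deriv k) b s) := Sm.H hsm.deriv _
    have s2' : Sm (hk (deriv (deriv k)) b s) := Sm.H hsm.deriv.deriv _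
    refine Hg_534.H_deriv_v (φ := fun y => φ y * hk k b s y)
      (φ1 := fun y => φ1 y * hk k b s y + φ y * hk (deriv k) b s y)
      (φ2 := fun y => φ2 y * hk k b s y + 2 * (φ1 y * hk (deriv k) b s y) +
        φ y * hk (deriv (deriv k)) b s y)
      (hφ.mul s0'.pg).eg ((hφ1.mul s0'.pg).add (hφ.mul s1'.pg)).eg
      (((hφ2.mul s0'.pg).add ((hφ1.mul s1'.pg).const_mul 2)).add (hφ.mul s2'.pg)).eg ?_ ?_ hr x
    · intro y
      exact ((hd y).fun_mul (hk_x hsm b s y))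
    · intro y
      refine (((hd1 y).fun_mul (hk_x hsm b s y)).fun_add
        ((hd y).fun_mul (hk_x hsm.deriv b s y))).congr_deriv ?_
      ring
  have hps : HasDerivAt (fun s => H (Real.sqrt (s0 - a)) (fun y => φ y * hk k b s y) x)
      (H (Real.sqrt (s0 - a)) (fun y => φ y * (-(1 / 2) * hk (deriv (deriv k)) b s0 y)) x) s0 := by
    obtain ⟨C, n, hC, hbφ⟩ := hφ.bd
    have hτ : |Real.sqrt (s0 - a)| ≤ |(1:ℝ)| := by
      rw [abs_of_nonneg (Real.sqrt_nonneg _), abs_one, ← Real.sqrt_one]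
      exact Real.sqrt_le_sqrt (IsCell.len hc hc.aI hI0)
    refine (hasDerivAt_integral_of_dominated_loc_of_deriv_le
      (F := fun s g => φ (x + Real.sqrt (s0 - a) * g) * hk k b s (x + Real.sqrt (s0 - a) * g))
      (F' := fun s g => φ (x + Real.sqrt (s0 - a) * g) *
        (-(1 / 2) * hk (deriv (deriv k)) b s (x + Real.sqrt (s0 - a) * g)))
      (bound := fun g => C * C2 * ((1 + |x|) ^ (n + n2) * (1 + |(1:ℝ)| * |g|) ^ (n + n2)))
      (Ioo_mem_nhds hs0.1 hs0.2) ?_ ?_ ?_ ?_ ?_ ?_).2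
    · refine Eventually.of_forall fun s => ?_
      have h1 := hφ.cont
      have h2 : Continuous (hk k b s) := (Sm.H hsm _).cont
      exact (by fun_prop : Continuous fun g : ℝ => φ (x + Real.sqrt (s0 - a) * g) *
        hk k b s (x + Real.sqrt (s0 - a) * g)).aestronglyMeasurable
    · exact (hφ.mul (Sm.H hsm (Real.sqrt (b - s0))).pg).eg.int _ x
    · have h1 := hφ.cont
      have h2 : Continuous (hk (deriv (deriv k)) b s0) := (Sm.H hsm.deriv.deriv _).cont
      exact (by fun_prop : Continuous fun g : ℝ => φ (x + Real.sqrt (s0 - a) * g) *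
        (-(1 / 2) * hk (deriv (deriv k)) b s0 (x + Real.sqrt (s0 - a) * g))).aestronglyMeasurable
    · refine Eventually.of_forall fun g s hs => ?_
      rw [Real.norm_eq_abs, abs_mul, abs_mul]
      set y := x + Real.sqrt (s0 - a) * g with hy
      have h1 := hbφ y
      have h2 := hb2 b s (IsCell.len hc ⟨hs.1.le, hs.2.le⟩ hc.bI) y
      have h3 : |(-(1 / 2) : ℝ)| = 1 / 2 := by norm_num
      rw [h3]
      have h4 := shift_poly (le_refl |x|) hτ g (n + n2)
      have h5 : 1 / 2 * |hk (deriv (deriv k)) b s y| ≤ C2 * (1 + |y|) ^ n2 := by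
        have := abs_nonneg (hk (deriv (deriv k)) b s y)
        linarith
      calc |φ y| * (1 / 2 * |hk (deriv (deriv k)) b s y|)
          ≤ (C * (1 + |y|) ^ n) * (C2 * (1 + |y|) ^ n2) :=
            mul_le_mul h1 h5 (by positivity) (by positivity)
        _ = C * C2 * (1 + |y|) ^ (n + n2) := by rw [pow_add]; ring
        _ ≤ _ := mul_le_mul_of_nonneg_left h4 (by positivity)
    · exact ((int_poly 1 (n + n2)).const_mul _).const_mul _
    · refine Eventually.of_forall fun g s hs => ?_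
      exact (hk_t hsm hs.2 _).const_mul _
  -- continuity of the first partial derivative
  have hct : ContinuousAt (fun q : ℝ × ℝ => 1 / 2 * H (Real.sqrt q.1)
      (fun y => φ2 y * hk k b q.2 y + 2 * (φ1 y * hk (deriv k) b q.2 y) +
        φ y * hk (deriv (deriv k)) b q.2 y) x) (s0 - a, s0) := by
    have g0 := hk_cont hsm.pg b
    have g1 := hk_cont hsm.deriv.pg b
    have g2 := hk_cont hsm.deriv.deriv.pg b
    obtain ⟨C1, n1, hC1, hb1⟩ := hk_bd hsm.deriv.pg
    obtain ⟨D0, m0, hD0, hbD0⟩ := hφ.bd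
    obtain ⟨D1, m1, hD1, hbD1⟩ := hφ1.bd
    obtain ⟨D2, m2, hD2, hbD2⟩ := hφ2.bd
    have c0 := hφ.cont
    have c1 := hφ1.cont
    have c2 := hφ2.cont
    have h1 := H_cont_param (S := Ioo a b)
      (Φ := fun s y => φ2 y * hk k b s y + 2 * (φ1 y * hk (deriv k) b s y) +
        φ y * hk (deriv (deriv k)) b s y)
      (C := D2 * C0 + 2 * (D1 * C1) + D0 * C2) (n := m2 + n0 + (m1 + n1) + (m0 + n2))
      (s0 := s0) (x0 := x) (τ0 := Real.sqrt (s0 - a)) (by positivity)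
      (fun s hs => by
        have e0 : Continuous (hk k b s) := (Sm.H hsm _).cont
        have e1 : Continuous (hk (deriv k) b s) := (Sm.H hsm.deriv _).cont
        have e2 : Continuous (hk (deriv (deriv k)) b s) := (Sm.H hsm.deriv.deriv _).cont
        fun_prop)
      (fun y => by
        refine Continuous.continuousWithinAt ?_
        exact (((c2.comp continuous_snd).mul g0).add
          (continuous_const.mul ((c1.comp continuous_snd).mul g1))).add
          ((c0.comp continuous_snd).mul g2))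
      (fun s hs y => by
        have hsl := IsCell.len hc (s := s) ⟨hs.1.le, hs.2.le⟩ hc.bI
        have e0 := hb0 b s hsl y
        have e1 := hb1 b s hsl y
        have e2 := hb2 b s hsl y
        have p0 : |φ2 y * hk k b s y| ≤
            D2 * C0 * (1 + |y|) ^ (m2 + n0 + (m1 + n1) + (m0 + n2)) := by
          rw [abs_mul]
          calc |φ2 y| * |hk k b s y| ≤ (D2 * (1 + |y|) ^ m2) * (C0 * (1 + |y|) ^ n0) :=
                mul_le_mul (hbD2 y) e0 (abs_nonneg _) (by positivity)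
            _ = D2 * C0 * (1 + |y|) ^ (m2 + n0) := by rw [pow_add]; ring
            _ ≤ _ := mul_le_mul_of_nonneg_left (pow_le_pow_base (by omega)) (by positivity)
        have p1 : |φ1 y * hk (deriv k) b s y| ≤
            D1 * C1 * (1 + |y|) ^ (m2 + n0 + (m1 + n1) + (m0 + n2)) := by
          rw [abs_mul]
          calc |φ1 y| * |hk (deriv k) b s y| ≤ (D1 * (1 + |y|) ^ m1) * (C1 * (1 + |y|) ^ n1) :=
                mul_le_mul (hbD1 y) e1 (abs_nonneg _) (by positivity)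
            _ = D1 * C1 * (1 + |y|) ^ (m1 + n1) := by rw [pow_add]; ring
            _ ≤ _ := mul_le_mul_of_nonneg_left (pow_le_pow_base (by omega)) (by positivity)
        have p2 : |φ y * hk (deriv (deriv k)) b s y| ≤
            D0 * C2 * (1 + |y|) ^ (m2 + n0 + (m1 + n1) + (m0 + n2)) := by
          rw [abs_mul]
          calc |φ y| * |hk (deriv (deriv k)) b s y| ≤
                (D0 * (1 + |y|) ^ m0) * (C2 * (1 + |y|) ^ n2) :=
                mul_le_mul (hbD0 y) e2 (abs_nonneg _) (by positivity)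
            _ = D0 * C2 * (1 + |y|) ^ (m0 + n2) := by rw [pow_add]; ring
            _ ≤ _ := mul_le_mul_of_nonneg_left (pow_le_pow_base (by omega)) (by positivity)
        have p3 : |2 * (φ1 y * hk (deriv k) b s y)| = 2 * |φ1 y * hk (deriv k) b s y| := by
          rw [abs_mul, abs_of_pos (by norm_num : (0:ℝ) < 2)]
        calc |φ2 y * hk k b s y + 2 * (φ1 y * hk (deriv k) b s y) +
              φ y * hk (deriv (deriv k)) b s y|
            ≤ |φ2 y * hk k b s y| + |2 * (φ1 y * hk (deriv k) b s y)| +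
              |φ y * hk (deriv (deriv k)) b s y| :=
              (abs_add_le _ _).trans (add_le_add (abs_add_le _ _) le_rfl)
          _ ≤ D2 * C0 * (1 + |y|) ^ (m2 + n0 + (m1 + n1) + (m0 + n2)) +
              2 * (D1 * C1 * (1 + |y|) ^ (m2 + n0 + (m1 + n1) + (m0 + n2))) +
              D0 * C2 * (1 + |y|) ^ (m2 + n0 + (m1 + n1) + (m0 + n2)) := by
              rw [p3]
              exact add_le_add (add_le_add p0 (mul_le_mul_of_nonneg_left p1 (by norm_num))) p2
          _ = _ := by ring)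
    have h2 : ContinuousAt (fun q : ℝ × ℝ × ℝ => H q.1 (fun y => φ2 y * hk k b q.2.1 y +
        2 * (φ1 y * hk (deriv k) b q.2.1 y) + φ y * hk (deriv (deriv k)) b q.2.1 y) q.2.2)
        (Real.sqrt (s0 - a), s0, x) :=
      h1.continuousAt (prod_mem_nhds univ_mem (prod_mem_nhds (Ioo_mem_nhds hs0.1 hs0.2) univ_mem))
    have hm : ContinuousAt (fun q : ℝ × ℝ => ((Real.sqrt q.1, q.2, x) : ℝ × ℝ × ℝ))
        (s0 - a, s0) := by fun_prop
    exact (ContinuousAt.comp (x := ((s0 - a, s0) : ℝ × ℝ))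
      (f := fun q : ℝ × ℝ => ((Real.sqrt q.1, q.2, x) : ℝ × ℝ × ℝ))
      (g := fun q : ℝ × ℝ × ℝ => H q.1 (fun y => φ2 y * hk k b q.2.1 y +
        2 * (φ1 y * hk (deriv k) b q.2.1 y) + φ y * hk (deriv (deriv k)) b q.2.1 y) q.2.2)
      h2 hm).const_mul (1 / 2)
  have hdiag := hasDerivAt_diag
    (K := fun r s => H (Real.sqrt r) (fun y => φ y * hk k b s y) x)
    (Kr := fun r s => 1 / 2 * H (Real.sqrt r) (fun y => φ2 y * hk k b s y +
      2 * (φ1 y * hk (deriv k) b s y) + φ y * hk (deriv (deriv k)) b s y) x)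
    (c := a) (r0 := s0 - a) (s0 := s0) ?_ hps hct rfl
  · have hq := hdiag.div_const (Gz A z a x)
    -- identify the function near s0
    have hev : (fun s => tv A z a s φ x) =ᶠ[𝓝 s0]
        fun s => H (Real.sqrt (s - a)) (fun y => φ y * hk k b s y) x / Gz A z a x := by
      filter_upwards [Ioo_mem_nhds hs0.1 hs0.2] with s hs
      unfold tv
      rw [Gz_hk hB hc ⟨hs.1.le, hs.2.le⟩]
    refine (hq.congr_of_eventuallyEq hev).congr_deriv ?_
    -- identify the derivative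
    unfold tv
    congr 1
    have s0' : Sm (hk k b s0) := Sm.H hsm _
    have s1' : Sm (hk (deriv k) b s0) := Sm.H hsm.deriv _
    have s2' : Sm (hk (deriv (deriv k)) b s0) := Sm.H hsm.deriv.deriv _
    have i0 := (hφ2.mul s0'.pg).eg
    have i1 := (hφ1.mul s1'.pg).eg
    have i2 := (hφ.mul s2'.pg).eg
    have e1 : H (Real.sqrt (s0 - a)) (fun y => φ2 y * hk k b s0 y +
        2 * (φ1 y * hk (deriv k) b s0 y) + φ y * hk (deriv (deriv k)) b s0 y) x =
        H (Real.sqrt (s0 - a)) (fun y => φ2 y * hk k b s0 y) x +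
        2 * H (Real.sqrt (s0 - a)) (fun y => φ1 y * hk (deriv k) b s0 y) x +
        H (Real.sqrt (s0 - a)) (fun y => φ y * hk (deriv (deriv k)) b s0 y) x := by
      rw [Hg_534.H_add (i0.add (i1.const_mul 2)) i2, Hg_534.H_add i0 (i1.const_mul 2),
        H_const_mul]
    have e2 : H (Real.sqrt (s0 - a)) (fun y => φ y * (-(1 / 2) * hk (deriv (deriv k)) b s0 y)) x =
        -(1 / 2) * H (Real.sqrt (s0 - a)) (fun y => φ y * hk (deriv (deriv k)) b s0 y) x := by
      rw [← H_const_mul]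
      congr 1
      funext y
      ring
    have e3 : H (Real.sqrt (s0 - a)) (fun y => (φ2 y / 2 + z / A.D s0 * A.u s0 y * φ1 y) *
        Gz A z s0 y) x =
        1 / 2 * H (Real.sqrt (s0 - a)) (fun y => φ2 y * hk k b s0 y) x +
        H (Real.sqrt (s0 - a)) (fun y => φ1 y * hk (deriv k) b s0 y) x := by
      rw [← H_const_mul, ← Hg_534.H_add (i0.const_mul (1 / 2)) i1]
      congr 1
      funext y
      rw [hk1 hB hc hI0, ← Gz_hk hB hc hI0]
      ring
    rw [e1, e2, e3]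
    ring
  · have h1 : ∀ᶠ q : ℝ × ℝ in 𝓝 (s0 - a, s0), 0 < q.1 :=
      (continuous_fst.tendsto ((s0 - a, s0) : ℝ × ℝ)).eventually (lt_mem_nhds hr0)
    filter_upwards [h1] with q hq
    exact hpr q.1 q.2 hq

end cell

end

end Crest.Agent.R146.TiltB_534
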