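import Crest.Agent.R146.TiltB_534

/-!
Row 146 (PT-STEP, helper534): integrated tilted averages `∫ tv A z a s φ dμ`: bounds, joint
continuity, derivative in time (closed cell), one-sided derivatives for time dependent functions.
-/

set_option autoImplicit false

namespace Crest.Agent.R146.TiltC_534

open MeasureTheory ProbabilityTheory Filter Topology Set
open Crest.ProbabilityR.InvariantGlass
open Crest.Agent.R146.Hg_534 Crest.Agent.R146.PB_534 Crest.Agent.R146.GG_534 Crest.Agent.R146.SG_534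
open Crest.Agent.R146.StepDef_791 Crest.Agent.R146.Cell_534 Crest.Agent.R146.TiltA_534
open Crest.Agent.R146.TiltB_534

noncomputable section

/-! ### mean value inequalities and difference quotients -/

theorem norm_sub_le_right {f f' : ℝ → ℝ} {a b C : ℝ} (hf : ContinuousOn f (Icc a b)) (hab : a ≤ b)
    (hf' : ∀ x ∈ Ico a b, HasDerivWithinAt f (f' x) (Ici x) x)
    (bound : ∀ x ∈ Ico a b, |f' x| ≤ C) : |f b - f a| ≤ C * (b - a) := by
  have := norm_image_sub_le_of_norm_deriv_right_le_segment (C := C) hf hf'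
    (fun x hx => by rw [Real.norm_eq_abs]; exact bound x hx) b ⟨hab, le_rfl⟩
  rwa [Real.norm_eq_abs] at this

theorem norm_sub_le_left {f f' : ℝ → ℝ} {a b C : ℝ} (hf : ContinuousOn f (Icc a b)) (hab : a ≤ b)
    (hf' : ∀ x ∈ Ioc a b, HasDerivWithinAt f (f' x) (Iic x) x)
    (bound : ∀ x ∈ Ioc a b, |f' x| ≤ C) : |f b - f a| ≤ C * (b - a) := by
  have h1 : ContinuousOn (fun x => f (-x)) (Icc (-b) (-a)) :=
    hf.comp (by fun_prop) (fun x hx => ⟨by linarith [hx.2], by linarith [hx.1]⟩)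
  have h2 := norm_sub_le_right (f := fun x => f (-x)) (f' := fun x => -f' (-x)) (C := C) h1
    (by linarith) ?_ ?_
  · have e : |f (- -a) - f (- -b)| = |f b - f a| := by
      rw [neg_neg, neg_neg, abs_sub_comm]
    rw [e] at h2
    linarith
  · intro x hx
    have h3 := hf' (-x) ⟨by linarith [hx.2], by linarith [hx.1]⟩
    have h4 : HasDerivWithinAt (fun x : ℝ => -x) (-1) (Ici x) x := (hasDerivAt_neg x).hasDerivWithinAt
    have h5 : MapsTo (fun x : ℝ => -x) (Ici x) (Iic (-x)) := fun y hy => neg_le_neg (mem_Ici.1 hy)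
    have h6 := HasDerivWithinAt.comp x h3 h4 h5
    refine h6.congr_deriv ?_
    ring
  · intro x hx
    rw [abs_neg]
    exact bound (-x) ⟨by linarith [hx.2], by linarith [hx.1]⟩

/-- the difference quotient, completed at `s0` -/
def dq (F Fd : ℝ → ℝ → ℝ) (s0 s y : ℝ) : ℝ :=
  if s = s0 then Fd s0 y else (s - s0)⁻¹ * (F s y - F s0 y)

theorem dq_abs_le {F Fd : ℝ → ℝ → ℝ} {s0 s y B c : ℝ} (hs : s ≠ s0)
    (h : |F s y - F s0 y - (s - s0) * c| ≤ B * |s - s0|) : |dq F Fd s0 s y - c| ≤ B := by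
  unfold dq
  rw [if_neg hs]
  have h0 : 0 < |s - s0| := abs_pos.2 (sub_ne_zero.2 hs)
  have e : (s - s0)⁻¹ * (F s y - F s0 y) - c = (F s y - F s0 y - (s - s0) * c) / (s - s0) := by
    have := sub_ne_zero.2 hs
    field_simp
  rw [e, abs_div, div_le_iff₀ h0]
  exact h

theorem dq_right {F Fr : ℝ → ℝ → ℝ} {s0 t1 C : ℝ} {n : ℕ} (h01 : s0 < t1)
    (hcF : ∀ y, ContinuousOn (fun s => F s y) (Icc s0 t1))
    (hr : ∀ t ∈ Ico s0 t1, ∀ y, HasDerivWithinAt (fun s => F s y) (Fr t y) (Ici t) t)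
    (cr : ∀ y, ContinuousWithinAt (fun q : ℝ × ℝ => Fr q.1 q.2) (Ici s0 ×ˢ univ) (s0, y))
    (hb : ∀ t ∈ Ico s0 t1, ∀ y, |Fr t y| ≤ C * (1 + |y|) ^ n) :
    (∀ y, ContinuousWithinAt (fun q : ℝ × ℝ => dq F Fr s0 q.1 q.2) (Icc s0 t1 ×ˢ univ) (s0, y)) ∧
    ∀ s ∈ Icc s0 t1, ∀ y, |dq F Fr s0 s y| ≤ C * (1 + |y|) ^ n := by
  constructor
  · intro y
    rw [Metric.continuousWithinAt_iff]
    intro ε hε
    obtain ⟨δ, hδ, h⟩ := Metric.continuousWithinAt_iff.1 (cr y) (ε / 2) (by positivity)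
    refine ⟨δ, hδ, fun q hq hd => ?_⟩
    have e0 : dq F Fr s0 s0 y = Fr s0 y := by unfold dq; rw [if_pos rfl]
    rw [Real.dist_eq]
    change |dq F Fr s0 q.1 q.2 - dq F Fr s0 s0 y| < ε
    rw [e0]
    rcases eq_or_ne q.1 s0 with h1 | h1
    · have h2 := h (x := q) ⟨by rw [h1]; exact mem_Ici.2 le_rfl, mem_univ _⟩ hd
      rw [Real.dist_eq] at h2
      unfold dq
      rw [if_pos h1]
      have e1 : Fr s0 q.2 = Fr q.1 q.2 := by rw [h1]
      rw [e1]
      linarith [h2]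
    · have hlt : s0 < q.1 := lt_of_le_of_ne hq.1.1 (Ne.symm h1)
      rw [Prod.dist_eq, max_lt_iff] at hd
      have h2 : |F q.1 q.2 - F s0 q.2 - (q.1 - s0) * Fr s0 y| ≤ ε / 2 * |q.1 - s0| := by
        have h3 := norm_sub_le_right (f := fun s => F s q.2 - s * Fr s0 y)
          (f' := fun s => Fr s q.2 - Fr s0 y) (a := s0) (b := q.1) (C := ε / 2) ?_ hlt.le ?_ ?_
        · rw [abs_of_pos (sub_pos.2 hlt)]
          have e : F q.1 q.2 - F s0 q.2 - (q.1 - s0) * Fr s0 y =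
              F q.1 q.2 - q.1 * Fr s0 y - (F s0 q.2 - s0 * Fr s0 y) := by ring
          rw [e]
          exact h3
        · exact ((hcF q.2).mono (Icc_subset_Icc le_rfl hq.1.2)).sub (by fun_prop)
        · intro s hs
          have h4 : HasDerivWithinAt (fun s => s * Fr s0 y) (Fr s0 y) (Ici s) s := by
            have := ((hasDerivAt_id s).mul_const (Fr s0 y)).hasDerivWithinAt (s := Ici s)
            simpa using this
          exact (hr s ⟨hs.1, hs.2.trans_le hq.1.2⟩ q.2).sub h4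
        · intro s hs
          have h5 : dist (s, q.2) (s0, y) < δ := by
            rw [Prod.dist_eq]
            refine max_lt ?_ hd.2
            rw [Real.dist_eq, abs_of_nonneg (sub_nonneg.2 hs.1)]
            have := hd.1
            rw [Real.dist_eq, abs_of_pos (sub_pos.2 hlt)] at this
            linarith [hs.2]
          have h6 := h (x := (s, q.2)) ⟨mem_Ici.2 hs.1, mem_univ _⟩ h5
          rw [Real.dist_eq] at h6
          exact h6.le
      have := dq_abs_le (Fd := Fr) h1 h2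
      linarith
  · intro s hs y
    rcases eq_or_ne s s0 with h1 | h1
    · unfold dq
      rw [if_pos h1]
      exact hb s0 ⟨le_rfl, h01⟩ y
    · have hlt : s0 < s := lt_of_le_of_ne hs.1 (Ne.symm h1)
      have h2 : |F s y - F s0 y - (s - s0) * 0| ≤ C * (1 + |y|) ^ n * |s - s0| := by
        rw [mul_zero, sub_zero, abs_of_pos (sub_pos.2 hlt)]
        exact norm_sub_le_right (f := fun s => F s y) (f' := fun s => Fr s y)
          ((hcF y).mono (Icc_subset_Icc le_rfl hs.2)) hlt.le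
          (fun t ht => hr t ⟨ht.1, ht.2.trans_le hs.2⟩ y)
          (fun t ht => hb t ⟨ht.1, ht.2.trans_le hs.2⟩ y)
      have := dq_abs_le (Fd := Fr) h1 h2
      rwa [sub_zero] at this

theorem dq_left {F Fl : ℝ → ℝ → ℝ} {s0 t1 C : ℝ} {n : ℕ} (h01 : t1 < s0)
    (hcF : ∀ y, ContinuousOn (fun s => F s y) (Icc t1 s0))
    (hr : ∀ t ∈ Ioc t1 s0, ∀ y, HasDerivWithinAt (fun s => F s y) (Fl t y) (Iic t) t)
    (cr : ∀ y, ContinuousWithinAt (fun q : ℝ × ℝ => Fl q.1 q.2) (Iic s0 ×ˢ univ) (s0, y))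
    (hb : ∀ t ∈ Ioc t1 s0, ∀ y, |Fl t y| ≤ C * (1 + |y|) ^ n) :
    (∀ y, ContinuousWithinAt (fun q : ℝ × ℝ => dq F Fl s0 q.1 q.2) (Icc t1 s0 ×ˢ univ) (s0, y)) ∧
    ∀ s ∈ Icc t1 s0, ∀ y, |dq F Fl s0 s y| ≤ C * (1 + |y|) ^ n := by
  constructor
  · intro y
    rw [Metric.continuousWithinAt_iff]
    intro ε hε
    obtain ⟨δ, hδ, h⟩ := Metric.continuousWithinAt_iff.1 (cr y) (ε / 2) (by positivity)
    refine ⟨δ, hδ, fun q hq hd => ?_⟩
    have e0 : dq F Fl s0 s0 y = Fl s0 y := by unfold dq; rw [if_pos rfl]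
    rw [Real.dist_eq]
    change |dq F Fl s0 q.1 q.2 - dq F Fl s0 s0 y| < ε
    rw [e0]
    rcases eq_or_ne q.1 s0 with h1 | h1
    · have h2 := h (x := q) ⟨by rw [h1]; exact mem_Iic.2 le_rfl, mem_univ _⟩ hd
      rw [Real.dist_eq] at h2
      unfold dq
      rw [if_pos h1]
      have e1 : Fl s0 q.2 = Fl q.1 q.2 := by rw [h1]
      rw [e1]
      linarith [h2]
    · have hlt : q.1 < s0 := lt_of_le_of_ne hq.1.2 h1
      rw [Prod.dist_eq, max_lt_iff] at hd
      have h2 : |F q.1 q.2 - F s0 q.2 - (q.1 - s0) * Fl s0 y| ≤ ε / 2 * |q.1 - s0| := by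
        have h3 := norm_sub_le_left (f := fun s => F s q.2 - s * Fl s0 y)
          (f' := fun s => Fl s q.2 - Fl s0 y) (a := q.1) (b := s0) (C := ε / 2) ?_ hlt.le ?_ ?_
        · rw [abs_of_neg (sub_neg.2 hlt)]
          have e : |F q.1 q.2 - F s0 q.2 - (q.1 - s0) * Fl s0 y| =
              |F s0 q.2 - s0 * Fl s0 y - (F q.1 q.2 - q.1 * Fl s0 y)| := by
            rw [← abs_neg]
            congr 1
            ring
          rw [e, neg_sub]
          exact h3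
        · exact ((hcF q.2).mono (Icc_subset_Icc hq.1.1 le_rfl)).sub (by fun_prop)
        · intro s hs
          have h4 : HasDerivWithinAt (fun s => s * Fl s0 y) (Fl s0 y) (Iic s) s := by
            have := ((hasDerivAt_id s).mul_const (Fl s0 y)).hasDerivWithinAt (s := Iic s)
            simpa using this
          exact (hr s ⟨lt_of_le_of_lt hq.1.1 hs.1, hs.2⟩ q.2).sub h4
        · intro s hs
          have h5 : dist (s, q.2) (s0, y) < δ := by
            rw [Prod.dist_eq]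
            refine max_lt ?_ hd.2
            rw [Real.dist_eq, abs_of_nonpos (sub_nonpos.2 hs.2)]
            have := hd.1
            rw [Real.dist_eq, abs_of_neg (sub_neg.2 hlt)] at this
            linarith [hs.1]
          have h6 := h (x := (s, q.2)) ⟨mem_Iic.2 hs.2, mem_univ _⟩ h5
          rw [Real.dist_eq] at h6
          exact h6.le
      have := dq_abs_le (Fd := Fl) h1 h2
      linarith
  · intro s hs y
    rcases eq_or_ne s s0 with h1 | h1
    · unfold dq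
      rw [if_pos h1]
      exact hb s0 ⟨h01, le_rfl⟩ y
    · have hlt : s < s0 := lt_of_le_of_ne hs.2 h1
      have h2 : |F s y - F s0 y - (s - s0) * 0| ≤ C * (1 + |y|) ^ n * |s - s0| := by
        rw [mul_zero, sub_zero, abs_of_neg (sub_neg.2 hlt), neg_sub, abs_sub_comm]
        exact norm_sub_le_left (f := fun s => F s y) (f' := fun s => Fl s y)
          ((hcF y).mono (Icc_subset_Icc hs.1 le_rfl)) hlt.le
          (fun t ht => hr t ⟨lt_of_le_of_lt hs.1 ht.1, ht.2⟩ y)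
          (fun t ht => hb t ⟨lt_of_le_of_lt hs.1 ht.1, ht.2⟩ y)
      have := dq_abs_le (Fd := Fl) h1 h2
      rwa [sub_zero] at this

/-! ### integrated averages -/

/-- integrated tilted average -/
def ev (A : SD) (z a : ℝ) (μ : Measure ℝ) (s : ℝ) (φ : ℝ → ℝ) : ℝ := ∫ x, tv A z a s φ x ∂μ

section cell

variable {A : SD} {a b z : ℝ} {μ : Measure ℝ}

theorem tv_continuous (hB : Back A) (hc : IsCell A a b z) {φ : ℝ → ℝ} (hφ : PG φ) {s : ℝ}
    (hs : s ∈ Icc a b) : Continuous (fun x => tv A z a s φ x) := by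
  unfold tv
  have hG := Gz_sm hB hc.z0.le (hc.mem hs)
  have hGa := Gz_sm hB hc.z0.le (hc.mem hc.aI)
  exact (((H_continuous (hφ.mul hG.pg).eg).comp (by fun_prop :
    Continuous fun x : ℝ => ((Real.sqrt (s - a), x) : ℝ × ℝ)))).div hGa.cont
    fun x => (Gz_pos A z a x).ne'

theorem tv_int (hB : Back A) (hc : IsCell A a b z)
    (hμ : ∀ n : ℕ, Integrable (fun x => (1 + |x|) ^ n) μ) {φ : ℝ → ℝ} (hφ : PG φ) {s : ℝ}
    (hs : s ∈ Icc a b) : Integrable (fun x => tv A z a s φ x) μ := by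
  obtain ⟨C, n, hC, hb⟩ := hφ.bd
  obtain ⟨K, hK, h⟩ := tv_bd hB hc n
  refine Integrable.mono' ((hμ (3 * n)).const_mul (C * K))
    (tv_continuous hB hc hφ hs).aestronglyMeasurable (Eventually.of_forall fun x => ?_)
  rw [Real.norm_eq_abs]
  exact h C hC φ hφ.cont hb s hs x

theorem ev_add (hB : Back A) (hc : IsCell A a b z)
    (hμ : ∀ n : ℕ, Integrable (fun x => (1 + |x|) ^ n) μ) {φ ψ : ℝ → ℝ} (hφ : PG φ) (hψ : PG ψ)
    {s : ℝ} (hs : s ∈ Icc a b) :
    ev A z a μ s (fun y => φ y + ψ y) = ev A z a μ s φ + ev A z a μ s ψ := by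
  unfold ev
  rw [← integral_add (tv_int hB hc hμ hφ hs) (tv_int hB hc hμ hψ hs)]
  congr 1
  funext x
  have hG := Gz_sm hB hc.z0.le (hc.mem hs)
  unfold tv
  rw [← add_div, ← Hg_534.H_add (hφ.mul hG.pg).eg (hψ.mul hG.pg).eg]
  congr 2
  funext y
  ring

theorem ev_const_mul (φ : ℝ → ℝ) (c s : ℝ) :
    ev A z a μ s (fun y => c * φ y) = c * ev A z a μ s φ := by
  unfold ev
  rw [← integral_const_mul]
  congr 1
  funext x
  unfold tv
  rw [← mul_div_assoc, ← H_const_mul]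
  congr 2
  funext y
  ring

/-- **joint continuity** -/
theorem ev_cont (hB : Back A) (hc : IsCell A a b z)
    (hμ : ∀ n : ℕ, Integrable (fun x => (1 + |x|) ^ n) μ) {S : Set ℝ} (hS : S ⊆ Icc a b)
    {Φ : ℝ → ℝ → ℝ} {C : ℝ} {n : ℕ} {s0 : ℝ} (hs0 : s0 ∈ Icc a b) (hC : 0 ≤ C)
    (hcΦ : ∀ s ∈ S, Continuous (Φ s))
    (hj : ∀ y, ContinuousWithinAt (fun q : ℝ × ℝ => Φ q.1 q.2) (S ×ˢ univ) (s0, y))
    (hb : ∀ s ∈ S, ∀ y, |Φ s y| ≤ C * (1 + |y|) ^ n) :
    ContinuousWithinAt (fun s => ev A z a μ s (Φ s)) S s0 := by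
  obtain ⟨K, hK, h⟩ := tv_bd hB hc n
  unfold ev
  refine continuousWithinAt_of_dominated (bound := fun x => C * K * (1 + |x|) ^ (3 * n)) ?_ ?_
    ((hμ (3 * n)).const_mul (C * K)) ?_
  · filter_upwards [self_mem_nhdsWithin] with s hs
    exact (tv_continuous hB hc ⟨hcΦ s hs, C, n, hC, hb s hs⟩ (hS hs)).aestronglyMeasurable
  · filter_upwards [self_mem_nhdsWithin] with s hs
    refine Eventually.of_forall fun x => ?_
    rw [Real.norm_eq_abs]
    exact h C hC (Φ s) (hcΦ s hs) (hb s hs) s (hS hs) x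
  · exact Eventually.of_forall fun x => tv_cont hB hc hS hs0 hC hcΦ hj hb x

/-- the drift on a cell -/
theorem D_cont_cell (hc : IsCell A a b z) : ContinuousOn A.D (Icc a b) := by
  have h : ContinuousOn (fun t => A.D b + z * (b - t)) (Icc a b) := by fun_prop
  exact h.congr fun t ht => hc.D_eq t ht

theorem gen_cont (hB : Back A) (hc : IsCell A a b z) {φ1 φ2 : ℝ → ℝ} (hφ1 : PG φ1) (hφ2 : PG φ2) :
    ContinuousOn (fun q : ℝ × ℝ => φ2 q.2 / 2 + z / A.D q.1 * A.u q.1 q.2 * φ1 q.2)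
      (Icc a b ×ˢ univ) := by
  obtain ⟨M, h⟩ := hB.bsys
  have hD : ContinuousOn (fun q : ℝ × ℝ => A.D q.1) (Icc a b ×ˢ univ) :=
    (D_cont_cell hc).comp continuousOn_fst (fun q hq => hq.1)
  have hu : ContinuousOn (fun q : ℝ × ℝ => A.u q.1 q.2) (Icc a b ×ˢ univ) :=
    h.cu.mono (fun q hq => ⟨hc.mem hq.1, mem_univ _⟩)
  have h1 : ContinuousOn (fun q : ℝ × ℝ => φ1 q.2) (Icc a b ×ˢ univ) :=
    (hφ1.cont.comp continuous_snd).continuousOn
  have h2 : ContinuousOn (fun q : ℝ × ℝ => φ2 q.2) (Icc a b ×ˢ univ) :=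
    (hφ2.cont.comp continuous_snd).continuousOn
  exact (h2.div_const 2).add (((continuousOn_const.div hD
    (fun q _ => (A.D_pos q.1).ne')).mul hu).mul h1)

theorem gen_bd (hB : Back A) (hc : IsCell A a b z) {φ1 φ2 : ℝ → ℝ} (hφ1 : PG φ1) (hφ2 : PG φ2) :
    ∃ (C : ℝ) (n : ℕ), 0 ≤ C ∧ ∀ s ∈ Icc a b, ∀ y,
      |φ2 y / 2 + z / A.D s * A.u s y * φ1 y| ≤ C * (1 + |y|) ^ n := by
  obtain ⟨M, hM, hu⟩ := exists_M hB
  obtain ⟨M2, h⟩ := hB.bsys
  obtain ⟨D1, m1, hD1, hb1⟩ := hφ1.bd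
  obtain ⟨D2, m2, hD2, hb2⟩ := hφ2.bd
  have hzd : 0 ≤ z / A.d := div_nonneg hc.z0.le A.hd.le
  refine ⟨D2 + z / A.d * M * D1, m2 + (1 + m1), by positivity, fun s hs y => ?_⟩
  have h1 : |φ2 y / 2| ≤ D2 * (1 + |y|) ^ (m2 + (1 + m1)) := by
    rw [abs_div, abs_of_pos (by norm_num : (0:ℝ) < 2)]
    have h2 := hb2 y
    have h3 := abs_nonneg (φ2 y)
    have h4 : D2 * (1 + |y|) ^ m2 ≤ D2 * (1 + |y|) ^ (m2 + (1 + m1)) :=
      mul_le_mul_of_nonneg_left (pow_le_pow_base (by omega)) hD2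
    linarith
  have h2 : |z / A.D s * A.u s y * φ1 y| ≤
      z / A.d * M * D1 * (1 + |y|) ^ (m2 + (1 + m1)) := by
    have hr0 : 0 ≤ z / A.D s := div_nonneg hc.z0.le (A.D_pos s).le
    have hu0 := h.u_nonneg s (hc.mem hs) y
    rw [abs_mul, abs_of_nonneg (mul_nonneg hr0 hu0)]
    have h3 : z / A.D s * A.u s y ≤ z / A.d * (M * (1 + |y|)) :=
      mul_le_mul (ratio_le hc s) (hu s (hc.mem hs) y) hu0 hzd
    calc z / A.D s * A.u s y * |φ1 y| ≤ z / A.d * (M * (1 + |y|)) * (D1 * (1 + |y|) ^ m1) :=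
          mul_le_mul h3 (hb1 y) (abs_nonneg _) (by positivity)
      _ = z / A.d * M * D1 * (1 + |y|) ^ (1 + m1) := by rw [pow_add]; ring
      _ ≤ _ := mul_le_mul_of_nonneg_left (pow_le_pow_base (by omega)) (by positivity)
  calc |φ2 y / 2 + z / A.D s * A.u s y * φ1 y| ≤ |φ2 y / 2| + |z / A.D s * A.u s y * φ1 y| :=
        abs_add_le _ _
    _ ≤ _ := by rw [add_mul]; exact add_le_add h1 h2

theorem gen_pg (hB : Back A) (hc : IsCell A a b z) {φ1 φ2 : ℝ → ℝ} (hφ1 : PG φ1) (hφ2 : PG φ2)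
    {s : ℝ} (hs : s ∈ Icc a b) : PG (fun y => φ2 y / 2 + z / A.D s * A.u s y * φ1 y) := by
  obtain ⟨C, n, hC, h⟩ := gen_bd hB hc hφ1 hφ2
  refine ⟨?_, C, n, hC, h s hs⟩
  have h1 := gen_cont hB hc hφ1 hφ2
  have h2 : Continuous (fun y : ℝ => ((s, y) : ℝ × ℝ)) := by fun_prop
  exact continuousOn_univ.1 (h1.comp h2.continuousOn (fun y _ => ⟨hs, mem_univ _⟩))

theorem ev_gen_cont (hB : Back A) (hc : IsCell A a b z)
    (hμ : ∀ n : ℕ, Integrable (fun x => (1 + |x|) ^ n) μ) {φ1 φ2 : ℝ → ℝ} (hφ1 : PG φ1)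
    (hφ2 : PG φ2) : ContinuousOn (fun s => ev A z a μ s
      (fun y => φ2 y / 2 + z / A.D s * A.u s y * φ1 y)) (Icc a b) := by
  intro s0 hs0
  obtain ⟨C, n, hC, h⟩ := gen_bd hB hc hφ1 hφ2
  exact ev_cont hB hc hμ (Subset.refl _) (Φ := fun s y => φ2 y / 2 + z / A.D s * A.u s y * φ1 y)
    hs0 hC (fun s hs => (gen_pg hB hc hφ1 hφ2 hs).cont)
    (fun y => gen_cont hB hc hφ1 hφ2 (s0, y) ⟨hs0, mem_univ _⟩) h

theorem ev_fix_cont (hB : Back A) (hc : IsCell A a b z)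
    (hμ : ∀ n : ℕ, Integrable (fun x => (1 + |x|) ^ n) μ) {φ : ℝ → ℝ} (hφ : PG φ) :
    ContinuousOn (fun s => ev A z a μ s φ) (Icc a b) := by
  intro s0 hs0
  obtain ⟨C, n, hC, h⟩ := hφ.bd
  exact ev_cont hB hc hμ (Subset.refl _) (Φ := fun _ y => φ y) hs0 hC (fun s hs => hφ.cont)
    (fun y => (hφ.cont.comp continuous_snd).continuousWithinAt) (fun _ _ => h)

/-- derivative of the integrated average of a fixed function, interior -/
theorem ev_deriv_int (hB : Back A) (hc : IsCell A a b z)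
    (hμ : ∀ n : ℕ, Integrable (fun x => (1 + |x|) ^ n) μ) {φ φ1 φ2 : ℝ → ℝ} (hφ : PG φ)
    (hφ1 : PG φ1) (hφ2 : PG φ2) (hd : ∀ y, HasDerivAt φ (φ1 y) y)
    (hd1 : ∀ y, HasDerivAt φ1 (φ2 y) y) {s0 : ℝ} (hs0 : s0 ∈ Ioo a b) :
    HasDerivAt (fun s => ev A z a μ s φ)
      (ev A z a μ s0 (fun y => φ2 y / 2 + z / A.D s0 * A.u s0 y * φ1 y)) s0 := by
  obtain ⟨C, n, hC, h⟩ := gen_bd hB hc hφ1 hφ2
  obtain ⟨K, hK, hK2⟩ := tv_bd hB hc n
  refine (hasDerivAt_integral_of_dominated_loc_of_deriv_le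
    (F := fun s x => tv A z a s φ x)
    (F' := fun s x => tv A z a s (fun y => φ2 y / 2 + z / A.D s * A.u s y * φ1 y) x)
    (bound := fun x => C * K * (1 + |x|) ^ (3 * n)) (Ioo_mem_nhds hs0.1 hs0.2) ?_ ?_ ?_ ?_ ?_ ?_).2
  · filter_upwards [Ioo_mem_nhds hs0.1 hs0.2] with s hs
    exact (tv_continuous hB hc hφ ⟨hs.1.le, hs.2.le⟩).aestronglyMeasurable
  · exact tv_int hB hc hμ hφ ⟨hs0.1.le, hs0.2.le⟩
  · exact (tv_continuous hB hc (gen_pg hB hc hφ1 hφ2 ⟨hs0.1.le, hs0.2.le⟩)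
      ⟨hs0.1.le, hs0.2.le⟩).aestronglyMeasurable
  · refine Eventually.of_forall fun x s hs => ?_
    rw [Real.norm_eq_abs]
    have hs' : s ∈ Icc a b := ⟨hs.1.le, hs.2.le⟩
    exact hK2 C hC _ (gen_pg hB hc hφ1 hφ2 hs').cont (h s hs') s hs' x
  · exact (hμ (3 * n)).const_mul (C * K)
  · exact Eventually.of_forall fun x s hs => tv_deriv hB hc hφ hφ1 hφ2 hd hd1 hs x

/-- derivative of the integrated average of a fixed function, closed cell -/
theorem ev_deriv (hB : Back A) (hc : IsCell A a b z)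
    (hμ : ∀ n : ℕ, Integrable (fun x => (1 + |x|) ^ n) μ) {φ φ1 φ2 : ℝ → ℝ} (hφ : PG φ)
    (hφ1 : PG φ1) (hφ2 : PG φ2) (hd : ∀ y, HasDerivAt φ (φ1 y) y)
    (hd1 : ∀ y, HasDerivAt φ1 (φ2 y) y) {s0 : ℝ} (hs0 : s0 ∈ Icc a b) :
    HasDerivWithinAt (fun s => ev A z a μ s φ)
      (ev A z a μ s0 (fun y => φ2 y / 2 + z / A.D s0 * A.u s0 y * φ1 y)) (Icc a b) s0 := by
  have hdiff : ∀ s ∈ Ioo a b, HasDerivAt (fun s => ev A z a μ s φ)
      (ev A z a μ s (fun y => φ2 y / 2 + z / A.D s * A.u s y * φ1 y)) s :=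
    fun s hs => ev_deriv_int hB hc hμ hφ hφ1 hφ2 hd hd1 hs
  have hcont := ev_fix_cont hB hc hμ hφ
  have hgc := ev_gen_cont hB hc hμ hφ1 hφ2
  rcases eq_or_lt_of_le hs0.1 with h1 | h1
  · -- left end
    subst h1
    have h2 := hasDerivWithinAt_Ici_of_tendsto_deriv (s := Ioo a b)
      (f := fun s => ev A z a μ s φ)
      (e := ev A z a μ a (fun y => φ2 y / 2 + z / A.D a * A.u a y * φ1 y))
      (fun s hs => (hdiff s hs).differentiableAt.differentiableWithinAt)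
      ((hcont a hc.aI).mono Ioo_subset_Icc_self) (Ioo_mem_nhdsGT hc.ab) ?_
    · exact h2.mono (fun x hx => hx.1)
    · have h3 : Tendsto (fun s => ev A z a μ s (fun y => φ2 y / 2 + z / A.D s * A.u s y * φ1 y))
          (𝓝[>] a) (𝓝 (ev A z a μ a (fun y => φ2 y / 2 + z / A.D a * A.u a y * φ1 y))) := by
        have h4 := (hgc a hc.aI).mono Ioo_subset_Icc_self
        unfold ContinuousWithinAt at h4
        rwa [nhdsWithin_Ioo_eq_nhdsGT hc.ab] at h4
      refine h3.congr' ?_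
      filter_upwards [Ioo_mem_nhdsGT hc.ab] with s hs
      exact (hdiff s hs).deriv.symm
  · rcases eq_or_lt_of_le hs0.2 with h2 | h2
    · subst h2
      have h2 := hasDerivWithinAt_Iic_of_tendsto_deriv (s := Ioo a s0)
        (f := fun s => ev A z a μ s φ)
        (e := ev A z a μ s0 (fun y => φ2 y / 2 + z / A.D s0 * A.u s0 y * φ1 y))
        (fun s hs => (hdiff s hs).differentiableAt.differentiableWithinAt)
        ((hcont s0 hc.bI).mono Ioo_subset_Icc_self) (Ioo_mem_nhdsLT hc.ab) ?_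
      · exact h2.mono (fun x hx => hx.2)
      · have h3 : Tendsto (fun s => ev A z a μ s (fun y => φ2 y / 2 + z / A.D s * A.u s y * φ1 y))
            (𝓝[<] s0) (𝓝 (ev A z a μ s0 (fun y => φ2 y / 2 + z / A.D s0 * A.u s0 y * φ1 y))) := by
          have h4 := (hgc s0 hc.bI).mono Ioo_subset_Icc_self
          unfold ContinuousWithinAt at h4
          rwa [nhdsWithin_Ioo_eq_nhdsLT hc.ab] at h4
        refine h3.congr' ?_
        filter_upwards [Ioo_mem_nhdsLT hc.ab] with s hs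
        exact (hdiff s hs).deriv.symm
    · exact (hdiff s0 ⟨h1, h2⟩).hasDerivWithinAt

/-- **one-sided derivative for a time dependent function** (abstract form: `S` is the one-sided
neighbourhood, `Fd` the one-sided time derivative, packaged as the difference quotient) -/
theorem ev_time (hB : Back A) (hc : IsCell A a b z)
    (hμ : ∀ n : ℕ, Integrable (fun x => (1 + |x|) ^ n) μ) {F Fd : ℝ → ℝ → ℝ} {φ1 φ2 : ℝ → ℝ}
    {s0 : ℝ} {S : Set ℝ} (hS : S ⊆ Icc a b) (hs0 : s0 ∈ S) (hF : ∀ s ∈ S, PG (F s))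
    (hFd : Continuous (Fd s0))
    (hφ1 : PG φ1) (hφ2 : PG φ2) (hd : ∀ y, HasDerivAt (F s0) (φ1 y) y)
    (hd1 : ∀ y, HasDerivAt φ1 (φ2 y) y) {C : ℝ} {n : ℕ} (hC : 0 ≤ C)
    (hq : ∀ y, ContinuousWithinAt (fun q : ℝ × ℝ => dq F Fd s0 q.1 q.2) (S ×ˢ univ) (s0, y))
    (hb : ∀ s ∈ S, ∀ y, |dq F Fd s0 s y| ≤ C * (1 + |y|) ^ n) :
    HasDerivWithinAt (fun s => ev A z a μ s (F s))
      (ev A z a μ s0 (fun y => Fd s0 y + φ2 y / 2 + z / A.D s0 * A.u s0 y * φ1 y)) S s0 := by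
  have hs0' := hS hs0
  have hFd0 : PG (Fd s0) := ⟨hFd, C, n, hC, fun y => by
    have := hb s0 hs0 y
    unfold dq at this
    rwa [if_pos rfl] at this⟩
  have hdqc : ∀ s ∈ S, Continuous (dq F Fd s0 s) := by
    intro s hs
    unfold dq
    rcases eq_or_ne s s0 with h | h
    · simp only [if_pos h]
      exact hFd
    · simp only [if_neg h]
      exact continuous_const.mul ((hF s hs).cont.sub (hF s0 hs0).cont)
  have hdqp : ∀ s ∈ S, PG (dq F Fd s0 s) := fun s hs => ⟨hdqc s hs, C, n, hC, hb s hs⟩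
  have h1 := ev_cont hB hc hμ hS (Φ := dq F Fd s0) hs0' hC hdqc hq hb
  have h2 : HasDerivWithinAt (fun s => (s - s0) * ev A z a μ s (dq F Fd s0 s))
      (ev A z a μ s0 (Fd s0)) S s0 := by
    rw [hasDerivWithinAt_iff_tendsto_slope]
    have e1 : dq F Fd s0 s0 = Fd s0 := by
      funext y
      unfold dq
      rw [if_pos rfl]
    have h3 : Tendsto (fun s => ev A z a μ s (dq F Fd s0 s)) (𝓝[S \ {s0}] s0)
        (𝓝 (ev A z a μ s0 (Fd s0))) := by
      have h4 := h1.mono (sdiff_subset : S \ {s0} ⊆ S)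
      unfold ContinuousWithinAt at h4
      beta_reduce at h4
      rwa [e1] at h4
    refine h3.congr' ?_
    filter_upwards [self_mem_nhdsWithin] with s hs
    have hne : s - s0 ≠ 0 := sub_ne_zero.2 hs.2
    rw [slope_def_field, sub_self, zero_mul, sub_zero]
    field_simp
  have h3 := (ev_deriv hB hc hμ (hF s0 hs0) hφ1 hφ2 hd hd1 hs0').mono hS
  have h4 := h2.add h3
  have e2 : ev A z a μ s0 (Fd s0) +
      ev A z a μ s0 (fun y => φ2 y / 2 + z / A.D s0 * A.u s0 y * φ1 y) =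
      ev A z a μ s0 (fun y => Fd s0 y + φ2 y / 2 + z / A.D s0 * A.u s0 y * φ1 y) := by
    rw [← ev_add hB hc hμ hFd0 (gen_pg hB hc hφ1 hφ2 hs0') hs0']
    congr 1
    funext y
    ring
  rw [e2] at h4
  have key : ∀ s ∈ S, ev A z a μ s (F s) = (s - s0) * ev A z a μ s (dq F Fd s0 s) +
      ev A z a μ s (F s0) := by
    intro s hs
    rw [← ev_const_mul, ← ev_add hB hc hμ ((hdqp s hs).const_mul _) (hF s0 hs0) (hS hs)]
    congr 1
    funext y
    unfold dq
    rcases eq_or_ne s s0 with h | h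
    · rw [if_pos h, h]
      ring
    · rw [if_neg h]
      have hne : s - s0 ≠ 0 := sub_ne_zero.2 h
      field_simp
      ring
  exact h4.congr key (key s0 hs0)

end cell

end

end Crest.Agent.R146.TiltC_534
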