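import Crest.Agent.R146.PtEdge_791
import Crest.Agent.R146.PtTipC_52

/-!
Row 146 (S0205), package PT: LAST EDGE (helper131, PM-C).  The tip theorem `P5Def_12.TIPW W` at the
literal Brownian instance from the open nodes
`PLAW` (534), `START` (384), `Bridge` (256), `NOGAP` (546), `PTMAIN` (T1, T2, CLOSED, REFC through
52/164).  Version 2: = `PtEdge_791.tipw`.
-/

set_option autoImplicit false

namespace Crest.Agent.R146.TipW_131

open Crest.Agent.R146.P34_734 Crest.Agent.R146.P5Def_12
open Crest.Agent.R146.TipSeq_791 Crest.Agent.R146.StepAsm_791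
open Crest.Agent.R146.PtHlim_45 Crest.Agent.R146.PtScalC_45

/-- **TIPW** from the open nodes of PT. -/
theorem tipw_of (W : BS) (hlaw : PLAW) (hst : START)
    (hbr : Bridge (RW W) (KW W) (xiW W)) (hng : NOGAP) (hmain : PTMAIN) : TIPW W :=
  PtEdge_791.tipw W hlaw hst hbr hng hmain

end Crest.Agent.R146.TipW_131
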