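import Crest.Agent.R146.TwoTime_423

/-!
# Row 146, PT-CMP (helper423): the two-times maximum principle on the LEVEL SETS of `V`

Raw coordinates: `V s z` is strictly increasing in `z` with range `(0,1)`; `G s z > 0` (for example
`G = √χ V_z`) is compared at two points `(s,z)`, `(t,z')` with `V₁ s z = V₂ t z'`.
-/

set_option autoImplicit false

open Set Filter Topology

namespace Crest.Agent.R146.TwoLevel_423

open Crest.Agent.R146.PMax_423 Crest.Agent.R146.TwoTime_423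

noncomputable section

/-- the linear map `(ds, dz) ↦ p ds + q dz` -/
def lin (p q : ℝ) : ℝ × ℝ →L[ℝ] ℝ :=
  p • ContinuousLinearMap.fst ℝ ℝ ℝ + q • ContinuousLinearMap.snd ℝ ℝ ℝ

theorem lin_apply (p q : ℝ) (x : ℝ × ℝ) : lin p q x = p * x.1 + q * x.2 := by simp [lin]

/-- joint right differentiability from continuity of the right time derivative -/
theorem hasFDeriv_right {V Vs : ℝ → ℝ → ℝ} {s z vz δ : ℝ} (hδ : 0 < δ)
    (hVz : HasDerivAt (V s) vz z)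
    (hd : ∀ᶠ y in 𝓝 z, ∀ r ∈ Icc s (s + δ), ContinuousWithinAt (fun r => V r y) (Icc s (s + δ)) r)
    (hd' : ∀ᶠ y in 𝓝 z, ∀ r ∈ Ico s (s + δ), HasDerivWithinAt (fun r => V r y) (Vs r y) (Ici r) r)
    (hcs : ContinuousWithinAt (fun p : ℝ × ℝ => Vs p.1 p.2) (Ici s ×ˢ univ) (s, z)) :
    HasFDerivWithinAt (fun p : ℝ × ℝ => V p.1 p.2) (lin (Vs s z) vz) (Ici s ×ˢ univ) (s, z) := by
  rw [hasFDerivWithinAt_iff_isLittleO, Asymptotics.isLittleO_iff]
  intro c hc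
  -- the space part
  have h1 : ∀ᶠ y in 𝓝 z, |V s y - V s z - vz * (y - z)| ≤ c / 2 * |y - z| := by
    have := hVz.isLittleO
    rw [Asymptotics.isLittleO_iff] at this
    filter_upwards [this (half_pos hc)] with y hy
    simpa [Real.norm_eq_abs, mul_comm] using hy
  -- the time part
  have h2 : ∀ᶠ p in 𝓝[Ici s ×ˢ univ] (s, z), |Vs p.1 p.2 - Vs s z| < c / 2 := by
    have := hcs.sub (continuousWithinAt_const (b := Vs s z))
    have h3 : Tendsto (fun p : ℝ × ℝ => |Vs p.1 p.2 - Vs s z|) (𝓝[Ici s ×ˢ univ] (s, z)) (𝓝 0) := by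
      have h4 := this.abs
      simpa [ContinuousWithinAt] using h4
    exact h3.eventually (gt_mem_nhds (half_pos hc))
  rw [nhdsWithin_prod_eq, nhdsWithin_univ] at h2 ⊢
  obtain ⟨A, hA, B, hB, hAB⟩ := Filter.eventually_prod_iff.mp h2
  obtain ⟨δ', hδ', hA'⟩ := mem_nhdsGE_iff_exists_Ico_subset.mp hA
  have hδ'' : s < δ' := hδ'
  have h5 : ∀ᶠ r in 𝓝[Ici s] s, r ∈ Ico s (min δ' (s + δ)) := by
    apply Ico_mem_nhdsGE
    rw [lt_min_iff]; exact ⟨hδ'', by linarith⟩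
  have key := h5.prod_mk (hB.and (h1.and (hd.and hd')))
  filter_upwards [key] with p hp
  obtain ⟨⟨hr1, hr2⟩, hBp, hs1, hcp, hdp⟩ := hp
  rw [lt_min_iff] at hr2
  obtain ⟨hr2, hr3⟩ := hr2
  -- mean value inequality on [s, p.1]
  have hmv : ‖(V p.1 p.2 - Vs s z * p.1) - (V s p.2 - Vs s z * s)‖ ≤ c / 2 * (p.1 - s) := by
    refine norm_image_sub_le_of_norm_deriv_right_le_segment
      (f := fun r => V r p.2 - Vs s z * r) (f' := fun r => Vs r p.2 - Vs s z) (a := s) (b := p.1)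
      ?_ ?_ ?_ p.1 ⟨hr1, le_rfl⟩
    · intro r hr
      have hr' : r ∈ Icc s (s + δ) := ⟨hr.1, by linarith [hr.2]⟩
      exact ((hcp r hr').mono (Icc_subset_Icc le_rfl (by linarith))).sub
        (continuous_const.mul continuous_id).continuousWithinAt
    · intro r hr
      have hr' : r ∈ Ico s (s + δ) := ⟨hr.1, by linarith [hr.2]⟩
      have h6 : HasDerivWithinAt (fun r => Vs s z * r) (Vs s z) (Ici r) r := by
        simpa using ((hasDerivAt_id r).const_mul (Vs s z)).hasDerivWithinAt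
      exact (hdp r hr').sub h6
    · intro r hr
      have hrA : A r := hA' ⟨hr.1, by linarith [hr.2]⟩
      exact (hAB hrA hBp).le
  rw [Real.norm_eq_abs] at hmv ⊢
  have e1 : V p.1 p.2 - V s z - lin (Vs s z) vz (p - (s, z)) =
      ((V p.1 p.2 - Vs s z * p.1) - (V s p.2 - Vs s z * s)) + (V s p.2 - V s z - vz * (p.2 - z)) := by
    rw [lin_apply]; simp only [Prod.fst_sub, Prod.snd_sub]; ring
  have hn1 : p.1 - s ≤ ‖p - (s, z)‖ := by
    calc p.1 - s ≤ ‖(p - (s, z)).1‖ := le_abs_self _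
      _ ≤ _ := norm_fst_le _
  have hn2 : |p.2 - z| ≤ ‖p - (s, z)‖ := norm_snd_le (p - (s, z))
  show |V p.1 p.2 - V s z - lin (Vs s z) vz (p - (s, z))| ≤ c * ‖p - (s, z)‖
  rw [e1]
  calc _ ≤ |(V p.1 p.2 - Vs s z * p.1) - (V s p.2 - Vs s z * s)| + |V s p.2 - V s z - vz * (p.2 - z)| :=
        abs_add_le _ _
    _ ≤ c / 2 * (p.1 - s) + c / 2 * |p.2 - z| := add_le_add hmv hs1
    _ ≤ c / 2 * ‖p - (s, z)‖ + c / 2 * ‖p - (s, z)‖ := by
        gcongr
    _ = c * ‖p - (s, z)‖ := by ring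

/-- One family: `V` strictly increasing in `z` onto `(0,1)`, `G > 0`. -/
structure Fam (a S : ℝ) (V G Vz Vzz Vs Gz Gzz Gs : ℝ → ℝ → ℝ) : Prop where
  contV : ContinuousOn (fun p : ℝ × ℝ => V p.1 p.2) (Icc a S ×ˢ univ)
  contG : ContinuousOn (fun p : ℝ × ℝ => G p.1 p.2) (Icc a S ×ˢ univ)
  dV : ∀ s ∈ Icc a S, ∀ z, HasDerivAt (V s) (Vz s z) z
  dVz : ∀ s ∈ Icc a S, ∀ z, HasDerivAt (Vz s) (Vzz s z) z
  Vz_pos : ∀ s ∈ Icc a S, ∀ z, 0 < Vz s z
  dG : ∀ s ∈ Icc a S, ∀ z, HasDerivAt (G s) (Gz s z) z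
  dGz : ∀ s ∈ Icc a S, ∀ z, HasDerivAt (Gz s) (Gzz s z) z
  G_pos : ∀ s ∈ Icc a S, ∀ z, 0 < G s z
  mem : ∀ s ∈ Icc a S, ∀ z, V s z ∈ Ioo (0 : ℝ) 1
  surj : ∀ s ∈ Icc a S, ∀ v ∈ Ioo (0 : ℝ) 1, ∃ z, V s z = v
  fV : ∀ s ∈ Ico a S, ∀ z,
    HasFDerivWithinAt (fun p : ℝ × ℝ => V p.1 p.2) (lin (Vs s z) (Vz s z)) (Ici s ×ˢ univ) (s, z)
  fG : ∀ s ∈ Ico a S, ∀ z,
    HasFDerivWithinAt (fun p : ℝ × ℝ => G p.1 p.2) (lin (Gs s z) (Gz s z)) (Ici s ×ˢ univ) (s, z)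

/-- `d/dv log G` -/
def L1 (G Vz Gz : ℝ → ℝ → ℝ) (s z : ℝ) : ℝ := Gz s z / G s z / Vz s z

/-- `d²/dv² log G` -/
def L2 (G Vz Vzz Gz Gzz : ℝ → ℝ → ℝ) (s z : ℝ) : ℝ :=
  ((Gzz s z * G s z - Gz s z * Gz s z) / G s z ^ 2 * Vz s z - Gz s z / G s z * Vzz s z) /
    Vz s z ^ 2 / Vz s z

/-- derivative in time of `log G` at fixed level -/
def Dt (G Vz Vs Gz Gs : ℝ → ℝ → ℝ) (s z : ℝ) : ℝ := (Gs s z - Vs s z / Vz s z * Gz s z) / G s z

variable {a S : ℝ} {V G Vz Vzz Vs Gz Gzz Gs : ℝ → ℝ → ℝ}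

/-- the inverse function in `z` -/
def inv (V : ℝ → ℝ → ℝ) (s v : ℝ) : ℝ := Function.invFun (V s) v

theorem Fam.V_inv (F : Fam a S V G Vz Vzz Vs Gz Gzz Gs) {s v : ℝ} (hs : s ∈ Icc a S)
    (hv : v ∈ Ioo (0 : ℝ) 1) : V s (inv V s v) = v :=
  Function.invFun_eq (F.surj s hs v hv)

theorem Fam.strictMono (F : Fam a S V G Vz Vzz Vs Gz Gzz Gs) {s : ℝ} (hs : s ∈ Icc a S) :
    StrictMono (V s) := by
  apply strictMono_of_deriv_pos
  intro z
  rw [(F.dV s hs z).deriv]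
  exact F.Vz_pos s hs z

theorem Fam.inv_V (F : Fam a S V G Vz Vzz Vs Gz Gzz Gs) {s z : ℝ} (hs : s ∈ Icc a S) :
    inv V s (V s z) = z :=
  (F.strictMono hs).injective (F.V_inv hs (F.mem s hs z))

theorem Fam.cont_inv (F : Fam a S V G Vz Vzz Vs Gz Gzz Gs) :
    ContinuousOn (fun p : ℝ × ℝ => inv V p.1 p.2) (Icc a S ×ˢ Ioo (0 : ℝ) 1) := by
  rintro ⟨s0, v0⟩ ⟨hs0, hv0⟩
  simp only at hs0 hv0
  set z0 := inv V s0 v0 with hz0
  have hVz0 : V s0 z0 = v0 := F.V_inv hs0 hv0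
  rw [ContinuousWithinAt, Metric.tendsto_nhds]
  intro ε hε
  have hm := F.strictMono hs0
  have hlo : V s0 (z0 - ε / 2) < v0 := by rw [← hVz0]; exact hm (by linarith)
  have hhi : v0 < V s0 (z0 + ε / 2) := by rw [← hVz0]; exact hm (by linarith)
  have hcz : ∀ z, Tendsto (fun p : ℝ × ℝ => V p.1 z) (𝓝[Icc a S ×ˢ Ioo (0 : ℝ) 1] (s0, v0))
      (𝓝 (V s0 z)) := by
    intro z
    have h1 := F.contV (s0, z) ⟨hs0, mem_univ _⟩
    have h2 : Tendsto (fun p : ℝ × ℝ => (p.1, z)) (𝓝[Icc a S ×ˢ Ioo (0 : ℝ) 1] (s0, v0))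
        (𝓝[Icc a S ×ˢ univ] (s0, z)) := by
      apply tendsto_nhdsWithin_of_tendsto_nhds_of_eventually_within
      · exact ((continuous_fst.prodMk continuous_const).tendsto (s0, v0)).mono_left nhdsWithin_le_nhds
      · filter_upwards [self_mem_nhdsWithin] with p hp
        exact ⟨hp.1, mem_univ _⟩
    exact Tendsto.comp h1 h2
  have hcv : Tendsto (fun p : ℝ × ℝ => p.2) (𝓝[Icc a S ×ˢ Ioo (0 : ℝ) 1] (s0, v0)) (𝓝 v0) :=
    (continuous_snd.tendsto (s0, v0)).mono_left nhdsWithin_le_nhds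
  filter_upwards [self_mem_nhdsWithin, (hcz (z0 - ε / 2)).eventually_lt hcv hlo,
    hcv.eventually_lt (hcz (z0 + ε / 2)) hhi] with p hp h1 h2
  have hV : V p.1 (inv V p.1 p.2) = p.2 := F.V_inv hp.1 hp.2
  rw [← hV] at h1 h2
  have hmp := F.strictMono hp.1
  have h3 := hmp.lt_iff_lt.mp h1
  have h4 := hmp.lt_iff_lt.mp h2
  rw [Real.dist_eq, abs_lt]
  constructor <;> linarith

/-- `log G` as a function of the level -/
def lk (V G : ℝ → ℝ → ℝ) (s v : ℝ) : ℝ := Real.log (G s (inv V s v))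

theorem Fam.cont_lk (F : Fam a S V G Vz Vzz Vs Gz Gzz Gs) :
    ContinuousOn (fun p : ℝ × ℝ => lk V G p.1 p.2) (Icc a S ×ˢ Ioo (0 : ℝ) 1) := by
  have h1 : ContinuousOn (fun p : ℝ × ℝ => G p.1 (inv V p.1 p.2)) (Icc a S ×ˢ Ioo (0 : ℝ) 1) :=
    F.contG.comp (f := fun p : ℝ × ℝ => (p.1, inv V p.1 p.2))
      (continuousOn_fst.prodMk F.cont_inv) (fun p hp => ⟨hp.1, mem_univ _⟩)
  exact h1.log fun p hp => (F.G_pos _ hp.1 _).ne'

theorem Fam.deriv_inv (F : Fam a S V G Vz Vzz Vs Gz Gzz Gs) {s v : ℝ} (hs : s ∈ Icc a S)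
    (hv : v ∈ Ioo (0 : ℝ) 1) : HasDerivAt (inv V s) (Vz s (inv V s v))⁻¹ v := by
  have hc : ContinuousAt (inv V s) v := by
    have h1 := F.cont_inv (s, v) ⟨hs, hv⟩
    have h2 : Tendsto (fun y : ℝ => (s, y)) (𝓝 v) (𝓝[Icc a S ×ˢ Ioo (0 : ℝ) 1] (s, v)) := by
      apply tendsto_nhdsWithin_of_tendsto_nhds_of_eventually_within
      · exact (continuous_const.prodMk continuous_id).tendsto v
      · filter_upwards [isOpen_Ioo.mem_nhds hv] with y hy
        exact ⟨hs, hy⟩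
    have h3 : Tendsto ((fun p : ℝ × ℝ => inv V p.1 p.2) ∘ fun y : ℝ => (s, y)) (𝓝 v)
        (𝓝 (inv V s v)) := Tendsto.comp h1 h2
    exact h3
  refine HasDerivAt.of_local_left_inverse hc (F.dV s hs _) (F.Vz_pos s hs _).ne' ?_
  filter_upwards [isOpen_Ioo.mem_nhds hv] with y hy
  exact F.V_inv hs hy

theorem Fam.deriv_lk (F : Fam a S V G Vz Vzz Vs Gz Gzz Gs) {s v : ℝ} (hs : s ∈ Icc a S)
    (hv : v ∈ Ioo (0 : ℝ) 1) : HasDerivAt (lk V G s) (L1 G Vz Gz s (inv V s v)) v := by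
  have h1 := (F.dG s hs (inv V s v)).comp v (F.deriv_inv hs hv)
  have h2 := h1.log (F.G_pos s hs _).ne'
  have e : L1 G Vz Gz s (inv V s v) =
      Gz s (inv V s v) * (Vz s (inv V s v))⁻¹ / G s (inv V s v) := by
    unfold L1; ring
  rw [e]; exact h2

theorem Fam.deriv_L1 (F : Fam a S V G Vz Vzz Vs Gz Gzz Gs) {s v : ℝ} (hs : s ∈ Icc a S)
    (hv : v ∈ Ioo (0 : ℝ) 1) :
    HasDerivAt (fun y => L1 G Vz Gz s (inv V s y)) (L2 G Vz Vzz Gz Gzz s (inv V s v)) v := by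
  have hG := (F.G_pos s hs (inv V s v)).ne'
  have hVz := (F.Vz_pos s hs (inv V s v)).ne'
  have h1 : HasDerivAt (fun z => L1 G Vz Gz s z)
      (((Gzz s (inv V s v) * G s (inv V s v) - Gz s (inv V s v) * Gz s (inv V s v)) /
        G s (inv V s v) ^ 2 * Vz s (inv V s v) -
        Gz s (inv V s v) / G s (inv V s v) * Vzz s (inv V s v)) / Vz s (inv V s v) ^ 2)
      (inv V s v) := by
    unfold L1
    exact ((F.dGz s hs _).fun_div (F.dG s hs _) hG).fun_div (F.dVz s hs _) hVz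
  have h2 := h1.comp v (F.deriv_inv hs hv)
  unfold L2
  rw [div_eq_mul_inv _ (Vz s (inv V s v))]
  exact h2

/-- the path on which the level is constant to first order -/
theorem path_deriv (s z m : ℝ) :
    HasDerivWithinAt (fun r : ℝ => ((r, z + m * (r - s)) : ℝ × ℝ)) (1, m) (Ici s) s := by
  have h1 : HasDerivAt (fun r : ℝ => z + m * (r - s)) m s := by
    have := (((hasDerivAt_id s).sub_const s).const_mul m).const_add z
    simpa using this
  exact ((hasDerivAt_id s).prodMk h1).hasDerivWithinAt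

theorem path_V {s z vs vz : ℝ} (hv : vz ≠ 0)
    (h : HasFDerivWithinAt (fun p : ℝ × ℝ => V p.1 p.2) (lin vs vz) (Ici s ×ˢ univ) (s, z)) :
    HasDerivWithinAt (fun r : ℝ => V r (z + -(vs / vz) * (r - s))) 0 (Ici s) s := by
  have h1 := h.comp_hasDerivWithinAt_of_eq (f := fun r : ℝ => ((r, z + -(vs / vz) * (r - s)) : ℝ × ℝ))
    s (path_deriv s z (-(vs / vz))) (fun r hr => ⟨hr, mem_univ _⟩) (by simp)
  have e : lin vs vz (1, -(vs / vz)) = 0 := by
    rw [lin_apply]; field_simp; ring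
  rw [e] at h1
  exact h1

theorem path_G {s z gs gz m : ℝ}
    (h : HasFDerivWithinAt (fun p : ℝ × ℝ => G p.1 p.2) (lin gs gz) (Ici s ×ˢ univ) (s, z)) :
    HasDerivWithinAt (fun r : ℝ => G r (z + m * (r - s))) (gs + m * gz) (Ici s) s := by
  have h1 := h.comp_hasDerivWithinAt_of_eq (f := fun r : ℝ => ((r, z + m * (r - s)) : ℝ × ℝ))
    s (path_deriv s z m) (fun r hr => ⟨hr, mem_univ _⟩) (by simp)
  have e : lin gs gz (1, m) = gs + m * gz := by
    rw [lin_apply]; ring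
  rw [e] at h1
  exact h1

/-- **TWO TIMES ON LEVEL SETS.** -/
theorem two_level {V' G' Vz' Vzz' Vs' Gz' Gzz' Gs' : ℝ → ℝ → ℝ}
    (F : Fam a S V G Vz Vzz Vs Gz Gzz Gs) (F' : Fam a S V' G' Vz' Vzz' Vs' Gz' Gzz' Gs')
    (e e1 e2 : ℝ → ℝ) (he : ∀ v ∈ Ioo (0 : ℝ) 1, HasDerivAt e (e1 v) v)
    (he1 : ∀ v ∈ Ioo (0 : ℝ) 1, HasDerivAt e1 (e2 v) v)
    (a1 a2 b1 b2 : ℝ → ℝ) (ha1 : ContinuousOn a1 (Icc a S)) (ha2 : ContinuousOn a2 (Icc a S))
    (hb1 : ∀ s ∈ Ico a S, HasDerivWithinAt a1 (b1 s) (Ici s) s)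
    (hb2 : ∀ s ∈ Ico a S, HasDerivWithinAt a2 (b2 s) (Ici s) s)
    (hend : ∃ C ⊆ Ioo (0 : ℝ) 1, IsCompact C ∧ ∀ s ∈ Icc a S, ∀ t ∈ Icc a S, ∀ z z',
      V s z = V' t z' → V s z ∉ C →
      Real.log (G s z) - Real.log (G' t z') ≤ e (V s z) + a1 s + a2 t)
    (hface1 : ∀ t ∈ Icc a S, ∀ z z', V S z = V' t z' →
      Real.log (G S z) - Real.log (G' t z') ≤ e (V S z) + a1 S + a2 t)
    (hface2 : ∀ s ∈ Icc a S, ∀ z z', V s z = V' S z' →
      Real.log (G s z) - Real.log (G' S z') ≤ e (V s z) + a1 s + a2 S)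
    (hneg : ∀ s ∈ Ico a S, ∀ t ∈ Ico a S, ∀ z z', V s z = V' t z' →
      e (V s z) + a1 s + a2 t < Real.log (G s z) - Real.log (G' t z') →
      Dt G Vz Vs Gz Gs s z ≤ b1 s → -Dt G' Vz' Vs' Gz' Gs' t z' ≤ b2 t →
      L1 G Vz Gz s z - L1 G' Vz' Gz' t z' = e1 (V s z) →
      L2 G Vz Vzz Gz Gzz s z - L2 G' Vz' Vzz' Gz' Gzz' t z' ≤ e2 (V s z) → False) :
    ∀ s ∈ Icc a S, ∀ t ∈ Icc a S, ∀ z z', V s z = V' t z' →
      Real.log (G s z) - Real.log (G' t z') ≤ e (V s z) + a1 s + a2 t := by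
  intro s0 hs0 t0 ht0 z0 z0' hzz
  by_contra hcon
  push Not at hcon
  set W : ℝ × ℝ → ℝ → ℝ := fun p v => lk V G p.1 v - lk V' G' p.2 v - e v - a1 p.1 - a2 p.2 with hW
  -- translation between W and the raw form
  have hWraw : ∀ s ∈ Icc a S, ∀ t ∈ Icc a S, ∀ z z', V s z = V' t z' →
      W (s, t) (V s z) = Real.log (G s z) - Real.log (G' t z') - e (V s z) - a1 s - a2 t := by
    intro s hs t ht z z' h
    simp only [hW, lk]
    rw [F.inv_V hs, h, F'.inv_V ht]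
  have hWlev : ∀ s ∈ Icc a S, ∀ t ∈ Icc a S, ∀ v ∈ Ioo (0 : ℝ) 1,
      V s (inv V s v) = V' t (inv V' t v) ∧ V s (inv V s v) = v := by
    intro s hs t ht v hv
    rw [F.V_inv hs hv, F'.V_inv ht hv]; exact ⟨rfl, rfl⟩
  have hcW : ContinuousOn (fun p : (ℝ × ℝ) × ℝ => W p.1 p.2) ((Icc a S ×ˢ Icc a S) ×ˢ Ioo (0 : ℝ) 1) := by
    simp only [hW]
    have c1 : ContinuousOn (fun p : (ℝ × ℝ) × ℝ => lk V G p.1.1 p.2)
        ((Icc a S ×ˢ Icc a S) ×ˢ Ioo (0 : ℝ) 1) :=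
      F.cont_lk.comp (f := fun p : (ℝ × ℝ) × ℝ => (p.1.1, p.2)) (by fun_prop)
        (fun p hp => ⟨hp.1.1, hp.2⟩)
    have c2 : ContinuousOn (fun p : (ℝ × ℝ) × ℝ => lk V' G' p.1.2 p.2)
        ((Icc a S ×ˢ Icc a S) ×ˢ Ioo (0 : ℝ) 1) :=
      F'.cont_lk.comp (f := fun p : (ℝ × ℝ) × ℝ => (p.1.2, p.2)) (by fun_prop)
        (fun p hp => ⟨hp.1.2, hp.2⟩)
    have ce : ContinuousOn (fun p : (ℝ × ℝ) × ℝ => e p.2)
        ((Icc a S ×ˢ Icc a S) ×ˢ Ioo (0 : ℝ) 1) :=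
      ContinuousOn.comp (t := Ioo (0 : ℝ) 1) (fun v hv => (he v hv).continuousAt.continuousWithinAt)
        continuousOn_snd (fun p hp => hp.2)
    have c3 : ContinuousOn (fun p : (ℝ × ℝ) × ℝ => a1 p.1.1)
        ((Icc a S ×ˢ Icc a S) ×ˢ Ioo (0 : ℝ) 1) :=
      ha1.comp (f := fun p : (ℝ × ℝ) × ℝ => p.1.1) (by fun_prop) (fun p hp => hp.1.1)
    have c4 : ContinuousOn (fun p : (ℝ × ℝ) × ℝ => a2 p.1.2)
        ((Icc a S ×ˢ Icc a S) ×ˢ Ioo (0 : ℝ) 1) :=
      ha2.comp (f := fun p : (ℝ × ℝ) × ℝ => p.1.2) (by fun_prop) (fun p hp => hp.1.2)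
    exact (((c1.sub c2).sub ce).sub c3).sub c4
  obtain ⟨C, hCI, hCc, hCu⟩ := hend
  have hv0 : V s0 z0 ∈ Ioo (0 : ℝ) 1 := F.mem s0 hs0 z0
  have hpos0 : 0 < W (s0, t0) (V s0 z0) := by
    rw [hWraw s0 hs0 t0 ht0 z0 z0' hzz]; linarith
  obtain ⟨⟨s, t⟩, hst, v, hv, hpos, hmax⟩ := exists_max (J := Icc a S ×ˢ Icc a S)
    (isCompact_Icc.prod isCompact_Icc) W hcW
    (fun ε hε => ⟨C, hCI, hCc, fun p hp v hv hvC => by
      obtain ⟨h1, h2⟩ := hWlev p.1 hp.1 p.2 hp.2 v hv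
      have h3 := hCu p.1 hp.1 p.2 hp.2 _ _ h1 (by rw [h2]; exact hvC)
      have h4 := hWraw p.1 hp.1 p.2 hp.2 _ _ h1
      rw [h2] at h4 h3
      have h5 : W p v = W (p.1, p.2) v := rfl
      rw [h5, h4]; linarith⟩)
    ⟨hs0, ht0⟩ hv0 hpos0
  have hs : s ∈ Icc a S := hst.1
  have ht : t ∈ Icc a S := hst.2
  obtain ⟨hlev, hlev1⟩ := hWlev s hs t ht v hv
  set z := inv V s v with hz
  set z' := inv V' t v with hz'
  have hlev2 : V' t z' = v := by rw [← hlev, hlev1]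
  have hWv := hWraw s hs t ht z z' hlev
  rw [hlev1] at hWv
  have hsS : s < S := by
    rcases lt_or_eq_of_le hs.2 with h | h
    · exact h
    · exfalso
      subst h
      have := hface1 t ht z z' hlev
      rw [hlev1] at this
      linarith
  have htS : t < S := by
    rcases lt_or_eq_of_le ht.2 with h | h
    · exact h
    · exfalso
      subst h
      have := hface2 s hs z z' hlev
      rw [hlev1] at this
      linarith
  have hs' : s ∈ Ico a S := ⟨hs.1, hsS⟩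
  have ht' : t ∈ Ico a S := ⟨ht.1, htS⟩
  -- space conditions
  have hlm : IsLocalMax (W (s, t)) v := by
    filter_upwards [isOpen_Ioo.mem_nhds hv] with y hy
    exact hmax (s, t) hst y hy
  have hd1 : ∀ y ∈ Ioo (0 : ℝ) 1, HasDerivAt (W (s, t))
      (L1 G Vz Gz s (inv V s y) - L1 G' Vz' Gz' t (inv V' t y) - e1 y) y := by
    intro y hy
    have := ((((F.deriv_lk hs hy).sub (F'.deriv_lk ht hy)).sub (he y hy)).sub_const (a1 s)).sub_const (a2 t)
    exact this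
  have hd2 : HasDerivAt (fun y => L1 G Vz Gz s (inv V s y) - L1 G' Vz' Gz' t (inv V' t y) - e1 y)
      (L2 G Vz Vzz Gz Gzz s z - L2 G' Vz' Vzz' Gz' Gzz' t z' - e2 v) v :=
    ((F.deriv_L1 hs hv).sub (F'.deriv_L1 ht hv)).sub (he1 v hv)
  have hx1 : L1 G Vz Gz s z - L1 G' Vz' Gz' t z' - e1 v = 0 := hlm.hasDerivAt_eq_zero (hd1 v hv)
  have hx2 : L2 G Vz Vzz Gz Gzz s z - L2 G' Vz' Vzz' Gz' Gzz' t z' - e2 v ≤ 0 := by
    refine second_le_zero hlm ?_ hd2
    filter_upwards [isOpen_Ioo.mem_nhds hv] with y hy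
    exact hd1 y hy
  -- time condition, first copy
  have htime1 : Dt G Vz Vs Gz Gs s z ≤ b1 s := by
    set m := -(Vs s z / Vz s z) with hm
    have hVz := (F.Vz_pos s hs z).ne'
    have p1 : HasDerivWithinAt (fun r : ℝ => V r (z + m * (r - s))) 0 (Ici s) s :=
      path_V hVz (F.fV s hs' z)
    have p2 : HasDerivWithinAt (fun r : ℝ => G r (z + m * (r - s))) (Gs s z + m * Gz s z) (Ici s) s :=
      path_G (F.fG s hs' z)
    have hz0 : z + m * (s - s) = z := by ring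
    -- the function along the path
    have q1 : HasDerivWithinAt (fun r : ℝ => Real.log (G r (z + m * (r - s))))
        ((Gs s z + m * Gz s z) / G s (z + m * (s - s))) (Ici s) s :=
      p2.log (by rw [hz0]; exact (F.G_pos s hs z).ne')
    have q2 : HasDerivWithinAt (fun r : ℝ => lk V' G' t (V r (z + m * (r - s)))) 0 (Ici s) s := by
      have h1 : HasDerivAt (lk V' G' t) (L1 G' Vz' Gz' t (inv V' t v)) (V s (z + m * (s - s))) := by
        rw [hz0, hlev1]; exact F'.deriv_lk ht hv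
      have := h1.comp_hasDerivWithinAt s p1
      rw [mul_zero] at this
      exact this
    have q3 : HasDerivWithinAt (fun r : ℝ => e (V r (z + m * (r - s)))) 0 (Ici s) s := by
      have h1 : HasDerivAt e (e1 v) (V s (z + m * (s - s))) := by
        rw [hz0, hlev1]; exact he v hv
      have := h1.comp_hasDerivWithinAt s p1
      rw [mul_zero] at this
      exact this
    have q4 := ((((q1.sub q2).sub q3).sub (hb1 s hs')).sub_const (a2 t))
    have hle := right_deriv_nonpos q4 (by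
      filter_upwards [Ioo_mem_nhdsGT hsS] with r hr
      have hrm : r ∈ Icc a S := ⟨hs.1.trans hr.1.le, hr.2.le⟩
      have hvr := F.mem r hrm (z + m * (r - s))
      have h5 := hmax (r, t) ⟨hrm, ht⟩ (V r (z + m * (r - s))) hvr
      have h6 : W (r, t) (V r (z + m * (r - s))) =
          Real.log (G r (z + m * (r - s))) - lk V' G' t (V r (z + m * (r - s))) -
            e (V r (z + m * (r - s))) - a1 r - a2 t := by
        simp only [hW]
        have : lk V G r (V r (z + m * (r - s))) = Real.log (G r (z + m * (r - s))) := by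
          unfold lk; rw [F.inv_V hrm]
        rw [this]
      have h7 : W (s, t) v =
          Real.log (G s (z + m * (s - s))) - lk V' G' t (V s (z + m * (s - s))) -
            e (V s (z + m * (s - s))) - a1 s - a2 t := by
        rw [hz0, hlev1]; rfl
      rw [h6, h7] at h5
      exact h5)
    rw [hz0] at hle
    have e3 : (Gs s z + m * Gz s z) / G s z = Dt G Vz Vs Gz Gs s z := by
      unfold Dt; rw [hm]; ring
    rw [e3] at hle
    linarith
  -- time condition, second copy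
  have htime2 : -Dt G' Vz' Vs' Gz' Gs' t z' ≤ b2 t := by
    set m := -(Vs' t z' / Vz' t z') with hm
    have hVz := (F'.Vz_pos t ht z').ne'
    have p1 : HasDerivWithinAt (fun r : ℝ => V' r (z' + m * (r - t))) 0 (Ici t) t :=
      path_V hVz (F'.fV t ht' z')
    have p2 : HasDerivWithinAt (fun r : ℝ => G' r (z' + m * (r - t))) (Gs' t z' + m * Gz' t z') (Ici t) t :=
      path_G (F'.fG t ht' z')
    have hz0 : z' + m * (t - t) = z' := by ring
    have q1 : HasDerivWithinAt (fun r : ℝ => Real.log (G' r (z' + m * (r - t))))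
        ((Gs' t z' + m * Gz' t z') / G' t (z' + m * (t - t))) (Ici t) t :=
      p2.log (by rw [hz0]; exact (F'.G_pos t ht z').ne')
    have q2 : HasDerivWithinAt (fun r : ℝ => lk V G s (V' r (z' + m * (r - t)))) 0 (Ici t) t := by
      have h1 : HasDerivAt (lk V G s) (L1 G Vz Gz s (inv V s v)) (V' t (z' + m * (t - t))) := by
        rw [hz0, hlev2]; exact F.deriv_lk hs hv
      have := h1.comp_hasDerivWithinAt t p1
      rw [mul_zero] at this
      exact this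
    have q3 : HasDerivWithinAt (fun r : ℝ => e (V' r (z' + m * (r - t)))) 0 (Ici t) t := by
      have h1 : HasDerivAt e (e1 v) (V' t (z' + m * (t - t))) := by
        rw [hz0, hlev2]; exact he v hv
      have := h1.comp_hasDerivWithinAt t p1
      rw [mul_zero] at this
      exact this
    have q4 := ((((q2.sub q1).sub q3).sub_const (a1 s)).sub (hb2 t ht'))
    have hle := right_deriv_nonpos q4 (by
      filter_upwards [Ioo_mem_nhdsGT htS] with r hr
      have hrm : r ∈ Icc a S := ⟨ht.1.trans hr.1.le, hr.2.le⟩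
      have hvr := F'.mem r hrm (z' + m * (r - t))
      have h5 := hmax (s, r) ⟨hs, hrm⟩ (V' r (z' + m * (r - t))) hvr
      have h6 : W (s, r) (V' r (z' + m * (r - t))) =
          lk V G s (V' r (z' + m * (r - t))) - Real.log (G' r (z' + m * (r - t))) -
            e (V' r (z' + m * (r - t))) - a1 s - a2 r := by
        simp only [hW]
        have : lk V' G' r (V' r (z' + m * (r - t))) = Real.log (G' r (z' + m * (r - t))) := by
          unfold lk; rw [F'.inv_V hrm]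
        rw [this]
      have h7 : W (s, t) v =
          lk V G s (V' t (z' + m * (t - t))) - Real.log (G' t (z' + m * (t - t))) -
            e (V' t (z' + m * (t - t))) - a1 s - a2 t := by
        rw [hz0, hlev2]; rfl
      rw [h6, h7] at h5
      exact h5)
    rw [hz0] at hle
    have e3 : (Gs' t z' + m * Gz' t z') / G' t z' = Dt G' Vz' Vs' Gz' Gs' t z' := by
      unfold Dt; rw [hm]; ring
    rw [e3] at hle
    linarith
  refine hneg s hs' t ht' z z' hlev ?_ htime1 htime2 ?_ ?_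
  · rw [hlev1]; linarith
  · rw [hlev1]; linarith
  · rw [hlev1]; linarith

end

end Crest.Agent.R146.TwoLevel_423
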