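import Crest.Agent.R146.PMax_423

/-!
# Row 146, PT-CMP (helper423): maximum principles for functions of TWO independent times

`two_back`: `w s t x` on `[a,S]² × I`; right time derivatives; the faces `s = S`, `t = S` are controlled.
`two_forw`: left time derivatives; the faces `s = a`, `t = a` are controlled.
At every point where `w > 0` one gives the first order data and the proof that they are NOT those of an
interior maximum.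
-/

set_option autoImplicit false

open Set Filter Topology

namespace Crest.Agent.R146.TwoTime_423

open Crest.Agent.R146.PMax_423

/-- a right derivative at a maximum from the right is nonpositive -/
theorem right_deriv_nonpos {f : ℝ → ℝ} {t f1 : ℝ} (h : HasDerivWithinAt f f1 (Ici t) t)
    (hmax : ∀ᶠ s in 𝓝[>] t, f s ≤ f t) : f1 ≤ 0 := by
  have hs : Tendsto (slope f t) (𝓝[Ici t \ {t}] t) (𝓝 f1) := hasDerivWithinAt_iff_tendsto_slope.mp h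
  have he : Ici t \ {t} = Ioi t := by
    ext z; simp only [Set.mem_sdiff, mem_Ici, mem_singleton_iff, mem_Ioi]
    exact ⟨fun h => lt_of_le_of_ne h.1 (Ne.symm h.2), fun h => ⟨h.le, h.ne'⟩⟩
  rw [he] at hs
  refine le_of_tendsto hs ?_
  filter_upwards [hmax, self_mem_nhdsWithin] with s hs1 hs2
  rw [slope_def_field]
  have : 0 < s - t := sub_pos.mpr hs2
  exact div_nonpos_of_nonpos_of_nonneg (by linarith) this.le

/-- existence of a positive maximum point (any compact parameter set) -/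
theorem exists_max {P : Type*} [TopologicalSpace P] {J : Set P} (hJ : IsCompact J) {I : Set ℝ}
    (w : P → ℝ → ℝ) (hc : ContinuousOn (fun p : P × ℝ => w p.1 p.2) (J ×ˢ I))
    (hdec : ∀ ε : ℝ, 0 < ε → ∃ C ⊆ I, IsCompact C ∧ ∀ p ∈ J, ∀ x ∈ I, x ∉ C → w p x ≤ ε)
    {p0 : P} {x0 : ℝ} (hp0 : p0 ∈ J) (hx0 : x0 ∈ I) (h0 : 0 < w p0 x0) :
    ∃ p ∈ J, ∃ x ∈ I, 0 < w p x ∧ ∀ q ∈ J, ∀ y ∈ I, w q y ≤ w p x := by
  obtain ⟨C, hCI, hCc, hCu⟩ := hdec (w p0 x0 / 2) (by linarith)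
  have hx0C : x0 ∈ C := by
    by_contra h
    have := hCu p0 hp0 x0 hx0 h
    linarith
  have hcomp : IsCompact (J ×ˢ C) := hJ.prod hCc
  obtain ⟨⟨p, x⟩, hpx, hmax⟩ := hcomp.exists_isMaxOn ⟨(p0, x0), hp0, hx0C⟩
    (hc.mono (prod_mono_right hCI))
  have hmax' : ∀ q ∈ J, ∀ y ∈ C, w q y ≤ w p x := fun q hq y hy => hmax (mk_mem_prod hq hy)
  have h1 : w p0 x0 ≤ w p x := hmax' p0 hp0 x0 hx0C
  refine ⟨p, hpx.1, x, hCI hpx.2, by linarith, fun q hq y hy => ?_⟩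
  by_cases hyC : y ∈ C
  · exact hmax' q hq y hyC
  · have := hCu q hq y hy hyC
    linarith

/-- **TWO TIMES, backward.** -/
theorem two_back {a S : ℝ} {I : Set ℝ} (hI : IsOpen I) (w : ℝ → ℝ → ℝ → ℝ)
    (hc : ContinuousOn (fun p : (ℝ × ℝ) × ℝ => w p.1.1 p.1.2 p.2) ((Icc a S ×ˢ Icc a S) ×ˢ I))
    (hdec : ∀ ε : ℝ, 0 < ε → ∃ C ⊆ I, IsCompact C ∧ ∀ s ∈ Icc a S, ∀ t ∈ Icc a S, ∀ x ∈ I, x ∉ C →
      w s t x ≤ ε)
    (hend1 : ∀ t ∈ Icc a S, ∀ x ∈ I, w S t x ≤ 0) (hend2 : ∀ s ∈ Icc a S, ∀ x ∈ I, w s S x ≤ 0)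
    (hpde : ∀ s ∈ Ico a S, ∀ t ∈ Ico a S, ∀ x ∈ I, 0 < w s t x →
      ∃ (ds dt : ℝ) (wx : ℝ → ℝ) (wxx : ℝ),
        HasDerivWithinAt (fun r => w r t x) ds (Ici s) s ∧
        HasDerivWithinAt (fun r => w s r x) dt (Ici t) t ∧
        (∀ᶠ y in 𝓝 x, HasDerivAt (w s t) (wx y) y) ∧ HasDerivAt wx wxx x ∧
        ¬ (ds ≤ 0 ∧ dt ≤ 0 ∧ wx x = 0 ∧ wxx ≤ 0)) :
    ∀ s ∈ Icc a S, ∀ t ∈ Icc a S, ∀ x ∈ I, w s t x ≤ 0 := by
  intro s0 hs0 t0 ht0 x0 hx0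
  by_contra hcon
  push Not at hcon
  obtain ⟨⟨s, t⟩, hst, x, hx, hpos, hmax⟩ := exists_max (J := Icc a S ×ˢ Icc a S)
    (isCompact_Icc.prod isCompact_Icc) (fun p x => w p.1 p.2 x) hc
    (fun ε hε => by
      obtain ⟨C, h1, h2, h3⟩ := hdec ε hε
      exact ⟨C, h1, h2, fun p hp x hx hxC => h3 p.1 hp.1 p.2 hp.2 x hx hxC⟩)
    (p0 := (s0, t0)) ⟨hs0, ht0⟩ hx0 hcon
  have hs : s ∈ Icc a S := hst.1
  have ht : t ∈ Icc a S := hst.2
  have hpos : 0 < w s t x := hpos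
  have hsS : s < S := by
    rcases lt_or_eq_of_le hs.2 with h | h
    · exact h
    · rw [h] at hpos
      exact absurd (hend1 t ht x hx) (not_le.mpr hpos)
  have htS : t < S := by
    rcases lt_or_eq_of_le ht.2 with h | h
    · exact h
    · rw [h] at hpos
      exact absurd (hend2 s hs x hx) (not_le.mpr hpos)
  obtain ⟨ds, dt, wx, wxx, h1, h2, h3, h4, h5⟩ := hpde s ⟨hs.1, hsS⟩ t ⟨ht.1, htS⟩ x hx hpos
  apply h5
  have hlm : IsLocalMax (w s t) x := by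
    filter_upwards [hI.mem_nhds hx] with y hy
    exact hmax (s, t) hst y hy
  refine ⟨right_deriv_nonpos h1 ?_, right_deriv_nonpos h2 ?_, ?_, second_le_zero hlm h3 h4⟩
  · filter_upwards [Ioo_mem_nhdsGT hsS] with r hr
    exact hmax (r, t) ⟨⟨hs.1.trans hr.1.le, hr.2.le⟩, ht⟩ x hx
  · filter_upwards [Ioo_mem_nhdsGT htS] with r hr
    exact hmax (s, r) ⟨hs, ⟨ht.1.trans hr.1.le, hr.2.le⟩⟩ x hx
  · exact hlm.hasDerivAt_eq_zero h3.self_of_nhds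

/-- **TWO TIMES, forward.** -/
theorem two_forw {a S : ℝ} {I : Set ℝ} (hI : IsOpen I) (w : ℝ → ℝ → ℝ → ℝ)
    (hc : ContinuousOn (fun p : (ℝ × ℝ) × ℝ => w p.1.1 p.1.2 p.2) ((Icc a S ×ˢ Icc a S) ×ˢ I))
    (hdec : ∀ ε : ℝ, 0 < ε → ∃ C ⊆ I, IsCompact C ∧ ∀ s ∈ Icc a S, ∀ t ∈ Icc a S, ∀ x ∈ I, x ∉ C →
      w s t x ≤ ε)
    (hend1 : ∀ t ∈ Icc a S, ∀ x ∈ I, w a t x ≤ 0) (hend2 : ∀ s ∈ Icc a S, ∀ x ∈ I, w s a x ≤ 0)
    (hpde : ∀ s ∈ Ioc a S, ∀ t ∈ Ioc a S, ∀ x ∈ I, 0 < w s t x →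
      ∃ (ds dt : ℝ) (wx : ℝ → ℝ) (wxx : ℝ),
        HasDerivWithinAt (fun r => w r t x) ds (Iic s) s ∧
        HasDerivWithinAt (fun r => w s r x) dt (Iic t) t ∧
        (∀ᶠ y in 𝓝 x, HasDerivAt (w s t) (wx y) y) ∧ HasDerivAt wx wxx x ∧
        ¬ (0 ≤ ds ∧ 0 ≤ dt ∧ wx x = 0 ∧ wxx ≤ 0)) :
    ∀ s ∈ Icc a S, ∀ t ∈ Icc a S, ∀ x ∈ I, w s t x ≤ 0 := by
  intro s0 hs0 t0 ht0 x0 hx0
  by_contra hcon
  push Not at hcon
  obtain ⟨⟨s, t⟩, hst, x, hx, hpos, hmax⟩ := exists_max (J := Icc a S ×ˢ Icc a S)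
    (isCompact_Icc.prod isCompact_Icc) (fun p x => w p.1 p.2 x) hc
    (fun ε hε => by
      obtain ⟨C, h1, h2, h3⟩ := hdec ε hε
      exact ⟨C, h1, h2, fun p hp x hx hxC => h3 p.1 hp.1 p.2 hp.2 x hx hxC⟩)
    (p0 := (s0, t0)) ⟨hs0, ht0⟩ hx0 hcon
  have hs : s ∈ Icc a S := hst.1
  have ht : t ∈ Icc a S := hst.2
  have hpos : 0 < w s t x := hpos
  have hsa : a < s := by
    rcases lt_or_eq_of_le hs.1 with h | h
    · exact h
    · rw [← h] at hpos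
      exact absurd (hend1 t ht x hx) (not_le.mpr hpos)
  have hta : a < t := by
    rcases lt_or_eq_of_le ht.1 with h | h
    · exact h
    · rw [← h] at hpos
      exact absurd (hend2 s hs x hx) (not_le.mpr hpos)
  obtain ⟨ds, dt, wx, wxx, h1, h2, h3, h4, h5⟩ := hpde s ⟨hsa, hs.2⟩ t ⟨hta, ht.2⟩ x hx hpos
  apply h5
  have hlm : IsLocalMax (w s t) x := by
    filter_upwards [hI.mem_nhds hx] with y hy
    exact hmax (s, t) hst y hy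
  refine ⟨left_deriv_nonneg h1 ?_, left_deriv_nonneg h2 ?_, ?_, second_le_zero hlm h3 h4⟩
  · filter_upwards [Ioo_mem_nhdsLT hsa] with r hr
    exact hmax (r, t) ⟨⟨hr.1.le, hr.2.le.trans hs.2⟩, ht⟩ x hx
  · filter_upwards [Ioo_mem_nhdsLT hta] with r hr
    exact hmax (s, r) ⟨hs, ⟨hr.1.le, hr.2.le.trans ht.2⟩⟩ x hx
  · exact hlm.hasDerivAt_eq_zero h3.self_of_nhds

end Crest.Agent.R146.TwoTime_423
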