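import Crest.Agent.R146.S6U_988
import Crest.Agent.R146.U0det_762

/-!
Row 146, statement S0206, node (U0): assembly from the polar bound (Polar) and the coin recursion
(Rec) (helper762).
-/

set_option autoImplicit false

namespace Crest.Agent.R146.U0asm_762

open Finset MeasureTheory ProbabilityTheory Crest.Agent.R141
open Crest.Agent.R146.S6Def_988 Crest.Agent.R146.S6U_988
open Crest.ProbabilityR.Perceptron

noncomputable section

/-- the polar bound, uniform for `b` in a bounded interval `[1, B]`. -/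
def Polar : Prop := ∀ B : ℝ, ∃ c : ℝ, ∀ N : ℕ, 0 < N → ∀ b : ℝ, 1 ≤ b → b ≤ B → ∀ W : Fin N → ℝ,
  ∫ y, Real.exp (∑ i, W i * (Real.sqrt N * (y : EuclideanSpace ℝ (Fin N)) i)) ∂(sph N) ≤
    Real.exp (N * (b - 1 - Real.log b) / 2 + c * Real.sqrt N + (∑ i, W i ^ 2) / (2 * b))

/-- the coin recursion without rows. -/
def Rec : Prop := ∀ (nc N n : ℕ), 0 < N → 0 < n → ∀ (C : Cfg N) (f : ℕ → ℝ → ℝ) (s : Fin nc → ℝ),
  (∀ g, 0 ≤ s g) → ∀ (b : ℕ → ℝ), 0 < b 0 →
  (∀ g : Fin nc, b g = b (g + 1) - (((g : ℝ) + 1) / ((nc : ℝ) + 1)) * s g ^ 2) →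
  ∀ c0 : ℝ, (∀ W : Fin N → ℝ, (∀ i, |W i| ≤ Real.sqrt n * ∑ g, s g) →
    Real.log (∑ y, C.q y * Real.exp (∑ i, W i * C.x y i)) ≤ c0 + (∑ i, W i ^ 2) / (2 * b nc)) →
  ∀ G : Fin 0 → Fin N → ℝ, Phi C nc n (M := 0) f G s ≤
    c0 + N / 2 * ∑ g : Fin nc, ((nc : ℝ) + 1) / ((g : ℝ) + 1) * Real.log (b (g + 1) / b g)

/-- transfer of the polar bound to a configuration space close to the sphere. -/
theorem polar_cfg {B c : ℝ} (hc : ∀ N : ℕ, 0 < N → ∀ b : ℝ, 1 ≤ b → b ≤ B → ∀ W : Fin N → ℝ,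
    ∫ y, Real.exp (∑ i, W i * (Real.sqrt N * (y : EuclideanSpace ℝ (Fin N)) i)) ∂(sph N) ≤
    Real.exp (N * (b - 1 - Real.log b) / 2 + c * Real.sqrt N + (∑ i, W i ^ 2) / (2 * b)))
    {N : ℕ} (hN : 0 < N) {R : ℝ} (hR : 0 ≤ R) (C : Cfg N)
    (hC : Near C (1 / ((1 + R) * Real.exp (R * N)))) {b : ℝ} (hb : 1 ≤ b) (hbB : b ≤ B)
    (W : Fin N → ℝ) (hW : ∀ i, |W i| ≤ R) :
    Real.log (∑ y, C.q y * Real.exp (∑ i, W i * C.x y i)) ≤
      Real.log 2 + N * (b - 1 - Real.log b) / 2 + |c| * Real.sqrt N + (∑ i, W i ^ 2) / (2 * b) := by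
  have hsN : Real.sqrt N * Real.sqrt N = N := Real.mul_self_sqrt (by positivity)
  -- bound of the linear form on the sphere
  have hlin : ∀ u : Fin N → ℝ, ∑ i, u i ^ 2 = N → ∑ i, W i * u i ≤ R * N := by
    intro u hu
    have h1 : ∀ i ∈ (univ : Finset (Fin N)), W i * u i ≤ R * ((u i ^ 2 + 1) / 2) := by
      intro i _
      have h2 : W i * u i ≤ |W i| * |u i| := by rw [← abs_mul]; exact le_abs_self _
      have h3 : |W i| * |u i| ≤ R * |u i| := mul_le_mul_of_nonneg_right (hW i) (abs_nonneg _)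
      have h4 : |u i| ≤ (u i ^ 2 + 1) / 2 := by
        nlinarith [sq_nonneg (|u i| - 1), sq_abs (u i)]
      have h5 := mul_le_mul_of_nonneg_left h4 hR
      linarith
    have h2 := Finset.sum_le_sum h1
    have h3 : ∑ i : Fin N, R * ((u i ^ 2 + 1) / 2) = R * N := by
      rw [← Finset.mul_sum, ← Finset.sum_div, Finset.sum_add_distrib, hu]
      simp
    linarith
  set K : ℝ := (1 + R) * Real.exp (R * N) with hK
  have hK0 : 0 < K := by positivity
  set F : (Fin N → ℝ) → ℝ := fun u => K⁻¹ * Real.exp (min (∑ i, W i * u i) (R * N)) with hF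
  have hexp : ∀ a a' : ℝ, a ≤ R * N → a' ≤ R * N →
      |Real.exp a - Real.exp a'| ≤ Real.exp (R * N) * |a - a'| := by
    intro a a' ha ha'
    have key : ∀ a a' : ℝ, a' ≤ a → a ≤ R * N →
        Real.exp a - Real.exp a' ≤ Real.exp (R * N) * (a - a') := by
      intro a a' h h'
      have h1 : Real.exp a - Real.exp a' = Real.exp a * (1 - Real.exp (a' - a)) := by
        rw [mul_sub, mul_one, ← Real.exp_add]; congr 2; ring
      have h2 : 1 - Real.exp (a' - a) ≤ a - a' := by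
        have := Real.add_one_le_exp (a' - a); linarith
      have h3 : Real.exp a ≤ Real.exp (R * N) := Real.exp_le_exp.mpr h'
      rw [h1]
      calc Real.exp a * (1 - Real.exp (a' - a)) ≤ Real.exp a * (a - a') :=
            mul_le_mul_of_nonneg_left h2 (Real.exp_pos _).le
        _ ≤ Real.exp (R * N) * (a - a') := mul_le_mul_of_nonneg_right h3 (by linarith)
    rcases le_total a' a with h | h
    · rw [abs_of_nonneg (by have := Real.exp_le_exp.mpr h; linarith), abs_of_nonneg (by linarith)]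
      exact key a a' h ha
    · rw [abs_sub_comm, abs_sub_comm a a',
        abs_of_nonneg (by have := Real.exp_le_exp.mpr h; linarith), abs_of_nonneg (by linarith)]
      exact key a' a h ha'
  have hLip : ∀ u v, |F u - F v| ≤ ∑ i, |u i - v i| := by
    intro u v
    simp only [hF]
    rw [← mul_sub, abs_mul, abs_of_pos (by positivity : (0:ℝ) < K⁻¹)]
    have h1 := hexp (min (∑ i, W i * u i) (R * N)) (min (∑ i, W i * v i) (R * N))
      (min_le_right _ _) (min_le_right _ _)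
    have h2 : |min (∑ i, W i * u i) (R * N) - min (∑ i, W i * v i) (R * N)| ≤
        |∑ i, W i * u i - ∑ i, W i * v i| := by
      have := abs_min_sub_min_le_max (∑ i, W i * u i) (R * N) (∑ i, W i * v i) (R * N)
      simpa using this
    have h3 : |∑ i, W i * u i - ∑ i, W i * v i| ≤ R * ∑ i, |u i - v i| := by
      rw [← Finset.sum_sub_distrib, Finset.mul_sum]
      refine (Finset.abs_sum_le_sum_abs _ _).trans (Finset.sum_le_sum fun i _ => ?_)
      rw [← mul_sub, abs_mul]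
      exact mul_le_mul_of_nonneg_right (hW i) (abs_nonneg _)
    have h4 : 0 ≤ ∑ i, |u i - v i| := Finset.sum_nonneg fun i _ => abs_nonneg _
    have h5 : |Real.exp (min (∑ i, W i * u i) (R * N)) - Real.exp (min (∑ i, W i * v i) (R * N))| ≤
        Real.exp (R * N) * (R * ∑ i, |u i - v i|) :=
      h1.trans (mul_le_mul_of_nonneg_left (h2.trans h3) (Real.exp_pos _).le)
    calc K⁻¹ * |Real.exp (min (∑ i, W i * u i) (R * N)) - Real.exp (min (∑ i, W i * v i) (R * N))|
        ≤ K⁻¹ * (Real.exp (R * N) * (R * ∑ i, |u i - v i|)) :=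
          mul_le_mul_of_nonneg_left h5 (by positivity)
      _ ≤ K⁻¹ * (Real.exp (R * N) * ((1 + R) * ∑ i, |u i - v i|)) := by
          apply mul_le_mul_of_nonneg_left _ (by positivity)
          apply mul_le_mul_of_nonneg_left _ (by positivity)
          nlinarith
      _ = ∑ i, |u i - v i| := by
          rw [hK]; field_simp
  have h1 := hC F hLip
  have h2 : ∑ y, C.q y * F (C.x y) = K⁻¹ * ∑ y, C.q y * Real.exp (∑ i, W i * C.x y i) := by
    rw [Finset.mul_sum]
    apply Finset.sum_congr rfl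
    intro y _
    simp only [hF]
    rw [min_eq_left (hlin _ (C.hx y))]
    ring
  have h3 : ∫ y, F (fun i => Real.sqrt N * (y : EuclideanSpace ℝ (Fin N)) i) ∂(sph N) =
      K⁻¹ * ∫ y, Real.exp (∑ i, W i * (Real.sqrt N * (y : EuclideanSpace ℝ (Fin N)) i)) ∂(sph N) := by
    rw [← integral_const_mul]
    congr 1
    funext y
    simp only [hF]
    rw [min_eq_left]
    apply hlin
    have hy : ‖(y : EuclideanSpace ℝ (Fin N))‖ = 1 := by
      have := y.2
      rwa [mem_sphere_zero_iff_norm] at this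
    have hy2 : ∑ i, (y : EuclideanSpace ℝ (Fin N)) i ^ 2 = 1 := by
      have := EuclideanSpace.norm_sq_eq (y : EuclideanSpace ℝ (Fin N))
      rw [hy] at this
      simp only [Real.norm_eq_abs, sq_abs] at this
      linarith
    calc ∑ i, (Real.sqrt N * (y : EuclideanSpace ℝ (Fin N)) i) ^ 2
        = (Real.sqrt N * Real.sqrt N) * ∑ i, (y : EuclideanSpace ℝ (Fin N)) i ^ 2 := by
          rw [Finset.mul_sum]; apply Finset.sum_congr rfl; intro i _; ring
      _ = N := by rw [hy2, hsN, mul_one]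
  rw [h2, h3, ← mul_sub, abs_mul, abs_of_pos (by positivity : (0:ℝ) < K⁻¹),
    inv_mul_le_iff₀ hK0, mul_one_div_cancel hK0.ne'] at h1
  have h4 := (abs_le.mp h1).2
  have h5 := hc N hN b hb hbB W
  have hlogb : 0 ≤ b - 1 - Real.log b := by
    have := Real.log_le_sub_one_of_pos (show 0 < b by linarith)
    linarith
  set E : ℝ := N * (b - 1 - Real.log b) / 2 + |c| * Real.sqrt N + (∑ i, W i ^ 2) / (2 * b) with hE
  have hE0 : 0 ≤ E := by
    have e1 : 0 ≤ (N : ℝ) * (b - 1 - Real.log b) / 2 := by positivity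
    have e2 : 0 ≤ |c| * Real.sqrt N := by positivity
    have e3 : 0 ≤ (∑ i, W i ^ 2) / (2 * b) := by
      apply div_nonneg (Finset.sum_nonneg fun i _ => sq_nonneg _); linarith
    linarith
  have h6 : Real.exp (N * (b - 1 - Real.log b) / 2 + c * Real.sqrt N + (∑ i, W i ^ 2) / (2 * b)) ≤
      Real.exp E := by
    apply Real.exp_le_exp.mpr
    have : c * Real.sqrt N ≤ |c| * Real.sqrt N :=
      mul_le_mul_of_nonneg_right (le_abs_self c) (Real.sqrt_nonneg _)
    linarith
  have h7 : 1 ≤ Real.exp E := Real.one_le_exp hE0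
  have h8 : ∑ y, C.q y * Real.exp (∑ i, W i * C.x y i) ≤ 2 * Real.exp E := by linarith
  have h9 : 0 < ∑ y, C.q y * Real.exp (∑ i, W i * C.x y i) := by
    apply Finset.sum_pos
    · intro y _; exact mul_pos (C.hq.pos y) (Real.exp_pos _)
    · exact Finset.univ_nonempty
  have h10 := Real.log_le_log h9 h8
  rw [Real.log_mul (by norm_num) (Real.exp_pos _).ne', Real.log_exp] at h10
  linarith

/-- **(U0)** from the polar bound and the coin recursion. -/
theorem U0_of (hpol : Polar) (hrec : Rec) : U0 := by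
  intro nc A ε hε
  obtain ⟨c, hc⟩ := hpol (1 + 2 * (nc * A ^ 2))
  -- choice of N0
  obtain ⟨N0, hN0⟩ : ∃ N0 : ℕ, 0 < N0 ∧ ∀ N : ℕ, N0 ≤ N →
      (N : ℝ)⁻¹ * (Real.log 2 + |c| * Real.sqrt N) ≤ ε := by
    set κ : ℝ := (Real.log 2 + |c|) / ε with hκ
    have hκ0 : 0 < κ := by
      have := Real.log_pos (show (1:ℝ) < 2 by norm_num)
      have := abs_nonneg c
      positivity
    obtain ⟨m, hm⟩ := exists_nat_ge (κ ^ 2)
    refine ⟨m + 1, by omega, fun N hN => ?_⟩
    have hNp : (0 : ℝ) < N := by exact_mod_cast (show 0 < N by omega)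
    have hN1 : (1 : ℝ) ≤ N := by exact_mod_cast (show 1 ≤ N by omega)
    have h1 : κ ≤ Real.sqrt N := by
      apply Real.le_sqrt_of_sq_le
      have : (m : ℝ) ≤ N := by exact_mod_cast (show m ≤ N by omega)
      linarith
    have h2 : 1 ≤ Real.sqrt N := by rw [Real.one_le_sqrt]; exact hN1
    have h3 : Real.sqrt N * Real.sqrt N = N := Real.mul_self_sqrt hNp.le
    have h4 : Real.log 2 + |c| * Real.sqrt N ≤ (Real.log 2 + |c|) * Real.sqrt N := by
      have := Real.log_pos (show (1:ℝ) < 2 by norm_num)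
      nlinarith
    have h5 : Real.log 2 + |c| = κ * ε := by rw [hκ]; field_simp
    rw [inv_mul_le_iff₀ hNp]
    calc Real.log 2 + |c| * Real.sqrt N ≤ (κ * ε) * Real.sqrt N := by rw [← h5]; exact h4
      _ = κ * (ε * Real.sqrt N) := by ring
      _ ≤ Real.sqrt N * (ε * Real.sqrt N) := mul_le_mul_of_nonneg_right h1 (by positivity)
      _ = N * ε := by linear_combination ε * h3
  refine ⟨N0, fun N hN n hn => ?_⟩
  have hNpos : 0 < N := by omega
  have hNp : (0 : ℝ) < N := by exact_mod_cast hNpos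
  set R : ℝ := Real.sqrt n * (nc * |A|) with hR
  have hR0 : 0 ≤ R := by positivity
  refine ⟨1 / ((1 + R) * Real.exp (R * N)), by positivity, fun C hC f s hs q hq hq1 => ?_⟩
  -- the data
  set α : ℕ → ℝ := fun j => if h : j - 1 < nc then s ⟨j - 1, h⟩ ^ 2 else 0 with hα
  have hαv : ∀ g : Fin nc, α (g + 1) = s g ^ 2 := by
    intro g
    simp only [hα]
    have : (g : ℕ) + 1 - 1 < nc := by simp
    rw [dif_pos this]
    congr 2
  have hαpos : ∀ j, 1 ≤ j → j ≤ nc → 0 < α j := by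
    intro j h1 h2
    have h3 : j - 1 < nc := by omega
    simp only [hα, dif_pos h3]
    have := (hs ⟨j - 1, h3⟩).1
    positivity
  obtain ⟨b, hb0, hbs, hroot, hb1, hbB⟩ := U0det_762.exists_root nc α hαpos
  have conv : ∀ φ : ℕ → ℝ, ∑ j ∈ Ico 1 (nc + 1), φ j = ∑ g : Fin nc, φ (g + 1) := by
    intro φ
    rw [Finset.sum_Ico_eq_sum_range, Fin.sum_univ_eq_sum_range (fun i => φ (i + 1))]
    simp only [Nat.add_sub_cancel]
    apply Finset.sum_congr rfl
    intro i _
    rw [add_comm]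
  have hsumα : ∑ j ∈ Ico 1 (nc + 1), α j = ∑ g : Fin nc, s g ^ 2 := by
    rw [conv]; exact Finset.sum_congr rfl fun g _ => hαv g
  have hbB' : b nc ≤ 1 + 2 * (nc * A ^ 2) := by
    have h1 : ∑ g : Fin nc, s g ^ 2 ≤ ∑ _g : Fin nc, A ^ 2 := by
      apply Finset.sum_le_sum
      intro g _
      have := hs g
      nlinarith
    simp only [Finset.sum_const, Finset.card_univ, Fintype.card_fin, nsmul_eq_mul] at h1
    rw [hsumα] at hbB
    linarith
  have hbstep : ∀ g : Fin nc, b g = b (g + 1) - (((g : ℝ) + 1) / ((nc : ℝ) + 1)) * s g ^ 2 := by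
    intro g
    have h1 := hbs (g + 1) (by omega) (by have := g.2; omega)
    rw [hαv g] at h1
    have e : (g : ℕ) + 1 - 1 = g := by omega
    rw [e] at h1
    push_cast at h1
    exact h1
  have hsA : Real.sqrt n * ∑ g, s g ≤ R := by
    rw [hR]
    apply mul_le_mul_of_nonneg_left _ (Real.sqrt_nonneg _)
    have h1 : ∑ g : Fin nc, s g ≤ ∑ _g : Fin nc, |A| := by
      apply Finset.sum_le_sum
      intro g _
      exact (hs g).2.trans (le_abs_self A)
    simpa using h1
  have hphi : ∀ G : Fin 0 → Fin N → ℝ, Phi C nc n (M := 0) f G s ≤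
      (Real.log 2 + N * (b nc - 1 - Real.log (b nc)) / 2 + |c| * Real.sqrt N) +
      N / 2 * ∑ g : Fin nc, ((nc : ℝ) + 1) / ((g : ℝ) + 1) * Real.log (b (g + 1) / b g) := by
    apply hrec nc N n hNpos hn C f s (fun g => (hs g).1.le) b hb0 hbstep
    intro W hW
    exact polar_cfg hc hNpos hR0 C hC hb1 hbB' W fun i => (hW i).trans hsA
  have hFN : FN C nc n f 0 s ≤ (N : ℝ)⁻¹ *
      ((Real.log 2 + N * (b nc - 1 - Real.log (b nc)) / 2 + |c| * Real.sqrt N) +
      N / 2 * ∑ g : Fin nc, ((nc : ℝ) + 1) / ((g : ℝ) + 1) * Real.log (b (g + 1) / b g)) -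
      1 / 2 * ∑ g, s g ^ 2 := by
    unfold FN
    have h1 : ∫ G, Phi C nc n (M := 0) f G s ∂(gam 0 N) = Phi C nc n (M := 0) f default s := by
      have : (fun G : Fin 0 → Fin N → ℝ => Phi C nc n (M := 0) f G s) =
          fun _ => Phi C nc n (M := 0) f default s := by
        funext G
        rw [Subsingleton.elim G default]
      rw [this]
      have : IsProbabilityMeasure (gam 0 N) := by unfold gam; infer_instance
      simp
    rw [h1]
    have h2 := mul_le_mul_of_nonneg_left (hphi default) (inv_nonneg.mpr hNp.le)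
    linarith
  have hdet := U0det_762.main hq hq1 (fun j h1 h2 => (hαpos j h1 h2).le) hb0 hbs hroot
  rw [hsumα, conv, conv] at hdet
  have e1 : ∑ g : Fin nc, (((nc : ℝ) + 1) / ((g + 1 : ℕ) : ℝ)) *
      Real.log (b (g + 1) / b (g + 1 - 1)) =
      ∑ g : Fin nc, ((nc : ℝ) + 1) / ((g : ℝ) + 1) * Real.log (b (g + 1) / b g) := by
    apply Finset.sum_congr rfl
    intro g _
    have e : (g : ℕ) + 1 - 1 = g := by omega
    rw [e]
    push_cast
    ring
  have e2 : ∑ g : Fin nc, α (g + 1) * (1 / ((nc : ℝ) + 1) * ∑ k ∈ Ico ((g : ℕ) + 1) (nc + 1), q k) =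
      ∑ g : Fin nc, s g ^ 2 * tl1 nc q g := by
    apply Finset.sum_congr rfl
    intro g _
    rw [hαv g]
    unfold tl1
    have e5 : Ico ((g : ℕ) + 1) (nc + 1) = Ioc (g : ℕ) nc := by
      ext k
      rw [mem_Ico, mem_Ioc]
      omega
    rw [e5]
  rw [e1, e2] at hdet
  have h3 := hN0.2 N hN
  have e3 : (N : ℝ)⁻¹ * ((Real.log 2 + N * (b nc - 1 - Real.log (b nc)) / 2 + |c| * Real.sqrt N) +
      N / 2 * ∑ g : Fin nc, ((nc : ℝ) + 1) / ((g : ℝ) + 1) * Real.log (b (g + 1) / b g)) =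
      (N : ℝ)⁻¹ * (Real.log 2 + |c| * Real.sqrt N) + (b nc - 1 - Real.log (b nc)) / 2 +
      1 / 2 * ∑ g : Fin nc, ((nc : ℝ) + 1) / ((g : ℝ) + 1) * Real.log (b (g + 1) / b g) := by
    field_simp
    ring
  rw [e3] at hFN
  linarith

end

end Crest.Agent.R146.U0asm_762
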