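import Mathlib

/-!
Row 146, task 93 (UNIQ), helper708: lemma (U) of att 146-861-1 (helper861), written from his
paper proof.  The profile `D` of a normalised jamming minimiser `(lam, D)` is determined by the
gap `h`, and `lam` by `(h, D)`.  Pure `L²`: no Markov function, no SDE, no Girsanov.
-/

set_option autoImplicit false

namespace Crest.Agent.R146.Uniq_708

open MeasureTheory ProbabilityTheory Set Filter
open scoped Topology ENNReal NNReal

noncomputable section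

variable {Ω : Type*} {m : MeasurableSpace Ω} {mΩ : MeasurableSpace Ω} {P : Measure Ω}

/-- Brownian motion on `[0,1]` with respect to a filtration, real time. -/
structure BMF (P : Measure Ω) (F : ℝ → MeasurableSpace Ω) (B : ℝ → Ω → ℝ) : Prop where
  le : ∀ t, F t ≤ mΩ
  mono : Monotone F
  meas : ∀ t, Measurable[F t] (B t)
  zero : ∀ᵐ ω ∂P, B 0 ω = 0
  indep : ∀ s t, 0 ≤ s → s ≤ t → t ≤ 1 →
    Indep (MeasurableSpace.comap (fun ω => B t ω - B s ω) inferInstance) (F s) P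
  law : ∀ s t, 0 ≤ s → s ≤ t → t ≤ 1 →
    P.map (fun ω => B t ω - B s ω) = gaussianReal 0 (Real.toNNReal (t - s))

section L2

variable {F : ℝ → MeasurableSpace Ω}

theorem integral_condExp_mul [IsProbabilityMeasure P] (hm : m ≤ mΩ)
    {X Y : Ω → ℝ} (hX : MemLp X 2 P) (hY : MemLp Y 2 P) :
    ∫ ω, (P[X|m]) ω * Y ω ∂P = ∫ ω, (P[X|m]) ω * (P[Y|m]) ω ∂P := by
  have hi : Integrable ((P[X|m]) * Y) P := by
    have := (hX.condExp (m := m) one_le_two).integrable_mul hY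
    exact this
  have h1 := condExp_mul_of_stronglyMeasurable_left (μ := P) (m := m)
    (stronglyMeasurable_condExp (f := X) (μ := P) (m := m)) hi (hY.integrable one_le_two)
  have h2 : ∫ ω, (P[(P[X|m]) * Y|m]) ω ∂P = ∫ ω, ((P[X|m]) * Y) ω ∂P := integral_condExp hm
  have h3 : ∫ ω, (P[(P[X|m]) * Y|m]) ω ∂P = ∫ ω, (P[X|m]) ω * (P[Y|m]) ω ∂P :=
    integral_congr_ae (by filter_upwards [h1] with ω hω; simpa using hω)
  rw [← h3, h2]
  rfl

theorem integral_condExp_sq_le [IsProbabilityMeasure P] (hm : m ≤ mΩ)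
    {X : Ω → ℝ} (hX : MemLp X 2 P) :
    ∫ ω, (P[X|m]) ω ^ 2 ∂P ≤ ∫ ω, X ω ^ 2 ∂P := by
  have hc : MemLp (P[X|m]) 2 P := hX.condExp one_le_two
  have h0 : 0 ≤ ∫ ω, (X ω - (P[X|m]) ω) ^ 2 ∂P := integral_nonneg fun ω => sq_nonneg _
  have h1 : ∫ ω, (X ω - (P[X|m]) ω) ^ 2 ∂P =
      ∫ ω, X ω ^ 2 ∂P - 2 * ∫ ω, (P[X|m]) ω * X ω ∂P + ∫ ω, (P[X|m]) ω ^ 2 ∂P := by
    have ha : Integrable (fun ω => X ω ^ 2) P := hX.integrable_sq
    have hb : Integrable (fun ω => (P[X|m]) ω * X ω) P := hc.integrable_mul hX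
    have hd : Integrable (fun ω => (P[X|m]) ω ^ 2) P := hc.integrable_sq
    have he : ∀ ω, (X ω - (P[X|m]) ω) ^ 2 =
        X ω ^ 2 - 2 * ((P[X|m]) ω * X ω) + (P[X|m]) ω ^ 2 := fun ω => by ring
    have h3 : ∫ ω, (X ω ^ 2 - 2 * ((P[X|m]) ω * X ω) + (P[X|m]) ω ^ 2) ∂P =
        ∫ ω, (X ω ^ 2 - 2 * ((P[X|m]) ω * X ω)) ∂P + ∫ ω, (P[X|m]) ω ^ 2 ∂P :=
      integral_add (ha.sub (hb.const_mul 2)) hd
    have h4 : ∫ ω, (X ω ^ 2 - 2 * ((P[X|m]) ω * X ω)) ∂P =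
        ∫ ω, X ω ^ 2 ∂P - ∫ ω, 2 * ((P[X|m]) ω * X ω) ∂P := integral_sub ha (hb.const_mul 2)
    simp_rw [he]
    rw [h3, h4, integral_const_mul]
  have h2 : ∫ ω, (P[X|m]) ω * X ω ∂P = ∫ ω, (P[X|m]) ω ^ 2 ∂P := by
    rw [integral_condExp_mul hm hX hX]
    exact integral_congr_ae (ae_of_all _ fun ω => by simp [sq])
  rw [h1, h2] at h0
  linarith

theorem monotone_sq [IsProbabilityMeasure P] (hle : ∀ t, F t ≤ mΩ) (hmono : Monotone F)
    {X : Ω → ℝ} (hX : MemLp X 2 P) :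
    Monotone fun s => ∫ ω, (P[X|F s]) ω ^ 2 ∂P := by
  intro s t hst
  have h1 : P[P[X|F t]|F s] =ᵐ[P] P[X|F s] := condExp_condExp_of_le (hmono hst) (hle t)
  have h2 : ∫ ω, (P[X|F s]) ω ^ 2 ∂P = ∫ ω, (P[P[X|F t]|F s]) ω ^ 2 ∂P :=
    integral_congr_ae (by filter_upwards [h1] with ω hω; rw [hω])
  show ∫ ω, (P[X|F s]) ω ^ 2 ∂P ≤ ∫ ω, (P[X|F t]) ω ^ 2 ∂P
  rw [h2]
  exact integral_condExp_sq_le (hle s) (hX.condExp one_le_two)

theorem pair_eq [IsProbabilityMeasure P] (hm : m ≤ mΩ)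
    {X Y : Ω → ℝ} (hX : MemLp X 2 P) (hY : MemLp Y 2 P) :
    ∫ ω, (P[X|m]) ω * Y ω ∂P =
      (∫ ω, (P[X + Y|m]) ω ^ 2 ∂P - ∫ ω, (P[X - Y|m]) ω ^ 2 ∂P) / 4 := by
  rw [integral_condExp_mul hm hX hY]
  have hcX : MemLp (P[X|m]) 2 P := hX.condExp one_le_two
  have hcY : MemLp (P[Y|m]) 2 P := hY.condExp one_le_two
  have h1 : ∫ ω, (P[X + Y|m]) ω ^ 2 ∂P = ∫ ω, ((P[X|m]) ω + (P[Y|m]) ω) ^ 2 ∂P :=
    integral_congr_ae (by
      filter_upwards [condExp_add (m := m) (hX.integrable one_le_two) (hY.integrable one_le_two)]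
        with ω hω
      rw [hω]; rfl)
  have h2 : ∫ ω, (P[X - Y|m]) ω ^ 2 ∂P = ∫ ω, ((P[X|m]) ω - (P[Y|m]) ω) ^ 2 ∂P :=
    integral_congr_ae (by
      filter_upwards [condExp_sub (m := m) (hX.integrable one_le_two) (hY.integrable one_le_two)]
        with ω hω
      rw [hω]; rfl)
  rw [h1, h2, ← integral_sub]
  · rw [← integral_div]
    exact integral_congr_ae (ae_of_all _ fun ω => by ring)
  · exact (hcX.add hcY).integrable_sq
  · exact (hcX.sub hcY).integrable_sq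

theorem measurable_pair [IsProbabilityMeasure P] (hle : ∀ t, F t ≤ mΩ) (hmono : Monotone F)
    {X Y : Ω → ℝ} (hX : MemLp X 2 P) (hY : MemLp Y 2 P) :
    Measurable fun s => ∫ ω, (P[X|F s]) ω * Y ω ∂P := by
  have h : (fun s => ∫ ω, (P[X|F s]) ω * Y ω ∂P) = fun s =>
      (∫ ω, (P[X + Y|F s]) ω ^ 2 ∂P - ∫ ω, (P[X - Y|F s]) ω ^ 2 ∂P) / 4 :=
    funext fun s => pair_eq (hle s) hX hY
  rw [h]
  exact ((monotone_sq hle hmono (hX.add hY)).measurable.sub
    (monotone_sq hle hmono (hX.sub hY)).measurable).div_const 4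

end L2

section BM

variable {F : ℝ → MeasurableSpace Ω} {B : ℝ → Ω → ℝ}

theorem BMF.measurable (hB : BMF P F B) (t : ℝ) : Measurable (B t) :=
  (hB.meas t).mono (hB.le t) le_rfl

theorem BMF.isProb (hB : BMF P F B) : IsProbabilityMeasure P := by
  have h := hB.law 0 1 le_rfl zero_le_one le_rfl
  have hm : Measurable (fun ω => B 1 ω - B 0 ω) := (hB.measurable 1).sub (hB.measurable 0)
  constructor
  have h1 : (P.map fun ω => B 1 ω - B 0 ω) univ = 1 := by rw [h]; exact measure_univ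
  rwa [Measure.map_apply hm MeasurableSet.univ, preimage_univ] at h1

theorem BMF.integrable_exp (hB : BMF P F B) {s t : ℝ} (hs : 0 ≤ s) (hst : s ≤ t) (ht : t ≤ 1)
    (u : ℝ) : Integrable (fun ω => Real.exp (u * (B t ω - B s ω))) P := by
  have hm : Measurable (fun ω => B t ω - B s ω) := (hB.measurable t).sub (hB.measurable s)
  have h := integrable_exp_mul_gaussianReal (μ := 0) (v := Real.toNNReal (t - s)) u
  rw [← hB.law s t hs hst ht] at h
  exact (integrable_map_measure (by fun_prop) hm.aemeasurable).1 h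

theorem BMF.integral_exp (hB : BMF P F B) {s t : ℝ} (hs : 0 ≤ s) (hst : s ≤ t) (ht : t ≤ 1)
    (u : ℝ) : ∫ ω, Real.exp (u * (B t ω - B s ω)) ∂P = Real.exp (u ^ 2 * (t - s) / 2) := by
  have h := mgf_gaussianReal (hB.law s t hs hst ht) u
  rw [mgf] at h
  rw [h, Real.coe_toNNReal _ (by linarith)]
  congr 1
  ring

/-- exponential martingale increments -/
def Z (B : ℝ → Ω → ℝ) (θ s t : ℝ) (ω : Ω) : ℝ :=
  Real.exp (θ * (B t ω - B s ω) - θ ^ 2 * (t - s) / 2)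

theorem Z_pos (θ s t : ℝ) (ω : Ω) : 0 < Z B θ s t ω := Real.exp_pos _

theorem Z_mul (θ s t u : ℝ) (ω : Ω) : Z B θ s t ω * Z B θ t u ω = Z B θ s u ω := by
  unfold Z
  rw [← Real.exp_add]
  congr 1
  ring

theorem Z_eq (θ s t : ℝ) (ω : Ω) :
    Z B θ s t ω = Real.exp (-(θ ^ 2 * (t - s) / 2)) * Real.exp (θ * (B t ω - B s ω)) := by
  unfold Z
  rw [← Real.exp_add]
  congr 1
  ring

theorem Z_rpow (θ s t q : ℝ) (ω : Ω) :
    Z B θ s t ω ^ q =
      Real.exp (-(q * θ ^ 2 * (t - s) / 2)) * Real.exp ((q * θ) * (B t ω - B s ω)) := by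
  unfold Z
  rw [← Real.exp_mul, ← Real.exp_add]
  congr 1
  ring

theorem BMF.measurable_Z (hB : BMF P F B) (θ s t : ℝ) : Measurable (Z B θ s t) := by
  unfold Z
  exact Real.measurable_exp.comp
    ((((hB.measurable t).sub (hB.measurable s)).const_mul θ).sub_const _)

theorem BMF.measurable_Z' (hB : BMF P F B) (θ : ℝ) {s t : ℝ} (hst : s ≤ t) :
    Measurable[F t] (Z B θ s t) := by
  unfold Z
  have h1 : Measurable[F t] (B s) := (hB.meas s).mono (hB.mono hst) le_rfl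
  exact Real.measurable_exp.comp ((((hB.meas t).sub h1).const_mul θ).sub_const _)

theorem BMF.integral_Z (hB : BMF P F B) {s t : ℝ} (hs : 0 ≤ s) (hst : s ≤ t) (ht : t ≤ 1)
    (θ : ℝ) : ∫ ω, Z B θ s t ω ∂P = 1 := by
  simp_rw [Z_eq]
  rw [integral_const_mul, hB.integral_exp hs hst ht, ← Real.exp_add]
  simp

theorem BMF.memLp_Z (hB : BMF P F B) {s t : ℝ} (hs : 0 ≤ s) (hst : s ≤ t) (ht : t ≤ 1)
    (θ : ℝ) {q : ℝ} (hq : 0 < q) : MemLp (Z B θ s t) (ENNReal.ofReal q) P := by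
  rw [← integrable_norm_rpow_iff (hB.measurable_Z θ s t).aestronglyMeasurable
    (by simpa using hq) ENNReal.ofReal_ne_top, ENNReal.toReal_ofReal hq.le]
  have h : (fun ω => ‖Z B θ s t ω‖ ^ q) = fun ω =>
      Real.exp (-(q * θ ^ 2 * (t - s) / 2)) * Real.exp ((q * θ) * (B t ω - B s ω)) := by
    funext ω
    rw [Real.norm_of_nonneg (Z_pos θ s t ω).le, Z_rpow]
  rw [h]
  exact (hB.integrable_exp hs hst ht _).const_mul _

theorem BMF.memLp_Z_two (hB : BMF P F B) {s t : ℝ} (hs : 0 ≤ s) (hst : s ≤ t) (ht : t ≤ 1)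
    (θ : ℝ) : MemLp (Z B θ s t) 2 P := by
  have := hB.memLp_Z hs hst ht θ (q := 2) two_pos
  simpa using this

theorem BMF.integrable_Z (hB : BMF P F B) {s t : ℝ} (hs : 0 ≤ s) (hst : s ≤ t) (ht : t ≤ 1)
    (θ : ℝ) : Integrable (Z B θ s t) P := by
  simp_rw [funext fun ω => Z_eq (B := B) θ s t ω]
  exact (hB.integrable_exp hs hst ht _).const_mul _

/-- `E[Z_{t,1} | F_s] = 1` for `s ≤ t`. -/
theorem BMF.condExp_Z_of_le (hB : BMF P F B) {s t u : ℝ} (hst : s ≤ t) (ht0 : 0 ≤ t)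
    (htu : t ≤ u) (hu : u ≤ 1) (θ : ℝ) : P[Z B θ t u|F s] =ᵐ[P] fun _ => (1 : ℝ) := by
  have := hB.isProb
  have hm1 : MeasurableSpace.comap (fun ω => B u ω - B t ω) inferInstance ≤ mΩ :=
    ((hB.measurable u).sub (hB.measurable t)).comap_le
  have hsm : StronglyMeasurable[MeasurableSpace.comap (fun ω => B u ω - B t ω) inferInstance]
      (Z B θ t u) := by
    have h : Measurable[MeasurableSpace.comap (fun ω => B u ω - B t ω) inferInstance]
        (Z B θ t u) := by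
      have h0 : Measurable[MeasurableSpace.comap (fun ω => B u ω - B t ω) inferInstance]
          (fun ω => B u ω - B t ω) := comap_measurable _
      unfold Z
      exact Real.measurable_exp.comp ((h0.const_mul θ).sub_const _)
    exact h.stronglyMeasurable
  have hind : Indep (MeasurableSpace.comap (fun ω => B u ω - B t ω) inferInstance) (F s) P :=
    indep_of_indep_of_le_right (hB.indep t u ht0 htu hu) (hB.mono hst)
  have h := condExp_indep_eq hm1 (hB.le s) hsm hind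
  filter_upwards [h] with ω hω
  rw [hω]
  exact hB.integral_Z ht0 htu hu θ

/-- `E[Z_{t,1} | F_s] = Z_{t,s}` for `t ≤ s`. -/
theorem BMF.condExp_Z_of_ge (hB : BMF P F B) {s t : ℝ} (hst : t ≤ s) (ht0 : 0 ≤ t)
    (hs : s ≤ 1) (θ : ℝ) : P[Z B θ t 1|F s] =ᵐ[P] Z B θ t s := by
  have := hB.isProb
  have h1 : Z B θ t 1 = (Z B θ t s) * (Z B θ s 1) := by
    funext ω
    exact (Z_mul θ t s 1 ω).symm
  have hi : Integrable ((Z B θ t s) * (Z B θ s 1)) P := by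
    rw [← h1]
    exact hB.integrable_Z ht0 (hst.trans hs) le_rfl θ
  have h2 := condExp_mul_of_stronglyMeasurable_left (μ := P) (m := F s)
    (hB.measurable_Z' θ hst).stronglyMeasurable hi
    (hB.integrable_Z (ht0.trans hst) hs le_rfl θ)
  have h3 := hB.condExp_Z_of_le (le_refl s) (ht0.trans hst) hs le_rfl θ
  rw [h1]
  filter_upwards [h2, h3] with ω h2 h3
  rw [h2]
  simp [h3]

/-- independence in integrated form -/
theorem BMF.integral_mul (hB : BMF P F B) {s t : ℝ} (hs : 0 ≤ s) (hst : s ≤ t) (ht : t ≤ 1)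
    (u : ℝ) {Y : Ω → ℝ} (hY : Measurable[F s] Y) :
    ∫ ω, Real.exp (u * (B t ω - B s ω)) * Y ω ∂P =
      Real.exp (u ^ 2 * (t - s) / 2) * ∫ ω, Y ω ∂P := by
  have hm : Measurable (fun ω => B t ω - B s ω) := (hB.measurable t).sub (hB.measurable s)
  have hY' : Measurable Y := hY.mono (hB.le s) le_rfl
  have hind : IndepFun (fun ω => B t ω - B s ω) Y P :=
    indep_of_indep_of_le_right (hB.indep s t hs hst ht) hY.comap_le
  have hind2 : IndepFun (fun ω => Real.exp (u * (B t ω - B s ω))) Y P :=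
    hind.comp (φ := fun x => Real.exp (u * x)) (ψ := id) (by fun_prop) measurable_id
  have h := hind2.integral_fun_mul_eq_mul_integral
    (Real.measurable_exp.comp (hm.const_mul u)).aestronglyMeasurable hY'.aestronglyMeasurable
  rw [h]
  congr 1
  exact hB.integral_exp hs hst ht u

theorem BMF.integrable_mul (hB : BMF P F B) {s t : ℝ} (hs : 0 ≤ s) (hst : s ≤ t) (ht : t ≤ 1)
    (u : ℝ) {Y : Ω → ℝ} (hY : Measurable[F s] Y) (hYi : Integrable Y P) :
    Integrable (fun ω => Real.exp (u * (B t ω - B s ω)) * Y ω) P := by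
  have hind : IndepFun (fun ω => B t ω - B s ω) Y P :=
    indep_of_indep_of_le_right (hB.indep s t hs hst ht) hY.comap_le
  have hind2 : IndepFun (fun ω => Real.exp (u * (B t ω - B s ω))) Y P :=
    hind.comp (φ := fun x => Real.exp (u * x)) (ψ := id) (by fun_prop) measurable_id
  exact hind2.integrable_mul (hB.integrable_exp hs hst ht u) hYi

/-- the tilted tail: `E[Z_{t,s}^q ; B_1 ≤ 0]`. -/
theorem BMF.tail (hB : BMF P F B) {s t : ℝ} (ht0 : 0 ≤ t) (hts : t ≤ s) (hs : s ≤ 1)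
    (θ q : ℝ) :
    Integrable (fun ω => Z B θ t s ω ^ q * Real.exp (-(q * θ * (s - t)) * B 1 ω)) P ∧
    ∫ ω, Z B θ t s ω ^ q * Real.exp (-(q * θ * (s - t)) * B 1 ω) ∂P =
      Real.exp (θ ^ 2 * (s - t) * (q * (q * (1 - (s - t)) - 1)) / 2) := by
  set a : ℝ := q * θ * (s - t) with ha
  have hs0 : 0 ≤ s := ht0.trans hts
  have ht1 : t ≤ 1 := hts.trans hs
  have hmt : Measurable[F t] (fun ω => Real.exp (-a * (B t ω - B 0 ω))) :=
    Real.measurable_exp.comp (((hB.meas t).sub ((hB.meas 0).mono (hB.mono ht0) le_rfl)).const_mul _)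
  have hms : Measurable[F s] (fun ω => Real.exp ((q * θ - a) * (B s ω - B t ω)) *
      Real.exp (-a * (B t ω - B 0 ω))) := by
    refine Measurable.mul ?_ (hmt.mono (hB.mono hts) le_rfl)
    exact Real.measurable_exp.comp
      (((hB.meas s).sub ((hB.meas t).mono (hB.mono hts) le_rfl)).const_mul _)
  have hi3 : Integrable (fun ω => Real.exp (-a * (B t ω - B 0 ω))) P :=
    hB.integrable_exp le_rfl ht0 ht1 _
  have hi2 : Integrable (fun ω => Real.exp ((q * θ - a) * (B s ω - B t ω)) *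
      Real.exp (-a * (B t ω - B 0 ω))) P := hB.integrable_mul ht0 hts hs _ hmt hi3
  have hi1 := hB.integrable_mul hs0 hs le_rfl (-a) hms hi2
  have heq : (fun ω => Z B θ t s ω ^ q * Real.exp (-a * B 1 ω)) =ᵐ[P] fun ω =>
      Real.exp (-(q * θ ^ 2 * (s - t) / 2)) * (Real.exp (-a * (B 1 ω - B s ω)) *
        (Real.exp ((q * θ - a) * (B s ω - B t ω)) * Real.exp (-a * (B t ω - B 0 ω)))) := by
    filter_upwards [hB.zero] with ω h0
    rw [Z_rpow, h0, ← Real.exp_add, ← Real.exp_add, ← Real.exp_add, ← Real.exp_add,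
      ← Real.exp_add]
    congr 1
    ring
  refine ⟨(integrable_congr heq).2 (hi1.const_mul _), ?_⟩
  rw [integral_congr_ae heq, integral_const_mul, hB.integral_mul hs0 hs le_rfl (-a) hms,
    hB.integral_mul ht0 hts hs (q * θ - a) hmt, hB.integral_exp le_rfl ht0 ht1,
    ← Real.exp_add, ← Real.exp_add, ← Real.exp_add]
  congr 1
  rw [ha]
  ring

end BM

/-! ### The force variable and the basic estimate -/

/-- what is used of the force `lam` (normalised): nonnegative, mean one, no mass on `{B_1 > 0}`,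
moments `‖lam‖_p ≤ C √p`. -/
structure Src (P : Measure Ω) (B : ℝ → Ω → ℝ) (lam : Ω → ℝ) (C : ℝ) : Prop where
  nonneg : ∀ᵐ ω ∂P, 0 ≤ lam ω
  mean : ∫ ω, lam ω ∂P = 1
  zero : ∀ᵐ ω ∂P, 0 < B 1 ω → lam ω = 0
  memLp : ∀ p : ℝ, 2 ≤ p → MemLp lam (ENNReal.ofReal p) P
  bound : ∀ p : ℝ, 2 ≤ p → (∫ ω, lam ω ^ p ∂P) ^ (1 / p) ≤ C * Real.sqrt p

theorem Src.memLp_two {B : ℝ → Ω → ℝ} {lam : Ω → ℝ} {C : ℝ} (hl : Src P B lam C) :
    MemLp lam 2 P := by
  simpa using hl.memLp 2 le_rfl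

theorem Src.C_nonneg {B : ℝ → Ω → ℝ} {lam : Ω → ℝ} {C : ℝ} (hl : Src P B lam C) : 0 ≤ C := by
  have h := hl.bound 2 le_rfl
  have h1 : 0 ≤ (∫ ω, lam ω ^ (2:ℝ) ∂P) ^ (1 / (2:ℝ)) :=
    Real.rpow_nonneg (integral_nonneg_of_ae (by
      filter_upwards [hl.nonneg] with ω hω using Real.rpow_nonneg hω _)) _
  have h2 : 0 < Real.sqrt 2 := Real.sqrt_pos.2 two_pos
  by_contra h3
  push Not at h3
  nlinarith

theorem est {F : ℝ → MeasurableSpace Ω} {B : ℝ → Ω → ℝ} (hB : BMF P F B) {lam : Ω → ℝ} {C : ℝ}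
    (hl : Src P B lam C) {s t : ℝ} (ht0 : 0 ≤ t) (hts : t ≤ s) (hs : s ≤ 1) {θ : ℝ} (hθ : 0 ≤ θ)
    {p : ℝ} (hp : 2 ≤ p) :
    ∫ ω, Z B θ t s ω * lam ω ∂P ≤
      C * Real.sqrt p * Real.exp (θ ^ 2 * (s - t) * (1 - p * (s - t)) / (2 * (p - 1))) := by
  have := hB.isProb
  have hp1 : 0 < p - 1 := by linarith
  have hp0 : 0 < p := by linarith
  set q : ℝ := p / (p - 1) with hq
  have hpq : p.HolderConjugate q := (Real.holderConjugate_iff).2 ⟨by linarith, by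
    rw [hq]; field_simp; ring⟩
  have hq0 : 0 < q := hpq.symm.pos
  set g : Ω → ℝ := fun ω => Z B θ t s ω * Real.exp (-(θ * (s - t)) * B 1 ω) with hg
  have hgpos : ∀ ω, 0 < g ω := fun ω => mul_pos (Z_pos _ _ _ _) (Real.exp_pos _)
  have hgm : Measurable g :=
    (hB.measurable_Z θ t s).mul (Real.measurable_exp.comp ((hB.measurable 1).const_mul _))
  have hgq : ∀ ω, g ω ^ q = Z B θ t s ω ^ q * Real.exp (-(q * θ * (s - t)) * B 1 ω) := by
    intro ω
    rw [hg]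
    simp only
    rw [Real.mul_rpow (Z_pos _ _ _ _).le (Real.exp_pos _).le, ← Real.exp_mul]
    congr 2
    ring
  obtain ⟨hti, hte⟩ := hB.tail ht0 hts hs θ q
  have hgL : MemLp g (ENNReal.ofReal q) P := by
    rw [← integrable_norm_rpow_iff hgm.aestronglyMeasurable (by simpa using hq0)
      ENNReal.ofReal_ne_top, ENNReal.toReal_ofReal hq0.le]
    have h : (fun ω => ‖g ω‖ ^ q) = fun ω =>
        Z B θ t s ω ^ q * Real.exp (-(q * θ * (s - t)) * B 1 ω) := by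
      funext ω
      rw [Real.norm_of_nonneg (hgpos ω).le, hgq]
    rw [h]
    exact hti
  have hH := integral_mul_le_Lp_mul_Lq_of_nonneg (μ := P) hpq hl.nonneg
    (ae_of_all P fun ω => (hgpos ω).le) (hl.memLp p hp) hgL
  have h1 : ∫ ω, Z B θ t s ω * lam ω ∂P ≤ ∫ ω, lam ω * g ω ∂P := by
    refine integral_mono_ae ?_ ?_ ?_
    · exact (hB.memLp_Z_two ht0 hts hs θ).integrable_mul hl.memLp_two
    · have hpp : (ENNReal.ofReal p).HolderConjugate (ENNReal.ofReal q) := by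
        exact hpq.ennrealOfReal
      exact (hl.memLp p hp).integrable_mul hgL
    · filter_upwards [hl.nonneg, hl.zero] with ω h0 hz
      by_cases hb : 0 < B 1 ω
      · simp [hz hb]
      · push Not at hb
        have he : 1 ≤ Real.exp (-(θ * (s - t)) * B 1 ω) := by
          apply Real.one_le_exp
          have : 0 ≤ θ * (s - t) := mul_nonneg hθ (by linarith)
          nlinarith
        have hz0 := Z_pos (B := B) θ t s ω
        calc Z B θ t s ω * lam ω = lam ω * (Z B θ t s ω * 1) := by ring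
          _ ≤ lam ω * (Z B θ t s ω * Real.exp (-(θ * (s - t)) * B 1 ω)) := by gcongr
  have h2 : (∫ ω, g ω ^ q ∂P) ^ (1 / q) =
      Real.exp (θ ^ 2 * (s - t) * (1 - p * (s - t)) / (2 * (p - 1))) := by
    have h3 : ∫ ω, g ω ^ q ∂P =
        Real.exp (θ ^ 2 * (s - t) * (q * (q * (1 - (s - t)) - 1)) / 2) := by
      rw [← hte]
      exact integral_congr_ae (ae_of_all _ fun ω => hgq ω)
    rw [h3, ← Real.exp_mul]
    congr 1
    rw [hq]
    field_simp
    ring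
  have h4 : 0 ≤ Real.exp (θ ^ 2 * (s - t) * (1 - p * (s - t)) / (2 * (p - 1))) :=
    (Real.exp_pos _).le
  calc ∫ ω, Z B θ t s ω * lam ω ∂P ≤ ∫ ω, lam ω * g ω ∂P := h1
    _ ≤ (∫ ω, lam ω ^ p ∂P) ^ (1 / p) * (∫ ω, g ω ^ q ∂P) ^ (1 / q) := hH
    _ ≤ _ := by
      rw [h2]
      exact mul_le_mul_of_nonneg_right (hl.bound p hp) h4

/-! ### The test identity -/

/-- the profile `D(t) = ∫_t^1 m + d`, and `W = Dop lam` in weak form
(`Dop lam = ∫_0^1 m(s) E_s lam ds + d lam`). -/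
structure Weak (P : Measure Ω) (F : ℝ → MeasurableSpace Ω) (W lam : Ω → ℝ) (m : ℝ → ℝ) (d : ℝ) :
    Prop where
  mono : MonotoneOn m (Ico 0 1)
  nonneg : ∀ s ∈ Ico (0:ℝ) 1, 0 ≤ m s
  int : IntervalIntegrable m volume 0 1
  d_nonneg : 0 ≤ d
  weak : ∀ X : Ω → ℝ, MemLp X 2 P → ∫ ω, X ω * W ω ∂P =
    (∫ s in (0:ℝ)..1, m s * ∫ ω, (P[X|F s]) ω * lam ω ∂P) + d * ∫ ω, X ω * lam ω ∂P

section test

variable {F : ℝ → MeasurableSpace Ω} {B : ℝ → Ω → ℝ} {lam W : Ω → ℝ} {C : ℝ} {μ : ℝ → ℝ} {d : ℝ}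

/-- `A(s) = E[Z_s lam]` -/
def AA (P : Measure Ω) (F : ℝ → MeasurableSpace Ω) (B : ℝ → Ω → ℝ) (lam : Ω → ℝ) (θ t s : ℝ) : ℝ :=
  ∫ ω, (P[Z B θ t 1|F s]) ω * lam ω ∂P

theorem AA_of_ge (hB : BMF P F B) {s t : ℝ} (ht0 : 0 ≤ t) (hts : t ≤ s) (hs : s ≤ 1) (θ : ℝ) :
    AA P F B lam θ t s = ∫ ω, Z B θ t s ω * lam ω ∂P := by
  unfold AA
  refine integral_congr_ae ?_
  filter_upwards [hB.condExp_Z_of_ge hts ht0 hs θ] with ω hω
  rw [hω]

theorem AA_of_le (hB : BMF P F B) (hl : Src P B lam C) {s t : ℝ} (ht0 : 0 ≤ t) (hst : s ≤ t)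
    (ht1 : t ≤ 1) (θ : ℝ) : AA P F B lam θ t s = 1 := by
  unfold AA
  refine (integral_congr_ae ?_).trans hl.mean
  filter_upwards [hB.condExp_Z_of_le hst ht0 ht1 le_rfl θ] with ω hω
  rw [hω, one_mul]

theorem measurable_AA (hB : BMF P F B) (hl : Src P B lam C) {t : ℝ} (ht0 : 0 ≤ t)
    (ht1 : t ≤ 1) (θ : ℝ) : Measurable (AA P F B lam θ t) := by
  have := hB.isProb
  exact measurable_pair hB.le hB.mono (hB.memLp_Z_two ht0 ht1 le_rfl θ) hl.memLp_two

theorem AA_nonneg (hB : BMF P F B) (hl : Src P B lam C) {t s : ℝ} (ht0 : 0 ≤ t)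
    (ht1 : t ≤ 1) (hs1 : s ≤ 1) (θ : ℝ) : 0 ≤ AA P F B lam θ t s := by
  rcases le_total s t with h | h
  · rw [AA_of_le hB hl ht0 h ht1]
    exact zero_le_one
  · rw [AA_of_ge hB ht0 h hs1]
    refine integral_nonneg_of_ae ?_
    filter_upwards [hl.nonneg] with ω hω
    exact mul_nonneg (Z_pos _ _ _ _).le hω

theorem AA_le (hB : BMF P F B) (hl : Src P B lam C) {t s : ℝ} (ht0 : 0 ≤ t)
    (hts : t ≤ s) (hs1 : s ≤ 1) {θ : ℝ} (hθ : 0 ≤ θ) {p : ℝ} (hp : 2 ≤ p) :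
    AA P F B lam θ t s ≤
      C * Real.sqrt p * Real.exp (θ ^ 2 * (s - t) * (1 - p * (s - t)) / (2 * (p - 1))) := by
  rw [AA_of_ge hB ht0 hts hs1]
  exact est hB hl ht0 hts hs1 hθ hp

theorem AA_le_two (hB : BMF P F B) (hl : Src P B lam C) {t s : ℝ} (ht0 : 0 ≤ t)
    (hts : t ≤ s) (hs1 : s ≤ 1) {θ : ℝ} (hθ : 0 ≤ θ) :
    AA P F B lam θ t s ≤ C * Real.sqrt 2 * Real.exp (θ ^ 2) := by
  refine (AA_le hB hl ht0 hts hs1 hθ le_rfl).trans ?_
  have hC := hl.C_nonneg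
  gcongr
  have h1 : 0 ≤ s - t := by linarith
  have h2 : s - t ≤ 1 := by linarith
  have h3 : (s - t) * (1 - 2 * (s - t)) ≤ 1 := by nlinarith
  have h4 : 0 ≤ θ ^ 2 := sq_nonneg θ
  have h5 : θ ^ 2 * (s - t) * (1 - 2 * (s - t)) / (2 * (2 - 1)) =
      θ ^ 2 * ((s - t) * (1 - 2 * (s - t))) / 2 := by ring
  rw [h5]
  nlinarith [mul_le_mul_of_nonneg_left h3 h4]

theorem intervalIntegrable_mul_AA (hB : BMF P F B) (hl : Src P B lam C)
    (hm : IntervalIntegrable μ volume 0 1) {t : ℝ} (ht0 : 0 ≤ t)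
    (ht1 : t ≤ 1) {θ : ℝ} (hθ : 0 ≤ θ) :
    IntervalIntegrable (fun s => μ s * AA P F B lam θ t s) volume t 1 := by
  have hm1 : IntervalIntegrable μ volume t 1 :=
    hm.mono_set (by rw [uIcc_of_le ht1, uIcc_of_le zero_le_one]; exact Icc_subset_Icc_left ht0)
  rw [intervalIntegrable_iff_integrableOn_Ioc_of_le ht1] at hm1 ⊢
  refine hm1.mul_bdd (c := C * Real.sqrt 2 * Real.exp (θ ^ 2))
    (measurable_AA hB hl ht0 ht1 θ).aestronglyMeasurable ?_
  refine (ae_restrict_iff' measurableSet_Ioc).2 (ae_of_all _ fun s hs => ?_)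
  rw [Real.norm_of_nonneg (AA_nonneg hB hl ht0 ht1 hs.2 θ)]
  exact AA_le_two hB hl ht0 hs.1.le hs.2 hθ

/-- the test identity. -/
theorem test_eq (hB : BMF P F B) (hl : Src P B lam C) (hw : Weak P F W lam μ d) {t : ℝ}
    (ht0 : 0 ≤ t) (ht1 : t ≤ 1) {θ : ℝ} (hθ : 0 ≤ θ) :
    ∫ ω, (Z B θ t 1 ω - 1) * W ω ∂P =
      ((∫ s in t..1, μ s * AA P F B lam θ t s) + d * AA P F B lam θ t 1) -
        ((∫ s in t..1, μ s) + d) := by
  have := hB.isProb
  have hZ : MemLp (Z B θ t 1) 2 P := hB.memLp_Z_two ht0 ht1 le_rfl θ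
  have h1L : MemLp (fun _ : Ω => (1 : ℝ)) 2 P := memLp_const 1
  have hX : MemLp (fun ω => Z B θ t 1 ω - 1) 2 P := hZ.sub h1L
  have hlam1 : Integrable lam P := hl.memLp_two.integrable one_le_two
  rw [hw.weak _ hX]
  have hce : ∀ s, ∫ ω, (P[fun ω => Z B θ t 1 ω - 1|F s]) ω * lam ω ∂P =
      AA P F B lam θ t s - 1 := by
    intro s
    have h1 : P[fun ω => Z B θ t 1 ω - 1|F s] =ᵐ[P] P[Z B θ t 1|F s] - P[fun _ => (1:ℝ)|F s] :=
      condExp_sub (m := F s) (hZ.integrable one_le_two) (h1L.integrable one_le_two)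
    have h2 : P[fun _ : Ω => (1:ℝ)|F s] = fun _ => (1:ℝ) := condExp_const (hB.le s) 1
    have h3 : ∫ ω, (P[fun ω => Z B θ t 1 ω - 1|F s]) ω * lam ω ∂P =
        ∫ ω, ((P[Z B θ t 1|F s]) ω * lam ω - lam ω) ∂P := by
      refine integral_congr_ae ?_
      filter_upwards [h1] with ω hω
      rw [hω, h2]
      simp only [Pi.sub_apply]
      ring
    have h4 : Integrable (fun ω => (P[Z B θ t 1|F s]) ω * lam ω) P :=
      (hZ.condExp one_le_two).integrable_mul hl.memLp_two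
    rw [h3, integral_sub h4 hlam1, hl.mean]
    rfl
  simp_rw [hce]
  have hd1 : ∫ ω, (Z B θ t 1 ω - 1) * lam ω ∂P = AA P F B lam θ t 1 - 1 := by
    rw [AA_of_ge hB ht0 ht1 le_rfl]
    have h3 : ∫ ω, (Z B θ t 1 ω - 1) * lam ω ∂P = ∫ ω, (Z B θ t 1 ω * lam ω - lam ω) ∂P :=
      integral_congr_ae (ae_of_all _ fun ω => by ring)
    have h4 : Integrable (fun ω => Z B θ t 1 ω * lam ω) P := hZ.integrable_mul hl.memLp_two
    rw [h3, integral_sub h4 hlam1, hl.mean]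
  rw [hd1]
  have hmt : IntervalIntegrable μ volume t 1 :=
    hw.int.mono_set (by
      rw [uIcc_of_le ht1, uIcc_of_le zero_le_one]; exact Icc_subset_Icc_left ht0)
  have hm0 : IntervalIntegrable μ volume 0 t :=
    hw.int.mono_set (by
      rw [uIcc_of_le ht0, uIcc_of_le zero_le_one]; exact Icc_subset_Icc_right ht1)
  have hAt : IntervalIntegrable (fun s => μ s * (AA P F B lam θ t s - 1)) volume t 1 := by
    have h := (intervalIntegrable_mul_AA hB hl hw.int ht0 ht1 hθ).sub hmt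
    refine h.congr ?_
    intro s _
    show μ s * AA P F B lam θ t s - μ s = μ s * (AA P F B lam θ t s - 1)
    ring
  have hz : ∀ s ∈ uIcc 0 t, μ s * (AA P F B lam θ t s - 1) = 0 := by
    intro s hs
    rw [uIcc_of_le ht0] at hs
    rw [AA_of_le hB hl ht0 hs.2 ht1, sub_self, mul_zero]
  have hA0 : IntervalIntegrable (fun s => μ s * (AA P F B lam θ t s - 1)) volume 0 t := by
    have h0 : IntervalIntegrable (fun _ : ℝ => (0:ℝ)) volume 0 t := intervalIntegrable_const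
    refine h0.congr ?_
    intro s hs
    exact (hz s (uIoc_subset_uIcc hs)).symm
  rw [← intervalIntegral.integral_add_adjacent_intervals hA0 hAt,
    intervalIntegral.integral_congr (g := fun _ => (0:ℝ)) hz, intervalIntegral.integral_zero,
    zero_add]
  have h5 : ∫ s in t..1, μ s * (AA P F B lam θ t s - 1) =
      (∫ s in t..1, μ s * AA P F B lam θ t s) - ∫ s in t..1, μ s := by
    rw [← intervalIntegral.integral_sub (intervalIntegrable_mul_AA hB hl hw.int ht0 ht1 hθ) hmt]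
    exact intervalIntegral.integral_congr fun s _ => by ring
  rw [h5]
  ring

theorem AA_small (hB : BMF P F B) (hl : Src P B lam C) {t s : ℝ} (ht0 : 0 ≤ t)
    (hts : t ≤ s) (hs1 : s ≤ 1) {x : ℝ} (hx : 1 ≤ x) (hr : s - t ≤ 1 / x ^ 6) :
    AA P F B lam (x ^ 8) t s ≤ 4 * C * x ^ 5 := by
  have hx0 : 0 < x := by linarith
  have hC := hl.C_nonneg
  set r : ℝ := s - t with hrdef
  have hr0 : 0 ≤ r := by linarith
  set θ : ℝ := x ^ 8 with hθ
  have hθ0 : 0 ≤ θ := by positivity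
  have hθr : θ ^ 2 * r ≤ x ^ 10 := by
    calc θ ^ 2 * r ≤ θ ^ 2 * (1 / x ^ 6) := by gcongr
      _ = x ^ 10 := by rw [hθ]; field_simp
  have hθr0 : 0 ≤ θ ^ 2 * r := by positivity
  have h := AA_le hB hl ht0 hts hs1 hθ0 (p := 2 + θ ^ 2 * r) (by linarith)
  have h1 : θ ^ 2 * (s - t) * (1 - (2 + θ ^ 2 * r) * (s - t)) / (2 * (2 + θ ^ 2 * r - 1)) ≤
      1 / 2 := by
    rw [← hrdef, div_le_iff₀ (by linarith)]
    nlinarith [mul_nonneg hθr0 (mul_nonneg (by linarith : (0:ℝ) ≤ 2 + θ ^ 2 * r) hr0)]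
  have h2 : Real.sqrt (2 + θ ^ 2 * r) ≤ 2 * x ^ 5 := by
    rw [Real.sqrt_le_left (by positivity)]
    have h3 : (1:ℝ) ≤ x ^ 10 := one_le_pow₀ hx
    calc 2 + θ ^ 2 * r ≤ 2 + x ^ 10 := by linarith
      _ ≤ (2 * x ^ 5) ^ 2 := by nlinarith
  have h4 : Real.exp (1 / 2) ≤ 2 := by
    have := Real.exp_one_lt_d9
    have h5 : Real.exp (1 / 2) ^ 2 = Real.exp 1 := by rw [← Real.exp_nat_mul]; norm_num
    nlinarith [Real.exp_pos (1 / 2)]
  calc AA P F B lam θ t s ≤ _ := h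
    _ ≤ C * (2 * x ^ 5) * Real.exp (1 / 2) := by
      gcongr
    _ ≤ C * (2 * x ^ 5) * 2 := by gcongr
    _ = 4 * C * x ^ 5 := by ring

theorem AA_large (hB : BMF P F B) (hl : Src P B lam C) {t s : ℝ} (ht0 : 0 ≤ t)
    (hs1 : s ≤ 1) {x : ℝ} (hx : 1 ≤ x) (hr : 1 / x ^ 6 ≤ s - t) :
    AA P F B lam (x ^ 8) t s ≤ 8 * C / x := by
  have hx0 : 0 < x := by linarith
  have hC := hl.C_nonneg
  set r : ℝ := s - t with hrdef
  have hr0 : 0 < r := lt_of_lt_of_le (by positivity) hr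
  have hr1 : r ≤ 1 := by linarith
  set θ : ℝ := x ^ 8 with hθ
  have hθ0 : 0 ≤ θ := by positivity
  have h := AA_le hB hl ht0 (by linarith : t ≤ s) hs1 hθ0 (p := 2 / r)
    (by rw [le_div_iff₀ hr0]; linarith)
  have h1 : θ ^ 2 * (s - t) * (1 - (2 / r) * (s - t)) / (2 * (2 / r - 1)) ≤ -(x ^ 4 / 4) := by
    rw [← hrdef]
    have h5 : θ ^ 2 * r * (1 - 2 / r * r) / (2 * (2 / r - 1)) = -(θ ^ 2 * r ^ 2 / (2 * (2 - r))) := by
      have h6 : 2 - r ≠ 0 := by linarith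
      have h7 : 2 / r - 1 = (2 - r) / r := by field_simp
      rw [h7, div_mul_cancel₀ _ hr0.ne']
      field_simp
      ring
    rw [h5]
    have h8 : x ^ 4 / 4 ≤ θ ^ 2 * r ^ 2 / (2 * (2 - r)) := by
      have h9 : x ^ 4 ≤ θ ^ 2 * r ^ 2 := by
        calc x ^ 4 = (θ * (1 / x ^ 6)) ^ 2 := by rw [hθ]; field_simp
          _ ≤ (θ * r) ^ 2 := by gcongr
          _ = θ ^ 2 * r ^ 2 := by ring
      rw [div_le_div_iff₀ (by norm_num) (by linarith)]
      nlinarith [pow_pos hx0 4]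
    linarith
  have h2 : Real.sqrt (2 / r) ≤ 2 * x ^ 3 := by
    rw [Real.sqrt_le_left (by positivity), div_le_iff₀ hr0]
    have h3 : 1 ≤ r * x ^ 6 := by
      have h10 := mul_le_mul_of_nonneg_right hr (by positivity : (0:ℝ) ≤ x ^ 6)
      rwa [one_div, inv_mul_cancel₀ (by positivity)] at h10
    nlinarith
  have h4 : Real.exp (-(x ^ 4 / 4)) ≤ 4 / x ^ 4 := by
    rw [Real.exp_neg, inv_le_comm₀ (Real.exp_pos _) (by positivity)]
    have h5 := Real.add_one_le_exp (x ^ 4 / 4)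
    have h6 : (4 / x ^ 4)⁻¹ = x ^ 4 / 4 := by rw [inv_div]
    rw [h6]
    linarith
  calc AA P F B lam θ t s ≤ _ := h
    _ ≤ C * (2 * x ^ 3) * Real.exp (-(x ^ 4 / 4)) := by gcongr
    _ ≤ C * (2 * x ^ 3) * (4 / x ^ 4) := by gcongr
    _ = 8 * C / x := by field_simp; ring

/-- the estimate of the future part. -/
theorem G_le (hB : BMF P F B) (hl : Src P B lam C) (hw : Weak P F W lam μ d) {t a : ℝ}
    (ht0 : 0 ≤ t) (ha : 0 < a) (hta : t + a < 1) {x : ℝ} (hx : 1 ≤ x) (hxa : 1 / x ^ 6 ≤ a) :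
    (∫ s in t..1, μ s * AA P F B lam (x ^ 8) t s) + d * AA P F B lam (x ^ 8) t 1 ≤
      (4 * C * μ (t + a) + 8 * C * ((∫ s in t..1, μ s) + d)) / x := by
  have hx0 : 0 < x := by linarith
  have hC := hl.C_nonneg
  set b : ℝ := 1 / x ^ 6 with hb
  have hb0 : 0 < b := by positivity
  have ht1 : t ≤ 1 := by linarith
  have htb1 : t + b ≤ 1 := by linarith
  have hθ0 : (0:ℝ) ≤ x ^ 8 := by positivity
  have hint := intervalIntegrable_mul_AA hB hl hw.int ht0 ht1 hθ0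
  have hmt : IntervalIntegrable μ volume t 1 :=
    hw.int.mono_set (by
      rw [uIcc_of_le ht1, uIcc_of_le zero_le_one]; exact Icc_subset_Icc_left ht0)
  have hi1 : IntervalIntegrable (fun s => μ s * AA P F B lam (x ^ 8) t s) volume t (t + b) :=
    hint.mono_set (by
      rw [uIcc_of_le ht1, uIcc_of_le (by linarith)]; exact Icc_subset_Icc_right htb1)
  have hi2 : IntervalIntegrable (fun s => μ s * AA P F B lam (x ^ 8) t s) volume (t + b) 1 :=
    hint.mono_set (by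
      rw [uIcc_of_le ht1, uIcc_of_le htb1]; exact Icc_subset_Icc_left (by linarith))
  have hm1 : IntervalIntegrable μ volume t (t + b) :=
    hmt.mono_set (by
      rw [uIcc_of_le ht1, uIcc_of_le (by linarith)]; exact Icc_subset_Icc_right htb1)
  have hm2 : IntervalIntegrable μ volume (t + b) 1 :=
    hmt.mono_set (by
      rw [uIcc_of_le ht1, uIcc_of_le htb1]; exact Icc_subset_Icc_left (by linarith))
  have hμa : 0 ≤ μ (t + a) := hw.nonneg _ ⟨by linarith, hta⟩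
  have e1 : ∫ s in t..(t + b), μ s * AA P F B lam (x ^ 8) t s ≤ 4 * C * μ (t + a) / x := by
    have h1 : ∫ s in t..(t + b), μ s * AA P F B lam (x ^ 8) t s ≤
        ∫ s in t..(t + b), μ (t + a) * (4 * C * x ^ 5) := by
      refine intervalIntegral.integral_mono_on (by linarith) hi1 intervalIntegrable_const ?_
      intro s hs
      have hs1 : s ≤ 1 := hs.2.trans htb1
      have hμs : 0 ≤ μ s := hw.nonneg _ ⟨by linarith [hs.1], by linarith [hs.2]⟩
      refine mul_le_mul ?_ (AA_small hB hl ht0 hs.1 hs1 hx (by linarith [hs.2]))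
        (AA_nonneg hB hl ht0 ht1 hs1 _) hμa
      exact hw.mono ⟨by linarith [hs.1], by linarith [hs.2]⟩ ⟨by linarith, hta⟩
        (by linarith [hs.2])
    rw [intervalIntegral.integral_const, smul_eq_mul] at h1
    refine h1.trans (le_of_eq ?_)
    rw [hb]
    field_simp
    ring
  have e2 : ∫ s in (t + b)..1, μ s * AA P F B lam (x ^ 8) t s ≤
      (∫ s in (t + b)..1, μ s) * (8 * C / x) := by
    rw [← intervalIntegral.integral_mul_const]
    refine intervalIntegral.integral_mono_ae_restrict htb1 hi2 (hm2.mul_const _) ?_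
    have hne : ∀ᵐ s : ℝ ∂(volume.restrict (Icc (t + b) 1)), s ≠ 1 :=
      ae_restrict_of_ae (Measure.ae_ne volume 1)
    filter_upwards [hne, ae_restrict_mem measurableSet_Icc] with s hs1 hs
    have hs2 : s < 1 := lt_of_le_of_ne hs.2 hs1
    have hμs : 0 ≤ μ s := hw.nonneg _ ⟨by linarith [hs.1], hs2⟩
    exact mul_le_mul_of_nonneg_left (AA_large hB hl ht0 hs.2 hx (by linarith [hs.1])) hμs
  have e3 : d * AA P F B lam (x ^ 8) t 1 ≤ d * (8 * C / x) :=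
    mul_le_mul_of_nonneg_left (AA_large hB hl ht0 le_rfl hx (by linarith)) hw.d_nonneg
  have e4 : ∫ s in (t + b)..1, μ s ≤ ∫ s in t..1, μ s := by
    rw [← intervalIntegral.integral_add_adjacent_intervals hm1 hm2]
    have : 0 ≤ ∫ s in t..(t + b), μ s :=
      intervalIntegral.integral_nonneg (by linarith) fun s hs =>
        hw.nonneg _ ⟨by linarith [hs.1], by linarith [hs.2]⟩
    linarith
  rw [← intervalIntegral.integral_add_adjacent_intervals hi1 hi2]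
  have h8 : 0 ≤ 8 * C / x := by positivity
  calc _ ≤ 4 * C * μ (t + a) / x + (∫ s in (t + b)..1, μ s) * (8 * C / x) + d * (8 * C / x) := by
        linarith
    _ ≤ 4 * C * μ (t + a) / x + (∫ s in t..1, μ s) * (8 * C / x) + d * (8 * C / x) := by
        gcongr
    _ = _ := by ring

theorem G_nonneg (hB : BMF P F B) (hl : Src P B lam C) (hw : Weak P F W lam μ d) {t : ℝ}
    (ht0 : 0 ≤ t) (ht1 : t ≤ 1) (θ : ℝ) :
    0 ≤ (∫ s in t..1, μ s * AA P F B lam θ t s) + d * AA P F B lam θ t 1 := by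
  refine add_nonneg ?_ (mul_nonneg hw.d_nonneg (AA_nonneg hB hl ht0 ht1 le_rfl θ))
  refine intervalIntegral.integral_nonneg_of_ae_restrict ht1 ?_
  have hne : ∀ᵐ s : ℝ ∂(volume.restrict (Icc t 1)), s ≠ 1 :=
    ae_restrict_of_ae (Measure.ae_ne volume 1)
  filter_upwards [hne, ae_restrict_mem measurableSet_Icc] with s hs1 hs
  exact mul_nonneg (hw.nonneg _ ⟨by linarith [hs.1], lt_of_le_of_ne hs.2 hs1⟩)
    (AA_nonneg hB hl ht0 ht1 hs.2 θ)

end test

/-! ### Uniqueness of the profile -/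

section main

variable {F : ℝ → MeasurableSpace Ω} {B : ℝ → Ω → ℝ} {lam₁ lam₂ W : Ω → ℝ} {C₁ C₂ : ℝ}
  {m₁ m₂ : ℝ → ℝ} {d₁ d₂ : ℝ}

theorem D_le (hB : BMF P F B) (hl₁ : Src P B lam₁ C₁) (hw₁ : Weak P F W lam₁ m₁ d₁)
    (hl₂ : Src P B lam₂ C₂) (hw₂ : Weak P F W lam₂ m₂ d₂) {t : ℝ} (ht0 : 0 ≤ t) (ht1 : t < 1) :
    (∫ s in t..1, m₁ s) + d₁ ≤ (∫ s in t..1, m₂ s) + d₂ := by
  by_contra hcon
  push Not at hcon
  set e : ℝ := (∫ s in t..1, m₁ s) + d₁ - ((∫ s in t..1, m₂ s) + d₂) with he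
  have he0 : 0 < e := by linarith
  set a : ℝ := (1 - t) / 2 with ha
  have ha0 : 0 < a := by rw [ha]; linarith
  have hta : t + a < 1 := by rw [ha]; linarith
  set K : ℝ := 4 * C₁ * m₁ (t + a) + 8 * C₁ * ((∫ s in t..1, m₁ s) + d₁) with hK
  set x : ℝ := max 1 (max (1 / a) (K / e + 1)) with hx
  have hx1 : 1 ≤ x := le_max_left _ _
  have hx0 : 0 < x := by linarith
  have hxa : 1 / x ^ 6 ≤ a := by
    have h1 : 1 / a ≤ x := (le_max_left _ _).trans (le_max_right _ _)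
    have h2 : x ≤ x ^ 6 := le_self_pow₀ hx1 (by norm_num)
    rw [div_le_iff₀ (by positivity)]
    rw [div_le_iff₀ ha0] at h1
    nlinarith
  have hxK : K < e * x := by
    have h1 : K / e + 1 ≤ x := (le_max_right _ _).trans (le_max_right _ _)
    have h2 : K / e < x := by linarith
    rwa [div_lt_iff₀ he0, mul_comm] at h2
  have hθ0 : (0:ℝ) ≤ x ^ 8 := by positivity
  have t1 := test_eq hB hl₁ hw₁ ht0 ht1.le hθ0
  have t2 := test_eq hB hl₂ hw₂ ht0 ht1.le hθ0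
  have g1 := G_le hB hl₁ hw₁ ht0 ha0 hta hx1 hxa
  have g2 := G_nonneg hB hl₂ hw₂ ht0 ht1.le (x ^ 8)
  rw [← hK, le_div_iff₀ hx0] at g1
  have g3 : (∫ s in t..1, m₁ s * AA P F B lam₁ (x ^ 8) t s) + d₁ * AA P F B lam₁ (x ^ 8) t 1 =
      e + ((∫ s in t..1, m₂ s * AA P F B lam₂ (x ^ 8) t s) + d₂ * AA P F B lam₂ (x ^ 8) t 1) := by
    rw [he]
    linarith
  rw [g3] at g1
  nlinarith

/-- **(U), first half**: the profile is determined by `W = h - (k + B_1)`. -/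
theorem D_eq (hB : BMF P F B) (hl₁ : Src P B lam₁ C₁) (hw₁ : Weak P F W lam₁ m₁ d₁)
    (hl₂ : Src P B lam₂ C₂) (hw₂ : Weak P F W lam₂ m₂ d₂) {t : ℝ} (ht0 : 0 ≤ t) (ht1 : t < 1) :
    (∫ s in t..1, m₁ s) + d₁ = (∫ s in t..1, m₂ s) + d₂ :=
  le_antisymm (D_le hB hl₁ hw₁ hl₂ hw₂ ht0 ht1) (D_le hB hl₂ hw₂ hl₁ hw₁ ht0 ht1)

/-- the primitive of the slope -/
theorem tendsto_tail (hm : IntervalIntegrable m₁ volume 0 1) :
    Tendsto (fun t => ∫ s in t..1, m₁ s) (𝓝[<] 1) (𝓝 0) := by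
  have h1 : ContinuousOn (fun x => ∫ s in (0:ℝ)..x, m₁ s) (uIcc 0 1) := by
    refine intervalIntegral.continuousOn_primitive_interval ?_
    rw [uIcc_of_le zero_le_one, integrableOn_Icc_iff_integrableOn_Ioc]
    exact (intervalIntegrable_iff_integrableOn_Ioc_of_le zero_le_one).1 hm
  have h2 : Tendsto (fun x => ∫ s in (0:ℝ)..x, m₁ s) (𝓝[<] 1) (𝓝 (∫ s in (0:ℝ)..1, m₁ s)) := by
    have h3 := h1 1 (by simp)
    refine h3.mono_left (nhdsWithin_le_iff.2 ?_)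
    rw [uIcc_of_le zero_le_one]
    exact Icc_mem_nhdsLT (zero_lt_one)
  have h3 : Tendsto (fun x => (∫ s in (0:ℝ)..1, m₁ s) - ∫ s in (0:ℝ)..x, m₁ s) (𝓝[<] 1)
      (𝓝 ((∫ s in (0:ℝ)..1, m₁ s) - ∫ s in (0:ℝ)..1, m₁ s)) := tendsto_const_nhds.sub h2
  rw [sub_self] at h3
  refine h3.congr' ?_
  filter_upwards [Ico_mem_nhdsLT (zero_lt_one : (0:ℝ) < 1)] with t ht
  have ha : IntervalIntegrable m₁ volume 0 t :=
    hm.mono_set (by
      rw [uIcc_of_le ht.1, uIcc_of_le zero_le_one]; exact Icc_subset_Icc_right ht.2.le)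
  rw [sub_eq_iff_eq_add, add_comm,
    intervalIntegral.integral_add_adjacent_intervals ha (hm.mono_set (by
      rw [uIcc_of_le ht.2.le, uIcc_of_le zero_le_one]; exact Icc_subset_Icc_left ht.1))]

theorem d_eq (hm₁ : IntervalIntegrable m₁ volume 0 1) (hm₂ : IntervalIntegrable m₂ volume 0 1)
    (h : ∀ t ∈ Ico (0:ℝ) 1, (∫ s in t..1, m₁ s) + d₁ = (∫ s in t..1, m₂ s) + d₂) : d₁ = d₂ := by
  have h1 := (tendsto_tail hm₁).add_const d₁
  have h2 := (tendsto_tail hm₂).add_const d₂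
  rw [zero_add] at h1 h2
  refine tendsto_nhds_unique h1 (h2.congr' ?_)
  filter_upwards [Ico_mem_nhdsLT (zero_lt_one : (0:ℝ) < 1)] with t ht
  exact (h t ht).symm

theorem m_ae_eq (hm₁ : IntervalIntegrable m₁ volume 0 1) (hm₂ : IntervalIntegrable m₂ volume 0 1)
    (h : ∀ t ∈ Ico (0:ℝ) 1, (∫ s in t..1, m₁ s) + d₁ = (∫ s in t..1, m₂ s) + d₂) :
    ∀ᵐ s : ℝ, s ∈ Ioo (0:ℝ) 1 → m₁ s = m₂ s := by
  have hsplit : ∀ (f : ℝ → ℝ), IntervalIntegrable f volume 0 1 → ∀ x ∈ Ico (0:ℝ) 1,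
      ∫ s in (0:ℝ)..x, f s = (∫ s in (0:ℝ)..1, f s) - ∫ s in x..1, f s := by
    intro f hf x hx
    rw [eq_sub_iff_add_eq]
    exact intervalIntegral.integral_add_adjacent_intervals
      (hf.mono_set (by
        rw [uIcc_of_le hx.1, uIcc_of_le zero_le_one]; exact Icc_subset_Icc_right hx.2.le))
      (hf.mono_set (by
        rw [uIcc_of_le hx.2.le, uIcc_of_le zero_le_one]; exact Icc_subset_Icc_left hx.1))
  have heq : ∀ x ∈ Ico (0:ℝ) 1, ∫ s in (0:ℝ)..x, m₁ s = ∫ s in (0:ℝ)..x, m₂ s := by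
    intro x hx
    have h0 := h 0 ⟨le_rfl, zero_lt_one⟩
    have hx' := h x hx
    rw [hsplit m₁ hm₁ x hx, hsplit m₂ hm₂ x hx]
    linarith
  filter_upwards [hm₁.ae_hasDerivAt_integral, hm₂.ae_hasDerivAt_integral] with x h1 h2 hx
  have hxu : x ∈ uIcc (0:ℝ) 1 := by rw [uIcc_of_le zero_le_one]; exact ⟨hx.1.le, hx.2.le⟩
  have h0u : (0:ℝ) ∈ uIcc (0:ℝ) 1 := by rw [uIcc_of_le zero_le_one]; exact ⟨le_rfl, zero_le_one⟩
  have h3 := h1 hxu 0 h0u
  have h4 := h2 hxu 0 h0u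
  refine h3.unique (h4.congr_of_eventuallyEq ?_)
  filter_upwards [Ioo_mem_nhds hx.1 hx.2] with y hy
  exact heq y ⟨hy.1.le, hy.2⟩

/-- **(U), second half**: the force is determined by `W` as well. -/
theorem lam_eq [IsProbabilityMeasure P] (hle : ∀ t, F t ≤ mΩ) (hmono : Monotone F)
    (hl₁ : MemLp lam₁ 2 P) (hl₂ : MemLp lam₂ 2 P) (hw₁ : Weak P F W lam₁ m₁ d₁)
    (hw₂ : Weak P F W lam₂ m₂ d₂)
    (h : ∀ t ∈ Ico (0:ℝ) 1, (∫ s in t..1, m₁ s) + d₁ = (∫ s in t..1, m₂ s) + d₂)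
    (hpos : ∀ t ∈ Ico (0:ℝ) 1, 0 < (∫ s in t..1, m₁ s) + d₁)
    (hreg : (∀ t ∈ Ico (0:ℝ) 1, P[lam₁ - lam₂|F t] =ᵐ[P] 0) → lam₁ =ᵐ[P] lam₂) :
    lam₁ =ᵐ[P] lam₂ := by
  set X : Ω → ℝ := lam₁ - lam₂ with hX
  have hXL : MemLp X 2 P := hl₁.sub hl₂
  have hd := d_eq hw₁.int hw₂.int h
  have hm := m_ae_eq hw₁.int hw₂.int h
  set φ : ℝ → ℝ := fun s => ∫ ω, (P[X|F s]) ω ^ 2 ∂P with hφ
  have hφm : Monotone φ := monotone_sq hle hmono hXL
  have hφ0 : ∀ s, 0 ≤ φ s := fun s => integral_nonneg fun ω => sq_nonneg _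
  have hφX : ∀ s, φ s ≤ ∫ ω, X ω * X ω ∂P := by
    intro s
    have := integral_condExp_sq_le (hle s) hXL
    simpa [hφ, sq] using this
  have hpair : ∀ s, ∫ ω, (P[X|F s]) ω * lam₁ ω ∂P - ∫ ω, (P[X|F s]) ω * lam₂ ω ∂P = φ s := by
    intro s
    have hc : MemLp (P[X|F s]) 2 P := hXL.condExp one_le_two
    have h1 : Integrable (fun ω => (P[X|F s]) ω * lam₁ ω) P := hc.integrable_mul hl₁
    have h2 : Integrable (fun ω => (P[X|F s]) ω * lam₂ ω) P := hc.integrable_mul hl₂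
    rw [← integral_sub h1 h2]
    have h3 : ∫ ω, ((P[X|F s]) ω * lam₁ ω - (P[X|F s]) ω * lam₂ ω) ∂P =
        ∫ ω, (P[X|F s]) ω * X ω ∂P :=
      integral_congr_ae (ae_of_all _ fun ω => by simp [hX, mul_sub])
    rw [h3, integral_condExp_mul (hle s) hXL hXL]
    exact integral_congr_ae (ae_of_all _ fun ω => by simp [sq])
  -- subtract the two weak identities
  have hb : ∀ (Y : Ω → ℝ), MemLp Y 2 P → ∀ (f : ℝ → ℝ), IntervalIntegrable f volume 0 1 →
      IntervalIntegrable (fun s => f s * ∫ ω, (P[X|F s]) ω * Y ω ∂P) volume 0 1 := by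
    intro Y hY f hf
    rw [intervalIntegrable_iff_integrableOn_Ioc_of_le zero_le_one] at hf ⊢
    refine hf.mul_bdd (c := (∫ ω, (X + Y) ω ^ 2 ∂P + ∫ ω, (X - Y) ω ^ 2 ∂P) / 4)
      (measurable_pair hle hmono hXL hY).aestronglyMeasurable (ae_of_all _ fun s => ?_)
    rw [pair_eq (hle s) hXL hY, Real.norm_eq_abs, abs_le]
    have i1 := integral_condExp_sq_le (hle s) (hXL.add hY)
    have i2 := integral_condExp_sq_le (hle s) (hXL.sub hY)
    have i3 : 0 ≤ ∫ ω, (P[X + Y|F s]) ω ^ 2 ∂P := integral_nonneg fun ω => sq_nonneg _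
    have i4 : 0 ≤ ∫ ω, (P[X - Y|F s]) ω ^ 2 ∂P := integral_nonneg fun ω => sq_nonneg _
    constructor <;> linarith
  have hsw : ∫ s in (0:ℝ)..1, m₂ s * ∫ ω, (P[X|F s]) ω * lam₂ ω ∂P =
      ∫ s in (0:ℝ)..1, m₁ s * ∫ ω, (P[X|F s]) ω * lam₂ ω ∂P := by
    refine intervalIntegral.integral_congr_ae ?_
    have hne : ∀ᵐ s : ℝ, s ≠ 1 := Measure.ae_ne volume 1
    filter_upwards [hm, hne] with s hs hs1 hs2
    rw [uIoc_of_le zero_le_one] at hs2
    rw [hs ⟨hs2.1, lt_of_le_of_ne hs2.2 hs1⟩]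
  have e1 := hw₁.weak X hXL
  have e2 := hw₂.weak X hXL
  rw [hsw, ← hd] at e2
  have e3 : (∫ s in (0:ℝ)..1, m₁ s * φ s) + d₁ * ∫ ω, X ω * X ω ∂P = 0 := by
    have f1 : ∫ s in (0:ℝ)..1, m₁ s * φ s =
        (∫ s in (0:ℝ)..1, m₁ s * ∫ ω, (P[X|F s]) ω * lam₁ ω ∂P) -
          ∫ s in (0:ℝ)..1, m₁ s * ∫ ω, (P[X|F s]) ω * lam₂ ω ∂P := by
      rw [← intervalIntegral.integral_sub (hb lam₁ hl₁ m₁ hw₁.int) (hb lam₂ hl₂ m₁ hw₁.int)]
      refine intervalIntegral.integral_congr fun s _ => ?_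
      show m₁ s * φ s = _
      rw [← hpair s]
      ring
    have f2 : ∫ ω, X ω * X ω ∂P = ∫ ω, X ω * lam₁ ω ∂P - ∫ ω, X ω * lam₂ ω ∂P := by
      have h1 : Integrable (fun ω => X ω * lam₁ ω) P := hXL.integrable_mul hl₁
      have h2 : Integrable (fun ω => X ω * lam₂ ω) P := hXL.integrable_mul hl₂
      rw [← integral_sub h1 h2]
      exact integral_congr_ae (ae_of_all _ fun ω => by simp [hX, mul_sub])
    rw [f1, f2]
    linarith
  have hXX : 0 ≤ ∫ ω, X ω * X ω ∂P := integral_nonneg fun ω => mul_self_nonneg _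
  have hmφ : IntervalIntegrable (fun s => m₁ s * φ s) volume 0 1 := by
    have h1 := hb X hXL m₁ hw₁.int
    refine h1.congr ?_
    intro s _
    show m₁ s * ∫ ω, (P[X|F s]) ω * X ω ∂P = m₁ s * φ s
    rw [integral_condExp_mul (hle s) hXL hXL]
    simp [hφ, sq]
  apply hreg
  intro T hT
  have hφT : φ T = 0 := by
    have hD := hpos T hT
    have hT1 : T ≤ 1 := hT.2.le
    have hi0 : IntervalIntegrable (fun s => m₁ s * φ s) volume 0 T :=
      hmφ.mono_set (by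
        rw [uIcc_of_le hT.1, uIcc_of_le zero_le_one]; exact Icc_subset_Icc_right hT1)
    have hi1 : IntervalIntegrable (fun s => m₁ s * φ s) volume T 1 :=
      hmφ.mono_set (by
        rw [uIcc_of_le hT1, uIcc_of_le zero_le_one]; exact Icc_subset_Icc_left hT.1)
    have hm1 : IntervalIntegrable m₁ volume T 1 :=
      hw₁.int.mono_set (by
        rw [uIcc_of_le hT1, uIcc_of_le zero_le_one]; exact Icc_subset_Icc_left hT.1)
    have g1 : 0 ≤ ∫ s in (0:ℝ)..T, m₁ s * φ s :=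
      intervalIntegral.integral_nonneg hT.1 fun s hs =>
        mul_nonneg (hw₁.nonneg s ⟨hs.1, lt_of_le_of_lt hs.2 hT.2⟩) (hφ0 s)
    have g2 : (∫ s in T..1, m₁ s) * φ T ≤ ∫ s in T..1, m₁ s * φ s := by
      rw [← intervalIntegral.integral_mul_const]
      refine intervalIntegral.integral_mono_ae_restrict hT1 (hm1.mul_const _) hi1 ?_
      have hne : ∀ᵐ s : ℝ ∂(volume.restrict (Icc T 1)), s ≠ 1 :=
        ae_restrict_of_ae (Measure.ae_ne volume 1)
      filter_upwards [hne, ae_restrict_mem measurableSet_Icc] with s hs1 hs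
      exact mul_le_mul_of_nonneg_left (hφm hs.1)
        (hw₁.nonneg s ⟨hT.1.trans hs.1, lt_of_le_of_ne hs.2 hs1⟩)
    have g3 : d₁ * φ T ≤ d₁ * ∫ ω, X ω * X ω ∂P :=
      mul_le_mul_of_nonneg_left (hφX T) hw₁.d_nonneg
    rw [← intervalIntegral.integral_add_adjacent_intervals hi0 hi1] at e3
    have g4 : ((∫ s in T..1, m₁ s) + d₁) * φ T ≤ 0 := by linarith
    have g5 := hφ0 T
    by_contra hne
    have : 0 < φ T := lt_of_le_of_ne g5 (Ne.symm hne)
    nlinarith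
  have hc : MemLp (P[X|F T]) 2 P := hXL.condExp one_le_two
  have h5 : (fun ω => (P[X|F T]) ω ^ 2) =ᵐ[P] 0 := by
    refine (integral_eq_zero_iff_of_nonneg (fun ω => sq_nonneg _) hc.integrable_sq).1 hφT
  filter_upwards [h5] with ω hω
  simpa using hω

end main

end

end Crest.Agent.R146.Uniq_708
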