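import Crest.Agent.R146.P34Def_393
import Crest.Agent.R146.DualL_256

/-!
Row 146, packages P3/P4, node VB (helper463): `VB1`-`VB4` of `P34Def_393`, the literal
`controlValue` of the quadratic potential `qp b k`, proved from the `L2` toolbox of helper256.
-/

set_option autoImplicit false

noncomputable section

open MeasureTheory Set Filter Topology ProbabilityTheory
open scoped InnerProductSpace RealInnerProductSpace NNReal ENNReal

namespace Crest.Agent.R146.VB_463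

open Crest.ProbabilityR.Perceptron
open Crest.Agent.R146.DualQ_256 Crest.Agent.R146.DualC1_256 Crest.Agent.R146.DualC2_256
  Crest.Agent.R146.DualV_256 Crest.Agent.R146.DualL_256
open Crest.Agent.R146.P34Def_393

variable {Ω : Type} [mΩ : MeasurableSpace Ω] {P : Measure Ω} [IsProbabilityMeasure P]

theorem qp_eq (b k : ℝ) : qp b k = fbk b k := rfl

omit [IsProbabilityMeasure P] in
theorem pay_nonpos {b : ℝ} (hb : 0 ≤ b) (k : ℝ) (Zf : Ω → ℝ) (w : ℝ → ℝ) (v : ℝ≥0 → Ω → ℝ) :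
    pay P (fbk b k) Zf w v ≤ 0 := by
  unfold pay
  have h1 : ∫ ω, fbk b k (Zf ω + II w v ω) ∂P ≤ 0 := integral_nonpos fun ω => fbk_nonpos hb k _
  have h2 := cost_nonneg P w v
  linarith

omit [IsProbabilityMeasure P] in
theorem bdd_fbk0 {B : ℝ≥0 → Ω → ℝ} {hBm : ∀ t, Measurable (B t)} {b : ℝ} (hb : 0 ≤ b) (k : ℝ)
    (m : OverlapProfile) : BddAbove (payoffs P B hBm (fbk b k) m) :=
  ⟨0, by rintro _ ⟨v, hv, rfl⟩; exact pay_nonpos hb k _ _ _⟩

/-! ### the zero control -/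

omit [IsProbabilityMeasure P] in
theorem adm_zero (𝓕 : Filtration ℝ≥0 mΩ) (w : ℝ → ℝ) : Adm 𝓕 P w (fun _ _ => 0) where
  prog := isProgressive_const 𝓕 0
  fin := by simp

omit mΩ in
theorem II_zero (w : ℝ → ℝ) (ω : Ω) : II w (fun _ _ => 0) ω = 0 := by
  unfold II vh; simp

omit [IsProbabilityMeasure P] in
theorem cost_zero (w : ℝ → ℝ) : cost P w (fun _ _ => (0 : ℝ)) = 0 := by
  unfold cost; simp

/-! ### Brownian motion at time one -/

omit [IsProbabilityMeasure P] in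
theorem integral_B {B : ℝ≥0 → Ω → ℝ} (hB : IsBrownianReal B P) : ∫ ω, B 1 ω ∂P = 0 :=
  hB.toIsPreBrownianReal.integral_eval 1

theorem integral_B_sq {B : ℝ≥0 → Ω → ℝ} (hB : IsBrownianReal B P) :
    ∫ ω, B 1 ω ^ 2 ∂P = 1 := by
  have h1 := hB.toIsPreBrownianReal.covariance_eval 1 1
  rw [covariance_self (memLp_B hB 1).aestronglyMeasurable.aemeasurable,
    variance_eq_sub (memLp_B hB 1)] at h1
  have h2 : P[B 1] = 0 := integral_B hB
  rw [h2] at h1
  simpa using h1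

/-! ### integrability -/

theorem integrable_fbk_pay {𝓕 : Filtration ℝ≥0 mΩ} {w : ℝ → ℝ} (hw : Wt w) {v : ℝ≥0 → Ω → ℝ}
    (hv : Adm 𝓕 P w v) {Zf : Ω → ℝ} {Z : Ω →₂[P] ℝ} (hZ : (Z : Ω → ℝ) =ᵐ[P] Zf) (b k : ℝ) :
    Integrable (fun ω => fbk b k (Zf ω + II w v ω)) P := by
  refine (integrable_fbk b k (Z + IL hw hv)).congr ?_
  filter_upwards [coe_add_IL hw hv hZ] with ω h
  rw [h]

theorem integrable_bdd_pay {𝓕 : Filtration ℝ≥0 mΩ} {w : ℝ → ℝ} (hw : Wt w) {v : ℝ≥0 → Ω → ℝ}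
    (hv : Adm 𝓕 P w v) {Zf : Ω → ℝ} {Z : Ω →₂[P] ℝ} (hZ : (Z : Ω → ℝ) =ᵐ[P] Zf) {φ : ℝ → ℝ}
    (hφ : Continuous φ) {K : ℝ} (hK : ∀ x, |φ x| ≤ K) :
    Integrable (fun ω => φ (Zf ω + II w v ω)) P := by
  refine (integrable_psi hφ.measurable hK (Z + IL hw hv)).congr ?_
  filter_upwards [coe_add_IL hw hv hZ] with ω h
  rw [h]

/-! ### convex combinations of controls -/

theorem lint_eq {𝓕 : Filtration ℝ≥0 mΩ} {w : ℝ → ℝ} (hw : Wt w) {v : ℝ≥0 → Ω → ℝ}
    (hv : IsProgressive 𝓕 v) :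
    ∫⁻ ω, ∫⁻ t in Icc (0 : ℝ) 1,
      ENNReal.ofReal (w t * v (Real.toNNReal t) ω ^ 2) ∂volume ∂P =
    ∫⁻ p, ENNReal.ofReal (vh v p ^ 2) ∂(wm w).prod P := by
  have := isFinite_wm hw
  have hm := measurable_vh hv
  rw [lintegral_prod_symm _ (hm.pow_const 2).ennreal_ofReal.aemeasurable]
  refine lintegral_congr fun ω => ?_
  rw [wm_lintegral hw (f := fun t => ENNReal.ofReal (vh v (t, ω) ^ 2))
    ((hm.comp measurable_prodMk_right).pow_const 2).ennreal_ofReal]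
  refine setLIntegral_congr_fun measurableSet_Icc fun t ht => ?_
  show ENNReal.ofReal (w t * v t.toNNReal ω ^ 2) =
    ENNReal.ofReal (w t) * ENNReal.ofReal (vh v (t, ω) ^ 2)
  rw [vh_eq ht, ENNReal.ofReal_mul (hw.nonneg t ht)]

/-- the combination `a v1 + c v2` -/
def comb (a c : ℝ) (v1 v2 : ℝ≥0 → Ω → ℝ) : ℝ≥0 → Ω → ℝ := fun t ω => a * v1 t ω + c * v2 t ω

omit mΩ in
theorem vh_comb (a c : ℝ) (v1 v2 : ℝ≥0 → Ω → ℝ) :
    vh (comb a c v1 v2) = fun p => a * vh v1 p + c * vh v2 p := rfl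

theorem prog_comb {𝓕 : Filtration ℝ≥0 mΩ} {v1 v2 : ℝ≥0 → Ω → ℝ} (h1 : IsProgressive 𝓕 v1)
    (h2 : IsProgressive 𝓕 v2) (a c : ℝ) : IsProgressive 𝓕 (comb a c v1 v2) := fun i =>
  ((h1 i).const_mul a).add ((h2 i).const_mul c)

theorem memLp_comb {𝓕 : Filtration ℝ≥0 mΩ} {w : ℝ → ℝ} (hw : Wt w) {v1 v2 : ℝ≥0 → Ω → ℝ}
    (h1 : Adm 𝓕 P w v1) (h2 : Adm 𝓕 P w v2) (a c : ℝ) :
    MemLp (vh (comb a c v1 v2)) 2 ((wm w).prod P) := by
  rw [vh_comb]
  exact ((memLp_vh hw h1).const_mul a).add ((memLp_vh hw h2).const_mul c)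

theorem adm_comb {𝓕 : Filtration ℝ≥0 mΩ} {w : ℝ → ℝ} (hw : Wt w) {v1 v2 : ℝ≥0 → Ω → ℝ}
    (h1 : Adm 𝓕 P w v1) (h2 : Adm 𝓕 P w v2) (a c : ℝ) : Adm 𝓕 P w (comb a c v1 v2) where
  prog := prog_comb h1.prog h2.prog a c
  fin := by
    rw [lint_eq hw (prog_comb h1.prog h2.prog a c)]
    exact (memLp_comb hw h1 h2 a c).integrable_sq.lintegral_lt_top

theorem cost_comb {𝓕 : Filtration ℝ≥0 mΩ} {w : ℝ → ℝ} (hw : Wt w) {v1 v2 : ℝ≥0 → Ω → ℝ}
    (h1 : Adm 𝓕 P w v1) (h2 : Adm 𝓕 P w v2) {a c : ℝ} (ha : 0 ≤ a) (hc : 0 ≤ c)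
    (hac : a + c = 1) :
    cost P w (comb a c v1 v2) ≤ a * cost P w v1 + c * cost P w v2 := by
  have i1 : Integrable (fun p => vh v1 p ^ 2) ((wm w).prod P) := (memLp_vh hw h1).integrable_sq
  have i2 : Integrable (fun p => vh v2 p ^ 2) ((wm w).prod P) := (memLp_vh hw h2).integrable_sq
  rw [cost_eq hw (adm_comb hw h1 h2 a c), cost_eq hw h1, cost_eq hw h2, ← integral_const_mul,
    ← integral_const_mul, ← integral_add (i1.const_mul a) (i2.const_mul c)]
  refine integral_mono (memLp_comb hw h1 h2 a c).integrable_sq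
    ((i1.const_mul a).add (i2.const_mul c)) fun p => ?_
  rw [vh_comb]
  simp only
  obtain rfl : c = 1 - a := by linarith
  nlinarith [mul_nonneg (mul_nonneg ha hc) (sq_nonneg (vh v1 p - vh v2 p))]

theorem II_comb {𝓕 : Filtration ℝ≥0 mΩ} {w : ℝ → ℝ} (hw : Wt w) {v1 v2 : ℝ≥0 → Ω → ℝ}
    (h1 : Adm 𝓕 P w v1) (h2 : Adm 𝓕 P w v2) (a c : ℝ) :
    ∀ᵐ ω ∂P, II w (comb a c v1 v2) ω = a * II w v1 ω + c * II w v2 ω := by
  have := isFinite_wm hw
  filter_upwards [((memLp_vh hw h1).integrable one_le_two).prod_left_ae,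
    ((memLp_vh hw h2).integrable one_le_two).prod_left_ae] with ω e1 e2
  unfold II
  rw [vh_comb]
  simp only
  rw [integral_add (e1.const_mul a) (e2.const_mul c), integral_const_mul, integral_const_mul]

/-- the quadratic potential is jointly concave in margin and position -/
theorem fbk_joint {b : ℝ} (hb : 0 ≤ b) {a c : ℝ} (ha : 0 ≤ a) (hc : 0 ≤ c) (hac : a + c = 1)
    (k1 k2 x1 x2 : ℝ) :
    a * fbk b k1 x1 + c * fbk b k2 x2 ≤ fbk b (a * k1 + c * k2) (a * x1 + c * x2) := by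
  unfold fbk
  set p := max (k1 - x1) 0 with hp
  set q := max (k2 - x2) 0 with hq
  have hp0 : 0 ≤ p := le_max_right _ _
  have hq0 : 0 ≤ q := le_max_right _ _
  have h1 : max (a * k1 + c * k2 - (a * x1 + c * x2)) 0 ≤ a * p + c * q := by
    refine max_le ?_ (add_nonneg (mul_nonneg ha hp0) (mul_nonneg hc hq0))
    have e1 : a * (k1 - x1) ≤ a * p := mul_le_mul_of_nonneg_left (le_max_left _ _) ha
    have e2 : c * (k2 - x2) ≤ c * q := mul_le_mul_of_nonneg_left (le_max_left _ _) hc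
    nlinarith
  have h2 : (max (a * k1 + c * k2 - (a * x1 + c * x2)) 0) ^ 2 ≤ (a * p + c * q) ^ 2 :=
    pow_le_pow_left₀ (le_max_right _ _) h1 2
  have h3 : (a * p + c * q) ^ 2 ≤ a * p ^ 2 + c * q ^ 2 := by
    obtain rfl : c = 1 - a := by linarith
    nlinarith [mul_nonneg (mul_nonneg ha hc) (sq_nonneg (p - q))]
  have h4 := mul_le_mul_of_nonneg_left (h2.trans h3) (show 0 ≤ b / 2 by linarith)
  nlinarith

theorem pay_comb {𝓕 : Filtration ℝ≥0 mΩ} {w : ℝ → ℝ} (hw : Wt w) {v1 v2 : ℝ≥0 → Ω → ℝ}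
    (h1 : Adm 𝓕 P w v1) (h2 : Adm 𝓕 P w v2) {Zf : Ω → ℝ} {Z : Ω →₂[P] ℝ}
    (hZ : (Z : Ω → ℝ) =ᵐ[P] Zf) {b : ℝ} (hb : 0 ≤ b) {a c : ℝ} (ha : 0 ≤ a) (hc : 0 ≤ c)
    (hac : a + c = 1) (k1 k2 : ℝ) :
    a * pay P (fbk b k1) Zf w v1 + c * pay P (fbk b k2) Zf w v2 ≤
      pay P (fbk b (a * k1 + c * k2)) Zf w (comb a c v1 v2) := by
  have i1 := integrable_fbk_pay hw h1 hZ b k1
  have i2 := integrable_fbk_pay hw h2 hZ b k2
  have i3 := integrable_fbk_pay hw (adm_comb hw h1 h2 a c) hZ b (a * k1 + c * k2)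
  have e1 : a * ∫ ω, fbk b k1 (Zf ω + II w v1 ω) ∂P + c * ∫ ω, fbk b k2 (Zf ω + II w v2 ω) ∂P ≤
      ∫ ω, fbk b (a * k1 + c * k2) (Zf ω + II w (comb a c v1 v2) ω) ∂P := by
    rw [← integral_const_mul, ← integral_const_mul,
      ← integral_add (i1.const_mul a) (i2.const_mul c)]
    refine integral_mono_ae ((i1.const_mul a).add (i2.const_mul c)) i3 ?_
    filter_upwards [II_comb hw h1 h2 a c] with ω hω
    rw [hω]
    have h := fbk_joint hb ha hc hac k1 k2 (Zf ω + II w v1 ω) (Zf ω + II w v2 ω)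
    have e : a * (Zf ω + II w v1 ω) + c * (Zf ω + II w v2 ω) =
        Zf ω + (a * II w v1 ω + c * II w v2 ω) := by
      obtain rfl : c = 1 - a := by linarith
      ring
    rw [e] at h
    simpa only [Pi.add_apply] using h
  have e2 := cost_comb hw h1 h2 ha hc hac
  unfold pay
  nlinarith

/-! ### the nodes -/

variable {B : ℝ≥0 → Ω → ℝ} (hBm : ∀ t, Measurable (B t)) (hB : IsBrownianReal B P)

include hB in
/-- **(VB1)** -/
theorem vb1 : VB1 P B hBm := by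
  intro b k hb m
  rw [qp_eq]
  refine ⟨value_le fun v _ => pay_nonpos hb k _ _ _, ?_⟩
  refine le_trans ?_ (le_value (bdd_fbk0 hb k m) (adm_zero (brownianFiltration B hBm) m.toFun))
  unfold pay
  rw [cost_zero]
  simp only [II_zero, add_zero, zero_div, sub_zero]
  have hL := memLp_B hB 1
  have i1 : Integrable (fun ω => B 1 ω ^ 2) P := hL.integrable_sq
  have i2 : Integrable (B 1) P := hL.integrable one_le_two
  have i3 : Integrable (fun ω => -(b / 2) * (k - B 1 ω) ^ 2) P := by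
    have : (fun ω => -(b / 2) * (k - B 1 ω) ^ 2) =
        fun ω => -(b / 2) * (k ^ 2 - 2 * k * B 1 ω + B 1 ω ^ 2) := by funext ω; ring
    rw [this]
    exact (((integrable_const _).sub (i2.const_mul _)).add i1).const_mul _
  have e1 : ∫ ω, -(b / 2) * (k - B 1 ω) ^ 2 ∂P = -(b / 2) * (k ^ 2 + 1) := by
    rw [integral_const_mul]
    congr 1
    have : (fun ω => (k - B 1 ω) ^ 2) = fun ω => k ^ 2 - 2 * k * B 1 ω + B 1 ω ^ 2 := by
      funext ω; ring
    have i5 : Integrable (fun ω => k ^ 2 - 2 * k * B 1 ω) P :=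
      (integrable_const _).sub (i2.const_mul _)
    rw [this, integral_add i5 i1,
      integral_sub (integrable_const _) (i2.const_mul _), integral_const_mul, integral_B hB,
      integral_B_sq hB]
    simp
  have i4 : Integrable (fun ω => fbk b k (B 1 ω)) P := by
    refine (integrable_fbk b k (ZB hB)).congr ?_
    filter_upwards [ZB_coe hB] with ω h
    rw [h]
  have e2 : ∫ ω, -(b / 2) * (k - B 1 ω) ^ 2 ∂P ≤ ∫ ω, fbk b k (B 1 ω) ∂P := by
    refine integral_mono i3 i4 fun ω => ?_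
    unfold fbk
    simp only
    have h : (max (k - B 1 ω) 0) ^ 2 ≤ (k - B 1 ω) ^ 2 := by
      rcases le_total (k - B 1 ω) 0 with h | h
      · rw [max_eq_right h]; nlinarith [sq_nonneg (k - B 1 ω)]
      · rw [max_eq_left h]
    nlinarith
  refine le_trans ?_ (e1 ▸ e2)
  have h5 : k ^ 2 + 1 ≤ (1 + |k|) ^ 2 := by
    have := abs_nonneg k
    have := sq_abs k
    nlinarith
  nlinarith

include hB in
/-- **(VB2)** -/
theorem vb2 : VB2 P B hBm := by
  intro b k hb φ hφ hK hle m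
  obtain ⟨K, hK⟩ := hK
  rw [qp_eq] at *
  have hK0 : 0 ≤ K := (abs_nonneg _).trans (hK 0)
  have hbd : BddAbove (payoffs P B hBm φ m) := by
    refine ⟨K, ?_⟩
    rintro _ ⟨v, hv, rfl⟩
    unfold pay
    have h1 := abs_integral_psi_le (P := P) hK (fun ω => B 1 ω + II m.toFun v ω)
    have h2 := cost_nonneg P m.toFun v
    have h3 := le_abs_self (∫ ω, φ (B 1 ω + II m.toFun v ω) ∂P)
    linarith
  refine value_le fun v hv => le_trans ?_ (le_value hbd hv)
  unfold pay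
  refine sub_le_sub_right ?_ _
  exact integral_mono (integrable_fbk_pay (wt_profile m) hv (ZB_coe hB) b k)
    (integrable_bdd_pay (wt_profile m) hv (ZB_coe hB) hφ hK) fun ω => hle _

include hB in
/-- **(VB3)** -/
theorem vb3 : VB3 P B hBm := by
  intro b k k' hb hk m
  rw [qp_eq, qp_eq]
  refine value_le fun v hv => le_trans ?_ (le_value (bdd_fbk0 hb k m) hv)
  unfold pay
  refine sub_le_sub_right ?_ _
  refine integral_mono (integrable_fbk_pay (wt_profile m) hv (ZB_coe hB) b k')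
    (integrable_fbk_pay (wt_profile m) hv (ZB_coe hB) b k) fun ω => ?_
  unfold fbk
  simp only
  set x := B 1 ω + II m.toFun v ω
  have h1 : max (k - x) 0 ≤ max (k' - x) 0 := max_le_max (by linarith) le_rfl
  have h2 : (max (k - x) 0) ^ 2 ≤ (max (k' - x) 0) ^ 2 :=
    pow_le_pow_left₀ (le_max_right _ _) h1 2
  nlinarith

include hB in
/-- **(VB4)** -/
theorem vb4 : VB4 P B hBm := by
  intro b hb m
  refine ⟨convex_univ, fun k1 _ k2 _ a c ha hc hac => ?_⟩
  simp only [smul_eq_mul, qp_eq]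
  refine le_of_forall_pos_le_add fun ε hε => ?_
  have hne : ∀ k, ∃ v, Adm (brownianFiltration B hBm) P m.toFun v ∧
      controlValue P B hBm (fbk b k) m - ε < pay P (fbk b k) (B 1) m.toFun v := by
    intro k
    obtain ⟨y, ⟨v, hv, rfl⟩, hy⟩ := exists_lt_of_lt_csSup (payoffs_nonempty B hBm (fbk b k) m)
      (show controlValue P B hBm (fbk b k) m - ε < sSup (payoffs P B hBm (fbk b k) m) by
        rw [← controlValue_eq]; linarith)
    exact ⟨v, hv, hy⟩
  obtain ⟨v1, hv1, e1⟩ := hne k1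
  obtain ⟨v2, hv2, e2⟩ := hne k2
  have e3 := pay_comb (wt_profile m) hv1 hv2 (ZB_coe hB) hb ha hc hac k1 k2
  have e4 := le_value (bdd_fbk0 hb (a * k1 + c * k2) m) (adm_comb (wt_profile m) hv1 hv2 a c)
  have e5 := mul_le_mul_of_nonneg_left e1.le ha
  have e6 := mul_le_mul_of_nonneg_left e2.le hc
  have e7 : a * (controlValue P B hBm (fbk b k1) m - ε) +
      c * (controlValue P B hBm (fbk b k2) m - ε) =
      a * controlValue P B hBm (fbk b k1) m + c * controlValue P B hBm (fbk b k2) m - ε := by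
    obtain rfl : c = 1 - a := by linarith
    ring
  linarith

end Crest.Agent.R146.VB_463
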