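import Crest.Agent.R146.VMono_945

/-!
Row 146 (helper945): monotonicity of the Gaussian recursion in the tail function, part 2:
one cell and lists of cells.
-/

set_option autoImplicit false

namespace Crest.Agent.R146.VMono_945

open MeasureTheory ProbabilityTheory Filter Topology Set
open Crest.ProbabilityR.InvariantGlass
open Crest.Agent.R164.GC

noncomputable section

/-! ### semigroup -/

theorem lip_iff {f : ℝ → ℝ} (hf : Lip1 f) : Crest.Agent.R164.Cv.Lip f := fun x y => by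
  rw [abs_le]
  have h1 := hf x y
  have h2 := hf y x
  rw [abs_sub_comm y x] at h2
  constructor <;> linarith

theorem gaussOp_add {f : ℝ → ℝ} (hf : Lip1 f) {a : ℝ} (h0 : 0 ≤ a) (h1 : a ≤ 1)
    {v w : ℝ} (hv : 0 ≤ v) (hw : 0 ≤ w) :
    gaussOp a (v + w) f = gaussOp a v (gaussOp a w f) := by
  have hL := lip_iff hf
  have hmf : Measurable f := hL.cont.measurable
  funext x
  rcases h0.eq_or_lt with hz | hz
  · subst hz
    rw [gaussOp_zero, gaussOp_zero]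
    have e : gaussOp 0 w f = H (Real.sqrt w) f := funext fun y => gaussOp_zero w f y
    rw [e]
    refine (Crest.Agent.R164.Cv.gauss_conv (K := |f 0| + 1) (fun y => ?_) hmf hv hw x).symm
    have h2 := hL.bound y
    have h3 := Real.add_one_le_exp |y|
    have h4 := abs_nonneg (f 0)
    have h5 : 1 ≤ Real.exp |y| := Real.one_le_exp (abs_nonneg y)
    nlinarith
  · rw [gaussOp_ne hz.ne', gaussOp_ne hz.ne']
    congr 2
    have e : (fun y => Real.exp (a * gaussOp a w f y)) =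
        fun y => H (Real.sqrt w) (fun y => Real.exp (a * f y)) y := by
      funext y
      rw [gaussOp_ne hz.ne', ← mul_assoc, mul_inv_cancel₀ hz.ne', one_mul,
        Real.exp_log (den_pos hf a _ y)]
    rw [e]
    exact (Crest.Agent.R164.Cv.gauss_conv (hL.gr_exp1 h0 h1) (by fun_prop) hv hw x).symm

theorem gaussOp_v0 (a : ℝ) (f : ℝ → ℝ) : gaussOp a 0 f = f :=
  Crest.Agent.R164.Cv.gaussOp_v0 a f

/-! ### one small step -/

/-- the relation which is propagated -/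
def Rel (s ε : ℝ) (φ ψ : ℝ → ℝ) : Prop := ∀ z w, φ w - ψ z ≤ (z - w) ^ 2 / (2 * s) + ε

/-- two numbers: `(α + β)² / (A + B) ≤ α² / A + β² / B` with `A > 0`, `B ≥ 0` (and `β = 0` if
`B = 0`) in the form needed -/
theorem upper_side {f f1 f2 : ℝ → ℝ} {C : ℝ} (h : Sm f f1 f2 C) {a δ s : ℝ} (ha : 0 ≤ a)
    (ha1 : a ≤ 1) (hδ : 0 < δ) (hδ1 : δ ≤ 1) (hs : 0 < s) (y : ℝ) :
    ∃ c q : ℝ, gaussOp a δ f y ≤ H (Real.sqrt δ) f (y + c) - q + 4 * C ^ 2 * MM * δ ^ 2 ∧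
      ∀ e : ℝ, (e + c) ^ 2 / (2 * (s + a * δ)) - q ≤ e ^ 2 / (2 * s) := by
  have hM : 0 ≤ 4 * C ^ 2 * MM * δ ^ 2 := by
    have := MM_nonneg
    positivity
  rcases ha.eq_or_lt with hz | hz
  · subst hz
    refine ⟨0, 0, ?_, fun e => ?_⟩
    · rw [gaussOp_zero, add_zero]
      linarith
    · simp
  · refine ⟨a * δ * f1 y, (a * δ * f1 y) ^ 2 / (2 * (a * δ)), gaussOp_le h hz ha1 hδ hδ1 y,
      fun e => ?_⟩
    set c := a * δ * f1 y
    have hb : 0 < a * δ := mul_pos hz hδ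
    have h1 : 0 < s + a * δ := by linarith
    rw [sub_le_iff_le_add, div_add_div _ _ (by positivity) (by positivity),
      div_le_div_iff₀ (by positivity) (by positivity)]
    have h2 : 0 ≤ (e * (a * δ) - c * s) ^ 2 := sq_nonneg _
    nlinarith

theorem lower_side {ψ : ℝ → ℝ} (hψ : Lip1 ψ) {a δ s : ℝ} (ha : 0 ≤ a)
    (hδ : 0 < δ) (hs : 0 < s) (x d : ℝ) :
    ∃ c q : ℝ, H (Real.sqrt δ) ψ (x + c) - q ≤ gaussOp a δ ψ x ∧
      (d - c) ^ 2 / (2 * s) + q ≤ d ^ 2 / (2 * (s + a * δ)) := by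
  rcases ha.eq_or_lt with hz | hz
  · subst hz
    refine ⟨0, 0, ?_, ?_⟩
    · rw [gaussOp_zero, add_zero, sub_zero]
    · simp
  · have hb : 0 < a * δ := mul_pos hz hδ
    have h1 : 0 < s + a * δ := by linarith
    set κ := a * δ / (s + a * δ) with hκ
    refine ⟨κ * d, (κ * d) ^ 2 / (2 * (a * δ)), gaussOp_ge hψ hz hδ x (κ * d), ?_⟩
    refine le_of_eq ?_
    rw [hκ]
    field_simp
    ring

/-- **one small step** -/
theorem rel_step {φ f1 f2 ψ : ℝ → ℝ} {C : ℝ} (h : Sm φ f1 f2 C) (hψ : Lip1 ψ)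
    {a a' δ s s' ε : ℝ} (ha : 0 ≤ a) (ha1 : a ≤ 1) (ha' : 0 ≤ a') (hδ : 0 < δ) (hδ1 : δ ≤ 1)
    (hs : 0 < s) (hs' : 0 < s') (hss : s + a * δ = s' + a' * δ) (hR : Rel s' ε φ ψ) :
    Rel s (ε + 4 * C ^ 2 * MM * δ ^ 2) (gaussOp a δ φ) (gaussOp a' δ ψ) := by
  intro x y
  obtain ⟨c, q, h1, h2⟩ := upper_side h ha ha1 hδ hδ1 hs y
  obtain ⟨c', q', h3, h4⟩ := lower_side hψ ha' hδ hs' x (y - x + c)
  have h5 : H (Real.sqrt δ) φ (y + c) - H (Real.sqrt δ) ψ (x + c') ≤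
      (y - x + c - c') ^ 2 / (2 * s') + ε := by
    unfold H
    rw [← integral_sub ((EG.lip h.lip).int _ _) ((EG.lip hψ).int _ _)]
    have hb : ∀ g : ℝ, φ (y + c + Real.sqrt δ * g) - ψ (x + c' + Real.sqrt δ * g) ≤
        (y - x + c - c') ^ 2 / (2 * s') + ε := by
      intro g
      refine (hR _ _).trans (le_of_eq ?_)
      congr 2
      ring
    refine (integral_mono (((EG.lip h.lip).int _ _).sub ((EG.lip hψ).int _ _))
      (integrable_const _) hb).trans (le_of_eq ?_)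
    simp
  have h6 := h2 (y - x)
  rw [hss] at h6
  have h7 : (x - y) ^ 2 = (y - x) ^ 2 := by ring
  rw [h7]
  linarith

/-! ### one cell -/

theorem rel_cell_aux {φ f1 f2 ψ g1 g2 : ℝ → ℝ} {C C' : ℝ} (h : Sm φ f1 f2 C)
    (hψ : Sm ψ g1 g2 C') {a a' δ s s' ε : ℝ} {N : ℕ} (ha : 0 ≤ a) (ha1 : a ≤ 1) (ha' : 0 ≤ a')
    (ha1' : a' ≤ 1) (hδ : 0 < δ) (hδ1 : δ ≤ 1) (hN : 0 < N)
    (hs : 0 < s) (hs' : 0 < s') (hss : s + a * (N * δ) = s' + a' * (N * δ))
    (hR : Rel s' ε φ ψ) : ∀ k : ℕ, k ≤ N →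
    Rel (s' + (a' - a) * (k * δ)) (ε + k * (4 * (C + 1) ^ 2 * MM * δ ^ 2))
      (gaussOp a (k * δ) φ) (gaussOp a' (k * δ) ψ)
  | 0, _ => by
      simp only [Nat.cast_zero, zero_mul, mul_zero, add_zero, gaussOp_v0]
      exact hR
  | k + 1, hk => by
      have ih := rel_cell_aux h hψ ha ha1 ha' ha1' hδ hδ1 hN hs hs' hss hR k (by omega)
      have hNpos : (0 : ℝ) < N := Nat.cast_pos.2 hN
      have hpos : ∀ j : ℕ, j ≤ N → 0 < s' + (a' - a) * (j * δ) := by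
        intro j hj
        have hj' : (j : ℝ) ≤ N := Nat.cast_le.2 hj
        have hj0 : (0 : ℝ) ≤ j := Nat.cast_nonneg j
        have e : (N : ℝ) * (s' + (a' - a) * (j * δ)) = (N - j) * s' + j * s := by
          have : s = s' + a' * (N * δ) - a * (N * δ) := by linarith
          rw [this]
          ring
        have h1 : 0 < (N : ℝ) * (s' + (a' - a) * (j * δ)) := by
          rw [e]
          rcases hj0.eq_or_lt with h0 | h0
          · rw [← h0]
            simp only [sub_zero, zero_mul, add_zero]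
            positivity
          · have := mul_nonneg (sub_nonneg.2 hj') hs'.le
            have := mul_pos h0 hs
            linarith
        exact (mul_pos_iff_of_pos_left hNpos).1 h1
      have hSm := gaussOp_sm h ha ha1 (k * δ)
      have hSψ := gaussOp_sm hψ ha' ha1' (k * δ)
      have hst := rel_step hSm hSψ.lip (s := s' + (a' - a) * ((k + 1 : ℕ) * δ))
        (s' := s' + (a' - a) * (k * δ)) ha ha1 ha' hδ hδ1 (hpos _ hk) (hpos _ (by omega))
        (by push_cast; ring) ih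
      have hkδ : 0 ≤ (k : ℝ) * δ := by positivity
      have e1 : ((k + 1 : ℕ) : ℝ) * δ = δ + k * δ := by push_cast; ring
      have e2 : ε + ((k + 1 : ℕ) : ℝ) * (4 * (C + 1) ^ 2 * MM * δ ^ 2) =
          ε + k * (4 * (C + 1) ^ 2 * MM * δ ^ 2) + 4 * (C + 1) ^ 2 * MM * δ ^ 2 := by
        push_cast; ring
      rw [e2]
      rw [e1] at hst ⊢
      rw [gaussOp_add h.lip ha ha1 hδ.le hkδ, gaussOp_add hψ.lip ha' ha1' hδ.le hkδ]
      exact hst

/-- **one cell** -/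
theorem rel_cell {φ f1 f2 ψ g1 g2 : ℝ → ℝ} {C C' : ℝ} (h : Sm φ f1 f2 C)
    (hψ : Sm ψ g1 g2 C') {a a' v s s' ε : ℝ} (ha : 0 ≤ a) (ha1 : a ≤ 1) (ha' : 0 ≤ a')
    (ha1' : a' ≤ 1) (hv : 0 ≤ v) (hs : 0 < s) (hs' : 0 < s')
    (hss : s + a * v = s' + a' * v) (hR : Rel s' ε φ ψ) :
    Rel s ε (gaussOp a v φ) (gaussOp a' v ψ) := by
  rcases hv.eq_or_lt with hz | hz
  · subst hz
    rw [gaussOp_v0, gaussOp_v0]
    have : s = s' := by simpa using hss
    rw [this]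
    exact hR
  intro z w
  refine le_of_forall_pos_le_add fun η hη => ?_
  set K := 4 * (C + 1) ^ 2 * MM * v ^ 2 with hK
  have hK0 : 0 ≤ K := by
    have := MM_nonneg
    positivity
  obtain ⟨N, hN⟩ := exists_nat_gt (max v (K / η))
  have hN1 : v < N := lt_of_le_of_lt (le_max_left _ _) hN
  have hN2 : K / η < N := lt_of_le_of_lt (le_max_right _ _) hN
  have hNpos : (0 : ℝ) < N := hz.trans hN1
  have hNpos' : 0 < N := Nat.cast_pos.1 hNpos
  set δ := v / N with hδ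
  have hδpos : 0 < δ := div_pos hz hNpos
  have hδ1 : δ ≤ 1 := by
    rw [hδ, div_le_one hNpos]
    exact hN1.le
  have hNδ : (N : ℝ) * δ = v := by
    rw [hδ]
    field_simp
  have := rel_cell_aux h hψ ha ha1 ha' ha1' hδpos hδ1 hNpos' hs hs' (by rw [hNδ]; exact hss) hR
    N le_rfl z w
  rw [hNδ] at this
  have e1 : s' + (a' - a) * v = s := by linarith
  rw [e1] at this
  have e2 : (N : ℝ) * (4 * (C + 1) ^ 2 * MM * δ ^ 2) = K / N := by
    rw [hK, hδ]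
    field_simp
  have e3 : K / N ≤ η := by
    rw [div_le_iff₀ hNpos]
    rw [div_lt_iff₀ hη] at hN2
    linarith
  linarith

/-! ### lists of cells -/

/-- the recursion along a list of cells `(width, exponent)` -/
def ch : List (ℝ × ℝ) → (ℝ → ℝ) → ℝ → ℝ
  | [], f => f
  | (v, a) :: L, f => gaussOp a v (ch L f)

theorem ch_sm : ∀ (L : List (ℝ × ℝ)), (∀ p ∈ L, 0 ≤ p.2 ∧ p.2 ≤ 1) → ∀ {f f1 f2 : ℝ → ℝ} {C : ℝ},
    Sm f f1 f2 C → ∃ g1 g2 : ℝ → ℝ, ∃ C' : ℝ, Sm (ch L f) g1 g2 C'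
  | [], _, f, f1, f2, C, h => ⟨f1, f2, C, h⟩
  | (v, a) :: L, hL, f, f1, f2, C, h => by
      obtain ⟨g1, g2, C', ih⟩ := ch_sm L (fun p hp => hL p (List.mem_cons_of_mem _ hp)) h
      have ha := hL (v, a) List.mem_cons_self
      exact ⟨_, _, _, gaussOp_sm ih ha.1 ha.2 v⟩

/-- first profile of a list of cells `(width, exponent, exponent')` -/
def pa (q : ℝ × ℝ × ℝ) : ℝ × ℝ := (q.1, q.2.1)

/-- second profile -/
def pb (q : ℝ × ℝ × ℝ) : ℝ × ℝ := (q.1, q.2.2)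

/-- `D' - D` at the beginning of the list -/
def gapD : List (ℝ × ℝ × ℝ) → ℝ
  | [] => 0
  | (v, a, a') :: L => (a' - a) * v + gapD L

/-- admissible pairs of profiles: widths `≥ 0`, exponents in `[0,1]`, `D ≤ D'` at all boundaries -/
def Dom : List (ℝ × ℝ × ℝ) → Prop
  | [] => True
  | (v, a, a') :: L => 0 ≤ v ∧ 0 ≤ a ∧ a ≤ 1 ∧ 0 ≤ a' ∧ a' ≤ 1 ∧
      0 ≤ gapD ((v, a, a') :: L) ∧ Dom L

theorem Dom.gap_nonneg : ∀ {L : List (ℝ × ℝ × ℝ)}, Dom L → 0 ≤ gapD L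
  | [], _ => le_rfl
  | (_, _, _) :: _, h => h.2.2.2.2.2.1

theorem Dom.mem_pa : ∀ {L : List (ℝ × ℝ × ℝ)}, Dom L → ∀ p ∈ L.map pa, 0 ≤ p.2 ∧ p.2 ≤ 1
  | [], _, p, hp => by simp at hp
  | (v, a, a') :: L, h, p, hp => by
      rw [List.map_cons, List.mem_cons] at hp
      rcases hp with rfl | hp
      · exact ⟨h.2.1, h.2.2.1⟩
      · exact Dom.mem_pa h.2.2.2.2.2.2 p hp

theorem Dom.mem_pb : ∀ {L : List (ℝ × ℝ × ℝ)}, Dom L → ∀ p ∈ L.map pb, 0 ≤ p.2 ∧ p.2 ≤ 1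
  | [], _, p, hp => by simp at hp
  | (v, a, a') :: L, h, p, hp => by
      rw [List.map_cons, List.mem_cons] at hp
      rcases hp with rfl | hp
      · exact ⟨h.2.2.2.1, h.2.2.2.2.1⟩
      · exact Dom.mem_pb h.2.2.2.2.2.2 p hp

theorem rel_chain {f f1 f2 : ℝ → ℝ} {C : ℝ} (h : Sm f f1 f2 C) {η ε : ℝ} (hη : 0 < η)
    (hR : Rel η ε f f) : ∀ L : List (ℝ × ℝ × ℝ), Dom L →
    Rel (η + gapD L) ε (ch (L.map pa) f) (ch (L.map pb) f)
  | [], _ => by
      simpa [gapD, ch] using hR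
  | (v, a, a') :: L, hL => by
      have ih := rel_chain h hη hR L hL.2.2.2.2.2.2
      obtain ⟨_, _, _, S1⟩ := ch_sm _ (Dom.mem_pa hL.2.2.2.2.2.2) h
      obtain ⟨_, _, _, S2⟩ := ch_sm _ (Dom.mem_pb hL.2.2.2.2.2.2) h
      have h1 := Dom.gap_nonneg hL.2.2.2.2.2.2
      have h2 : 0 ≤ gapD ((v, a, a') :: L) := hL.2.2.2.2.2.1
      refine rel_cell S1 S2 hL.2.1 hL.2.2.1 hL.2.2.2.1 hL.2.2.2.2.1 hL.1 (by linarith)
        (by linarith) ?_ ih
      show η + ((a' - a) * v + gapD L) + a * v = η + gapD L + a' * v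
      ring

/-- **monotonicity in `D`**, 1-Lipschitz smooth terminal function -/
theorem ch_mono_sm {f f1 f2 : ℝ → ℝ} {C : ℝ} (h : Sm f f1 f2 C) (L : List (ℝ × ℝ × ℝ))
    (hL : Dom L) (x : ℝ) : ch (L.map pa) f x ≤ ch (L.map pb) f x := by
  refine le_of_forall_pos_le_add fun η hη => ?_
  have hR : Rel η (η / 2) f f := by
    intro z w
    have h1 := h.lip w z
    have h2 : |w - z| ≤ (z - w) ^ 2 / (2 * η) + η / 2 := by
      rw [div_add_div _ _ (by positivity) (by norm_num), le_div_iff₀ (by positivity)]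
      have h3 : |w - z| ^ 2 = (z - w) ^ 2 := by rw [sq_abs]; ring
      nlinarith [sq_nonneg (|w - z| - η)]
    linarith
  have := rel_chain h hη hR L hL x x
  simp only [sub_self, ne_eq, OfNat.ofNat_ne_zero, not_false_eq_true, zero_pow, zero_div,
    zero_add] at this
  linarith

end

end Crest.Agent.R146.VMono_945
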