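import Crest.Agent.R146.VMonoB_945

/-!
Row 146 (helper945): monotonicity of the Gaussian recursion in the tail function, part 3:
arbitrary Lipschitz constants.
-/

set_option autoImplicit false

namespace Crest.Agent.R146.VMono_945

open MeasureTheory ProbabilityTheory Filter Topology Set
open Crest.ProbabilityR.InvariantGlass
open Crest.Agent.R164.GC

noncomputable section

theorem gaussOp_scale {l : ℝ} (hl : 0 < l) (a v : ℝ) (F : ℝ → ℝ) (x : ℝ) :
    gaussOp a v (fun y => F (l * y)) x = gaussOp a (l ^ 2 * v) F (l * x) := by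
  have e : ∀ g : ℝ, l * (x + Real.sqrt v * g) = l * x + Real.sqrt (l ^ 2 * v) * g := by
    intro g
    rw [Real.sqrt_mul (sq_nonneg l), Real.sqrt_sq hl.le]
    ring
  unfold gaussOp
  simp only [e]

/-- scaling of the widths -/
def sc (l : ℝ) (p : ℝ × ℝ) : ℝ × ℝ := (l ^ 2 * p.1, p.2)

theorem ch_scale {l : ℝ} (hl : 0 < l) (F : ℝ → ℝ) : ∀ (L : List (ℝ × ℝ)) (x : ℝ),
    ch L (fun y => F (l * y)) x = ch (L.map (sc l)) F (l * x)
  | [], _ => rfl
  | (v, a) :: L, x => by
      have e : ch L (fun y => F (l * y)) = fun y => ch (L.map (sc l)) F (l * y) :=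
        funext fun y => ch_scale hl F L y
      show gaussOp a v (ch L (fun y => F (l * y))) x =
        gaussOp a (l ^ 2 * v) (ch (L.map (sc l)) F) (l * x)
      rw [e]
      exact gaussOp_scale hl a v _ x

def sc3 (l : ℝ) (q : ℝ × ℝ × ℝ) : ℝ × ℝ × ℝ := (l ^ 2 * q.1, q.2.1, q.2.2)

theorem gapD_sc3 (l : ℝ) : ∀ L : List (ℝ × ℝ × ℝ), gapD (L.map (sc3 l)) = l ^ 2 * gapD L
  | [] => by simp [gapD]
  | (v, a, a') :: L => by
      show (a' - a) * (l ^ 2 * v) + gapD (L.map (sc3 l)) = l ^ 2 * ((a' - a) * v + gapD L)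
      rw [gapD_sc3 l L]
      ring

theorem dom_sc3 (l : ℝ) : ∀ L : List (ℝ × ℝ × ℝ), Dom L → Dom (L.map (sc3 l))
  | [], _ => trivial
  | (v, a, a') :: L, h => by
      refine ⟨mul_nonneg (sq_nonneg l) h.1, h.2.1, h.2.2.1, h.2.2.2.1, h.2.2.2.2.1, ?_,
        dom_sc3 l L h.2.2.2.2.2.2⟩
      have := gapD_sc3 l ((v, a, a') :: L)
      rw [List.map_cons] at this
      show 0 ≤ gapD (sc3 l (v, a, a') :: L.map (sc3 l))
      rw [this]
      exact mul_nonneg (sq_nonneg l) h.2.2.2.2.2.1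

/-- `C²` functions with `|f'| ≤ l`, `|f''| ≤ C` -/
structure SmL (f f1 f2 : ℝ → ℝ) (l C : ℝ) : Prop where
  d1 : ∀ x, HasDerivAt f (f1 x) x
  d2 : ∀ x, HasDerivAt f1 (f2 x) x
  c2 : Continuous f2
  b1 : ∀ x, |f1 x| ≤ l
  b2 : ∀ x, |f2 x| ≤ C

theorem SmL.sm {f f1 f2 : ℝ → ℝ} {l C : ℝ} (hl : 0 < l) (h : SmL f f1 f2 l C) :
    Sm (fun y => f (y / l)) (fun y => f1 (y / l) / l) (fun y => f2 (y / l) / l ^ 2)
      (C / l ^ 2) := by
  have hd : ∀ x : ℝ, HasDerivAt (fun y : ℝ => y / l) (1 / l) x := fun x =>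
    (hasDerivAt_id x).div_const l
  refine ⟨fun x => ?_, fun x => ?_, ?_, fun x => ?_, fun x => ?_⟩
  · have := (h.d1 (x / l)).comp x (hd x)
    refine this.congr_deriv ?_
    ring
  · have := ((h.d2 (x / l)).comp x (hd x)).div_const l
    refine this.congr_deriv ?_
    field_simp
  · have := h.c2
    fun_prop
  · rw [abs_div, abs_of_pos hl, div_le_one hl]
    exact h.b1 _
  · rw [abs_div, abs_of_pos (pow_pos hl 2)]
    exact div_le_div_of_nonneg_right (h.b2 _) (pow_pos hl 2).le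

/-- **monotonicity in `D`** (node (7) of post 308, recursion form): if `D ≤ D'` at all cell
boundaries, the recursion with the exponents of `D` is at most the one of `D'`. -/
theorem ch_mono {f f1 f2 : ℝ → ℝ} {l C : ℝ} (h : SmL f f1 f2 l C) (L : List (ℝ × ℝ × ℝ))
    (hL : Dom L) (x : ℝ) : ch (L.map pa) f x ≤ ch (L.map pb) f x := by
  set k := |l| + 1 with hk
  have hkp : 0 < k := by positivity
  have h' : SmL f f1 f2 k C := ⟨h.d1, h.d2, h.c2, fun x => (h.b1 x).trans (by
    have := le_abs_self l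
    linarith), h.b2⟩
  have hS := h'.sm hkp
  have e : f = fun y => (fun z => f (z / k)) (k * y) := by
    funext y
    show f y = f (k * y / k)
    rw [mul_div_cancel_left₀ _ hkp.ne']
  have e1 : (L.map pa).map (sc k) = (L.map (sc3 k)).map pa := by
    rw [List.map_map, List.map_map]
    rfl
  have e2 : (L.map pb).map (sc k) = (L.map (sc3 k)).map pb := by
    rw [List.map_map, List.map_map]
    rfl
  rw [e]
  have h1 := ch_scale hkp (fun z => f (z / k)) (L.map pa) x
  have h2 := ch_scale hkp (fun z => f (z / k)) (L.map pb) x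
  rw [e1] at h1
  rw [e2] at h2
  rw [h1, h2]
  exact ch_mono_sm hS _ (dom_sc3 k L hL) _

end

end Crest.Agent.R146.VMono_945
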