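import Crest.Agent.R164.GCalc2
import Crest.Agent.R164.CvC

/-!
Row 146 (helper945): monotonicity of the Gaussian recursion in the tail function `D(t) = ∫_t^1 m`
(node (7) of post 308).

If `D ≤ D'` at all cell boundaries then the recursion with exponents `m` is at most the recursion
with exponents `m'`, for every terminal function with two bounded derivatives.  No order of the
exponents is needed.  Proof: the relation `φ(w) - ψ(z) ≤ (z-w)² / (2s)` is propagated backwards
through a cell of width `v` and exponents `a` (for `φ`), `a'` (for `ψ`), with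
`s + a v = s' + a' v`.
-/

set_option autoImplicit false

namespace Crest.Agent.R146.VMono_945

open MeasureTheory ProbabilityTheory Filter Topology Set
open Crest.ProbabilityR.InvariantGlass
open Crest.Agent.R164.GC

noncomputable section

/-- Cameron-Martin shift in one variable -/
theorem gauss_shift (F : ℝ → ℝ) (θ : ℝ) :
    ∫ g, F g ∂gaussianReal 0 1 =
      ∫ g, F (g + θ) * Real.exp (-θ * g - θ ^ 2 / 2) ∂gaussianReal 0 1 := by
  rw [integral_gaussianReal_eq_integral_smul (by norm_num),
    integral_gaussianReal_eq_integral_smul (by norm_num),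
    ← integral_add_right_eq_self (fun x => gaussianPDFReal 0 1 x • F x) θ]
  refine integral_congr_ae (Eventually.of_forall fun g => ?_)
  simp only [smul_eq_mul, gaussianPDFReal, NNReal.coe_one]
  have e : Real.exp (-(g + θ - 0) ^ 2 / (2 * 1)) =
      Real.exp (-(g - 0) ^ 2 / (2 * 1)) * Real.exp (-θ * g - θ ^ 2 / 2) := by
    rw [← Real.exp_add]
    congr 1
    ring
  rw [e]
  ring

theorem gauss_mean : ∫ g, g ∂gaussianReal 0 1 = 0 := by
  simp

theorem int_id : Integrable (fun g : ℝ => g) (gaussianReal 0 1) := by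
  refine Integrable.mono' (integrable_exp_abs 1) (by fun_prop)
    (Eventually.of_forall fun g => ?_)
  rw [Real.norm_eq_abs, one_mul]
  have := Real.add_one_le_exp |g|
  linarith

/-- lower bound of the Gaussian operator by a shift -/
theorem gaussOp_ge {ψ : ℝ → ℝ} (hψ : Lip1 ψ) {a δ : ℝ} (ha : 0 < a) (hδ : 0 < δ) (x c : ℝ) :
    H (Real.sqrt δ) ψ (x + c) - c ^ 2 / (2 * (a * δ)) ≤ gaussOp a δ ψ x := by
  set t := Real.sqrt δ with ht
  have htp : 0 < t := Real.sqrt_pos.2 hδ
  have htt : t ^ 2 = δ := Real.sq_sqrt hδ.le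
  set θ := c / t with hθ
  have hc : c = t * θ := by rw [hθ]; field_simp
  have hE := EG.exp_lip hψ a
  have hEG := EG.lip hψ
  set W : ℝ → ℝ := fun g => a * ψ (x + c + t * g) - θ * g - θ ^ 2 / 2 with hW
  have i1 : Integrable (fun g => a * ψ (x + c + t * g)) (gaussianReal 0 1) :=
    (hEG.int t (x + c)).const_mul a
  have i2 : Integrable (fun g : ℝ => θ * g) (gaussianReal 0 1) := int_id.const_mul θ
  have i3 : Integrable (fun g => a * ψ (x + c + t * g) - θ * g) (gaussianReal 0 1) := i1.sub i2
  have hWint : Integrable W (gaussianReal 0 1) := i3.sub (integrable_const _)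
  have hWe : ∀ g, Real.exp (W g) = Real.exp (a * ψ (x + t * (g + θ))) *
      Real.exp (-θ * g - θ ^ 2 / 2) := by
    intro g
    rw [← Real.exp_add, hW]
    congr 1
    have : x + t * (g + θ) = x + c + t * g := by rw [hc]; ring
    rw [this]
    ring
  have h1 : H t (fun y => Real.exp (a * ψ y)) x = ∫ g, Real.exp (W g) ∂gaussianReal 0 1 := by
    unfold H
    rw [gauss_shift _ θ]
    exact integral_congr_ae (Eventually.of_forall fun g => (hWe g).symm)
  have hWmean : ∫ g, W g ∂gaussianReal 0 1 = a * H t ψ (x + c) - θ ^ 2 / 2 := by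
    show ∫ g, (a * ψ (x + c + t * g) - θ * g - θ ^ 2 / 2) ∂gaussianReal 0 1 = _
    rw [integral_sub i3 (integrable_const _), integral_sub i1 i2, integral_const_mul,
      integral_const_mul, gauss_mean]
    simp [H]
  have hexp : Integrable (fun g => Real.exp (W g)) (gaussianReal 0 1) := by
    have e : (fun g => Real.exp (W g)) = fun g =>
        Real.exp (a * ψ (x + c + t * g)) * Real.exp (-θ * g - θ ^ 2 / 2) := by
      funext g
      rw [← Real.exp_add, hW]
      congr 1
      ring
    rw [e]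
    have e2 : EG fun g => Real.exp (a * ψ (x + c + t * g)) * Real.exp (-θ * g - θ ^ 2 / 2) := by
      obtain ⟨K, A, hK, hA, h⟩ := hE.bd
      have hc' := hE.cont
      have hψc : Continuous ψ := (EG.lip hψ).cont
      refine ⟨by fun_prop, K * Real.exp (A * |x + c|), A * |t| + |θ|, by positivity,
        by positivity, fun g => ?_⟩
      rw [abs_mul, abs_of_pos (Real.exp_pos (-θ * g - θ ^ 2 / 2))]
      have b1 := shift_bd hK hA h (le_refl |x + c|) (le_refl |t|) g
      have b2 : Real.exp (-θ * g - θ ^ 2 / 2) ≤ Real.exp (|θ| * |g|) := by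
        refine Real.exp_le_exp.2 ?_
        have := neg_abs_le (θ * g)
        rw [abs_mul] at this
        nlinarith [sq_nonneg θ]
      calc _ ≤ (K * Real.exp (A * |x + c|) * Real.exp (A * |t| * |g|)) *
            Real.exp (|θ| * |g|) := mul_le_mul b1 b2 (Real.exp_pos _).le (by positivity)
        _ = _ := by
          rw [mul_assoc, ← Real.exp_add]
          congr 2
          ring
    have := e2.int 1 0
    simpa using this
  have hJ : Real.exp (∫ g, W g ∂gaussianReal 0 1) ≤ ∫ g, Real.exp (W g) ∂gaussianReal 0 1 := by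
    have := ConvexOn.map_integral_le (g := Real.exp) (f := W) (μ := gaussianReal 0 1)
      convexOn_exp Real.continuous_exp.continuousOn isClosed_univ (by simp) hWint hexp
    exact this
  rw [gaussOp_ne ha.ne', h1]
  have hlog : ∫ g, W g ∂gaussianReal 0 1 ≤ Real.log (∫ g, Real.exp (W g) ∂gaussianReal 0 1) := by
    have := Real.log_le_log (Real.exp_pos _) hJ
    rwa [Real.log_exp] at this
  rw [hWmean] at hlog
  have h3 := mul_le_mul_of_nonneg_left hlog (inv_nonneg.2 ha.le)
  refine le_trans (le_of_eq ?_) h3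
  rw [← htt, hc]
  field_simp

/-! ### the upper bound for smooth functions -/

theorem eg_quad : EG fun g : ℝ => 1 + g ^ 2 := by
  have h1 : EG fun g : ℝ => g := EG.lip fun x y => by
    have := le_abs_self (x - y)
    linarith
  exact (EG.const 1).add (h1.pow 2)

theorem eg_weight : EG fun g : ℝ => (1 + g ^ 2) ^ 2 * Real.exp (2 * |g|) := by
  have h1 : EG fun g : ℝ => Real.exp (2 * |g|) := EG.exp_lip (f := fun g => |g|) (fun x y => by
    have := abs_sub_abs_le_abs_sub x y
    linarith) 2
  exact (eg_quad.pow 2).mul h1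

/-- the Gaussian moment constant -/
def MM : ℝ := ∫ g, (1 + g ^ 2) ^ 2 * Real.exp (2 * |g|) ∂gaussianReal 0 1

theorem int_weight : Integrable (fun g : ℝ => (1 + g ^ 2) ^ 2 * Real.exp (2 * |g|))
    (gaussianReal 0 1) := by
  have := eg_weight.int 1 0
  simpa using this

theorem MM_nonneg : 0 ≤ MM := integral_nonneg fun _ => by positivity

theorem Sm.C_nonneg {f f1 f2 : ℝ → ℝ} {C : ℝ} (h : Sm f f1 f2 C) : 0 ≤ C :=
  (abs_nonneg _).trans (h.b2 0)

theorem Sm.f1_lip {f f1 f2 : ℝ → ℝ} {C : ℝ} (h : Sm f f1 f2 C) (x y : ℝ) :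
    |f1 x - f1 y| ≤ C * |x - y| := by
  have h1 := Convex.norm_image_sub_le_of_norm_hasDerivWithin_le (f := f1) (f' := f2) (C := C)
    (s := univ) (fun x _ => (h.d2 x).hasDerivWithinAt) (fun x _ => h.b2 x) convex_univ
    (mem_univ y) (mem_univ x)
  rwa [Real.norm_eq_abs, Real.norm_eq_abs] at h1

theorem Sm.taylor {f f1 f2 : ℝ → ℝ} {C : ℝ} (h : Sm f f1 f2 C) (u y k : ℝ) :
    |f (u + k) - f u - f1 y * k| ≤ C * (|k| + |u - y|) * |k| := by
  -- the function `k ↦ f (u + k) - f1 y * k` has derivative bounded by `C (|k| + |u - y|)`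
  have h1 := Convex.norm_image_sub_le_of_norm_hasDerivWithin_le
    (f := fun z => f z - f1 y * z) (f' := fun z => f1 z - f1 y) (C := C * (|k| + |u - y|))
    (s := uIcc u (u + k)) (x := u) (y := u + k) (fun z _ => by
      have h2 := (h.d1 z).sub ((hasDerivAt_id z).const_mul (f1 y))
      simp only [mul_one] at h2
      exact h2.hasDerivWithinAt) (fun z hz => by
      rw [Real.norm_eq_abs]
      refine (Sm.f1_lip h z y).trans (mul_le_mul_of_nonneg_left ?_ (Sm.C_nonneg h))
      have h3 : |z - u| ≤ |k| := by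
        have := abs_sub_left_of_mem_uIcc hz
        simpa using this
      calc |z - y| = |(z - u) + (u - y)| := by ring_nf
        _ ≤ |z - u| + |u - y| := abs_add_le _ _
        _ ≤ _ := by linarith) (convex_uIcc _ _) left_mem_uIcc right_mem_uIcc
  rw [Real.norm_eq_abs, Real.norm_eq_abs] at h1
  have e1 : f (u + k) - f1 y * (u + k) - (f u - f1 y * u) = f (u + k) - f u - f1 y * k := by ring
  have e2 : u + k - u = k := by ring
  rw [e1, e2] at h1
  exact h1

theorem exp_le_quad (r : ℝ) : Real.exp r ≤ 1 + r + r ^ 2 * Real.exp |r| := by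
  have he : 1 ≤ Real.exp |r| := Real.one_le_exp (abs_nonneg r)
  rcases le_or_gt |r| 1 with h | h
  · have h1 := Real.abs_exp_sub_one_sub_id_le h
    have h2 := (le_abs_self _).trans h1
    nlinarith [sq_nonneg r]
  · have hr2 : 1 < r ^ 2 := by
      rw [← sq_abs]
      nlinarith
    rcases le_or_gt 0 r with h0 | h0
    · rw [abs_of_nonneg h0] at he ⊢
      nlinarith [Real.exp_pos r]
    · rw [abs_of_neg h0] at h he ⊢
      have h3 : Real.exp r ≤ 1 := Real.exp_le_one_iff.2 h0.le
      nlinarith [Real.exp_pos (-r)]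

/-- upper bound of the Gaussian operator on smooth functions, shift `a δ f'(y)` -/
theorem gaussOp_le {f f1 f2 : ℝ → ℝ} {C : ℝ} (h : Sm f f1 f2 C) {a δ : ℝ} (ha : 0 < a)
    (ha1 : a ≤ 1) (hδ : 0 < δ) (hδ1 : δ ≤ 1) (y : ℝ) :
    gaussOp a δ f y ≤ H (Real.sqrt δ) f (y + a * δ * f1 y) -
      (a * δ * f1 y) ^ 2 / (2 * (a * δ)) + 4 * C ^ 2 * MM * δ ^ 2 := by
  set t := Real.sqrt δ with ht
  have htp : 0 < t := Real.sqrt_pos.2 hδ
  have htt : t ^ 2 = δ := Real.sq_sqrt hδ.le
  have ht1 : t ≤ 1 := by nlinarith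
  have hC := Sm.C_nonneg h
  set c := a * δ * f1 y with hc
  set θ := a * t * f1 y with hθ
  have hct : c = t * θ := by rw [hc, hθ, ← htt]; ring
  have hcabs : |c| ≤ δ := by
    rw [hc, abs_mul, abs_of_pos (mul_pos ha hδ)]
    have := h.b1 y
    nlinarith [mul_pos ha hδ]
  have hEG := EG.lip h.lip
  set r : ℝ → ℝ := fun g => a * f (y + c + t * g) - a * f (y + c) - θ * g with hr
  have hr1 : ∀ g, |r g| ≤ 2 * a * C * δ * (1 + g ^ 2) := by
    intro g
    have h1 := Sm.taylor h (y + c) y (t * g)
    have e : r g = a * (f (y + c + t * g) - f (y + c) - f1 y * (t * g)) := by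
      rw [hr, hθ]; ring
    rw [e, abs_mul, abs_of_pos ha]
    have e2 : y + c - y = c := by ring
    rw [e2] at h1
    have h2 : (|t * g| + |c|) * |t * g| ≤ 2 * δ * (1 + g ^ 2) := by
      have h3 : |t * g| = t * |g| := by rw [abs_mul, abs_of_pos htp]
      rw [h3]
      have h4 := abs_nonneg g
      have h5 : |g| ^ 2 = g ^ 2 := sq_abs g
      have h6 : |g| ≤ 1 + g ^ 2 := by nlinarith [sq_nonneg (|g| - 1)]
      have h7 : t * |g| * (t * |g|) = δ * g ^ 2 := by rw [← htt, ← h5]; ring
      have h8 : |c| * (t * |g|) ≤ δ * |g| := by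
        have : t * |g| ≤ |g| := by nlinarith
        nlinarith [abs_nonneg c, mul_nonneg htp.le h4]
      nlinarith [mul_le_mul_of_nonneg_left h6 hδ.le]
    calc a * |f (y + c + t * g) - f (y + c) - f1 y * (t * g)|
        ≤ a * (C * (|t * g| + |c|) * |t * g|) := mul_le_mul_of_nonneg_left h1 ha.le
      _ = a * C * ((|t * g| + |c|) * |t * g|) := by ring
      _ ≤ a * C * (2 * δ * (1 + g ^ 2)) := mul_le_mul_of_nonneg_left h2 (by positivity)
      _ = _ := by ring
  have hr2 : ∀ g, |r g| ≤ 2 * |g| := by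
    intro g
    have h1 := h.lip (y + c + t * g) (y + c)
    have h2 := h.lip (y + c) (y + c + t * g)
    have e1 : y + c + t * g - (y + c) = t * g := by ring
    have e2 : y + c - (y + c + t * g) = -(t * g) := by ring
    rw [e1] at h1
    rw [e2, abs_neg] at h2
    have h3 : |t * g| = t * |g| := by rw [abs_mul, abs_of_pos htp]
    rw [h3] at h1 h2
    have h4 : |f (y + c + t * g) - f (y + c)| ≤ t * |g| := by
      rw [abs_le]; constructor <;> linarith
    have h5 : |θ * g| ≤ |g| := by
      rw [abs_mul]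
      have : |θ| ≤ 1 := by
        rw [hθ, abs_mul, abs_of_pos (mul_pos ha htp)]
        have := h.b1 y
        have h7 : a * t ≤ 1 := by nlinarith
        nlinarith [mul_pos ha htp, abs_nonneg (f1 y)]
      nlinarith [abs_nonneg g]
    have e : r g = a * (f (y + c + t * g) - f (y + c)) - θ * g := by rw [hr]; ring
    rw [e]
    have h6 := abs_sub (a * (f (y + c + t * g) - f (y + c))) (θ * g)
    rw [abs_mul, abs_of_pos ha] at h6
    have h8 : t * |g| ≤ |g| := by nlinarith [abs_nonneg g]
    have h9 : a * |f (y + c + t * g) - f (y + c)| ≤ |g| := by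
      nlinarith [abs_nonneg (f (y + c + t * g) - f (y + c))]
    linarith
  have i1 : Integrable (fun g => a * f (y + c + t * g)) (gaussianReal 0 1) :=
    (hEG.int t (y + c)).const_mul a
  have i2 : Integrable (fun g : ℝ => θ * g) (gaussianReal 0 1) := int_id.const_mul θ
  have i3 : Integrable (fun g => a * f (y + c + t * g) - a * f (y + c)) (gaussianReal 0 1) :=
    i1.sub (integrable_const _)
  have ir : Integrable r (gaussianReal 0 1) := i3.sub i2
  have hrmean : ∫ g, r g ∂gaussianReal 0 1 = a * H t f (y + c) - a * f (y + c) := by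
    show ∫ g, (a * f (y + c + t * g) - a * f (y + c) - θ * g) ∂gaussianReal 0 1 = _
    have hθg : ∫ g, θ * g ∂gaussianReal 0 1 = 0 := by
      rw [integral_const_mul, gauss_mean, mul_zero]
    rw [integral_sub i3 i2, integral_sub i1 (integrable_const _), hθg, integral_const_mul]
    simp [H]
  have hrc : Continuous r := by
    have := hEG.cont
    rw [hr]
    fun_prop
  have iexp : Integrable (fun g => Real.exp (r g)) (gaussianReal 0 1) := by
    refine Integrable.mono' (integrable_exp_abs 2) (by fun_prop)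
      (Eventually.of_forall fun g => ?_)
    rw [Real.norm_eq_abs, abs_of_pos (Real.exp_pos _)]
    exact Real.exp_le_exp.2 ((le_abs_self _).trans (hr2 g))
  have hup : ∫ g, Real.exp (r g) ∂gaussianReal 0 1 ≤
      1 + ∫ g, r g ∂gaussianReal 0 1 + (2 * a * C * δ) ^ 2 * MM := by
    have h1 : ∀ g, Real.exp (r g) ≤ (1 + r g) + (2 * a * C * δ) ^ 2 *
        ((1 + g ^ 2) ^ 2 * Real.exp (2 * |g|)) := by
      intro g
      refine (exp_le_quad (r g)).trans (add_le_add le_rfl ?_)
      have h2 : r g ^ 2 ≤ (2 * a * C * δ * (1 + g ^ 2)) ^ 2 := by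
        rw [← sq_abs (r g)]
        exact pow_le_pow_left₀ (abs_nonneg _) (hr1 g) 2
      have h3 : Real.exp |r g| ≤ Real.exp (2 * |g|) := Real.exp_le_exp.2 (hr2 g)
      calc r g ^ 2 * Real.exp |r g| ≤ (2 * a * C * δ * (1 + g ^ 2)) ^ 2 * Real.exp (2 * |g|) :=
            mul_le_mul h2 h3 (Real.exp_pos _).le (by positivity)
        _ = _ := by ring
    have i4 : Integrable (fun g => (1 + r g) + (2 * a * C * δ) ^ 2 *
        ((1 + g ^ 2) ^ 2 * Real.exp (2 * |g|))) (gaussianReal 0 1) :=
      ((integrable_const 1).add ir).add (int_weight.const_mul _)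
    refine (integral_mono iexp i4 h1).trans (le_of_eq ?_)
    have i5 : Integrable (fun g => 1 + r g) (gaussianReal 0 1) := (integrable_const 1).add ir
    rw [integral_add i5 (int_weight.const_mul _), integral_add (integrable_const 1) ir,
      integral_const_mul]
    simp [MM]
  have hpos : 0 < ∫ g, Real.exp (r g) ∂gaussianReal 0 1 := integral_exp_pos iexp
  have hlog : Real.log (∫ g, Real.exp (r g) ∂gaussianReal 0 1) ≤
      ∫ g, r g ∂gaussianReal 0 1 + (2 * a * C * δ) ^ 2 * MM := by
    have := Real.log_le_sub_one_of_pos hpos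
    linarith
  have h1 : H t (fun x => Real.exp (a * f x)) y =
      Real.exp (a * f (y + c) - θ ^ 2 / 2) * ∫ g, Real.exp (r g) ∂gaussianReal 0 1 := by
    unfold H
    rw [gauss_shift _ θ, ← integral_const_mul]
    refine integral_congr_ae (Eventually.of_forall fun g => ?_)
    show Real.exp (a * f (y + t * (g + θ))) * Real.exp (-θ * g - θ ^ 2 / 2) =
      Real.exp (a * f (y + c) - θ ^ 2 / 2) * Real.exp (r g)
    rw [← Real.exp_add, ← Real.exp_add]
    congr 1
    have : y + t * (g + θ) = y + c + t * g := by rw [hct]; ring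
    rw [this, hr]
    ring
  rw [gaussOp_ne ha.ne', h1, Real.log_mul (Real.exp_pos _).ne' hpos.ne', Real.log_exp]
  have h2 : a⁻¹ * (a * f (y + c) - θ ^ 2 / 2 +
      Real.log (∫ g, Real.exp (r g) ∂gaussianReal 0 1)) ≤
      a⁻¹ * (a * f (y + c) - θ ^ 2 / 2 + (a * H t f (y + c) - a * f (y + c) +
        (2 * a * C * δ) ^ 2 * MM)) := by
    refine mul_le_mul_of_nonneg_left ?_ (inv_nonneg.2 ha.le)
    rw [← hrmean]
    linarith
  refine h2.trans ?_
  have h3 : a⁻¹ * (a * f (y + c) - θ ^ 2 / 2 + (a * H t f (y + c) - a * f (y + c) +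
        (2 * a * C * δ) ^ 2 * MM)) = H t f (y + c) - c ^ 2 / (2 * (a * δ)) +
        a * (4 * C ^ 2 * MM * δ ^ 2) := by
    rw [← htt, hct]
    field_simp
    ring
  rw [h3]
  have h4 : 0 ≤ 4 * C ^ 2 * MM * δ ^ 2 := by
    have := MM_nonneg
    positivity
  nlinarith

end

end Crest.Agent.R146.VMono_945
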