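import Crest.Agent.R146.VSpace_371

/-!
Monotonicity of the closure ratio (row 146, helper371).

`cheb` : Chebyshev-type inequality for ratios.  `closure_le` / `le_closure` : two-sided bounds of
`E_p[V_x²] / E_p[w(V)]` from a slope barrier `V_x ≤ g K(V)` (`≥`) and a comparison law
`φ(V)` such that `p / φ(V)` is nonincreasing (nondecreasing) in `x`.
-/

set_option autoImplicit false

open Set Filter Topology MeasureTheory

namespace Crest.Agent.R146.VRatio_371

open MaxP_371 MaxP2_371 MaxPCmp_371 VSpace_371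

/-- Chebyshev-type inequality: if `A/B` is nondecreasing and `θ` nonincreasing then
`(∫ A θ)(∫ B) ≤ (∫ A)(∫ B θ)`. -/
theorem cheb {ν : Measure ℝ} [SFinite ν] {A B θ : ℝ → ℝ} (hA : Integrable A ν)
    (hB : Integrable B ν) (hAθ : Integrable (fun x => A x * θ x) ν)
    (hBθ : Integrable (fun x => B x * θ x) ν)
    (hAB : ∀ x y, x ≤ y → A x * B y ≤ A y * B x) (hθ : Antitone θ) :
    (∫ x, A x * θ x ∂ν) * (∫ x, B x ∂ν) ≤ (∫ x, A x ∂ν) * (∫ x, B x * θ x ∂ν) := by
  have hpt : ∀ z : ℝ × ℝ, 0 ≤ (A z.2 * B z.1 - A z.1 * B z.2) * (θ z.1 - θ z.2) := by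
    intro z
    rcases le_total z.1 z.2 with h | h
    · exact mul_nonneg (by linarith [hAB _ _ h]) (by linarith [hθ h])
    · exact mul_nonneg_of_nonpos_of_nonpos (by linarith [hAB _ _ h]) (by linarith [hθ h])
  have i1 : Integrable (fun z : ℝ × ℝ => (B z.1 * θ z.1) * A z.2) (ν.prod ν) := hBθ.mul_prod hA
  have i2 : Integrable (fun z : ℝ × ℝ => B z.1 * (A z.2 * θ z.2)) (ν.prod ν) := hB.mul_prod hAθ
  have i3 : Integrable (fun z : ℝ × ℝ => (A z.1 * θ z.1) * B z.2) (ν.prod ν) := hAθ.mul_prod hB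
  have i4 : Integrable (fun z : ℝ × ℝ => A z.1 * (B z.2 * θ z.2)) (ν.prod ν) := hA.mul_prod hBθ
  have h0 : 0 ≤ ∫ z : ℝ × ℝ, (((B z.1 * θ z.1) * A z.2 - B z.1 * (A z.2 * θ z.2)) -
      ((A z.1 * θ z.1) * B z.2 - A z.1 * (B z.2 * θ z.2))) ∂(ν.prod ν) := by
    apply integral_nonneg
    intro z
    have := hpt z
    simp only [Pi.zero_apply]
    nlinarith
  have i12 : Integrable (fun z : ℝ × ℝ => (B z.1 * θ z.1) * A z.2 - B z.1 * (A z.2 * θ z.2))
    (ν.prod ν) := i1.sub i2
  have i34 : Integrable (fun z : ℝ × ℝ => (A z.1 * θ z.1) * B z.2 - A z.1 * (B z.2 * θ z.2))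
    (ν.prod ν) := i3.sub i4
  rw [integral_sub i12 i34, integral_sub i1 i2, integral_sub i3 i4,
    integral_prod_mul (fun x => B x * θ x) A, integral_prod_mul B (fun x => A x * θ x),
    integral_prod_mul (fun x => A x * θ x) B, integral_prod_mul A (fun x => B x * θ x)] at h0
  nlinarith

/-- The reversed inequality for nondecreasing `θ`. -/
theorem cheb_mono {ν : Measure ℝ} [SFinite ν] {A B θ : ℝ → ℝ} (hA : Integrable A ν)
    (hB : Integrable B ν) (hAθ : Integrable (fun x => A x * θ x) ν)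
    (hBθ : Integrable (fun x => B x * θ x) ν)
    (hAB : ∀ x y, x ≤ y → A x * B y ≤ A y * B x) (hθ : Monotone θ) :
    (∫ x, A x ∂ν) * (∫ x, B x * θ x ∂ν) ≤ (∫ x, A x * θ x ∂ν) * (∫ x, B x ∂ν) := by
  have h := cheb (θ := fun x => -θ x) hA hB
    (by simpa using hAθ.neg) (by simpa using hBθ.neg) hAB (fun x y h => neg_le_neg (hθ h))
  simp only [mul_neg, integral_neg, neg_mul] at h
  linarith

section closure

variable {t0 t1 : ℝ} {b : ℝ → ℝ} {u V P Px Pxx : ℝ → ℝ → ℝ} {M : ℝ}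

/-- weighted change of variables: the measure `P t x dx` and integration of functions of `V`. -/
lemma integral_withDensity_P (h : BSysV t0 t1 b u V P Px Pxx M) {t : ℝ} (ht : t ∈ Ico t0 t1)
    (F : ℝ → ℝ) :
    ∫ x, F x ∂(volume.withDensity (fun x => ENNReal.ofReal (P t x))) = ∫ x, P t x * F x := by
  have hm : Measurable (fun x => (P t x).toNNReal) := by
    have : Continuous (P t) := continuous_iff_continuousAt.2 fun x => (h.hPx t ht x).continuousAt
    exact this.measurable.real_toNNReal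
  have e : (fun x => ENNReal.ofReal (P t x)) = fun x => ((P t x).toNNReal : ENNReal) := rfl
  rw [e, integral_withDensity_eq_integral_smul hm]
  apply integral_congr_ae
  refine Eventually.of_forall fun x => ?_
  simp only [NNReal.smul_def, smul_eq_mul]
  rw [Real.coe_toNNReal _ (h.P_pos t ht x).le]

lemma integrable_withDensity_P (h : BSysV t0 t1 b u V P Px Pxx M) {t : ℝ} (ht : t ∈ Ico t0 t1)
    (F : ℝ → ℝ) :
    Integrable F (volume.withDensity (fun x => ENNReal.ofReal (P t x))) ↔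
      Integrable (fun x => P t x * F x) := by
  have hm : Measurable (fun x => (P t x).toNNReal) := by
    have : Continuous (P t) := continuous_iff_continuousAt.2 fun x => (h.hPx t ht x).continuousAt
    exact this.measurable.real_toNNReal
  have e : (fun x => ENNReal.ofReal (P t x)) = fun x => ((P t x).toNNReal : ENNReal) := rfl
  rw [e, integrable_withDensity_iff_integrable_smul hm]
  apply integrable_congr
  refine Eventually.of_forall fun x => ?_
  simp only [NNReal.smul_def, smul_eq_mul]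
  rw [Real.coe_toNNReal _ (h.P_pos t ht x).le]

/-- Chebyshev step in `x`-space, integrals over the level interval on the reference side. -/
lemma cheb_V (h : BSysV t0 t1 b u V P Px Pxx M) {t : ℝ} (ht : t ∈ Ico t0 t1)
    {A B θ : ℝ → ℝ} (hA : IntegrableOn A (Ioo 0 1)) (hB : IntegrableOn B (Ioo 0 1))
    (hAθ : Integrable (fun x => P t x * (A (V t x) * θ x)))
    (hBθ : Integrable (fun x => P t x * (B (V t x) * θ x)))
    (hAB : ∀ v ∈ Ioo (0:ℝ) 1, ∀ w ∈ Ioo (0:ℝ) 1, v ≤ w → A v * B w ≤ A w * B v)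
    (hθ : Antitone θ) :
    (∫ x, P t x * (A (V t x) * θ x)) * (∫ v in Ioo (0:ℝ) 1, B v) ≤
      (∫ v in Ioo (0:ℝ) 1, A v) * (∫ x, P t x * (B (V t x) * θ x)) := by
  set ν := volume.withDensity (fun x => ENNReal.ofReal (P t x)) with hν
  have iA : Integrable (fun x => A (V t x)) ν := by
    rw [hν, integrable_withDensity_P h ht]
    have := (h.integrable_comp_V ht A).2 hA
    simpa [mul_comm] using this
  have iB : Integrable (fun x => B (V t x)) ν := by
    rw [hν, integrable_withDensity_P h ht]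
    have := (h.integrable_comp_V ht B).2 hB
    simpa [mul_comm] using this
  have iAθ : Integrable (fun x => A (V t x) * θ x) ν := by
    rw [hν, integrable_withDensity_P h ht]; exact hAθ
  have iBθ : Integrable (fun x => B (V t x) * θ x) ν := by
    rw [hν, integrable_withDensity_P h ht]; exact hBθ
  have key := cheb (ν := ν) iA iB iAθ iBθ
    (fun x y hxy => hAB _ (h.V_mem ht x) _ (h.V_mem ht y) ((h.strictMono ht).monotone hxy)) hθ
  rw [hν, integral_withDensity_P h ht, integral_withDensity_P h ht, integral_withDensity_P h ht,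
    integral_withDensity_P h ht] at key
  have eA : ∫ x, P t x * A (V t x) = ∫ v in Ioo (0:ℝ) 1, A v := by
    rw [← h.integral_comp_V ht A]; congr 1; funext x; ring
  have eB : ∫ x, P t x * B (V t x) = ∫ v in Ioo (0:ℝ) 1, B v := by
    rw [← h.integral_comp_V ht B]; congr 1; funext x; ring
  rw [eA, eB] at key
  exact key

lemma cheb_V_mono (h : BSysV t0 t1 b u V P Px Pxx M) {t : ℝ} (ht : t ∈ Ico t0 t1)
    {A B θ : ℝ → ℝ} (hA : IntegrableOn A (Ioo 0 1)) (hB : IntegrableOn B (Ioo 0 1))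
    (hAθ : Integrable (fun x => P t x * (A (V t x) * θ x)))
    (hBθ : Integrable (fun x => P t x * (B (V t x) * θ x)))
    (hAB : ∀ v ∈ Ioo (0:ℝ) 1, ∀ w ∈ Ioo (0:ℝ) 1, v ≤ w → A v * B w ≤ A w * B v)
    (hθ : Monotone θ) :
    (∫ v in Ioo (0:ℝ) 1, A v) * (∫ x, P t x * (B (V t x) * θ x)) ≤
      (∫ x, P t x * (A (V t x) * θ x)) * (∫ v in Ioo (0:ℝ) 1, B v) := by
  have hk := cheb_V h ht (θ := fun x => -θ x) hA hB
    (by simpa using hAθ.neg) (by simpa using hBθ.neg) hAB (fun x y hxy => neg_le_neg (hθ hxy))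
  simp only [mul_neg, integral_neg, neg_mul] at hk
  linarith

/-- **Upper bound of the closure ratio.** `V_x ≤ g K(V)`, `p/φ(V)` nonincreasing, `K²/w` nondecreasing:
`E_p[V_x²] ∫ (w/K) φ ≤ g² (∫ K φ) E_p[w(V)]`. -/
theorem closure_le (h : BSysV t0 t1 b u V P Px Pxx M) {t : ℝ} (ht : t ∈ Ico t0 t1)
    {p : ℝ → ℝ} (hp : ∀ x, 0 ≤ p x) {g : ℝ} (hg : 0 < g) {K w φ : ℝ → ℝ} {KM : ℝ}
    (hK : ∀ v ∈ Ioo (0:ℝ) 1, 0 < K v) (hKM : ∀ v ∈ Ioo (0:ℝ) 1, K v ≤ KM)
    (hKm : Measurable K)
    (hw : ∀ v ∈ Ioo (0:ℝ) 1, 0 ≤ w v) (hφ : ∀ v ∈ Ioo (0:ℝ) 1, 0 < φ v)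
    (hPK : ∀ x, P t x ≤ g * K (V t x))
    (hKw : ∀ v ∈ Ioo (0:ℝ) 1, ∀ z ∈ Ioo (0:ℝ) 1, v ≤ z → K v ^ 2 * w z ≤ K z ^ 2 * w v)
    (hθ : Antitone (fun x => p x / φ (V t x)))
    (iP : Integrable (fun x => p x * P t x)) (iP2 : Integrable (fun x => p x * P t x ^ 2))
    (iw : Integrable (fun x => p x * w (V t x)))
    (iA : IntegrableOn (fun v => K v * φ v) (Ioo 0 1))
    (iB : IntegrableOn (fun v => w v / K v * φ v) (Ioo 0 1)) :
    (∫ x, p x * P t x ^ 2) * (∫ v in Ioo (0:ℝ) 1, w v / K v * φ v) ≤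
      g ^ 2 * (∫ v in Ioo (0:ℝ) 1, K v * φ v) * (∫ x, p x * w (V t x)) := by
  have hVc := h.continuous_V ht
  have hPc : Continuous (P t) := continuous_iff_continuousAt.2 fun x => (h.hPx t ht x).continuousAt
  have hKx : ∀ x, 0 < K (V t x) := fun x => hK _ (h.V_mem ht x)
  have hwx : ∀ x, 0 ≤ w (V t x) := fun x => hw _ (h.V_mem ht x)
  have hφx : ∀ x, 0 < φ (V t x) := fun x => hφ _ (h.V_mem ht x)
  have hPx : ∀ x, 0 < P t x := fun x => h.P_pos t ht x
  have eA : ∀ x, P t x * ((K (V t x) * φ (V t x)) * (p x / φ (V t x))) =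
      p x * P t x * K (V t x) := by
    intro x; have := (hφx x).ne'; field_simp
  have eB : ∀ x, P t x * ((w (V t x) / K (V t x) * φ (V t x)) * (p x / φ (V t x))) =
      p x * w (V t x) * (P t x / K (V t x)) := by
    intro x; have := (hφx x).ne'; have := (hKx x).ne'; field_simp
  have iAθ : Integrable (fun x => p x * P t x * K (V t x)) := by
    refine (iP.mul_const KM).mono (iP.aestronglyMeasurable.mul
      (hKm.comp hVc.measurable).aestronglyMeasurable) (Eventually.of_forall fun x => ?_)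
    have h1 : 0 ≤ p x * P t x := mul_nonneg (hp x) (hPx x).le
    have hKM0 : 0 ≤ KM := (hKx x).le.trans (hKM _ (h.V_mem ht x))
    rw [Real.norm_of_nonneg (mul_nonneg h1 (hKx x).le), Real.norm_of_nonneg (mul_nonneg h1 hKM0)]
    exact mul_le_mul_of_nonneg_left (hKM _ (h.V_mem ht x)) h1
  have iBθ : Integrable (fun x => p x * w (V t x) * (P t x / K (V t x))) := by
    refine (iw.mul_const g).mono (iw.aestronglyMeasurable.mul
      (hPc.measurable.div (hKm.comp hVc.measurable)).aestronglyMeasurable)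
      (Eventually.of_forall fun x => ?_)
    have h1 : 0 ≤ p x * w (V t x) := mul_nonneg (hp x) (hwx x)
    have h2 : P t x / K (V t x) ≤ g := by rw [div_le_iff₀ (hKx x)]; exact hPK x
    have h3 : 0 ≤ P t x / K (V t x) := div_nonneg (hPx x).le (hKx x).le
    rw [Real.norm_of_nonneg (mul_nonneg h1 h3), Real.norm_of_nonneg (mul_nonneg h1 hg.le)]
    exact mul_le_mul_of_nonneg_left h2 h1
  have key := cheb_V h ht (A := fun v => K v * φ v) (B := fun v => w v / K v * φ v)
    (θ := fun x => p x / φ (V t x)) iA iB (by simpa only [eA] using iAθ)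
    (by simpa only [eB] using iBθ) ?_ hθ
  · simp only [eA, eB] at key
    have h1 : ∫ x, p x * P t x ^ 2 ≤ g * ∫ x, p x * P t x * K (V t x) := by
      rw [← integral_const_mul]
      refine integral_mono iP2 (iAθ.const_mul g) fun x => ?_
      have h1 : 0 ≤ p x * P t x := mul_nonneg (hp x) (hPx x).le
      have h2 := mul_le_mul_of_nonneg_left (hPK x) h1
      simp only
      nlinarith
    have h2 : ∫ x, p x * w (V t x) * (P t x / K (V t x)) ≤ g * ∫ x, p x * w (V t x) := by
      rw [← integral_const_mul]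
      refine integral_mono iBθ (iw.const_mul g) fun x => ?_
      have h1 : 0 ≤ p x * w (V t x) := mul_nonneg (hp x) (hwx x)
      have h2 : P t x / K (V t x) ≤ g := by rw [div_le_iff₀ (hKx x)]; exact hPK x
      have := mul_le_mul_of_nonneg_left h2 h1
      simp only
      linarith
    have hB0 : 0 ≤ ∫ v in Ioo (0:ℝ) 1, w v / K v * φ v :=
      setIntegral_nonneg measurableSet_Ioo fun v hv =>
        mul_nonneg (div_nonneg (hw v hv) (hK v hv).le) (hφ v hv).le
    have hA0 : 0 ≤ ∫ v in Ioo (0:ℝ) 1, K v * φ v :=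
      setIntegral_nonneg measurableSet_Ioo fun v hv => mul_nonneg (hK v hv).le (hφ v hv).le
    calc (∫ x, p x * P t x ^ 2) * (∫ v in Ioo (0:ℝ) 1, w v / K v * φ v)
        ≤ (g * ∫ x, p x * P t x * K (V t x)) * (∫ v in Ioo (0:ℝ) 1, w v / K v * φ v) :=
          mul_le_mul_of_nonneg_right h1 hB0
      _ = g * ((∫ x, p x * P t x * K (V t x)) * (∫ v in Ioo (0:ℝ) 1, w v / K v * φ v)) := by ring
      _ ≤ g * ((∫ v in Ioo (0:ℝ) 1, K v * φ v) *
            (∫ x, p x * w (V t x) * (P t x / K (V t x)))) :=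
          mul_le_mul_of_nonneg_left key hg.le
      _ ≤ g * ((∫ v in Ioo (0:ℝ) 1, K v * φ v) * (g * ∫ x, p x * w (V t x))) :=
          mul_le_mul_of_nonneg_left (mul_le_mul_of_nonneg_left h2 hA0) hg.le
      _ = g ^ 2 * (∫ v in Ioo (0:ℝ) 1, K v * φ v) * (∫ x, p x * w (V t x)) := by ring
  · intro v hv z hz hvz
    have h1 := hKw v hv z hz hvz
    have h2 := hK v hv
    have h3 := hK z hz
    have h4 : K v * φ v * (w z / K z * φ z) = (K v ^ 2 * w z) * (φ v * φ z / (K v * K z)) := by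
      field_simp
    have h5 : K z * φ z * (w v / K v * φ v) = (K z ^ 2 * w v) * (φ v * φ z / (K v * K z)) := by
      field_simp
    rw [h4, h5]
    exact mul_le_mul_of_nonneg_right h1
      (div_nonneg (mul_nonneg (hφ v hv).le (hφ z hz).le) (mul_nonneg h2.le h3.le))

/-- **Lower bound of the closure ratio.** `g K(V) ≤ V_x`, `p/φ(V)` nondecreasing, `K²/w` nondecreasing:
`g² (∫ K φ) E_p[w(V)] ≤ E_p[V_x²] ∫ (w/K) φ`. -/
theorem le_closure (h : BSysV t0 t1 b u V P Px Pxx M) {t : ℝ} (ht : t ∈ Ico t0 t1)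
    {p : ℝ → ℝ} (hp : ∀ x, 0 ≤ p x) {g : ℝ} (hg : 0 < g) {K w φ : ℝ → ℝ} {CM : ℝ}
    (hK : ∀ v ∈ Ioo (0:ℝ) 1, 0 < K v) (hCM : ∀ v ∈ Ioo (0:ℝ) 1, w v / K v ≤ CM)
    (hKm : Measurable K) (hwm : Measurable w)
    (hw : ∀ v ∈ Ioo (0:ℝ) 1, 0 ≤ w v) (hφ : ∀ v ∈ Ioo (0:ℝ) 1, 0 < φ v)
    (hPK : ∀ x, g * K (V t x) ≤ P t x)
    (hKw : ∀ v ∈ Ioo (0:ℝ) 1, ∀ z ∈ Ioo (0:ℝ) 1, v ≤ z → K v ^ 2 * w z ≤ K z ^ 2 * w v)
    (hθ : Monotone (fun x => p x / φ (V t x)))
    (iP : Integrable (fun x => p x * P t x)) (iP2 : Integrable (fun x => p x * P t x ^ 2))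
    (iw : Integrable (fun x => p x * w (V t x)))
    (iA : IntegrableOn (fun v => K v * φ v) (Ioo 0 1))
    (iB : IntegrableOn (fun v => w v / K v * φ v) (Ioo 0 1)) :
    g ^ 2 * (∫ v in Ioo (0:ℝ) 1, K v * φ v) * (∫ x, p x * w (V t x)) ≤
      (∫ x, p x * P t x ^ 2) * (∫ v in Ioo (0:ℝ) 1, w v / K v * φ v) := by
  have hVc := h.continuous_V ht
  have hPc : Continuous (P t) := continuous_iff_continuousAt.2 fun x => (h.hPx t ht x).continuousAt
  have hKx : ∀ x, 0 < K (V t x) := fun x => hK _ (h.V_mem ht x)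
  have hwx : ∀ x, 0 ≤ w (V t x) := fun x => hw _ (h.V_mem ht x)
  have hφx : ∀ x, 0 < φ (V t x) := fun x => hφ _ (h.V_mem ht x)
  have hPx : ∀ x, 0 < P t x := fun x => h.P_pos t ht x
  have eA : ∀ x, P t x * ((K (V t x) * φ (V t x)) * (p x / φ (V t x))) =
      p x * P t x * K (V t x) := by
    intro x; have := (hφx x).ne'; field_simp
  have eB : ∀ x, P t x * ((w (V t x) / K (V t x) * φ (V t x)) * (p x / φ (V t x))) =
      p x * P t x * (w (V t x) / K (V t x)) := by
    intro x; have := (hφx x).ne'; have := (hKx x).ne'; field_simp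
  have iAθ : Integrable (fun x => p x * P t x * K (V t x)) := by
    refine (iP2.mul_const g⁻¹).mono (iP.aestronglyMeasurable.mul
      (hKm.comp hVc.measurable).aestronglyMeasurable) (Eventually.of_forall fun x => ?_)
    have h1 : 0 ≤ p x * P t x := mul_nonneg (hp x) (hPx x).le
    have h2 : K (V t x) ≤ P t x * g⁻¹ := by
      rw [← div_eq_mul_inv, le_div_iff₀ hg]; linarith [hPK x]
    have h3 : 0 ≤ p x * P t x ^ 2 := mul_nonneg (hp x) (sq_nonneg _)
    rw [Real.norm_of_nonneg (mul_nonneg h1 (hKx x).le),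
      Real.norm_of_nonneg (mul_nonneg h3 (inv_nonneg.2 hg.le))]
    have h4 := mul_le_mul_of_nonneg_left h2 h1
    nlinarith
  have iBθ : Integrable (fun x => p x * P t x * (w (V t x) / K (V t x))) := by
    refine (iP.mul_const CM).mono (iP.aestronglyMeasurable.mul
      ((hwm.comp hVc.measurable).div (hKm.comp hVc.measurable)).aestronglyMeasurable)
      (Eventually.of_forall fun x => ?_)
    have h1 : 0 ≤ p x * P t x := mul_nonneg (hp x) (hPx x).le
    have h3 : 0 ≤ w (V t x) / K (V t x) := div_nonneg (hwx x) (hKx x).le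
    have h2 := hCM _ (h.V_mem ht x)
    rw [Real.norm_of_nonneg (mul_nonneg h1 h3), Real.norm_of_nonneg (mul_nonneg h1 (h3.trans h2))]
    exact mul_le_mul_of_nonneg_left h2 h1
  have key := cheb_V_mono h ht (A := fun v => K v * φ v) (B := fun v => w v / K v * φ v)
    (θ := fun x => p x / φ (V t x)) iA iB (by simpa only [eA] using iAθ)
    (by simpa only [eB] using iBθ) ?_ hθ
  · simp only [eA, eB] at key
    have h1 : g * ∫ x, p x * P t x * K (V t x) ≤ ∫ x, p x * P t x ^ 2 := by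
      rw [← integral_const_mul]
      refine integral_mono (iAθ.const_mul g) iP2 fun x => ?_
      have h1 : 0 ≤ p x * P t x := mul_nonneg (hp x) (hPx x).le
      have h2 := mul_le_mul_of_nonneg_left (hPK x) h1
      simp only
      nlinarith
    have h2 : g * ∫ x, p x * w (V t x) ≤ ∫ x, p x * P t x * (w (V t x) / K (V t x)) := by
      rw [← integral_const_mul]
      refine integral_mono (iw.const_mul g) iBθ fun x => ?_
      have h1 : 0 ≤ p x * w (V t x) / K (V t x) :=
        div_nonneg (mul_nonneg (hp x) (hwx x)) (hKx x).le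
      have h2 := mul_le_mul_of_nonneg_left (hPK x) h1
      have h3 : p x * w (V t x) / K (V t x) * (g * K (V t x)) = g * (p x * w (V t x)) := by
        have := (hKx x).ne'; field_simp
      have h4 : p x * w (V t x) / K (V t x) * P t x = p x * P t x * (w (V t x) / K (V t x)) := by
        ring
      simp only
      linarith
    have hB0 : 0 ≤ ∫ v in Ioo (0:ℝ) 1, w v / K v * φ v :=
      setIntegral_nonneg measurableSet_Ioo fun v hv =>
        mul_nonneg (div_nonneg (hw v hv) (hK v hv).le) (hφ v hv).le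
    have hA0 : 0 ≤ ∫ v in Ioo (0:ℝ) 1, K v * φ v :=
      setIntegral_nonneg measurableSet_Ioo fun v hv => mul_nonneg (hK v hv).le (hφ v hv).le
    calc g ^ 2 * (∫ v in Ioo (0:ℝ) 1, K v * φ v) * (∫ x, p x * w (V t x))
        = g * ((∫ v in Ioo (0:ℝ) 1, K v * φ v) * (g * ∫ x, p x * w (V t x))) := by ring
      _ ≤ g * ((∫ v in Ioo (0:ℝ) 1, K v * φ v) *
            (∫ x, p x * P t x * (w (V t x) / K (V t x)))) :=
          mul_le_mul_of_nonneg_left (mul_le_mul_of_nonneg_left h2 hA0) hg.le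
      _ ≤ g * ((∫ x, p x * P t x * K (V t x)) * (∫ v in Ioo (0:ℝ) 1, w v / K v * φ v)) :=
          mul_le_mul_of_nonneg_left key hg.le
      _ = (g * ∫ x, p x * P t x * K (V t x)) * (∫ v in Ioo (0:ℝ) 1, w v / K v * φ v) := by ring
      _ ≤ (∫ x, p x * P t x ^ 2) * (∫ v in Ioo (0:ℝ) 1, w v / K v * φ v) :=
          mul_le_mul_of_nonneg_right h1 hB0
  · intro v hv z hz hvz
    have h1 := hKw v hv z hz hvz
    have h2 := hK v hv
    have h3 := hK z hz
    have h4 : K v * φ v * (w z / K z * φ z) = (K v ^ 2 * w z) * (φ v * φ z / (K v * K z)) := by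
      field_simp
    have h5 : K z * φ z * (w v / K v * φ v) = (K z ^ 2 * w v) * (φ v * φ z / (K v * K z)) := by
      field_simp
    rw [h4, h5]
    exact mul_le_mul_of_nonneg_right h1
      (div_nonneg (mul_nonneg (hφ v hv).le (hφ z hz).le) (mul_nonneg h2.le h3.le))

end closure

end Crest.Agent.R146.VRatio_371
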