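import Crest.Agent.R146.MaxPCmp2_371

/-!
Passage from `x` to the level `v` for the backward tip system (row 146, helper371).

`X V t v` is the inverse of `V t`; `I(t,v) = P t (X V t v)` solves the v-space equation
`I_t = -½ I² I_vv - b v(1-v) I_v + b (2-3v) I` (right time derivative).
-/

set_option autoImplicit false

open Set Filter Topology

namespace Crest.Agent.R146.VSpace_371

open MaxP_371 MaxP2_371 MaxPCmp_371

/-- Derivative of `s ↦ F s (x s)` from the right: right time derivative of `F` at the fixed point, space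
derivative jointly continuous. -/
lemma hasDerivWithinAt_path {F Fx : ℝ → ℝ → ℝ} {x : ℝ → ℝ} {t Ft x' : ℝ}
    (hFt : HasDerivWithinAt (fun s => F s (x t)) Ft (Ici t) t)
    (hFx : ∀ᶠ s in 𝓝[>] t, ∀ y, HasDerivAt (F s) (Fx s y) y)
    (hFxc : Tendsto (fun p : ℝ × ℝ => Fx p.1 p.2) (𝓝[>] t ×ˢ 𝓝 (x t)) (𝓝 (Fx t (x t))))
    (hx : HasDerivWithinAt x x' (Ici t) t) :
    HasDerivWithinAt (fun s => F s (x s)) (Ft + Fx t (x t) * x') (Ici t) t := by
  have e : Ici t \ {t} = Ioi t := by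
    ext s; simp only [Set.mem_sdiff, mem_Ici, mem_singleton_iff, mem_Ioi]
    constructor
    · rintro ⟨h1, h2⟩; exact lt_of_le_of_ne h1 (Ne.symm h2)
    · intro h; exact ⟨h.le, ne_of_gt h⟩
  have hx0 : Tendsto x (𝓝[>] t) (𝓝 (x t)) :=
    (hx.continuousWithinAt.mono_left (nhdsWithin_mono _ (fun s (hs : t < s) => le_of_lt hs)))
  -- mean value points
  have hmv : ∀ᶠ s in 𝓝[>] t, ∃ ξ ∈ uIcc (x t) (x s), F s (x s) - F s (x t) = Fx s ξ * (x s - x t) := by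
    filter_upwards [hFx] with s hs
    rcases lt_trichotomy (x t) (x s) with h | h | h
    · obtain ⟨ξ, hξ, hξe⟩ := exists_hasDerivAt_eq_slope (F s) (Fx s) h
        (fun y _ => (hs y).continuousAt.continuousWithinAt) (fun y _ => hs y)
      refine ⟨ξ, ?_, ?_⟩
      · rw [uIcc_of_le h.le]; exact ⟨hξ.1.le, hξ.2.le⟩
      · rw [hξe]; field_simp [sub_ne_zero.2 h.ne']
    · exact ⟨x t, left_mem_uIcc, by rw [h]; ring⟩
    · obtain ⟨ξ, hξ, hξe⟩ := exists_hasDerivAt_eq_slope (F s) (Fx s) h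
        (fun y _ => (hs y).continuousAt.continuousWithinAt) (fun y _ => hs y)
      refine ⟨ξ, ?_, ?_⟩
      · rw [uIcc_of_ge h.le]; exact ⟨hξ.1.le, hξ.2.le⟩
      · rw [hξe]
        have : x t - x s ≠ 0 := sub_ne_zero.2 h.ne'
        field_simp
        ring
  -- choose them
  have hmv' : ∃ ξ : ℝ → ℝ, ∀ᶠ s in 𝓝[>] t, ξ s ∈ uIcc (x t) (x s) ∧
      F s (x s) - F s (x t) = Fx s (ξ s) * (x s - x t) := by
    classical
    refine ⟨fun s => if h : ∃ ξ ∈ uIcc (x t) (x s), F s (x s) - F s (x t) = Fx s ξ * (x s - x t)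
      then Classical.choose h else 0, ?_⟩
    filter_upwards [hmv] with s hs
    rw [dif_pos hs]
    exact ⟨(Classical.choose_spec hs).1, (Classical.choose_spec hs).2⟩
  obtain ⟨ξ, hξ⟩ := hmv'
  have hξlim : Tendsto ξ (𝓝[>] t) (𝓝 (x t)) := by
    rw [tendsto_iff_dist_tendsto_zero]
    have h1 : Tendsto (fun s => dist (x s) (x t)) (𝓝[>] t) (𝓝 0) :=
      tendsto_iff_dist_tendsto_zero.1 hx0
    refine squeeze_zero' (Eventually.of_forall fun s => dist_nonneg) ?_ h1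
    filter_upwards [hξ] with s hs
    have := hs.1
    rw [Real.dist_eq, Real.dist_eq]
    exact abs_sub_left_of_mem_uIcc this
  have h2 : Tendsto (fun s => Fx s (ξ s)) (𝓝[>] t) (𝓝 (Fx t (x t))) :=
    hFxc.comp (tendsto_id.prodMk hξlim)
  rw [hasDerivWithinAt_iff_tendsto_slope, e]
  have h3 : Tendsto (slope x t) (𝓝[>] t) (𝓝 x') := by
    have := hasDerivWithinAt_iff_tendsto_slope.1 hx
    rwa [e] at this
  have h4 : Tendsto (slope (fun s => F s (x t)) t) (𝓝[>] t) (𝓝 Ft) := by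
    have := hasDerivWithinAt_iff_tendsto_slope.1 hFt
    rwa [e] at this
  refine (h4.add (h2.mul h3)).congr' ?_
  filter_upwards [hξ, self_mem_nhdsWithin] with s hs hst
  have hst' : s - t ≠ 0 := sub_ne_zero.2 (ne_of_gt hst)
  rw [slope_def_field, slope_def_field, slope_def_field]
  have h5 : F s (x s) - F t (x t) = (F s (x t) - F t (x t)) + Fx s (ξ s) * (x s - x t) := by
    rw [← hs.2]; ring
  rw [h5]
  field_simp

/-- the inverse function of `V t` -/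
noncomputable def X (V : ℝ → ℝ → ℝ) (t v : ℝ) : ℝ := Function.invFun (V t) v

/-- Backward tip system with strictly positive slope, full range and jointly continuous `P_x`. -/
structure BSysV (t0 t1 : ℝ) (b : ℝ → ℝ) (u V P Px Pxx : ℝ → ℝ → ℝ) (M : ℝ) : Prop
    extends BSys t0 t1 b u V P Px Pxx M where
  P_pos : ∀ t ∈ Ico t0 t1, ∀ x, 0 < P t x
  lim_bot : ∀ t ∈ Ico t0 t1, Tendsto (V t) atBot (𝓝 0)
  lim_top : ∀ t ∈ Ico t0 t1, Tendsto (V t) atTop (𝓝 1)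
  cPx : ContinuousOn (fun p : ℝ × ℝ => Px p.1 p.2) (Ico t0 t1 ×ˢ (univ : Set ℝ))

namespace BSysV

variable {t0 t1 : ℝ} {b : ℝ → ℝ} {u V P Px Pxx : ℝ → ℝ → ℝ} {M : ℝ}

lemma strictMono (h : BSysV t0 t1 b u V P Px Pxx M) {t : ℝ} (ht : t ∈ Ico t0 t1) :
    StrictMono (V t) := by
  apply strictMono_of_deriv_pos
  intro x; rw [(h.hVx t ht x).deriv]; exact h.P_pos t ht x

lemma continuous_V (h : BSysV t0 t1 b u V P Px Pxx M) {t : ℝ} (ht : t ∈ Ico t0 t1) :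
    Continuous (V t) :=
  continuous_iff_continuousAt.2 fun x => (h.hVx t ht x).continuousAt

lemma surj (h : BSysV t0 t1 b u V P Px Pxx M) {t : ℝ} (ht : t ∈ Ico t0 t1) {v : ℝ}
    (hv : v ∈ Ioo (0:ℝ) 1) : ∃ x, V t x = v := by
  have h1 : ∀ᶠ x in atBot, V t x < v := (h.lim_bot t ht).eventually (gt_mem_nhds hv.1)
  have h2 : ∀ᶠ x in atTop, v < V t x := (h.lim_top t ht).eventually (lt_mem_nhds hv.2)
  obtain ⟨a, ha⟩ := h1.exists
  obtain ⟨c, hc⟩ := h2.exists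
  have hac : a ≤ c := by
    by_contra hcon
    push Not at hcon
    exact absurd ((h.strictMono ht).lt_iff_lt.2 hcon) (not_lt.2 (ha.le.trans hc.le))
  obtain ⟨x, _, hx⟩ := intermediate_value_Icc hac (h.continuous_V ht).continuousOn ⟨ha.le, hc.le⟩
  exact ⟨x, hx⟩

lemma V_X (h : BSysV t0 t1 b u V P Px Pxx M) {t : ℝ} (ht : t ∈ Ico t0 t1) {v : ℝ}
    (hv : v ∈ Ioo (0:ℝ) 1) : V t (X V t v) = v :=
  Function.invFun_eq (h.surj ht hv)

lemma X_V (h : BSysV t0 t1 b u V P Px Pxx M) {t : ℝ} (ht : t ∈ Ico t0 t1) (x : ℝ) :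
    X V t (V t x) = x :=
  Function.leftInverse_invFun (h.strictMono ht).injective x

lemma V_mem (h : BSysV t0 t1 b u V P Px Pxx M) {t : ℝ} (ht : t ∈ Ico t0 t1) (x : ℝ) :
    V t x ∈ Ioo (0:ℝ) 1 := ⟨h.V_pos t ⟨ht.1, ht.2.le⟩ x, h.V_lt t ⟨ht.1, ht.2.le⟩ x⟩

lemma image_V (h : BSysV t0 t1 b u V P Px Pxx M) {t : ℝ} (ht : t ∈ Ico t0 t1) :
    V t '' univ = Ioo (0:ℝ) 1 := by
  ext v; constructor
  · rintro ⟨x, -, rfl⟩; exact h.V_mem ht x
  · intro hv; obtain ⟨x, hx⟩ := h.surj ht hv; exact ⟨x, mem_univ _, hx⟩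

/-- joint continuity of the inverse -/
lemma continuousOn_X (h : BSysV t0 t1 b u V P Px Pxx M) :
    ContinuousOn (fun p : ℝ × ℝ => X V p.1 p.2) (Ico t0 t1 ×ˢ Ioo (0:ℝ) 1) := by
  rintro ⟨t, v⟩ ⟨ht, hv⟩
  simp only at ht hv
  rw [ContinuousWithinAt, Metric.tendsto_nhds]
  intro ε hε
  set x0 := X V t v with hx0
  have hVx0 : V t x0 = v := h.V_X ht hv
  have h1 : V t (x0 - ε) < v := by rw [← hVx0]; exact h.strictMono ht (by linarith)
  have h2 : v < V t (x0 + ε) := by rw [← hVx0]; exact h.strictMono ht (by linarith)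
  have hc : ∀ y : ℝ, Tendsto (fun p : ℝ × ℝ => V p.1 y - p.2)
      (𝓝[Ico t0 t1 ×ˢ Ioo (0:ℝ) 1] (t, v)) (𝓝 (V t y - v)) := by
    intro y
    have h3 : ContinuousWithinAt (fun p : ℝ × ℝ => V p.1 p.2) (strip t0 t1) (t, y) :=
      h.cV (t, y) ⟨⟨ht.1, ht.2.le⟩, mem_univ _⟩
    have h4 : Tendsto (fun p : ℝ × ℝ => ((p.1, y) : ℝ × ℝ))
        (𝓝[Ico t0 t1 ×ˢ Ioo (0:ℝ) 1] (t, v)) (𝓝[strip t0 t1] (t, y)) := by
      apply tendsto_nhdsWithin_of_tendsto_nhds_of_eventually_within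
      · have : Continuous (fun p : ℝ × ℝ => ((p.1, y) : ℝ × ℝ)) := by fun_prop
        exact (this.tendsto (t, v)).mono_left nhdsWithin_le_nhds
      · filter_upwards [self_mem_nhdsWithin] with p hp
        exact ⟨⟨hp.1.1, hp.1.2.le⟩, mem_univ _⟩
    have h5 : Tendsto (fun p : ℝ × ℝ => p.2)
        (𝓝[Ico t0 t1 ×ˢ Ioo (0:ℝ) 1] (t, v)) (𝓝 v) :=
      (continuous_snd.tendsto (t, v)).mono_left nhdsWithin_le_nhds
    exact (h3.tendsto.comp h4).sub h5
  have e1 : ∀ᶠ p in 𝓝[Ico t0 t1 ×ˢ Ioo (0:ℝ) 1] (t, v), V p.1 (x0 - ε) - p.2 < 0 :=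
    (hc (x0 - ε)).eventually (gt_mem_nhds (by linarith))
  have e2 : ∀ᶠ p in 𝓝[Ico t0 t1 ×ˢ Ioo (0:ℝ) 1] (t, v), 0 < V p.1 (x0 + ε) - p.2 :=
    (hc (x0 + ε)).eventually (lt_mem_nhds (by linarith))
  filter_upwards [e1, e2, self_mem_nhdsWithin] with p hp1 hp2 hp
  have hVp : V p.1 (X V p.1 p.2) = p.2 := h.V_X hp.1 hp.2
  have h6 : x0 - ε < X V p.1 p.2 := by
    rw [← (h.strictMono hp.1).lt_iff_lt, hVp]; linarith
  have h7 : X V p.1 p.2 < x0 + ε := by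
    rw [← (h.strictMono hp.1).lt_iff_lt, hVp]; linarith
  rw [Real.dist_eq, abs_lt]
  constructor <;> linarith

lemma continuousAt_X (h : BSysV t0 t1 b u V P Px Pxx M) {t : ℝ} (ht : t ∈ Ico t0 t1) {v : ℝ}
    (hv : v ∈ Ioo (0:ℝ) 1) : ContinuousAt (X V t) v := by
  have h1 := h.continuousOn_X (t, v) ⟨ht, hv⟩
  have h2 : Tendsto (fun w : ℝ => ((t, w) : ℝ × ℝ)) (𝓝 v)
      (𝓝[Ico t0 t1 ×ˢ Ioo (0:ℝ) 1] (t, v)) := by
    apply tendsto_nhdsWithin_of_tendsto_nhds_of_eventually_within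
    · have : Continuous (fun w : ℝ => ((t, w) : ℝ × ℝ)) := by fun_prop
      exact this.tendsto v
    · filter_upwards [Ioo_mem_nhds hv.1 hv.2] with w hw
      exact ⟨ht, hw⟩
  exact h1.tendsto.comp h2

/-- `X_v = 1/P` -/
lemma hasDerivAt_X (h : BSysV t0 t1 b u V P Px Pxx M) {t : ℝ} (ht : t ∈ Ico t0 t1) {v : ℝ}
    (hv : v ∈ Ioo (0:ℝ) 1) : HasDerivAt (X V t) (P t (X V t v))⁻¹ v := by
  refine HasDerivAt.of_local_left_inverse (f := V t) (h.continuousAt_X ht hv)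
    (h.hVx t ht (X V t v)) (h.P_pos t ht _).ne' ?_
  filter_upwards [Ioo_mem_nhds hv.1 hv.2] with w hw
  exact h.V_X ht hw

lemma ev_Ico (_h : BSysV t0 t1 b u V P Px Pxx M) {t : ℝ} (ht : t ∈ Ico t0 t1) :
    ∀ᶠ s in 𝓝[>] t, s ∈ Ico t0 t1 := by
  have h1 : ∀ᶠ s in 𝓝[>] t, s < t1 := (eventually_lt_nhds ht.2).filter_mono nhdsWithin_le_nhds
  filter_upwards [h1, self_mem_nhdsWithin] with s hs hst
  exact ⟨ht.1.trans (le_of_lt hst), hs⟩

lemma tendsto_strip {G : ℝ → ℝ → ℝ} (h : BSysV t0 t1 b u V P Px Pxx M)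
    (hG : ContinuousOn (fun p : ℝ × ℝ => G p.1 p.2) (Ico t0 t1 ×ˢ (univ : Set ℝ)))
    {t : ℝ} (ht : t ∈ Ico t0 t1) (x : ℝ) :
    Tendsto (fun p : ℝ × ℝ => G p.1 p.2) (𝓝[>] t ×ˢ 𝓝 x) (𝓝 (G t x)) := by
  have h1 : ContinuousWithinAt (fun p : ℝ × ℝ => G p.1 p.2) (Ico t0 t1 ×ˢ univ) (t, x) :=
    hG (t, x) ⟨ht, mem_univ _⟩
  refine h1.tendsto.mono_left ?_
  rw [nhdsWithin_prod_eq, nhdsWithin_univ]
  refine Filter.prod_mono ?_ le_rfl
  rw [nhdsWithin, nhdsWithin]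
  refine le_inf inf_le_left ?_
  rw [le_principal_iff]
  exact h.ev_Ico ht

/-- `X_t = - V_t / P` -/
lemma hasDerivWithinAt_X (h : BSysV t0 t1 b u V P Px Pxx M) {t : ℝ} (ht : t ∈ Ico t0 t1) {v : ℝ}
    (hv : v ∈ Ioo (0:ℝ) 1) : HasDerivWithinAt (fun s => X V s v)
      (-(-(Px t (X V t v) / 2 + b t * u t (X V t v) * P t (X V t v)) + b t * v * (1 - v)) /
        P t (X V t v)) (Ici t) t := by
  set x0 := X V t v with hx0
  have hVx0 : V t x0 = v := h.V_X ht hv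
  have e : Ici t \ {t} = Ioi t := by
    ext s; simp only [Set.mem_sdiff, mem_Ici, mem_singleton_iff, mem_Ioi]
    constructor
    · rintro ⟨h1, h2⟩; exact lt_of_le_of_ne h1 (Ne.symm h2)
    · intro h; exact ⟨h.le, ne_of_gt h⟩
  have hXc : Tendsto (fun s => X V s v) (𝓝[>] t) (𝓝 x0) := by
    have h1 := h.continuousOn_X (t, v) ⟨ht, hv⟩
    have h2 : Tendsto (fun s : ℝ => ((s, v) : ℝ × ℝ)) (𝓝[>] t)
        (𝓝[Ico t0 t1 ×ˢ Ioo (0:ℝ) 1] (t, v)) := by
      apply tendsto_nhdsWithin_of_tendsto_nhds_of_eventually_within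
      · have : Continuous (fun w : ℝ => ((w, v) : ℝ × ℝ)) := by fun_prop
        exact (this.tendsto t).mono_left nhdsWithin_le_nhds
      · filter_upwards [h.ev_Ico ht] with s hs
        exact ⟨hs, hv⟩
    exact h1.tendsto.comp h2
  -- mean value points
  have hmv : ∀ᶠ s in 𝓝[>] t, ∃ ξ ∈ uIcc x0 (X V s v),
      V s (X V s v) - V s x0 = P s ξ * (X V s v - x0) := by
    filter_upwards [h.ev_Ico ht] with s hs
    rcases lt_trichotomy x0 (X V s v) with h' | h' | h'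
    · obtain ⟨ξ, hξ, hξe⟩ := exists_hasDerivAt_eq_slope (V s) (P s) h'
        (fun y _ => (h.hVx s hs y).continuousAt.continuousWithinAt) (fun y _ => h.hVx s hs y)
      refine ⟨ξ, ?_, ?_⟩
      · rw [uIcc_of_le h'.le]; exact ⟨hξ.1.le, hξ.2.le⟩
      · rw [hξe]; field_simp [sub_ne_zero.2 h'.ne']
    · exact ⟨x0, left_mem_uIcc, by rw [← h']; ring⟩
    · obtain ⟨ξ, hξ, hξe⟩ := exists_hasDerivAt_eq_slope (V s) (P s) h'
        (fun y _ => (h.hVx s hs y).continuousAt.continuousWithinAt) (fun y _ => h.hVx s hs y)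
      refine ⟨ξ, ?_, ?_⟩
      · rw [uIcc_of_ge h'.le]; exact ⟨hξ.1.le, hξ.2.le⟩
      · rw [hξe]
        have : x0 - X V s v ≠ 0 := sub_ne_zero.2 h'.ne'
        field_simp
        ring
  have hmv' : ∃ ξ : ℝ → ℝ, ∀ᶠ s in 𝓝[>] t, ξ s ∈ uIcc x0 (X V s v) ∧
      V s (X V s v) - V s x0 = P s (ξ s) * (X V s v - x0) := by
    classical
    refine ⟨fun s => if h : ∃ ξ ∈ uIcc x0 (X V s v),
      V s (X V s v) - V s x0 = P s ξ * (X V s v - x0) then Classical.choose h else 0, ?_⟩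
    filter_upwards [hmv] with s hs
    rw [dif_pos hs]
    exact ⟨(Classical.choose_spec hs).1, (Classical.choose_spec hs).2⟩
  obtain ⟨ξ, hξ⟩ := hmv'
  have hξlim : Tendsto ξ (𝓝[>] t) (𝓝 x0) := by
    rw [tendsto_iff_dist_tendsto_zero]
    have h1 : Tendsto (fun s => dist (X V s v) x0) (𝓝[>] t) (𝓝 0) :=
      tendsto_iff_dist_tendsto_zero.1 hXc
    refine squeeze_zero' (Eventually.of_forall fun s => dist_nonneg) ?_ h1
    filter_upwards [hξ] with s hs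
    have := hs.1
    rw [Real.dist_eq, Real.dist_eq]
    exact abs_sub_left_of_mem_uIcc this
  have hPc : ContinuousOn (fun p : ℝ × ℝ => P p.1 p.2) (Ico t0 t1 ×ˢ (univ : Set ℝ)) :=
    h.cP.mono (prod_mono Ico_subset_Icc_self le_rfl)
  have h2 : Tendsto (fun s => P s (ξ s)) (𝓝[>] t) (𝓝 (P t x0)) :=
    (h.tendsto_strip hPc ht x0).comp (tendsto_id.prodMk hξlim)
  have hPpos : 0 < P t x0 := h.P_pos t ht x0
  have hVt := h.hVt t ht x0
  have h4 : Tendsto (slope (fun s => V s x0) t) (𝓝[>] t)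
      (𝓝 (-(Px t x0 / 2 + b t * u t x0 * P t x0) + b t * V t x0 * (1 - V t x0))) := by
    have := hasDerivWithinAt_iff_tendsto_slope.1 hVt
    rwa [e] at this
  rw [hasDerivWithinAt_iff_tendsto_slope, e]
  rw [hVx0] at h4
  refine ((h4.neg).div h2 hPpos.ne').congr' ?_
  filter_upwards [hξ, self_mem_nhdsWithin, h.ev_Ico ht] with s hs hst hsI
  have hst' : s - t ≠ 0 := sub_ne_zero.2 (ne_of_gt hst)
  have hPs : P s (ξ s) ≠ 0 := (h.P_pos s hsI _).ne'
  rw [slope_def_field]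
  change -slope (fun s => V s x0) t s / P s (ξ s) = _
  rw [slope_def_field]
  have h5 : V s (X V s v) = v := h.V_X hsI hv
  have h6 := hs.2
  rw [h5] at h6
  rw [hVx0, ← hx0]
  field_simp
  linarith

/-- the slope as a function of the level -/
noncomputable def I (V P : ℝ → ℝ → ℝ) (t v : ℝ) : ℝ := P t (X V t v)

noncomputable def Iv (V P Px : ℝ → ℝ → ℝ) (t v : ℝ) : ℝ := Px t (X V t v) / P t (X V t v)

noncomputable def Ivv (V P Px Pxx : ℝ → ℝ → ℝ) (t v : ℝ) : ℝ :=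
  (Pxx t (X V t v) * P t (X V t v) - Px t (X V t v) ^ 2) / P t (X V t v) ^ 3

lemma I_pos (h : BSysV t0 t1 b u V P Px Pxx M) {t : ℝ} (ht : t ∈ Ico t0 t1) (v : ℝ) :
    0 < I V P t v := h.P_pos t ht _

lemma hasDerivAt_I (h : BSysV t0 t1 b u V P Px Pxx M) {t : ℝ} (ht : t ∈ Ico t0 t1) {v : ℝ}
    (hv : v ∈ Ioo (0:ℝ) 1) : HasDerivAt (I V P t) (Iv V P Px t v) v := by
  have h1 := (h.hPx t ht (X V t v)).comp v (h.hasDerivAt_X ht hv)
  exact h1

lemma hasDerivAt_Iv (h : BSysV t0 t1 b u V P Px Pxx M) {t : ℝ} (ht : t ∈ Ico t0 t1) {v : ℝ}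
    (hv : v ∈ Ioo (0:ℝ) 1) : HasDerivAt (Iv V P Px t) (Ivv V P Px Pxx t v) v := by
  have hP : P t (X V t v) ≠ 0 := (h.P_pos t ht _).ne'
  have h1 : HasDerivAt (fun w => Px t (X V t w)) (Pxx t (X V t v) * (P t (X V t v))⁻¹) v :=
    (h.hPxx t ht (X V t v)).comp v (h.hasDerivAt_X ht hv)
  have h2 : HasDerivAt (fun w => P t (X V t w)) (Px t (X V t v) * (P t (X V t v))⁻¹) v :=
    (h.hPx t ht (X V t v)).comp v (h.hasDerivAt_X ht hv)
  have h3 := h1.div h2 hP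
  have h4 : (Pxx t (X V t v) * (P t (X V t v))⁻¹ * P t (X V t v) -
      Px t (X V t v) * (Px t (X V t v) * (P t (X V t v))⁻¹)) / P t (X V t v) ^ 2 =
      Ivv V P Px Pxx t v := by
    unfold Ivv; field_simp
  rw [← h4]
  exact h3

/-- the v-space equation -/
lemma hasDerivWithinAt_I (h : BSysV t0 t1 b u V P Px Pxx M) {t : ℝ} (ht : t ∈ Ico t0 t1) {v : ℝ}
    (hv : v ∈ Ioo (0:ℝ) 1) : HasDerivWithinAt (fun s => I V P s v)
      (-(I V P t v ^ 2 * Ivv V P Px Pxx t v) / 2 - b t * (v * (1 - v)) * Iv V P Px t v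
        + b t * (2 - 3 * v) * I V P t v) (Ici t) t := by
  have hP : P t (X V t v) ≠ 0 := (h.P_pos t ht _).ne'
  have h1 := hasDerivWithinAt_path (F := P) (Fx := Px) (x := fun s => X V s v) (t := t)
    (h.hPt t ht (X V t v))
    (by filter_upwards [h.ev_Ico ht] with s hs y using h.hPx s hs y)
    (h.tendsto_strip h.cPx ht (X V t v)) (h.hasDerivWithinAt_X ht hv)
  have hV : V t (X V t v) = v := h.V_X ht hv
  refine h1.congr_deriv ?_
  simp only [hV]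
  unfold I Iv Ivv
  field_simp
  ring

/-- change of variables -/
lemma integral_comp_V (h : BSysV t0 t1 b u V P Px Pxx M) {t : ℝ} (ht : t ∈ Ico t0 t1)
    (f : ℝ → ℝ) : ∫ x, f (V t x) * P t x = ∫ v in Ioo (0:ℝ) 1, f v := by
  have h1 := MeasureTheory.integral_image_eq_integral_abs_deriv_smul (s := univ) (f := V t)
    (f' := P t) MeasurableSet.univ (fun x _ => (h.hVx t ht x).hasDerivWithinAt)
    (h.strictMono ht).injective.injOn f
  rw [h.image_V ht] at h1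
  rw [h1, MeasureTheory.setIntegral_univ]
  apply MeasureTheory.integral_congr_ae
  refine Eventually.of_forall fun x => ?_
  simp only [smul_eq_mul]
  rw [abs_of_pos (h.P_pos t ht x), mul_comm]

lemma integrable_comp_V (h : BSysV t0 t1 b u V P Px Pxx M) {t : ℝ} (ht : t ∈ Ico t0 t1)
    (f : ℝ → ℝ) : MeasureTheory.Integrable (fun x => f (V t x) * P t x) ↔
      MeasureTheory.IntegrableOn f (Ioo (0:ℝ) 1) := by
  have h1 := MeasureTheory.integrableOn_image_iff_integrableOn_abs_deriv_smul (s := univ) (f := V t)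
    (f' := P t) MeasurableSet.univ (fun x _ => (h.hVx t ht x).hasDerivWithinAt)
    (h.strictMono ht).injective.injOn f
  rw [h.image_V ht] at h1
  rw [h1, MeasureTheory.integrableOn_univ]
  apply MeasureTheory.integrable_congr
  refine Eventually.of_forall fun x => ?_
  simp only [smul_eq_mul]
  rw [abs_of_pos (h.P_pos t ht x), mul_comm]

end BSysV

end Crest.Agent.R146.VSpace_371
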