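import Crest.Agent.R146.Band_371
import Crest.Agent.R146.PtRef_846

/-!
Row 146 (helper371): adapter `PtRef_846.WS` → the two-sided slope band of the step system.

`ws_band` : under the slope part of `WS lo hi tlo thi e0 κ M D` (and a lower bound of `K₋ K₋''`) there are constants
`C ≥ 0`, `κ' > 0`, depending only on the data, with
`(1 - (K0 tb/K0 t)^κ') s K₋(V) ≤ V_x ≤ (1 + C (K0 tb/K0 t)^κ) s K₊(V)` on `[ta, tb]`
as soon as `0 ≤ Y ≤ hi + e0` on `[tb, T)` and `lo - e0 ≤ Y ≤ hi + e0` on `[ta, tb)`.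
-/

set_option autoImplicit false

open Set Filter Topology

namespace Crest.Agent.R146.WSBand_371

open MaxP_371 MaxP2_371 MaxPCmp_371 SlopeT_371 SlopeV_371 Band_371 StepDef_791 PtRef_846
open StepStart_483 (ph Phi)

/-- a positive function with negative one-sided second derivatives: `v K' ≤ K` -/
theorem mul_deriv_le {K K1 K2 : ℝ → ℝ} (hpos : ∀ v ∈ Ioo (0:ℝ) 1, 0 < K v)
    (h1 : ∀ v ∈ Ioo (0:ℝ) 1, HasDerivAt K (K1 v) v)
    (h2 : ∀ v ∈ Ioo (0:ℝ) 1, HasSide K1 (K2 v) v) (h3 : ∀ v ∈ Ioo (0:ℝ) 1, K2 v < 0)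
    {v : ℝ} (hv : v ∈ Ioo (0:ℝ) 1) : v * K1 v ≤ K v := by
  -- tangent inequality
  have key : ∀ ε ∈ Ioo 0 v, K1 v * (v - ε) ≤ K v - K ε := by
    intro ε hε
    by_contra hcon
    push Not at hcon
    set d : ℝ := K1 v * (v - ε) - (K v - K ε) with hd
    have hdpos : 0 < d := by rw [hd]; linarith
    have hve : 0 < v - ε := by linarith [hε.2]
    set η : ℝ := d / (2 * (v - ε)) with hη
    have hηpos : 0 < η := by positivity
    have hηe : η * (v - ε) = d / 2 := by rw [hη]; field_simp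
    set h : ℝ → ℝ := fun y => K y - (K1 v - η) * y with hh
    have hsub : Icc ε v ⊆ Ioo 0 1 := fun y hy => ⟨hε.1.trans_le hy.1, hy.2.trans_lt hv.2⟩
    have hder : ∀ y ∈ Ioo (0:ℝ) 1, HasDerivAt h (K1 y - (K1 v - η)) y := by
      intro y hy
      have := (h1 y hy).sub ((hasDerivAt_id y).const_mul (K1 v - η))
      refine this.congr_deriv ?_
      ring
    have hcont : ContinuousOn h (Icc ε v) := fun y hy =>
      (hder y (hsub hy)).continuousAt.continuousWithinAt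
    obtain ⟨y0, hy0, hmin⟩ := isCompact_Icc.exists_isMinOn ⟨ε, left_mem_Icc.2 hε.2.le⟩ hcont
    have hne1 : y0 ≠ ε := by
      intro he
      have h4 : h y0 ≤ h v := hmin (right_mem_Icc.2 hε.2.le)
      rw [he] at h4
      simp only [hh] at h4
      nlinarith
    have hne2 : y0 ≠ v := by
      intro he
      have h5 : HasDerivWithinAt (fun y => -h y) (-(K1 v - (K1 v - η))) (Iic v) v :=
        ((hder v hv).neg).hasDerivWithinAt
      have h6 := deriv_left_nonneg h5 (by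
        filter_upwards [Ioo_mem_nhdsLT hε.2] with s hs
        have : h y0 ≤ h s := hmin ⟨hs.1.le, hs.2.le⟩
        rw [he] at this
        linarith)
      linarith
    have hy0' : y0 ∈ Ioo ε v := ⟨lt_of_le_of_ne hy0.1 (Ne.symm hne1), lt_of_le_of_ne hy0.2 hne2⟩
    have hy01 : y0 ∈ Ioo (0:ℝ) 1 := hsub hy0
    have hmax : IsLocalMax (fun y => -h y) y0 := by
      filter_upwards [isOpen_Ioo.mem_nhds hy0'] with y hy
      have : h y0 ≤ h y := hmin ⟨hy.1.le, hy.2.le⟩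
      linarith
    have hside : HasSide (fun y => -(K1 y - (K1 v - η))) (-(K2 y0)) y0 := by
      rcases h2 y0 hy01 with h7 | h7
      · exact Or.inl ((h7.sub_const _).neg)
      · exact Or.inr ((h7.sub_const _).neg)
    have h8 := hside.nonpos (f := fun y => -h y) (by
      filter_upwards [isOpen_Ioo.mem_nhds hy01] with y hy
      exact (hder y hy).neg) hmax
    have := h3 y0 hy01
    linarith [h8.2]
  by_contra hcon
  push Not at hcon
  have hK := hpos v hv
  have hK1 : 0 < K1 v := by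
    by_contra h; push Not at h
    have := mul_nonpos_of_nonneg_of_nonpos hv.1.le h
    linarith
  set ε : ℝ := min (v / 2) ((v * K1 v - K v) / K1 v) with hε
  have he1 : ε ≤ v / 2 := min_le_left _ _
  have he2 : ε ≤ (v * K1 v - K v) / K1 v := min_le_right _ _
  have he0 : 0 < ε := lt_min (by linarith [hv.1]) (div_pos (by linarith) hK1)
  have h4 := key ε ⟨he0, by linarith [hv.1]⟩
  have h5 := hpos ε ⟨he0, by linarith [hv.1, hv.2]⟩
  have h6 : ε * K1 v ≤ v * K1 v - K v := (le_div_iff₀ hK1).1 he2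
  nlinarith

/-- **the two-sided slope band of a window step.** -/
theorem ws_band {lo hi tlo thi e0 κ M : ℝ} {D : WData} (hW : WS lo hi tlo thi e0 κ M D)
    (hge : ∃ M', ∀ v ∈ Ioo (0:ℝ) 1, -M' ≤ D.Km v * D.Km2 v) :
    ∃ C κ' : ℝ, 0 ≤ C ∧ 0 < κ' ∧ ∀ A : SD, Back A → Clock A →
      ∀ ta tb : ℝ, 0 ≤ ta → tb ≤ A.T →
      (∀ t ∈ Ico tb A.T, A.b t * A.chi t ≤ hi + e0) →
      (∀ t ∈ Ico ta tb, lo - e0 ≤ A.b t * A.chi t ∧ A.b t * A.chi t ≤ hi + e0) →
      ∀ t ∈ Icc ta tb, ∀ x,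
        (1 - tr A.K0 tb 1 κ' t) * sf A.chi t * D.Km (A.V t x) ≤ A.P t x ∧
        A.P t x ≤ (1 + tr A.K0 tb C κ t) * sf A.chi t * D.Kp (A.V t x) := by
  obtain ⟨M', hM'⟩ := hge
  have he0 := hW.e0_pos
  have hlh := hW.lo_le
  have hlo0 := hW.lo_nonneg
  have hκ := hW.κ_pos
  have hMpos := hW.M_pos
  set lo' : ℝ := max 0 (lo - e0) with hlo'
  have hl1 : 0 ≤ lo' := le_max_left _ _
  have hl2 : lo - e0 ≤ lo' := le_max_right _ _
  have hl3 : lo' ≤ hi + e0 := max_le (by linarith) (by linarith)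
  have hh0 : 0 ≤ hi + e0 := by linarith
  have hS : UpBand 1 κ lo' (hi + e0) D.Kp D.Kp1 D.Kp2 := by
    refine ⟨fun v hv => (hW.dKp v hv).continuousAt.continuousWithinAt, hW.Kp_pos,
      fun v hv => TouchAbove.of_Ioo hW.dKp hW.dKp1 hv, hκ.le, hW.KKp, ?_, ?_⟩
    · intro v hv; exact hW.stat_p v hv lo' hl1 hl2 hl3
    · intro v hv; exact hW.stat_p v hv (hi + e0) hh0 (by linarith) le_rfl
  have hS' : LowBand 1 lo' (hi + e0) D.Km D.Km1 D.Km2 := by
    refine ⟨fun v hv => (hW.dKm v hv).continuousAt.continuousWithinAt, hW.Km_pos,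
      ⟨M, fun v hv => (hW.Km_le v hv).trans (hW.Kp_le v hv)⟩,
      fun v hv => TouchBelow.of_Ioo hW.dKm hW.dKm1 hv, ⟨M, hW.KKm_le⟩, ?_, ?_⟩
    · intro v hv; exact hW.stat_m v hv lo' hl1 hl2 hl3
    · intro v hv; exact hW.stat_m v hv (hi + e0) hh0 (by linarith) le_rfl
  have hT : LowTr 1 κ lo' (hi + e0) D.Km D.Km1 D.Km2 := by
    refine ⟨fun v hv => ?_, fun v hv => ?_, fun v hv => ?_, fun v hv => ?_⟩
    · have := hW.lin_m v hv lo' hl1 hl3; unfold LinR at this; unfold Lin; linarith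
    · have := hW.lin_m v hv (hi + e0) hh0 le_rfl; unfold LinR at this; unfold Lin; linarith
    · have := hW.lin_m2 v hv lo' hl1 hl3; unfold LinR at this; unfold Lin; linarith
    · have := hW.lin_m2 v hv (hi + e0) hh0 le_rfl; unfold LinR at this; unfold Lin; linarith
  have hK2 : ∀ v ∈ Ioo (0:ℝ) 1, D.Kp2 v < 0 := by
    intro v hv
    have h1 := hW.KKp v hv
    have h2 := hW.Kp_pos v hv
    by_contra h; push Not at h
    have := mul_nonneg h2.le h
    linarith
  obtain ⟨C, hC0, hCC⟩ := ref_up (lo0 := 0) (hi0 := hi + e0) (B := 1 / 2 + 3 / 2 * (hi + e0))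
    (c2 := M) hS hκ
    (by
      intro v hv
      have h1 := hW.Kp_pos v hv
      unfold Lin
      have h2 : 0 ≤ 3 / 2 * (hi + e0) * D.Kp v := by positivity
      nlinarith)
    (by
      intro v hv
      have h1 := hW.Kp_pos v hv
      have h2 := mul_deriv_le hW.Kp_pos hW.dKp hW.dKp1 hK2 hv
      unfold Lin
      set n := hi + e0 with hn
      have h3 : v * (1 - v) * D.Kp1 v ≤ (1 - v) * D.Kp v := by
        have := mul_le_mul_of_nonneg_left h2 (show (0:ℝ) ≤ 1 - v by linarith [hv.2])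
        linarith
      have h4 : n * (v * (1 - v) * D.Kp1 v - (2 - 3 * v) * D.Kp v) ≤
          n * ((1 - v) * D.Kp v - (2 - 3 * v) * D.Kp v) :=
        mul_le_mul_of_nonneg_left (by linarith) hh0
      have h5 : n * ((1 - v) * D.Kp v - (2 - 3 * v) * D.Kp v) = n * ((2 * v - 1) * D.Kp v) := by ring
      have h6 : n * ((2 * v - 1) * D.Kp v) ≤ n * (1 * D.Kp v) :=
        mul_le_mul_of_nonneg_left
          (mul_le_mul_of_nonneg_right (by linarith [hv.2]) h1.le) hh0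
      nlinarith)
    hW.gau_p
  obtain ⟨κ', hκ', hCC'⟩ := ref_low (lo0 := 0) (hi0 := hi + e0) (m1 := κ) (κ3 := M')
    (c1 := M⁻¹) hS' hT hκ hκ
    (fun v hv => by
      have := hW.lin_m v hv 0 le_rfl hh0; unfold LinR at this; unfold Lin; linarith)
    (fun v hv => by
      have := hW.lin_m v hv (hi + e0) hh0 le_rfl; unfold LinR at this; unfold Lin; linarith)
    hM' (inv_pos.2 hMpos)
    (fun z => by
      have := hW.gau_m z
      rw [inv_mul_eq_div, div_le_iff₀ hMpos, mul_comm]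
      exact this)
  refine ⟨C, κ', hC0, hκ', ?_⟩
  intro A hB hCl ta tb hta htb hYb hYa t ht x
  have hk := clk1 hCl
  have hb : ∀ s ∈ Icc 0 A.T, 0 ≤ A.b s * A.chi s := fun s hs =>
    mul_nonneg (A.b_nonneg s) (hk.pos s hs).le
  have htab : ta ≤ tb := ht.1.trans ht.2
  have hYb' : ∀ t ∈ Ico tb A.T, A.b t * A.chi t ∈ Icc 0 (hi + e0) := fun s hs =>
    ⟨hb s ⟨(hta.trans htab).trans hs.1, hs.2.le⟩, hYb s hs⟩
  have hYa' : ∀ t ∈ Ico ta tb, A.b t * A.chi t ∈ Icc lo' (hi + e0) := fun s hs =>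
    ⟨max_le (hb s ⟨hta.trans hs.1, hs.2.le.trans htb⟩) (hYa s hs).1, (hYa s hs).2⟩
  exact ⟨hCC' A A.chi A.K0 hB hk ta tb hta htb hYb' hYa' t ht x,
    hCC A A.chi A.K0 hB hk ta tb hta htb hYb' hYa' t ht x⟩

end Crest.Agent.R146.WSBand_371
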