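import Crest.Agent.R146.WinDef_937
import Crest.Agent.R146.StepStart_483

/-!
# Row 146, helper937: an upper certificate dominates the Gaussian profile

`gauss_le` : if `0 ∈ [lo, hi]` then `φ(z) ≤ K(Φ(z))` for every `UpCert ω lo hi up`.
Proof: the ratio `r = φ/K(Φ)` is continuous, positive and tends to `0` at both ends; at its maximum
the second derivative test for `φ - r₀ K(Φ)` gives `-K K'' r₀² ≤ 1`, while `-K K'' > 1` by `stat` at `y = 0`.
-/

set_option autoImplicit false

open Set Filter Topology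

namespace Crest.Agent.R146.WinGauss_937

open WinDef_937 MaxP2_371 SlopeT_371 StepStart_483 ProbabilityTheory

theorem abs_mul_ph_le {z : ℝ} (hz : z ≠ 0) : |z * ph z| ≤ 2 / |z| := by
  have hz2 : 0 < z ^ 2 := by positivity
  have h1 : Real.exp (-z ^ 2 / 2) ≤ 2 / z ^ 2 := by
    have h2 : z ^ 2 / 2 ≤ Real.exp (z ^ 2 / 2) := by
      have := Real.add_one_le_exp (z ^ 2 / 2)
      linarith
    have h3 : -z ^ 2 / 2 = -(z ^ 2 / 2) := by ring
    rw [h3, Real.exp_neg]
    calc (Real.exp (z ^ 2 / 2))⁻¹ ≤ (z ^ 2 / 2)⁻¹ := inv_anti₀ (by positivity) h2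
      _ = 2 / z ^ 2 := by rw [inv_div]
  have h4 : ph z ≤ 2 / z ^ 2 := by
    rw [ph_eq]
    have h5 : (√(2 * Real.pi))⁻¹ ≤ 1 := by
      apply inv_le_one_of_one_le₀
      rw [Real.one_le_sqrt]
      have := Real.pi_gt_three
      linarith
    have h6 : 0 ≤ (√(2 * Real.pi))⁻¹ := by positivity
    calc (√(2 * Real.pi))⁻¹ * Real.exp (-z ^ 2 / 2) ≤ 1 * Real.exp (-z ^ 2 / 2) :=
          mul_le_mul_of_nonneg_right h5 (Real.exp_pos _).le
      _ ≤ 2 / z ^ 2 := by rw [one_mul]; exact h1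
  rw [abs_mul, abs_of_pos (ph_pos z)]
  have h7 : |z| * (2 / z ^ 2) = 2 / |z| := by
    rw [← sq_abs z]
    have : |z| ≠ 0 := abs_ne_zero.2 hz
    field_simp
  rw [← h7]
  exact mul_le_mul_of_nonneg_left h4 (abs_nonneg z)

theorem tendsto_mul_ph_atBot : Tendsto (fun z => -2 * (z * ph z)) atBot (𝓝 0) := by
  have h1 : Tendsto (fun z : ℝ => 2 * (2 / |z|)) atBot (𝓝 0) := by
    have h2 : Tendsto (fun z : ℝ => |z|) atBot atTop := tendsto_abs_atBot_atTop
    have h3 := (h2.const_div_atTop 2).const_mul 2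
    simpa using h3
  refine squeeze_zero_norm' ?_ h1
  filter_upwards [eventually_lt_atBot 0] with z hz
  rw [Real.norm_eq_abs, abs_mul]
  have := abs_mul_ph_le hz.ne
  have h5 : |(-2 : ℝ)| = 2 := by norm_num
  rw [h5]
  linarith

theorem tendsto_sq_div : Tendsto (fun z => ph z ^ 2 / Phi z) atBot (𝓝 0) := by
  have hd : ∀ z, HasDerivAt (fun z => ph z ^ 2) (2 * ph z * (-z * ph z)) z := by
    intro z
    exact ((ph_deriv z).pow 2).congr_deriv (by push_cast; ring)
  refine HasDerivAt.lhopital_zero_atBot (f' := fun z => 2 * ph z * (-z * ph z)) (g' := ph)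
    (Eventually.of_forall hd) (Eventually.of_forall Phi_deriv)
    (Eventually.of_forall fun z => (ph_pos z).ne') ?_ Phi_tendsto_atBot ?_
  · have := ph_tendsto_atBot.pow 2
    simpa using this
  · refine tendsto_mul_ph_atBot.congr fun z => ?_
    have := (ph_pos z).ne'
    field_simp

theorem ph_tendsto_atTop : Tendsto ph atTop (𝓝 0) := by
  have h := ph_tendsto_atBot.comp tendsto_neg_atTop_atBot
  refine h.congr fun z => ?_
  exact ph_neg z

variable {ω lo hi up : ℝ}

/-- **The Gaussian profile lies below every upper barrier with `0 ∈ [lo, hi]`.** -/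
theorem gauss_le (C : UpCert ω lo hi up) (h0 : (0:ℝ) ∈ Icc lo hi) (z : ℝ) :
    ph z ≤ C.K (Phi z) := by
  have hI : ∀ z, Phi z ∈ Ioo (0:ℝ) 1 := fun z => ⟨Phi_pos z, Phi_lt_one z⟩
  have hKp : ∀ z, 0 < C.K (Phi z) := fun z => C.K_pos _ (hI z)
  have hKd : ∀ z, HasDerivAt (fun z => C.K (Phi z)) (C.K1 (Phi z) * ph z) z := fun z =>
    (C.dK _ (hI z)).comp z (Phi_deriv z)
  have hKc : Continuous fun z => C.K (Phi z) :=
    continuous_iff_continuousAt.2 fun z => (hKd z).continuousAt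
  set r : ℝ → ℝ := fun z => ph z / C.K (Phi z) with hr
  have hrc : Continuous r := ph_cont.div hKc fun z => (hKp z).ne'
  have hrp : ∀ z, 0 < r z := fun z => div_pos (ph_pos z) (hKp z)
  -- limits of the ratio
  have hbot : Tendsto r atBot (𝓝 0) := by
    have h1 : Tendsto (fun z => √(ph z ^ 2 / Phi z) / C.κ) atBot (𝓝 0) := by
      have h2 := (Real.continuous_sqrt.tendsto 0).comp tendsto_sq_div
      rw [Real.sqrt_zero] at h2
      have h3 := h2.div_const C.κ
      rw [zero_div] at h3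
      exact h3
    refine squeeze_zero (fun z => (hrp z).le) (fun z => ?_) h1
    have h4 := C.K_ge (Phi z) ⟨(hI z).1.le, (hI z).2.le⟩
    have h5 : 0 < √(Phi z) := Real.sqrt_pos.2 (hI z).1
    have h6 : √(ph z ^ 2 / Phi z) = ph z / √(Phi z) := by
      rw [Real.sqrt_div (sq_nonneg _), Real.sqrt_sq (ph_pos z).le]
    rw [h6, div_div, hr]
    have h7 : 0 < √(Phi z) * C.κ := mul_pos h5 C.κ_pos
    exact div_le_div_of_nonneg_left (ph_pos z).le h7 (by linarith)
  have htop : Tendsto r atTop (𝓝 0) := by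
    have h1 : Tendsto (fun z => ph z / (C.κ * √(1/2))) atTop (𝓝 0) := by
      have := ph_tendsto_atTop.div_const (C.κ * √(1/2))
      rw [zero_div] at this
      exact this
    refine squeeze_zero' (Eventually.of_forall fun z => (hrp z).le) ?_ h1
    filter_upwards [eventually_ge_atTop 0] with z hz
    have h2 : (1:ℝ)/2 ≤ Phi z := by
      have h3 := Phi_neg 0
      rw [neg_zero] at h3
      have h4 : Phi 0 = 1 / 2 := by linarith
      rw [← h4]
      exact Phi_strictMono.monotone hz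
    have h4 := C.K_ge (Phi z) ⟨(hI z).1.le, (hI z).2.le⟩
    have h5 : √(1/2) ≤ √(Phi z) := Real.sqrt_le_sqrt h2
    have h6 : 0 < √((1:ℝ)/2) := Real.sqrt_pos.2 (by norm_num)
    refine div_le_div_of_nonneg_left (ph_pos z).le (mul_pos C.κ_pos h6) ?_
    exact (mul_le_mul_of_nonneg_left h5 C.κ_pos.le).trans h4
  -- maximum
  have hco : Tendsto r (cocompact ℝ) (𝓝 0) := by
    rw [cocompact_eq_atBot_atTop]
    exact hbot.sup htop
  obtain ⟨z0, hz0⟩ : ∃ z0, ∀ y, r y ≤ r z0 := by
    refine hrc.exists_forall_ge' (x₀ := 0) ?_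
    exact (hco.eventually_lt_const (hrp 0)).mono fun y hy => hy.le
  -- second derivative test
  set ρ := r z0 with hρ
  have hρ0 : 0 < ρ := hrp z0
  have hP0 : ph z0 = ρ * C.K (Phi z0) := by
    rw [hρ, hr]
    have := (hKp z0).ne'
    field_simp
  set w : ℝ → ℝ := fun z => ph z - ρ * C.K (Phi z) with hw
  set w1 : ℝ → ℝ := fun z => -z * ph z - ρ * (C.K1 (Phi z) * ph z) with hw1
  have hwd : ∀ z, HasDerivAt w (w1 z) z := fun z => (ph_deriv z).sub ((hKd z).const_mul ρ)
  have hmono : MapsTo Phi (Iic z0) (Iic (Phi z0)) := fun y hy => Phi_strictMono.monotone hy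
  have hside : HasDerivWithinAt w1
      ((-1 * ph z0 + -z0 * (-z0 * ph z0)) -
        ρ * (C.K2 (Phi z0) * ph z0 * ph z0 + C.K1 (Phi z0) * (-z0 * ph z0))) (Iic z0) z0 := by
    have a1 : HasDerivWithinAt (fun z => -z * ph z) (-1 * ph z0 + -z0 * (-z0 * ph z0)) (Iic z0) z0 :=
      ((hasDerivAt_id z0).neg.mul (ph_deriv z0)).hasDerivWithinAt
    have a2 : HasDerivWithinAt (fun z => C.K1 (Phi z)) (C.K2 (Phi z0) * ph z0) (Iic z0) z0 :=
      (C.dK1 _ (hI z0)).comp z0 (Phi_deriv z0).hasDerivWithinAt hmono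
    exact a1.sub ((a2.mul (ph_deriv z0).hasDerivWithinAt).const_mul ρ)
  have hloc : IsLocalMax w z0 := by
    refine Eventually.of_forall fun y => ?_
    have h1 : w z0 = 0 := by rw [hw]; simp only; rw [hP0]; ring
    have h2 : w y ≤ 0 := by
      have h3 := hz0 y
      rw [hr] at h3
      simp only at h3
      rw [div_le_iff₀ (hKp y)] at h3
      rw [hw]; simp only; linarith
    show w y ≤ w z0
    rw [h1]; exact h2
  obtain ⟨t1, t2⟩ := (HasSide.nonpos (Or.inr hside) (Eventually.of_forall hwd) hloc)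
  -- conclusion
  have hst := C.stat 0 h0 _ (hI z0)
  unfold Stat at hst
  set K := C.K (Phi z0) with hK
  set K1 := C.K1 (Phi z0) with hK1
  set K2 := C.K2 (Phi z0) with hK2
  have hK0 : 0 < K := hKp z0
  have h5 : ρ * K1 = -z0 := by
    have h6 : (-z0 - ρ * K1) * ph z0 = 0 := by
      have : w1 z0 = 0 := t1
      rw [hw1] at this
      simp only at this
      linarith
    have := (mul_eq_zero.1 h6).resolve_right (ph_pos z0).ne'
    linarith
  have h6 : (-1 - ρ * K2 * ph z0) * ph z0 ≤ 0 := by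
    have e : (-1 * ph z0 + -z0 * (-z0 * ph z0)) - ρ * (K2 * ph z0 * ph z0 + K1 * (-z0 * ph z0)) =
        (-1 - ρ * K2 * ph z0 + (z0 ^ 2 + (ρ * K1) * z0)) * ph z0 := by ring
    rw [e, h5] at t2
    have e2 : (z0 ^ 2 + -z0 * z0) = 0 := by ring
    rw [e2, add_zero] at t2
    exact t2
  have h7 : -1 - ρ * K2 * ph z0 ≤ 0 := by
    by_contra hcon
    push Not at hcon
    have := mul_pos hcon (ph_pos z0)
    linarith
  rw [hP0] at h7
  have h8 : 1 < -(K * K2) := by
    have h9 : K * (1 + K * K2) < 0 := by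
      have := C.κ_pos
      nlinarith
    by_contra hcon
    push Not at hcon
    have : 0 ≤ K * (1 + K * K2) := mul_nonneg hK0.le (by linarith)
    linarith
  have h10 : ρ < 1 := by
    by_contra hcon
    push Not at hcon
    have h11 : 1 ≤ ρ ^ 2 := by nlinarith
    have h12 : ρ ^ 2 * (-(K * K2)) ≤ 1 := by nlinarith
    nlinarith
  have h13 := hz0 z
  have h14 : r z < 1 := lt_of_le_of_lt h13 h10
  rw [hr] at h14
  simp only at h14
  rw [div_lt_one (hKp z)] at h14
  exact h14.le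

end Crest.Agent.R146.WinGauss_937
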