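import Crest.Agent.R146.WinTail_746
import Crest.Agent.R146.FixA_423

/-!
Row 146, PT-CMP (helper746): law lower bound uniformly in the sequence, `√χ Y ≥ -λ (1 + ξ₋)` for
`t → 1`, both clocks, from the forgetting barrier `LOW` (helper384) and the field `Ys`.
-/

set_option autoImplicit false

namespace Crest.Agent.R146.WinLaw_746

open Set MeasureTheory Filter Topology ProbabilityTheory
open Crest.Agent.R146.TipSeq_791 Crest.Agent.R146.StepDef_791 Crest.Agent.R146.StepApx_856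
open Crest.Agent.R146.WinLim_746 Crest.Agent.R146.WinTail_746
open Crest.Agent.R146.Pos_371 (sg sg_pos)
open Crest.Agent.R146.PtScalA_45 (Prof)

noncomputable section

/-- the forgetting barrier of helper384 -/
def LOW : Prop := ∀ (A : SD) (x0 : ℝ) (p Y Yx Yxx : ℝ → ℝ → ℝ), Back A → Clock A →
  Law A x0 p Y Yx Yxx → (∀ t ∈ Ico 0 A.T, (1 - t) * A.b t ≤ 1) →
  ∀ t0 ∈ Ioo 0 A.T, (∀ t ∈ Icc t0 A.T, 21 * Real.sqrt (1 - t) ≤ A.D t) →
  ∀ C : ℝ, 1 ≤ C →
  (∀ x, -(C * A.E t0 * (15 + sg (-(x * A.E t0)))) ≤ Y t0 x) →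
  ∀ t ∈ Icc t0 A.T, ∀ x, -(C * A.E t * (15 + sg (-(x * A.E t)))) ≤ Y t x

lemma sg_ge (y : ℝ) : 2 * y ≤ sg y := by
  unfold sg
  have : y ≤ Real.sqrt (1 + y ^ 2) := Real.le_sqrt_of_sq_le (by linarith)
  linarith

lemma sg_le' (y : ℝ) : sg y ≤ 1 + 2 * max y 0 := by
  unfold sg
  rcases le_total 0 y with h | h
  · rw [max_eq_left h]
    have : Real.sqrt (1 + y ^ 2) ≤ 1 + y := by
      rw [show (1 + y) = Real.sqrt ((1 + y) ^ 2) from (Real.sqrt_sq (by linarith)).symm]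
      exact Real.sqrt_le_sqrt (by nlinarith)
    linarith
  · rw [max_eq_right h]
    have : Real.sqrt (1 + y ^ 2) ≤ 1 - y := by
      rw [show (1 - y) = Real.sqrt ((1 - y) ^ 2) from (Real.sqrt_sq (by linarith)).symm]
      exact Real.sqrt_le_sqrt (by nlinarith)
    linarith

/-- `u ≤ 8 √χ + x₋` -/
lemma u_le (A : SD) {t : ℝ} (ht : t ∈ Icc 0 A.T) (x : ℝ) :
    A.u t x ≤ 8 * Real.sqrt (A.chi t) + max (-x) 0 := by
  have hF := FixA_423.fix_chi A ht
  have hchi : 0 < A.chi t := (StepClk_900.clock A).chi_pos t (ht.2.trans_lt A.hT1)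
  have hsq := Real.sqrt_pos.2 hchi
  have h0 : A.u t 0 ≤ 8 * Real.sqrt (A.chi t) := by
    have h1 : (Real.sqrt (A.chi t))⁻¹ * A.u t 0 ≤ 8 := by
      rcases le_total (A.V t 0) (1 / 2) with h | h
      · have := hF.w_le h
        rw [zero_add] at this
        linarith
      · exact hF.u_le (by linarith)
    rw [inv_mul_le_iff₀ hsq] at h1
    linarith
  -- `u` decreasing, `w` increasing
  have hanti : Antitone (A.u t) := antitone_of_hasDerivAt_nonpos hF.hu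
    (fun y => by have := hF.V_lt y; show A.V t y - 1 ≤ 0; linarith)
  have hmono : Monotone (fun y => y + A.u t y) := monotone_of_hasDerivAt_nonneg hF.hw
    (fun y => (hF.V_pos y).le)
  rcases le_total 0 x with h | h
  · have := hanti h
    have h2 := le_max_right (-x) (0 : ℝ)
    linarith
  · have h3 : x + A.u t x ≤ 0 + A.u t 0 := hmono h
    have h2 := le_max_left (-x) (0 : ℝ)
    linarith

/-- start, real numbers -/
lemma start_real {C C1 M B E g m u : ℝ} (hC10 : 0 ≤ C1) (hM0 : 0 ≤ M) (hE : 0 < E)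
    (hC : 0 ≤ C) (hEB : 1 ≤ E * B) (hC2 : C1 * B ^ 2 ≤ C) (hC3 : C1 * (1 + 8 * M) * B ≤ C)
    (hm : 0 ≤ m) (_hg : 0 ≤ g) (hgm : E * m ≤ g) (hu : u ≤ 8 * M + m) :
    C1 * (1 + u) ≤ C * E * (15 + g) := by
  have hB : 0 < B := by
    by_contra h
    have := mul_nonpos_of_nonneg_of_nonpos hE.le (not_lt.1 h)
    linarith
  have h2 : C1 * (1 + u) ≤ C1 * (1 + 8 * M) + C1 * m := by
    have : 1 + u ≤ (1 + 8 * M) + m := by linarith
    have := mul_le_mul_of_nonneg_left this hC10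
    linarith
  have h4 : C1 * (1 + 8 * M) ≤ C * E := by
    have h5 := mul_le_mul_of_nonneg_right hC3 hE.le
    have h6 : 0 ≤ C1 * (1 + 8 * M) := mul_nonneg hC10 (by linarith)
    have h7 := mul_le_mul_of_nonneg_left hEB h6
    have h8 : C1 * (1 + 8 * M) * (E * B) = C1 * (1 + 8 * M) * B * E := by ring
    linarith
  have h8 : C1 ≤ C * E ^ 2 := by
    have h7 : 1 ≤ (E * B) ^ 2 := one_le_pow₀ hEB
    have h9 := mul_le_mul_of_nonneg_right hC2 (sq_nonneg E)
    have h10 := mul_le_mul_of_nonneg_left h7 hC10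
    have h11 : C1 * (E * B) ^ 2 = C1 * B ^ 2 * E ^ 2 := by ring
    linarith
  have h5 : C1 * m ≤ C * E * (E * m) := by
    have := mul_le_mul_of_nonneg_right h8 hm
    have h11 : C * E ^ 2 * m = C * E * (E * m) := by ring
    linarith
  have h7 : 0 ≤ C * E := mul_nonneg hC hE.le
  have h6 : C * E * (E * m) ≤ C * E * g := mul_le_mul_of_nonneg_left hgm h7
  have h9 : C * E * (15 + g) = 15 * (C * E) + C * E * g := by ring
  linarith

/-- end, real numbers -/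
lemma end_real {C lam s E g m : ℝ} (hC : 0 < C) (hs : 0 < s) (hE : 0 < E) (hlam : 0 < lam)
    (hm : 0 ≤ m) (hg : g ≤ 1 + 2 * (E * m))
    (h1 : s ^ 2 * E ^ 2 ≤ lam / (2 * C)) (h2 : s ^ 2 * E ^ 2 ≤ (lam / (16 * C)) ^ 2) :
    C * E * (15 + g) ≤ lam * s⁻¹ * (1 + s⁻¹ * m) := by
  have e3 : s * E ≤ lam / (16 * C) := by
    refine le_of_sq_le_sq ?_ (by positivity)
    rw [mul_pow]; exact h2
  have e4 : 16 * C * E ≤ lam * s⁻¹ := by
    rw [le_div_iff₀ (by positivity)] at e3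
    rw [← div_eq_mul_inv, le_div_iff₀ hs]
    linarith
  have e5 : 2 * C * E ^ 2 ≤ lam * s⁻¹ * s⁻¹ := by
    rw [le_div_iff₀ (by positivity)] at h1
    have h8 : lam * s⁻¹ * s⁻¹ = lam / s ^ 2 := by field_simp
    rw [h8, le_div_iff₀ (by positivity)]
    linarith
  have h4 : C * E * (15 + g) ≤ C * E * (16 + 2 * (E * m)) :=
    mul_le_mul_of_nonneg_left (by linarith) (mul_nonneg hC.le hE.le)
  have h5 := mul_le_mul_of_nonneg_right e5 hm
  have h6 : C * E * (16 + 2 * (E * m)) = 16 * C * E + 2 * C * E ^ 2 * m := by ring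
  have h7 : lam * s⁻¹ * (1 + s⁻¹ * m) = lam * s⁻¹ + lam * s⁻¹ * s⁻¹ * m := by
    ring
  rw [h7]
  linarith

variable {P : Prof} {T S : ℝ → ℝ}

/-- **law lower bound, uniformly in the sequence**, both clocks -/
theorem lawlo (hLOW : LOW) (Q : PreSeq P T S) (ω : Bool) {lam : ℝ} (hlam : 0 < lam) :
    ∃ tb : ℝ, 0 < tb ∧ tb < 1 ∧ ∀ᶠ n in atTop, ∀ t ∈ Icc tb (Q.A n).T, ∀ x,
      -(lam * (Real.sqrt (sc ω (Q.A n) t))⁻¹ *
        (1 + (Real.sqrt (sc ω (Q.A n) t))⁻¹ * max (-x) 0)) ≤ Q.Y n t x := by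
  -- the initial time
  obtain ⟨ta, ha0, ha1, ha⟩ := small Q ω (ε := 1 / 441) (by norm_num)
  set t0 : ℝ := max ta (1 / 2) with ht0
  have ht01 : t0 ∈ Ioo (0 : ℝ) 1 := ⟨by rw [ht0]; positivity, max_lt ha1 (by norm_num)⟩
  obtain ⟨C1, hC1⟩ := Q.Ys t0 ht01
  -- a uniform bound of D and of √χ at t0
  have hDpos : 0 < P.D t0 := Q.pos t0 ⟨ht01.1.le, ht01.2⟩
  have hT1 : ∀ᶠ n in atTop, t0 < (Q.A n).T :=
    (tendsto_T Q.apx Q.ε_lim).eventually (lt_mem_nhds ht01.2)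
  have hDb : ∀ᶠ n in atTop, (Q.A n).D t0 < P.D t0 + 1 :=
    (tendsto_D Q.apx Q.ε_lim ⟨ht01.1.le, ht01.2.le⟩).eventually (gt_mem_nhds (by linarith))
  have hKb : ∀ᶠ n in atTop, (Q.A n).K0 t0 < Ks P.D t0 + 1 :=
    (tendsto_K0 Q.apx Q.ε_lim ⟨ht01.1.le, ht01.2.le⟩).eventually (gt_mem_nhds (by linarith))
  set B : ℝ := P.D t0 + 1 with hB
  have hB0 : 1 < B := by linarith
  set M : ℝ := Real.sqrt (B * (Ks P.D t0 + 1)) with hM
  have hM0 : 0 ≤ M := Real.sqrt_nonneg _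
  set C : ℝ := max 1 (max (C1 * B ^ 2) (C1 * (1 + 8 * M) * B)) with hC
  have hCone : 1 ≤ C := le_max_left _ _
  have hC2 : C1 * B ^ 2 ≤ C := (le_max_left _ _).trans (le_max_right _ _)
  have hC3 : C1 * (1 + 8 * M) * B ≤ C := (le_max_right _ _).trans (le_max_right _ _)
  -- the final time
  have hδ : 0 < min (lam / (2 * C)) ((lam / (16 * C)) ^ 2) := by positivity
  obtain ⟨tc, hc0, hc1, hc⟩ := small Q ω hδ
  refine ⟨max tc t0, lt_max_of_lt_right ht01.1, max_lt hc1 ht01.2, ?_⟩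
  filter_upwards [hC1, hT1, hDb, hKb] with n hn1 hn2 hn3 hn4 t ht x
  set A := Q.A n with hA
  have hB' := Q.back n
  have hCl := Q.clock n
  have htt0 : t ∈ Icc t0 A.T := ⟨(le_max_right _ _).trans ht.1, ht.2⟩
  have htc : t ∈ Icc tc A.T := ⟨(le_max_left _ _).trans ht.1, ht.2⟩
  have hE0 := A.E_pos t0
  have hD0 := A.D_pos t0
  have hED : A.E t0 * A.D t0 = 1 := inv_mul_cancel₀ hD0.ne'
  have hEB : 1 ≤ A.E t0 * B := by
    have := mul_le_mul_of_nonneg_left hn3.le hE0.le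
    linarith
  have hν : ∀ s ∈ Ico 0 A.T, (1 - s) * A.b s ≤ 1 := fun s hs =>
    (Q.apx n).b_le ⟨hs.1, (hs.2.trans A.hT1).le⟩
  have h21 : ∀ s ∈ Icc t0 A.T, 21 * Real.sqrt (1 - s) ≤ A.D s := by
    intro s hs
    have h1 := ha n s ⟨(le_max_left _ _).trans hs.1, hs.2⟩
    have h2 := sc_ge hCl ω (hs.2.trans_lt A.hT1)
    have h3 : (1 - s) * A.E s ^ 2 ≤ 1 / 441 :=
      (mul_le_mul_of_nonneg_right h2 (sq_nonneg _)).trans h1
    have hDs := A.D_pos s
    have h4 : (1 - s) * 441 ≤ A.D s ^ 2 := by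
      unfold SD.E at h3
      rw [inv_pow, ← div_eq_mul_inv, div_le_iff₀ (by positivity)] at h3
      linarith
    have h5 : Real.sqrt (1 - s) ^ 2 = 1 - s := Real.sq_sqrt (by linarith [hs.2, A.hT1])
    have h6 := Real.sqrt_nonneg (1 - s)
    apply le_of_sq_le_sq _ hDs.le
    nlinarith
  -- start
  have hst : ∀ x, -(C * A.E t0 * (15 + sg (-(x * A.E t0)))) ≤ Q.Y n t0 x := by
    intro x
    refine le_trans (neg_le_neg ?_) (hn1 x).1
    have hC10 : 0 ≤ C1 := by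
      have h1 := hn1 x
      have h2 : -(C1 * (1 + A.u t0 x)) ≤ C1 * (1 + A.w t0 x) := h1.1.trans h1.2
      have hu := hB'.u_pos t0 ⟨ht01.1.le, hn2.le⟩ x
      have hw := hB'.w_pos t0 ⟨ht01.1.le, hn2.le⟩ x
      by_contra hneg
      have : C1 * (2 + A.u t0 x + A.w t0 x) < 0 :=
        mul_neg_of_neg_of_pos (not_le.1 hneg) (by linarith)
      linarith
    have h1 := u_le A ⟨ht01.1.le, hn2.le⟩ x
    have hsqM : Real.sqrt (A.chi t0) ≤ M := by
      apply Real.sqrt_le_sqrt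
      unfold SD.chi
      exact mul_le_mul hn3.le hn4.le ((hCl.K0_pos t0 ht01.2).le) (by linarith)
    have hmx : 0 ≤ max (-x) 0 := le_max_right _ _
    have hsg1 := sg_ge (-(x * A.E t0))
    have hsg0 := (sg_pos (-(x * A.E t0))).le
    have h3 : A.E t0 * max (-x) 0 ≤ sg (-(x * A.E t0)) := by
      rcases le_total 0 x with h | h
      · rw [max_eq_right (by linarith), mul_zero]; exact hsg0
      · rw [max_eq_left (by linarith)]
        have h5 : 0 ≤ A.E t0 * (-x) := mul_nonneg hE0.le (by linarith)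
        linarith
    exact start_real hC10 hM0 hE0 (by linarith) hEB hC2 hC3 hmx hsg0 h3 (by linarith)
  have key := hLOW A 1 (Q.p n) (Q.Y n) (Q.Yx n) (Q.Yxx n) hB' hCl (Q.law n) hν t0
    ⟨ht01.1, hn2⟩ h21 C hCone hst t htt0 x
  refine le_trans (neg_le_neg ?_) key
  have hsm := hc n t htc
  have hs0 : 0 < sc ω A t := by
    have := sc_ge hCl ω (ht.2.trans_lt A.hT1)
    have := A.hT1
    linarith [ht.2]
  have hsq := Real.sqrt_pos.2 hs0
  have hsq2 : Real.sqrt (sc ω A t) ^ 2 = sc ω A t := Real.sq_sqrt hs0.le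
  set s := Real.sqrt (sc ω A t) with hs
  have hE := A.E_pos t
  have hmx : 0 ≤ max (-x) 0 := le_max_right _ _
  have h3 : sg (-(x * A.E t)) ≤ 1 + 2 * (A.E t * max (-x) 0) := by
    refine (sg_le' _).trans ?_
    have : max (-(x * A.E t)) 0 ≤ A.E t * max (-x) 0 := by
      refine max_le ?_ (mul_nonneg hE.le hmx)
      have := mul_le_mul_of_nonneg_left (le_max_left (-x) 0) hE.le
      linarith
    linarith
  refine end_real (by linarith) hsq hE hlam hmx h3 ?_ ?_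
  · rw [hsq2]; exact hsm.trans (min_le_left _ _)
  · rw [hsq2]; exact hsm.trans (min_le_right _ _)

end

end Crest.Agent.R146.WinLaw_746
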