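import Crest.Agent.R146.WinLaw_746
import Crest.Agent.R146.FlatStep_384

/-!
Row 146, PT-CMP (helper746): `WinLaw_746.LOW` from `FlatStep_384` (helper384).
-/

set_option autoImplicit false

open Set Filter Topology

namespace Crest.Agent.R146.WinLow_746

open MaxP_371 MaxP2_371 MaxPCmp_371 MaxPCmp2_371 StepDef_791 Pos_371 Flat_384 FlatStep_384

theorem low : WinLaw_746.LOW := by
  intro A x0 p Y Yx Yxx hBk hCl hL hν' t0 ht0 hD C hC hinit
  have hν : ∀ t ∈ Ico 0 A.T, A.b t * (1 - t) ≤ 1 := fun t ht => by
    rw [mul_comm]; exact hν' t ht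
  obtain ⟨M, hM⟩ := hL.ysys t0 ht0
  have hbar : FBar t0 A.T (fun _ _ => (0:ℝ)) (fun _ _ => 0) (fun _ _ => 0) (fun _ _ => 0) :=
    { cS := continuousOn_const
      hSt := fun t _ x => hasDerivWithinAt_const t _ 0
      hSx := fun t _ x => hasDerivAt_const x 0
      hSxx := fun t _ x => HasSide.of_hasDerivAt (hasDerivAt_const x 0) }
  have key := add_le_Y (E := A.E) (C := C) (c0 := 15) (L := 0) hM hbar
    (StepClk_900.E_cont A).continuousOn (fun t _ => A.E_pos t) (fun t _ => StepClk_900.E_l A t)
    (by linarith) (by linarith) (fun t _ x => by simp) (fun t _ x => by simp) ?_ ?_ ?_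
  · intro t ht x
    have := key t ht x
    unfold Q at this
    linarith
  · intro t ht x
    have htI : t ∈ Icc 0 A.T := ⟨ht0.1.le.trans ht.1.le, ht.2⟩
    have h1 := mul_nonneg (A.bl_nonneg t) (hBk.P_pos t htI x).le
    simp only [mul_zero, zero_div, sub_zero, zero_add, add_zero]
    linarith
  · intro t ht x
    have htI : t ∈ Icc 0 A.T := ⟨ht0.1.le.trans ht.1.le, ht.2⟩
    have htI' : t ∈ Icc t0 A.T := ⟨ht.1.le, ht.2⟩
    have hE := A.E_pos t
    have hDE : A.D t * A.E t = 1 := by
      unfold SD.E; exact mul_inv_cancel₀ (A.D_pos t).ne'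
    have hcond := hpt_low (x := x) (e := A.E t) (β := A.bl t) (uu := A.u t) (VV := A.V t)
      (A.bl_nonneg t) hE ?_ ?_ (V_01 hBk htI x).1.le
    · simp only [mul_zero, sub_zero, add_zero]
      exact hcond
    · intro hx
      have h1 := step_FF hBk hν ht0.1.le ht0.2.le hD t htI' x hx
      have h2 := mul_le_mul_of_nonneg_left h1 hE.le
      have e1 : A.E t * ((A.D t - x) * A.V t x) = (1 - x * A.E t) * A.V t x := by
        have : A.E t * ((A.D t - x) * A.V t x) = (A.D t * A.E t - x * A.E t) * A.V t x := by ring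
        rw [this, hDE]
      rw [e1] at h2
      exact h2
    · intro hx
      refine ⟨?_, ?_⟩
      · have h1 := u_anti hBk htI hx
        have h2 := step_u_zero hBk hν htI
        have h3 := hD t htI'
        have h4 : A.E t * (21 * √(1 - t)) ≤ 1 := by
          have := mul_le_mul_of_nonneg_left h3 hE.le
          linarith
        have h5 : A.E t * (x + A.u t x) ≤ A.E t * (x + 0.8 * √(1 - t)) :=
          mul_le_mul_of_nonneg_left (by linarith) hE.le
        have h6 := mul_nonneg hE.le (Real.sqrt_nonneg (1 - t))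
        nlinarith
      · exact (step_V_zero hBk hν t htI).trans (V_mono hBk htI hx)
  · intro x
    have := hinit x
    unfold Q
    linarith

end Crest.Agent.R146.WinLow_746
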