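import Crest.Agent.R146.PtRefAsm_847
import Crest.Agent.R146.SlopeThm_371
import Crest.Agent.R146.YWLaw_177
import Crest.Agent.R146.RefClo_42
import Crest.Agent.R146.PtTipW_52
import Crest.Agent.R146.Fix2_181

/-!
Row 146, PT (helper847): **WINREF is a theorem**; `PTMAIN` from the first window and the static certificate.
-/

set_option autoImplicit false

namespace Crest.Agent.R146.WinRef_847

open Crest.Agent.R146.TipSeq_791 Crest.Agent.R146.PtRefIf_847 Crest.Agent.R146.PtRefAsm_847
open Crest.Agent.R146.PtScalA_45 (Prof)
open Crest.Agent.R146.PtTip_164 (hiA)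

/-- **WINREF**: a certified window step of the limit profile -/
theorem winref : WINREF := winref_of SlopeThm_371.slope YWLaw_177.law RefClo_42.clos

/-- a closed stationary pair exists -/
theorem closed : PtTipC_52.CLOSED := by
  obtain ⟨c, W, V, I, k, -, -, h⟩ := Fix2_181.exists_closed
  exact ⟨c, W, V, I, k, h⟩

/-- **PTMAIN** from the first window `[0, 7/10]` and `NUMREF` -/
theorem ptmain_of_num (hW : ∀ P : Prof, TipSeq P → Win P 1 0 hiA) (hN : PtRef_846.NUMREF) : PTMAIN :=
  PtTipW_52.ptmainW (g := PtRef_846.gr) (by unfold PtRef_846.gr; norm_num) hW closed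
    (refc_of winref hN)

end Crest.Agent.R146.WinRef_847
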