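import Crest.Agent.R146.WrapA_947

/-!
# R146 (helper947): row-wise tools for log partition functions, part 2

`logZ ρ u x = log ∫ exp (∑_a u_a(x_a, y)) ρ(dy)` for a probability `ρ`, row potentials
`u_a : X → Y → ℝ` bounded by `K_a`.
* `abs_logZ_le`, `measurable_logZ`, `abs_logZ_update_row_le` (bounded differences in a row),
* `abs_logZ_update_pot_le` (changing one potential: a.s. bound by a Gibbs mean),
* `abs_integral_logZ_sub_le`: `|E logZ u - E logZ v| ≤ ∑_a e^{2K_a} D_a` if
  `E|u_a(x_a, y) - v_a(x_a, y)| ≤ D_a` for every `y`.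
* `tail_logZ_le`: concentration by rows.
-/

set_option autoImplicit false
set_option linter.unusedSectionVars false

open MeasureTheory ProbabilityTheory Filter Topology

namespace Crest.Agent.R146.WrapB_947

open Crest.Agent.R146.WrapA_947

variable {X Y : Type*} [MeasurableSpace X] [MeasurableSpace Y]

/-- log partition function with row potentials -/
noncomputable def logZ {M : ℕ} (ρ : Measure Y) (u : Fin M → X → Y → ℝ) (x : Fin M → X) : ℝ :=
  Real.log (∫ y, Real.exp (∑ a, u a (x a) y) ∂ρ)

section bounds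

/-- `exp` of a bounded measurable function has a positive integral, with two-sided bounds -/
lemma exp_integral_bounds (ρ : Measure Y) [IsProbabilityMeasure ρ] {h : Y → ℝ} (hm : Measurable h)
    {K : ℝ} (hK : ∀ y, |h y| ≤ K) :
    Real.exp (-K) ≤ ∫ y, Real.exp (h y) ∂ρ ∧ ∫ y, Real.exp (h y) ∂ρ ≤ Real.exp K := by
  have hi : Integrable (fun y => Real.exp (h y)) ρ := by
    refine integrable_of_bound _ (Real.measurable_exp.comp hm) (C := Real.exp K) fun y => ?_
    rw [abs_of_pos (Real.exp_pos _)]
    exact Real.exp_le_exp.2 (abs_le.1 (hK y)).2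
  constructor
  · calc Real.exp (-K) = ∫ _y, Real.exp (-K) ∂ρ := by simp
      _ ≤ _ := integral_mono (integrable_const _) hi fun y =>
          Real.exp_le_exp.2 (abs_le.1 (hK y)).1
  · calc _ ≤ ∫ _y, Real.exp K ∂ρ := integral_mono hi (integrable_const _) fun y =>
          Real.exp_le_exp.2 (abs_le.1 (hK y)).2
      _ = Real.exp K := by simp

lemma integrable_exp (ρ : Measure Y) [IsProbabilityMeasure ρ] {h : Y → ℝ} (hm : Measurable h)
    {K : ℝ} (hK : ∀ y, |h y| ≤ K) : Integrable (fun y => Real.exp (h y)) ρ := by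
  refine integrable_of_bound _ (Real.measurable_exp.comp hm) (C := Real.exp K) fun y => ?_
  rw [abs_of_pos (Real.exp_pos _)]
  exact Real.exp_le_exp.2 (abs_le.1 (hK y)).2

lemma abs_log_exp_integral_le (ρ : Measure Y) [IsProbabilityMeasure ρ] {h : Y → ℝ}
    (hm : Measurable h) {K : ℝ} (hK : ∀ y, |h y| ≤ K) :
    |Real.log (∫ y, Real.exp (h y) ∂ρ)| ≤ K := by
  obtain ⟨h1, h2⟩ := exp_integral_bounds ρ hm hK
  have hp : 0 < ∫ y, Real.exp (h y) ∂ρ := lt_of_lt_of_le (Real.exp_pos _) h1
  rw [abs_le]
  constructor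
  · rw [← Real.log_exp (-K)]; exact Real.log_le_log (Real.exp_pos _) h1
  · rw [← Real.log_exp K]; exact Real.log_le_log hp h2

/-- changing the exponent by at most `d` changes the log partition function by at most `d` -/
lemma abs_log_sub_le_of_dist (ρ : Measure Y) [IsProbabilityMeasure ρ] {h h' : Y → ℝ}
    (hm : Measurable h) (hm' : Measurable h') {K K' d : ℝ} (hK : ∀ y, |h y| ≤ K)
    (hK' : ∀ y, |h' y| ≤ K') (hd : ∀ y, |h y - h' y| ≤ d) :
    |Real.log (∫ y, Real.exp (h y) ∂ρ) - Real.log (∫ y, Real.exp (h' y) ∂ρ)| ≤ d := by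
  have key : ∀ {h h' : Y → ℝ}, Measurable h → Measurable h' → ∀ {K K' : ℝ},
      (∀ y, |h y| ≤ K) → (∀ y, |h' y| ≤ K') → (∀ y, h y - h' y ≤ d) →
      Real.log (∫ y, Real.exp (h y) ∂ρ) ≤ Real.log (∫ y, Real.exp (h' y) ∂ρ) + d := by
    intro h h' hm hm' K K' hK hK' hd
    obtain ⟨h1, h2⟩ := exp_integral_bounds ρ hm hK
    obtain ⟨h1', h2'⟩ := exp_integral_bounds ρ hm' hK'
    have hp : 0 < ∫ y, Real.exp (h y) ∂ρ := lt_of_lt_of_le (Real.exp_pos _) h1
    have hp' : 0 < ∫ y, Real.exp (h' y) ∂ρ := lt_of_lt_of_le (Real.exp_pos _) h1'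
    have h3 : ∫ y, Real.exp (h y) ∂ρ ≤ Real.exp d * ∫ y, Real.exp (h' y) ∂ρ := by
      rw [← integral_const_mul]
      refine integral_mono (integrable_exp ρ hm hK) ((integrable_exp ρ hm' hK').const_mul _)
        fun y => ?_
      show Real.exp (h y) ≤ Real.exp d * Real.exp (h' y)
      rw [← Real.exp_add]
      exact Real.exp_le_exp.2 (by linarith [hd y])
    calc Real.log (∫ y, Real.exp (h y) ∂ρ)
        ≤ Real.log (Real.exp d * ∫ y, Real.exp (h' y) ∂ρ) := Real.log_le_log hp h3
      _ = _ := by rw [Real.log_mul (Real.exp_pos _).ne' hp'.ne', Real.log_exp]; ring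
  rw [abs_le]
  constructor
  · have := key hm' hm hK' hK (fun y => by
      have := (abs_le.1 (hd y)).1; linarith)
    linarith
  · have := key hm hm' hK hK' (fun y => (abs_le.1 (hd y)).2)
    linarith

end bounds

variable {M : ℕ} (ρ : Measure Y) [IsProbabilityMeasure ρ] (u v : Fin M → X → Y → ℝ)

section pot

variable (hu : ∀ a, Measurable (fun p : X × Y => u a p.1 p.2)) (K : Fin M → ℝ)
  (hK : ∀ a x y, |u a x y| ≤ K a)

include hu in
lemma measurable_sum (x : Fin M → X) : Measurable (fun y => ∑ a, u a (x a) y) :=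
  Finset.measurable_fun_sum _ fun a _ => (hu a).comp (measurable_const.prodMk measurable_id)

include hu in
lemma measurable_sum_joint : Measurable (fun p : (Fin M → X) × Y => ∑ a, u a (p.1 a) p.2) :=
  Finset.measurable_fun_sum _ fun a _ =>
    (hu a).comp (g := fun p : X × Y => u a p.1 p.2) (f := fun p : (Fin M → X) × Y => (p.1 a, p.2))
      (((measurable_pi_apply a).comp measurable_fst).prodMk measurable_snd)

include hK in
lemma abs_sum_le (x : Fin M → X) (y : Y) : |∑ a, u a (x a) y| ≤ ∑ a, K a :=
  (Finset.abs_sum_le_sum_abs _ _).trans (Finset.sum_le_sum fun a _ => hK a _ _)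

include hu in
theorem measurable_logZ : Measurable (logZ ρ u) := by
  have h : Measurable (fun p : (Fin M → X) × Y => Real.exp (∑ a, u a (p.1 a) p.2)) :=
    Real.measurable_exp.comp (measurable_sum_joint u hu)
  exact Real.measurable_log.comp (h.stronglyMeasurable.integral_prod_right').measurable

include hu hK in
theorem abs_logZ_le (x : Fin M → X) : |logZ ρ u x| ≤ ∑ a, K a :=
  abs_log_exp_integral_le ρ (measurable_sum u hu x) (abs_sum_le u K hK x)

include hu hK in
/-- changing the row `a` changes `logZ` by at most `2 K_a` -/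
theorem abs_logZ_update_row_le (x : Fin M → X) (a : Fin M) (t : X) :
    |logZ ρ u (Function.update x a t) - logZ ρ u x| ≤ 2 * K a := by
  refine abs_log_sub_le_of_dist ρ (measurable_sum u hu _) (measurable_sum u hu _)
    (abs_sum_le u K hK _) (abs_sum_le u K hK _) fun y => ?_
  rw [← Finset.sum_sub_distrib, Finset.sum_eq_single a]
  · rw [Function.update_self]
    calc _ ≤ |u a t y| + |u a (x a) y| := abs_sub _ _
      _ ≤ 2 * K a := by linarith [hK a t y, hK a (x a) y]
  · intro b _ hb
    rw [Function.update_of_ne hb, sub_self]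
  · intro h; exact absurd (Finset.mem_univ a) h

include hu hK in
/-- **concentration by rows** -/
theorem tail_logZ_le (μ : Fin M → Measure X) [∀ i, IsProbabilityMeasure (μ i)] {ε : ℝ}
    (hε : 0 < ε) :
    (Measure.pi μ) {x | ε < |logZ ρ u x - ∫ z, logZ ρ u z ∂(Measure.pi μ)|} ≤
      ENNReal.ofReal ((∑ a, (2 * K a) ^ 2) / ε ^ 2) :=
  tail_le μ (logZ ρ u) (fun a => 2 * K a) (measurable_logZ ρ u hu) _ (abs_logZ_le ρ u hu K hK)
    (fun x a t => abs_logZ_update_row_le ρ u hu K hK x a t) hε

end pot

section swap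

/-- `|log a - log b| ≤ |a - b| / m` if `a, b ≥ m > 0` -/
lemma abs_log_sub_log_le {a b m : ℝ} (hm : 0 < m) (ha : m ≤ a) (hb : m ≤ b) :
    |Real.log a - Real.log b| ≤ |a - b| / m := by
  have key : ∀ {a b : ℝ}, m ≤ a → m ≤ b → Real.log a - Real.log b ≤ |a - b| / m := by
    intro a b ha hb
    have ha' : 0 < a := hm.trans_le ha
    have hb' : 0 < b := hm.trans_le hb
    rw [← Real.log_div ha'.ne' hb'.ne']
    have h1 := Real.log_le_sub_one_of_pos (div_pos ha' hb')
    have h2 : a / b - 1 = (a - b) / b := by field_simp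
    rw [h2] at h1
    refine h1.trans ?_
    calc (a - b) / b ≤ |a - b| / b := by gcongr; exact le_abs_self _
      _ ≤ |a - b| / m := by gcongr
  rw [abs_le]
  constructor
  · have := key hb ha
    rw [abs_sub_comm] at this
    linarith
  · exact key ha hb

/-- `|e^s - e^t| ≤ e^K |s - t|` for `|s|, |t| ≤ K` -/
lemma abs_exp_sub_exp_le {s t K : ℝ} (hs : |s| ≤ K) (ht : |t| ≤ K) :
    |Real.exp s - Real.exp t| ≤ Real.exp K * |s - t| := by
  have key : ∀ {s t : ℝ}, |s| ≤ K → |t| ≤ K → Real.exp s - Real.exp t ≤ Real.exp K * |s - t| := by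
    intro s t hs ht
    have h1 : Real.exp s - Real.exp t = Real.exp s * (1 - Real.exp (t - s)) := by
      rw [mul_sub, ← Real.exp_add]; ring_nf
    have h2 : 1 - Real.exp (t - s) ≤ s - t := by
      have := Real.add_one_le_exp (t - s); linarith
    have h3 : Real.exp s ≤ Real.exp K := Real.exp_le_exp.2 (abs_le.1 hs).2
    rw [h1]
    calc Real.exp s * (1 - Real.exp (t - s)) ≤ Real.exp s * |s - t| := by
          gcongr
          exact h2.trans (le_abs_self _)
      _ ≤ Real.exp K * |s - t| := by gcongr
  rw [abs_le]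
  constructor
  · have := key ht hs
    rw [abs_sub_comm] at this
    linarith
  · exact key hs ht

/-- the exponent of the system without the row `a` -/
noncomputable def cavExp (a : Fin M) (x : Fin M → X) (y : Y) : ℝ :=
  ∑ b ∈ Finset.univ.erase a, u b (x b) y

lemma cavExp_update_row (a : Fin M) (x : Fin M → X) (t : X) :
    cavExp u a (Function.update x a t) = cavExp u a x := by
  funext y
  refine Finset.sum_congr rfl fun b hb => ?_
  rw [Function.update_of_ne (Finset.ne_of_mem_erase hb)]

lemma cavExp_update_pot (a : Fin M) (w : X → Y → ℝ) (x : Fin M → X) :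
    cavExp (Function.update u a w) a x = cavExp u a x := by
  funext y
  refine Finset.sum_congr rfl fun b hb => ?_
  rw [Function.update_of_ne (Finset.ne_of_mem_erase hb)]

lemma sum_eq_cav (a : Fin M) (x : Fin M → X) (y : Y) :
    ∑ b, u b (x b) y = u a (x a) y + cavExp u a x y := by
  unfold cavExp
  rw [← Finset.add_sum_erase _ _ (Finset.mem_univ a)]

/-- the Gibbs law of the system without the row `a` -/
noncomputable def cavLaw (a : Fin M) (x : Fin M → X) : Measure Y :=
  ρ.tilted (cavExp u a x)

variable (hu : ∀ a, Measurable (fun p : X × Y => u a p.1 p.2)) (K : Fin M → ℝ)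
  (hK : ∀ a x y, |u a x y| ≤ K a)

include hu in
lemma measurable_cavExp (a : Fin M) (x : Fin M → X) : Measurable (cavExp u a x) :=
  Finset.measurable_fun_sum _ fun b _ => (hu b).comp (measurable_const.prodMk measurable_id)

include hK in
lemma abs_cavExp_le (a : Fin M) (x : Fin M → X) (y : Y) :
    |cavExp u a x y| ≤ ∑ b ∈ Finset.univ.erase a, K b :=
  (Finset.abs_sum_le_sum_abs _ _).trans (Finset.sum_le_sum fun b _ => hK b _ _)

include hu hK in
lemma isProbabilityMeasure_cavLaw (a : Fin M) (x : Fin M → X) :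
    IsProbabilityMeasure (cavLaw ρ u a x) := by
  unfold cavLaw
  exact isProbabilityMeasure_tilted
    (integrable_exp ρ (measurable_cavExp u hu a x) (abs_cavExp_le u K hK a x))

include hu hK in
/-- removing the row `a`: `logZ = log ∫ e^{cavExp} + log ⟨e^{u_a(x_a,y)}⟩_{\a}` -/
lemma logZ_eq_cav (a : Fin M) (x : Fin M → X) :
    logZ ρ u x = Real.log (∫ y, Real.exp (cavExp u a x y) ∂ρ) +
      Real.log (∫ y, Real.exp (u a (x a) y) ∂(cavLaw ρ u a x)) := by
  have h0 := exp_integral_bounds ρ (measurable_cavExp u hu a x) (abs_cavExp_le u K hK a x)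
  have hp : 0 < ∫ y, Real.exp (cavExp u a x y) ∂ρ := lt_of_lt_of_le (Real.exp_pos _) h0.1
  have h1 : ∫ y, Real.exp (u a (x a) y) ∂(cavLaw ρ u a x) =
      (∫ y, Real.exp (∑ b, u b (x b) y) ∂ρ) / ∫ y, Real.exp (cavExp u a x y) ∂ρ := by
    unfold cavLaw
    rw [integral_tilted, ← integral_div]
    refine integral_congr_ae (Eventually.of_forall fun y => ?_)
    show (Real.exp (cavExp u a x y) / ∫ y, Real.exp (cavExp u a x y) ∂ρ) •
      Real.exp (u a (x a) y) = Real.exp (∑ b, u b (x b) y) / ∫ y, Real.exp (cavExp u a x y) ∂ρ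
    rw [sum_eq_cav u a x y, Real.exp_add, smul_eq_mul]
    ring
  have h2 := exp_integral_bounds ρ (measurable_sum u hu x) (abs_sum_le u K hK x)
  have hp2 : 0 < ∫ y, Real.exp (∑ b, u b (x b) y) ∂ρ := lt_of_lt_of_le (Real.exp_pos _) h2.1
  rw [h1, Real.log_div hp2.ne' hp.ne']
  unfold logZ
  ring

include hu hK in
/-- changing one potential -/
theorem abs_logZ_update_pot_le (a : Fin M) (w : X → Y → ℝ)
    (hw : Measurable (fun p : X × Y => w p.1 p.2)) (hwK : ∀ x y, |w x y| ≤ K a) (x : Fin M → X) :
    |logZ ρ u x - logZ ρ (Function.update u a w) x| ≤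
      Real.exp (2 * K a) * ∫ y, |u a (x a) y - w (x a) y| ∂(cavLaw ρ u a x) := by
  have hu' : ∀ b, Measurable (fun p : X × Y => (Function.update u a w) b p.1 p.2) := by
    intro b
    by_cases hb : b = a
    · subst hb; simpa using hw
    · rw [Function.update_of_ne hb]; exact hu b
  have hK' : ∀ b x y, |(Function.update u a w) b x y| ≤ K b := by
    intro b x y
    by_cases hb : b = a
    · subst hb; rw [Function.update_self]; exact hwK x y
    · rw [Function.update_of_ne hb]; exact hK b x y
  have := isProbabilityMeasure_cavLaw ρ u hu K hK a x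
  rw [logZ_eq_cav ρ u hu K hK a x, logZ_eq_cav ρ (Function.update u a w) hu' K hK' a x]
  have hc : cavLaw ρ (Function.update u a w) a x = cavLaw ρ u a x := by
    unfold cavLaw; rw [cavExp_update_pot]
  rw [hc, cavExp_update_pot, add_sub_add_left_eq_sub, Function.update_self]
  have m1 : Measurable (fun y => u a (x a) y) := (hu a).comp (measurable_const.prodMk measurable_id)
  have m2 : Measurable (fun y => w (x a) y) := hw.comp (measurable_const.prodMk measurable_id)
  have b1 := (exp_integral_bounds (cavLaw ρ u a x) m1 (hK a (x a))).1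
  have b2 := (exp_integral_bounds (cavLaw ρ u a x) m2 (hwK (x a))).1
  refine (abs_log_sub_log_le (Real.exp_pos _) b1 b2).trans ?_
  rw [← integral_sub (integrable_exp _ m1 (hK a (x a))) (integrable_exp _ m2 (hwK (x a)))]
  have h3 : |∫ y, (Real.exp (u a (x a) y) - Real.exp (w (x a) y)) ∂(cavLaw ρ u a x)| ≤
      Real.exp (K a) * ∫ y, |u a (x a) y - w (x a) y| ∂(cavLaw ρ u a x) := by
    rw [← integral_const_mul]
    refine (abs_integral_le_integral_abs).trans ?_
    have hKa : (0 : ℝ) ≤ K a := (abs_nonneg _).trans (hK a (x a) (Classical.choice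
      (nonempty_of_isProbabilityMeasure ρ)))
    refine integral_mono_of_nonneg (Eventually.of_forall fun y => abs_nonneg _) ?_ ?_
    · refine Integrable.const_mul ?_ _
      refine integrable_of_bound _ (m1.sub m2).abs (C := 2 * K a) fun y => ?_
      rw [abs_abs]
      calc _ ≤ |u a (x a) y| + |w (x a) y| := abs_sub _ _
        _ ≤ 2 * K a := by linarith [hK a (x a) y, hwK (x a) y]
    · exact Eventually.of_forall fun y => abs_exp_sub_exp_le (hK a (x a) y) (hwK (x a) y)
  calc _ ≤ (Real.exp (K a) * ∫ y, |u a (x a) y - w (x a) y| ∂(cavLaw ρ u a x)) /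
        Real.exp (-K a) := by gcongr
    _ = _ := by
      rw [Real.exp_neg, div_inv_eq_mul, two_mul, Real.exp_add]; ring

section expect

variable (μ : Fin M → Measure X) [∀ i, IsProbabilityMeasure (μ i)]

lemma integrable_logZ (hu : ∀ a, Measurable (fun p : X × Y => u a p.1 p.2)) (K : Fin M → ℝ)
    (hK : ∀ a x y, |u a x y| ≤ K a) : Integrable (logZ ρ u) (Measure.pi μ) :=
  integrable_of_bound _ (measurable_logZ ρ u hu) (abs_logZ_le ρ u hu K hK)

include hu hK in
/-- changing one potential, in expectation -/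
theorem abs_integral_update_pot_le (a : Fin M) (w : X → Y → ℝ)
    (hw : Measurable (fun p : X × Y => w p.1 p.2)) (hwK : ∀ x y, |w x y| ≤ K a) {D : ℝ}
    (hD : ∀ y, ∫ t, |u a t y - w t y| ∂(μ a) ≤ D) :
    |∫ x, logZ ρ u x ∂(Measure.pi μ) - ∫ x, logZ ρ (Function.update u a w) x ∂(Measure.pi μ)| ≤
      Real.exp (2 * K a) * D := by
  have hu' : ∀ b, Measurable (fun p : X × Y => (Function.update u a w) b p.1 p.2) := by
    intro b
    by_cases hb : b = a
    · subst hb; simpa using hw
    · rw [Function.update_of_ne hb]; exact hu b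
  have hK' : ∀ b x y, |(Function.update u a w) b x y| ≤ K b := by
    intro b x y
    by_cases hb : b = a
    · subst hb; rw [Function.update_self]; exact hwK x y
    · rw [Function.update_of_ne hb]; exact hK b x y
  have m1 := measurable_logZ ρ u hu
  have m2 := measurable_logZ ρ (Function.update u a w) hu'
  have b1 := abs_logZ_le ρ u hu K hK
  have b2 := abs_logZ_le ρ (Function.update u a w) hu' K hK'
  have hbd : ∀ x, |(logZ ρ u x - logZ ρ (Function.update u a w) x)| ≤ ∑ a, K a + ∑ a, K a :=
    fun x => (abs_sub _ _).trans (add_le_add (b1 x) (b2 x))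
  rw [← integral_sub (integrable_logZ ρ u μ hu K hK) (integrable_logZ ρ _ μ hu' K hK')]
  refine (abs_integral_le_integral_abs).trans ?_
  rw [integral_resample μ a
    (F := fun x => |logZ ρ u x - logZ ρ (Function.update u a w) x|) (m1.sub m2).abs
    (C := ∑ a, K a + ∑ a, K a) (fun x => by rw [abs_abs]; exact hbd x)]
  have hin : ∀ x : Fin M → X, ∫ t, |logZ ρ u (Function.update x a t) -
      logZ ρ (Function.update u a w) (Function.update x a t)| ∂(μ a) ≤
      Real.exp (2 * K a) * D := by
    intro x
    have := isProbabilityMeasure_cavLaw ρ u hu K hK a x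
    have h1 : ∀ t, |logZ ρ u (Function.update x a t) -
        logZ ρ (Function.update u a w) (Function.update x a t)| ≤
        Real.exp (2 * K a) * ∫ y, |u a t y - w t y| ∂(cavLaw ρ u a x) := by
      intro t
      have := abs_logZ_update_pot_le ρ u hu K hK a w hw hwK (Function.update x a t)
      rw [Function.update_self] at this
      unfold cavLaw at this ⊢
      rwa [cavExp_update_row] at this
    have hjm : Measurable (fun p : X × Y => |u a p.1 p.2 - w p.1 p.2|) := ((hu a).sub hw).abs
    have hjb : ∀ p : X × Y, |(|u a p.1 p.2 - w p.1 p.2|)| ≤ K a + K a := fun p => by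
      rw [abs_abs]
      exact (abs_sub _ _).trans (add_le_add (hK a _ _) (hwK _ _))
    have hmeas : Measurable (fun x => |logZ ρ u x - logZ ρ (Function.update u a w) x|) :=
      (m1.sub m2).abs
    have hi1 : Integrable (fun t => |logZ ρ u (Function.update x a t) -
        logZ ρ (Function.update u a w) (Function.update x a t)|) (μ a) := by
      refine integrable_of_bound _ (hmeas.comp (measurable_update x))
        (C := ∑ a, K a + ∑ a, K a) fun t => ?_
      show |(|logZ ρ u (Function.update x a t) -
          logZ ρ (Function.update u a w) (Function.update x a t)|)| ≤ _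
      rw [abs_abs]; exact hbd _
    have hi2 : Integrable (fun t => Real.exp (2 * K a) *
        ∫ y, |u a t y - w t y| ∂(cavLaw ρ u a x)) (μ a) := by
      refine Integrable.const_mul ?_ _
      refine integrable_of_bound _ (hjm.stronglyMeasurable.integral_prod_right').measurable
        (C := K a + K a) fun t => ?_
      exact abs_integral_le _ fun y => hjb (t, y)
    refine (integral_mono hi1 hi2 h1).trans ?_
    rw [integral_const_mul]
    gcongr
    rw [integral_integral_swap (f := fun t y => |u a t y - w t y|)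
      (integrable_of_bound _ hjm hjb)]
    have hi3 : Integrable (fun y => ∫ t, |u a t y - w t y| ∂(μ a)) (cavLaw ρ u a x) := by
      refine integrable_of_bound _ ?_ (C := K a + K a) fun y => abs_integral_le _ fun t => hjb (t, y)
      exact ((hjm.comp measurable_swap).stronglyMeasurable.integral_prod_right').measurable
    calc _ ≤ ∫ _y, D ∂(cavLaw ρ u a x) := integral_mono hi3 (integrable_const _) hD
      _ = D := by simp
  have hmm : Measurable (fun x : Fin M → X => ∫ t, |logZ ρ u (Function.update x a t) -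
      logZ ρ (Function.update u a w) (Function.update x a t)| ∂(μ a)) := by
    have h : Measurable (fun p : (Fin M → X) × X => |logZ ρ u (Function.update p.1 a p.2) -
      logZ ρ (Function.update u a w) (Function.update p.1 a p.2)|) :=
      ((m1.sub m2).abs).comp measurable_update'
    exact (h.stronglyMeasurable.integral_prod_right').measurable
  have hi4 : Integrable (fun x : Fin M → X => ∫ t, |logZ ρ u (Function.update x a t) -
      logZ ρ (Function.update u a w) (Function.update x a t)| ∂(μ a)) (Measure.pi μ) :=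
    integrable_of_bound _ hmm (C := ∑ a, K a + ∑ a, K a) fun x =>
      abs_integral_le _ fun t => by rw [abs_abs]; exact hbd _
  calc _ ≤ ∫ _x, Real.exp (2 * K a) * D ∂(Measure.pi μ) :=
        integral_mono hi4 (integrable_const _) hin
    _ = _ := by simp

include hu hK in
/-- **stability in the potentials** -/
theorem abs_integral_logZ_sub_le (hv : ∀ a, Measurable (fun p : X × Y => v a p.1 p.2))
    (hvK : ∀ a x y, |v a x y| ≤ K a) (D : Fin M → ℝ)
    (hD : ∀ a y, ∫ t, |u a t y - v a t y| ∂(μ a) ≤ D a) :
    |∫ x, logZ ρ u x ∂(Measure.pi μ) - ∫ x, logZ ρ v x ∂(Measure.pi μ)| ≤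
      ∑ a, Real.exp (2 * K a) * D a := by
  have key : ∀ s : Finset (Fin M),
      |∫ x, logZ ρ u x ∂(Measure.pi μ) - ∫ x, logZ ρ (s.piecewise v u) x ∂(Measure.pi μ)| ≤
        ∑ a ∈ s, Real.exp (2 * K a) * D a := by
    intro s
    induction s using Finset.induction_on with
    | empty => simp
    | insert a s ha ih =>
      have hs : ∀ b, Measurable (fun p : X × Y => (s.piecewise v u) b p.1 p.2) := by
        intro b
        by_cases hb : b ∈ s
        · rw [Finset.piecewise_eq_of_mem _ _ _ hb]; exact hv b
        · rw [Finset.piecewise_eq_of_notMem _ _ _ hb]; exact hu b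
      have hsK : ∀ b x y, |(s.piecewise v u) b x y| ≤ K b := by
        intro b x y
        by_cases hb : b ∈ s
        · rw [Finset.piecewise_eq_of_mem _ _ _ hb]; exact hvK b x y
        · rw [Finset.piecewise_eq_of_notMem _ _ _ hb]; exact hK b x y
      have h1 := abs_integral_update_pot_le ρ (s.piecewise v u) hs K hsK μ a (v a) (hv a) (hvK a)
        (D := D a) (fun y => by
          rw [Finset.piecewise_eq_of_notMem _ _ _ ha]; exact hD a y)
      rw [Finset.piecewise_insert, Finset.sum_insert ha]
      rw [abs_le] at ih h1 ⊢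
      constructor <;> linarith [ih.1, ih.2, h1.1, h1.2]
  have := key Finset.univ
  rwa [Finset.piecewise_univ] at this

end expect

end swap

end Crest.Agent.R146.WrapB_947
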