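import Crest.Agent.R146.TiltA_534

/-!
Row 146 (PT-STEP, helper534): linear growth of the logarithmic derivative is preserved by the heat
flow in the class `GG κ` (`κ L < 1`), uniformly in the variance `≤ L`.
-/

set_option autoImplicit false

namespace Crest.Agent.R146.YA_534

open MeasureTheory ProbabilityTheory Filter Topology Set
open Crest.Agent.R146.Hg_534 Crest.Agent.R146.PB_534 Crest.Agent.R146.GG_534 Crest.Agent.R146.SG_534
open Crest.Agent.R146.TiltA_534

noncomputable section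

theorem GG.exp_bd {κ : ℝ} (hκ : 0 ≤ κ) {q : ℝ → ℝ} (hq : GG κ q) : ∃ K A : ℝ, 0 ≤ K ∧ 0 ≤ A ∧
    ∀ x, |q x| ≤ K * Real.exp (κ / 2 * x ^ 2 + A * |x|) := by
  obtain ⟨K, A, hK, hA, h⟩ := hq.bd
  refine ⟨K, A, hK, hA, fun x => (h x).trans (mul_le_mul_of_nonneg_left ?_ hK)⟩
  unfold wt
  refine Real.exp_le_exp.2 (add_le_add ?_ le_rfl)
  refine mul_le_mul_of_nonneg_left ?_ (by positivity)
  rcases le_total x 0 with h2 | h2
  · rw [min_eq_left h2]
  · rw [min_eq_right h2, zero_pow two_ne_zero]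
    positivity

theorem heat_ratio_bd {κ L : ℝ} (hκ : 0 ≤ κ) (hL : 0 ≤ L) (hκL : κ * L < 1) {q : ℝ → ℝ}
    (hq : GG κ q) (hpos : ∀ x, 0 < q x) {c0 c1 : ℝ} (hc0 : 0 < c0) (hc1 : 0 ≤ c1)
    (hlow : ∀ x, c0 * Real.exp (-c1 * x ^ 2) ≤ q x) :
    ∃ M, 0 ≤ M ∧ ∀ τ : ℝ, τ ^ 2 ≤ L → ∀ y,
      H τ (fun x => (1 + |x|) * q x) y ≤ M * (1 + |y|) * H τ q y := by
  obtain ⟨K, A, hK, hA, hb⟩ := GG.exp_bd hκ hq
  set s := 1 - κ * L with hs
  have hs0 : 0 < s := by linarith
  set η := s / 4 with hη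
  have hη0 : 0 < η := by positivity
  set ε := s / 4 with hε
  have hε0 : 0 < ε := by positivity
  set c := (1 + η) * (κ * L) + 2 * ε with hc
  have hκL0 : 0 ≤ κ * L := mul_nonneg hκ hL
  have hc1' : c < 1 := by
    have h1 : η * (κ * L) ≤ η * 1 := mul_le_mul_of_nonneg_left hκL.le hη0.le
    rw [hc]
    have h2 : (1 + η) * (κ * L) + 2 * ε = κ * L + η * (κ * L) + 2 * ε := by ring
    rw [h2, hη]
    rw [hη] at h1
    have h3 : κ * L = 1 - s := by rw [hs]; ring
    have h4 : s = 4 * ε := by rw [hε]; ring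
    linarith
  set a1 := (A + 1) * Real.sqrt L with ha1
  have ha1' : 0 ≤ a1 := by positivity
  set I1 := ∫ g, Real.exp (c / 2 * g ^ 2 + a1 * |g|) ∂gaussianReal 0 1 with hI1
  have hI1' : 0 ≤ I1 := integral_nonneg fun g => (Real.exp_pos _).le
  set C3 := κ / 2 * (1 + 1 / η) + (A + 1) with hC3
  have hC3' : 0 ≤ C3 := by positivity
  set J := ∫ g, Real.exp ((-(4 * c1 * L)) / 2 * g ^ 2 + 0 * |g|) ∂gaussianReal 0 1 with hJ
  have hJint : Integrable (fun g : ℝ => Real.exp ((-(4 * c1 * L)) / 2 * g ^ 2 + 0 * |g|))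
      (gaussianReal 0 1) := integrable_exp_quad (by
        have : 0 ≤ 4 * c1 * L := by positivity
        linarith) 0
  have hJpos : 0 < J := by
    rw [hJ, integral_pos_iff_support_of_nonneg (fun _ => (Real.exp_pos _).le) hJint]
    have : Function.support (fun g : ℝ => Real.exp ((-(4 * c1 * L)) / 2 * g ^ 2 + 0 * |g|)) =
        univ := by
      ext g
      simp [(Real.exp_pos _).ne']
    rw [this, measure_univ]
    exact one_pos
  set N := Real.sqrt ((C3 + 2 * c1) / ε) with hN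
  have hN0 : 0 ≤ N := Real.sqrt_nonneg _
  have hN2 : ε * N ^ 2 = C3 + 2 * c1 := by
    rw [hN, Real.sq_sqrt (by positivity)]
    field_simp
  refine ⟨1 + Real.sqrt L * N + K * I1 / (c0 * J), by positivity, fun τ hτ y => ?_⟩
  have hτκ : κ * τ ^ 2 < 1 := lt_of_le_of_lt (mul_le_mul_of_nonneg_left hτ hκ) hκL
  have hτL : |τ| ≤ Real.sqrt L := by
    rw [← Real.sqrt_sq_eq_abs]
    exact Real.sqrt_le_sqrt hτ
  have hY0 : 0 ≤ |y| := abs_nonneg y
  have hpg : PG (fun x : ℝ => 1 + |x|) := (PG.const 1).add PG.id.abs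
  have hq1 : GG κ (fun x => (1 + |x|) * q x) := GG.pg_mul hpg hq
  have hHq : 0 < H τ q y := GG_534.H_pos hκ hq hpos hτκ y
  -- lower bound
  have hlow' : c0 * J * Real.exp (-(2 * c1) * (1 + |y|) ^ 2) ≤ H τ q y := by
    have h1 : c0 * Real.exp (-(2 * c1) * y ^ 2) * J ≤ H τ q y := by
      rw [hJ, ← integral_const_mul]
      unfold H
      refine integral_mono (hJint.const_mul _) (hq.int hκ hτκ y) fun g => ?_
      refine le_trans ?_ (hlow _)
      rw [mul_assoc, ← Real.exp_add]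
      refine mul_le_mul_of_nonneg_left (Real.exp_le_exp.2 ?_) hc0.le
      have h2 : (y + τ * g) ^ 2 ≤ 2 * y ^ 2 + 2 * (L * g ^ 2) := by
        have h3 : τ ^ 2 * g ^ 2 ≤ L * g ^ 2 := mul_le_mul_of_nonneg_right hτ (sq_nonneg g)
        have h3' := sq_nonneg (y - τ * g)
        have h3'' : (y - τ * g) ^ 2 + (y + τ * g) ^ 2 = 2 * y ^ 2 + 2 * (τ ^ 2 * g ^ 2) := by ring
        linarith
      have h4 := mul_le_mul_of_nonneg_left h2 hc1
      linarith
    refine le_trans ?_ h1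
    have h2 : Real.exp (-(2 * c1) * (1 + |y|) ^ 2) ≤ Real.exp (-(2 * c1) * y ^ 2) := by
      refine Real.exp_le_exp.2 ?_
      have h3 : y ^ 2 ≤ (1 + |y|) ^ 2 := by
        rw [← sq_abs y]
        exact pow_le_pow_left₀ hY0 (by linarith) 2
      have h4 := mul_le_mul_of_nonneg_left h3 (by positivity : 0 ≤ 2 * c1)
      linarith
    have h3 := mul_le_mul_of_nonneg_left h2 (by positivity : 0 ≤ c0 * J)
    linarith
  -- pointwise upper bound
  have hpt : ∀ g : ℝ, (1 + |y + τ * g|) * q (y + τ * g) ≤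
      (1 + Real.sqrt L * N) * (1 + |y|) * q (y + τ * g) +
      K * Real.exp (-(2 * c1) * (1 + |y|) ^ 2) * Real.exp (c / 2 * g ^ 2 + a1 * |g|) := by
    intro g
    have hqx := (hpos (y + τ * g)).le
    rcases le_or_gt |g| (N * (1 + |y|)) with h1 | h1
    · have h2 : 1 + |y + τ * g| ≤ (1 + Real.sqrt L * N) * (1 + |y|) := by
        have h3 : |y + τ * g| ≤ |y| + |τ| * |g| := (abs_add_le _ _).trans_eq (by rw [abs_mul])
        have h4 : |τ| * |g| ≤ Real.sqrt L * (N * (1 + |y|)) :=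
          mul_le_mul hτL h1 (abs_nonneg g) (Real.sqrt_nonneg _)
        linarith
      have h5 := mul_le_mul_of_nonneg_right h2 hqx
      have h6 : 0 ≤ K * Real.exp (-(2 * c1) * (1 + |y|) ^ 2) *
        Real.exp (c / 2 * g ^ 2 + a1 * |g|) := by positivity
      linarith
    · have h2 : (1 + |y + τ * g|) * q (y + τ * g) ≤
          K * Real.exp (-(2 * c1) * (1 + |y|) ^ 2) * Real.exp (c / 2 * g ^ 2 + a1 * |g|) := by
        have h3 : 1 + |y + τ * g| ≤ Real.exp |y + τ * g| := by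
          have := Real.add_one_le_exp |y + τ * g|
          linarith
        have h4 : q (y + τ * g) ≤ K * Real.exp (κ / 2 * (y + τ * g) ^ 2 + A * |y + τ * g|) :=
          (le_abs_self _).trans (hb _)
        have h5 : (1 + |y + τ * g|) * q (y + τ * g) ≤
            Real.exp |y + τ * g| * (K * Real.exp (κ / 2 * (y + τ * g) ^ 2 + A * |y + τ * g|)) :=
          mul_le_mul h3 h4 hqx (Real.exp_pos _).le
        refine h5.trans ?_
        have h6 : Real.exp |y + τ * g| *
            (K * Real.exp (κ / 2 * (y + τ * g) ^ 2 + A * |y + τ * g|)) =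
            K * Real.exp (κ / 2 * (y + τ * g) ^ 2 + (A + 1) * |y + τ * g|) := by
          rw [mul_left_comm, ← Real.exp_add]
          congr 2
          ring
        rw [h6, mul_assoc, ← Real.exp_add]
        refine mul_le_mul_of_nonneg_left (Real.exp_le_exp.2 ?_) hK
        have h7 : (y + τ * g) ^ 2 ≤ (1 + 1 / η) * y ^ 2 + (1 + η) * (L * g ^ 2) := by
          have h8 : 0 ≤ (y / η - τ * g) ^ 2 * η := by positivity
          have h9 : (y / η - τ * g) ^ 2 * η = y ^ 2 / η - 2 * (y * (τ * g)) +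
              η * (τ ^ 2 * g ^ 2) := by
            field_simp
            ring
          have h10 : τ ^ 2 * g ^ 2 ≤ L * g ^ 2 := mul_le_mul_of_nonneg_right hτ (sq_nonneg g)
          have h11 : (1 + η) * (τ ^ 2 * g ^ 2) ≤ (1 + η) * (L * g ^ 2) :=
            mul_le_mul_of_nonneg_left h10 (by positivity)
          have h12 : (1 + 1 / η) * y ^ 2 = y ^ 2 + y ^ 2 / η := by ring
          have h13 : (y + τ * g) ^ 2 = y ^ 2 + 2 * (y * (τ * g)) + τ ^ 2 * g ^ 2 := by ring
          have h14 : (1 + η) * (τ ^ 2 * g ^ 2) = τ ^ 2 * g ^ 2 + η * (τ ^ 2 * g ^ 2) := by ring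
          rw [h12, h13]
          rw [h14] at h11
          rw [h9] at h8
          linarith
        have h8 : (A + 1) * |y + τ * g| ≤ (A + 1) * |y| + a1 * |g| := by
          have h9 : |y + τ * g| ≤ |y| + |τ| * |g| := (abs_add_le _ _).trans_eq (by rw [abs_mul])
          have h10 : |τ| * |g| ≤ Real.sqrt L * |g| := mul_le_mul_of_nonneg_right hτL (abs_nonneg g)
          have h11 := mul_le_mul_of_nonneg_left (h9.trans (add_le_add le_rfl h10))
            (by positivity : 0 ≤ A + 1)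
          rw [ha1]
          linarith
        have h9 : κ / 2 * (y + τ * g) ^ 2 ≤
            κ / 2 * ((1 + 1 / η) * y ^ 2 + (1 + η) * (L * g ^ 2)) :=
          mul_le_mul_of_nonneg_left h7 (by positivity)
        have h10 : y ^ 2 ≤ (1 + |y|) ^ 2 := by
          rw [← sq_abs y]
          exact pow_le_pow_left₀ hY0 (by linarith) 2
        have h11 : |y| ≤ (1 + |y|) ^ 2 := by
          have e : (1 + |y|) ^ 2 = 1 + 2 * |y| + |y| ^ 2 := by ring
          have e2 := sq_nonneg |y|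
          linarith
        have h12 : κ / 2 * (1 + 1 / η) * y ^ 2 ≤ κ / 2 * (1 + 1 / η) * (1 + |y|) ^ 2 :=
          mul_le_mul_of_nonneg_left h10 (by positivity)
        have h13 : (A + 1) * |y| ≤ (A + 1) * (1 + |y|) ^ 2 :=
          mul_le_mul_of_nonneg_left h11 (by positivity)
        have h14 : ε * (N * (1 + |y|)) ^ 2 ≤ ε * g ^ 2 := by
          refine mul_le_mul_of_nonneg_left ?_ hε0.le
          rw [← sq_abs g]
          exact pow_le_pow_left₀ (by positivity) h1.le 2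
        have h15 : ε * (N * (1 + |y|)) ^ 2 = (C3 + 2 * c1) * (1 + |y|) ^ 2 := by
          rw [mul_pow, ← mul_assoc, hN2]
        have h16 : κ / 2 * ((1 + η) * (L * g ^ 2)) = c / 2 * g ^ 2 - ε * g ^ 2 := by
          rw [hc]; ring
        rw [h15] at h14
        have h17 : (C3 + 2 * c1) * (1 + |y|) ^ 2 = κ / 2 * (1 + 1 / η) * (1 + |y|) ^ 2 +
            (A + 1) * (1 + |y|) ^ 2 + 2 * c1 * (1 + |y|) ^ 2 := by rw [hC3]; ring
        rw [h17] at h14
        linarith
      have h3 : 0 ≤ (1 + Real.sqrt L * N) * (1 + |y|) * q (y + τ * g) := by positivity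
      linarith
  have hint2 : Integrable (fun g : ℝ => Real.exp (c / 2 * g ^ 2 + a1 * |g|)) (gaussianReal 0 1) :=
    integrable_exp_quad hc1' a1
  have h1 : H τ (fun x => (1 + |x|) * q x) y ≤ (1 + Real.sqrt L * N) * (1 + |y|) * H τ q y +
      K * Real.exp (-(2 * c1) * (1 + |y|) ^ 2) * I1 := by
    unfold H
    rw [hI1, ← integral_const_mul, ← integral_const_mul,
      ← integral_add ((hq.int hκ hτκ y).const_mul _) (hint2.const_mul _)]
    exact integral_mono (hq1.int hκ hτκ y)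
      (((hq.int hκ hτκ y).const_mul _).add (hint2.const_mul _)) hpt
  have h2 : K * Real.exp (-(2 * c1) * (1 + |y|) ^ 2) * I1 ≤
      K * I1 / (c0 * J) * ((1 + |y|) * H τ q y) := by
    have h3 : Real.exp (-(2 * c1) * (1 + |y|) ^ 2) ≤ H τ q y / (c0 * J) := by
      rw [le_div_iff₀ (by positivity)]
      linarith
    have h4 : H τ q y / (c0 * J) ≤ (1 + |y|) * H τ q y / (c0 * J) := by
      refine div_le_div_of_nonneg_right ?_ (by positivity)
      nlinarith
    have h5 := mul_le_mul_of_nonneg_left (h3.trans h4) (by positivity : 0 ≤ K * I1)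
    calc K * Real.exp (-(2 * c1) * (1 + |y|) ^ 2) * I1
        = K * I1 * Real.exp (-(2 * c1) * (1 + |y|) ^ 2) := by ring
      _ ≤ K * I1 * ((1 + |y|) * H τ q y / (c0 * J)) := h5
      _ = _ := by ring
  calc H τ (fun x => (1 + |x|) * q x) y
      ≤ (1 + Real.sqrt L * N) * (1 + |y|) * H τ q y +
        K * I1 / (c0 * J) * ((1 + |y|) * H τ q y) := h1.trans (add_le_add le_rfl h2)
    _ = _ := by ring

/-- linear growth of the logarithmic derivative gives a Gaussian lower bound -/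
theorem low_of_log {q q1 : ℝ → ℝ} (hd : ∀ x, HasDerivAt q (q1 x) x) (hpos : ∀ x, 0 < q x) {M : ℝ}
    (hM : ∀ x, |q1 x| ≤ M * (1 + |x|) * q x) :
    ∀ x, q 0 * Real.exp (-M / 2) * Real.exp (-(3 / 2 * M) * x ^ 2) ≤ q x := by
  intro x
  have hM0 : 0 ≤ M := by
    have h1 := hM 0
    have h2 := abs_nonneg (q1 0)
    rw [abs_zero, add_zero, mul_one] at h1
    by_contra h
    have := mul_neg_of_neg_of_pos (not_le.1 h) (hpos 0)
    linarith
  have hl : ∀ y, HasDerivAt (fun y => Real.log (q y)) (q1 y / q y) y :=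
    fun y => (hd y).log (hpos y).ne'
  have hbd : ∀ y ∈ uIcc 0 x, ‖q1 y / q y‖ ≤ M * (1 + |x|) := by
    intro y hy
    rw [Real.norm_eq_abs, abs_div, abs_of_pos (hpos y), div_le_iff₀ (hpos y)]
    refine (hM y).trans (mul_le_mul_of_nonneg_right ?_ (hpos y).le)
    refine mul_le_mul_of_nonneg_left ?_ hM0
    have h1 := abs_sub_left_of_mem_uIcc hy
    rw [sub_zero, sub_zero] at h1
    linarith
  have h1 := (convex_uIcc (0:ℝ) x).norm_image_sub_le_of_norm_hasDerivWithin_le
    (fun y _ => (hl y).hasDerivWithinAt) hbd left_mem_uIcc right_mem_uIcc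
  rw [Real.norm_eq_abs, Real.norm_eq_abs, sub_zero] at h1
  have h2 : Real.log (q 0) - M * (1 + |x|) * |x| ≤ Real.log (q x) := by
    have := (abs_le.1 h1).1
    linarith
  have h3 : (1 + |x|) * |x| ≤ 1 / 2 + 3 / 2 * x ^ 2 := by
    rw [← sq_abs x]
    nlinarith [sq_nonneg (|x| - 1)]
  have h4 : Real.log (q 0) + -M / 2 + -(3 / 2 * M) * x ^ 2 ≤ Real.log (q x) := by
    have := mul_le_mul_of_nonneg_left h3 hM0
    linarith
  have h5 := Real.exp_le_exp.2 h4
  rw [Real.exp_log (hpos x), Real.exp_add, Real.exp_add, Real.exp_log (hpos 0)] at h5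
  exact h5

/-- **linear growth of the logarithmic derivative along the heat flow** -/
theorem log_growth {κ L : ℝ} (hκ : 0 ≤ κ) (hL : 0 ≤ L) (hκL : κ * L < 1) {q : ℝ → ℝ}
    (hq : SG κ q) (hpos : ∀ x, 0 < q x) {M : ℝ} (hM : ∀ x, |deriv q x| ≤ M * (1 + |x|) * q x) :
    ∃ M', 0 ≤ M' ∧ ∀ τ : ℝ, τ ^ 2 ≤ L → ∀ y,
      |H τ (deriv q) y| ≤ M' * (1 + |y|) * H τ q y := by
  have hM0 : 0 ≤ M := by
    have h1 := hM 0
    have h2 := abs_nonneg (deriv q 0)
    rw [abs_zero, add_zero, mul_one] at h1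
    by_contra h
    have := mul_neg_of_neg_of_pos (not_le.1 h) (hpos 0)
    linarith
  have hlow := low_of_log hq.hd hpos hM
  have hc0 : 0 < q 0 * Real.exp (-M / 2) := mul_pos (hpos 0) (Real.exp_pos _)
  obtain ⟨M1, hM1, h⟩ := heat_ratio_bd hκ hL hκL hq.gg hpos hc0 (c1 := 3 / 2 * M)
    (by positivity) hlow
  refine ⟨M * M1, by positivity, fun τ hτ y => ?_⟩
  have hτκ : κ * τ ^ 2 < 1 := lt_of_le_of_lt (mul_le_mul_of_nonneg_left hτ hκ) hκL
  have hpg : PG (fun x : ℝ => 1 + |x|) := (PG.const 1).add PG.id.abs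
  have hq1 : GG κ (fun x => (1 + |x|) * q x) := GG.pg_mul hpg hq.gg
  have h1 : |H τ (deriv q) y| ≤ M * H τ (fun x => (1 + |x|) * q x) y := by
    unfold H
    rw [← integral_const_mul, ← Real.norm_eq_abs]
    refine norm_integral_le_of_norm_le ((hq1.int hκ hτκ y).const_mul M)
      (Eventually.of_forall fun g => ?_)
    rw [Real.norm_eq_abs]
    refine (hM _).trans_eq ?_
    ring
  have h2 := mul_le_mul_of_nonneg_left (h τ hτ y) hM0
  calc |H τ (deriv q) y| ≤ M * H τ (fun x => (1 + |x|) * q x) y := h1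
    _ ≤ M * (M1 * (1 + |y|) * H τ q y) := h2
    _ = _ := by ring

end

end Crest.Agent.R146.YA_534
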