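import Crest.Agent.R146.LawA_534
import Crest.Agent.R146.YA_534

/-!
Row 146 (PT-STEP, helper534): the logarithmic derivative `Y = -(log p)_x` of the density: formula on the
cells, equation, joint continuity, linear growth.
-/

set_option autoImplicit false

namespace Crest.Agent.R146.YB_534

open MeasureTheory ProbabilityTheory Filter Topology Set
open Crest.ProbabilityR.InvariantGlass
open Crest.Agent.R146.Hg_534 Crest.Agent.R146.PB_534 Crest.Agent.R146.GG_534 Crest.Agent.R146.SG_534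
open Crest.Agent.R146.StepDef_791 Crest.Agent.R146.Cell_534 Crest.Agent.R146.TiltA_534
open Crest.Agent.R146.TiltB_534 Crest.Agent.R146.TiltC_534 Crest.Agent.R146.PD_534
open Crest.Agent.R146.LawA_534 Crest.Agent.R146.YA_534

noncomputable section

/-- `Y = -(log p)_x` -/
def Yp (A : SD) (x0 t x : ℝ) : ℝ := -(deriv (pd A x0 t) x) / pd A x0 t x
/-- `Y_x` -/
def Yxp (A : SD) (x0 t x : ℝ) : ℝ := deriv (Yp A x0 t) x
/-- `Y_xx` -/
def Yxxp (A : SD) (x0 t x : ℝ) : ℝ := deriv (Yxp A x0 t) x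

/-- the free part `θ` of the logarithmic derivative on a cell -/
structure Th (A : SD) (x0 a b z : ℝ) (θ θ1 θ2 : ℝ → ℝ → ℝ) : Prop where
  form : ∀ t ∈ Ioc a b, ∀ x,
    deriv (pd A x0 t) x = (z / A.D t * A.u t x + θ t x) * pd A x0 t x
  x1 : ∀ t ∈ Ioc a b, ∀ x, HasDerivAt (θ t) (θ1 t x) x
  x2 : ∀ t ∈ Ioc a b, ∀ x, HasDerivAt (θ1 t) (θ2 t x) x
  t1 : ∀ t ∈ Ioc a b, ∀ x, HasDerivWithinAt (fun s => θ s x)
    (θ2 t x / 2 + θ t x * θ1 t x) (Iic t) t
  cont : ∀ ε, 0 < ε → ContinuousOn (fun q : ℝ × ℝ => θ q.1 q.2) (Icc (max a ε) b ×ˢ univ)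
  form' : 0 < a → ∀ t ∈ Icc a b, ∀ x,
    deriv (pd A x0 t) x = (z / A.D t * A.u t x + θ t x) * pd A x0 t x

section cell

variable {A : SD} {x0 a b z : ℝ}

theorem th_zero (hB : Back A) (hc : IsCell A a b z) (hp : PCell A x0 a b z) (ha : a = 0) :
    Th A x0 a b z (fun t x => -(x - x0) / t) (fun t _ => -1 / t) (fun _ _ => 0) := by
  have hform : ∀ t ∈ Ioc a b, ∀ x, deriv (pd A x0 t) x =
      (z / A.D t * A.u t x + -(x - x0) / t) * pd A x0 t x := by
    intro t ht x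
    have htI : t ∈ Icc a b := ⟨ht.1.le, ht.2⟩
    have htp : 0 < t := by rw [ha] at ht; exact ht.1
    have e1 : pd A x0 t = fun x => Gz A z t x *
        (gaussianPDFReal x0 (Real.toNNReal t) x / Gz A z 0 x0) := by
      funext y
      exact hp.zero ha t ht y
    have hv : ((Real.toNNReal t : NNReal) : ℝ) = t := Real.coe_toNNReal t htp.le
    have h2 : HasDerivAt (gaussianPDFReal x0 (Real.toNNReal t))
        (-(x - x0) / t * gaussianPDFReal x0 (Real.toNNReal t) x) x := by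
      unfold gaussianPDFReal
      have h3 : HasDerivAt (fun y : ℝ => -(y - x0) ^ 2 / (2 * ((Real.toNNReal t : NNReal) : ℝ)))
          (-(x - x0) / t) x := by
        have h4 := (((hasDerivAt_id' x).sub_const x0).fun_pow 2).fun_neg.div_const
          (2 * ((Real.toNNReal t : NNReal) : ℝ))
        refine h4.congr_deriv ?_
        rw [hv]
        simp only [Nat.cast_ofNat, Nat.add_one_sub_one, pow_one, mul_one]
        field_simp
      refine (h3.exp.const_mul _).congr_deriv ?_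
      ring
    have h3 := (Gz_x hB z (hc.mem htI) x).fun_mul (h2.div_const (Gz A z 0 x0))
    rw [e1]
    rw [h3.deriv]
    ring
  refine ⟨hform, ?_, ?_, ?_, ?_, fun h => absurd ha h.ne'⟩
  · intro t _ x
    have := (((hasDerivAt_id' x).sub_const x0).fun_neg).div_const t
    exact this
  · intro t _ x
    exact hasDerivAt_const x _
  · intro t ht x
    have htp : 0 < t := by rw [ha] at ht; exact ht.1
    have h1 := ((hasDerivAt_id' t).fun_inv htp.ne').const_mul (-(x - x0))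
    have h2 : HasDerivAt (fun s => -(x - x0) / s) (0 / 2 + -(x - x0) / t * (-1 / t)) t := by
      refine (h1.congr_deriv ?_).congr_of_eventuallyEq (Eventually.of_forall fun s => ?_)
      · field_simp
        ring
      · simp only [div_eq_mul_inv]
    exact h2.hasDerivWithinAt
  · intro ε hε
    refine ContinuousOn.div (by fun_prop) (by fun_prop) ?_
    rintro q ⟨h1, _⟩
    have := (le_max_right a ε).trans h1.1
    exact (lt_of_lt_of_le hε this).ne'

/-- heat extensions of `qa` and its derivatives -/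
def Qk (_A : SD) (a : ℝ) (k : ℝ → ℝ) (t x : ℝ) : ℝ := H (Real.sqrt (t - a)) k x

theorem Qk_x (hc : IsCell A a b z) {k : ℝ → ℝ} (hk : SG (z / A.D a) k) {t : ℝ}
    (ht : t ∈ Icc a b) (x : ℝ) : HasDerivAt (Qk A a k t) (Qk A a (deriv k) t x) x :=
  GG_534.H_deriv_x (kappa_nonneg hc) hk.gg hk.deriv.gg hk.hd (kappa_lt hc ht) x

theorem Qk_t (hc : IsCell A a b z) {k : ℝ → ℝ} (hk : SG (z / A.D a) k) {t : ℝ}
    (ht : t ∈ Ioc a b) (x : ℝ) :
    HasDerivAt (fun s => Qk A a k s x) (1 / 2 * Qk A a (deriv (deriv k)) t x) t := by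
  have htI : t ∈ Icc a b := ⟨ht.1.le, ht.2⟩
  have h0 : 0 < t - a := sub_pos.2 ht.1
  have hk2 := kappa_lt hc htI
  rw [Real.sq_sqrt h0.le] at hk2
  have h1 := GG_534.H_deriv_v (kappa_nonneg hc) hk.gg hk.deriv.gg hk.deriv.deriv.gg hk.hd
    hk.deriv.hd h0 hk2 x
  have h2 : HasDerivAt (fun s : ℝ => s - a) 1 t := (hasDerivAt_id t).sub_const a
  have h3 := h1.comp t h2
  rw [mul_one] at h3
  exact h3

theorem Qk_cont (hc : IsCell A a b z) {k : ℝ → ℝ} (hk : GG (z / A.D a) k) :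
    ContinuousOn (fun q : ℝ × ℝ => Qk A a k q.1 q.2) (Icc a b ×ˢ univ) := by
  rintro q ⟨hq, _⟩
  have h1 := GG_534.H_continuousAt (kappa_nonneg hc) hk (p := (Real.sqrt (q.1 - a), q.2))
    (kappa_lt hc hq)
  have h2 : ContinuousAt (fun q : ℝ × ℝ => ((Real.sqrt (q.1 - a), q.2) : ℝ × ℝ)) q := by fun_prop
  exact (ContinuousAt.comp (x := q) (f := fun q : ℝ × ℝ => ((Real.sqrt (q.1 - a), q.2) : ℝ × ℝ))
    (g := fun p : ℝ × ℝ => H p.1 k p.2) h1 h2).continuousWithinAt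

theorem pd_eq_Qk (hp : PCell A x0 a b z) (ha : 0 < a) {t : ℝ} (ht : t ∈ Icc a b) (x : ℝ) :
    pd A x0 t x = Gz A z t x * Qk A a (qa A x0 z a) t x := by
  rcases eq_or_lt_of_le ht.1 with h | h
  · subst h
    unfold Qk
    rw [sub_self, Real.sqrt_zero, H_zero]
    unfold qa
    rw [mul_div_cancel₀ _ (Gz_pos A z a x).ne']
  · exact hp.pos ha t ⟨h, ht.2⟩ x

theorem th_pos (hB : Back A) (hc : IsCell A a b z) (hp : PCell A x0 a b z) (ha : 0 < a) :
    ∃ θ θ1 θ2, Th A x0 a b z θ θ1 θ2 ∧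
      (∀ t x, θ t x = Qk A a (deriv (qa A x0 z a)) t x / Qk A a (qa A x0 z a) t x) := by
  have haT : a ∈ Ioc 0 A.T := ⟨ha, hc.ab.le.trans hc.bT⟩
  obtain ⟨hsg, hpos⟩ := pd_sg hB x0 a haT
  have hq := qa_sg (z := z) hB hc hsg
  set q := qa A x0 z a with hqdef
  have hqpos : ∀ x, 0 < q x := fun x => div_pos (hpos x) (Gz_pos A z a x)
  have hQ0 : ∀ t ∈ Icc a b, ∀ x, 0 < Qk A a q t x := fun t ht x =>
    GG_534.H_pos (kappa_nonneg hc) hq.gg hqpos (kappa_lt hc ht) x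
  set Q0 := Qk A a q with hQ0d
  set Q1 := Qk A a (deriv q) with hQ1d
  set Q2 := Qk A a (deriv (deriv q)) with hQ2d
  set Q3 := Qk A a (deriv (deriv (deriv q))) with hQ3d
  have hform' : ∀ t ∈ Icc a b, ∀ x, deriv (pd A x0 t) x =
      (z / A.D t * A.u t x + Q1 t x / Q0 t x) * pd A x0 t x := by
    intro t ht x
    have e1 : pd A x0 t = fun x => Gz A z t x * Q0 t x := by
      funext y
      exact pd_eq_Qk hp ha ht y
    have h3 := (Gz_x hB z (hc.mem ht) x).fun_mul (Qk_x hc hq ht x)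
    rw [e1, h3.deriv]
    have h4 := (hQ0 t ht x).ne'
    have h5 : Qk A a q t x = Q0 t x := rfl
    have h6 : Qk A a (deriv q) t x = Q1 t x := rfl
    rw [h5, h6]
    field_simp
  refine ⟨fun t x => Q1 t x / Q0 t x, fun t x => Q2 t x / Q0 t x - (Q1 t x / Q0 t x) ^ 2,
    fun t x => Q3 t x / Q0 t x - Q2 t x * Q1 t x / Q0 t x ^ 2 -
      2 * (Q1 t x / Q0 t x) * (Q2 t x / Q0 t x - (Q1 t x / Q0 t x) ^ 2), ⟨?_, ?_, ?_, ?_, ?_, ?_⟩,
      fun t x => rfl⟩
  · exact fun t ht x => hform' t ⟨ht.1.le, ht.2⟩ x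
  · intro t ht x
    have htI : t ∈ Icc a b := ⟨ht.1.le, ht.2⟩
    have h0 := (hQ0 t htI x).ne'
    refine ((Qk_x hc hq.deriv htI x).fun_div (Qk_x hc hq htI x) h0).congr_deriv ?_
    simp only [← hQ0d, ← hQ1d, ← hQ2d]
    field_simp
  · intro t ht x
    have htI : t ∈ Icc a b := ⟨ht.1.le, ht.2⟩
    have h0 := (hQ0 t htI x).ne'
    have h1 := (Qk_x hc hq.deriv.deriv htI x).fun_div (Qk_x hc hq htI x) h0
    have h2 := ((Qk_x hc hq.deriv htI x).fun_div (Qk_x hc hq htI x) h0).fun_pow 2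
    refine (h1.fun_sub h2).congr_deriv ?_
    simp only [← hQ0d, ← hQ1d, ← hQ2d, ← hQ3d]
    simp only [Nat.cast_ofNat, Nat.add_one_sub_one, pow_one]
    have h0' : Q0 t x ≠ 0 := h0
    field_simp
  · intro t ht x
    have htI : t ∈ Icc a b := ⟨ht.1.le, ht.2⟩
    have h0 := (hQ0 t htI x).ne'
    have h1 := (Qk_t hc hq.deriv ht x).fun_div (Qk_t hc hq ht x) h0
    refine (h1.congr_deriv ?_).hasDerivWithinAt
    simp only [← hQ0d, ← hQ1d, ← hQ2d, ← hQ3d]
    have h0' : Q0 t x ≠ 0 := h0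
    field_simp
    ring
  · intro ε _
    have hsub : Icc (max a ε) b ×ˢ (univ : Set ℝ) ⊆ Icc a b ×ˢ univ :=
      prod_mono (Icc_subset_Icc (le_max_left _ _) le_rfl) (Subset.refl _)
    refine ContinuousOn.div ((Qk_cont hc hq.deriv.gg).mono hsub) ((Qk_cont hc hq.gg).mono hsub) ?_
    rintro p ⟨hp1, _⟩
    exact (hQ0 p.1 ⟨(le_max_left _ _).trans hp1.1, hp1.2⟩ p.2).ne'
  · exact fun _ t ht x => hform' t ht x

theorem th_exists (hB : Back A) (hc : IsCell A a b z) (hp : PCell A x0 a b z) :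
    ∃ θ θ1 θ2, Th A x0 a b z θ θ1 θ2 := by
  rcases eq_or_lt_of_le hc.a0 with h | h
  · exact ⟨_, _, _, th_zero hB hc hp h.symm⟩
  · obtain ⟨θ, θ1, θ2, h1, _⟩ := th_pos hB hc hp h
    exact ⟨θ, θ1, θ2, h1⟩

variable {θ θ1 θ2 : ℝ → ℝ → ℝ}

theorem Yp_eq (hB : Back A) (hc : IsCell A a b z) (hT : Th A x0 a b z θ θ1 θ2) {t : ℝ}
    (ht : t ∈ Ioc a b) : Yp A x0 t = fun x => -(z / A.D t * A.u t x) - θ t x := by
  funext x
  have htT : t ∈ Ioc 0 A.T := ⟨lt_of_le_of_lt hc.a0 ht.1, ht.2.trans hc.bT⟩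
  have h0 := ((pd_sg hB x0 t htT).2 x).ne'
  unfold Yp
  rw [hT.form t ht x]
  field_simp
  ring

theorem Yp_eq' (hB : Back A) (hc : IsCell A a b z) (hT : Th A x0 a b z θ θ1 θ2) (ha : 0 < a)
    {t : ℝ} (ht : t ∈ Icc a b) : Yp A x0 t = fun x => -(z / A.D t * A.u t x) - θ t x := by
  funext x
  have htT : t ∈ Ioc 0 A.T := ⟨lt_of_lt_of_le ha ht.1, ht.2.trans hc.bT⟩
  have h0 := ((pd_sg hB x0 t htT).2 x).ne'
  unfold Yp
  rw [hT.form' ha t ht x]
  field_simp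
  ring

theorem Yxp_eq (hB : Back A) (hc : IsCell A a b z) (hT : Th A x0 a b z θ θ1 θ2) {t : ℝ}
    (ht : t ∈ Ioc a b) : Yxp A x0 t = fun x => -(z / A.D t * (A.V t x - 1)) - θ1 t x := by
  funext x
  have htT := hc.mem (t := t) ⟨ht.1.le, ht.2⟩
  unfold Yxp
  rw [Yp_eq hB hc hT ht]
  exact (((hB.u_x t htT x).const_mul (z / A.D t)).fun_neg.fun_sub (hT.x1 t ht x)).deriv

theorem Yxxp_eq (hB : Back A) (hc : IsCell A a b z) (hT : Th A x0 a b z θ θ1 θ2) {t : ℝ}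
    (ht : t ∈ Ioc a b) : Yxxp A x0 t = fun x => -(z / A.D t * A.P t x) - θ2 t x := by
  funext x
  have htT := hc.mem (t := t) ⟨ht.1.le, ht.2⟩
  unfold Yxxp
  rw [Yxp_eq hB hc hT ht]
  exact ((((hB.V_x t htT x).sub_const 1).const_mul (z / A.D t)).fun_neg.fun_sub
    (hT.x2 t ht x)).deriv

theorem bl_eq (hc : IsCell A a b z) {t : ℝ} (ht : t ∈ Ioc a b) : A.bl t = z / A.D t := by
  unfold SD.bl
  rw [hc.ml_eq t ht]

theorem D_left (hc : IsCell A a b z) {t : ℝ} (ht : t ∈ Ioc a b) :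
    HasDerivWithinAt A.D (-z) (Iic t) t := by
  have h1 : HasDerivAt (fun s => A.D b + z * (b - s)) (-z) t := by
    have := (((hasDerivAt_id' t).const_sub b).const_mul z).const_add (A.D b)
    refine this.congr_deriv ?_
    ring
  have h2 : HasDerivWithinAt A.D (-z) (Icc a t) t :=
    h1.hasDerivWithinAt.congr (fun s hs => hc.D_eq s ⟨hs.1, hs.2.trans ht.2⟩)
      (hc.D_eq t ⟨ht.1.le, ht.2⟩)
  exact h2.mono_of_mem_nhdsWithin (Icc_mem_nhdsLE ht.1)

end cell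

theorem Yt {A : SD} (hB : Back A) (x0 : ℝ) {t : ℝ} (ht : t ∈ Ioc 0 A.T) (x : ℝ) :
    HasDerivWithinAt (fun s => Yp A x0 s x)
      (Yxxp A x0 t x / 2 - (Yp A x0 t x + A.bl t * A.u t x) * Yxp A x0 t x +
        A.bl t * (1 - A.V t x) * Yp A x0 t x + A.bl t * A.P t x) (Iic t) t := by
  obtain ⟨a, b, z, hc, hp, hm⟩ := exists_cell_l A x0 t ht
  obtain ⟨θ, θ1, θ2, hT⟩ := th_exists hB hc hp
  have hD := D_left hc hm
  have hD0 := (A.D_pos t).ne'
  have h1 : HasDerivWithinAt (fun s => z / A.D s) (z ^ 2 / A.D t ^ 2) (Iic t) t := by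
    have h2 := (hasDerivWithinAt_const t (Iic t) z).fun_div hD hD0
    refine h2.congr_deriv ?_
    ring
  have hu := hB.u_tl t ht x
  have h2 := (h1.fun_mul hu).fun_neg.fun_sub (hT.t1 t hm x)
  have hev : (fun s => Yp A x0 s x) =ᶠ[𝓝[≤] t] fun s => -(z / A.D s * A.u s x) - θ s x := by
    filter_upwards [Ioc_mem_nhdsLE hm.1] with s hs
    rw [Yp_eq hB hc hT ⟨hs.1, hs.2.trans hm.2⟩]
  refine (h2.congr_of_eventuallyEq hev (by rw [Yp_eq hB hc hT hm])).congr_deriv ?_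
  rw [Yp_eq hB hc hT hm, Yxp_eq hB hc hT hm, Yxxp_eq hB hc hT hm, bl_eq hc hm]
  field_simp
  ring

theorem Yx {A : SD} (hB : Back A) (x0 : ℝ) {t : ℝ} (ht : t ∈ Ioc 0 A.T) (x : ℝ) :
    HasDerivAt (Yp A x0 t) (Yxp A x0 t x) x := by
  obtain ⟨a, b, z, hc, hp, hm⟩ := exists_cell_l A x0 t ht
  obtain ⟨θ, θ1, θ2, hT⟩ := th_exists hB hc hp
  have htT : t ∈ Icc 0 A.T := ⟨ht.1.le, ht.2⟩
  have h1 := ((hB.u_x t htT x).const_mul (z / A.D t)).fun_neg.fun_sub (hT.x1 t hm x)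
  rw [Yxp_eq hB hc hT hm, Yp_eq hB hc hT hm]
  exact h1

theorem Yxx {A : SD} (hB : Back A) (x0 : ℝ) {t : ℝ} (ht : t ∈ Ioc 0 A.T) (x : ℝ) :
    HasDerivAt (Yxp A x0 t) (Yxxp A x0 t x) x := by
  obtain ⟨a, b, z, hc, hp, hm⟩ := exists_cell_l A x0 t ht
  obtain ⟨θ, θ1, θ2, hT⟩ := th_exists hB hc hp
  have htT : t ∈ Icc 0 A.T := ⟨ht.1.le, ht.2⟩
  have h1 := (((hB.V_x t htT x).sub_const 1).const_mul (z / A.D t)).fun_neg.fun_sub
    (hT.x2 t hm x)
  rw [Yxxp_eq hB hc hT hm, Yxp_eq hB hc hT hm]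
  exact h1

/-- joint continuity of `Y` -/
theorem Y_cont {A : SD} (hB : Back A) (x0 : ℝ) {ε : ℝ} (hε : 0 < ε) :
    ContinuousOn (fun q : ℝ × ℝ => Yp A x0 q.1 q.2) (Icc ε A.T ×ˢ univ) := by
  obtain ⟨M, hb⟩ := hB.bsys
  refine glue2 (x0 := x0) _ hε fun a b z hc hp => ?_
  obtain ⟨θ, θ1, θ2, hT⟩ := th_exists hB hc hp
  have hsub : Icc (max a ε) b ⊆ Icc a b := Icc_subset_Icc (le_max_left _ _) le_rfl
  have hD : ContinuousOn (fun q : ℝ × ℝ => A.D q.1) (Icc (max a ε) b ×ˢ univ) :=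
    (D_cont_cell hc).comp continuousOn_fst (fun q hq => hsub hq.1)
  have hu : ContinuousOn (fun q : ℝ × ℝ => A.u q.1 q.2) (Icc (max a ε) b ×ˢ univ) :=
    hb.cu.mono (fun q hq => ⟨hc.mem (hsub hq.1), mem_univ _⟩)
  have h1 : ContinuousOn (fun q : ℝ × ℝ => -(z / A.D q.1 * A.u q.1 q.2) - θ q.1 q.2)
      (Icc (max a ε) b ×ˢ univ) :=
    (((continuousOn_const.div hD (fun q _ => (A.D_pos q.1).ne')).mul hu).neg).sub (hT.cont ε hε)
  refine h1.congr fun q hq => ?_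
  rcases eq_or_lt_of_le hc.a0 with h | h
  · have hq1 : q.1 ∈ Ioc a b := ⟨by
      rw [← h]
      exact lt_of_lt_of_le hε ((le_max_right _ _).trans hq.1.1), hq.1.2⟩
    rw [Yp_eq hB hc hT hq1]
  · rw [Yp_eq' hB hc hT h (hsub hq.1)]

/-- joint continuity of the density -/
theorem pd_cont {A : SD} (hB : Back A) (x0 : ℝ) {ε : ℝ} (hε : 0 < ε) :
    ContinuousOn (fun q : ℝ × ℝ => pd A x0 q.1 q.2) (Icc ε A.T ×ˢ univ) := by
  refine glue2 (x0 := x0) _ hε fun a b z hc hp => ?_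
  have hsub : Icc (max a ε) b ⊆ Icc a b := Icc_subset_Icc (le_max_left _ _) le_rfl
  have hG : ContinuousOn (fun q : ℝ × ℝ => Gz A z q.1 q.2) (Icc (max a ε) b ×ˢ univ) := by
    unfold Gz
    exact Real.continuous_exp.comp_continuousOn (continuousOn_const.mul
      (hB.psi_cont.mono (fun q hq => ⟨hc.mem (hsub hq.1), mem_univ _⟩)))
  rcases eq_or_lt_of_le hc.a0 with h | h
  · have h1 : ContinuousOn (fun q : ℝ × ℝ => Gz A z q.1 q.2 *
        ((√(2 * Real.pi * q.1))⁻¹ * Real.exp (-(q.2 - x0) ^ 2 / (2 * q.1)) / Gz A z 0 x0))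
        (Icc (max a ε) b ×ˢ univ) := by
      refine hG.mul (ContinuousOn.div_const (ContinuousOn.mul ?_ ?_) _)
      · refine ContinuousOn.inv₀ (by fun_prop) ?_
        rintro q ⟨hq, _⟩
        have hq0 : 0 < q.1 := lt_of_lt_of_le hε ((le_max_right _ _).trans hq.1)
        exact (Real.sqrt_pos.2 (by positivity)).ne'
      · refine Real.continuous_exp.comp_continuousOn (ContinuousOn.div (by fun_prop)
          (by fun_prop) ?_)
        rintro q ⟨hq, _⟩
        have hq0 : 0 < q.1 := lt_of_lt_of_le hε ((le_max_right _ _).trans hq.1)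
        positivity
    refine h1.congr fun q hq => ?_
    have hq0 : 0 < q.1 := lt_of_lt_of_le hε ((le_max_right _ _).trans hq.1.1)
    rw [hp.zero h.symm q.1 ⟨by rw [← h]; exact hq0, hq.1.2⟩ q.2]
    unfold gaussianPDFReal
    rw [Real.coe_toNNReal q.1 hq0.le]
  · have haT : a ∈ Ioc 0 A.T := ⟨h, hc.ab.le.trans hc.bT⟩
    obtain ⟨hsg, hpos⟩ := pd_sg hB x0 a haT
    have hq := qa_sg (z := z) hB hc hsg
    have h1 := hG.mul ((Qk_cont hc hq.gg).mono
      (prod_mono hsub (Subset.refl (univ : Set ℝ))))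
    exact h1.congr fun q hq => pd_eq_Qk hp h (hsub hq.1) q.2

/-- **linear growth of `Y`**, in product form -/
theorem pd_log_growth {A : SD} (hB : Back A) (x0 : ℝ) : ∀ ε : ℝ, 0 < ε → ∃ M, 0 ≤ M ∧
    ∀ t ∈ Icc ε A.T, ∀ x, |deriv (pd A x0 t) x| ≤ M * (1 + |x|) * pd A x0 t x := by
  obtain ⟨Mu, hMu, hu⟩ := exists_M hB
  obtain ⟨M2, hb⟩ := hB.bsys
  refine cells_induct A x0 (fun s => ∀ ε : ℝ, 0 < ε → ∃ M, 0 ≤ M ∧
    ∀ t ∈ Icc ε s, ∀ x, |deriv (pd A x0 t) x| ≤ M * (1 + |x|) * pd A x0 t x) ?_ ?_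
  · intro ε hε
    exact ⟨0, le_rfl, fun t ht => absurd (lt_of_lt_of_le hε ht.1) (not_lt.2 ht.2)⟩
  · intro a b z hc hp ih ε hε
    have hzd : 0 ≤ z / A.d := div_nonneg hc.z0.le A.hd.le
    -- it suffices to bound θ on (a,b] ∩ [ε,b]
    have hdrift : ∀ t ∈ Icc a b, ∀ x, |z / A.D t * A.u t x| ≤ z / A.d * Mu * (1 + |x|) := by
      intro t ht x
      have hr0 : 0 ≤ z / A.D t := div_nonneg hc.z0.le (A.D_pos t).le
      have hu0 := hb.u_nonneg t (hc.mem ht) x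
      rw [abs_of_nonneg (mul_nonneg hr0 hu0), mul_assoc]
      exact mul_le_mul (ratio_le hc t) (hu t (hc.mem ht) x) hu0 hzd
    have key : ∃ M, 0 ≤ M ∧ ∀ t ∈ Icc ε b, a < t → ∀ x,
        |deriv (pd A x0 t) x| ≤ M * (1 + |x|) * pd A x0 t x := by
      rcases eq_or_lt_of_le hc.a0 with h | h
      · have hT := th_zero hB hc hp h.symm
        refine ⟨z / A.d * Mu + (1 + |x0|) / ε, by positivity, fun t ht hat x => ?_⟩
        have htp : 0 < t := lt_of_lt_of_le hε ht.1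
        have htT : t ∈ Ioc 0 A.T := ⟨htp, ht.2.trans hc.bT⟩
        have hpp := (pd_sg hB x0 t htT).2 x
        rw [hT.form t ⟨hat, ht.2⟩ x, abs_mul, abs_of_pos hpp]
        refine mul_le_mul_of_nonneg_right ?_ hpp.le
        refine (abs_add_le _ _).trans ?_
        rw [add_mul]
        refine add_le_add (hdrift t ⟨hat.le, ht.2⟩ x) ?_
        rw [abs_div, abs_neg, abs_of_pos htp, div_mul_eq_mul_div]
        have h1 : |x - x0| ≤ (1 + |x0|) * (1 + |x|) := by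
          have h2 := abs_sub x x0
          have h3 : 0 ≤ |x0| * |x| := by positivity
          linarith
        exact div_le_div₀ (by positivity) h1 hε ht.1
      · have haT : a ∈ Ioc 0 A.T := ⟨h, hc.ab.le.trans hc.bT⟩
        obtain ⟨hsg, hpos⟩ := pd_sg hB x0 a haT
        obtain ⟨Ma, hMa, hMa2⟩ := ih (min ε a) (lt_min hε h)
        have hMa3 := hMa2 a ⟨min_le_right _ _, le_rfl⟩
        have hq := qa_sg (z := z) hB hc hsg
        have hqpos : ∀ x, 0 < qa A x0 z a x := fun x => div_pos (hpos x) (Gz_pos A z a x)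
        -- growth of `qa`
        have hqg : ∀ x, |deriv (qa A x0 z a) x| ≤
            (Ma + z / A.d * Mu) * (1 + |x|) * qa A x0 z a x := by
          intro x
          have hg0 := Gz_pos A z a x
          have h1 := (hsg.hd x).fun_div (Gz_x hB z (hc.mem hc.aI) x) hg0.ne'
          have h2 : deriv (qa A x0 z a) x = (deriv (pd A x0 a) x -
              z / A.D a * A.u a x * pd A x0 a x) / Gz A z a x := by
            have h3 : HasDerivAt (qa A x0 z a) _ x := h1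
            rw [h3.deriv]
            field_simp
          rw [h2, abs_div, abs_of_pos hg0]
          unfold qa
          rw [← mul_div_assoc]
          refine div_le_div_of_nonneg_right ?_ hg0.le
          have h4 : |z / A.D a * A.u a x * pd A x0 a x| ≤
              z / A.d * Mu * (1 + |x|) * pd A x0 a x := by
            rw [abs_mul, abs_of_pos (hpos x)]
            exact mul_le_mul_of_nonneg_right (hdrift a hc.aI x) (hpos x).le
          calc |deriv (pd A x0 a) x - z / A.D a * A.u a x * pd A x0 a x|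
              ≤ |deriv (pd A x0 a) x| + |z / A.D a * A.u a x * pd A x0 a x| := abs_sub _ _
            _ ≤ Ma * (1 + |x|) * pd A x0 a x + z / A.d * Mu * (1 + |x|) * pd A x0 a x :=
              add_le_add (hMa3 x) h4
            _ = _ := by ring
        have hkl := kappa_lt hc hc.bI
        rw [Real.sq_sqrt (by linarith [hc.ab])] at hkl
        obtain ⟨M', hM', hM'2⟩ := log_growth (kappa_nonneg hc) (L := b - a)
          (by linarith [hc.ab]) hkl hq hqpos hqg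
        obtain ⟨θ, θ1, θ2, hT, hθ⟩ := th_pos hB hc hp h
        refine ⟨z / A.d * Mu + M', by positivity, fun t ht hat x => ?_⟩
        have htI : t ∈ Icc a b := ⟨hat.le, ht.2⟩
        have htT : t ∈ Ioc 0 A.T := ⟨h.trans hat, ht.2.trans hc.bT⟩
        have hpp := (pd_sg hB x0 t htT).2 x
        rw [hT.form t ⟨hat, ht.2⟩ x, abs_mul, abs_of_pos hpp]
        refine mul_le_mul_of_nonneg_right ?_ hpp.le
        refine (abs_add_le _ _).trans ?_
        rw [add_mul]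
        refine add_le_add (hdrift t htI x) ?_
        rw [hθ]
        have hQ0 : 0 < Qk A a (qa A x0 z a) t x :=
          GG_534.H_pos (kappa_nonneg hc) hq.gg hqpos (kappa_lt hc htI) x
        rw [abs_div, abs_of_pos hQ0, div_le_iff₀ hQ0]
        exact hM'2 (Real.sqrt (t - a)) (by
          rw [Real.sq_sqrt (by linarith)]
          linarith [ht.2]) x
    obtain ⟨M1, hM1, hM1'⟩ := ih ε hε
    obtain ⟨M3, hM3, hM3'⟩ := key
    refine ⟨M1 + M3, by positivity, fun t ht x => ?_⟩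
    have htp : 0 < t := lt_of_lt_of_le hε ht.1
    have htT : t ∈ Ioc 0 A.T := ⟨htp, ht.2.trans hc.bT⟩
    have hpp := (pd_sg hB x0 t htT).2 x
    have h0 : 0 ≤ (1 + |x|) * pd A x0 t x := by positivity
    rcases le_or_gt t a with h | h
    · have h1 := hM1' t ⟨ht.1, h⟩ x
      nlinarith
    · have h1 := hM3' t ht h x
      nlinarith

theorem Y_le {A : SD} (hB : Back A) (x0 : ℝ) {ε : ℝ} (hε : 0 < ε) : ∃ M, 0 ≤ M ∧
    ∀ t ∈ Icc ε A.T, ∀ x, |Yp A x0 t x| ≤ M * (1 + |x|) := by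
  obtain ⟨M, hM, h⟩ := pd_log_growth hB x0 ε hε
  refine ⟨M, hM, fun t ht x => ?_⟩
  have hpp := (pd_sg hB x0 t ⟨lt_of_lt_of_le hε ht.1, ht.2⟩).2 x
  unfold Yp
  rw [abs_div, abs_neg, abs_of_pos hpp, div_le_iff₀ hpp]
  exact h t ht x

theorem bl_bd (A : SD) : ∃ M, 0 ≤ M ∧ ∀ t ∈ Ioc 0 A.T, A.bl t ≤ M := by
  refine cells_induct A 0 (fun s => ∃ M, 0 ≤ M ∧ ∀ t ∈ Ioc 0 s, A.bl t ≤ M) ?_ ?_
  · exact ⟨0, le_rfl, fun t ht => absurd ht.1 (not_lt.2 ht.2)⟩
  · rintro a b z hc _ ⟨M, hM, h⟩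
    have hzd : 0 ≤ z / A.d := div_nonneg hc.z0.le A.hd.le
    refine ⟨M + z / A.d, by positivity, fun t ht => ?_⟩
    rcases le_or_gt t a with h1 | h1
    · have := h t ⟨ht.1, h1⟩
      linarith
    · rw [bl_eq hc ⟨h1, ht.2⟩]
      have := ratio_le hc t
      linarith

end

end Crest.Agent.R146.YB_534
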