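import Crest.Agent.R146.YWStep_177
import Crest.Agent.R146.PtLim_847
import Crest.Agent.R146.PtWinLim_489

/-!
Row 146, PT-CMP (helper177): sequence forms (`PtLim_847.Late`) of the window, the positions and the law band.

* `late_mono`, `late_and`;
* `late_win`  : `Win P 1 lo hi` ⇒ on `[t2, T_n)` `0 ≤ m K0 ≤ hi + ε`, on `[t2, q]` also `lo - ε ≤ m K0`, both one-sided
  versions of the weight;
* `late_wn`   : the same in the form `YWStep_177.Wn`;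
* `late_adm`  : late slope bands ⇒ late `AdmR` and `u_le`;
* `late_law`  : late window + late slope bands (+ START = `PreSeq.Ys`) ⇒ late law band.
-/

set_option autoImplicit false

open Set Filter Topology MeasureTheory

namespace Crest.Agent.R146.YWLate_177

open YW_177 YWRef_177 YWStep_177 StepDef_791 StepApx_856 TipSeq_791 PtRef_846 PtLim_847
open Crest.Agent.R146.PtScalA_45 (Prof)

variable {P : Prof} {T S : ℝ → ℝ} {Q : PreSeq P T S}

/-! ### the quantifier -/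

theorem late_mono {Φ Ψ : ℝ → ℕ → ℝ → Prop} (h : Late Q Φ) (c : ℝ → ℝ) (hc : ∀ ε, 0 < ε → 0 < c ε)
    (hi : ∀ ε, 0 < ε → ∀ n t, t ∈ Icc 0 (Q.A n).T → Φ (c ε) n t → Ψ ε n t) : Late Q Ψ := by
  intro ε hε
  obtain ⟨t2, ht2, h2⟩ := h (c ε) (hc ε hε)
  refine ⟨t2, ht2, fun q hq => ?_⟩
  filter_upwards [h2 q hq] with n hn
  exact ⟨hn.1, fun t ht => hi ε hε n t ⟨ht2.1.trans ht.1, ht.2.trans hn.1.le⟩ (hn.2 t ht)⟩

theorem late_and {Φ Ψ : ℝ → ℕ → ℝ → Prop} (h : Late Q Φ) (h' : Late Q Ψ) :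
    Late Q fun ε n t => Φ ε n t ∧ Ψ ε n t := by
  intro ε hε
  obtain ⟨t2, ht2, h2⟩ := h ε hε
  obtain ⟨t3, ht3, h3⟩ := h' ε hε
  refine ⟨max t2 t3, ⟨ht2.1.trans (le_max_left _ _), max_lt ht2.2 ht3.2⟩, fun q hq => ?_⟩
  filter_upwards [h2 q ⟨(le_max_left _ _).trans_lt hq.1, hq.2⟩,
    h3 q ⟨(le_max_right _ _).trans_lt hq.1, hq.2⟩] with n hn hn'
  exact ⟨hn.1, fun t ht => ⟨hn.2 t ⟨(le_max_left _ _).trans ht.1, ht.2⟩,
    hn'.2 t ⟨(le_max_right _ _).trans ht.1, ht.2⟩⟩⟩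

/-! ### the window -/

/-- **window of the step systems**: for every `ε > 0` there is `t2 < 1` such that eventually in `n`
`m K0 ≤ hi + ε` on `[t2, T_n)`, and for every `q < 1` eventually `lo - ε ≤ m K0` on `[t2, q]`. -/
theorem late_win {lo hi : ℝ} (hW : Win P 1 lo hi) {ε : ℝ} (hε : 0 < ε) : ∃ t2 ∈ Ico (0:ℝ) 1,
    (∀ᶠ n in atTop, (∀ x ∈ Ico t2 (Q.A n).T, (Q.A n).m x * (Q.A n).K0 x ≤ hi + ε) ∧
      ∀ x ∈ Icc t2 (Q.A n).T, (Q.A n).ml x * (Q.A n).K0 x ≤ hi + ε) ∧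
    ∀ q < 1, ∀ᶠ n in atTop, ∀ x ∈ Icc t2 q, lo - ε ≤ (Q.A n).m x * (Q.A n).K0 x ∧
      lo - ε ≤ (Q.A n).ml x * (Q.A n).K0 x := by
  obtain ⟨ta, hta1, hta0, hta⟩ := hW (ε / 2) (by positivity)
  have hYs : ∀ x, Ystar P 1 x = P.m x * Ks P.D x := fun x => by
    unfold Ystar; rw [if_neg (by norm_num)]
  have hup : ∀ x ∈ Ico ta 1, P.m x * Ks P.D x ≤ hi + ε / 2 := fun x hx => by
    have := (hta x hx).2
    rwa [hYs] at this
  have hlo : ∀ x ∈ Ico ta 1, lo - ε / 2 ≤ P.m x * Ks P.D x := fun x hx => by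
    have := (hta x hx).1
    rwa [hYs] at this
  have h1 : ta < (ta + 1) / 2 := by linarith
  have h2 : (ta + 1) / 2 < 1 := by linarith
  refine ⟨(ta + 1) / 2, ⟨by linarith, h2⟩, ?_, fun q hq => ?_⟩
  · filter_upwards [ev_win_up Q.apx Q.ε_lim hta0 h1 h2 hup (δ := ε / 2) (by positivity)] with n hn
    refine ⟨fun x hx => ?_, fun x hx => ?_⟩
    · have := hn.1 x hx; linarith
    · have := hn.2 x hx; linarith
  · filter_upwards [ev_win_lo Q.apx Q.ε_lim hta0 h1 h2 hq hlo (δ := ε / 2) (by positivity)]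
      with n hn x hx
    have := hn x hx
    constructor <;> linarith [this.1, this.2]

/-- the window in the form `Wn` -/
theorem late_wn {lo hi : ℝ} (hW : Win P 1 lo hi) :
    Late Q fun ε n t => Wn (Q.A n) lo hi ε t := by
  intro ε hε
  obtain ⟨t2, ht2, h1, h2⟩ := late_win (Q := Q) hW hε
  refine ⟨t2, ht2, fun q hq => ?_⟩
  filter_upwards [h1, h2 q hq.2, ev_T Q hq.2] with n hn1 hn2 hn3
  refine ⟨hn3, fun t ht => ⟨?_, (hn2 t ht).2, hn1.2 t ⟨ht.1, ht.2.trans hn3.le⟩⟩⟩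
  exact mul_nonneg ((Q.A n).ml_nonneg t) ((Q.clock n).K0_pos t (ht.2.trans_lt hq.2)).le

/-! ### positions -/

variable {lo hi tlo thi e0 κ M : ℝ} {D : WData}

/-- late slope bands give late admissibility -/
theorem late_adm (hw : WS lo hi tlo thi e0 κ M D)
    (hsl : Late Q fun ε n t => SBand (Q.A n) D ε t) :
    Late Q fun _ n t => ∀ x, AdmR e0 D ((Q.A n).V t x) (sN (Q.A n) t * (Q.A n).w t x)
        ((Q.A n).P t x / sN (Q.A n) t) ∧
      sN (Q.A n) t * (Q.A n).u t x ≤ (1 + e0) * D.Ub ((Q.A n).V t x) := by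
  have h0 := hw.e0_pos
  refine late_mono hsl (fun _ => e0 / 2) (fun _ _ => by positivity) fun ε _ n t ht hb x => ?_
  exact ⟨adm_of hw (Q.back n) (Q.clock n) ht (by positivity) le_rfl hb x,
    u_le hw (Q.back n) (Q.clock n) ht (by positivity) le_rfl hb x⟩

/-! ### the law band -/

/-- **late law band** -/
theorem late_law (hw : WS lo hi tlo thi e0 κ M D)
    (hwin : Late Q fun ε n t => Wn (Q.A n) lo hi ε t)
    (hsl : Late Q fun ε n t => SBand (Q.A n) D ε t) :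
    Late Q fun ε n t => ∀ x,
      sN (Q.A n) t * (D.Fm (sN (Q.A n) t * (Q.A n).w t x) - ε * (1 + sN (Q.A n) t * (Q.A n).u t x))
        ≤ Q.Y n t x ∧
      Q.Y n t x ≤ sN (Q.A n) t *
        (D.Fp (sN (Q.A n) t * (Q.A n).w t x) + ε * (1 + sN (Q.A n) t * (Q.A n).w t x)) := by
  intro ε hε
  have he0 := hw.e0_pos
  obtain ⟨ta, hta, ha⟩ := hwin e0 he0
  obtain ⟨tb, htb, hb⟩ := hsl (e0 / 2) (by positivity)
  -- base time
  set t0 : ℝ := max (max ta tb) (1 / 2) with ht0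
  have h01 : t0 < 1 := max_lt (max_lt hta.2 htb.2) (by norm_num)
  have h00 : 0 < t0 := lt_of_lt_of_le (by norm_num) (le_max_right _ _)
  have hta0 : ta ≤ t0 := (le_max_left _ _).trans (le_max_left _ _)
  have htb0 : tb ≤ t0 := (le_max_right _ _).trans (le_max_left _ _)
  obtain ⟨C, hC⟩ := Q.Ys t0 ⟨h00, h01⟩
  -- the scale at the base time
  have hpos := Q.pos
  have hint := Q.int1
  have hscs : 0 < WinLim_746.scs true P t0 := WinLim_746.scs_pos hpos hint true ⟨h00.le, h01⟩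
  have hsc := sc_lim Q true (t := t0) ⟨h00.le, h01⟩
  set s0 : ℝ := (Real.sqrt (WinLim_746.scs true P t0 + 1))⁻¹ with hs0
  have hs00 : 0 < s0 := inv_pos.2 (Real.sqrt_pos.2 (by linarith))
  obtain ⟨r, hr0, hr⟩ := law_band hw (C0 := |C|) (s0 := s0) (ε := ε) (abs_nonneg _) hs00 hε
  -- the late time
  have hK : 0 < Ks P.D t0 := by
    have : WinLim_746.scs true P t0 = P.D t0 * Ks P.D t0 := by simp [WinLim_746.scs]
    rw [this] at hscs
    exact (mul_pos_iff_of_pos_left (hpos t0 ⟨h00.le, h01⟩)).1 hscs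
  have hKc := (WinLim_746.Ks_cont hint) 1 ⟨zero_le_one, le_rfl⟩
  have hK1 : Ks P.D 1 = 0 := by unfold Ks; exact intervalIntegral.integral_same
  have hKt : Tendsto (Ks P.D) (𝓝[Icc 0 1] 1) (𝓝 0) := by
    have := hKc.tendsto
    rwa [hK1] at this
  have hev : ∀ᶠ t in 𝓝[<] (1:ℝ), Ks P.D t < r * Ks P.D t0 := by
    have h1 : 𝓝[Ioo 0 1] (1:ℝ) ≤ 𝓝[Icc 0 1] 1 := nhdsWithin_mono _ Ioo_subset_Icc_self
    have h2 : 𝓝[Ioo 0 1] (1:ℝ) = 𝓝[<] 1 := nhdsWithin_Ioo_eq_nhdsLT one_pos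
    rw [← h2]
    exact (hKt.mono_left h1).eventually (gt_mem_nhds (mul_pos hr0 hK))
  obtain ⟨t2, ht2a, ht2b⟩ : ∃ t2, Ks P.D t2 < r * Ks P.D t0 ∧ t2 ∈ Ioo t0 1 :=
    (hev.and (Ioo_mem_nhdsLT h01)).exists
  refine ⟨t2, ⟨h00.le.trans ht2b.1.le, ht2b.2⟩, fun q hq => ?_⟩
  have hK2 : ∀ᶠ n in atTop, (Q.A n).K0 t2 < r * (Q.A n).K0 t0 := by
    have l1 := K0_lim Q (t := t2) ⟨h00.le.trans ht2b.1.le, ht2b.2.le⟩
    have l2 := (K0_lim Q (t := t0) ⟨h00.le, h01.le⟩).const_mul r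
    exact l1.eventually_lt l2 ht2a
  have hs2 : ∀ᶠ n in atTop, WinLim_746.sc true (Q.A n) t0 < WinLim_746.scs true P t0 + 1 :=
    hsc.eventually (gt_mem_nhds (by linarith))
  have hqa : q ∈ Ioo ta 1 := ⟨(hta0.trans_lt ht2b.1).trans hq.1, hq.2⟩
  have hqb : q ∈ Ioo tb 1 := ⟨(htb0.trans_lt ht2b.1).trans hq.1, hq.2⟩
  filter_upwards [ha q hqa, hb q hqb, hC, hK2, hs2] with n hna hnb hnC hnK hns
  refine ⟨hna.1, fun t ht x => ?_⟩
  have hclk := Q.clock n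
  have hchi : 0 < (Q.A n).chi t0 := hclk.chi_pos t0 h01
  have hsN : s0 ≤ sN (Q.A n) t0 := by
    have h1 : (Q.A n).chi t0 < WinLim_746.scs true P t0 + 1 := by
      simpa [WinLim_746.sc] using hns
    exact inv_anti₀ (Real.sqrt_pos.2 hchi) (Real.sqrt_le_sqrt h1.le)
  have hq0 : t0 < q := ht2b.1.trans hq.1
  refine hr (Q.A n) 1 (Q.p n) (Q.Y n) (Q.Yx n) (Q.Yxx n) (Q.back n) hclk (Q.law n) t0 q h00
    (hq0.trans hna.1) hna.1.le hsN (fun t ht => hna.2 t ⟨hta0.trans ht.1.le, ht.2⟩)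
    (fun t ht => hnb.2 t ⟨htb0.trans ht.1.le, ht.2⟩) (fun y => ?_) t
    ⟨ht2b.1.le.trans ht.1, ht.2⟩ ?_ x
  · have hT0 : t0 ∈ Icc 0 (Q.A n).T := ⟨h00.le, (hq0.trans hna.1).le⟩
    have hu := (Q.back n).u_pos t0 hT0 y
    have hw' := (Q.back n).w_pos t0 hT0 y
    have hCC : C ≤ |C| := le_abs_self C
    refine ⟨?_, ?_⟩
    · refine le_trans ?_ (hnC y).1
      have := mul_le_mul_of_nonneg_right hCC (by linarith : (0:ℝ) ≤ 1 + (Q.A n).u t0 y)
      linarith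
    · refine (hnC y).2.trans ?_
      exact mul_le_mul_of_nonneg_right hCC (by linarith : (0:ℝ) ≤ 1 + (Q.A n).w t0 y)
  · exact ((PtWinLim_489.K0_anti hclk) ht.1).trans hnK.le

end Crest.Agent.R146.YWLate_177
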