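import Crest.Agent.R146.YWRef_177
import Crest.Agent.R146.PtRef_846

/-!
Row 146, PT-CMP (helper177): the law half of `WS → Win` on the step system, against `PtRef_846.WS`.

* `SBand A D e t` : the one-time slope band `(1-e) s K₋(V) ≤ P ≤ (1+e) s K₊(V)`, `s = χ^{-1/2}`;
* `adm_of` : slope band ⇒ `AdmR` at every `x` (static positions); `u_le` : `s u ≤ (1+e0) Ub(V)`;
* `law_band` : slope bands + window + start on `[t0,q]` ⇒ two-sided law band with an `ε (1 + s w)`, `ε (1 + s u)` error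
  as soon as `K0 t ≤ r K0 t0`, `r` depending only on the constants.
-/

set_option autoImplicit false

open Set Filter Topology

namespace Crest.Agent.R146.YWStep_177

open MaxP_371 MaxP2_371 MaxPCmp_371 MaxPCmp2_371 YW_177 YWRef_177 StepDef_791 StepLim_692 PtRef_846

variable {lo hi tlo thi e0 κ M : ℝ} {D : WData}

/-- one-time slope band -/
def SBand (A : SD) (D : WData) (e t : ℝ) : Prop :=
  ∀ x, (1 - e) * (sN A t * D.Km (A.V t x)) ≤ A.P t x ∧
    A.P t x ≤ (1 + e) * (sN A t * D.Kp (A.V t x))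

/-! ### positions -/

/-- a primitive from `0` with nonnegative derivative is nonnegative -/
lemma nonneg_of_lim {N N' : ℝ → ℝ} (hN : ∀ v ∈ Ioo (0:ℝ) 1, HasDerivAt N (N' v) v)
    (hN' : ∀ v ∈ Ioo (0:ℝ) 1, 0 ≤ N' v) (hlim : Tendsto N (𝓝[>] 0) (𝓝 0)) :
    ∀ v ∈ Ioo (0:ℝ) 1, 0 ≤ N v := by
  intro v hv
  have hmono : MonotoneOn N (Ioo 0 1) := by
    refine monotoneOn_of_deriv_nonneg (convex_Ioo 0 1)
      (fun x hx => (hN x hx).continuousAt.continuousWithinAt) ?_ ?_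
    · rw [interior_Ioo]
      exact fun x hx => (hN x hx).differentiableAt.differentiableWithinAt
    · rw [interior_Ioo]
      intro x hx
      rw [(hN x hx).deriv]
      exact hN' x hx
  refine le_of_tendsto hlim ?_
  filter_upwards [Ioo_mem_nhdsGT hv.1] with y hy
  exact hmono ⟨hy.1, hy.2.trans hv.2⟩ hv hy.2.le

/-- a primitive from `1` with nonpositive derivative is nonnegative -/
lemma nonneg_of_lim1 {N N' : ℝ → ℝ} (hN : ∀ v ∈ Ioo (0:ℝ) 1, HasDerivAt N (N' v) v)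
    (hN' : ∀ v ∈ Ioo (0:ℝ) 1, N' v ≤ 0) (hlim : Tendsto N (𝓝[<] 1) (𝓝 0)) :
    ∀ v ∈ Ioo (0:ℝ) 1, 0 ≤ N v := by
  intro v hv
  have hmono : AntitoneOn N (Ioo 0 1) := by
    refine antitoneOn_of_deriv_nonpos (convex_Ioo 0 1)
      (fun x hx => (hN x hx).continuousAt.continuousWithinAt) ?_ ?_
    · rw [interior_Ioo]
      exact fun x hx => (hN x hx).differentiableAt.differentiableWithinAt
    · rw [interior_Ioo]
      intro x hx
      rw [(hN x hx).deriv]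
      exact hN' x hx
  refine le_of_tendsto hlim ?_
  filter_upwards [Ioo_mem_nhdsLT hv.2] with y hy
  exact hmono hv ⟨hv.1.trans hy.1, hy.2⟩ hy.1.le

/-- `le_pos` with `P ≥ 0` instead of `N' ≥ 0` -/
theorem le_pos' {w V P : ℝ → ℝ} {s : ℝ} {K N N' : ℝ → ℝ} (hs : 0 < s)
    (hw : ∀ x, HasDerivAt w (V x) x) (hV : ∀ x, HasDerivAt V (P x) x)
    (hVm : ∀ x, V x ∈ Ioo (0:ℝ) 1) (hP : ∀ x, 0 ≤ P x) (hlim : Tendsto w atBot (𝓝 0))
    (hVlim : Tendsto V atBot (𝓝 0))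
    (hN : ∀ v ∈ Ioo (0:ℝ) 1, HasDerivAt N (N' v) v)
    (hN' : ∀ v ∈ Ioo (0:ℝ) 1, N' v * K v ≤ v) (hN0 : Tendsto N (𝓝[>] 0) (𝓝 0))
    (hband : ∀ x, P x ≤ s * K (V x)) (x : ℝ) : N (V x) ≤ s * w x := by
  have hd : ∀ x, HasDerivAt (fun x => s * w x - N (V x)) (s * V x - N' (V x) * P x) x := fun x =>
    ((hw x).const_mul s).sub ((hN _ (hVm x)).comp x (hV x))
  have hmono : Monotone (fun x => s * w x - N (V x)) := by
    apply monotone_of_deriv_nonneg (fun x => (hd x).differentiableAt)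
    intro x
    rw [(hd x).deriv]
    have h3 := mul_le_mul_of_nonneg_left (hN' _ (hVm x)) hs.le
    rcases le_or_gt 0 (N' (V x)) with h0 | h0
    · have h2 := mul_le_mul_of_nonneg_left (hband x) h0
      have h4 : N' (V x) * (s * K (V x)) = s * (N' (V x) * K (V x)) := by ring
      linarith
    · have h2 : N' (V x) * P x ≤ 0 := mul_nonpos_of_nonpos_of_nonneg h0.le (hP x)
      have h5 : 0 ≤ s * V x := mul_nonneg hs.le (hVm x).1.le
      linarith
  have hV' : Tendsto V atBot (𝓝[>] 0) :=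
    tendsto_nhdsWithin_iff.2 ⟨hVlim, Eventually.of_forall fun y => (hVm y).1⟩
  have hlim' : Tendsto (fun y => s * w y - N (V y)) atBot (𝓝 (s * 0 - 0)) :=
    (hlim.const_mul s).sub (hN0.comp hV')
  have h5 : s * 0 - 0 ≤ s * w x - N (V x) := by
    refine le_of_tendsto hlim' ?_
    filter_upwards [eventually_le_atBot x] with y hy
    exact hmono hy
  linarith

/-- position of `u`: `s K(V) ≤ P`, `1 - v ≤ -N'(v) K(v)`, `N(1-) = 0` give `s u ≤ N(V)`. -/
theorem u_pos_le {u V P : ℝ → ℝ} {s : ℝ} {K N N' : ℝ → ℝ} (hs : 0 < s)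
    (hu : ∀ x, HasDerivAt u (V x - 1) x) (hV : ∀ x, HasDerivAt V (P x) x)
    (hVm : ∀ x, V x ∈ Ioo (0:ℝ) 1) (hlim : Tendsto u atTop (𝓝 0))
    (hVlim : Tendsto V atTop (𝓝 1))
    (hN : ∀ v ∈ Ioo (0:ℝ) 1, HasDerivAt N (N' v) v) (hN'0 : ∀ v ∈ Ioo (0:ℝ) 1, N' v ≤ 0)
    (hN' : ∀ v ∈ Ioo (0:ℝ) 1, 1 - v ≤ -N' v * K v) (hN0 : Tendsto N (𝓝[<] 1) (𝓝 0))
    (hband : ∀ x, s * K (V x) ≤ P x) (x : ℝ) : s * u x ≤ N (V x) := by
  have hd : ∀ x, HasDerivAt (fun x => N (V x) - s * u x) (N' (V x) * P x - s * (V x - 1)) x :=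
    fun x => ((hN _ (hVm x)).comp x (hV x)).sub ((hu x).const_mul s)
  have hmono : Antitone (fun x => N (V x) - s * u x) := by
    apply antitone_of_deriv_nonpos (fun x => (hd x).differentiableAt)
    intro x
    rw [(hd x).deriv]
    have h1 := mul_le_mul_of_nonneg_left (hN' _ (hVm x)) hs.le
    have h2 := mul_le_mul_of_nonneg_left (hband x) (neg_nonneg.2 (hN'0 _ (hVm x)))
    have h4 : -N' (V x) * (s * K (V x)) = s * (-N' (V x) * K (V x)) := by ring
    linarith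
  have hV' : Tendsto V atTop (𝓝[<] 1) :=
    tendsto_nhdsWithin_iff.2 ⟨hVlim, Eventually.of_forall fun y => (hVm y).2⟩
  have hlim' : Tendsto (fun y => N (V y) - s * u y) atTop (𝓝 (0 - s * 0)) :=
    (hN0.comp hV').sub (hlim.const_mul s)
  have h5 : 0 - s * 0 ≤ N (V x) - s * u x := by
    refine le_of_tendsto hlim' ?_
    filter_upwards [eventually_ge_atTop x] with y hy
    exact hmono hy
  linarith

section adm

variable {A : SD} {e t : ℝ}

lemma t_lt (ht : t ∈ Icc 0 A.T) : t < 1 := ht.2.trans_lt A.hT1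

/-- **positions**: a one-time slope band gives `AdmR` at every point -/
theorem adm_of (hw : WS lo hi tlo thi e0 κ M D) (hA : Back A) (hC : Clock A)
    (ht : t ∈ Icc 0 A.T) (he0 : 0 ≤ e) (he : e ≤ e0 / 2) (hb : SBand A D e t) (x : ℝ) :
    AdmR e0 D (A.V t x) (sN A t * A.w t x) (A.P t x / sN A t) := by
  have hs := sN_pos hC (t_lt ht)
  have hVm : ∀ x, A.V t x ∈ Ioo (0:ℝ) 1 := fun x => V_mem hA ht x
  have h01 := hw.e0_pos
  have h02 := hw.e0_le
  have he1 : 0 < 1 - e := by linarith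
  have he2 : 0 < 1 + e := by linarith
  have hKm := fun x => hw.Km_pos _ (hVm x)
  have hKp := fun x => hw.Kp_pos _ (hVm x)
  have hNp1 : ∀ v ∈ Ioo (0:ℝ) 1, 0 ≤ D.Np1 v := by
    intro v hv
    by_contra hcon
    push Not at hcon
    have h1 := hw.Np_ge v hv
    have h2 := mul_neg_of_neg_of_pos hcon (hw.Km_pos v hv)
    linarith [hv.1]
  have hNp0 := nonneg_of_lim hw.dNp hNp1 hw.Np_lim
  refine ⟨(hVm x).1, (hVm x).2, mul_pos hs (hA.w_pos t ht x), ?_, ?_, ?_, ?_⟩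
  · have h1 := le_pos' (K := fun v => (1 + e) * D.Kp v) (N := fun v => (1 + e)⁻¹ * D.Nm v)
      (N' := fun v => (1 + e)⁻¹ * D.Nm1 v) hs (w_x hA ht) (hA.V_x t ht) hVm
      (fun x => (hA.P_pos t ht x).le) (w_bot hA ht) (V_bot hA ht)
      (fun v hv => (hw.dNm v hv).const_mul _)
      (fun v hv => by
        have h2 : (1 + e)⁻¹ * D.Nm1 v * ((1 + e) * D.Kp v) = D.Nm1 v * D.Kp v := by
          field_simp
        rw [h2]
        exact hw.Nm_le v hv)
      (by simpa using hw.Nm_lim.const_mul (1 + e)⁻¹)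
      (fun x => by
        have h3 := (hb x).2
        have h4 : sN A t * ((1 + e) * D.Kp (A.V t x)) = (1 + e) * (sN A t * D.Kp (A.V t x)) := by
          ring
        rw [h4]; exact h3) x
    refine le_trans ?_ h1
    refine mul_le_mul_of_nonneg_right ?_ (hw.Nm_nonneg _ (hVm x))
    rw [le_inv_comm₀ (by linarith) he2, ← one_div, le_div_iff₀ (by linarith)]
    nlinarith
  · have h1 := pos_le (K := fun v => (1 - e) * D.Km v) (N := fun v => (1 - e)⁻¹ * D.Np v)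
      (N' := fun v => (1 - e)⁻¹ * D.Np1 v) hs (w_x hA ht) (hA.V_x t ht) hVm
      (w_bot hA ht)
      (fun v hv => (hw.dNp v hv).const_mul _)
      (fun v hv => mul_nonneg (inv_nonneg.2 he1.le) (hNp1 v hv))
      (fun v hv => by
        have h2 : (1 - e)⁻¹ * D.Np1 v * ((1 - e) * D.Km v) = D.Np1 v * D.Km v := by
          field_simp
        rw [h2]
        exact hw.Np_ge v hv)
      (fun v hv => mul_nonneg (inv_nonneg.2 he1.le) (hNp0 v hv))
      (fun x => by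
        have h3 := (hb x).1
        have h4 : sN A t * ((1 - e) * D.Km (A.V t x)) = (1 - e) * (sN A t * D.Km (A.V t x)) := by
          ring
        rw [h4]; exact h3) x
    refine h1.trans ?_
    refine mul_le_mul_of_nonneg_right ?_ (hNp0 _ (hVm x))
    rw [inv_le_comm₀ he1 (by linarith), ← one_div, div_le_iff₀ (by linarith)]
    nlinarith
  · rw [le_div_iff₀ hs]
    have h3 := (hb x).1
    have h4 : 0 ≤ sN A t * D.Km (A.V t x) := mul_nonneg hs.le (hKm x).le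
    nlinarith
  · rw [div_le_iff₀ hs]
    have h3 := (hb x).2
    have h4 : 0 ≤ sN A t * D.Kp (A.V t x) := mul_nonneg hs.le (hKp x).le
    nlinarith

/-- position of `u` -/
theorem u_le (hw : WS lo hi tlo thi e0 κ M D) (hA : Back A) (hC : Clock A)
    (ht : t ∈ Icc 0 A.T) (he0 : 0 ≤ e) (he : e ≤ e0 / 2) (hb : SBand A D e t) (x : ℝ) :
    sN A t * A.u t x ≤ (1 + e0) * D.Ub (A.V t x) := by
  have hs := sN_pos hC (t_lt ht)
  have hVm : ∀ x, A.V t x ∈ Ioo (0:ℝ) 1 := fun x => V_mem hA ht x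
  have h01 := hw.e0_pos
  have h02 := hw.e0_le
  have he1 : 0 < 1 - e := by linarith
  have hUb1 : ∀ v ∈ Ioo (0:ℝ) 1, D.Ub1 v ≤ 0 := by
    intro v hv
    by_contra hcon
    push Not at hcon
    have h1 := hw.Ub_ge v hv
    have h2 := mul_pos hcon (hw.Km_pos v hv)
    have h3 : -D.Ub1 v * D.Km v = -(D.Ub1 v * D.Km v) := by ring
    linarith [hv.2]
  have hUb0 := nonneg_of_lim1 hw.dUb hUb1 hw.Ub_lim
  have h1 := u_pos_le (K := fun v => (1 - e) * D.Km v) (N := fun v => (1 - e)⁻¹ * D.Ub v)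
      (N' := fun v => (1 - e)⁻¹ * D.Ub1 v) hs (hA.u_x t ht) (hA.V_x t ht) hVm
      (u_top hA ht) (V_top hA ht)
      (fun v hv => (hw.dUb v hv).const_mul _)
      (fun v hv => mul_nonpos_of_nonneg_of_nonpos (inv_nonneg.2 he1.le) (hUb1 v hv))
      (fun v hv => by
        have h2 : -((1 - e)⁻¹ * D.Ub1 v) * ((1 - e) * D.Km v) = -D.Ub1 v * D.Km v := by
          field_simp
        rw [h2]
        exact hw.Ub_ge v hv)
      (by simpa using hw.Ub_lim.const_mul (1 - e)⁻¹)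
      (fun x => by
        have h3 := (hb x).1
        have h4 : sN A t * ((1 - e) * D.Km (A.V t x)) = (1 - e) * (sN A t * D.Km (A.V t x)) := by
          ring
        rw [h4]; exact h3) x
  refine h1.trans ?_
  refine mul_le_mul_of_nonneg_right ?_ (hUb0 _ (hVm x))
  rw [inv_le_comm₀ he1 (by linarith), ← one_div, div_le_iff₀ (by linarith)]
  nlinarith

end adm

/-! ### the law band -/

section law

variable {A : SD} {x0 : ℝ} {p Y Yx Yxx : ℝ → ℝ → ℝ} {t0 q k B θ0 : ℝ}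

/-- the window of `Y = m K0` on `(t0, q]` -/
def Wn (A : SD) (lo hi e0 t : ℝ) : Prop :=
  0 ≤ A.ml t * A.K0 t ∧ lo - e0 ≤ A.ml t * A.K0 t ∧ A.ml t * A.K0 t ≤ hi + e0

/-- **upper law band** with explicit transient -/
theorem law_up (hw : WS lo hi tlo thi e0 κ M D) (hA : Back A) (hC : Clock A)
    (hL : Law A x0 p Y Yx Yxx) (h0 : 0 < t0) (h0T : t0 < A.T) (hq : q ≤ A.T)
    (hB : 0 ≤ B) (hk : k ≤ 1 / 2) (hBk : (1 + e0) * M ≤ B * (κ - k)) (hθ : 0 ≤ θ0)
    (hn : ∀ t ∈ Ioc t0 q, Wn A lo hi e0 t) (hb : ∀ t ∈ Ioc t0 q, SBand A D (e0 / 2) t)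
    (hstart : ∀ x, Y t0 x ≤ sN A t0 * (θ0 * (B + sN A t0 * A.w t0 x))) :
    ∀ t ∈ Icc t0 q, ∀ x, Y t x ≤
      sN A t * (D.Fp (sN A t * A.w t x) + thN A t0 θ0 k t * (B + sN A t * A.w t x)) := by
  have h01 : t0 < 1 := h0T.trans A.hT1
  obtain ⟨M', hYs⟩ := hL.ysys t0 ⟨h0, h0T⟩
  have hYq := YSys.restrict hYs hq
  have hLq := LSys.restrict (LSys.of_back hA h0.le) hq
  have hCq := LClock.restrict (lclock_new hC h0 h01 θ0 k) hq
  have hlt : ∀ t ∈ Icc t0 q, t < 1 := fun t ht => (ht.2.trans hq).trans_lt A.hT1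
  have hy : ∀ t ∈ Ioc t0 q, A.bl t / sN A t ^ 2 = A.ml t * A.K0 t :=
    fun t ht => y_eq hC (hlt t ⟨ht.1.le, ht.2⟩)
  have hI : ∀ t ∈ Ioc t0 q, t ∈ Icc 0 A.T := fun t ht => ⟨(h0.trans ht.1).le, ht.2.trans hq⟩
  have e1 := hw.e0_pos
  have hadm : ∀ t ∈ Ioc t0 q, ∀ x,
      AdmR e0 D (A.V t x) (sN A t * A.w t x) (A.P t x / sN A t) := fun t ht x =>
    adm_of hw hA hC (hI t ht) (by linarith) le_rfl (hb t ht) x
  have h0I : t0 ∈ Icc 0 A.T := ⟨h0.le, h0T.le⟩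
  refine law_le_trans (F := D.Fp) (F1 := D.Fp1) (F2 := D.Fp2) (Fm := 0) (μ := κ)
    (Im := (1 + e0) * M) hYq hLq hCq zero_le_one le_rfl
    hw.dFp hw.dFp1 hk hB (fun t ht => thN_nonneg hC h01 (hlt t ht) hθ) le_rfl hw.κ_pos.le
    (by linarith) (fun η hη => by have := hw.Fp_nonneg η hη; linarith) ?_ ?_ ?_ ?_
  · intro t ht x
    rw [hy t ht]
    obtain ⟨n1, n2, n3⟩ := hn t ht
    have := hw.pot_p _ _ _ _ (hadm t ht x) n1 n2 n3
    unfold PotR at this
    unfold Pot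
    rw [one_mul]
    exact this
  · intro t ht x
    have h1 := (hadm t ht x).J_hi
    have h2 := hw.Kp_le _ (V_mem hA (hI t ht) x)
    have h3 : (1 + e0) * D.Kp (A.V t x) ≤ (1 + e0) * M :=
      mul_le_mul_of_nonneg_left h2 (by linarith)
    exact h1.trans h3
  · intro t ht x
    rw [hy t ht]
    obtain ⟨n1, n2, n3⟩ := hn t ht
    exact hw.law_p _ _ _ _ (hadm t ht x) n1 n2 n3
  · intro x
    rw [thN_self hC h01]
    refine (hstart x).trans ?_
    have hs := sN_pos hC h01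
    have h3 : 0 ≤ D.Fp (sN A t0 * (x + A.u t0 x)) :=
      hw.Fp_nonneg _ (mul_pos hs (hA.w_pos t0 h0I x))
    have h7 : A.w t0 x = x + A.u t0 x := rfl
    rw [h7]
    exact mul_le_mul_of_nonneg_left (by linarith) hs.le

/-- **lower law band** with explicit transient -/
theorem law_low (hw : WS lo hi tlo thi e0 κ M D) (hA : Back A) (hC : Clock A)
    (hL : Law A x0 p Y Yx Yxx) (h0 : 0 < t0) (h0T : t0 < A.T) (hq : q ≤ A.T)
    (hB : 0 ≤ B) (hk : k ≤ κ) (hBk : (1 + e0) * M + M ≤ B * (κ - k)) (hθ : 0 ≤ θ0)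
    (hn : ∀ t ∈ Ioc t0 q, Wn A lo hi e0 t) (hb : ∀ t ∈ Ioc t0 q, SBand A D (e0 / 2) t)
    (hstart : ∀ x, sN A t0 * (M - θ0 * (B + sN A t0 * A.u t0 x)) ≤ Y t0 x) :
    ∀ t ∈ Icc t0 q, ∀ x,
      sN A t * (D.Fm (sN A t * A.w t x) - thN A t0 θ0 k t * (B + sN A t * A.u t x)) ≤ Y t x := by
  have h01 : t0 < 1 := h0T.trans A.hT1
  obtain ⟨M', hYs⟩ := hL.ysys t0 ⟨h0, h0T⟩
  have hYq := YSys.restrict hYs hq
  have hLq := LSys.restrict (LSys.of_back hA h0.le) hq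
  have hCq := LClock.restrict (lclock_new hC h0 h01 θ0 k) hq
  have hlt : ∀ t ∈ Icc t0 q, t < 1 := fun t ht => (ht.2.trans hq).trans_lt A.hT1
  have hy : ∀ t ∈ Ioc t0 q, A.bl t / sN A t ^ 2 = A.ml t * A.K0 t :=
    fun t ht => y_eq hC (hlt t ⟨ht.1.le, ht.2⟩)
  have hI : ∀ t ∈ Ioc t0 q, t ∈ Icc 0 A.T := fun t ht => ⟨(h0.trans ht.1).le, ht.2.trans hq⟩
  have e1 := hw.e0_pos
  have hadm : ∀ t ∈ Ioc t0 q, ∀ x,
      AdmR e0 D (A.V t x) (sN A t * A.w t x) (A.P t x / sN A t) := fun t ht x =>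
    adm_of hw hA hC (hI t ht) (by linarith) le_rfl (hb t ht) x
  have h0I : t0 ∈ Icc 0 A.T := ⟨h0.le, h0T.le⟩
  have hFM : ∀ η, 0 < η → D.Fm η ≤ M := fun η hη => (hw.Fm_le η hη).trans (hw.Fp_le η hη)
  refine le_law_trans (F := D.Fm) (F1 := D.Fm1) (F2 := D.Fm2) (Fm := M) (μ := κ)
    (Im := (1 + e0) * M) hYq hLq hCq
    hw.dFm hw.dFm1 hB (fun t ht => thN_nonneg hC h01 (hlt t ht) hθ) hw.M_pos.le hk hBk hFM
    ?_ ?_ hw.κ_pos.le ?_ ?_ ?_
  · intro t ht
    rw [hy t ht]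
    have := (hn t ht).2.2
    linarith [hw.hi_lt]
  · intro t ht x
    rw [hy t ht]
    obtain ⟨n1, n2, n3⟩ := hn t ht
    have := hw.pot_m _ _ _ _ (hadm t ht x) n1 n2 n3
    unfold PotR at this
    unfold Pot
    rw [one_mul]
    exact this
  · intro t ht x
    have h1 := (hadm t ht x).J_hi
    have h2 := hw.Kp_le _ (V_mem hA (hI t ht) x)
    have h3 : (1 + e0) * D.Kp (A.V t x) ≤ (1 + e0) * M :=
      mul_le_mul_of_nonneg_left h2 (by linarith)
    exact h1.trans h3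
  · intro t ht x
    rw [hy t ht]
    obtain ⟨n1, n2, n3⟩ := hn t ht
    exact hw.law_m _ _ _ _ (hadm t ht x) n1 n2 n3
  · intro x
    rw [thN_self hC h01]
    refine le_trans ?_ (hstart x)
    have hs := sN_pos hC h01
    have h3 : D.Fm (sN A t0 * (x + A.u t0 x)) ≤ M :=
      hFM _ (mul_pos hs (hA.w_pos t0 h0I x))
    exact mul_le_mul_of_nonneg_left (by linarith) hs.le

/-- the transient is small when `K0` is -/
lemma thN_le (hC : Clock A) {r t : ℝ} (h0 : t0 < 1) (ht : t < 1) (hθ : 0 ≤ θ0) (hk : 0 ≤ k)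
    (h : A.K0 t ≤ r * A.K0 t0) : thN A t0 θ0 k t ≤ θ0 * r ^ k := by
  unfold thN
  have h1 := hC.K0_pos _ h0
  have h2 : A.K0 t / A.K0 t0 ≤ r := by rwa [div_le_iff₀ h1]
  exact mul_le_mul_of_nonneg_left
    (Real.rpow_le_rpow (div_pos (hC.K0_pos _ ht) h1).le h2 hk) hθ

/-- **law band, uniform form.**  For given start constants `C0, s0` and `ε > 0` there is `r > 0` such that for EVERY
step system with window, slope bands (factor `1 ± e0/2`) and start on `[t0,q]`: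
`s (F₋(s w) - ε (1 + s u)) ≤ Y ≤ s (F₊(s w) + ε (1 + s w))` at all `t ∈ [t0,q]` with `K0 t ≤ r K0 t0`. -/
theorem law_band (hw : WS lo hi tlo thi e0 κ M D) {C0 s0 ε : ℝ} (hC0 : 0 ≤ C0) (hs0 : 0 < s0)
    (hε : 0 < ε) : ∃ r : ℝ, 0 < r ∧ ∀ (A : SD) (x0 : ℝ) (p Y Yx Yxx : ℝ → ℝ → ℝ), Back A → Clock A →
      Law A x0 p Y Yx Yxx → ∀ t0 q : ℝ, 0 < t0 → t0 < A.T → q ≤ A.T → s0 ≤ sN A t0 →
      (∀ t ∈ Ioc t0 q, Wn A lo hi e0 t) → (∀ t ∈ Ioc t0 q, SBand A D (e0 / 2) t) →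
      (∀ x, -(C0 * (1 + A.u t0 x)) ≤ Y t0 x ∧ Y t0 x ≤ C0 * (1 + A.w t0 x)) →
      ∀ t ∈ Icc t0 q, A.K0 t ≤ r * A.K0 t0 → ∀ x,
        sN A t * (D.Fm (sN A t * A.w t x) - ε * (1 + sN A t * A.u t x)) ≤ Y t x ∧
        Y t x ≤ sN A t * (D.Fp (sN A t * A.w t x) + ε * (1 + sN A t * A.w t x)) := by
  have hκ := hw.κ_pos
  have hM := hw.M_pos
  have he := hw.e0_pos
  set k : ℝ := min (κ / 2) (1 / 2) with hk
  have hk0 : 0 < k := lt_min (by linarith) (by norm_num)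
  have hk1 : k ≤ κ / 2 := min_le_left _ _
  have hk2 : k ≤ 1 / 2 := min_le_right _ _
  set B : ℝ := 2 * ((1 + e0) * M + M) / κ + 1 with hBdef
  have hB1 : 1 ≤ B := by
    have : 0 ≤ 2 * ((1 + e0) * M + M) / κ := by positivity
    linarith
  have hB0 : 0 < B := by linarith
  have hBk : (1 + e0) * M + M ≤ B * (κ - k) := by
    have h1 : B * (κ / 2) ≤ B * (κ - k) := mul_le_mul_of_nonneg_left (by linarith) hB0.le
    have h2 : B * (κ / 2) = (1 + e0) * M + M + κ / 2 := by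
      rw [hBdef]; field_simp
    linarith
  set θ0 : ℝ := C0 / s0 ^ 2 + (C0 / s0 + M) with hθdef
  have hθ0 : 0 < θ0 := by positivity
  set r : ℝ := (ε / (θ0 * B)) ^ (1 / k) with hr
  have hεB : 0 < ε / (θ0 * B) := by positivity
  have hr0 : 0 < r := Real.rpow_pos_of_pos hεB _
  have hrk : r ^ k = ε / (θ0 * B) := by
    rw [hr, ← Real.rpow_mul hεB.le]
    have : 1 / k * k = 1 := by field_simp
    rw [this, Real.rpow_one]
  refine ⟨r, hr0, ?_⟩
  intro A x0 p Y Yx Yxx hA hC hL t0 q h0 h0T hq hs hn hb hstart t ht hK x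
  have h01 : t0 < 1 := h0T.trans A.hT1
  have ht1 : t < 1 := (ht.2.trans hq).trans_lt A.hT1
  have hst0 : 0 < sN A t0 := sN_pos hC h01
  have hst : 0 < sN A t := sN_pos hC ht1
  have h0I : t0 ∈ Icc 0 A.T := ⟨h0.le, h0T.le⟩
  have htI : t ∈ Icc 0 A.T := ⟨h0.le.trans ht.1, ht.2.trans hq⟩
  -- start constants
  have hc1 : C0 + sN A t0 * M ≤ sN A t0 * (C0 / s0 + M) := by
    have h1 : C0 ≤ sN A t0 * (C0 / s0) := by
      have h2 : C0 = s0 * (C0 / s0) := by field_simp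
      calc C0 = s0 * (C0 / s0) := h2
        _ ≤ _ := mul_le_mul_of_nonneg_right hs (by positivity)
    linarith
  have hc2 : C0 ≤ sN A t0 ^ 2 * (C0 / s0 ^ 2) := by
    have h2 : C0 = s0 ^ 2 * (C0 / s0 ^ 2) := by field_simp
    calc C0 = s0 ^ 2 * (C0 / s0 ^ 2) := h2
      _ ≤ _ := mul_le_mul_of_nonneg_right (pow_le_pow_left₀ hs0.le hs 2) (by positivity)
  have hθB : C0 / s0 + M ≤ θ0 * B := by
    have h1 : 0 ≤ C0 / s0 ^ 2 := by positivity
    have h2 : θ0 * 1 ≤ θ0 * B := mul_le_mul_of_nonneg_left hB1 hθ0.le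
    linarith
  have hc3 : C0 + sN A t0 * M ≤ sN A t0 * (θ0 * B) :=
    hc1.trans (mul_le_mul_of_nonneg_left hθB hst0.le)
  have hc4 : C0 ≤ sN A t0 ^ 2 * θ0 := by
    refine hc2.trans (mul_le_mul_of_nonneg_left ?_ (sq_nonneg _))
    have : 0 ≤ C0 / s0 + M := by positivity
    linarith
  have hth := thN_le (A := A) (t0 := t0) (θ0 := θ0) (k := k) hC h01 ht1 hθ0.le hk0.le hK
  rw [hrk] at hth
  have hthB : thN A t0 θ0 k t * B ≤ ε := by
    have h1 := mul_le_mul_of_nonneg_right hth hB0.le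
    have h2 : θ0 * (ε / (θ0 * B)) * B = ε := by field_simp
    linarith
  have hth0 : 0 ≤ thN A t0 θ0 k t := thN_nonneg hC h01 ht1 hθ0.le
  have hth1 : thN A t0 θ0 k t ≤ ε := by
    have h1 : thN A t0 θ0 k t * 1 ≤ thN A t0 θ0 k t * B := mul_le_mul_of_nonneg_left hB1 hth0
    linarith
  constructor
  · have hu0 := hA.u_pos t htI x
    refine le_trans ?_ (law_low (B := B) (k := k) (θ0 := θ0) hw hA hC hL h0 h0T hq hB0.le
      (by linarith) hBk hθ0.le hn hb ?_ t ht x)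
    · refine mul_le_mul_of_nonneg_left ?_ hst.le
      have h3 : thN A t0 θ0 k t * (sN A t * A.u t x) ≤ ε * (sN A t * A.u t x) :=
        mul_le_mul_of_nonneg_right hth1 (mul_pos hst hu0).le
      have h4 : thN A t0 θ0 k t * (B + sN A t * A.u t x) =
        thN A t0 θ0 k t * B + thN A t0 θ0 k t * (sN A t * A.u t x) := by ring
      have h5 : ε * (1 + sN A t * A.u t x) = ε + ε * (sN A t * A.u t x) := by ring
      linarith
    · intro y
      refine le_trans ?_ (hstart y).1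
      have hu := (hA.u_pos t0 h0I y).le
      have h3 := mul_le_mul_of_nonneg_right hc4 hu
      have h4 : sN A t0 * (M - θ0 * (B + sN A t0 * A.u t0 y)) =
        sN A t0 * M - sN A t0 * (θ0 * B) - sN A t0 ^ 2 * θ0 * A.u t0 y := by ring
      have h5 : C0 * (1 + A.u t0 y) = C0 + C0 * A.u t0 y := by ring
      linarith
  · have hw0 := hA.w_pos t htI x
    refine (law_up (B := B) (k := k) (θ0 := θ0) hw hA hC hL h0 h0T hq hB0.le hk2
      (by linarith) hθ0.le hn hb ?_ t ht x).trans ?_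
    · intro y
      refine (hstart y).2.trans ?_
      have hw1 := (hA.w_pos t0 h0I y).le
      have h3 := mul_le_mul_of_nonneg_right hc4 hw1
      have h4 : sN A t0 * (θ0 * (B + sN A t0 * A.w t0 y)) =
        sN A t0 * (θ0 * B) + sN A t0 ^ 2 * θ0 * A.w t0 y := by ring
      have h5 : C0 * (1 + A.w t0 y) = C0 + C0 * A.w t0 y := by ring
      have h6 : 0 ≤ sN A t0 * M := mul_nonneg hst0.le hM.le
      linarith
    · refine mul_le_mul_of_nonneg_left ?_ hst.le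
      have h3 : thN A t0 θ0 k t * (sN A t * A.w t x) ≤ ε * (sN A t * A.w t x) :=
        mul_le_mul_of_nonneg_right hth1 (mul_pos hst hw0).le
      have h4 : thN A t0 θ0 k t * (B + sN A t * A.w t x) =
        thN A t0 θ0 k t * B + thN A t0 θ0 k t * (sN A t * A.w t x) := by ring
      have h5 : ε * (1 + sN A t * A.w t x) = ε + ε * (sN A t * A.w t x) := by ring
      linarith

end law

end Crest.Agent.R146.YWStep_177
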