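import Mathlib

/-!
Row 146, end of PT, pure real variable part.  `D` is the tail of the nonnegative weight `m`,
`K` is the tail integral of `1 / D`, `χ = D * K`, `Y = m * K`, `ν = (1 - t) * m / D`.
If `Y` tends to `y` at `1-` then `log D / log (1 - t)` tends to `y / (1 + y)`.
All derivatives are right derivatives.
-/

set_option autoImplicit false

open Filter Topology Set MeasureTheory

namespace Crest.Agent.R146.YtoD_460

/-- The data near the tip `t = 1`; all derivatives are right derivatives. -/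
structure Tip (t0 : ℝ) (D K m : ℝ → ℝ) : Prop where
  lt : t0 < 1
  mnn : ∀ t ∈ Ico t0 1, 0 ≤ m t
  Dpos : ∀ t ∈ Ico t0 1, 0 < D t
  Kpos : ∀ t ∈ Ico t0 1, 0 < K t
  Dcont : ContinuousOn D (Ico t0 1)
  Kcont : ContinuousOn K (Ico t0 1)
  Dder : ∀ t ∈ Ico t0 1, HasDerivWithinAt D (-(m t)) (Ici t) t
  Kder : ∀ t ∈ Ico t0 1, HasDerivWithinAt K (-(1 / D t)) (Ici t) t
  Klim : Tendsto K (𝓝[<] 1) (𝓝 0)

theorem le_of_right_deriv_nonpos {f f' : ℝ → ℝ} {s t : ℝ} (hst : s ≤ t)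
    (hc : ContinuousOn f (Icc s t))
    (hd : ∀ x ∈ Ico s t, HasDerivWithinAt f (f' x) (Ici x) x)
    (hn : ∀ x ∈ Ico s t, f' x ≤ 0) : f t ≤ f s :=
  image_le_of_deriv_right_le_deriv_boundary (B := fun _ => f s) (B' := fun _ => 0) hc hd
    (le_refl (f s)) continuousOn_const
    (fun x _ => (hasDerivWithinAt_const x (Ici x) (f s))) hn (right_mem_Icc.2 hst)

/-- quotient of a function controlled by affine functions of `G → -∞`. -/
theorem ratio_tendsto {l : Filter ℝ} {F G : ℝ → ℝ} {y : ℝ} (hG : Tendsto G l atBot)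
    (hu : ∀ ε > 0, ∃ C, ∀ᶠ t in l, F t ≤ C + (y - ε) * G t)
    (hl : ∀ ε > 0, ∃ C, ∀ᶠ t in l, C + (y + ε) * G t ≤ F t) :
    Tendsto (fun t => F t / G t) l (𝓝 y) := by
  rw [Metric.tendsto_nhds]
  intro ε hε
  obtain ⟨C1, h1⟩ := hu (ε / 2) (by positivity)
  obtain ⟨C2, h2⟩ := hl (ε / 2) (by positivity)
  have h3 := hG.eventually_lt_atBot (-(2 * (|C1| + |C2| + 1) / ε))
  filter_upwards [h1, h2, h3] with t h1 h2 h3
  have hGneg : G t < 0 := h3.trans (by
    have : 0 < 2 * (|C1| + |C2| + 1) / ε := by positivity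
    linarith)
  have h4 : 2 * (|C1| + |C2| + 1) < ε * (-G t) := by
    have h5 : 2 * (|C1| + |C2| + 1) / ε < -G t := by linarith
    rw [div_lt_iff₀ hε] at h5
    linarith
  have a1 := abs_nonneg C1
  have a2 := abs_nonneg C2
  have b1 := le_abs_self C1
  have b2 := neg_abs_le C2
  rw [Real.dist_eq, abs_lt]
  constructor
  · have : y - ε < F t / G t := by
      rw [lt_div_iff_of_neg hGneg]
      nlinarith
    linarith
  · have : F t / G t < y + ε := by
      rw [div_lt_iff_of_neg hGneg]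
      nlinarith
    linarith

namespace Tip

variable {t0 : ℝ} {D K m : ℝ → ℝ}

theorem mono (h : Tip t0 D K m) {t1 : ℝ} (h0 : t0 ≤ t1) (h1 : t1 < 1) : Tip t1 D K m where
  lt := h1
  mnn := fun t ht => h.mnn t ⟨h0.trans ht.1, ht.2⟩
  Dpos := fun t ht => h.Dpos t ⟨h0.trans ht.1, ht.2⟩
  Kpos := fun t ht => h.Kpos t ⟨h0.trans ht.1, ht.2⟩
  Dcont := h.Dcont.mono (Ico_subset_Ico_left h0)
  Kcont := h.Kcont.mono (Ico_subset_Ico_left h0)
  Dder := fun t ht => h.Dder t ⟨h0.trans ht.1, ht.2⟩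
  Kder := fun t ht => h.Kder t ⟨h0.trans ht.1, ht.2⟩
  Klim := h.Klim

theorem logK_tendsto (h : Tip t0 D K m) : Tendsto (fun t => Real.log (K t)) (𝓝[<] 1) atBot := by
  have h1 : Tendsto K (𝓝[<] 1) (𝓝[>] 0) := by
    rw [tendsto_nhdsWithin_iff]
    refine ⟨h.Klim, ?_⟩
    filter_upwards [Ico_mem_nhdsLT h.lt] with t ht using h.Kpos t ht
  exact (Real.tendsto_log_nhdsGT_zero).comp h1

theorem Ynn (h : Tip t0 D K m) {t : ℝ} (ht : t ∈ Ico t0 1) : 0 ≤ m t * K t :=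
  mul_nonneg (h.mnn t ht) (h.Kpos t ht).le

theorem D_anti (h : Tip t0 D K m) {s t : ℝ} (hs : t0 ≤ s) (hst : s ≤ t) (ht : t < 1) :
    D t ≤ D s :=
  le_of_right_deriv_nonpos hst (h.Dcont.mono fun x hx => ⟨hs.trans hx.1, hx.2.trans_lt ht⟩)
    (fun x hx => h.Dder x ⟨hs.trans hx.1, hx.2.trans ht⟩)
    (fun x hx => by
      have := h.mnn x ⟨hs.trans hx.1, hx.2.trans ht⟩
      linarith)

/-! ### the clock `χ = D K` -/

theorem chi_hasDeriv (h : Tip t0 D K m) {t : ℝ} (ht : t ∈ Ico t0 1) :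
    HasDerivWithinAt (fun t => D t * K t) (-(1 + m t * K t)) (Ici t) t := by
  have hD := (h.Dpos t ht).ne'
  have h3 : HasDerivWithinAt (fun t => D t * K t)
      (-(m t) * K t + D t * (-(1 / D t))) (Ici t) t := (h.Dder t ht).mul (h.Kder t ht)
  refine h3.congr_deriv ?_
  field_simp
  ring

theorem chi_pos (h : Tip t0 D K m) {t : ℝ} (ht : t ∈ Ico t0 1) : 0 < D t * K t :=
  mul_pos (h.Dpos t ht) (h.Kpos t ht)

theorem chi_cont (h : Tip t0 D K m) : ContinuousOn (fun t => D t * K t) (Ico t0 1) :=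
  h.Dcont.mul h.Kcont

theorem chi_tendsto (h : Tip t0 D K m) : Tendsto (fun t => D t * K t) (𝓝[<] 1) (𝓝 0) := by
  have h0 : Tendsto (fun t => D t0 * K t) (𝓝[<] 1) (𝓝 0) := by
    simpa using h.Klim.const_mul (D t0)
  refine tendsto_of_tendsto_of_tendsto_of_le_of_le' tendsto_const_nhds h0 ?_ ?_
  · filter_upwards [Ico_mem_nhdsLT h.lt] with t ht using (h.chi_pos ht).le
  · filter_upwards [Ico_mem_nhdsLT h.lt] with t ht
    exact mul_le_mul_of_nonneg_right (h.D_anti le_rfl ht.1 ht.2) (h.Kpos t ht).le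

private theorem lin_tendsto (c : ℝ) : Tendsto (fun t : ℝ => c * (1 - t)) (𝓝[<] 1) (𝓝 0) := by
  have : Continuous fun t : ℝ => c * (1 - t) := by fun_prop
  have h := (this.continuousWithinAt (s := Iio 1) (x := 1)).tendsto
  simpa using h

private theorem lin_deriv (c t : ℝ) :
    HasDerivWithinAt (fun t : ℝ => c * (1 - t)) (-c) (Ici t) t := by
  have h : HasDerivWithinAt (fun t : ℝ => c * (1 - t)) (c * (-1)) (Ici t) t :=
    ((hasDerivWithinAt_id t (Ici t)).const_sub 1).const_mul c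
  exact h.congr_deriv (by ring)

/-- `a ≤ Y` on `[t0,1)` gives `(1+a) τ ≤ χ`. -/
theorem chi_ge (h : Tip t0 D K m) {a : ℝ} (ha : ∀ t ∈ Ico t0 1, a ≤ m t * K t)
    {t : ℝ} (ht : t ∈ Ico t0 1) : (1 + a) * (1 - t) ≤ D t * K t := by
  have key : ∀ᶠ t' in 𝓝[<] (1 : ℝ),
      D t' * K t' - (1 + a) * (1 - t') ≤ D t * K t - (1 + a) * (1 - t) := by
    filter_upwards [Ico_mem_nhdsLT ht.2] with t' ht'
    refine le_of_right_deriv_nonpos (f := fun x => D x * K x - (1 + a) * (1 - x))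
      (f' := fun x => -(1 + m x * K x) - -(1 + a)) ht'.1 ?_ ?_ ?_
    · exact (h.chi_cont.mono fun x hx => ⟨ht.1.trans hx.1, hx.2.trans_lt ht'.2⟩).sub
        (by fun_prop)
    · intro x hx
      exact (h.chi_hasDeriv ⟨ht.1.trans hx.1, hx.2.trans ht'.2⟩).sub (lin_deriv _ _)
    · intro x hx
      have := ha x ⟨ht.1.trans hx.1, hx.2.trans ht'.2⟩
      linarith
  have h0 : Tendsto (fun t' => D t' * K t' - (1 + a) * (1 - t')) (𝓝[<] 1) (𝓝 (0 - 0)) :=
    h.chi_tendsto.sub (lin_tendsto _)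
  have := le_of_tendsto h0 key
  linarith

/-- `Y ≤ b` on `[t0,1)` gives `χ ≤ (1+b) τ`. -/
theorem chi_le (h : Tip t0 D K m) {b : ℝ} (hb : ∀ t ∈ Ico t0 1, m t * K t ≤ b)
    {t : ℝ} (ht : t ∈ Ico t0 1) : D t * K t ≤ (1 + b) * (1 - t) := by
  have key : ∀ᶠ t' in 𝓝[<] (1 : ℝ),
      (1 + b) * (1 - t') - D t' * K t' ≤ (1 + b) * (1 - t) - D t * K t := by
    filter_upwards [Ico_mem_nhdsLT ht.2] with t' ht'
    refine le_of_right_deriv_nonpos (f := fun x => (1 + b) * (1 - x) - D x * K x)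
      (f' := fun x => -(1 + b) - -(1 + m x * K x)) ht'.1 ?_ ?_ ?_
    · exact ContinuousOn.sub (by fun_prop)
        (h.chi_cont.mono fun x hx => ⟨ht.1.trans hx.1, hx.2.trans_lt ht'.2⟩)
    · intro x hx
      exact (lin_deriv _ _).sub (h.chi_hasDeriv ⟨ht.1.trans hx.1, hx.2.trans ht'.2⟩)
    · intro x hx
      have := hb x ⟨ht.1.trans hx.1, hx.2.trans ht'.2⟩
      linarith
  have h0 : Tendsto (fun t' => (1 + b) * (1 - t') - D t' * K t') (𝓝[<] 1) (𝓝 (0 - 0)) :=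
    (lin_tendsto _).sub h.chi_tendsto
  have := le_of_tendsto h0 key
  linarith

/-- always `τ ≤ χ`. -/
theorem tau_le_chi (h : Tip t0 D K m) {t : ℝ} (ht : t ∈ Ico t0 1) : 1 - t ≤ D t * K t := by
  have := h.chi_ge (a := 0) (fun t ht => h.Ynn ht) ht
  linarith

/-- `ν = τ m / D` in terms of `Y` and `χ`. -/
theorem nu_eq (h : Tip t0 D K m) {t : ℝ} (ht : t ∈ Ico t0 1) :
    (1 - t) * m t / D t = (m t * K t) * (1 - t) / (D t * K t) := by
  have := (h.Dpos t ht).ne'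
  have := (h.Kpos t ht).ne'
  field_simp

/-- window bounds for `ν` from window bounds for `Y`. -/
theorem nu_le (h : Tip t0 D K m) {a b : ℝ} (ha0 : 0 ≤ a)
    (ha : ∀ t ∈ Ico t0 1, a ≤ m t * K t) (hb : ∀ t ∈ Ico t0 1, m t * K t ≤ b)
    {t : ℝ} (ht : t ∈ Ico t0 1) : (1 - t) * m t / D t ≤ b / (1 + a) := by
  rw [h.nu_eq ht, div_le_div_iff₀ (h.chi_pos ht) (by linarith)]
  have h1 := h.chi_ge ha ht
  have h2 := hb t ht
  have h3 := h.Ynn ht
  have h4 : 0 ≤ 1 - t := by linarith [ht.2]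
  calc (m t * K t) * (1 - t) * (1 + a) = (m t * K t) * ((1 + a) * (1 - t)) := by ring
    _ ≤ (m t * K t) * (D t * K t) := mul_le_mul_of_nonneg_left h1 h3
    _ ≤ b * (D t * K t) := mul_le_mul_of_nonneg_right h2 (h.chi_pos ht).le

theorem le_nu (h : Tip t0 D K m) {a b : ℝ} (ha0 : 0 ≤ a) (hb0 : 0 ≤ b)
    (ha : ∀ t ∈ Ico t0 1, a ≤ m t * K t) (hb : ∀ t ∈ Ico t0 1, m t * K t ≤ b)
    {t : ℝ} (ht : t ∈ Ico t0 1) : a / (1 + b) ≤ (1 - t) * m t / D t := by
  rw [h.nu_eq ht, div_le_div_iff₀ (by linarith) (h.chi_pos ht)]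
  have h1 := h.chi_le hb ht
  have h2 := ha t ht
  have h4 : 0 ≤ (1 + b) * (1 - t) := mul_nonneg (by linarith) (by linarith [ht.2])
  calc a * (D t * K t) ≤ a * ((1 + b) * (1 - t)) := mul_le_mul_of_nonneg_left h1 ha0
    _ ≤ (m t * K t) * ((1 + b) * (1 - t)) := mul_le_mul_of_nonneg_right h2 h4
    _ = (m t * K t) * (1 - t) * (1 + b) := by ring

/-- `D` concave (`m` nondecreasing) and `D → 0`: `ν ≤ 1`. -/
theorem nu_le_one (h : Tip t0 D K m) (hm : MonotoneOn m (Ico t0 1))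
    (hD : Tendsto D (𝓝[<] 1) (𝓝 0)) {t : ℝ} (ht : t ∈ Ico t0 1) :
    (1 - t) * m t ≤ D t := by
  have key : ∀ᶠ t' in 𝓝[<] (1 : ℝ), D t' - m t * (1 - t') ≤ D t - m t * (1 - t) := by
    filter_upwards [Ico_mem_nhdsLT ht.2] with t' ht'
    refine le_of_right_deriv_nonpos (f := fun x => D x - m t * (1 - x))
      (f' := fun x => -(m x) - -(m t)) ht'.1 ?_ ?_ ?_
    · exact (h.Dcont.mono fun x hx => ⟨ht.1.trans hx.1, hx.2.trans_lt ht'.2⟩).sub
        (by fun_prop)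
    · intro x hx
      exact (h.Dder x ⟨ht.1.trans hx.1, hx.2.trans ht'.2⟩).sub (lin_deriv _ _)
    · intro x hx
      have := hm ht ⟨ht.1.trans hx.1, hx.2.trans ht'.2⟩ hx.1
      linarith
  have h0 : Tendsto (fun t' => D t' - m t * (1 - t')) (𝓝[<] 1) (𝓝 (0 - 0)) :=
    hD.sub (lin_tendsto _)
  have := le_of_tendsto h0 key
  linarith

/-! ### `log D` against `log K` -/

theorem hasDeriv_log (h : Tip t0 D K m) (a : ℝ) {t : ℝ} (ht : t ∈ Ico t0 1) :
    HasDerivWithinAt (fun t => Real.log (D t) - a * Real.log (K t))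
      ((a - m t * K t) / (D t * K t)) (Ici t) t := by
  have hD := h.Dpos t ht
  have hK := h.Kpos t ht
  have h1 := (h.Dder t ht).log hD.ne'
  have h2 := ((h.Kder t ht).log hK.ne').const_mul a
  have h3 : HasDerivWithinAt (fun t => Real.log (D t) - a * Real.log (K t))
      (-(m t) / D t - a * (-(1 / D t) / K t)) (Ici t) t := h1.sub h2
  refine h3.congr_deriv ?_
  field_simp
  ring

theorem cont_log (h : Tip t0 D K m) (a : ℝ) :
    ContinuousOn (fun t => Real.log (D t) - a * Real.log (K t)) (Ico t0 1) := by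
  refine ContinuousOn.sub ?_ (continuousOn_const.mul ?_)
  · exact h.Dcont.log fun t ht => (h.Dpos t ht).ne'
  · exact h.Kcont.log fun t ht => (h.Kpos t ht).ne'

/-- `a ≤ Y` : `log D - a log K` is nonincreasing. -/
theorem log_upper (h : Tip t0 D K m) {a : ℝ} (ha : ∀ t ∈ Ico t0 1, a ≤ m t * K t)
    {s t : ℝ} (hs : t0 ≤ s) (hst : s ≤ t) (ht : t < 1) :
    Real.log (D t) - a * Real.log (K t) ≤ Real.log (D s) - a * Real.log (K s) := by
  refine le_of_right_deriv_nonpos hst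
    ((h.cont_log a).mono fun x hx => ⟨hs.trans hx.1, hx.2.trans_lt ht⟩)
    (fun x hx => h.hasDeriv_log a ⟨hs.trans hx.1, hx.2.trans ht⟩) ?_
  intro x hx
  have hx' : x ∈ Ico t0 1 := ⟨hs.trans hx.1, hx.2.trans ht⟩
  exact div_nonpos_of_nonpos_of_nonneg (by linarith [ha x hx'])
    (mul_pos (h.Dpos x hx') (h.Kpos x hx')).le

/-- `Y ≤ b` : `log D - b log K` is nondecreasing. -/
theorem log_lower (h : Tip t0 D K m) {b : ℝ} (hb : ∀ t ∈ Ico t0 1, m t * K t ≤ b)
    {s t : ℝ} (hs : t0 ≤ s) (hst : s ≤ t) (ht : t < 1) :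
    Real.log (D s) - b * Real.log (K s) ≤ Real.log (D t) - b * Real.log (K t) := by
  have := le_of_right_deriv_nonpos (f := fun t => -(Real.log (D t) - b * Real.log (K t)))
    (f' := fun t => -((b - m t * K t) / (D t * K t))) hst
    ((h.cont_log b).mono fun x hx => ⟨hs.trans hx.1, hx.2.trans_lt ht⟩).neg
    (fun x hx => (h.hasDeriv_log b ⟨hs.trans hx.1, hx.2.trans ht⟩).neg) (by
      intro x hx
      have hx' : x ∈ Ico t0 1 := ⟨hs.trans hx.1, hx.2.trans ht⟩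
      have : 0 ≤ (b - m x * K x) / (D x * K x) :=
        div_nonneg (by linarith [hb x hx']) (mul_pos (h.Dpos x hx') (h.Kpos x hx')).le
      linarith)
  linarith

/-- `Y → y` gives `log D / log K → y`. -/
theorem logD_div_logK (h : Tip t0 D K m) {y : ℝ}
    (hy : Tendsto (fun t => m t * K t) (𝓝[<] 1) (𝓝 y)) :
    Tendsto (fun t => Real.log (D t) / Real.log (K t)) (𝓝[<] 1) (𝓝 y) := by
  have hT : ∀ᶠ t in 𝓝[<] (1 : ℝ), t ∈ Ico t0 1 := Ico_mem_nhdsLT h.lt
  refine ratio_tendsto h.logK_tendsto ?_ ?_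
  · intro ε hε
    have h1 := (hy.eventually (lt_mem_nhds (show y - ε < y by linarith))).and hT
    obtain ⟨t1, ht1, hs⟩ := (mem_nhdsLT_iff_exists_Ico_subset).1 h1
    have ht1' : t1 ∈ Ico t0 1 := (hs ⟨le_rfl, ht1⟩).2
    have h2 := h.mono ht1'.1 ht1
    refine ⟨Real.log (D t1) - (y - ε) * Real.log (K t1), ?_⟩
    filter_upwards [Ico_mem_nhdsLT (show t1 < 1 from ht1)] with t ht
    have := h2.log_upper (a := y - ε) (fun t ht => (hs ht).1.le) le_rfl ht.1 ht.2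
    linarith
  · intro ε hε
    have h1 := (hy.eventually (gt_mem_nhds (show y < y + ε by linarith))).and hT
    obtain ⟨t1, ht1, hs⟩ := (mem_nhdsLT_iff_exists_Ico_subset).1 h1
    have ht1' : t1 ∈ Ico t0 1 := (hs ⟨le_rfl, ht1⟩).2
    have h2 := h.mono ht1'.1 ht1
    refine ⟨Real.log (D t1) - (y + ε) * Real.log (K t1), ?_⟩
    filter_upwards [Ico_mem_nhdsLT (show t1 < 1 from ht1)] with t ht
    have := h2.log_lower (b := y + ε) (fun t ht => (hs ht).1.le) le_rfl ht.1 ht.2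
    linarith

/-- `Y → y` gives `χ / τ → 1 + y`. -/
theorem chi_div_tau (h : Tip t0 D K m) {y : ℝ}
    (hy : Tendsto (fun t => m t * K t) (𝓝[<] 1) (𝓝 y)) :
    Tendsto (fun t => D t * K t / (1 - t)) (𝓝[<] 1) (𝓝 (1 + y)) := by
  have hT : ∀ᶠ t in 𝓝[<] (1 : ℝ), t ∈ Ico t0 1 := Ico_mem_nhdsLT h.lt
  rw [Metric.tendsto_nhds]
  intro ε hε
  have h1 := ((hy.eventually (lt_mem_nhds (show y - ε / 2 < y by linarith))).and
    (hy.eventually (gt_mem_nhds (show y < y + ε / 2 by linarith)))).and hT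
  obtain ⟨t1, ht1, hs⟩ := (mem_nhdsLT_iff_exists_Ico_subset).1 h1
  have ht1' : t1 ∈ Ico t0 1 := (hs ⟨le_rfl, ht1⟩).2
  have h2 := h.mono ht1'.1 ht1
  filter_upwards [Ico_mem_nhdsLT (show t1 < 1 from ht1)] with t ht
  have h3 := h2.chi_ge (a := y - ε / 2) (fun t ht => (hs ht).1.1.le) ht
  have h4 := h2.chi_le (b := y + ε / 2) (fun t ht => (hs ht).1.2.le) ht
  have h5 : 0 < 1 - t := by linarith [ht.2]
  rw [Real.dist_eq, abs_lt]
  constructor
  · have : 1 + (y - ε / 2) ≤ D t * K t / (1 - t) := (le_div_iff₀ h5).2 h3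
    linarith
  · have : D t * K t / (1 - t) ≤ 1 + (y + ε / 2) := (div_le_iff₀ h5).2 h4
    linarith

/-- `Y → y` gives `ν → y / (1 + y)`. -/
theorem nu_tendsto (h : Tip t0 D K m) {y : ℝ} (hy0 : 0 ≤ y)
    (hy : Tendsto (fun t => m t * K t) (𝓝[<] 1) (𝓝 y)) :
    Tendsto (fun t => (1 - t) * m t / D t) (𝓝[<] 1) (𝓝 (y / (1 + y))) := by
  have h1 := hy.div (h.chi_div_tau hy) (by linarith : (1 + y : ℝ) ≠ 0)
  refine h1.congr' ?_
  filter_upwards [Ico_mem_nhdsLT h.lt] with t ht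
  have hD := (h.Dpos t ht).ne'
  have hK := (h.Kpos t ht).ne'
  have h5 : (1 - t : ℝ) ≠ 0 := by
    have : 0 < 1 - t := by linarith [ht.2]
    exact this.ne'
  simp only [Pi.div_apply]
  field_simp

theorem y_nonneg (h : Tip t0 D K m) {y : ℝ}
    (hy : Tendsto (fun t => m t * K t) (𝓝[<] 1) (𝓝 y)) : 0 ≤ y :=
  ge_of_tendsto hy (by filter_upwards [Ico_mem_nhdsLT h.lt] with t ht using h.Ynn ht)

/-- `Y → y` gives `log τ / log K → 1 + y`. -/
theorem logTau_div_logK (h : Tip t0 D K m) {y : ℝ}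
    (hy : Tendsto (fun t => m t * K t) (𝓝[<] 1) (𝓝 y)) :
    Tendsto (fun t => Real.log (1 - t) / Real.log (K t)) (𝓝[<] 1) (𝓝 (1 + y)) := by
  have hy0 := h.y_nonneg hy
  have h1 := h.logD_div_logK hy
  have h2 : Tendsto (fun t => Real.log (D t * K t / (1 - t)) / Real.log (K t)) (𝓝[<] 1)
      (𝓝 0) := by
    have h3 := (h.chi_div_tau hy).log (by linarith)
    exact h3.div_atBot h.logK_tendsto
  have h3 := (h1.add_const 1).sub h2
  rw [sub_zero, add_comm y 1] at h3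
  refine h3.congr' ?_
  have hlt : ∀ᶠ t in 𝓝[<] (1 : ℝ), Real.log (K t) < 0 := h.logK_tendsto.eventually_lt_atBot 0
  filter_upwards [Ico_mem_nhdsLT h.lt, hlt] with t ht hK0
  have hD := h.Dpos t ht
  have hK := h.Kpos t ht
  have h5 : 0 < 1 - t := by linarith [ht.2]
  rw [Real.log_div (mul_pos hD hK).ne' h5.ne', Real.log_mul hD.ne' hK.ne']
  have := hK0.ne
  field_simp
  ring

/-- MAIN: `Y → y` gives `log D / log τ → y / (1 + y)`. -/
theorem logD_div_logTau (h : Tip t0 D K m) {y : ℝ}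
    (hy : Tendsto (fun t => m t * K t) (𝓝[<] 1) (𝓝 y)) :
    Tendsto (fun t => Real.log (D t) / Real.log (1 - t)) (𝓝[<] 1) (𝓝 (y / (1 + y))) := by
  have hy0 := h.y_nonneg hy
  have h1 := (h.logD_div_logK hy).div (h.logTau_div_logK hy) (by linarith : (1 + y : ℝ) ≠ 0)
  refine h1.congr' ?_
  have hlt : ∀ᶠ t in 𝓝[<] (1 : ℝ), Real.log (K t) < 0 := h.logK_tendsto.eventually_lt_atBot 0
  filter_upwards [hlt] with t hK0
  have := hK0.ne
  simp only [Pi.div_apply]
  rw [div_div_div_cancel_right₀ this]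

/-! ### a version of `m` known only almost everywhere -/

theorem K_anti (h : Tip t0 D K m) {s t : ℝ} (hs : t0 ≤ s) (hst : s ≤ t) (ht : t < 1) :
    K t ≤ K s :=
  le_of_right_deriv_nonpos hst (h.Kcont.mono fun x hx => ⟨hs.trans hx.1, hx.2.trans_lt ht⟩)
    (fun x hx => h.Kder x ⟨hs.trans hx.1, hx.2.trans ht⟩)
    (fun x hx => by
      have := h.Dpos x ⟨hs.trans hx.1, hx.2.trans ht⟩
      have : 0 ≤ 1 / D x := by positivity
      linarith)

private theorem slope_lim (h : Tip t0 D K m) {t : ℝ} (ht : t ∈ Ico t0 1) :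
    Tendsto (fun s => (D t - D s) / (s - t)) (𝓝[>] t) (𝓝 (m t)) := by
  have h1 := (hasDerivWithinAt_iff_tendsto_slope' (by simp)).1
    ((h.Dder t ht).mono Ioi_subset_Ici_self)
  have h2 := h1.neg
  rw [neg_neg] at h2
  refine h2.congr' ?_
  filter_upwards [self_mem_nhdsWithin] with s hs
  rw [slope_def_field]
  have : s - t ≠ 0 := (sub_pos.2 hs).ne'
  field_simp
  ring

private theorem K_right (h : Tip t0 D K m) {t : ℝ} (ht : t ∈ Ico t0 1) :
    Tendsto K (𝓝[>] t) (𝓝 (K t)) := by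
  have h1 : ContinuousWithinAt K (Ici t) t := (h.Kder t ht).continuousWithinAt
  exact h1.tendsto.mono_left (nhdsWithin_mono _ Ioi_subset_Ici_self)

/-- `m' K ≤ b` almost everywhere on `(t0,1)` gives `Y ≤ b` everywhere. -/
theorem Y_le_of_ae (h : Tip t0 D K m) {m' : ℝ → ℝ} {b : ℝ} (hb0 : 0 ≤ b)
    (hint : ∀ s t, t0 ≤ s → s ≤ t → t < 1 → IntervalIntegrable m' volume s t ∧
      D s - D t = ∫ x in s..t, m' x)
    (hb : ∀ᵐ x ∂(volume : Measure ℝ), x ∈ Ioo t0 1 → m' x * K x ≤ b)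
    {t : ℝ} (ht : t ∈ Ico t0 1) : m t * K t ≤ b := by
  have hK := h.Kpos t ht
  have h1 := h.slope_lim ht
  have h2 : Tendsto (fun s => b / K s) (𝓝[>] t) (𝓝 (b / K t)) :=
    tendsto_const_nhds.div (h.K_right ht) hK.ne'
  have h3 : m t ≤ b / K t := by
    refine le_of_tendsto_of_tendsto h1 h2 ?_
    filter_upwards [Ioo_mem_nhdsGT ht.2] with s hs
    have hs' : s ∈ Ico t0 1 := ⟨ht.1.trans hs.1.le, hs.2⟩
    have hKs := h.Kpos s hs'
    obtain ⟨hi, he⟩ := hint t s ht.1 hs.1.le hs.2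
    rw [he, div_le_iff₀ (sub_pos.2 hs.1)]
    have h4 : ∫ x in t..s, m' x ≤ ∫ _x in t..s, b / K s := by
      refine intervalIntegral.integral_mono_ae_restrict hs.1.le hi (by simp) ?_
      rw [Filter.EventuallyLE, ae_restrict_iff' measurableSet_Icc]
      have hne : ∀ᵐ x ∂(volume : Measure ℝ), x ≠ t := by
        simp [ae_iff, measure_singleton]
      filter_upwards [hb, hne] with x hx hxt hxs
      have hx0 : x ∈ Ioo t0 1 :=
        ⟨ht.1.trans_lt (lt_of_le_of_ne hxs.1 (Ne.symm hxt)), hxs.2.trans_lt hs.2⟩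
      have hKx := h.Kpos x ⟨hx0.1.le, hx0.2⟩
      have h5 : m' x ≤ b / K x := by rw [le_div_iff₀ hKx]; exact hx hx0
      refine h5.trans ?_
      exact div_le_div_of_nonneg_left hb0 hKs (h.K_anti hx0.1.le hxs.2 hs.2)
    rw [intervalIntegral.integral_const, smul_eq_mul] at h4
    linarith
  rwa [le_div_iff₀ hK] at h3

/-- `a ≤ m' K` almost everywhere on `(t0,1)` gives `a ≤ Y` everywhere. -/
theorem le_Y_of_ae (h : Tip t0 D K m) {m' : ℝ → ℝ} {a : ℝ}
    (hint : ∀ s t, t0 ≤ s → s ≤ t → t < 1 → IntervalIntegrable m' volume s t ∧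
      D s - D t = ∫ x in s..t, m' x)
    (ha : ∀ᵐ x ∂(volume : Measure ℝ), x ∈ Ioo t0 1 → a ≤ m' x * K x)
    {t : ℝ} (ht : t ∈ Ico t0 1) : a ≤ m t * K t := by
  rcases le_or_gt a 0 with ha0 | ha0
  · exact ha0.trans (h.Ynn ht)
  have hK := h.Kpos t ht
  have h1 := h.slope_lim ht
  have h3 : a / K t ≤ m t := by
    refine ge_of_tendsto h1 ?_
    filter_upwards [Ioo_mem_nhdsGT ht.2] with s hs
    obtain ⟨hi, he⟩ := hint t s ht.1 hs.1.le hs.2
    rw [he, le_div_iff₀ (sub_pos.2 hs.1)]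
    have h4 : ∫ _x in t..s, a / K t ≤ ∫ x in t..s, m' x := by
      refine intervalIntegral.integral_mono_ae_restrict hs.1.le (by simp) hi ?_
      rw [Filter.EventuallyLE, ae_restrict_iff' measurableSet_Icc]
      have hne : ∀ᵐ x ∂(volume : Measure ℝ), x ≠ t := by
        simp [ae_iff, measure_singleton]
      filter_upwards [ha, hne] with x hx hxt hxs
      have hx0 : x ∈ Ioo t0 1 :=
        ⟨ht.1.trans_lt (lt_of_le_of_ne hxs.1 (Ne.symm hxt)), hxs.2.trans_lt hs.2⟩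
      have hKx := h.Kpos x ⟨hx0.1.le, hx0.2⟩
      have h5 : a / K x ≤ m' x := by rw [div_le_iff₀ hKx]; exact hx hx0
      refine le_trans ?_ h5
      exact div_le_div_of_nonneg_left ha0.le hKx (h.K_anti ht.1 hxs.1 hx0.2)
    rw [intervalIntegral.integral_const, smul_eq_mul] at h4
    linarith
  rwa [div_le_iff₀ hK] at h3

/-- essential convergence of `m' K` gives convergence of `Y`. -/
theorem tendsto_of_ae (h : Tip t0 D K m) {m' : ℝ → ℝ} {y : ℝ} (hy0 : 0 ≤ y)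
    (hint : ∀ s t, t0 ≤ s → s ≤ t → t < 1 → IntervalIntegrable m' volume s t ∧
      D s - D t = ∫ x in s..t, m' x)
    (hy : ∀ ε > 0, ∃ t1 < 1, ∀ᵐ x ∂(volume : Measure ℝ), x ∈ Ioo t1 1 →
      |m' x * K x - y| ≤ ε) :
    Tendsto (fun t => m t * K t) (𝓝[<] 1) (𝓝 y) := by
  rw [Metric.tendsto_nhds]
  intro ε hε
  obtain ⟨t1, ht1, hx⟩ := hy (ε / 2) (by positivity)
  set t2 := max t0 t1 with ht2
  have h0 : t0 ≤ t2 := le_max_left _ _
  have h1 : t2 < 1 := max_lt h.lt ht1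
  have h2 := h.mono h0 h1
  have hint' : ∀ s t, t2 ≤ s → s ≤ t → t < 1 → IntervalIntegrable m' volume s t ∧
      D s - D t = ∫ x in s..t, m' x := fun s t hs => hint s t (h0.trans hs)
  filter_upwards [Ico_mem_nhdsLT h1] with t ht
  have h3 := h2.Y_le_of_ae (b := y + ε / 2) (by positivity) hint' (by
    filter_upwards [hx] with x hx hxm
    have := (abs_le.1 (hx ⟨(le_max_right _ _).trans_lt hxm.1, hxm.2⟩)).2
    linarith) ht
  have h4 := h2.le_Y_of_ae (a := y - ε / 2) hint' (by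
    filter_upwards [hx] with x hx hxm
    have := (abs_le.1 (hx ⟨(le_max_right _ _).trans_lt hxm.1, hxm.2⟩)).1
    linarith) ht
  rw [Real.dist_eq, abs_lt]
  constructor <;> linarith

/-- The data of a concave nonincreasing profile. -/
theorem of_concave {D : ℝ → ℝ} (hc : ConcaveOn ℝ (Icc 0 1) D) (ha : AntitoneOn D (Icc 0 1))
    (hcont : ContinuousOn D (Icc 0 1)) (hpos : ∀ t ∈ Ico (0 : ℝ) 1, 0 < D t)
    (hint : IntervalIntegrable (fun t => 1 / D t) volume 0 1) {t0 : ℝ} (h0 : 0 < t0)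
    (h1 : t0 < 1) :
    Tip t0 D (fun t => ∫ x in t..1, 1 / D x) (fun t => -derivWithin D (Ioi t) t) := by
  have hder : ∀ t ∈ Ico t0 1, HasDerivWithinAt D (derivWithin D (Ioi t) t) (Ioi t) t := by
    intro t ht
    have hn := hc.neg
    have hin : t ∈ interior (Icc (0 : ℝ) 1) := by
      rw [interior_Icc]; exact ⟨h0.trans_le ht.1, ht.2⟩
    have hd := (hn.differentiableWithinAt_Ioi_of_mem_interior hin).neg
    simp only [neg_neg] at hd
    exact hd.hasDerivWithinAt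
  have hsub : ∀ t ∈ Ico t0 1, uIcc t 1 ⊆ uIcc (0 : ℝ) 1 := by
    intro t ht
    rw [uIcc_of_le ht.2.le, uIcc_of_le zero_le_one]
    exact Icc_subset_Icc_left (h0.le.trans ht.1)
  have hintt : ∀ t ∈ Ico t0 1, IntervalIntegrable (fun t => 1 / D t) volume t 1 :=
    fun t ht => hint.mono_set (hsub t ht)
  have hintc : ContinuousOn (fun t => ∫ x in t..1, 1 / D x) (Icc 0 1) := by
    have h2 := intervalIntegral.continuousOn_primitive_interval_left
      (μ := (volume : Measure ℝ)) (f := fun x => 1 / D x) (a := 0) (b := 1)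
      ((intervalIntegrable_iff_integrableOn_Icc_of_le zero_le_one).1 hint |>.mono_set
        (by rw [uIcc_of_le zero_le_one]))
    rwa [uIcc_of_le zero_le_one] at h2
  refine ⟨h1, ?_, ?_, ?_, ?_, ?_, ?_, ?_, ?_⟩
  · intro t ht
    have h2 := (hasDerivWithinAt_iff_tendsto_slope' (by simp)).1 (hder t ht)
    have h3 : derivWithin D (Ioi t) t ≤ 0 := by
      refine le_of_tendsto h2 ?_
      filter_upwards [Ioo_mem_nhdsGT ht.2] with s hs
      rw [slope_def_field]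
      refine div_nonpos_of_nonpos_of_nonneg ?_ (sub_pos.2 hs.1).le
      have := ha ⟨h0.le.trans ht.1, ht.2.le⟩ ⟨h0.le.trans (ht.1.trans hs.1.le), hs.2.le⟩ hs.1.le
      linarith
    linarith
  · exact fun t ht => hpos t ⟨h0.le.trans ht.1, ht.2⟩
  · intro t ht
    exact intervalIntegral.intervalIntegral_pos_of_pos_on (hintt t ht)
      (fun x hx => one_div_pos.2 (hpos x ⟨h0.le.trans (ht.1.trans hx.1.le), hx.2⟩)) ht.2
  · exact hcont.mono fun t ht => ⟨h0.le.trans ht.1, ht.2.le⟩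
  · exact hintc.mono fun t ht => ⟨h0.le.trans ht.1, ht.2.le⟩
  · intro t ht
    rw [neg_neg]
    exact (hder t ht).Ici_of_Ioi
  · intro t ht
    have hnh : Ioo (0 : ℝ) 1 ∈ 𝓝 t := Ioo_mem_nhds (h0.trans_le ht.1) ht.2
    have hcd : ContinuousOn (fun x => 1 / D x) (Ioo 0 1) :=
      continuousOn_const.div (hcont.mono Ioo_subset_Icc_self)
        fun x hx => (hpos x ⟨hx.1.le, hx.2⟩).ne'
    have h2 := intervalIntegral.integral_hasDerivAt_left (hintt t ht)
      (hcd.stronglyMeasurableAtFilter isOpen_Ioo t ⟨h0.trans_le ht.1, ht.2⟩)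
      (hcd.continuousAt hnh)
    exact h2.hasDerivWithinAt
  · have h2 := hintc 1 (right_mem_Icc.2 zero_le_one)
    have h3 : Tendsto (fun t => ∫ x in t..1, 1 / D x) (𝓝[<] 1) (𝓝 (∫ x in (1:ℝ)..1, 1 / D x)) := by
      refine h2.tendsto.mono_left ?_
      rw [← nhdsWithin_Ioo_eq_nhdsLT (show (0:ℝ) < 1 by norm_num)]
      exact nhdsWithin_mono _ Ioo_subset_Icc_self
    simpa using h3

/-- the right slope `m = -D'` of a concave profile is nondecreasing. -/
theorem of_concave_monotoneOn {D : ℝ → ℝ} (hc : ConcaveOn ℝ (Icc 0 1) D) {t0 : ℝ} (h0 : 0 < t0) :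
    MonotoneOn (fun t => -derivWithin D (Ioi t) t) (Ico t0 1) := by
  have h1 := hc.neg.monotoneOn_rightDeriv
  intro s hs t ht hst
  have hin : ∀ x ∈ Ico t0 1, x ∈ interior (Icc (0 : ℝ) 1) := by
    intro x hx
    rw [interior_Icc]; exact ⟨h0.trans_le hx.1, hx.2⟩
  have h2 := h1 (hin s hs) (hin t ht) hst
  have h3 : ∀ x, derivWithin (-D) (Ioi x) x = -derivWithin D (Ioi x) x := by
    intro x
    exact derivWithin.neg
  simp only [h3] at h2
  exact h2

end Tip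

end Crest.Agent.R146.YtoD_460
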